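import Crest.Agent.R097.KS3
import Crest.Agent.R097.T5Ypm

/-!
# Row 97, box cover in dimension n = 5 (generated)
-/

set_option autoImplicit false
set_option Elab.async false
set_option maxHeartbeats 0
set_option maxRecDepth 100000

open Crest.Agent.R097 Crest.Agent.R097.KA


namespace Crest.Agent.R097C5.N5pm

theorem L00876 : Good (Phi V5.P V5.D 1 (-1)) ⟨4, 3, 3, 3, 1, 0, 3, 7, 4, 7⟩ :=
  leafYS_sound T5.ok_pm T5.Ypm.bz_eq (w := 200) (c := ⟨⟨.negSucc 911, .negSucc 53, .negSucc 0, .negSucc 379, .negSucc 90, .negSucc 5⟩, ⟨.ofNat 350, .ofNat 8, .ofNat 132, .ofNat 174, .ofNat 50, .ofNat 5⟩, ⟨.ofNat 390, .ofNat 58, .ofNat 70, .ofNat 915, .negSucc 126, .negSucc 76⟩, ⟨.negSucc 2627, .negSucc 40, .negSucc 12, .negSucc 1095, .negSucc 209, .ofNat 0⟩, ⟨.negSucc 18, .negSucc 17, .negSucc 17, .negSucc 70, .ofNat 104, .ofNat 32⟩, .ofNat 1072, .ofNat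 992, .ofNat 0, .ofNat 992, .ofNat 2399, .ofNat 0, .ofNat 128, .negSucc 172, .negSucc 64, .ofNat 0, .ofNat 164, .ofNat 21, .ofNat 0, .ofNat 0, .ofNat 826, .ofNat 3742, .ofNat 0, .ofNat 136386617098204456299083175724977225728, .ofNat 0, .ofNat 0, .ofNat 0, .ofNat 2147336628328555913093921032178413600768, .ofNat 0, .ofNat 0, .ofNat 0, .ofNat 3314863230088034141868507710584550064128, .ofNat 0, .ofNat 0, .ofNat 0, .ofNat 5886310609854114097468081821647070298112, .ofNat 0, .ofNat 0⟩)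
    (by decide +kernel)
theorem L00877 : Good (Phi V5.P V5.D 1 (-1)) ⟨4, 3, 3, 3, 1, 0, 1, 1, 1, 1⟩ :=
  leafYS_sound T5.ok_pm T5.Ypm.bz_eq (w := 186) (c := ⟨⟨.negSucc 1016, .negSucc 45, .ofNat 0, .ofNat 1, .negSucc 0, .ofNat 1⟩, ⟨.ofNat 407, .ofNat 8, .ofNat 122, .ofNat 0, .ofNat 0, .ofNat 0⟩, ⟨.ofNat 320, .ofNat 46, .ofNat 0, .ofNat 0, .ofNat 0, .ofNat 0⟩, ⟨.negSucc 2907, .negSucc 19, .ofNat 0, .ofNat 1, .negSucc 0, .ofNat 1⟩, ⟨.ofNat 0, .ofNat 0, .ofNat 0, .ofNat 0, .ofNat 0, .ofNat 0⟩, .ofNat 192, .ofNat 27, .ofNat 0, .ofNat 27, .ofNat 228, .ofNat 0, .ofNat 142, .negSucc 26, .negSucc 105, .ofNat 0, .ofNat 128, .ofNat 18, .ofNat 0, .ofNat 0, .ofNat 304, .ofNat 8689, .ofNat 74868663820417924551966066946867200000000, .ofNat 2879617613283851685352214447980044877824, .ofNat 0, .ofNat 0, .ofNat 4791594484506747171325828284599500800000000,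 .ofNat 189142412747589885797071938437049946734592, .ofNat 0, .ofNat 0, .ofNat 4791594484506747171325828284599500800000000, .ofNat 226018844952516904130228997678613366046720, .ofNat 0, .ofNat 0, .ofNat 4791594484506747171325828284599500800000000, .ofNat 189142389651312862288789300517491720585216, .ofNat 0, .ofNat 0⟩)
    (by decide +kernel)
theorem L00878 : Good (Phi V5.P V5.D 1 (-1)) ⟨2, 0, 2, 1, 2, 2, 2, 0, 4, 0⟩ :=
  leafYS_sound T5.ok_pm T5.Ypm.bz_eq (w := 197) (c := ⟨⟨.ofNat 1116, .ofNat 17, .ofNat 40, .ofNat 42, .negSucc 9, .negSucc 1107⟩, ⟨.negSucc 442, .ofNat 17, .negSucc 132, .ofNat 137, .ofNat 34, .ofNat 373⟩, ⟨.negSucc 779, .negSucc 310, .negSucc 108, .negSucc 169, .ofNat 127, .ofNat 163⟩, ⟨.ofNat 3086, .ofNat 49, .ofNat 294, .ofNat 854, .ofNat 190, .negSucc 3701⟩, ⟨.negSucc 719, .ofNat 436, .ofNat 317, .ofNat 1663, .ofNat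 536, .negSucc 926⟩, .ofNat 425, .ofNat 128, .ofNat 0, .ofNat 128, .ofNat 610, .ofNat 0, .ofNat 170, .negSucc 91, .negSucc 104, .ofNat 0, .ofNat 128, .ofNat 57, .ofNat 0, .ofNat 0, .ofNat 347, .ofNat 1388, .ofNat 0, .ofNat 0, .ofNat 0, .ofNat 0, .ofNat 0, .ofNat 0, .ofNat 0, .ofNat 0, .ofNat 1463550523338803856081080321800715370496, .ofNat 0, .ofNat 0, .ofNat 0, .ofNat 0, .ofNat 0, .ofNat 0, .ofNat 0⟩)
    (by decide +kernel)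
theorem L00879 : Good (Phi V5.P V5.D 1 (-1)) ⟨2, 0, 2, 1, 2, 2, 3, 0, 4, 1⟩ :=
  leafYS_sound T5.ok_pm T5.Ypm.bz_eq (w := 201) (c := ⟨⟨.negSucc 10, .negSucc 137, .ofNat 13, .negSucc 30, .ofNat 114, .negSucc 988⟩, ⟨.negSucc 206, .ofNat 112, .ofNat 174, .ofNat 97, .negSucc 28, .ofNat 395⟩, ⟨.negSucc 416, .negSucc 204, .negSucc 76, .negSucc 625, .ofNat 144, .ofNat 572⟩, ⟨.negSucc 617, .negSucc 105, .ofNat 162, .ofNat 429, .ofNat 348, .negSucc 2904⟩, ⟨.negSucc 1283, .ofNat 391, .ofNat 431, .ofNat 1037, .ofNat 147, .negSucc 158⟩, .ofNat 691, .ofNat 380, .ofNat 0, .ofNat 380, .ofNat 1249, .ofNat 0, .ofNat 128, .negSucc 152, .negSucc 28, .ofNat 0, .ofNat 157, .ofNat 17, .ofNat 0, .ofNat 0, .ofNat 137, .ofNat 3461, .ofNat 7931675408533927280906520512210801786880, .ofNat 0, .ofNat 0, .ofNat 0, .ofNat 0, .ofNat 0, .ofNat 0, .ofNat 0, .ofNat 0,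 .ofNat 0, .ofNat 0, .ofNat 0, .ofNat 0, .ofNat 0, .ofNat 0, .ofNat 0⟩)
    (by decide +kernel)
theorem L00880 : Good (Phi V5.P V5.D 1 (-1)) ⟨2, 0, 2, 1, 2, 2, 3, 1, 4, 1⟩ :=
  leafYS_sound T5.ok_pm T5.Ypm.bz_eq (w := 201) (c := ⟨⟨.negSucc 8, .negSucc 111, .ofNat 62, .ofNat 56, .ofNat 53, .negSucc 978⟩, ⟨.negSucc 160, .ofNat 82, .ofNat 137, .ofNat 44, .negSucc 16, .ofNat 393⟩, ⟨.negSucc 504, .negSucc 81, .negSucc 43, .negSucc 457, .ofNat 182, .ofNat 672⟩, ⟨.negSucc 468, .ofNat 12, .ofNat 239, .ofNat 549, .ofNat 264, .negSucc 2983⟩, ⟨.negSucc 952, .ofNat 433, .ofNat 207, .ofNat 887, .ofNat 185, .negSucc 249⟩, .ofNat 424, .ofNat 129, .ofNat 0, .ofNat 129, .ofNat 614, .ofNat 0, .ofNat 180, .negSucc 89, .negSucc 65, .ofNat 0, .ofNat 128, .ofNat 36, .ofNat 0, .ofNat 0, .ofNat 193, .ofNat 2268, .ofNat 0, .ofNat 0, .ofNat 0, .ofNat 0, .ofNat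 0, .ofNat 0, .ofNat 0, .ofNat 0, .ofNat 0, .ofNat 0, .ofNat 0, .ofNat 0, .ofNat 0, .ofNat 0, .ofNat 0, .ofNat 0⟩)
    (by decide +kernel)
theorem L00881 : Good (Phi V5.P V5.D 1 (-1)) ⟨2, 0, 2, 1, 3, 6, 5, 0, 3, 0⟩ :=
  leafYS_sound T5.ok_pm T5.Ypm.bz_eq (w := 219) (c := ⟨⟨.ofNat 1170, .negSucc 183, .negSucc 65, .negSucc 223, .ofNat 37, .negSucc 2123⟩, ⟨.negSucc 439, .ofNat 102, .ofNat 70, .ofNat 330, .ofNat 36, .ofNat 721⟩, ⟨.negSucc 1076, .negSucc 295, .negSucc 64, .ofNat 334, .ofNat 152, .ofNat 306⟩, ⟨.ofNat 3546, .negSucc 59, .ofNat 593, .ofNat 265, .ofNat 64, .negSucc 6934⟩, ⟨.ofNat 585, .ofNat 1136, .ofNat 996, .ofNat 2369, .negSucc 6, .negSucc 1760⟩, .ofNat 427, .ofNat 129, .ofNat 0, .ofNat 129, .ofNat 607, .ofNat 0, .ofNat 132, .negSucc 107, .negSucc 101, .ofNat 0, .ofNat 128, .ofNat 46, .ofNat 0, .ofNat 0, .ofNat 323, .ofNat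 7085, .ofNat 601786058959560401383737761755418227820724224, .ofNat 0, .ofNat 0, .ofNat 0, .ofNat 0, .ofNat 0, .ofNat 0, .ofNat 0, .ofNat 2021805698575858658334739492434805462822551552, .ofNat 0, .ofNat 0, .ofNat 0, .ofNat 0, .ofNat 0, .ofNat 0, .ofNat 0⟩)
    (by decide +kernel)
theorem L00882 : Good (Phi V5.P V5.D 1 (-1)) ⟨2, 0, 2, 1, 3, 6, 5, 1, 3, 0⟩ :=
  leafYS_sound T5.ok_pm T5.Ypm.bz_eq (w := 219) (c := ⟨⟨.ofNat 1161, .negSucc 164, .negSucc 25, .negSucc 189, .ofNat 18, .negSucc 2087⟩, ⟨.negSucc 310, .ofNat 174, .ofNat 31, .ofNat 200, .ofNat 24, .ofNat 605⟩, ⟨.negSucc 907, .negSucc 474, .negSucc 57, .ofNat 254, .ofNat 101, .ofNat 396⟩, ⟨.ofNat 3644, .negSucc 142, .ofNat 636, .ofNat 274, .negSucc 29, .negSucc 6778⟩, ⟨.ofNat 989, .ofNat 922, .ofNat 852, .ofNat 2074, .negSucc 60, .negSucc 1905⟩, .ofNat 698, .ofNat 379, .ofNat 0, .ofNat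 379, .ofNat 1229, .ofNat 0, .ofNat 157, .negSucc 127, .negSucc 86, .ofNat 0, .ofNat 128, .ofNat 41, .ofNat 0, .ofNat 0, .ofNat 334, .ofNat 5191, .ofNat 0, .ofNat 0, .ofNat 0, .ofNat 0, .ofNat 0, .ofNat 0, .ofNat 0, .ofNat 0, .ofNat 0, .ofNat 0, .ofNat 0, .ofNat 0, .ofNat 0, .ofNat 0, .ofNat 0, .ofNat 0⟩)
    (by decide +kernel)
theorem L00883 : Good (Phi V5.P V5.D 1 (-1)) ⟨2, 0, 2, 1, 3, 6, 4, 1, 3, 0⟩ :=
  leafYS_sound T5.ok_pm T5.Ypm.bz_eq (w := 215) (c := ⟨⟨.ofNat 1196, .negSucc 183, .negSucc 18, .negSucc 218, .ofNat 44, .negSucc 2062⟩, ⟨.negSucc 280, .ofNat 111, .ofNat 18, .ofNat 220, .negSucc 44, .ofNat 617⟩, ⟨.negSucc 922, .negSucc 313, .negSucc 18, .ofNat 196, .ofNat 106, .ofNat 479⟩, ⟨.ofNat 3678, .negSucc 90, .ofNat 626, .ofNat 85, .ofNat 69, .negSucc 6654⟩, ⟨.ofNat 1083, .ofNat 915, .ofNat 770, .ofNat 1790, .negSucc 178, .negSucc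 1808⟩, .ofNat 698, .ofNat 379, .ofNat 0, .ofNat 379, .ofNat 1229, .ofNat 0, .ofNat 171, .negSucc 125, .negSucc 147, .ofNat 0, .ofNat 128, .ofNat 72, .ofNat 0, .ofNat 0, .ofNat 518, .ofNat 3287, .ofNat 0, .ofNat 0, .ofNat 0, .ofNat 0, .ofNat 0, .ofNat 0, .ofNat 0, .ofNat 0, .ofNat 0, .ofNat 0, .ofNat 0, .ofNat 0, .ofNat 0, .ofNat 0, .ofNat 0, .ofNat 0⟩)
    (by decide +kernel)
theorem L00884 : Good (Phi V5.P V5.D 1 (-1)) ⟨2, 0, 2, 1, 3, 7, 3, 0, 4, 0⟩ :=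
  leafYS_sound T5.ok_pm T5.Ypm.bz_eq (w := 215) (c := ⟨⟨.ofNat 668, .negSucc 146, .negSucc 132, .negSucc 671, .ofNat 285, .negSucc 652⟩, ⟨.ofNat 133, .ofNat 89, .negSucc 68, .ofNat 322, .negSucc 197, .ofNat 293⟩, ⟨.negSucc 201, .negSucc 349, .ofNat 136, .ofNat 813, .negSucc 36, .negSucc 794⟩, ⟨.ofNat 2257, .ofNat 295, .ofNat 820, .negSucc 1400, .ofNat 293, .negSucc 1321⟩, ⟨.ofNat 2522, .ofNat 1321, .ofNat 788, .ofNat 852, .negSucc 1078, .ofNat 806⟩, .ofNat 1069, .ofNat 917, .ofNat 0, .ofNat 917, .ofNat 2425, .ofNat 0, .ofNat 128, .negSucc 161, .negSucc 82, .ofNat 0, .ofNat 141, .ofNat 16, .ofNat 0, .ofNat 0, .ofNat 304, .ofNat 1386, .ofNat 0, .ofNat 0, .ofNat 0, .ofNat 0, .ofNat 0, .ofNat 0, .ofNat 0, .ofNat 0, .ofNat 0, .ofNat 0, .ofNat 0, .ofNat 0, .ofNat 0, .ofNat 0, .ofNat 0, .ofNat 0⟩)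
    (by decide +kernel)
theorem L00885 : Good (Phi V5.P V5.D 1 (-1)) ⟨2, 0, 2, 1, 4, 14, 3, 0, 4, 1⟩ :=
  leafYS_sound T5.ok_pm T5.Ypm.bz_eq (w := 230) (c := ⟨⟨.negSucc 89, .negSucc 292, .negSucc 91, .negSucc 202, .ofNat 211, .negSucc 977⟩, ⟨.ofNat 202, .ofNat 210, .ofNat 177, .ofNat 192, .negSucc 192, .ofNat 328⟩, ⟨.negSucc 798, .negSucc 327, .negSucc 96, .ofNat 157, .ofNat 205, .ofNat 501⟩, ⟨.ofNat 68, .negSucc 20, .ofNat 1069, .ofNat 69, .negSucc 51, .negSucc 2908⟩, ⟨.ofNat 1922, .ofNat 1419, .ofNat 1541, .ofNat 1355, .negSucc 1337, .negSucc 482⟩, .ofNat 823, .ofNat 539, .ofNat 0, .ofNat 539, .ofNat 1620, .ofNat 0, .ofNat 128, .negSucc 235, .negSucc 108, .ofNat 0, .ofNat 233, .ofNat 36, .ofNat 0, .ofNat 0, .ofNat 375, .ofNat 4955, .ofNat 0, .ofNat 0, .ofNat 0, .ofNat 0, .ofNat 0, .ofNat 0, .ofNat 0, .ofNat 0, .ofNat 0, .ofNat 0, .ofNat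 0, .ofNat 0, .ofNat 960331666936834929722160983211010425234250530816, .ofNat 0, .ofNat 0, .ofNat 0⟩)
    (by decide +kernel)
theorem L00886 : Good (Phi V5.P V5.D 1 (-1)) ⟨2, 0, 2, 1, 4, 15, 3, 0, 4, 1⟩ :=
  leafYS_sound T5.ok_pm T5.Ypm.bz_eq (w := 229) (c := ⟨⟨.negSucc 389, .negSucc 246, .negSucc 221, .negSucc 247, .ofNat 271, .negSucc 755⟩, ⟨.ofNat 447, .ofNat 144, .ofNat 316, .ofNat 222, .negSucc 266, .ofNat 243⟩, ⟨.negSucc 520, .negSucc 219, .negSucc 224, .negSucc 13, .ofNat 247, .ofNat 270⟩, ⟨.negSucc 519, .negSucc 20, .ofNat 1093, .ofNat 113, .negSucc 148, .negSucc 1982⟩, ⟨.ofNat 3050, .ofNat 1160, .ofNat 2004, .ofNat 1627, .negSucc 1994, .ofNat 13⟩, .ofNat 1166, .ofNat 1048, .ofNat 0, .ofNat 1048, .ofNat 2633, .ofNat 0, .ofNat 128, .negSucc 127, .negSucc 55, .ofNat 0, .ofNat 116, .ofNat 7, .ofNat 0, .ofNat 0, .ofNat 219, .ofNat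 1325, .ofNat 0, .ofNat 0, .ofNat 0, .ofNat 0, .ofNat 0, .ofNat 0, .ofNat 0, .ofNat 0, .ofNat 0, .ofNat 0, .ofNat 0, .ofNat 0, .ofNat 0, .ofNat 0, .ofNat 0, .ofNat 0⟩)
    (by decide +kernel)
theorem L00887 : Good (Phi V5.P V5.D 1 (-1)) ⟨2, 0, 2, 1, 2, 3, 3, 1, 4, 0⟩ :=
  leafYS_sound T5.ok_pm T5.Ypm.bz_eq (w := 201) (c := ⟨⟨.ofNat 1160, .negSucc 72, .negSucc 33, .negSucc 821, .ofNat 93, .negSucc 695⟩, ⟨.negSucc 134, .ofNat 12, .negSucc 168, .ofNat 458, .negSucc 102, .ofNat 184⟩, ⟨.negSucc 823, .negSucc 287, .ofNat 69, .ofNat 1109, .ofNat 36, .negSucc 326⟩, ⟨.ofNat 3466, .ofNat 74, .ofNat 848, .negSucc 1829, .ofNat 45, .negSucc 1867⟩, ⟨.ofNat 1320, .ofNat 690, .ofNat 782, .ofNat 1279, .negSucc 547, .negSucc 150⟩, .ofNat 1085, .ofNat 942, .ofNat 0, .ofNat 942, .ofNat 2453, .ofNat 0, .ofNat 197, .negSucc 127, .negSucc 111, .ofNat 0, .ofNat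 112, .ofNat 44, .ofNat 0, .ofNat 0, .ofNat 368, .ofNat 578, .ofNat 0, .ofNat 0, .ofNat 0, .ofNat 0, .ofNat 0, .ofNat 0, .ofNat 0, .ofNat 0, .ofNat 0, .ofNat 0, .ofNat 0, .ofNat 0, .ofNat 0, .ofNat 0, .ofNat 0, .ofNat 0⟩)
    (by decide +kernel)
theorem L00888 : Good (Phi V5.P V5.D 1 (-1)) ⟨2, 0, 2, 1, 2, 3, 3, 1, 4, 1⟩ :=
  leafYS_sound T5.ok_pm T5.Ypm.bz_eq (w := 200) (c := ⟨⟨.ofNat 203, .negSucc 205, .negSucc 8, .negSucc 426, .ofNat 168, .negSucc 1046⟩, ⟨.negSucc 71, .ofNat 114, .ofNat 108, .ofNat 435, .negSucc 161, .ofNat 376⟩, ⟨.negSucc 835, .negSucc 181, .negSucc 21, .ofNat 378, .ofNat 145, .ofNat 502⟩, ⟨.ofNat 300, .negSucc 52, .ofNat 772, .negSucc 27, .ofNat 148, .negSucc 3226⟩, ⟨.ofNat 65, .ofNat 846, .ofNat 860, .ofNat 2964, .negSucc 794, .negSucc 550⟩, .ofNat 689, .ofNat 372, .ofNat 0, .ofNat 372, .ofNat 1240, .ofNat 0, .ofNat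 128, .negSucc 124, .negSucc 75, .ofNat 0, .ofNat 132, .ofNat 27, .ofNat 0, .ofNat 0, .ofNat 223, .ofNat 352, .ofNat 0, .ofNat 0, .ofNat 0, .ofNat 0, .ofNat 0, .ofNat 0, .ofNat 0, .ofNat 0, .ofNat 0, .ofNat 0, .ofNat 0, .ofNat 0, .ofNat 0, .ofNat 0, .ofNat 0, .ofNat 0⟩)
    (by decide +kernel)
theorem L00889 : Good (Phi V5.P V5.D 1 (-1)) ⟨2, 0, 2, 1, 2, 2, 4, 0, 4, 2⟩ :=
  leafYS_sound T5.ok_pm T5.Ypm.bz_eq (w := 208) (c := ⟨⟨.negSucc 995, .negSucc 169, .negSucc 40, .negSucc 92, .ofNat 128, .negSucc 364⟩, ⟨.ofNat 86, .ofNat 147, .ofNat 343, .ofNat 117, .negSucc 28, .ofNat 129⟩, ⟨.ofNat 68, .negSucc 102, .negSucc 32, .negSucc 563, .ofNat 82, .ofNat 591⟩, ⟨.negSucc 3261, .ofNat 4, .negSucc 85, .ofNat 101, .ofNat 96, .negSucc 1050⟩, ⟨.negSucc 1102, .ofNat 485, .ofNat 230, .ofNat 885, .negSucc 126, .negSucc 99⟩, .ofNat 828, .ofNat 549, .ofNat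 0, .ofNat 549, .ofNat 1632, .ofNat 0, .ofNat 128, .negSucc 148, .negSucc 37, .ofNat 0, .ofNat 148, .ofNat 23, .ofNat 0, .ofNat 0, .ofNat 215, .ofNat 26024, .ofNat 328030531196119270316960796902005346926592, .ofNat 0, .ofNat 0, .ofNat 0, .ofNat 753632547824686926256315200715797620064256, .ofNat 0, .ofNat 0, .ofNat 0, .ofNat 0, .ofNat 0, .ofNat 0, .ofNat 0, .ofNat 372341710119616190659585471145400739037184, .ofNat 0, .ofNat 0, .ofNat 0⟩)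
    (by decide +kernel)
theorem L00890 : Good (Phi V5.P V5.D 1 (-1)) ⟨2, 0, 2, 1, 2, 2, 4, 1, 4, 2⟩ :=
  leafYS_sound T5.ok_pm T5.Ypm.bz_eq (w := 207) (c := ⟨⟨.negSucc 895, .negSucc 157, .negSucc 14, .negSucc 103, .ofNat 51, .negSucc 329⟩, ⟨.ofNat 78, .ofNat 126, .ofNat 332, .ofNat 104, .negSucc 9, .ofNat 126⟩, ⟨.ofNat 85, .negSucc 76, .negSucc 20, .negSucc 466, .ofNat 98, .ofNat 499⟩, ⟨.negSucc 3116, .negSucc 2, .negSucc 51, .negSucc 27, .ofNat 141, .negSucc 974⟩, ⟨.negSucc 1073, .ofNat 427, .ofNat 205, .ofNat 660, .ofNat 76, .negSucc 65⟩, .ofNat 694, .ofNat 381, .ofNat 0, .ofNat 381, .ofNat 1244, .ofNat 0, .ofNat 148, .negSucc 114, .negSucc 30, .ofNat 0, .ofNat 128, .ofNat 19, .ofNat 0, .ofNat 0, .ofNat 170, .ofNat 8938, .ofNat 0, .ofNat 0, .ofNat 0, .ofNat 0, .ofNat 0, .ofNat 0, .ofNat 0, .ofNat 0, .ofNat 0, .ofNat 0, .ofNat 0, .ofNat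 0, .ofNat 39182651103265691102855948339919066234880, .ofNat 0, .ofNat 0, .ofNat 0⟩)
    (by decide +kernel)
theorem L00891 : Good (Phi V5.P V5.D 1 (-1)) ⟨2, 0, 2, 1, 2, 2, 3, 1, 4, 2⟩ :=
  leafYS_sound T5.ok_pm T5.Ypm.bz_eq (w := 202) (c := ⟨⟨.negSucc 858, .negSucc 179, .ofNat 4, .negSucc 88, .ofNat 40, .negSucc 329⟩, ⟨.ofNat 79, .ofNat 124, .ofNat 326, .ofNat 75, .ofNat 1, .ofNat 127⟩, ⟨.ofNat 91, .ofNat 22, .negSucc 38, .negSucc 368, .ofNat 169, .ofNat 470⟩, ⟨.negSucc 2923, .negSucc 64, .negSucc 18, .negSucc 68, .ofNat 128, .negSucc 996⟩, ⟨.negSucc 867, .ofNat 390, .ofNat 159, .ofNat 460, .ofNat 106, .negSucc 82⟩, .ofNat 690, .ofNat 370, .ofNat 0, .ofNat 370, .ofNat 1233, .ofNat 0, .ofNat 180, .negSucc 110, .negSucc 39, .ofNat 0, .ofNat 128, .ofNat 22, .ofNat 0, .ofNat 0, .ofNat 187, .ofNat 3013, .ofNat 0, .ofNat 0, .ofNat 0, .ofNat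 0, .ofNat 0, .ofNat 0, .ofNat 0, .ofNat 0, .ofNat 0, .ofNat 0, .ofNat 0, .ofNat 0, .ofNat 0, .ofNat 0, .ofNat 0, .ofNat 0⟩)
    (by decide +kernel)
theorem L00892 : Good (Phi V5.P V5.D 1 (-1)) ⟨2, 0, 2, 1, 3, 6, 5, 0, 5, 4⟩ :=
  leafYS_sound T5.ok_pm T5.Ypm.bz_eq (w := 233) (c := ⟨⟨.negSucc 972, .negSucc 282, .negSucc 159, .negSucc 73, .ofNat 74, .negSucc 249⟩, ⟨.ofNat 186, .ofNat 212, .ofNat 389, .ofNat 212, .negSucc 39, .ofNat 64⟩, ⟨.negSucc 433, .negSucc 251, .negSucc 92, .ofNat 137, .ofNat 79, .ofNat 310⟩, ⟨.negSucc 3040, .negSucc 49, .ofNat 236, .ofNat 378, .negSucc 182, .negSucc 627⟩, ⟨.negSucc 281, .ofNat 1114, .ofNat 982, .ofNat 1717, .negSucc 537, .negSucc 123⟩, .ofNat 825, .ofNat 546, .ofNat 0, .ofNat 546, .ofNat 1630, .ofNat 0, .ofNat 128, .negSucc 133, .negSucc 39, .ofNat 0, .ofNat 134, .ofNat 20, .ofNat 0, .ofNat 0, .ofNat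 182, .ofNat 73222, .ofNat 434042796115788034906476801118486469687027695616, .ofNat 0, .ofNat 0, .ofNat 0, .ofNat 0, .ofNat 0, .ofNat 0, .ofNat 0, .ofNat 90756134625453422405612364667455327809254195200, .ofNat 0, .ofNat 0, .ofNat 0, .ofNat 79232406496151539913325502624145637006146273280, .ofNat 0, .ofNat 0, .ofNat 0⟩)
    (by decide +kernel)
theorem L00893 : Good (Phi V5.P V5.D 1 (-1)) ⟨2, 0, 2, 1, 3, 6, 5, 1, 5, 4⟩ :=
  leafYS_sound T5.ok_pm T5.Ypm.bz_eq (w := 232) (c := ⟨⟨.negSucc 884, .negSucc 291, .negSucc 151, .negSucc 109, .ofNat 41, .negSucc 236⟩, ⟨.ofNat 160, .ofNat 207, .ofNat 387, .ofNat 208, .negSucc 26, .ofNat 59⟩, ⟨.negSucc 373, .negSucc 190, .negSucc 69, .ofNat 108, .ofNat 54, .ofNat 317⟩, ⟨.negSucc 3241, .negSucc 13, .ofNat 226, .ofNat 495, .ofNat 66, .negSucc 770⟩, ⟨.negSucc 848, .ofNat 1151, .ofNat 946, .ofNat 1902, .negSucc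 84, .negSucc 294⟩, .ofNat 693, .ofNat 379, .ofNat 0, .ofNat 379, .ofNat 1244, .ofNat 0, .ofNat 128, .negSucc 159, .negSucc 55, .ofNat 0, .ofNat 172, .ofNat 29, .ofNat 0, .ofNat 0, .ofNat 242, .ofNat 33882, .ofNat 80346543497787237108628246878179587528683683840, .ofNat 0, .ofNat 0, .ofNat 0, .ofNat 0, .ofNat 0, .ofNat 0, .ofNat 0, .ofNat 0, .ofNat 0, .ofNat 0, .ofNat 0, .ofNat 0, .ofNat 0, .ofNat 0, .ofNat 0⟩)
    (by decide +kernel)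
theorem L00894 : Good (Phi V5.P V5.D 1 (-1)) ⟨2, 0, 2, 1, 3, 6, 4, 1, 5, 4⟩ :=
  leafYS_sound T5.ok_pm T5.Ypm.bz_eq (w := 226) (c := ⟨⟨.negSucc 878, .negSucc 290, .negSucc 90, .negSucc 76, .ofNat 59, .negSucc 246⟩, ⟨.ofNat 177, .ofNat 203, .ofNat 332, .ofNat 168, .negSucc 47, .ofNat 69⟩, ⟨.negSucc 359, .negSucc 119, .negSucc 47, .ofNat 83, .ofNat 112, .ofNat 316⟩, ⟨.negSucc 2952, .negSucc 194, .ofNat 245, .ofNat 433, .ofNat 81, .negSucc 892⟩, ⟨.negSucc 500, .ofNat 909, .ofNat 738, .ofNat 1588, .negSucc 192, .negSucc 330⟩, .ofNat 692, .ofNat 374, .ofNat 0, .ofNat 374, .ofNat 1235, .ofNat 0, .ofNat 128, .negSucc 150, .negSucc 57, .ofNat 0, .ofNat 165, .ofNat 30, .ofNat 0, .ofNat 0, .ofNat 227, .ofNat 11228, .ofNat 0, .ofNat 0, .ofNat 0, .ofNat 0, .ofNat 0, .ofNat 0, .ofNat 0, .ofNat 0, .ofNat 0, .ofNat 0, .ofNat 0, .ofNat 0, .ofNat 0,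 .ofNat 0, .ofNat 0, .ofNat 0⟩)
    (by decide +kernel)
theorem L00895 : Good (Phi V5.P V5.D 1 (-1)) ⟨2, 0, 2, 1, 3, 7, 3, 0, 5, 4⟩ :=
  leafYS_sound T5.ok_pm T5.Ypm.bz_eq (w := 221) (c := ⟨⟨.negSucc 1057, .negSucc 299, .negSucc 197, .negSucc 174, .ofNat 174, .negSucc 183⟩, ⟨.ofNat 465, .ofNat 226, .ofNat 403, .ofNat 282, .negSucc 191, .ofNat 4⟩, ⟨.negSucc 258, .negSucc 181, .negSucc 125, .negSucc 62, .ofNat 248, .ofNat 278⟩, ⟨.negSucc 2879, .negSucc 65, .ofNat 636, .ofNat 420, .negSucc 61, .negSucc 686⟩, ⟨.ofNat 1555, .ofNat 1208, .ofNat 1507, .ofNat 2239, .negSucc 1292, .negSucc 527⟩, .ofNat 1087, .ofNat 933, .ofNat 0, .ofNat 933, .ofNat 2421, .ofNat 0, .ofNat 128, .negSucc 212, .negSucc 88, .ofNat 0, .ofNat 209, .ofNat 23, .ofNat 0, .ofNat 0, .ofNat 387, .ofNat 1728, .ofNat 75908441818892442423186663504700495173255168, .ofNat 0, .ofNat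 0, .ofNat 0, .ofNat 0, .ofNat 0, .ofNat 0, .ofNat 0, .ofNat 0, .ofNat 0, .ofNat 0, .ofNat 0, .ofNat 0, .ofNat 0, .ofNat 0, .ofNat 0⟩)
    (by decide +kernel)
theorem L00896 : Good (Phi V5.P V5.D 1 (-1)) ⟨2, 0, 2, 1, 2, 3, 3, 1, 5, 4⟩ :=
  leafYS_sound T5.ok_pm T5.Ypm.bz_eq (w := 205) (c := ⟨⟨.negSucc 819, .negSucc 280, .negSucc 59, .negSucc 231, .ofNat 84, .negSucc 276⟩, ⟨.ofNat 156, .ofNat 192, .ofNat 323, .ofNat 332, .negSucc 75, .ofNat 79⟩, ⟨.negSucc 222, .negSucc 59, .negSucc 50, .ofNat 146, .ofNat 150, .ofNat 275⟩, ⟨.negSucc 2787, .negSucc 171, .ofNat 350, .ofNat 349, .negSucc 50, .negSucc 721⟩, ⟨.negSucc 335, .ofNat 790, .ofNat 756, .ofNat 2425, .negSucc 583, .negSucc 95⟩, .ofNat 940, .ofNat 705, .ofNat 0, .ofNat 705, .ofNat 1972, .ofNat 0, .ofNat 128, .negSucc 130, .negSucc 50, .ofNat 0, .ofNat 129, .ofNat 21, .ofNat 0, .ofNat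 0, .ofNat 188, .ofNat 472, .ofNat 0, .ofNat 0, .ofNat 0, .ofNat 0, .ofNat 0, .ofNat 0, .ofNat 0, .ofNat 0, .ofNat 0, .ofNat 0, .ofNat 0, .ofNat 0, .ofNat 0, .ofNat 0, .ofNat 0, .ofNat 0⟩)
    (by decide +kernel)
theorem L00897 : Good (Phi V5.P V5.D 1 (-1)) ⟨2, 0, 2, 1, 3, 6, 4, 0, 5, 5⟩ :=
  leafYS_sound T5.ok_pm T5.Ypm.bz_eq (w := 227) (c := ⟨⟨.negSucc 1167, .negSucc 235, .negSucc 124, .negSucc 64, .ofNat 12, .negSucc 67⟩, ⟨.ofNat 253, .ofNat 186, .ofNat 422, .ofNat 146, .negSucc 30, .ofNat 4⟩, ⟨.negSucc 120, .negSucc 161, .negSucc 59, .ofNat 84, .ofNat 111, .ofNat 238⟩, ⟨.negSucc 3833, .negSucc 65, .ofNat 87, .ofNat 325, .ofNat 45, .negSucc 295⟩, ⟨.negSucc 475, .ofNat 743, .ofNat 775, .ofNat 1227, .negSucc 127, .negSucc 238⟩, .ofNat 954, .ofNat 735, .ofNat 0, .ofNat 735, .ofNat 2013, .ofNat 0, .ofNat 128, .negSucc 149, .negSucc 35,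 .ofNat 0, .ofNat 148, .ofNat 19, .ofNat 0, .ofNat 0, .ofNat 197, .ofNat 30371, .ofNat 11545755688841955845645948893805330271685312512, .ofNat 0, .ofNat 0, .ofNat 0, .ofNat 6709927261841085738276160729696883137895727104, .ofNat 0, .ofNat 0, .ofNat 0, .ofNat 40510867937526983845562802392657440021046886400, .ofNat 0, .ofNat 0, .ofNat 0, .ofNat 8990669603794524307178109982332456757975056384, .ofNat 0, .ofNat 0, .ofNat 0⟩)
    (by decide +kernel)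
theorem L00898 : Good (Phi V5.P V5.D 1 (-1)) ⟨2, 0, 2, 1, 3, 6, 4, 1, 5, 5⟩ :=
  leafYS_sound T5.ok_pm T5.Ypm.bz_eq (w := 226) (c := ⟨⟨.negSucc 1154, .negSucc 250, .negSucc 88, .negSucc 52, .ofNat 30, .negSucc 89⟩, ⟨.ofNat 222, .ofNat 190, .ofNat 399, .ofNat 136, .negSucc 16, .ofNat 20⟩, ⟨.negSucc 9, .negSucc 100, .negSucc 51, .ofNat 78, .ofNat 80, .ofNat 207⟩, ⟨.negSucc 3824, .negSucc 60, .ofNat 133, .ofNat 310, .ofNat 39, .negSucc 269⟩, ⟨.negSucc 676, .ofNat 831, .ofNat 663, .ofNat 1163, .negSucc 57, .negSucc 112⟩, .ofNat 687, .ofNat 366, .ofNat 0, .ofNat 366, .ofNat 1234, .ofNat 0, .ofNat 143, .negSucc 108, .negSucc 36, .ofNat 0, .ofNat 128, .ofNat 19, .ofNat 0, .ofNat 0, .ofNat 176, .ofNat 8747, .ofNat 0, .ofNat 0, .ofNat 0, .ofNat 0, .ofNat 0, .ofNat 0, .ofNat 0, .ofNat 0, .ofNat 0, .ofNat 0, .ofNat 0, .ofNat 0, .ofNat 0, .ofNat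 0, .ofNat 0, .ofNat 0⟩)
    (by decide +kernel)
theorem L00899 : Good (Phi V5.P V5.D 1 (-1)) ⟨2, 0, 2, 1, 3, 6, 3, 1, 5, 5⟩ :=
  leafYS_sound T5.ok_pm T5.Ypm.bz_eq (w := 222) (c := ⟨⟨.negSucc 1105, .negSucc 280, .negSucc 58, .negSucc 78, .ofNat 64, .negSucc 110⟩, ⟨.ofNat 225, .ofNat 192, .ofNat 363, .ofNat 123, .negSucc 44, .ofNat 31⟩, ⟨.ofNat 12, .negSucc 15, .negSucc 20, .ofNat 57, .ofNat 172, .ofNat 230⟩, ⟨.negSucc 3589, .negSucc 153, .ofNat 136, .ofNat 244, .ofNat 51, .negSucc 427⟩, ⟨.negSucc 479, .ofNat 731, .ofNat 519, .ofNat 1077, .negSucc 257, .negSucc 218⟩, .ofNat 945, .ofNat 718, .ofNat 0, .ofNat 718, .ofNat 1991, .ofNat 0, .ofNat 128, .negSucc 137, .negSucc 33, .ofNat 0, .ofNat 137, .ofNat 17, .ofNat 0, .ofNat 0, .ofNat 153, .ofNat 5380, .ofNat 0, .ofNat 0, .ofNat 0, .ofNat 0, .ofNat 0, .ofNat 0, .ofNat 0, .ofNat 0, .ofNat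 0, .ofNat 0, .ofNat 0, .ofNat 0, .ofNat 0, .ofNat 0, .ofNat 0, .ofNat 0⟩)
    (by decide +kernel)
theorem L00900 : Good (Phi V5.P V5.D 1 (-1)) ⟨2, 0, 2, 1, 3, 7, 3, 0, 5, 5⟩ :=
  leafYS_sound T5.ok_pm T5.Ypm.bz_eq (w := 221) (c := ⟨⟨.negSucc 1210, .negSucc 259, .negSucc 199, .negSucc 125, .ofNat 58, .negSucc 38⟩, ⟨.ofNat 423, .ofNat 212, .ofNat 447, .ofNat 225, .negSucc 92, .negSucc 45⟩, ⟨.ofNat 0, .negSucc 157, .negSucc 86, .negSucc 65, .ofNat 242, .ofNat 212⟩, ⟨.negSucc 3523, .ofNat 71, .ofNat 498, .ofNat 581, .negSucc 362, .negSucc 251⟩, ⟨.ofNat 896, .ofNat 1216, .ofNat 1425, .ofNat 2096, .negSucc 1014, .negSucc 530⟩, .ofNat 942, .ofNat 718, .ofNat 0, .ofNat 718, .ofNat 1996, .ofNat 0, .ofNat 128, .negSucc 246, .negSucc 105, .ofNat 0, .ofNat 264, .ofNat 29, .ofNat 0, .ofNat 0, .ofNat 558, .ofNat 4429, .ofNat 0, .ofNat 0, .ofNat 0,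 .ofNat 0, .ofNat 0, .ofNat 0, .ofNat 0, .ofNat 0, .ofNat 0, .ofNat 0, .ofNat 0, .ofNat 0, .ofNat 0, .ofNat 0, .ofNat 0, .ofNat 0⟩)
    (by decide +kernel)
theorem L00901 : Good (Phi V5.P V5.D 1 (-1)) ⟨2, 0, 2, 1, 3, 7, 3, 1, 5, 5⟩ :=
  leafYS_sound T5.ok_pm T5.Ypm.bz_eq (w := 220) (c := ⟨⟨.negSucc 1167, .negSucc 270, .negSucc 120, .negSucc 90, .ofNat 48, .negSucc 85⟩, ⟨.ofNat 356, .ofNat 190, .ofNat 400, .ofNat 164, .negSucc 74, .ofNat 4⟩, ⟨.ofNat 152, .negSucc 42, .negSucc 46, .ofNat 29, .ofNat 165, .ofNat 173⟩, ⟨.negSucc 3475, .negSucc 11, .ofNat 397, .ofNat 145, .negSucc 209, .negSucc 309⟩, ⟨.ofNat 532, .ofNat 997, .ofNat 990, .ofNat 1143, .negSucc 739, .negSucc 272⟩, .ofNat 908, .ofNat 650, .ofNat 0, .ofNat 650, .ofNat 1914, .ofNat 0, .ofNat 128, .negSucc 114, .negSucc 41, .ofNat 0, .ofNat 128, .ofNat 13, .ofNat 0, .ofNat 0, .ofNat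 191, .ofNat 1437, .ofNat 0, .ofNat 0, .ofNat 0, .ofNat 0, .ofNat 0, .ofNat 0, .ofNat 0, .ofNat 0, .ofNat 0, .ofNat 0, .ofNat 0, .ofNat 0, .ofNat 0, .ofNat 0, .ofNat 0, .ofNat 0⟩)
    (by decide +kernel)
theorem L00902 : Good (Phi V5.P V5.D 1 (-1)) ⟨2, 0, 2, 1, 2, 2, 3, 0, 4, 3⟩ :=
  leafYS_sound T5.ok_pm T5.Ypm.bz_eq (w := 204) (c := ⟨⟨.negSucc 1160, .negSucc 193, .negSucc 25, .negSucc 106, .ofNat 4, .negSucc 5⟩, ⟨.ofNat 192, .ofNat 133, .ofNat 370, .ofNat 80, .negSucc 4, .negSucc 0⟩, ⟨.ofNat 390, .negSucc 7, .negSucc 13, .negSucc 369, .ofNat 190, .ofNat 341⟩, ⟨.negSucc 4040, .negSucc 24, .negSucc 93, .negSucc 85, .ofNat 145, .negSucc 48⟩, ⟨.negSucc 1147, .ofNat 387, .ofNat 183, .ofNat 483, .ofNat 199, .negSucc 50⟩, .ofNat 678, .ofNat 354, .ofNat 0, .ofNat 354, .ofNat 1230, .ofNat 0, .ofNat 183, .negSucc 104, .negSucc 49, .ofNat 0, .ofNat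 128, .ofNat 30, .ofNat 0, .ofNat 0, .ofNat 347, .ofNat 18867, .ofNat 17653589870615686336613453384297069150208, .ofNat 0, .ofNat 0, .ofNat 0, .ofNat 0, .ofNat 0, .ofNat 0, .ofNat 0, .ofNat 98944793172387003542634267638642939789312, .ofNat 0, .ofNat 0, .ofNat 0, .ofNat 88388617548444832689194318602831593996288, .ofNat 0, .ofNat 0, .ofNat 0⟩)
    (by decide +kernel)
theorem L00903 : Good (Phi V5.P V5.D 1 (-1)) ⟨2, 0, 2, 1, 2, 2, 3, 1, 4, 3⟩ :=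
  leafYS_sound T5.ok_pm T5.Ypm.bz_eq (w := 202) (c := ⟨⟨.negSucc 1196, .negSucc 143, .ofNat 5, .negSucc 83, .ofNat 19, .negSucc 15⟩, ⟨.ofNat 225, .ofNat 110, .ofNat 347, .ofNat 52, .negSucc 7, .ofNat 0⟩, ⟨.ofNat 531, .ofNat 38, .negSucc 12, .negSucc 312, .ofNat 127, .ofNat 283⟩, ⟨.negSucc 3887, .ofNat 17, .negSucc 38, .negSucc 110, .ofNat 112, .negSucc 104⟩, ⟨.negSucc 707, .ofNat 273, .ofNat 117, .ofNat 252, .ofNat 77, .negSucc 93⟩, .ofNat 687, .ofNat 366, .ofNat 0, .ofNat 366, .ofNat 1232, .ofNat 0, .ofNat 128, .negSucc 173, .negSucc 29, .ofNat 0, .ofNat 216, .ofNat 17, .ofNat 0, .ofNat 0, .ofNat 205, .ofNat 4282, .ofNat 0, .ofNat 0, .ofNat 0, .ofNat 0, .ofNat 0, .ofNat 0, .ofNat 0, .ofNat 0, .ofNat 0, .ofNat 0, .ofNat 0, .ofNat 0, .ofNat 12427144501836739339410698831601025941504, .ofNat 0, .ofNat 0, .ofNat 0⟩)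
    (by decide +kernel)
theorem L00904 : Good (Phi V5.P V5.D 1 (-1)) ⟨2, 0, 2, 1, 3, 6, 2, 0, 4, 3⟩ :=
  leafYS_sound T5.ok_pm T5.Ypm.bz_eq (w := 212) (c := ⟨⟨.negSucc 1259, .negSucc 216, .negSucc 74, .negSucc 32, .ofNat 11, .ofNat 38⟩, ⟨.ofNat 287, .ofNat 167, .ofNat 392, .ofNat 88, .negSucc 33, .negSucc 50⟩, ⟨.ofNat 78, .ofNat 10, .negSucc 0, .ofNat 11, .ofNat 337, .ofNat 279⟩, ⟨.negSucc 3992, .negSucc 2, .negSucc 8, .ofNat 284, .negSucc 50, .negSucc 105⟩, ⟨.negSucc 379, .ofNat 651, .ofNat 413, .ofNat 849, .negSucc 215, .negSucc 448⟩, .ofNat 940, .ofNat 702, .ofNat 0, .ofNat 702, .ofNat 1963, .ofNat 0, .ofNat 128, .negSucc 178, .negSucc 43, .ofNat 0, .ofNat 195, .ofNat 22, .ofNat 0, .ofNat 0, .ofNat 317, .ofNat 5066, .ofNat 2243193893088449690379773232677895261913088, .ofNat 0, .ofNat 0, .ofNat 0, .ofNat 6656622021506830724591815191023691864473600,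 .ofNat 0, .ofNat 0, .ofNat 0, .ofNat 0, .ofNat 0, .ofNat 0, .ofNat 0, .ofNat 20237919930555033372290172860372112489054208, .ofNat 0, .ofNat 0, .ofNat 0⟩)
    (by decide +kernel)
theorem L00905 : Good (Phi V5.P V5.D 1 (-1)) ⟨2, 0, 2, 1, 3, 7, 2, 0, 4, 3⟩ :=
  leafYS_sound T5.ok_pm T5.Ypm.bz_eq (w := 211) (c := ⟨⟨.negSucc 1278, .negSucc 234, .negSucc 121, .negSucc 82, .ofNat 13, .ofNat 74⟩, ⟨.ofNat 392, .ofNat 178, .ofNat 409, .ofNat 142, .negSucc 55, .negSucc 99⟩, ⟨.ofNat 226, .negSucc 88, .negSucc 59, .negSucc 15, .ofNat 331, .ofNat 260⟩, ⟨.negSucc 3767, .ofNat 153, .ofNat 251, .ofNat 308, .negSucc 347, .negSucc 35⟩, ⟨.ofNat 588, .ofNat 1014, .ofNat 842, .ofNat 1206, .negSucc 787, .negSucc 703⟩, .ofNat 1128, .ofNat 1014, .ofNat 0, .ofNat 1014, .ofNat 2632, .ofNat 0, .ofNat 131, .negSucc 114, .negSucc 29, .ofNat 0, .ofNat 128, .ofNat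 8, .ofNat 0, .ofNat 0, .ofNat 244, .ofNat 888, .ofNat 0, .ofNat 0, .ofNat 0, .ofNat 0, .ofNat 0, .ofNat 0, .ofNat 0, .ofNat 0, .ofNat 0, .ofNat 0, .ofNat 0, .ofNat 0, .ofNat 0, .ofNat 0, .ofNat 0, .ofNat 0⟩)
    (by decide +kernel)
theorem L00906 : Good (Phi V5.P V5.D 1 (-1)) ⟨2, 0, 2, 1, 1, 1, 2, 1, 3, 0⟩ :=
  leafYS_sound T5.ok_pm T5.Ypm.bz_eq (w := 178) (c := ⟨⟨.ofNat 977, .ofNat 56, .negSucc 87, .negSucc 279, .negSucc 114, .negSucc 1630⟩, ⟨.negSucc 334, .ofNat 14, .ofNat 20, .ofNat 292, .ofNat 0, .ofNat 523⟩, ⟨.negSucc 1019, .negSucc 165, .ofNat 142, .ofNat 613, .ofNat 262, .ofNat 640⟩, ⟨.ofNat 2622, .ofNat 315, .ofNat 73, .ofNat 12, .negSucc 460, .negSucc 4906⟩, ⟨.negSucc 112, .ofNat 292, .ofNat 364, .ofNat 1971, .negSucc 253, .negSucc 757⟩, .ofNat 935, .ofNat 706, .ofNat 0, .ofNat 706, .ofNat 1990, .ofNat 0, .ofNat 159, .negSucc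 127, .negSucc 114, .ofNat 0, .ofNat 123, .ofNat 54, .ofNat 0, .ofNat 0, .ofNat 333, .ofNat 401, .ofNat 0, .ofNat 0, .ofNat 0, .ofNat 0, .ofNat 0, .ofNat 0, .ofNat 0, .ofNat 0, .ofNat 0, .ofNat 0, .ofNat 0, .ofNat 0, .ofNat 0, .ofNat 0, .ofNat 0, .ofNat 0⟩)
    (by decide +kernel)
theorem L00907 : Good (Phi V5.P V5.D 1 (-1)) ⟨2, 0, 2, 1, 1, 1, 2, 1, 4, 2⟩ :=
  leafYS_sound T5.ok_pm T5.Ypm.bz_eq (w := 183) (c := ⟨⟨.negSucc 801, .negSucc 217, .ofNat 45, .negSucc 257, .ofNat 60, .negSucc 319⟩, ⟨.ofNat 72, .ofNat 149, .ofNat 281, .ofNat 271, .negSucc 20, .ofNat 92⟩, ⟨.ofNat 53, .ofNat 93, .negSucc 75, .ofNat 3, .ofNat 322, .ofNat 383⟩, ⟨.negSucc 2853, .negSucc 176, .ofNat 264, .negSucc 99, .ofNat 95, .negSucc 900⟩, ⟨.negSucc 863, .ofNat 400, .ofNat 298, .ofNat 1569, .negSucc 123, .negSucc 145⟩, .ofNat 930, .ofNat 700, .ofNat 0, .ofNat 700,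 .ofNat 1982, .ofNat 0, .ofNat 165, .negSucc 127, .negSucc 64, .ofNat 0, .ofNat 127, .ofNat 30, .ofNat 0, .ofNat 0, .ofNat 249, .ofNat 782, .ofNat 0, .ofNat 0, .ofNat 0, .ofNat 0, .ofNat 0, .ofNat 0, .ofNat 0, .ofNat 0, .ofNat 0, .ofNat 0, .ofNat 0, .ofNat 0, .ofNat 0, .ofNat 0, .ofNat 0, .ofNat 0⟩)
    (by decide +kernel)
theorem L00908 : Good (Phi V5.P V5.D 1 (-1)) ⟨2, 0, 2, 1, 1, 1, 2, 1, 4, 3⟩ :=
  leafYS_sound T5.ok_pm T5.Ypm.bz_eq (w := 183) (c := ⟨⟨.negSucc 1130, .negSucc 169, .ofNat 2, .negSucc 245, .ofNat 37, .negSucc 40⟩, ⟨.ofNat 200, .ofNat 113, .ofNat 338, .ofNat 195, .negSucc 14, .ofNat 12⟩, ⟨.ofNat 528, .ofNat 128, .negSucc 23, .negSucc 91, .ofNat 240, .ofNat 236⟩, ⟨.negSucc 3715, .negSucc 90, .ofNat 11, .negSucc 265, .ofNat 68, .negSucc 89⟩, ⟨.negSucc 660, .ofNat 142, .ofNat 126, .ofNat 993, .negSucc 38, .negSucc 2⟩, .ofNat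 942, .ofNat 718, .ofNat 0, .ofNat 718, .ofNat 2002, .ofNat 0, .ofNat 128, .negSucc 132, .negSucc 67, .ofNat 0, .ofNat 140, .ofNat 31, .ofNat 0, .ofNat 0, .ofNat 457, .ofNat 809, .ofNat 0, .ofNat 0, .ofNat 0, .ofNat 0, .ofNat 0, .ofNat 0, .ofNat 0, .ofNat 0, .ofNat 0, .ofNat 0, .ofNat 0, .ofNat 0, .ofNat 0, .ofNat 0, .ofNat 0, .ofNat 0⟩)
    (by decide +kernel)
theorem L00909 : Good (Phi V5.P V5.D 1 (-1)) ⟨2, 0, 2, 1, 2, 2, 2, 0, 4, 4⟩ :=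
  leafYS_sound T5.ok_pm T5.Ypm.bz_eq (w := 199) (c := ⟨⟨.negSucc 1186, .negSucc 144, .ofNat 7, .negSucc 74, .negSucc 22, .ofNat 88⟩, ⟨.ofNat 219, .ofNat 100, .ofNat 332, .ofNat 45, .ofNat 24, .negSucc 35⟩, ⟨.ofNat 627, .ofNat 86, .ofNat 0, .negSucc 251, .ofNat 256, .ofNat 186⟩, ⟨.negSucc 3888, .negSucc 19, .negSucc 54, .negSucc 116, .ofNat 30, .ofNat 213⟩, ⟨.negSucc 757, .ofNat 186, .ofNat 49, .ofNat 207, .ofNat 183, .negSucc 77⟩, .ofNat 682, .ofNat 362, .ofNat 0, .ofNat 362, .ofNat 1235, .ofNat 0, .ofNat 132, .negSucc 97, .negSucc 25, .ofNat 0, .ofNat 128, .ofNat 15, .ofNat 0, .ofNat 0, .ofNat 279, .ofNat 8898, .ofNat 1169739154129456162091161896612228235264, .ofNat 0, .ofNat 0, .ofNat 0, .ofNat 0, .ofNat 0, .ofNat 0, .ofNat 0, .ofNat 9895605353196919924999937488674093006848, .ofNat 0, .ofNat 0, .ofNat 0, .ofNat 9523966492502760636631063424870482182144,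 .ofNat 0, .ofNat 0, .ofNat 0⟩)
    (by decide +kernel)
theorem L00910 : Good (Phi V5.P V5.D 1 (-1)) ⟨2, 0, 2, 1, 2, 2, 2, 1, 4, 4⟩ :=
  leafYS_sound T5.ok_pm T5.Ypm.bz_eq (w := 199) (c := ⟨⟨.negSucc 1187, .negSucc 143, .ofNat 8, .negSucc 86, .ofNat 6, .ofNat 75⟩, ⟨.ofNat 235, .ofNat 98, .ofNat 330, .ofNat 54, .negSucc 2, .negSucc 25⟩, ⟨.ofNat 748, .ofNat 163, .ofNat 27, .negSucc 144, .ofNat 232, .ofNat 190⟩, ⟨.negSucc 3776, .negSucc 62, .negSucc 48, .negSucc 164, .ofNat 57, .ofNat 186⟩, ⟨.negSucc 570, .ofNat 162, .ofNat 57, .ofNat 181, .ofNat 34, .ofNat 1⟩, .ofNat 691, .ofNat 374, .ofNat 0, .ofNat 374, .ofNat 1238, .ofNat 0, .ofNat 174, .negSucc 98, .negSucc 72, .ofNat 0, .ofNat 128, .ofNat 37, .ofNat 0, .ofNat 0, .ofNat 761, .ofNat 5017, .ofNat 577190782809843617835501123425175339008, .ofNat 0, .ofNat 0, .ofNat 0, .ofNat 0, .ofNat 0,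 .ofNat 0, .ofNat 0, .ofNat 0, .ofNat 0, .ofNat 0, .ofNat 0, .ofNat 0, .ofNat 0, .ofNat 0, .ofNat 0⟩)
    (by decide +kernel)
theorem L00911 : Good (Phi V5.P V5.D 1 (-1)) ⟨2, 0, 2, 1, 3, 6, 1, 0, 4, 4⟩ :=
  leafYS_sound T5.ok_pm T5.Ypm.bz_eq (w := 208) (c := ⟨⟨.negSucc 1224, .negSucc 205, .negSucc 45, .negSucc 17, .negSucc 26, .ofNat 97⟩, ⟨.ofNat 262, .ofNat 146, .ofNat 359, .ofNat 48, .ofNat 11, .negSucc 54⟩, ⟨.ofNat 318, .ofNat 56, .ofNat 0, .ofNat 16, .ofNat 641, .ofNat 232⟩, ⟨.negSucc 3870, .negSucc 96, .negSucc 49, .ofNat 151, .negSucc 116, .ofNat 208⟩, ⟨.negSucc 446, .ofNat 399, .ofNat 254, .ofNat 453, .negSucc 46, .negSucc 178⟩, .ofNat 841, .ofNat 571, .ofNat 0, .ofNat 571, .ofNat 1650, .ofNat 0, .ofNat 155, .negSucc 107, .negSucc 45, .ofNat 0, .ofNat 128, .ofNat 19, .ofNat 0, .ofNat 0, .ofNat 871, .ofNat 2992, .ofNat 0, .ofNat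 0, .ofNat 0, .ofNat 0, .ofNat 0, .ofNat 0, .ofNat 0, .ofNat 0, .ofNat 803966482242283151640169805430849036877824, .ofNat 0, .ofNat 0, .ofNat 0, .ofNat 0, .ofNat 0, .ofNat 0, .ofNat 0⟩)
    (by decide +kernel)
theorem L00912 : Good (Phi V5.P V5.D 1 (-1)) ⟨2, 0, 2, 1, 3, 7, 1, 0, 4, 4⟩ :=
  leafYS_sound T5.ok_pm T5.Ypm.bz_eq (w := 206) (c := ⟨⟨.negSucc 1175, .negSucc 221, .negSucc 98, .negSucc 36, .negSucc 125, .ofNat 138⟩, ⟨.ofNat 310, .ofNat 157, .ofNat 382, .ofNat 81, .ofNat 9, .negSucc 98⟩, ⟨.ofNat 322, .ofNat 43, .negSucc 14, .ofNat 85, .ofNat 725, .ofNat 229⟩, ⟨.negSucc 3550, .negSucc 92, .ofNat 68, .ofNat 159, .negSucc 501, .ofNat 149⟩, ⟨.ofNat 164, .ofNat 560, .ofNat 548, .ofNat 645, .negSucc 418, .negSucc 530⟩, .ofNat 1107, .ofNat 978, .ofNat 0, .ofNat 978, .ofNat 2495, .ofNat 0, .ofNat 172, .negSucc 108, .negSucc 13, .ofNat 0,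 .ofNat 128, .negSucc 9, .ofNat 0, .ofNat 0, .ofNat 695, .ofNat 552, .ofNat 0, .ofNat 0, .ofNat 0, .ofNat 0, .ofNat 0, .ofNat 0, .ofNat 0, .ofNat 0, .ofNat 0, .ofNat 110120600978650408800121625545734602358784, .ofNat 0, .ofNat 0, .ofNat 0, .ofNat 626045236548560626161325536615220943781888, .ofNat 0, .ofNat 0⟩)
    (by decide +kernel)
theorem L00913 : Good (Phi V5.P V5.D 1 (-1)) ⟨2, 0, 2, 1, 2, 2, 2, 0, 4, 5⟩ :=
  leafYS_sound T5.ok_pm T5.Ypm.bz_eq (w := 201) (c := ⟨⟨.negSucc 1071, .negSucc 154, .negSucc 8, .negSucc 64, .negSucc 43, .ofNat 126⟩, ⟨.ofNat 201, .ofNat 102, .ofNat 323, .ofNat 38, .ofNat 8, .negSucc 39⟩, ⟨.ofNat 788, .ofNat 83, .ofNat 13, .negSucc 167, .ofNat 218, .ofNat 255⟩, ⟨.negSucc 3682, .negSucc 44, .negSucc 70, .negSucc 24, .ofNat 4, .ofNat 318⟩, ⟨.negSucc 786, .ofNat 206, .ofNat 89, .ofNat 251, .ofNat 71, .negSucc 12⟩,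 .ofNat 426, .ofNat 130, .ofNat 0, .ofNat 130, .ofNat 611, .ofNat 0, .ofNat 140, .negSucc 62, .negSucc 17, .ofNat 0, .ofNat 128, .ofNat 11, .ofNat 0, .ofNat 0, .ofNat 441, .ofNat 24130, .ofNat 5449291115026345908793560831291465662464, .ofNat 0, .ofNat 0, .ofNat 0, .ofNat 18114187793996681394778584862492146532352, .ofNat 0, .ofNat 0, .ofNat 0, .ofNat 31137944920910228877698872255097822248960, .ofNat 0, .ofNat 0, .ofNat 0, .ofNat 21336165884897928180652554563607204986880, .ofNat 0, .ofNat 0, .ofNat 0⟩)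
    (by decide +kernel)
theorem L00914 : Good (Phi V5.P V5.D 1 (-1)) ⟨3, 0, 2, 1, 2, 2, 2, 1, 4, 5⟩ :=
  leafYS_sound T5.ok_pm T5.Ypm.bz_eq (w := 203) (c := ⟨⟨.negSucc 1150, .negSucc 35, .ofNat 14, .negSucc 38, .ofNat 5, .ofNat 79⟩, ⟨.ofNat 233, .ofNat 48, .ofNat 301, .ofNat 20, .ofNat 6, .negSucc 29⟩, ⟨.ofNat 830, .ofNat 75, .ofNat 59, .ofNat 28, .ofNat 237, .ofNat 253⟩, ⟨.negSucc 3595, .negSucc 31, .negSucc 45, .negSucc 98, .ofNat 46, .ofNat 240⟩, ⟨.negSucc 477, .ofNat 30, .ofNat 22, .ofNat 31, .ofNat 80, .ofNat 16⟩, .ofNat 698, .ofNat 367, .ofNat 0, .ofNat 367, .ofNat 1215, .ofNat 0, .ofNat 159, .negSucc 91, .negSucc 31, .ofNat 0, .ofNat 128, .ofNat 13, .ofNat 0, .ofNat 0, .ofNat 1033, .ofNat 4314, .ofNat 9782229385618700197258155108399268757504, .ofNat 0, .ofNat 0, .ofNat 0, .ofNat 0, .ofNat 0, .ofNat 0, .ofNat 0, .ofNat 0, .ofNat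 0, .ofNat 0, .ofNat 0, .ofNat 0, .ofNat 18809443649280465863981879087638167683072, .ofNat 0, .ofNat 0⟩)
    (by decide +kernel)
theorem L00915 : Good (Phi V5.P V5.D 1 (-1)) ⟨3, 1, 2, 1, 2, 2, 2, 1, 4, 5⟩ :=
  leafYS_sound T5.ok_pm T5.Ypm.bz_eq (w := 202) (c := ⟨⟨.negSucc 1168, .negSucc 103, .ofNat 10, .negSucc 61, .negSucc 7, .ofNat 85⟩, ⟨.ofNat 280, .ofNat 37, .ofNat 303, .ofNat 30, .ofNat 2, .negSucc 32⟩, ⟨.ofNat 849, .ofNat 120, .ofNat 59, .ofNat 46, .ofNat 296, .ofNat 245⟩, ⟨.negSucc 3573, .negSucc 73, .negSucc 42, .negSucc 144, .negSucc 3, .ofNat 244⟩, ⟨.negSucc 418, .ofNat 11, .ofNat 27, .ofNat 63, .ofNat 28, .ofNat 6⟩, .ofNat 692, .ofNat 396, .ofNat 0, .ofNat 396, .ofNat 1276, .ofNat 0, .ofNat 169, .negSucc 100, .negSucc 39, .ofNat 0, .ofNat 128, .ofNat 19, .ofNat 0, .ofNat 0, .ofNat 944, .ofNat 3379, .ofNat 11321686323297734808372449907524769939456,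 .ofNat 0, .ofNat 0, .ofNat 0, .ofNat 0, .ofNat 0, .ofNat 0, .ofNat 0, .ofNat 0, .ofNat 0, .ofNat 0, .ofNat 0, .ofNat 0, .ofNat 16983858850898425106394356503105838776320, .ofNat 0, .ofNat 0⟩)
    (by decide +kernel)
theorem L00916 : Good (Phi V5.P V5.D 1 (-1)) ⟨2, 0, 2, 1, 2, 3, 2, 0, 5, 10⟩ :=
  leafYS_sound T5.ok_pm T5.Ypm.bz_eq (w := 202) (c := ⟨⟨.negSucc 1154, .negSucc 164, .negSucc 37, .ofNat 19, .negSucc 2, .ofNat 65⟩, ⟨.ofNat 226, .ofNat 121, .ofNat 333, .ofNat 63, .ofNat 8, .negSucc 22⟩, ⟨.ofNat 572, .ofNat 19, .ofNat 5, .ofNat 55, .ofNat 305, .ofNat 134⟩, ⟨.negSucc 3597, .negSucc 24, .negSucc 59, .ofNat 309, .negSucc 126, .ofNat 140⟩, ⟨.negSucc 478, .ofNat 375, .ofNat 182, .ofNat 682, .negSucc 112, .negSucc 53⟩, .ofNat 693, .ofNat 379, .ofNat 0, .ofNat 379, .ofNat 1245, .ofNat 0, .ofNat 170, .negSucc 87, .negSucc 4, .ofNat 0,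 .ofNat 128, .negSucc 0, .ofNat 0, .ofNat 0, .ofNat 471, .ofNat 1286, .ofNat 0, .ofNat 0, .ofNat 0, .ofNat 0, .ofNat 0, .ofNat 0, .ofNat 0, .ofNat 0, .ofNat 0, .ofNat 0, .ofNat 0, .ofNat 0, .ofNat 0, .ofNat 2388335588649488707547869929096379105280, .ofNat 0, .ofNat 0⟩)
    (by decide +kernel)
theorem L00917 : Good (Phi V5.P V5.D 1 (-1)) ⟨2, 0, 2, 1, 2, 3, 2, 0, 5, 11⟩ :=
  leafYS_sound T5.ok_pm T5.Ypm.bz_eq (w := 201) (c := ⟨⟨.negSucc 1094, .negSucc 149, .negSucc 22, .ofNat 21, .negSucc 14, .ofNat 55⟩, ⟨.ofNat 220, .ofNat 103, .ofNat 313, .ofNat 41, .ofNat 9, .negSucc 22⟩, ⟨.ofNat 718, .ofNat 47, .ofNat 35, .ofNat 68, .ofNat 251, .ofNat 190⟩, ⟨.negSucc 3455, .negSucc 61, .negSucc 70, .ofNat 227, .negSucc 68, .ofNat 155⟩, ⟨.negSucc 498, .ofNat 228, .ofNat 119, .ofNat 457, .ofNat 14, .negSucc 29⟩, .ofNat 679, .ofNat 352, .ofNat 0, .ofNat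 352, .ofNat 1221, .ofNat 0, .ofNat 128, .negSucc 93, .ofNat 2, .ofNat 0, .ofNat 141, .negSucc 1, .ofNat 0, .ofNat 0, .ofNat 391, .ofNat 1136, .ofNat 0, .ofNat 0, .ofNat 0, .ofNat 0, .ofNat 0, .ofNat 0, .ofNat 0, .ofNat 0, .ofNat 0, .ofNat 0, .ofNat 0, .ofNat 0, .ofNat 73095972931178440201892641759185246093312, .ofNat 4673702695212108121105976497898874994688, .ofNat 0, .ofNat 0⟩)
    (by decide +kernel)
theorem L00918 : Good (Phi V5.P V5.D 1 (-1)) ⟨2, 0, 2, 1, 2, 3, 2, 1, 4, 5⟩ :=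
  leafYS_sound T5.ok_pm T5.Ypm.bz_eq (w := 195) (c := ⟨⟨.negSucc 1166, .negSucc 165, .negSucc 17, .negSucc 18, .negSucc 13, .ofNat 126⟩, ⟨.ofNat 243, .ofNat 111, .ofNat 324, .ofNat 71, .ofNat 18, .negSucc 53⟩, ⟨.ofNat 808, .ofNat 116, .ofNat 53, .ofNat 39, .ofNat 371, .ofNat 290⟩, ⟨.negSucc 3653, .negSucc 123, .negSucc 58, .ofNat 218, .negSucc 62, .ofNat 317⟩, ⟨.negSucc 448, .ofNat 199, .ofNat 117, .ofNat 646, .ofNat 15, .negSucc 63⟩, .ofNat 694, .ofNat 385, .ofNat 0, .ofNat 385, .ofNat 1252, .ofNat 0, .ofNat 135, .negSucc 91, .ofNat 5, .ofNat 0, .ofNat 128, .negSucc 7, .ofNat 0, .ofNat 0, .ofNat 558, .ofNat 254, .ofNat 0, .ofNat 630654286231905452877661832931704832, .ofNat 0, .ofNat 0, .ofNat 0, .ofNat 163007602904227987852685441166863237120, .ofNat 0, .ofNat 0, .ofNat 0, .ofNat 271637386082430336225876628218857914368, .ofNat 0, .ofNat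 0, .ofNat 0, .ofNat 876469195974733845011444614492837642240, .ofNat 0, .ofNat 0⟩)
    (by decide +kernel)
theorem L00919 : Good (Phi V5.P V5.D 1 (-1)) ⟨2, 0, 2, 1, 2, 2, 2, 0, 4, 6⟩ :=
  leafYS_sound T5.ok_pm T5.Ypm.bz_eq (w := 207) (c := ⟨⟨.negSucc 997, .negSucc 145, .negSucc 6, .negSucc 0, .negSucc 60, .ofNat 1⟩, ⟨.ofNat 256, .ofNat 97, .ofNat 304, .ofNat 0, .negSucc 43, .ofNat 0⟩, ⟨.ofNat 971, .ofNat 64, .ofNat 73, .ofNat 1, .ofNat 164, .negSucc 0⟩, ⟨.negSucc 3370, .negSucc 57, .negSucc 70, .negSucc 1, .ofNat 12, .ofNat 2⟩, ⟨.negSucc 527, .ofNat 195, .ofNat 75, .ofNat 0, .ofNat 59, .ofNat 0⟩, .ofNat 193, .ofNat 23, .ofNat 0, .ofNat 23, .ofNat 226, .ofNat 0, .ofNat 150, .negSucc 33, .ofNat 4, .ofNat 0, .ofNat 128, .negSucc 4, .ofNat 0, .ofNat 0, .ofNat 208, .ofNat 1260532, .ofNat 447162025572394050148396761489373015310336, .ofNat 0,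 .ofNat 0, .ofNat 0, .ofNat 455087501390907804839540034548953935511552, .ofNat 0, .ofNat 0, .ofNat 0, .ofNat 114722681612064338535375568724167485292544, .ofNat 0, .ofNat 0, .ofNat 0, .ofNat 140420321764412258673601532236930614296576, .ofNat 0, .ofNat 0, .ofNat 0⟩)
    (by decide +kernel)
theorem L00920 : Good (Phi V5.P V5.D 1 (-1)) ⟨2, 0, 2, 1, 3, 4, 2, 1, 4, 6⟩ :=
  leafYS_sound T5.ok_pm T5.Ypm.bz_eq (w := 214) (c := ⟨⟨.negSucc 1044, .negSucc 131, .ofNat 21, .negSucc 14, .negSucc 15, .ofNat 91⟩, ⟨.ofNat 233, .ofNat 73, .ofNat 276, .negSucc 3, .ofNat 3, .negSucc 43⟩, ⟨.ofNat 926, .ofNat 203, .ofNat 163, .ofNat 154, .ofNat 219, .ofNat 578⟩, ⟨.negSucc 3319, .negSucc 114, .negSucc 34, .negSucc 36, .ofNat 10, .ofNat 265⟩, ⟨.negSucc 344, .negSucc 14, .negSucc 13, .negSucc 53, .ofNat 32, .negSucc 32⟩, .ofNat 424, .ofNat 127, .ofNat 0, .ofNat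 127, .ofNat 611, .ofNat 0, .ofNat 155, .negSucc 58, .negSucc 26, .ofNat 0, .ofNat 128, .negSucc 3, .ofNat 0, .ofNat 0, .ofNat 1737, .ofNat 10838, .ofNat 8829645285302285520601613184510702905196544, .ofNat 0, .ofNat 0, .ofNat 0, .ofNat 0, .ofNat 0, .ofNat 0, .ofNat 0, .ofNat 0, .ofNat 865048218880632868194921116286984447328256, .ofNat 0, .ofNat 0, .ofNat 0, .ofNat 17293106000898877631114121074665384891645952, .ofNat 0, .ofNat 0⟩)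
    (by decide +kernel)
theorem L00921 : Good (Phi V5.P V5.D 1 (-1)) ⟨2, 0, 2, 1, 3, 5, 2, 1, 4, 6⟩ :=
  leafYS_sound T5.ok_pm T5.Ypm.bz_eq (w := 212) (c := ⟨⟨.negSucc 1071, .negSucc 134, .ofNat 10, .negSucc 0, .ofNat 8, .ofNat 109⟩, ⟨.ofNat 220, .ofNat 84, .ofNat 285, .ofNat 10, .ofNat 2, .negSucc 42⟩, ⟨.ofNat 866, .ofNat 194, .ofNat 144, .ofNat 193, .ofNat 493, .ofNat 596⟩, ⟨.negSucc 3363, .negSucc 111, .negSucc 47, .ofNat 16, .negSucc 4, .ofNat 317⟩, ⟨.negSucc 400, .ofNat 41, .ofNat 10, .ofNat 35, .negSucc 28, .negSucc 18⟩, .ofNat 425, .ofNat 128, .ofNat 0, .ofNat 128, .ofNat 610, .ofNat 0, .ofNat 185, .negSucc 58, .ofNat 24, .ofNat 0, .ofNat 128, .negSucc 26, .ofNat 0, .ofNat 0, .ofNat 1274, .ofNat 2082, .ofNat 0, .ofNat 0, .ofNat 0, .ofNat 0, .ofNat 0, .ofNat 0, .ofNat 0, .ofNat 0, .ofNat 0, .ofNat 1852005078873423209997323895533407771295744,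 .ofNat 0, .ofNat 0, .ofNat 0, .ofNat 18666623721811205475192239885492778180804608, .ofNat 0, .ofNat 0⟩)
    (by decide +kernel)
theorem L00922 : Good (Phi V5.P V5.D 1 (-1)) ⟨2, 0, 2, 1, 2, 3, 1, 0, 4, 6⟩ :=
  leafYS_sound T5.ok_pm T5.Ypm.bz_eq (w := 193) (c := ⟨⟨.negSucc 1059, .negSucc 144, .negSucc 3, .ofNat 20, .negSucc 1, .ofNat 96⟩, ⟨.ofNat 212, .ofNat 96, .ofNat 301, .ofNat 14, .ofNat 8, .negSucc 79⟩, ⟨.ofNat 748, .ofNat 88, .ofNat 96, .ofNat 217, .ofNat 737, .ofNat 614⟩, ⟨.negSucc 3351, .negSucc 74, .negSucc 70, .ofNat 173, .ofNat 8, .ofNat 308⟩, ⟨.negSucc 478, .ofNat 180, .ofNat 66, .ofNat 247, .ofNat 56, .negSucc 151⟩, .ofNat 423, .ofNat 120, .ofNat 0, .ofNat 120, .ofNat 607, .ofNat 0, .ofNat 158, .negSucc 54, .ofNat 9, .ofNat 0, .ofNat 128, .negSucc 7, .ofNat 0, .ofNat 0, .ofNat 499, .ofNat 1232, .ofNat 38241779276058803133571966933913305088,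 .ofNat 5303715567771187692411976962807955456, .ofNat 0, .ofNat 0, .ofNat 0, .ofNat 176467204338943998718113133249333035008, .ofNat 0, .ofNat 0, .ofNat 410793193590823663182601676195650076672, .ofNat 233772717639814818961548463806127013888, .ofNat 0, .ofNat 0, .ofNat 2534082169106998400109577023169318879232, .ofNat 603052500282382438073203420987985494016, .ofNat 0, .ofNat 0⟩)
    (by decide +kernel)
theorem L00923 : Good (Phi V5.P V5.D 1 (-1)) ⟨2, 0, 2, 1, 2, 2, 2, 0, 4, 7⟩ :=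
  out_sound (S := T5.ds_pm) T5.ok_pm (w := 24) (j := 1) (by decide +kernel)
theorem L00924 : Good (Phi V5.P V5.D 1 (-1)) ⟨2, 0, 2, 1, 3, 4, 3, 2, 4, 7⟩ :=
  out_sound (S := T5.ds_pm) T5.ok_pm (w := 27) (j := 1) (by decide +kernel)
theorem L00925 : Good (Phi V5.P V5.D 1 (-1)) ⟨2, 0, 2, 1, 4, 8, 3, 3, 5, 14⟩ :=
  out_sound (S := T5.ds_pm) T5.ok_pm (w := 31) (j := 1) (by decide +kernel)
theorem L00926 : Good (Phi V5.P V5.D 1 (-1)) ⟨2, 0, 2, 1, 4, 9, 4, 6, 5, 14⟩ :=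
  out_sound (S := T5.ds_pm) T5.ok_pm (w := 32) (j := 1) (by decide +kernel)
theorem L00927 : Good (Phi V5.P V5.D 1 (-1)) ⟨2, 0, 2, 1, 5, 18, 4, 7, 6, 28⟩ :=
  leafYS_sound T5.ok_pm T5.Ypm.bz_eq (w := 269) (c := ⟨⟨.negSucc 1083, .negSucc 124, .ofNat 50, .ofNat 0, .ofNat 110, .ofNat 1⟩, ⟨.ofNat 175, .ofNat 67, .ofNat 242, .ofNat 0, .ofNat 27, .ofNat 0⟩, ⟨.ofNat 1655, .ofNat 295, .ofNat 657, .ofNat 1, .ofNat 94, .negSucc 0⟩, ⟨.negSucc 3066, .negSucc 123, .ofNat 1, .negSucc 0, .ofNat 6, .ofNat 2⟩, ⟨.negSucc 345, .negSucc 52, .negSucc 99, .ofNat 0, .negSucc 16, .ofNat 0⟩, .ofNat 193, .ofNat 23, .ofNat 0, .ofNat 23, .ofNat 226, .ofNat 0, .ofNat 288, .negSucc 28, .ofNat 110, .ofNat 0, .ofNat 128, .negSucc 153, .ofNat 0, .ofNat 0, .ofNat 2230, .ofNat 3153539, .ofNat 0, .ofNat 0, .ofNat 0, .ofNat 0, .ofNat 315860163877909757523068359889474822092966398434373271552,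 .ofNat 674074151299909221972403846412961698686407106172551168, .ofNat 0, .ofNat 0, .ofNat 83956493957685161315954246804098060916232536809889857536, .ofNat 0, .ofNat 0, .ofNat 0, .ofNat 1565332523200106265721626095862096684794813336207455420416, .ofNat 2929627332738276148486418828567759140947141387767250944, .ofNat 0, .ofNat 0⟩)
    (by decide +kernel)
theorem L00928 : Good (Phi V5.P V5.D 1 (-1)) ⟨2, 0, 2, 1, 5, 19, 6, 28, 7, 56⟩ :=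
  out_sound (S := T5.ds_pm) T5.ok_pm (w := 40) (j := 1) (by decide +kernel)
theorem L00929 : Good (Phi V5.P V5.D 1 (-1)) ⟨2, 0, 2, 1, 6, 38, 6, 29, 7, 56⟩ :=
  out_sound (S := T5.ds_pm) T5.ok_pm (w := 42) (j := 1) (by decide +kernel)
theorem L00930 : Good (Phi V5.P V5.D 1 (-1)) ⟨2, 0, 2, 1, 6, 39, 6, 29, 7, 56⟩ :=
  out_sound (S := T5.ds_pm) T5.ok_pm (w := 52) (j := 2) (by decide +kernel)
theorem L00931 : Good (Phi V5.P V5.D 1 (-1)) ⟨2, 0, 2, 1, 5, 19, 5, 14, 7, 57⟩ :=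
  out_sound (S := T5.ds_pm) T5.ok_pm (w := 39) (j := 1) (by decide +kernel)
theorem L00932 : Good (Phi V5.P V5.D 1 (-1)) ⟨2, 0, 2, 1, 7, 76, 6, 30, 7, 56⟩ :=
  out_sound (S := T5.ds_pm) T5.ok_pm (w := 44) (j := 1) (by decide +kernel)
theorem L00933 : Good (Phi V5.P V5.D 1 (-1)) ⟨2, 0, 2, 1, 8, 152, 8, 124, 9, 224⟩ :=
  out_sound (S := T5.ds_pm) T5.ok_pm (w := 52) (j := 1) (by decide +kernel)
theorem L00934 : Good (Phi V5.P V5.D 1 (-1)) ⟨2, 0, 2, 1, 8, 152, 9, 250, 10, 448⟩ :=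
  out_sound (S := T5.ds_pm) T5.ok_pm (w := 55) (j := 1) (by decide +kernel)
theorem L00935 : Good (Phi V5.P V5.D 1 (-1)) ⟨2, 0, 2, 1, 9, 304, 9, 251, 10, 448⟩ :=
  out_sound (S := T5.ds_pm) T5.ok_pm (w := 57) (j := 1) (by decide +kernel)
theorem L00936 : Good (Phi V5.P V5.D 1 (-1)) ⟨2, 0, 2, 1, 9, 305, 9, 251, 10, 448⟩ :=
  out_sound (S := T5.ds_pm) T5.ok_pm (w := 70) (j := 2) (by decide +kernel)
theorem L00937 : Good (Phi V5.P V5.D 1 (-1)) ⟨2, 0, 2, 1, 8, 152, 8, 125, 10, 449⟩ :=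
  out_sound (S := T5.ds_pm) T5.ok_pm (w := 54) (j := 1) (by decide +kernel)
theorem L00938 : Good (Phi V5.P V5.D 1 (-1)) ⟨2, 0, 2, 1, 8, 152, 7, 62, 9, 225⟩ :=
  out_sound (S := T5.ds_pm) T5.ok_pm (w := 51) (j := 1) (by decide +kernel)
theorem L00939 : Good (Phi V5.P V5.D 1 (-1)) ⟨2, 0, 2, 1, 10, 608, 9, 252, 10, 448⟩ :=
  out_sound (S := T5.ds_pm) T5.ok_pm (w := 59) (j := 1) (by decide +kernel)
theorem L00940 : Good (Phi V5.P V5.D 1 (-1)) ⟨2, 0, 2, 1, 11, 1216, 10, 506, 11, 896⟩ :=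
  out_sound (S := T5.ds_pm) T5.ok_pm (w := 64) (j := 1) (by decide +kernel)
theorem L00941 : Good (Phi V5.P V5.D 1 (-1)) ⟨2, 0, 2, 1, 11, 1216, 10, 507, 11, 896⟩ :=
  out_sound (S := T5.ds_pm) T5.ok_pm (w := 78) (j := 2) (by decide +kernel)
theorem L00942 : Good (Phi V5.P V5.D 1 (-1)) ⟨2, 0, 2, 1, 11, 1217, 9, 253, 11, 896⟩ :=
  out_sound (S := T5.ds_pm) T5.ok_pm (w := 76) (j := 2) (by decide +kernel)
theorem L00943 : Good (Phi V5.P V5.D 1 (-1)) ⟨2, 0, 2, 1, 10, 608, 9, 253, 11, 897⟩ :=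
  out_sound (S := T5.ds_pm) T5.ok_pm (w := 74) (j := 2) (by decide +kernel)
theorem L00944 : Good (Phi V5.P V5.D 1 (-1)) ⟨2, 0, 2, 1, 10, 609, 8, 126, 10, 448⟩ :=
  out_sound (S := T5.ds_pm) T5.ok_pm (w := 70) (j := 2) (by decide +kernel)
theorem L00945 : Good (Phi V5.P V5.D 1 (-1)) ⟨2, 0, 2, 1, 9, 304, 8, 126, 10, 449⟩ :=
  out_sound (S := T5.ds_pm) T5.ok_pm (w := 56) (j := 1) (by decide +kernel)
theorem L00946 : Good (Phi V5.P V5.D 1 (-1)) ⟨2, 0, 2, 1, 9, 304, 8, 127, 9, 224⟩ :=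
  out_sound (S := T5.ds_pm) T5.ok_pm (w := 66) (j := 2) (by decide +kernel)
theorem L00947 : Good (Phi V5.P V5.D 1 (-1)) ⟨2, 0, 2, 1, 9, 305, 7, 63, 9, 224⟩ :=
  out_sound (S := T5.ds_pm) T5.ok_pm (w := 64) (j := 2) (by decide +kernel)
theorem L00948 : Good (Phi V5.P V5.D 1 (-1)) ⟨2, 0, 2, 1, 8, 152, 7, 63, 9, 225⟩ :=
  out_sound (S := T5.ds_pm) T5.ok_pm (w := 62) (j := 2) (by decide +kernel)
theorem L00949 : Good (Phi V5.P V5.D 1 (-1)) ⟨2, 0, 2, 1, 8, 153, 6, 31, 8, 112⟩ :=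
  out_sound (S := T5.ds_pm) T5.ok_pm (w := 58) (j := 2) (by decide +kernel)
theorem L00950 : Good (Phi V5.P V5.D 1 (-1)) ⟨2, 0, 2, 1, 7, 76, 6, 31, 8, 113⟩ :=
  out_sound (S := T5.ds_pm) T5.ok_pm (w := 56) (j := 2) (by decide +kernel)
theorem L00951 : Good (Phi V5.P V5.D 1 (-1)) ⟨2, 0, 2, 1, 8, 154, 6, 30, 8, 112⟩ :=
  out_sound (S := T5.ds_pm) T5.ok_pm (w := 48) (j := 1) (by decide +kernel)
theorem L00952 : Good (Phi V5.P V5.D 1 (-1)) ⟨2, 0, 2, 1, 8, 155, 6, 30, 8, 112⟩ :=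
  out_sound (S := T5.ds_pm) T5.ok_pm (w := 58) (j := 2) (by decide +kernel)
theorem L00953 : Good (Phi V5.P V5.D 1 (-1)) ⟨2, 0, 2, 1, 7, 77, 6, 30, 8, 113⟩ :=
  out_sound (S := T5.ds_pm) T5.ok_pm (w := 46) (j := 1) (by decide +kernel)
theorem L00954 : Good (Phi V5.P V5.D 1 (-1)) ⟨2, 0, 2, 1, 7, 77, 6, 31, 7, 56⟩ :=
  out_sound (S := T5.ds_pm) T5.ok_pm (w := 54) (j := 2) (by decide +kernel)
theorem L00955 : Good (Phi V5.P V5.D 1 (-1)) ⟨2, 0, 2, 1, 6, 38, 5, 15, 7, 57⟩ :=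
  out_sound (S := T5.ds_pm) T5.ok_pm (w := 50) (j := 2) (by decide +kernel)
theorem L00956 : Good (Phi V5.P V5.D 1 (-1)) ⟨2, 0, 2, 1, 6, 39, 5, 15, 6, 28⟩ :=
  out_sound (S := T5.ds_pm) T5.ok_pm (w := 48) (j := 2) (by decide +kernel)
theorem L00957 : Good (Phi V5.P V5.D 1 (-1)) ⟨2, 0, 2, 1, 4, 9, 4, 7, 6, 29⟩ :=
  out_sound (S := T5.ds_pm) T5.ok_pm (w := 34) (j := 1) (by decide +kernel)
theorem L00958 : Good (Phi V5.P V5.D 1 (-1)) ⟨2, 0, 2, 1, 3, 4, 3, 3, 5, 15⟩ :=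
  out_sound (S := T5.ds_pm) T5.ok_pm (w := 29) (j := 1) (by decide +kernel)
theorem L00959 : Good (Phi V5.P V5.D 1 (-1)) ⟨2, 0, 2, 1, 4, 10, 3, 2, 5, 14⟩ :=
  out_sound (S := T5.ds_pm) T5.ok_pm (w := 31) (j := 1) (by decide +kernel)
theorem L00960 : Good (Phi V5.P V5.D 1 (-1)) ⟨2, 0, 2, 1, 5, 20, 5, 12, 6, 28⟩ :=
  out_sound (S := T5.ds_pm) T5.ok_pm (w := 37) (j := 1) (by decide +kernel)
theorem L00961 : Good (Phi V5.P V5.D 1 (-1)) ⟨2, 0, 2, 1, 5, 20, 5, 13, 6, 28⟩ :=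
  out_sound (S := T5.ds_pm) T5.ok_pm (w := 46) (j := 2) (by decide +kernel)
theorem L00962 : Good (Phi V5.P V5.D 1 (-1)) ⟨2, 0, 2, 1, 5, 20, 4, 7, 6, 28⟩ :=
  out_sound (S := T5.ds_pm) T5.ok_pm (w := 44) (j := 2) (by decide +kernel)
theorem L00963 : Good (Phi V5.P V5.D 1 (-1)) ⟨2, 0, 2, 1, 5, 20, 3, 3, 6, 29⟩ :=
  out_sound (S := T5.ds_pm) T5.ok_pm (w := 42) (j := 2) (by decide +kernel)
theorem L00964 : Good (Phi V5.P V5.D 1 (-1)) ⟨2, 0, 2, 1, 5, 21, 3, 3, 5, 14⟩ :=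
  out_sound (S := T5.ds_pm) T5.ok_pm (w := 40) (j := 2) (by decide +kernel)
theorem L00965 : Good (Phi V5.P V5.D 1 (-1)) ⟨2, 0, 2, 1, 4, 10, 2, 1, 5, 15⟩ :=
  out_sound (S := T5.ds_pm) T5.ok_pm (w := 36) (j := 2) (by decide +kernel)
theorem L00966 : Good (Phi V5.P V5.D 1 (-1)) ⟨2, 0, 2, 1, 4, 11, 2, 1, 4, 7⟩ :=
  out_sound (S := T5.ds_pm) T5.ok_pm (w := 34) (j := 2) (by decide +kernel)
theorem L00967 : Good (Phi V5.P V5.D 1 (-1)) ⟨2, 0, 2, 1, 2, 3, 1, 0, 4, 7⟩ :=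
  out_sound (S := T5.ds_pm) T5.ok_pm (w := 28) (j := 2) (by decide +kernel)
theorem L00968 : Good (Phi V5.P V5.D 1 (-1)) ⟨2, 0, 2, 1, 3, 4, 1, 0, 3, 4⟩ :=
  out_sound (S := T5.ds_pm) T5.ok_pm (w := 23) (j := 1) (by decide +kernel)
theorem L00969 : Good (Phi V5.P V5.D 1 (-1)) ⟨2, 0, 2, 1, 3, 5, 1, 0, 3, 4⟩ :=
  out_sound (S := T5.ds_pm) T5.ok_pm (w := 28) (j := 2) (by decide +kernel)
theorem L00970 : Good (Phi V5.P V5.D 1 (-1)) ⟨2, 0, 2, 1, 2, 2, 1, 0, 3, 5⟩ :=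
  out_sound (S := T5.ds_pm) T5.ok_pm (w := 21) (j := 1) (by decide +kernel)
theorem L00971 : Good (Phi V5.P V5.D 1 (-1)) ⟨2, 0, 2, 1, 2, 2, 1, 0, 2, 3⟩ :=
  out_sound (S := T5.ds_pm) T5.ok_pm (w := 19) (j := 1) (by decide +kernel)
theorem L00972 : Good (Phi V5.P V5.D 1 (-1)) ⟨2, 0, 2, 1, 2, 3, 1, 0, 1, 1⟩ :=
  out_sound (S := T5.ds_pm) T5.ok_pm (w := 22) (j := 2) (by decide +kernel)
theorem L00973 : Good (Phi V5.P V5.D 1 (-1)) ⟨2, 0, 3, 2, 1, 1, 2, 2, 3, 0⟩ :=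
  leafYS_sound T5.ok_pm T5.Ypm.bz_eq (w := 181) (c := ⟨⟨.ofNat 776, .negSucc 88, .negSucc 22, .negSucc 166, .negSucc 421, .negSucc 1423⟩, ⟨.negSucc 219, .ofNat 65, .negSucc 5, .ofNat 122, .ofNat 125, .ofNat 365⟩, ⟨.negSucc 932, .ofNat 153, .ofNat 138, .ofNat 514, .ofNat 620, .ofNat 714⟩, ⟨.ofNat 2252, .negSucc 141, .ofNat 38, .negSucc 229, .negSucc 1349, .negSucc 4311⟩, ⟨.ofNat 76, .ofNat 393, .ofNat 55, .ofNat 924, .negSucc 349, .negSucc 724⟩, .ofNat 946, .ofNat 706, .ofNat 0, .ofNat 706, .ofNat 2205, .ofNat 0, .ofNat 262, .negSucc 116, .negSucc 200, .ofNat 0, .ofNat 128, .ofNat 84, .ofNat 0, .ofNat 0, .ofNat 491, .ofNat 527, .ofNat 0, .ofNat 0, .ofNat 0, .ofNat 0, .ofNat 0, .ofNat 0, .ofNat 0, .ofNat 0, .ofNat 0, .ofNat 0, .ofNat 0, .ofNat 0, .ofNat 0, .ofNat 0, .ofNat 0, .ofNat 0⟩)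
    (by decide +kernel)
theorem L00974 : Good (Phi V5.P V5.D 1 (-1)) ⟨2, 0, 3, 2, 1, 1, 2, 3, 3, 0⟩ :=
  leafYS_sound T5.ok_pm T5.Ypm.bz_eq (w := 180) (c := ⟨⟨.ofNat 203, .negSucc 113, .negSucc 83, .negSucc 415, .negSucc 483, .negSucc 855⟩, ⟨.negSucc 135, .ofNat 78, .ofNat 94, .ofNat 203, .ofNat 260, .ofNat 249⟩, ⟨.negSucc 219, .ofNat 238, .ofNat 150, .ofNat 520, .ofNat 842, .ofNat 478⟩, ⟨.ofNat 349, .negSucc 63, .negSucc 172, .negSucc 969, .negSucc 1113, .negSucc 2578⟩, ⟨.negSucc 273, .ofNat 323, .ofNat 39, .ofNat 610, .ofNat 853, .negSucc 421⟩, .ofNat 767, .ofNat 437, .ofNat 0, .ofNat 437, .ofNat 1534, .ofNat 0, .ofNat 141, .negSucc 96, .negSucc 88, .ofNat 0, .ofNat 128, .ofNat 36, .ofNat 0, .ofNat 0, .ofNat 204, .ofNat 202, .ofNat 0, .ofNat 0, .ofNat 0, .ofNat 0, .ofNat 0, .ofNat 0, .ofNat 0, .ofNat 0, .ofNat 0, .ofNat 22957073178502947308247276878561280,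 .ofNat 0, .ofNat 0, .ofNat 0, .ofNat 782838447217949737481411445653504, .ofNat 0, .ofNat 0⟩)
    (by decide +kernel)
theorem L00975 : Good (Phi V5.P V5.D 1 (-1)) ⟨2, 0, 3, 2, 1, 1, 2, 2, 4, 2⟩ :=
  leafYS_sound T5.ok_pm T5.Ypm.bz_eq (w := 185) (c := ⟨⟨.negSucc 706, .negSucc 163, .ofNat 31, .negSucc 404, .negSucc 41, .negSucc 358⟩, ⟨.ofNat 87, .ofNat 97, .ofNat 133, .ofNat 208, .ofNat 24, .ofNat 117⟩, ⟨.ofNat 147, .ofNat 229, .ofNat 4, .ofNat 226, .ofNat 389, .ofNat 437⟩, ⟨.negSucc 2398, .negSucc 129, .ofNat 74, .negSucc 920, .negSucc 75, .negSucc 1066⟩, ⟨.negSucc 572, .ofNat 163, .ofNat 27, .ofNat 691, .ofNat 96, .negSucc 64⟩, .ofNat 869, .ofNat 589, .ofNat 0, .ofNat 589, .ofNat 1872, .ofNat 0, .ofNat 291, .negSucc 116, .negSucc 101, .ofNat 0, .ofNat 128, .ofNat 42, .ofNat 0, .ofNat 0, .ofNat 368, .ofNat 364, .ofNat 0, .ofNat 0, .ofNat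 0, .ofNat 0, .ofNat 0, .ofNat 0, .ofNat 0, .ofNat 0, .ofNat 0, .ofNat 0, .ofNat 0, .ofNat 0, .ofNat 0, .ofNat 0, .ofNat 0, .ofNat 0⟩)
    (by decide +kernel)
theorem L00976 : Good (Phi V5.P V5.D 1 (-1)) ⟨2, 0, 3, 2, 1, 1, 2, 2, 5, 6⟩ :=
  leafYS_sound T5.ok_pm T5.Ypm.bz_eq (w := 190) (c := ⟨⟨.negSucc 1037, .negSucc 201, .ofNat 24, .negSucc 410, .negSucc 60, .negSucc 25⟩, ⟨.ofNat 185, .ofNat 121, .ofNat 151, .ofNat 219, .ofNat 31, .ofNat 6⟩, ⟨.ofNat 596, .ofNat 274, .negSucc 3, .ofNat 192, .ofNat 403, .ofNat 84⟩, ⟨.negSucc 3342, .negSucc 256, .ofNat 49, .negSucc 917, .negSucc 142, .negSucc 89⟩, ⟨.negSucc 565, .ofNat 121, .ofNat 2, .ofNat 776, .ofNat 93, .negSucc 19⟩, .ofNat 864, .ofNat 560, .ofNat 0, .ofNat 560, .ofNat 1803, .ofNat 0, .ofNat 128, .negSucc 147, .negSucc 60, .ofNat 0, .ofNat 170, .ofNat 25, .ofNat 0, .ofNat 0, .ofNat 316,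 .ofNat 267, .ofNat 0, .ofNat 0, .ofNat 0, .ofNat 0, .ofNat 0, .ofNat 0, .ofNat 0, .ofNat 0, .ofNat 0, .ofNat 0, .ofNat 0, .ofNat 0, .ofNat 0, .ofNat 2136808667159966838240461210999848960, .ofNat 0, .ofNat 0⟩)
    (by decide +kernel)
theorem L00977 : Good (Phi V5.P V5.D 1 (-1)) ⟨2, 0, 3, 2, 1, 1, 2, 2, 5, 7⟩ :=
  leafYS_sound T5.ok_pm T5.Ypm.bz_eq (w := 190) (c := ⟨⟨.negSucc 1135, .negSucc 167, .ofNat 28, .negSucc 318, .negSucc 34, .ofNat 6⟩, ⟨.ofNat 224, .ofNat 93, .ofNat 155, .ofNat 180, .ofNat 17, .ofNat 3⟩, ⟨.ofNat 755, .ofNat 271, .negSucc 3, .ofNat 158, .ofNat 326, .ofNat 90⟩, ⟨.negSucc 3563, .negSucc 233, .ofNat 30, .negSucc 696, .negSucc 93, .ofNat 36⟩, ⟨.negSucc 470, .negSucc 78, .negSucc 9, .ofNat 700, .ofNat 20, .ofNat 72⟩, .ofNat 864, .ofNat 560, .ofNat 0, .ofNat 560, .ofNat 1803, .ofNat 0, .ofNat 129, .negSucc 108, .negSucc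 42, .ofNat 0, .ofNat 128, .ofNat 16, .ofNat 0, .ofNat 0, .ofNat 350, .ofNat 193, .ofNat 0, .ofNat 0, .ofNat 0, .ofNat 0, .ofNat 0, .ofNat 0, .ofNat 0, .ofNat 0, .ofNat 0, .ofNat 3976404638406754858120426702929657856, .ofNat 0, .ofNat 0, .ofNat 0, .ofNat 2740754083462835250577934755525820416, .ofNat 0, .ofNat 0⟩)
    (by decide +kernel)
theorem L00978 : Good (Phi V5.P V5.D 1 (-1)) ⟨2, 0, 3, 2, 1, 1, 2, 3, 4, 2⟩ :=
  leafYS_sound T5.ok_pm T5.Ypm.bz_eq (w := 185) (c := ⟨⟨.negSucc 691, .negSucc 298, .ofNat 14, .negSucc 614, .negSucc 232, .negSucc 327⟩, ⟨.ofNat 76, .ofNat 129, .ofNat 158, .ofNat 324, .ofNat 143, .ofNat 108⟩, ⟨.ofNat 462, .ofNat 406, .ofNat 0, .ofNat 497, .ofNat 642, .ofNat 329⟩, ⟨.negSucc 2353, .negSucc 538, .ofNat 34, .negSucc 1411, .negSucc 550, .negSucc 909⟩, ⟨.negSucc 558, .ofNat 69, .ofNat 47, .ofNat 1087, .ofNat 573,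 .ofNat 20⟩, .ofNat 950, .ofNat 693, .ofNat 0, .ofNat 693, .ofNat 2157, .ofNat 0, .ofNat 138, .negSucc 114, .negSucc 71, .ofNat 0, .ofNat 128, .ofNat 26, .ofNat 0, .ofNat 0, .ofNat 256, .ofNat 225, .ofNat 0, .ofNat 0, .ofNat 0, .ofNat 0, .ofNat 0, .ofNat 58107253789427042982567283143999488, .ofNat 0, .ofNat 0, .ofNat 0, .ofNat 309529637317976142760765334487040000, .ofNat 0, .ofNat 0, .ofNat 0, .ofNat 155492369233635297755837762088468480, .ofNat 0, .ofNat 0⟩)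
    (by decide +kernel)
theorem L00979 : Good (Phi V5.P V5.D 1 (-1)) ⟨2, 0, 3, 2, 2, 2, 2, 3, 4, 3⟩ :=
  leafYS_sound T5.ok_pm T5.Ypm.bz_eq (w := 199) (c := ⟨⟨.negSucc 1017, .negSucc 225, .negSucc 5, .negSucc 288, .negSucc 191, .negSucc 68⟩, ⟨.ofNat 194, .ofNat 104, .ofNat 167, .ofNat 129, .ofNat 97, .ofNat 23⟩, ⟨.ofNat 737, .ofNat 407, .ofNat 57, .ofNat 358, .ofNat 465, .ofNat 195⟩, ⟨.negSucc 3217, .negSucc 401, .negSucc 22, .negSucc 745, .negSucc 487, .negSucc 184⟩, ⟨.negSucc 378, .negSucc 133, .ofNat 8, .ofNat 317, .ofNat 308, .negSucc 3⟩, .ofNat 655, .ofNat 302, .ofNat 0, .ofNat 302, .ofNat 1187, .ofNat 0, .ofNat 289, .negSucc 89, .negSucc 67, .ofNat 0, .ofNat 128, .ofNat 22, .ofNat 0, .ofNat 0, .ofNat 376, .ofNat 354, .ofNat 0, .ofNat 0, .ofNat 0, .ofNat 0, .ofNat 0, .ofNat 0, .ofNat 0, .ofNat 0, .ofNat 0, .ofNat 1715555971957991285361887166725951062016,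 .ofNat 0, .ofNat 0, .ofNat 0, .ofNat 1951363599208703317505835547828668071936, .ofNat 0, .ofNat 0⟩)
    (by decide +kernel)
theorem L00980 : Good (Phi V5.P V5.D 1 (-1)) ⟨2, 0, 3, 2, 2, 3, 2, 3, 4, 3⟩ :=
  leafYS_sound T5.ok_pm T5.Ypm.bz_eq (w := 199) (c := ⟨⟨.negSucc 1233, .negSucc 362, .negSucc 31, .negSucc 329, .negSucc 384, .negSucc 33⟩, ⟨.ofNat 289, .ofNat 151, .ofNat 197, .ofNat 226, .ofNat 198, .ofNat 9⟩, ⟨.ofNat 1004, .ofNat 439, .ofNat 69, .ofNat 129, .ofNat 821, .ofNat 246⟩, ⟨.negSucc 3838, .negSucc 668, .negSucc 45, .negSucc 593, .negSucc 861, .negSucc 90⟩, ⟨.negSucc 145, .ofNat 24, .ofNat 36, .ofNat 1117, .ofNat 628, .ofNat 5⟩, .ofNat 658, .ofNat 309, .ofNat 0, .ofNat 309, .ofNat 1191, .ofNat 0, .ofNat 207, .negSucc 93, .negSucc 29, .ofNat 0, .ofNat 128, .ofNat 2, .ofNat 0, .ofNat 0, .ofNat 296, .ofNat 103, .ofNat 0, .ofNat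 20977494824048009496660831692950339584, .ofNat 0, .ofNat 0, .ofNat 0, .ofNat 0, .ofNat 0, .ofNat 0, .ofNat 0, .ofNat 1329635212065733148789197177827526443008, .ofNat 0, .ofNat 0, .ofNat 0, .ofNat 1667133992721556636661244124354672852992, .ofNat 0, .ofNat 0⟩)
    (by decide +kernel)
theorem L00981 : Good (Phi V5.P V5.D 1 (-1)) ⟨2, 0, 3, 2, 2, 2, 2, 2, 4, 4⟩ :=
  leafYS_sound T5.ok_pm T5.Ypm.bz_eq (w := 201) (c := ⟨⟨.negSucc 1137, .negSucc 168, .ofNat 1, .negSucc 121, .negSucc 25, .ofNat 58⟩, ⟨.ofNat 230, .ofNat 102, .ofNat 158, .ofNat 52, .ofNat 17, .negSucc 15⟩, ⟨.ofNat 849, .ofNat 256, .ofNat 18, .ofNat 69, .ofNat 294, .ofNat 165⟩, ⟨.negSucc 3578, .negSucc 193, .negSucc 26, .negSucc 322, .negSucc 57, .ofNat 174⟩, ⟨.negSucc 448, .ofNat 33, .ofNat 8, .ofNat 87, .ofNat 65, .ofNat 38⟩, .ofNat 662, .ofNat 319, .ofNat 0, .ofNat 319, .ofNat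 1201, .ofNat 0, .ofNat 205, .negSucc 89, .negSucc 67, .ofNat 0, .ofNat 128, .ofNat 23, .ofNat 0, .ofNat 0, .ofNat 816, .ofNat 1624, .ofNat 0, .ofNat 0, .ofNat 0, .ofNat 0, .ofNat 0, .ofNat 0, .ofNat 0, .ofNat 0, .ofNat 0, .ofNat 1865454650344033876052914848513310851072, .ofNat 0, .ofNat 0, .ofNat 0, .ofNat 8772667488716150054415573737921163821056, .ofNat 0, .ofNat 0⟩)
    (by decide +kernel)
theorem L00982 : Good (Phi V5.P V5.D 1 (-1)) ⟨2, 0, 3, 2, 3, 6, 2, 2, 5, 8⟩ :=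
  leafYS_sound T5.ok_pm T5.Ypm.bz_eq (w := 219) (c := ⟨⟨.negSucc 1203, .negSucc 264, .negSucc 12, .negSucc 65, .negSucc 94, .ofNat 39⟩, ⟨.ofNat 270, .ofNat 130, .ofNat 174, .ofNat 59, .ofNat 41, .negSucc 17⟩, ⟨.ofNat 774, .ofNat 324, .ofNat 48, .ofNat 62, .ofNat 530, .ofNat 128⟩, ⟨.negSucc 3814, .negSucc 376, .negSucc 20, .negSucc 52, .negSucc 221, .ofNat 114⟩, ⟨.negSucc 313, .ofNat 89, .ofNat 33, .ofNat 375, .ofNat 114, .negSucc 48⟩, .ofNat 418, .ofNat 109, .ofNat 0, .ofNat 109, .ofNat 603, .ofNat 0, .ofNat 135, .negSucc 58, .negSucc 17, .ofNat 0, .ofNat 128, .negSucc 6, .ofNat 0, .ofNat 0, .ofNat 405, .ofNat 1051, .ofNat 0, .ofNat 0, .ofNat 0, .ofNat 0, .ofNat 0, .ofNat 0, .ofNat 0, .ofNat 0, .ofNat 0, .ofNat 39802202926392002240083272400699662012514304, .ofNat 0, .ofNat 0, .ofNat 0, .ofNat 88227297357965439704885145098211959408427008,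 .ofNat 0, .ofNat 0⟩)
    (by decide +kernel)
theorem L00983 : Good (Phi V5.P V5.D 1 (-1)) ⟨2, 0, 3, 2, 3, 7, 2, 2, 5, 8⟩ :=
  leafYS_sound T5.ok_pm T5.Ypm.bz_eq (w := 218) (c := ⟨⟨.negSucc 1266, .negSucc 281, .negSucc 26, .negSucc 52, .negSucc 113, .ofNat 66⟩, ⟨.ofNat 320, .ofNat 145, .ofNat 186, .ofNat 68, .ofNat 61, .negSucc 25⟩, ⟨.ofNat 865, .ofNat 275, .ofNat 45, .ofNat 117, .ofNat 532, .ofNat 126⟩, ⟨.negSucc 3881, .negSucc 360, .negSucc 16, .negSucc 10, .negSucc 289, .ofNat 168⟩, ⟨.negSucc 51, .ofNat 279, .ofNat 89, .ofNat 470, .ofNat 188, .negSucc 37⟩, .ofNat 658, .ofNat 312, .ofNat 0, .ofNat 312, .ofNat 1195, .ofNat 0, .ofNat 241, .negSucc 79, .ofNat 6, .ofNat 0, .ofNat 128, .negSucc 17, .ofNat 0, .ofNat 0, .ofNat 366, .ofNat 370, .ofNat 0, .ofNat 0, .ofNat 0, .ofNat 0, .ofNat 0, .ofNat 0, .ofNat 0, .ofNat 0, .ofNat 0, .ofNat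 42684398476629088406614051574793675198169088, .ofNat 0, .ofNat 0, .ofNat 0, .ofNat 109969252743028882780652569913332402271289344, .ofNat 0, .ofNat 0⟩)
    (by decide +kernel)
theorem L00984 : Good (Phi V5.P V5.D 1 (-1)) ⟨2, 0, 3, 2, 2, 3, 2, 2, 5, 9⟩ :=
  leafYS_sound T5.ok_pm T5.Ypm.bz_eq (w := 204) (c := ⟨⟨.negSucc 1199, .negSucc 230, .negSucc 9, .negSucc 83, .negSucc 80, .ofNat 65⟩, ⟨.ofNat 265, .ofNat 116, .ofNat 170, .ofNat 101, .ofNat 33, .negSucc 21⟩, ⟨.ofNat 897, .ofNat 317, .ofNat 48, .ofNat 173, .ofNat 505, .ofNat 127⟩, ⟨.negSucc 3744, .negSucc 311, .negSucc 41, .negSucc 9, .negSucc 148, .ofNat 163⟩, ⟨.negSucc 327, .ofNat 80, .ofNat 25, .ofNat 689, .ofNat 123, .negSucc 23⟩, .ofNat 661, .ofNat 307, .ofNat 0, .ofNat 307, .ofNat 1176, .ofNat 0, .ofNat 202, .negSucc 80, .ofNat 54, .ofNat 0, .ofNat 128, .negSucc 48, .ofNat 0, .ofNat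 0, .ofNat 568, .ofNat 198, .ofNat 0, .ofNat 102018191958412483326741826960791437312, .ofNat 0, .ofNat 0, .ofNat 0, .ofNat 0, .ofNat 0, .ofNat 0, .ofNat 0, .ofNat 10996969634543227727848478381944038490112, .ofNat 0, .ofNat 0, .ofNat 0, .ofNat 58053711091874231618480299844258154676224, .ofNat 0, .ofNat 0⟩)
    (by decide +kernel)
theorem L00985 : Good (Phi V5.P V5.D 1 (-1)) ⟨3, 0, 3, 2, 2, 2, 2, 2, 4, 5⟩ :=
  leafYS_sound T5.ok_pm T5.Ypm.bz_eq (w := 204) (c := ⟨⟨.negSucc 1123, .negSucc 54, .ofNat 5, .negSucc 55, .negSucc 21, .ofNat 78⟩, ⟨.ofNat 235, .ofNat 52, .ofNat 148, .ofNat 18, .ofNat 16, .negSucc 23⟩, ⟨.ofNat 999, .ofNat 122, .ofNat 55, .ofNat 139, .ofNat 236, .ofNat 217⟩, ⟨.negSucc 3478, .negSucc 104, .negSucc 33, .negSucc 158, .negSucc 39, .ofNat 244⟩, ⟨.negSucc 370, .negSucc 2, .negSucc 3, .ofNat 7, .ofNat 75, .ofNat 22⟩, .ofNat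 850, .ofNat 512, .ofNat 0, .ofNat 512, .ofNat 1738, .ofNat 0, .ofNat 154, .negSucc 93, .negSucc 16, .ofNat 0, .ofNat 128, .negSucc 0, .ofNat 0, .ofNat 0, .ofNat 967, .ofNat 969, .ofNat 0, .ofNat 0, .ofNat 0, .ofNat 0, .ofNat 0, .ofNat 31622816973685600668017755083295042830336, .ofNat 0, .ofNat 0, .ofNat 0, .ofNat 40064494748746642074588277645379222110208, .ofNat 0, .ofNat 0, .ofNat 0, .ofNat 259396535786838496335678804063088680108032, .ofNat 0, .ofNat 0⟩)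
    (by decide +kernel)
theorem L00986 : Good (Phi V5.P V5.D 1 (-1)) ⟨3, 1, 3, 2, 2, 2, 2, 2, 4, 5⟩ :=
  leafYS_sound T5.ok_pm T5.Ypm.bz_eq (w := 204) (c := ⟨⟨.negSucc 1165, .negSucc 99, .ofNat 0, .negSucc 74, .negSucc 32, .ofNat 73⟩, ⟨.ofNat 286, .ofNat 33, .ofNat 147, .ofNat 27, .ofNat 13, .negSucc 25⟩, ⟨.ofNat 1049, .ofNat 170, .ofNat 80, .ofNat 175, .ofNat 308, .ofNat 228⟩, ⟨.negSucc 3526, .negSucc 72, .negSucc 40, .negSucc 206, .negSucc 92, .ofNat 211⟩, ⟨.negSucc 336, .negSucc 21, .negSucc 12, .ofNat 14, .ofNat 1, .ofNat 0⟩, .ofNat 854, .ofNat 595, .ofNat 0, .ofNat 595, .ofNat 1934, .ofNat 0, .ofNat 300, .negSucc 108, .negSucc 32, .ofNat 0, .ofNat 128, .ofNat 5, .ofNat 0, .ofNat 0, .ofNat 1290, .ofNat 1079, .ofNat 0, .ofNat 0, .ofNat 0, .ofNat 0, .ofNat 0, .ofNat 0, .ofNat 0, .ofNat 0, .ofNat 0, .ofNat 54484052154791320615797014567332706516992,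 .ofNat 0, .ofNat 0, .ofNat 0, .ofNat 453291628595559820252560997739086204633088, .ofNat 0, .ofNat 0⟩)
    (by decide +kernel)
theorem L00987 : Good (Phi V5.P V5.D 1 (-1)) ⟨2, 0, 3, 2, 2, 3, 2, 2, 4, 5⟩ :=
  leafYS_sound T5.ok_pm T5.Ypm.bz_eq (w := 199) (c := ⟨⟨.negSucc 1175, .negSucc 198, .ofNat 0, .negSucc 22, .negSucc 31, .ofNat 143⟩, ⟨.ofNat 258, .ofNat 102, .ofNat 160, .ofNat 60, .ofNat 17, .negSucc 42⟩, ⟨.ofNat 1037, .ofNat 302, .ofNat 62, .ofNat 176, .ofNat 531, .ofNat 336⟩, ⟨.negSucc 3634, .negSucc 254, .negSucc 33, .ofNat 47, .negSucc 76, .ofNat 366⟩, ⟨.negSucc 313, .ofNat 46, .ofNat 18, .ofNat 453, .ofNat 62, .negSucc 26⟩, .ofNat 417, .ofNat 107, .ofNat 0, .ofNat 107, .ofNat 604, .ofNat 0, .ofNat 208, .negSucc 54, .ofNat 7, .ofNat 0, .ofNat 128, .negSucc 14, .ofNat 0, .ofNat 0, .ofNat 406, .ofNat 392, .ofNat 0, .ofNat 64569186254848358386260497842239963136,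 .ofNat 0, .ofNat 0, .ofNat 0, .ofNat 2732030032829744059892579163760991666176, .ofNat 0, .ofNat 0, .ofNat 0, .ofNat 1857980476018997139394680222133476392960, .ofNat 0, .ofNat 0, .ofNat 0, .ofNat 7907326560386555068169912345600957874176, .ofNat 0, .ofNat 0⟩)
    (by decide +kernel)
theorem L00988 : Good (Phi V5.P V5.D 1 (-1)) ⟨2, 0, 3, 2, 3, 4, 2, 3, 4, 4⟩ :=
  leafYS_sound T5.ok_pm T5.Ypm.bz_eq (w := 214) (c := ⟨⟨.negSucc 1126, .negSucc 195, .ofNat 5, .negSucc 88, .negSucc 130, .ofNat 26⟩, ⟨.ofNat 245, .ofNat 90, .ofNat 156, .ofNat 31, .ofNat 62, .negSucc 3⟩, ⟨.ofNat 947, .ofNat 380, .ofNat 62, .ofNat 212, .ofNat 321, .ofNat 169⟩, ⟨.negSucc 3473, .negSucc 360, .negSucc 28, .negSucc 256, .negSucc 318, .ofNat 80⟩, ⟨.negSucc 267, .negSucc 171, .negSucc 5, .ofNat 4, .ofNat 161, .ofNat 31⟩, .ofNat 661, .ofNat 309, .ofNat 0, .ofNat 309, .ofNat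 1185, .ofNat 0, .ofNat 286, .negSucc 85, .negSucc 35, .ofNat 0, .ofNat 128, .ofNat 7, .ofNat 0, .ofNat 0, .ofNat 462, .ofNat 694, .ofNat 0, .ofNat 0, .ofNat 0, .ofNat 0, .ofNat 0, .ofNat 22476892699039688580510321876317070551941120, .ofNat 0, .ofNat 0, .ofNat 0, .ofNat 9600389886952504635057464594502573879197696, .ofNat 0, .ofNat 0, .ofNat 0, .ofNat 15383718472873258443913532867405537058226176, .ofNat 0, .ofNat 0⟩)
    (by decide +kernel)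
theorem L00989 : Good (Phi V5.P V5.D 1 (-1)) ⟨2, 0, 3, 2, 3, 5, 2, 3, 4, 4⟩ :=
  leafYS_sound T5.ok_pm T5.Ypm.bz_eq (w := 212) (c := ⟨⟨.negSucc 1209, .negSucc 240, .negSucc 2, .negSucc 114, .negSucc 204, .ofNat 60⟩, ⟨.ofNat 275, .ofNat 98, .ofNat 166, .ofNat 55, .ofNat 90, .negSucc 19⟩, ⟨.ofNat 1066, .ofNat 437, .ofNat 74, .ofNat 185, .ofNat 547, .ofNat 243⟩, ⟨.negSucc 3735, .negSucc 429, .negSucc 32, .negSucc 270, .negSucc 501, .ofNat 154⟩, ⟨.negSucc 240, .negSucc 161, .negSucc 11, .ofNat 192, .ofNat 240, .negSucc 5⟩, .ofNat 417, .ofNat 105, .ofNat 0, .ofNat 105, .ofNat 602, .ofNat 0, .ofNat 272, .negSucc 57, .negSucc 19, .ofNat 0, .ofNat 128, .negSucc 2, .ofNat 0, .ofNat 0, .ofNat 294, .ofNat 83, .ofNat 0, .ofNat 48006484125379492943664626302304290603008, .ofNat 0, .ofNat 0, .ofNat 0, .ofNat 0, .ofNat 0, .ofNat 0, .ofNat 0, .ofNat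 5433325963186337418363720930360936816967680, .ofNat 0, .ofNat 0, .ofNat 0, .ofNat 9150031800804902294060799762289792525533184, .ofNat 0, .ofNat 0⟩)
    (by decide +kernel)
theorem L00990 : Good (Phi V5.P V5.D 1 (-1)) ⟨2, 0, 3, 2, 2, 3, 2, 3, 4, 4⟩ :=
  leafYS_sound T5.ok_pm T5.Ypm.bz_eq (w := 200) (c := ⟨⟨.negSucc 1294, .negSucc 291, .negSucc 11, .negSucc 269, .negSucc 266, .ofNat 48⟩, ⟨.ofNat 326, .ofNat 115, .ofNat 179, .ofNat 151, .ofNat 72, .negSucc 30⟩, ⟨.ofNat 1222, .ofNat 461, .ofNat 75, .ofNat 335, .ofNat 702, .ofNat 280⟩, ⟨.negSucc 3951, .negSucc 534, .negSucc 51, .negSucc 432, .negSucc 504, .ofNat 177⟩, ⟨.negSucc 30, .negSucc 127, .negSucc 4, .ofNat 760, .ofNat 342, .negSucc 45⟩, .ofNat 192, .ofNat 19, .ofNat 0, .ofNat 19, .ofNat 225, .ofNat 0, .ofNat 239, .negSucc 40, .negSucc 15, .ofNat 0, .ofNat 128, .negSucc 11, .ofNat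 0, .ofNat 0, .ofNat 149, .ofNat 626, .ofNat 0, .ofNat 134630283547711738826792654268356624384, .ofNat 0, .ofNat 0, .ofNat 0, .ofNat 4249831455659695263120050645956990861312, .ofNat 0, .ofNat 0, .ofNat 0, .ofNat 2631646852155826955322305344270399176704, .ofNat 0, .ofNat 0, .ofNat 0, .ofNat 2174623286266826984424817364810829135872, .ofNat 0, .ofNat 0⟩)
    (by decide +kernel)
theorem L00991 : Good (Phi V5.P V5.D 1 (-1)) ⟨2, 0, 3, 2, 2, 2, 3, 6, 4, 5⟩ :=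
  leafYS_sound T5.ok_pm T5.Ypm.bz_eq (w := 204) (c := ⟨⟨.negSucc 1107, .negSucc 177, .ofNat 3, .negSucc 139, .negSucc 59, .ofNat 51⟩, ⟨.ofNat 250, .ofNat 79, .ofNat 147, .ofNat 39, .ofNat 27, .negSucc 16⟩, ⟨.ofNat 1072, .ofNat 349, .ofNat 117, .ofNat 584, .ofNat 138, .ofNat 229⟩, ⟨.negSucc 3406, .negSucc 309, .negSucc 29, .negSucc 439, .negSucc 161, .ofNat 149⟩, ⟨.negSucc 199, .negSucc 178, .negSucc 27, .negSucc 95, .ofNat 44, .negSucc 2⟩, .ofNat 416, .ofNat 108, .ofNat 0, .ofNat 108, .ofNat 606, .ofNat 0, .ofNat 314, .negSucc 53, .negSucc 25, .ofNat 0, .ofNat 128, .negSucc 12, .ofNat 0, .ofNat 0, .ofNat 682, .ofNat 825, .ofNat 0, .ofNat 174718980070968550089092598211956178944, .ofNat 0, .ofNat 0, .ofNat 0, .ofNat 27345410131690252208747704613209649446912, .ofNat 0, .ofNat 0, .ofNat 0, .ofNat 12151699008274413172194609404648355790848,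 .ofNat 0, .ofNat 0, .ofNat 0, .ofNat 63975598228147885631753614051908528373760, .ofNat 0, .ofNat 0⟩)
    (by decide +kernel)
theorem L00992 : Good (Phi V5.P V5.D 1 (-1)) ⟨2, 0, 3, 2, 2, 2, 3, 7, 4, 5⟩ :=
  out_sound (S := T5.ds_pm) T5.ok_pm (w := 32) (j := 2) (by decide +kernel)
theorem L00993 : Good (Phi V5.P V5.D 1 (-1)) ⟨2, 0, 3, 2, 2, 3, 2, 3, 4, 5⟩ :=
  out_sound (S := T5.ds_pm) T5.ok_pm (w := 30) (j := 2) (by decide +kernel)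
theorem L00994 : Good (Phi V5.P V5.D 1 (-1)) ⟨2, 0, 3, 2, 3, 4, 3, 4, 4, 6⟩ :=
  leafYS_sound T5.ok_pm T5.Ypm.bz_eq (w := 220) (c := ⟨⟨.negSucc 1058, .negSucc 131, .ofNat 10, .negSucc 6, .negSucc 3, .ofNat 82⟩, ⟨.ofNat 234, .ofNat 71, .ofNat 136, .negSucc 3, .ofNat 2, .negSucc 29⟩, ⟨.ofNat 1063, .ofNat 274, .ofNat 114, .ofNat 259, .ofNat 170, .ofNat 439⟩, ⟨.negSucc 3272, .negSucc 143, .negSucc 22, .negSucc 44, .negSucc 25, .ofNat 231⟩, ⟨.negSucc 273, .negSucc 58, .negSucc 14, .negSucc 74, .negSucc 12, .negSucc 26⟩, .ofNat 417, .ofNat 105, .ofNat 0, .ofNat 105, .ofNat 603, .ofNat 0, .ofNat 386, .negSucc 49, .negSucc 7, .ofNat 0, .ofNat 128, .negSucc 30, .ofNat 0, .ofNat 0, .ofNat 2009, .ofNat 2940, .ofNat 0, .ofNat 0, .ofNat 0, .ofNat 0, .ofNat 0, .ofNat 0, .ofNat 0, .ofNat 0, .ofNat 0, .ofNat 50316614883765134871695048305073664886308864,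 .ofNat 0, .ofNat 0, .ofNat 0, .ofNat 1174535874792534820560359634226151947231035392, .ofNat 0, .ofNat 0⟩)
    (by decide +kernel)
theorem L00995 : Good (Phi V5.P V5.D 1 (-1)) ⟨2, 0, 3, 2, 3, 4, 3, 5, 4, 6⟩ :=
  leafYS_sound T5.ok_pm T5.Ypm.bz_eq (w := 220) (c := ⟨⟨.negSucc 1055, .negSucc 133, .ofNat 20, .negSucc 18, .negSucc 28, .ofNat 71⟩, ⟨.ofNat 239, .ofNat 66, .ofNat 132, .negSucc 1, .ofNat 11, .negSucc 29⟩, ⟨.ofNat 1171, .ofNat 341, .ofNat 180, .ofNat 301, .ofNat 71, .ofNat 463⟩, ⟨.negSucc 3274, .negSucc 185, .negSucc 8, .negSucc 52, .negSucc 64, .ofNat 216⟩, ⟨.negSucc 248, .negSucc 128, .negSucc 33, .negSucc 58, .ofNat 19, .negSucc 30⟩, .ofNat 659, .ofNat 308, .ofNat 0, .ofNat 308, .ofNat 1187, .ofNat 0, .ofNat 425, .negSucc 81, .ofNat 17, .ofNat 0, .ofNat 128, .negSucc 36, .ofNat 0, .ofNat 0, .ofNat 1921, .ofNat 2864, .ofNat 0,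 .ofNat 1580285956897227842212997746828916048265216, .ofNat 0, .ofNat 0, .ofNat 0, .ofNat 0, .ofNat 0, .ofNat 0, .ofNat 0, .ofNat 117651531477384625390617387744249648552869888, .ofNat 0, .ofNat 0, .ofNat 0, .ofNat 1684756067325365832246506342811512949576826880, .ofNat 0, .ofNat 0⟩)
    (by decide +kernel)
theorem L00996 : Good (Phi V5.P V5.D 1 (-1)) ⟨2, 0, 3, 2, 3, 5, 2, 2, 4, 6⟩ :=
  leafYS_sound T5.ok_pm T5.Ypm.bz_eq (w := 215) (c := ⟨⟨.negSucc 1072, .negSucc 145, .ofNat 12, .ofNat 2, .negSucc 3, .ofNat 119⟩, ⟨.ofNat 229, .ofNat 80, .ofNat 138, .negSucc 1, .negSucc 1, .negSucc 40⟩, ⟨.ofNat 1253, .ofNat 267, .ofNat 132, .ofNat 219, .ofNat 555, .ofNat 579⟩, ⟨.negSucc 3332, .negSucc 168, .negSucc 21, .ofNat 5, .negSucc 29, .ofNat 304⟩, ⟨.negSucc 344, .negSucc 36, .negSucc 17, .negSucc 0, .negSucc 40, .negSucc 45⟩, .ofNat 418, .ofNat 107,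 .ofNat 0, .ofNat 107, .ofNat 602, .ofNat 0, .ofNat 285, .negSucc 51, .ofNat 22, .ofNat 0, .ofNat 128, .negSucc 32, .ofNat 0, .ofNat 0, .ofNat 1176, .ofNat 2154, .ofNat 0, .ofNat 1138940243156403803030307435410040326979584, .ofNat 0, .ofNat 0, .ofNat 0, .ofNat 60892970038511332685331028871934695677362176, .ofNat 0, .ofNat 0, .ofNat 0, .ofNat 35600182080165247237694473042815433983393792, .ofNat 0, .ofNat 0, .ofNat 0, .ofNat 294265180915142348315683684458847599008415744, .ofNat 0, .ofNat 0⟩)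
    (by decide +kernel)
theorem L00997 : Good (Phi V5.P V5.D 1 (-1)) ⟨2, 0, 3, 2, 4, 8, 2, 2, 5, 14⟩ :=
  leafYS_sound T5.ok_pm T5.Ypm.bz_eq (w := 236) (c := ⟨⟨.negSucc 985, .negSucc 128, .ofNat 21, .ofNat 12, .negSucc 18, .ofNat 52⟩, ⟨.ofNat 219, .ofNat 65, .ofNat 122, .negSucc 12, .negSucc 2, .negSucc 24⟩, ⟨.ofNat 1324, .ofNat 248, .ofNat 302, .ofNat 362, .ofNat 460, .ofNat 457⟩, ⟨.negSucc 3057, .negSucc 158, .negSucc 4, .ofNat 18, .negSucc 56, .ofNat 138⟩, ⟨.negSucc 246, .negSucc 99, .negSucc 40, .negSucc 69, .negSucc 70, .negSucc 50⟩, .ofNat 858, .ofNat 558, .ofNat 0, .ofNat 558, .ofNat 1827, .ofNat 0, .ofNat 378, .negSucc 97, .ofNat 44, .ofNat 0, .ofNat 128, .negSucc 41, .ofNat 0, .ofNat 0, .ofNat 2212, .ofNat 5513, .ofNat 0, .ofNat 0, .ofNat 0, .ofNat 0, .ofNat 0, .ofNat 0, .ofNat 0, .ofNat 0, .ofNat 0, .ofNat 1480651146854175911846984149324265577122151530496,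 .ofNat 0, .ofNat 0, .ofNat 0, .ofNat 18043479629815381162924729818783376909486392344576, .ofNat 0, .ofNat 0⟩)
    (by decide +kernel)
theorem L00998 : Good (Phi V5.P V5.D 1 (-1)) ⟨2, 0, 3, 2, 4, 9, 2, 2, 5, 14⟩ :=
  leafYS_sound T5.ok_pm T5.Ypm.bz_eq (w := 235) (c := ⟨⟨.negSucc 983, .negSucc 127, .ofNat 20, .ofNat 20, .ofNat 29, .ofNat 59⟩, ⟨.ofNat 207, .ofNat 67, .ofNat 123, .negSucc 11, .negSucc 8, .negSucc 29⟩, ⟨.ofNat 1627, .ofNat 252, .ofNat 289, .ofNat 358, .ofNat 676, .ofNat 616⟩, ⟨.negSucc 3072, .negSucc 135, .negSucc 1, .ofNat 36, .ofNat 19, .ofNat 164⟩, ⟨.negSucc 327, .negSucc 61, .negSucc 40, .negSucc 79, .negSucc 107, .negSucc 82⟩, .ofNat 192, .ofNat 19, .ofNat 0, .ofNat 19, .ofNat 226, .ofNat 0, .ofNat 233, .negSucc 23, .ofNat 36, .ofNat 0, .ofNat 128, .negSucc 59, .ofNat 0, .ofNat 0, .ofNat 916, .ofNat 3490, .ofNat 0, .ofNat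 62326785891535436813922855962144774606481784832, .ofNat 0, .ofNat 0, .ofNat 0, .ofNat 1847272283356050224809192585391744643235001139200, .ofNat 0, .ofNat 0, .ofNat 0, .ofNat 1308310791372427591603278179531790052182093463552, .ofNat 0, .ofNat 0, .ofNat 0, .ofNat 8145059001349023695028721674836776935015210549248, .ofNat 0, .ofNat 0⟩)
    (by decide +kernel)
theorem L00999 : Good (Phi V5.P V5.D 1 (-1)) ⟨2, 0, 3, 2, 4, 8, 4, 8, 5, 15⟩ :=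
  out_sound (S := T5.ds_pm) T5.ok_pm (w := 32) (j := 1) (by decide +kernel)
theorem L01000 : Good (Phi V5.P V5.D 1 (-1)) ⟨2, 0, 3, 2, 5, 16, 4, 9, 6, 30⟩ :=
  out_sound (S := T5.ds_pm) T5.ok_pm (w := 36) (j := 1) (by decide +kernel)
theorem L01001 : Good (Phi V5.P V5.D 1 (-1)) ⟨2, 0, 3, 2, 5, 17, 4, 9, 6, 30⟩ :=
  out_sound (S := T5.ds_pm) T5.ok_pm (w := 44) (j := 2) (by decide +kernel)
theorem L01002 : Good (Phi V5.P V5.D 1 (-1)) ⟨2, 0, 3, 2, 4, 8, 4, 9, 6, 31⟩ :=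
  out_sound (S := T5.ds_pm) T5.ok_pm (w := 34) (j := 1) (by decide +kernel)
theorem L01003 : Good (Phi V5.P V5.D 1 (-1)) ⟨2, 0, 3, 2, 4, 8, 3, 5, 5, 15⟩ :=
  out_sound (S := T5.ds_pm) T5.ok_pm (w := 38) (j := 2) (by decide +kernel)
theorem L01004 : Good (Phi V5.P V5.D 1 (-1)) ⟨2, 0, 3, 2, 4, 9, 2, 2, 5, 15⟩ :=
  out_sound (S := T5.ds_pm) T5.ok_pm (w := 36) (j := 2) (by decide +kernel)
theorem L01005 : Good (Phi V5.P V5.D 1 (-1)) ⟨2, 0, 3, 2, 3, 5, 2, 2, 4, 7⟩ :=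
  out_sound (S := T5.ds_pm) T5.ok_pm (w := 32) (j := 2) (by decide +kernel)
theorem L01006 : Good (Phi V5.P V5.D 1 (-1)) ⟨2, 0, 3, 2, 2, 2, 2, 3, 3, 3⟩ :=
  leafYS_sound T5.ok_pm T5.Ypm.bz_eq (w := 196) (c := ⟨⟨.negSucc 1064, .negSucc 169, .ofNat 9, .negSucc 87, .negSucc 111, .ofNat 112⟩, ⟨.ofNat 244, .ofNat 71, .ofNat 138, .ofNat 13, .ofNat 35, .negSucc 32⟩, ⟨.ofNat 1290, .ofNat 327, .ofNat 154, .ofNat 929, .ofNat 233, .ofNat 625⟩, ⟨.negSucc 3283, .negSucc 279, .negSucc 20, .negSucc 272, .negSucc 247, .ofNat 366⟩, ⟨.negSucc 202, .negSucc 172, .negSucc 31, .negSucc 204, .ofNat 56, .negSucc 38⟩, .ofNat 192, .ofNat 19, .ofNat 0, .ofNat 19, .ofNat 226, .ofNat 0, .ofNat 381, .negSucc 23, .negSucc 18, .ofNat 0, .ofNat 128, .negSucc 43, .ofNat 0, .ofNat 0, .ofNat 590, .ofNat 1472, .ofNat 0, .ofNat 69244463681576104509156777407002181632, .ofNat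 0, .ofNat 0, .ofNat 0, .ofNat 3413769356020712766044133338093734330368, .ofNat 0, .ofNat 0, .ofNat 0, .ofNat 1109426449306643650273447291828305920000, .ofNat 0, .ofNat 0, .ofNat 0, .ofNat 5513954148545491728573455313823300845568, .ofNat 0, .ofNat 0⟩)
    (by decide +kernel)
theorem L01007 : Good (Phi V5.P V5.D 1 (-1)) ⟨2, 0, 3, 2, 2, 3, 1, 1, 3, 3⟩ :=
  out_sound (S := T5.ds_pm) T5.ok_pm (w := 26) (j := 2) (by decide +kernel)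
theorem L01008 : Good (Phi V5.P V5.D 1 (-1)) ⟨2, 0, 3, 2, 4, 8, 3, 4, 4, 8⟩ :=
  out_sound (S := T5.ds_pm) T5.ok_pm (w := 29) (j := 1) (by decide +kernel)
theorem L01009 : Good (Phi V5.P V5.D 1 (-1)) ⟨2, 0, 3, 2, 4, 8, 3, 5, 4, 8⟩ :=
  out_sound (S := T5.ds_pm) T5.ok_pm (w := 36) (j := 2) (by decide +kernel)
theorem L01010 : Good (Phi V5.P V5.D 1 (-1)) ⟨2, 0, 3, 2, 4, 8, 2, 2, 4, 9⟩ :=
  out_sound (S := T5.ds_pm) T5.ok_pm (w := 28) (j := 1) (by decide +kernel)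
theorem L01011 : Good (Phi V5.P V5.D 1 (-1)) ⟨2, 0, 3, 2, 4, 9, 2, 2, 3, 4⟩ :=
  out_sound (S := T5.ds_pm) T5.ok_pm (w := 32) (j := 2) (by decide +kernel)
theorem L01012 : Good (Phi V5.P V5.D 1 (-1)) ⟨2, 0, 3, 2, 3, 4, 2, 3, 3, 4⟩ :=
  out_sound (S := T5.ds_pm) T5.ok_pm (w := 30) (j := 2) (by decide +kernel)
theorem L01013 : Good (Phi V5.P V5.D 1 (-1)) ⟨2, 0, 3, 2, 3, 4, 1, 1, 3, 5⟩ :=
  out_sound (S := T5.ds_pm) T5.ok_pm (w := 28) (j := 2) (by decide +kernel)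
theorem L01014 : Good (Phi V5.P V5.D 1 (-1)) ⟨2, 0, 3, 2, 3, 5, 1, 1, 2, 2⟩ :=
  out_sound (S := T5.ds_pm) T5.ok_pm (w := 26) (j := 2) (by decide +kernel)
theorem L01015 : Good (Phi V5.P V5.D 1 (-1)) ⟨2, 0, 3, 2, 2, 2, 1, 1, 2, 3⟩ :=
  out_sound (S := T5.ds_pm) T5.ok_pm (w := 24) (j := 2) (by decide +kernel)
theorem L01016 : Good (Phi V5.P V5.D 1 (-1)) ⟨2, 0, 3, 2, 2, 3, 1, 1, 1, 1⟩ :=
  out_sound (S := T5.ds_pm) T5.ok_pm (w := 22) (j := 2) (by decide +kernel)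
theorem L01017 : Good (Phi V5.P V5.D 1 (-1)) ⟨2, 0, 3, 3, 1, 1, 1, 1, 4, 0⟩ :=
  leafYS_sound T5.ok_pm T5.Ypm.bz_eq (w := 182) (c := ⟨⟨.ofNat 726, .negSucc 40, .negSucc 105, .negSucc 186, .negSucc 1105, .negSucc 463⟩, ⟨.negSucc 253, .ofNat 0, .ofNat 16, .ofNat 154, .ofNat 518, .ofNat 125⟩, ⟨.negSucc 716, .negSucc 22, .ofNat 97, .ofNat 665, .ofNat 1482, .ofNat 34⟩, ⟨.ofNat 2298, .ofNat 117, .negSucc 350, .negSucc 187, .negSucc 3001, .negSucc 1908⟩, ⟨.ofNat 596, .ofNat 489, .negSucc 211, .ofNat 693, .ofNat 292, .negSucc 1196⟩, .ofNat 1188, .ofNat 1106, .ofNat 0, .ofNat 1106, .ofNat 2566, .ofNat 0, .ofNat 140, .negSucc 127, .negSucc 117, .ofNat 0, .ofNat 111, .ofNat 60, .ofNat 0, .ofNat 0, .ofNat 272, .ofNat 225, .ofNat 0, .ofNat 0, .ofNat 0, .ofNat 0, .ofNat 0, .ofNat 0, .ofNat 0, .ofNat 0, .ofNat 0, .ofNat 16790637123873453397351517061644288,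 .ofNat 0, .ofNat 0, .ofNat 0, .ofNat 0, .ofNat 0, .ofNat 0⟩)
    (by decide +kernel)
theorem L01018 : Good (Phi V5.P V5.D 1 (-1)) ⟨2, 0, 3, 3, 1, 1, 1, 1, 4, 1⟩ :=
  leafYS_sound T5.ok_pm T5.Ypm.bz_eq (w := 181) (c := ⟨⟨.ofNat 123, .negSucc 226, .ofNat 19, .negSucc 131, .negSucc 634, .negSucc 792⟩, ⟨.negSucc 115, .ofNat 133, .ofNat 50, .ofNat 144, .ofNat 318, .ofNat 322⟩, ⟨.negSucc 468, .ofNat 211, .ofNat 13, .ofNat 303, .ofNat 1256, .ofNat 580⟩, ⟨.ofNat 49, .negSucc 379, .ofNat 112, .ofNat 53, .negSucc 1636, .negSucc 2353⟩, ⟨.negSucc 528, .ofNat 338, .ofNat 95, .ofNat 989, .ofNat 477, .negSucc 146⟩, .ofNat 1404, .ofNat 1444, .ofNat 0, .ofNat 1444, .ofNat 3185, .ofNat 0, .ofNat 128, .negSucc 176, .negSucc 90, .ofNat 0, .ofNat 149, .ofNat 45, .ofNat 0, .ofNat 0, .ofNat 236, .ofNat 187, .ofNat 0, .ofNat 0, .ofNat 0, .ofNat 0, .ofNat 0,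 .ofNat 0, .ofNat 0, .ofNat 0, .ofNat 0, .ofNat 41774796527475164526927055037661184, .ofNat 0, .ofNat 0, .ofNat 0, .ofNat 10398853897043945715679201087979520, .ofNat 0, .ofNat 0⟩)
    (by decide +kernel)
theorem L01019 : Good (Phi V5.P V5.D 1 (-1)) ⟨2, 0, 3, 3, 1, 1, 2, 2, 4, 2⟩ :=
  leafYS_sound T5.ok_pm T5.Ypm.bz_eq (w := 185) (c := ⟨⟨.negSucc 720, .negSucc 186, .ofNat 41, .negSucc 330, .negSucc 57, .negSucc 326⟩, ⟨.ofNat 194, .ofNat 116, .ofNat 127, .ofNat 213, .ofNat 38, .ofNat 155⟩, ⟨.ofNat 174, .ofNat 225, .ofNat 6, .ofNat 234, .ofNat 441, .ofNat 387⟩, ⟨.negSucc 2469, .negSucc 243, .ofNat 101, .negSucc 625, .negSucc 121, .negSucc 925⟩, ⟨.negSucc 610, .ofNat 102, .ofNat 13, .ofNat 735, .ofNat 123, .ofNat 102⟩, .ofNat 1092, .ofNat 961, .ofNat 0, .ofNat 961, .ofNat 2273, .ofNat 0, .ofNat 128, .negSucc 145, .negSucc 60, .ofNat 0, .ofNat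 129, .ofNat 30, .ofNat 0, .ofNat 0, .ofNat 225, .ofNat 231, .ofNat 0, .ofNat 0, .ofNat 0, .ofNat 0, .ofNat 0, .ofNat 0, .ofNat 0, .ofNat 0, .ofNat 0, .ofNat 0, .ofNat 0, .ofNat 0, .ofNat 0, .ofNat 0, .ofNat 0, .ofNat 0⟩)
    (by decide +kernel)
theorem L01020 : Good (Phi V5.P V5.D 1 (-1)) ⟨2, 0, 3, 3, 2, 2, 2, 2, 4, 3⟩ :=
  leafYS_sound T5.ok_pm T5.Ypm.bz_eq (w := 201) (c := ⟨⟨.negSucc 989, .negSucc 199, .ofNat 2, .negSucc 193, .negSucc 63, .negSucc 71⟩, ⟨.ofNat 318, .ofNat 115, .ofNat 165, .ofNat 113, .ofNat 37, .ofNat 33⟩, ⟨.ofNat 501, .ofNat 327, .ofNat 33, .ofNat 113, .ofNat 385, .ofNat 251⟩, ⟨.negSucc 3223, .negSucc 272, .negSucc 26, .negSucc 465, .negSucc 126, .negSucc 231⟩, ⟨.negSucc 479, .ofNat 35, .ofNat 47, .ofNat 234, .ofNat 100, .negSucc 25⟩, .ofNat 740, .ofNat 461, .ofNat 0, .ofNat 461, .ofNat 1311, .ofNat 0, .ofNat 181,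 .negSucc 115, .negSucc 96, .ofNat 0, .ofNat 128, .ofNat 46, .ofNat 0, .ofNat 0, .ofNat 523, .ofNat 1933, .ofNat 0, .ofNat 0, .ofNat 0, .ofNat 0, .ofNat 0, .ofNat 0, .ofNat 0, .ofNat 0, .ofNat 0, .ofNat 0, .ofNat 0, .ofNat 0, .ofNat 0, .ofNat 0, .ofNat 0, .ofNat 0⟩)
    (by decide +kernel)
theorem L01021 : Good (Phi V5.P V5.D 1 (-1)) ⟨2, 0, 3, 3, 2, 3, 2, 2, 4, 3⟩ :=
  leafYS_sound T5.ok_pm T5.Ypm.bz_eq (w := 199) (c := ⟨⟨.negSucc 1169, .negSucc 281, .negSucc 25, .negSucc 193, .negSucc 133, .negSucc 39⟩, ⟨.ofNat 405, .ofNat 171, .ofNat 187, .ofNat 162, .ofNat 72, .ofNat 12⟩, ⟨.ofNat 592, .ofNat 284, .ofNat 42, .ofNat 153, .ofNat 570, .ofNat 253⟩, ⟨.negSucc 3688, .negSucc 396, .negSucc 15, .negSucc 220, .negSucc 367, .negSucc 135⟩, ⟨.negSucc 317, .ofNat 231, .ofNat 55, .ofNat 855, .ofNat 87, .negSucc 47⟩, .ofNat 744, .ofNat 470, .ofNat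 0, .ofNat 470, .ofNat 1322, .ofNat 0, .ofNat 187, .negSucc 112, .negSucc 30, .ofNat 0, .ofNat 128, .ofNat 0, .ofNat 0, .ofNat 0, .ofNat 415, .ofNat 172, .ofNat 0, .ofNat 0, .ofNat 0, .ofNat 0, .ofNat 0, .ofNat 0, .ofNat 0, .ofNat 0, .ofNat 0, .ofNat 687699540973094183021681690291008962560, .ofNat 0, .ofNat 0, .ofNat 0, .ofNat 1919208176136701768775164217951137038336, .ofNat 0, .ofNat 0⟩)
    (by decide +kernel)
theorem L01022 : Good (Phi V5.P V5.D 1 (-1)) ⟨2, 0, 3, 3, 2, 2, 2, 3, 4, 2⟩ :=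
  leafYS_sound T5.ok_pm T5.Ypm.bz_eq (w := 200) (c := ⟨⟨.negSucc 653, .negSucc 265, .ofNat 28, .negSucc 331, .negSucc 273, .negSucc 320⟩, ⟨.ofNat 174, .ofNat 137, .ofNat 140, .ofNat 184, .ofNat 153, .ofNat 148⟩, ⟨.ofNat 322, .ofNat 431, .ofNat 31, .ofNat 422, .ofNat 647, .ofNat 403⟩, ⟨.negSucc 2236, .negSucc 568, .ofNat 96, .negSucc 806, .negSucc 629, .negSucc 907⟩, ⟨.negSucc 431, .negSucc 187, .ofNat 72, .ofNat 342, .ofNat 367, .ofNat 48⟩, .ofNat 1240, .ofNat 1182, .ofNat 0, .ofNat 1182, .ofNat 2726, .ofNat 0, .ofNat 134, .negSucc 127, .negSucc 106, .ofNat 0, .ofNat 114, .ofNat 51, .ofNat 0, .ofNat 0, .ofNat 360, .ofNat 344, .ofNat 0, .ofNat 0, .ofNat 0, .ofNat 0, .ofNat 0, .ofNat 0, .ofNat 0, .ofNat 0, .ofNat 0, .ofNat 893164106778469235627713865286514900992, .ofNat 0, .ofNat 0, .ofNat 0, .ofNat 0, .ofNat 0, .ofNat 0⟩)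
    (by decide +kernel)
theorem L01023 : Good (Phi V5.P V5.D 1 (-1)) ⟨2, 0, 3, 3, 2, 3, 2, 3, 4, 2⟩ :=
  leafYS_sound T5.ok_pm T5.Ypm.bz_eq (w := 199) (c := ⟨⟨.negSucc 795, .negSucc 418, .negSucc 3, .negSucc 436, .negSucc 562, .negSucc 399⟩, ⟨.ofNat 247, .ofNat 212, .ofNat 171, .ofNat 249, .ofNat 340, .ofNat 197⟩, ⟨.ofNat 637, .ofNat 434, .ofNat 77, .ofNat 225, .ofNat 930, .ofNat 390⟩, ⟨.negSucc 2599, .negSucc 786, .ofNat 82, .negSucc 1020, .negSucc 1190, .negSucc 1111⟩, ⟨.negSucc 111, .ofNat 132, .ofNat 32, .ofNat 549, .ofNat 953, .ofNat 61⟩, .ofNat 741, .ofNat 462, .ofNat 0, .ofNat 462, .ofNat 1313, .ofNat 0, .ofNat 203, .negSucc 124, .negSucc 69, .ofNat 0, .ofNat 128, .ofNat 22, .ofNat 0, .ofNat 0, .ofNat 306, .ofNat 137, .ofNat 0, .ofNat 14597505353299039310101831807074828288, .ofNat 0, .ofNat 0, .ofNat 0, .ofNat 0, .ofNat 0, .ofNat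 0, .ofNat 0, .ofNat 962656457463072572147338760427281580032, .ofNat 0, .ofNat 0, .ofNat 0, .ofNat 639926005577305780766818158129287528448, .ofNat 0, .ofNat 0⟩)
    (by decide +kernel)
theorem L01024 : Good (Phi V5.P V5.D 1 (-1)) ⟨2, 0, 3, 3, 2, 2, 2, 3, 4, 3⟩ :=
  leafYS_sound T5.ok_pm T5.Ypm.bz_eq (w := 199) (c := ⟨⟨.negSucc 1004, .negSucc 265, .ofNat 13, .negSucc 290, .negSucc 197, .negSucc 51⟩, ⟨.ofNat 342, .ofNat 129, .ofNat 160, .ofNat 149, .ofNat 103, .ofNat 22⟩, ⟨.ofNat 755, .ofNat 455, .ofNat 53, .ofNat 357, .ofNat 489, .ofNat 192⟩, ⟨.negSucc 3212, .negSucc 513, .ofNat 7, .negSucc 722, .negSucc 495, .negSucc 164⟩, ⟨.negSucc 288, .negSucc 159, .negSucc 28, .ofNat 274, .ofNat 186, .negSucc 38⟩, .ofNat 740, .ofNat 458, .ofNat 0, .ofNat 458, .ofNat 1306, .ofNat 0, .ofNat 150, .negSucc 115, .negSucc 63, .ofNat 0, .ofNat 128, .ofNat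 24, .ofNat 0, .ofNat 0, .ofNat 391, .ofNat 382, .ofNat 0, .ofNat 0, .ofNat 0, .ofNat 0, .ofNat 0, .ofNat 1288203262234144270689080936457775874048, .ofNat 0, .ofNat 0, .ofNat 0, .ofNat 1853157285434887266512640228864018087936, .ofNat 0, .ofNat 0, .ofNat 0, .ofNat 2281403937316171628432171933743794094080, .ofNat 0, .ofNat 0⟩)
    (by decide +kernel)
theorem L01025 : Good (Phi V5.P V5.D 1 (-1)) ⟨2, 0, 3, 3, 2, 3, 3, 6, 5, 6⟩ :=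
  leafYS_sound T5.ok_pm T5.Ypm.bz_eq (w := 209) (c := ⟨⟨.negSucc 1239, .negSucc 388, .negSucc 20, .negSucc 363, .negSucc 191, .negSucc 28⟩, ⟨.ofNat 461, .ofNat 183, .ofNat 191, .ofNat 249, .ofNat 104, .ofNat 9⟩, ⟨.ofNat 1029, .ofNat 472, .ofNat 79, .ofNat 190, .ofNat 430, .ofNat 148⟩, ⟨.negSucc 3823, .negSucc 726, .negSucc 20, .negSucc 674, .negSucc 433, .negSucc 80⟩, ⟨.negSucc 52, .negSucc 67, .ofNat 13, .ofNat 935, .ofNat 290, .ofNat 12⟩, .ofNat 905, .ofNat 680, .ofNat 0, .ofNat 680, .ofNat 1764, .ofNat 0, .ofNat 216, .negSucc 127, .negSucc 20, .ofNat 0, .ofNat 124, .ofNat 2, .ofNat 0, .ofNat 0, .ofNat 254, .ofNat 421, .ofNat 0, .ofNat 0, .ofNat 0, .ofNat 0, .ofNat 0, .ofNat 0, .ofNat 0, .ofNat 0, .ofNat 0, .ofNat 39537849109722541752989668197171642499072, .ofNat 0, .ofNat 0, .ofNat 0, .ofNat 35126594893041198238519071140127778537472,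 .ofNat 0, .ofNat 0⟩)
    (by decide +kernel)
theorem L01026 : Good (Phi V5.P V5.D 1 (-1)) ⟨3, 0, 3, 3, 2, 3, 3, 6, 5, 7⟩ :=
  leafYS_sound T5.ok_pm T5.Ypm.bz_eq (w := 212) (c := ⟨⟨.negSucc 1329, .negSucc 120, .negSucc 17, .negSucc 291, .negSucc 137, .ofNat 11⟩, ⟨.ofNat 492, .ofNat 86, .ofNat 182, .ofNat 218, .ofNat 79, .negSucc 5⟩, ⟨.ofNat 1166, .ofNat 223, .ofNat 82, .ofNat 261, .ofNat 362, .ofNat 134⟩, ⟨.negSucc 4017, .negSucc 291, .negSucc 42, .negSucc 397, .negSucc 306, .ofNat 12⟩, ⟨.negSucc 34, .negSucc 39, .negSucc 8, .ofNat 1050, .ofNat 224, .negSucc 33⟩, .ofNat 438, .ofNat 147, .ofNat 0, .ofNat 147, .ofNat 616, .ofNat 0, .ofNat 128, .negSucc 95, .negSucc 12, .ofNat 0, .ofNat 156, .negSucc 10, .ofNat 0, .ofNat 0, .ofNat 233, .ofNat 395, .ofNat 0, .ofNat 0, .ofNat 0, .ofNat 0, .ofNat 0, .ofNat 333395095306840878457298862264398045511680,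 .ofNat 0, .ofNat 0, .ofNat 0, .ofNat 1007802026242210411837573351839757322158080, .ofNat 0, .ofNat 0, .ofNat 0, .ofNat 864805570230239461028044423695336285929472, .ofNat 0, .ofNat 0⟩)
    (by decide +kernel)

end Crest.Agent.R097C5.N5pm
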