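import Crest.Agent.R097.KS3
import Crest.Agent.R097.T5Ypm

/-!
# Row 97, box cover in dimension n = 5 (generated)
-/

set_option autoImplicit false
set_option Elab.async false
set_option maxHeartbeats 0
set_option maxRecDepth 100000

open Crest.Agent.R097 Crest.Agent.R097.KA


namespace Crest.Agent.R097C5.N5pm

theorem L01027 : Good (Phi V5.P V5.D 1 (-1)) ⟨3, 1, 3, 3, 2, 3, 3, 6, 5, 7⟩ :=
  leafYS_sound T5.ok_pm T5.Ypm.bz_eq (w := 214) (c := ⟨⟨.negSucc 1434, .negSucc 213, .negSucc 24, .negSucc 371, .negSucc 170, .ofNat 22⟩, ⟨.ofNat 564, .ofNat 71, .ofNat 202, .ofNat 258, .ofNat 91, .negSucc 12⟩, ⟨.ofNat 1375, .ofNat 248, .ofNat 88, .ofNat 248, .ofNat 438, .ofNat 143⟩, ⟨.negSucc 4276, .negSucc 325, .negSucc 56, .negSucc 537, .negSucc 436, .ofNat 32⟩, ⟨.negSucc 77, .negSucc 31, .negSucc 6, .ofNat 1165, .ofNat 120, .negSucc 58⟩, .ofNat 433,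 .ofNat 156, .ofNat 0, .ofNat 156, .ofNat 628, .ofNat 0, .ofNat 155, .negSucc 84, .negSucc 18, .ofNat 0, .ofNat 128, .negSucc 13, .ofNat 0, .ofNat 0, .ofNat 312, .ofNat 1724, .ofNat 0, .ofNat 0, .ofNat 0, .ofNat 0, .ofNat 0, .ofNat 1246139108637394758212649955885238133456896, .ofNat 0, .ofNat 0, .ofNat 0, .ofNat 1636215537316273836710172356433073515003904, .ofNat 0, .ofNat 0, .ofNat 0, .ofNat 1768724019990686585066309087168214383722496, .ofNat 0, .ofNat 0⟩)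
    (by decide +kernel)
theorem L01028 : Good (Phi V5.P V5.D 1 (-1)) ⟨2, 0, 3, 3, 2, 3, 3, 7, 4, 3⟩ :=
  leafYS_sound T5.ok_pm T5.Ypm.bz_eq (w := 206) (c := ⟨⟨.negSucc 1415, .negSucc 405, .negSucc 23, .negSucc 544, .negSucc 348, .negSucc 225⟩, ⟨.ofNat 568, .ofNat 190, .ofNat 196, .ofNat 306, .ofNat 26, .negSucc 2⟩, ⟨.ofNat 1393, .ofNat 576, .ofNat 88, .ofNat 421, .ofNat 492, .ofNat 291⟩, ⟨.negSucc 4197, .negSucc 862, .negSucc 54, .negSucc 1007, .negSucc 784, .negSucc 535⟩, ⟨.ofNat 293, .negSucc 164, .negSucc 38, .ofNat 1215, .ofNat 349, .negSucc 77⟩, .ofNat 193, .ofNat 26, .ofNat 0, .ofNat 26, .ofNat 226, .ofNat 0, .ofNat 317, .negSucc 50, .negSucc 183, .ofNat 0, .ofNat 128, .ofNat 4, .ofNat 0, .ofNat 0, .ofNat 258, .ofNat 1758, .ofNat 0, .ofNat 1370411253425553754275436519981645299712, .ofNat 0, .ofNat 0, .ofNat 0, .ofNat 69269671722263996328205253027683811459072,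 .ofNat 0, .ofNat 0, .ofNat 0, .ofNat 23521996300144777907097580256157612638208, .ofNat 0, .ofNat 0, .ofNat 0, .ofNat 55777519441605500435875926943056997122048, .ofNat 0, .ofNat 0⟩)
    (by decide +kernel)
theorem L01029 : Good (Phi V5.P V5.D 1 (-1)) ⟨2, 0, 3, 3, 2, 2, 2, 2, 4, 4⟩ :=
  leafYS_sound T5.ok_pm T5.Ypm.bz_eq (w := 200) (c := ⟨⟨.negSucc 1119, .negSucc 168, .negSucc 8, .negSucc 136, .negSucc 29, .ofNat 58⟩, ⟨.ofNat 385, .ofNat 106, .ofNat 161, .ofNat 75, .ofNat 18, .negSucc 28⟩, ⟨.ofNat 844, .ofNat 271, .ofNat 22, .ofNat 100, .ofNat 316, .ofNat 189⟩, ⟨.negSucc 3566, .negSucc 206, .negSucc 37, .negSucc 350, .negSucc 50, .ofNat 151⟩, ⟨.negSucc 398, .ofNat 24, .ofNat 7, .ofNat 108, .ofNat 54, .negSucc 17⟩, .ofNat 434, .ofNat 150, .ofNat 0, .ofNat 150, .ofNat 621, .ofNat 0, .ofNat 194, .negSucc 72, .negSucc 71, .ofNat 0, .ofNat 128,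 .ofNat 21, .ofNat 0, .ofNat 0, .ofNat 747, .ofNat 860, .ofNat 0, .ofNat 0, .ofNat 0, .ofNat 0, .ofNat 0, .ofNat 0, .ofNat 0, .ofNat 0, .ofNat 0, .ofNat 1316884231712005570146859481400564776960, .ofNat 0, .ofNat 0, .ofNat 0, .ofNat 6887413517718374323331332692897785970688, .ofNat 0, .ofNat 0⟩)
    (by decide +kernel)
theorem L01030 : Good (Phi V5.P V5.D 1 (-1)) ⟨2, 0, 3, 3, 3, 6, 2, 2, 4, 4⟩ :=
  leafYS_sound T5.ok_pm T5.Ypm.bz_eq (w := 213) (c := ⟨⟨.negSucc 1251, .negSucc 245, .negSucc 2, .negSucc 71, .negSucc 84, .ofNat 112⟩, ⟨.ofNat 445, .ofNat 130, .ofNat 176, .ofNat 69, .ofNat 45, .negSucc 42⟩, ⟨.ofNat 854, .ofNat 317, .ofNat 28, .ofNat 46, .ofNat 569, .ofNat 228⟩, ⟨.negSucc 3878, .negSucc 312, .negSucc 6, .negSucc 44, .negSucc 252, .ofNat 237⟩, ⟨.negSucc 271, .ofNat 95, .ofNat 65, .ofNat 395, .ofNat 22, .negSucc 76⟩, .ofNat 738, .ofNat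 460, .ofNat 0, .ofNat 460, .ofNat 1314, .ofNat 0, .ofNat 188, .negSucc 107, .negSucc 1, .ofNat 0, .ofNat 128, .negSucc 10, .ofNat 0, .ofNat 0, .ofNat 504, .ofNat 190, .ofNat 0, .ofNat 0, .ofNat 0, .ofNat 0, .ofNat 0, .ofNat 0, .ofNat 0, .ofNat 0, .ofNat 0, .ofNat 4775588757965561123475978189798850084995072, .ofNat 0, .ofNat 0, .ofNat 0, .ofNat 20184883516034937049004449002680551200522240, .ofNat 0, .ofNat 0⟩)
    (by decide +kernel)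
theorem L01031 : Good (Phi V5.P V5.D 1 (-1)) ⟨2, 0, 3, 3, 3, 7, 2, 2, 4, 4⟩ :=
  leafYS_sound T5.ok_pm T5.Ypm.bz_eq (w := 213) (c := ⟨⟨.negSucc 1293, .negSucc 274, .negSucc 25, .negSucc 72, .negSucc 102, .ofNat 124⟩, ⟨.ofNat 499, .ofNat 160, .ofNat 182, .ofNat 70, .ofNat 61, .negSucc 63⟩, ⟨.ofNat 883, .ofNat 266, .ofNat 62, .ofNat 157, .ofNat 574, .ofNat 314⟩, ⟨.negSucc 3911, .negSucc 326, .ofNat 1, .negSucc 23, .negSucc 287, .ofNat 306⟩, ⟨.ofNat 66, .ofNat 283, .ofNat 84, .ofNat 445, .ofNat 75, .negSucc 132⟩, .ofNat 741, .ofNat 464, .ofNat 0, .ofNat 464, .ofNat 1316, .ofNat 0, .ofNat 216, .negSucc 101, .ofNat 19, .ofNat 0, .ofNat 128, .negSucc 34, .ofNat 0, .ofNat 0, .ofNat 519, .ofNat 313, .ofNat 0, .ofNat 101390400309661086039171785783043994681344, .ofNat 0, .ofNat 0, .ofNat 0, .ofNat 0, .ofNat 0, .ofNat 0, .ofNat 0, .ofNat 7139990706348893995915373507515400459386880,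 .ofNat 0, .ofNat 0, .ofNat 0, .ofNat 33014651639494509156992681860414870690725888, .ofNat 0, .ofNat 0⟩)
    (by decide +kernel)
theorem L01032 : Good (Phi V5.P V5.D 1 (-1)) ⟨2, 0, 3, 3, 3, 4, 2, 2, 4, 5⟩ :=
  leafYS_sound T5.ok_pm T5.Ypm.bz_eq (w := 214) (c := ⟨⟨.negSucc 1115, .negSucc 139, .ofNat 9, .negSucc 35, .negSucc 18, .ofNat 80⟩, ⟨.ofNat 389, .ofNat 85, .ofNat 147, .ofNat 15, .ofNat 14, .negSucc 33⟩, ⟨.ofNat 1011, .ofNat 254, .ofNat 35, .ofNat 119, .ofNat 305, .ofNat 276⟩, ⟨.negSucc 3499, .negSucc 164, .negSucc 10, .negSucc 118, .negSucc 45, .ofNat 224⟩, ⟨.negSucc 336, .negSucc 40, .ofNat 3, .negSucc 36, .ofNat 33, .negSucc 5⟩, .ofNat 434, .ofNat 150, .ofNat 0, .ofNat 150, .ofNat 622, .ofNat 0, .ofNat 239, .negSucc 68, .negSucc 40, .ofNat 0, .ofNat 128, .negSucc 5, .ofNat 0, .ofNat 0, .ofNat 1303, .ofNat 1183, .ofNat 0, .ofNat 0,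 .ofNat 0, .ofNat 0, .ofNat 0, .ofNat 0, .ofNat 0, .ofNat 0, .ofNat 0, .ofNat 6921479184884021333557001452600941405536256, .ofNat 0, .ofNat 0, .ofNat 0, .ofNat 102806957183122731610171210814674036898922496, .ofNat 0, .ofNat 0⟩)
    (by decide +kernel)
theorem L01033 : Good (Phi V5.P V5.D 1 (-1)) ⟨3, 0, 3, 3, 3, 5, 2, 2, 4, 5⟩ :=
  leafYS_sound T5.ok_pm T5.Ypm.bz_eq (w := 218) (c := ⟨⟨.negSucc 1159, .negSucc 49, .ofNat 4, .negSucc 28, .negSucc 13, .ofNat 102⟩, ⟨.ofNat 407, .ofNat 47, .ofNat 152, .ofNat 17, .ofNat 8, .negSucc 50⟩, ⟨.ofNat 944, .ofNat 179, .ofNat 69, .ofNat 126, .ofNat 516, .ofNat 429⟩, ⟨.negSucc 3605, .negSucc 96, .negSucc 29, .negSucc 56, .negSucc 43, .ofNat 261⟩, ⟨.negSucc 311, .negSucc 39, .negSucc 1, .ofNat 50, .ofNat 10, .negSucc 70⟩, .ofNat 1275, .ofNat 1207, .ofNat 0, .ofNat 1207, .ofNat 2718, .ofNat 0, .ofNat 128,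 .negSucc 127, .ofNat 16, .ofNat 0, .ofNat 124, .negSucc 17, .ofNat 0, .ofNat 0, .ofNat 1023, .ofNat 990, .ofNat 0, .ofNat 2630296943543771285938475585571821017104384, .ofNat 0, .ofNat 0, .ofNat 0, .ofNat 116396539740869767919595863368041927935000576, .ofNat 0, .ofNat 0, .ofNat 0, .ofNat 227962810164189246720093686800295887370190848, .ofNat 0, .ofNat 0, .ofNat 0, .ofNat 1654397707907675530841903063874537609668591616, .ofNat 0, .ofNat 0⟩)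
    (by decide +kernel)
theorem L01034 : Good (Phi V5.P V5.D 1 (-1)) ⟨3, 1, 3, 3, 3, 5, 2, 2, 4, 5⟩ :=
  leafYS_sound T5.ok_pm T5.Ypm.bz_eq (w := 218) (c := ⟨⟨.negSucc 1206, .negSucc 118, .ofNat 10, .negSucc 43, .negSucc 41, .ofNat 111⟩, ⟨.ofNat 453, .ofNat 45, .ofNat 151, .ofNat 25, .ofNat 16, .negSucc 55⟩, ⟨.ofNat 1105, .ofNat 125, .ofNat 88, .ofNat 155, .ofNat 567, .ofNat 423⟩, ⟨.negSucc 3682, .negSucc 114, .negSucc 19, .negSucc 92, .negSucc 144, .ofNat 281⟩, ⟨.negSucc 332, .negSucc 5, .negSucc 5, .ofNat 62, .negSucc 62, .negSucc 68⟩, .ofNat 922, .ofNat 728, .ofNat 0, .ofNat 728, .ofNat 1834, .ofNat 0, .ofNat 128, .negSucc 191, .ofNat 14, .ofNat 0, .ofNat 195, .negSucc 18, .ofNat 0, .ofNat 0, .ofNat 1140, .ofNat 897, .ofNat 0, .ofNat 4002465027949899454169918698801599887704064, .ofNat 0, .ofNat 0, .ofNat 0, .ofNat 134511385441831973984143393670758839328178176,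 .ofNat 0, .ofNat 0, .ofNat 0, .ofNat 456394129492680980890424962794586681116721152, .ofNat 0, .ofNat 0, .ofNat 0, .ofNat 2073079170314945484346502844524382680852201472, .ofNat 0, .ofNat 0⟩)
    (by decide +kernel)
theorem L01035 : Good (Phi V5.P V5.D 1 (-1)) ⟨2, 0, 3, 3, 3, 6, 2, 2, 4, 5⟩ :=
  leafYS_sound T5.ok_pm T5.Ypm.bz_eq (w := 213) (c := ⟨⟨.negSucc 1175, .negSucc 193, .negSucc 5, .negSucc 36, .negSucc 14, .ofNat 136⟩, ⟨.ofNat 418, .ofNat 112, .ofNat 164, .ofNat 37, .ofNat 9, .negSucc 64⟩, ⟨.ofNat 1046, .ofNat 318, .ofNat 79, .ofNat 148, .ofNat 666, .ofNat 477⟩, ⟨.negSucc 3665, .negSucc 237, .negSucc 39, .ofNat 3, .negSucc 84, .ofNat 324⟩, ⟨.negSucc 272, .ofNat 59, .ofNat 7, .ofNat 253, .negSucc 51, .negSucc 113⟩, .ofNat 434, .ofNat 151, .ofNat 0, .ofNat 151, .ofNat 622, .ofNat 0, .ofNat 206, .negSucc 69, .ofNat 15, .ofNat 0, .ofNat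 128, .negSucc 24, .ofNat 0, .ofNat 0, .ofNat 492, .ofNat 518, .ofNat 0, .ofNat 382812383567663229519206071636967928365056, .ofNat 0, .ofNat 0, .ofNat 0, .ofNat 12483470618974336953225249632049350819446784, .ofNat 0, .ofNat 0, .ofNat 0, .ofNat 12496909328092555819243688446192022427009024, .ofNat 0, .ofNat 0, .ofNat 0, .ofNat 48329395275633076398525882949716999583825920, .ofNat 0, .ofNat 0⟩)
    (by decide +kernel)
theorem L01036 : Good (Phi V5.P V5.D 1 (-1)) ⟨2, 0, 3, 3, 3, 7, 2, 2, 4, 5⟩ :=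
  out_sound (S := T5.ds_pm) T5.ok_pm (w := 32) (j := 2) (by decide +kernel)
theorem L01037 : Good (Phi V5.P V5.D 1 (-1)) ⟨2, 0, 3, 3, 2, 2, 2, 3, 5, 8⟩ :=
  leafYS_sound T5.ok_pm T5.Ypm.bz_eq (w := 204) (c := ⟨⟨.negSucc 1094, .negSucc 212, .ofNat 4, .negSucc 235, .negSucc 150, .negSucc 3⟩, ⟨.ofNat 385, .ofNat 111, .ofNat 163, .ofNat 116, .ofNat 72, .negSucc 6⟩, ⟨.ofNat 976, .ofNat 408, .ofNat 57, .ofNat 400, .ofNat 395, .ofNat 107⟩, ⟨.negSucc 3441, .negSucc 382, .negSucc 28, .negSucc 628, .negSucc 416, .ofNat 4⟩, ⟨.negSucc 271, .negSucc 139, .negSucc 16, .ofNat 141, .ofNat 89, .negSucc 14⟩, .ofNat 738, .ofNat 462, .ofNat 0, .ofNat 462, .ofNat 1316, .ofNat 0, .ofNat 187, .negSucc 113, .negSucc 27, .ofNat 0, .ofNat 128, .ofNat 7, .ofNat 0, .ofNat 0, .ofNat 350, .ofNat 189, .ofNat 0, .ofNat 123374157999296381311257468096240156672, .ofNat 0,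 .ofNat 0, .ofNat 0, .ofNat 0, .ofNat 0, .ofNat 0, .ofNat 0, .ofNat 17248812926045477832375947738603197562880, .ofNat 0, .ofNat 0, .ofNat 0, .ofNat 19238001765380202860121836040094560026624, .ofNat 0, .ofNat 0⟩)
    (by decide +kernel)
theorem L01038 : Good (Phi V5.P V5.D 1 (-1)) ⟨2, 0, 3, 3, 2, 2, 2, 3, 5, 9⟩ :=
  leafYS_sound T5.ok_pm T5.Ypm.bz_eq (w := 204) (c := ⟨⟨.negSucc 1116, .negSucc 197, .ofNat 8, .negSucc 182, .negSucc 112, .ofNat 27⟩, ⟨.ofNat 394, .ofNat 100, .ofNat 158, .ofNat 84, .ofNat 62, .negSucc 12⟩, ⟨.ofNat 1053, .ofNat 403, .ofNat 81, .ofNat 493, .ofNat 341, .ofNat 116⟩, ⟨.negSucc 3470, .negSucc 352, .negSucc 25, .negSucc 542, .negSucc 293, .ofNat 61⟩, ⟨.negSucc 233, .negSucc 166, .negSucc 11, .negSucc 9, .ofNat 103, .negSucc 16⟩, .ofNat 435, .ofNat 150, .ofNat 0, .ofNat 150, .ofNat 621, .ofNat 0, .ofNat 212, .negSucc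 71, .negSucc 30, .ofNat 0, .ofNat 128, .negSucc 4, .ofNat 0, .ofNat 0, .ofNat 511, .ofNat 413, .ofNat 0, .ofNat 265239816175695183214757741680723492864, .ofNat 0, .ofNat 0, .ofNat 0, .ofNat 24683199064868377031989371772925948985344, .ofNat 0, .ofNat 0, .ofNat 0, .ofNat 19772035847001787546802967937736360591360, .ofNat 0, .ofNat 0, .ofNat 0, .ofNat 55276520690261277893301844503967702188032, .ofNat 0, .ofNat 0⟩)
    (by decide +kernel)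
theorem L01039 : Good (Phi V5.P V5.D 1 (-1)) ⟨2, 0, 3, 3, 2, 3, 2, 3, 4, 4⟩ :=
  leafYS_sound T5.ok_pm T5.Ypm.bz_eq (w := 201) (c := ⟨⟨.negSucc 1316, .negSucc 281, .negSucc 12, .negSucc 269, .negSucc 255, .ofNat 97⟩, ⟨.ofNat 494, .ofNat 141, .ofNat 185, .ofNat 149, .ofNat 101, .negSucc 63⟩, ⟨.ofNat 1283, .ofNat 478, .ofNat 92, .ofNat 350, .ofNat 831, .ofNat 328⟩, ⟨.negSucc 3997, .negSucc 547, .negSucc 63, .negSucc 415, .negSucc 581, .ofNat 199⟩, ⟨.negSucc 17, .negSucc 142, .negSucc 28, .ofNat 762, .ofNat 146, .negSucc 141⟩, .ofNat 194, .ofNat 26, .ofNat 0, .ofNat 26, .ofNat 226, .ofNat 0, .ofNat 250, .negSucc 51, .negSucc 21, .ofNat 0, .ofNat 128, .negSucc 34, .ofNat 0, .ofNat 0, .ofNat 265, .ofNat 1017, .ofNat 0, .ofNat 318373992587256591961735172338252513280, .ofNat 0, .ofNat 0, .ofNat 0, .ofNat 7592953495515543566642860139979420467200,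 .ofNat 0, .ofNat 0, .ofNat 0, .ofNat 3680708033632551574213728378281183412224, .ofNat 0, .ofNat 0, .ofNat 0, .ofNat 7676277708039847030959542339495528497152, .ofNat 0, .ofNat 0⟩)
    (by decide +kernel)
theorem L01040 : Good (Phi V5.P V5.D 1 (-1)) ⟨2, 0, 3, 3, 3, 4, 3, 6, 4, 5⟩ :=
  leafYS_sound T5.ok_pm T5.Ypm.bz_eq (w := 217) (c := ⟨⟨.negSucc 1113, .negSucc 173, .ofNat 14, .negSucc 64, .negSucc 52, .ofNat 59⟩, ⟨.ofNat 403, .ofNat 88, .ofNat 144, .ofNat 17, .ofNat 28, .negSucc 30⟩, ⟨.ofNat 1120, .ofNat 362, .ofNat 130, .ofNat 344, .ofNat 167, .ofNat 325⟩, ⟨.negSucc 3451, .negSucc 308, .negSucc 13, .negSucc 209, .negSucc 156, .ofNat 161⟩, ⟨.negSucc 203, .negSucc 172, .negSucc 29, .negSucc 77, .ofNat 18, .negSucc 36⟩, .ofNat 433, .ofNat 148, .ofNat 0, .ofNat 148, .ofNat 621, .ofNat 0, .ofNat 246, .negSucc 68, .negSucc 11, .ofNat 0, .ofNat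 128, .negSucc 9, .ofNat 0, .ofNat 0, .ofNat 449, .ofNat 412, .ofNat 0, .ofNat 587103712640878240131967008918238291558400, .ofNat 0, .ofNat 0, .ofNat 0, .ofNat 0, .ofNat 0, .ofNat 0, .ofNat 0, .ofNat 0, .ofNat 0, .ofNat 0, .ofNat 0, .ofNat 101784804285901779656951563836315761607966720, .ofNat 0, .ofNat 0⟩)
    (by decide +kernel)
theorem L01041 : Good (Phi V5.P V5.D 1 (-1)) ⟨2, 0, 3, 3, 3, 5, 3, 6, 4, 5⟩ :=
  leafYS_sound T5.ok_pm T5.Ypm.bz_eq (w := 222) (c := ⟨⟨.negSucc 1174, .negSucc 193, .ofNat 7, .ofNat 1, .negSucc 22, .ofNat 1⟩, ⟨.ofNat 418, .ofNat 97, .ofNat 157, .ofNat 0, .ofNat 52, .ofNat 0⟩, ⟨.ofNat 1399, .ofNat 443, .ofNat 112, .negSucc 0, .ofNat 379, .negSucc 0⟩, ⟨.negSucc 3640, .negSucc 365, .negSucc 39, .ofNat 2, .negSucc 171, .ofNat 2⟩, ⟨.negSucc 233, .negSucc 200, .negSucc 39, .ofNat 0, .negSucc 26, .ofNat 0⟩, .ofNat 194,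 .ofNat 26, .ofNat 0, .ofNat 26, .ofNat 226, .ofNat 0, .ofNat 390, .negSucc 38, .negSucc 17, .ofNat 0, .ofNat 128, .negSucc 45, .ofNat 0, .ofNat 0, .ofNat 483, .ofNat 11830, .ofNat 0, .ofNat 0, .ofNat 0, .ofNat 0, .ofNat 0, .ofNat 2134575174414244405882495155587571040093470720, .ofNat 0, .ofNat 0, .ofNat 0, .ofNat 370541226268904800907624554050399829273608192, .ofNat 0, .ofNat 0, .ofNat 0, .ofNat 1523859713928362330784401626382246249611919360, .ofNat 0, .ofNat 0⟩)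
    (by decide +kernel)
theorem L01042 : Good (Phi V5.P V5.D 1 (-1)) ⟨2, 0, 3, 3, 2, 2, 3, 7, 4, 5⟩ :=
  out_sound (S := T5.ds_pm) T5.ok_pm (w := 32) (j := 2) (by decide +kernel)
theorem L01043 : Good (Phi V5.P V5.D 1 (-1)) ⟨2, 0, 3, 3, 2, 3, 2, 3, 4, 5⟩ :=
  out_sound (S := T5.ds_pm) T5.ok_pm (w := 30) (j := 2) (by decide +kernel)
theorem L01044 : Good (Phi V5.P V5.D 1 (-1)) ⟨2, 0, 3, 3, 4, 8, 3, 4, 4, 6⟩ :=
  leafYS_sound T5.ok_pm T5.Ypm.bz_eq (w := 235) (c := ⟨⟨.negSucc 1059, .negSucc 130, .ofNat 14, .ofNat 8, .ofNat 2, .ofNat 91⟩, ⟨.ofNat 379, .ofNat 73, .ofNat 135, .negSucc 6, .negSucc 3, .negSucc 45⟩, ⟨.ofNat 1052, .ofNat 246, .ofNat 114, .ofNat 241, .ofNat 274, .ofNat 663⟩, ⟨.negSucc 3298, .negSucc 169, .negSucc 6, .negSucc 3, .negSucc 19, .ofNat 235⟩, ⟨.negSucc 251, .negSucc 109, .negSucc 7, .negSucc 44, .negSucc 50, .negSucc 50⟩,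 .ofNat 1078, .ofNat 934, .ofNat 0, .ofNat 934, .ofNat 2231, .ofNat 0, .ofNat 194, .negSucc 127, .ofNat 0, .ofNat 0, .ofNat 127, .negSucc 14, .ofNat 0, .ofNat 0, .ofNat 2467, .ofNat 8930, .ofNat 0, .ofNat 0, .ofNat 0, .ofNat 0, .ofNat 0, .ofNat 0, .ofNat 0, .ofNat 0, .ofNat 0, .ofNat 166294909918657274222629638330267761150988910592, .ofNat 0, .ofNat 0, .ofNat 0, .ofNat 7079784816524963634461355788153373293934953889792, .ofNat 0, .ofNat 0⟩)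
    (by decide +kernel)
theorem L01045 : Good (Phi V5.P V5.D 1 (-1)) ⟨2, 0, 3, 3, 4, 9, 3, 4, 4, 6⟩ :=
  leafYS_sound T5.ok_pm T5.Ypm.bz_eq (w := 234) (c := ⟨⟨.negSucc 1061, .negSucc 136, .ofNat 21, .negSucc 6, .negSucc 1, .ofNat 113⟩, ⟨.ofNat 372, .ofNat 78, .ofNat 133, .ofNat 2, .ofNat 0, .negSucc 55⟩, ⟨.ofNat 1226, .ofNat 236, .ofNat 172, .ofNat 87, .ofNat 251, .ofNat 778⟩, ⟨.negSucc 3343, .negSucc 152, .negSucc 12, .negSucc 20, .negSucc 12, .ofNat 297⟩, ⟨.negSucc 316, .negSucc 42, .negSucc 34, .negSucc 28, .negSucc 26, .negSucc 74⟩, .ofNat 436, .ofNat 151, .ofNat 0, .ofNat 151, .ofNat 618, .ofNat 0, .ofNat 170, .negSucc 66, .ofNat 53, .ofNat 0, .ofNat 128, .negSucc 69, .ofNat 0, .ofNat 0, .ofNat 1953, .ofNat 2859, .ofNat 0, .ofNat 7486140115645399688651123794180401568006799360, .ofNat 0, .ofNat 0, .ofNat 0, .ofNat 0, .ofNat 0, .ofNat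 0, .ofNat 0, .ofNat 214739345130014358665528296696701327560304230400, .ofNat 0, .ofNat 0, .ofNat 0, .ofNat 6590643070418072646384477177414781214530144829440, .ofNat 0, .ofNat 0⟩)
    (by decide +kernel)
theorem L01046 : Good (Phi V5.P V5.D 1 (-1)) ⟨2, 0, 3, 3, 4, 8, 3, 5, 4, 6⟩ :=
  leafYS_sound T5.ok_pm T5.Ypm.bz_eq (w := 234) (c := ⟨⟨.negSucc 1060, .negSucc 139, .ofNat 19, .ofNat 4, .negSucc 13, .ofNat 97⟩, ⟨.ofNat 382, .ofNat 73, .ofNat 129, .negSucc 3, .ofNat 5, .negSucc 50⟩, ⟨.ofNat 1155, .ofNat 323, .ofNat 234, .ofNat 239, .ofNat 222, .ofNat 725⟩, ⟨.negSucc 3293, .negSucc 189, .negSucc 7, .negSucc 27, .negSucc 57, .ofNat 232⟩, ⟨.negSucc 221, .negSucc 116, .negSucc 51, .negSucc 65, .negSucc 29, .negSucc 94⟩, .ofNat 745, .ofNat 462, .ofNat 0, .ofNat 462, .ofNat 1299, .ofNat 0, .ofNat 241, .negSucc 104, .ofNat 45, .ofNat 0, .ofNat 128,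 .negSucc 53, .ofNat 0, .ofNat 0, .ofNat 1915, .ofNat 3414, .ofNat 0, .ofNat 14803368290195505186062120810089659865547931648, .ofNat 0, .ofNat 0, .ofNat 0, .ofNat 0, .ofNat 0, .ofNat 0, .ofNat 0, .ofNat 312368299315294199064074056556155061760314834944, .ofNat 0, .ofNat 0, .ofNat 0, .ofNat 6862542234034997486840456498539715113480532000768, .ofNat 0, .ofNat 0⟩)
    (by decide +kernel)
theorem L01047 : Good (Phi V5.P V5.D 1 (-1)) ⟨2, 0, 3, 3, 4, 9, 3, 5, 4, 6⟩ :=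
  leafYS_sound T5.ok_pm T5.Ypm.bz_eq (w := 234) (c := ⟨⟨.negSucc 1059, .negSucc 147, .ofNat 20, .negSucc 4, .negSucc 17, .ofNat 119⟩, ⟨.ofNat 376, .ofNat 76, .ofNat 136, .negSucc 6, .ofNat 0, .negSucc 61⟩, ⟨.ofNat 1344, .ofNat 370, .ofNat 197, .ofNat 287, .ofNat 365, .ofNat 829⟩, ⟨.negSucc 3326, .negSucc 212, .negSucc 17, .negSucc 20, .negSucc 49, .ofNat 287⟩, ⟨.negSucc 278, .negSucc 122, .negSucc 43, .negSucc 68, .negSucc 53, .negSucc 120⟩, .ofNat 434, .ofNat 149, .ofNat 0, .ofNat 149, .ofNat 621, .ofNat 0, .ofNat 355, .negSucc 67, .ofNat 28, .ofNat 0, .ofNat 128, .negSucc 50, .ofNat 0, .ofNat 0, .ofNat 1337, .ofNat 2857, .ofNat 0, .ofNat 29249703381003907460728815420309816813742456832, .ofNat 0, .ofNat 0, .ofNat 0, .ofNat 0, .ofNat 0, .ofNat 0, .ofNat 0, .ofNat 707754738078433443914400029884843425822534533120, .ofNat 0, .ofNat 0, .ofNat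 0, .ofNat 6304214934957894788209047707153516651752869330944, .ofNat 0, .ofNat 0⟩)
    (by decide +kernel)
theorem L01048 : Good (Phi V5.P V5.D 1 (-1)) ⟨2, 0, 3, 3, 3, 5, 3, 4, 4, 6⟩ :=
  leafYS_sound T5.ok_pm T5.Ypm.bz_eq (w := 219) (c := ⟨⟨.negSucc 1067, .negSucc 135, .ofNat 12, .ofNat 8, .ofNat 3, .ofNat 136⟩, ⟨.ofNat 372, .ofNat 81, .ofNat 139, .negSucc 4, .negSucc 4, .negSucc 66⟩, ⟨.ofNat 1287, .ofNat 329, .ofNat 157, .ofNat 323, .ofNat 348, .ofNat 789⟩, ⟨.negSucc 3366, .negSucc 161, .negSucc 21, .ofNat 12, .ofNat 1, .ofNat 342⟩, ⟨.negSucc 341, .negSucc 44, .negSucc 28, .negSucc 29, .negSucc 36, .negSucc 90⟩, .ofNat 434, .ofNat 149, .ofNat 0, .ofNat 149, .ofNat 621, .ofNat 0, .ofNat 307, .negSucc 66, .ofNat 36, .ofNat 0, .ofNat 128, .negSucc 43, .ofNat 0, .ofNat 0, .ofNat 1217, .ofNat 2268, .ofNat 0, .ofNat 5309229556724702424343062305718951837958144,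 .ofNat 0, .ofNat 0, .ofNat 0, .ofNat 0, .ofNat 0, .ofNat 0, .ofNat 0, .ofNat 142434055958953108647710965014827852973998080, .ofNat 0, .ofNat 0, .ofNat 0, .ofNat 1199372503059778983137178415643960322375548928, .ofNat 0, .ofNat 0⟩)
    (by decide +kernel)
theorem L01049 : Good (Phi V5.P V5.D 1 (-1)) ⟨2, 0, 3, 3, 3, 5, 3, 5, 4, 6⟩ :=
  out_sound (S := T5.ds_pm) T5.ok_pm (w := 34) (j := 2) (by decide +kernel)
theorem L01050 : Good (Phi V5.P V5.D 1 (-1)) ⟨2, 0, 3, 3, 4, 8, 3, 4, 5, 14⟩ :=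
  leafYS_sound T5.ok_pm T5.Ypm.bz_eq (w := 240) (c := ⟨⟨.negSucc 994, .negSucc 115, .ofNat 26, .ofNat 30, .ofNat 13, .ofNat 69⟩, ⟨.ofNat 357, .ofNat 72, .ofNat 121, .negSucc 27, .negSucc 15, .negSucc 39⟩, ⟨.ofNat 1229, .ofNat 292, .ofNat 348, .ofNat 647, .ofNat 556, .ofNat 749⟩, ⟨.negSucc 3085, .negSucc 163, .negSucc 0, .ofNat 38, .negSucc 6, .ofNat 155⟩, ⟨.negSucc 195, .negSucc 94, .negSucc 54, .negSucc 145, .negSucc 117, .negSucc 104⟩, .ofNat 435, .ofNat 149, .ofNat 0, .ofNat 149, .ofNat 619, .ofNat 0, .ofNat 243, .negSucc 64, .ofNat 80, .ofNat 0, .ofNat 128, .negSucc 104, .ofNat 0, .ofNat 0, .ofNat 2852, .ofNat 10011, .ofNat 0, .ofNat 0, .ofNat 0, .ofNat 0, .ofNat 0, .ofNat 0, .ofNat 0, .ofNat 0, .ofNat 359721857040150988911659284684792807948123918827520, .ofNat 4534830963119742045784228504873857263415184064512, .ofNat 0, .ofNat 0, .ofNat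 5146469372865401288019021792091368552291345102798848, .ofNat 142358229871152171782373714341517472634826364289024, .ofNat 0, .ofNat 0⟩)
    (by decide +kernel)
theorem L01051 : Good (Phi V5.P V5.D 1 (-1)) ⟨2, 0, 3, 3, 4, 9, 3, 4, 5, 14⟩ :=
  leafYS_sound T5.ok_pm T5.Ypm.bz_eq (w := 240) (c := ⟨⟨.negSucc 992, .negSucc 110, .ofNat 34, .ofNat 74, .ofNat 54, .ofNat 101⟩, ⟨.ofNat 336, .ofNat 68, .ofNat 119, .negSucc 24, .negSucc 20, .negSucc 47⟩, ⟨.ofNat 1717, .ofNat 330, .ofNat 389, .ofNat 677, .ofNat 718, .ofNat 978⟩, ⟨.negSucc 3087, .negSucc 133, .ofNat 3, .ofNat 63, .ofNat 41, .ofNat 185⟩, ⟨.negSucc 327, .negSucc 73, .negSucc 64, .negSucc 145, .negSucc 134, .negSucc 153⟩, .ofNat 194, .ofNat 26, .ofNat 0, .ofNat 26, .ofNat 226, .ofNat 0, .ofNat 209, .negSucc 30, .ofNat 70, .ofNat 0, .ofNat 128, .negSucc 106, .ofNat 0, .ofNat 0, .ofNat 1400,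 .ofNat 6477, .ofNat 22425505514773241534778923429294220970911909019648, .ofNat 581025744878270608598304172754191358669898121216, .ofNat 0, .ofNat 0, .ofNat 348133555851913814743758515477887847515904838467584, .ofNat 10316174886340064723358104007593955515631803564032, .ofNat 0, .ofNat 0, .ofNat 220948325465211255216450939133396375885998844805120, .ofNat 8255920648352124860556663338955107522426546683904, .ofNat 0, .ofNat 0, .ofNat 2653720665971962048760829370483197112202761502457856, .ofNat 90105113477838231024307505727435966430204370354176, .ofNat 0, .ofNat 0⟩)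
    (by decide +kernel)
theorem L01052 : Good (Phi V5.P V5.D 1 (-1)) ⟨2, 0, 3, 3, 4, 8, 3, 5, 5, 14⟩ :=
  leafYS_sound T5.ok_pm T5.Ypm.bz_eq (w := 240) (c := ⟨⟨.negSucc 986, .negSucc 126, .ofNat 31, .ofNat 42, .ofNat 12, .ofNat 78⟩, ⟨.ofNat 351, .ofNat 67, .ofNat 115, .negSucc 37, .negSucc 22, .negSucc 48⟩, ⟨.ofNat 1579, .ofNat 335, .ofNat 465, .ofNat 871, .ofNat 692, .ofNat 940⟩, ⟨.negSucc 3091, .negSucc 175, .ofNat 2, .ofNat 48, .negSucc 18, .ofNat 162⟩, ⟨.negSucc 258, .negSucc 119, .negSucc 85, .negSucc 191, .negSucc 156, .negSucc 142⟩, .ofNat 745, .ofNat 462, .ofNat 0, .ofNat 462, .ofNat 1299, .ofNat 0, .ofNat 295, .negSucc 102, .ofNat 130, .ofNat 0, .ofNat 128, .negSucc 108, .ofNat 0, .ofNat 0, .ofNat 2244, .ofNat 6404, .ofNat 0, .ofNat 775339842483035101866506072202935590820853579776, .ofNat 0, .ofNat 0, .ofNat 0, .ofNat 0, .ofNat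 0, .ofNat 0, .ofNat 0, .ofNat 10410430138213453212059955950708798687844178591744, .ofNat 0, .ofNat 0, .ofNat 0, .ofNat 149388857033944407330634974857043946999602518949888, .ofNat 0, .ofNat 0⟩)
    (by decide +kernel)
theorem L01053 : Good (Phi V5.P V5.D 1 (-1)) ⟨2, 0, 3, 3, 4, 9, 3, 5, 5, 14⟩ :=
  out_sound (S := T5.ds_pm) T5.ok_pm (w := 38) (j := 2) (by decide +kernel)
theorem L01054 : Good (Phi V5.P V5.D 1 (-1)) ⟨2, 0, 3, 3, 4, 8, 4, 8, 5, 15⟩ :=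
  out_sound (S := T5.ds_pm) T5.ok_pm (w := 32) (j := 1) (by decide +kernel)
theorem L01055 : Good (Phi V5.P V5.D 1 (-1)) ⟨2, 0, 3, 3, 5, 16, 4, 9, 6, 30⟩ :=
  out_sound (S := T5.ds_pm) T5.ok_pm (w := 36) (j := 1) (by decide +kernel)
theorem L01056 : Good (Phi V5.P V5.D 1 (-1)) ⟨2, 0, 3, 3, 5, 17, 4, 9, 6, 30⟩ :=
  out_sound (S := T5.ds_pm) T5.ok_pm (w := 44) (j := 2) (by decide +kernel)
theorem L01057 : Good (Phi V5.P V5.D 1 (-1)) ⟨2, 0, 3, 3, 4, 8, 4, 9, 6, 31⟩ :=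
  out_sound (S := T5.ds_pm) T5.ok_pm (w := 34) (j := 1) (by decide +kernel)
theorem L01058 : Good (Phi V5.P V5.D 1 (-1)) ⟨2, 0, 3, 3, 4, 8, 3, 5, 5, 15⟩ :=
  out_sound (S := T5.ds_pm) T5.ok_pm (w := 38) (j := 2) (by decide +kernel)
theorem L01059 : Good (Phi V5.P V5.D 1 (-1)) ⟨2, 0, 3, 3, 4, 9, 2, 2, 5, 15⟩ :=
  out_sound (S := T5.ds_pm) T5.ok_pm (w := 36) (j := 2) (by decide +kernel)
theorem L01060 : Good (Phi V5.P V5.D 1 (-1)) ⟨2, 0, 3, 3, 3, 5, 2, 2, 4, 7⟩ :=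
  out_sound (S := T5.ds_pm) T5.ok_pm (w := 32) (j := 2) (by decide +kernel)
theorem L01061 : Good (Phi V5.P V5.D 1 (-1)) ⟨2, 0, 3, 3, 3, 4, 2, 3, 4, 6⟩ :=
  leafYS_sound T5.ok_pm T5.Ypm.bz_eq (w := 216) (c := ⟨⟨.negSucc 1068, .negSucc 146, .ofNat 12, .ofNat 38, .negSucc 99, .ofNat 77⟩, ⟨.ofNat 380, .ofNat 82, .ofNat 137, .ofNat 6, .ofNat 23, .negSucc 40⟩, ⟨.ofNat 1405, .ofNat 354, .ofNat 184, .ofNat 591, .ofNat 447, .ofNat 523⟩, ⟨.negSucc 3304, .negSucc 283, .negSucc 20, .negSucc 108, .negSucc 228, .ofNat 193⟩, ⟨.negSucc 222, .negSucc 177, .negSucc 42, .negSucc 153, .negSucc 19, .negSucc 77⟩, .ofNat 194, .ofNat 26, .ofNat 0, .ofNat 26, .ofNat 226, .ofNat 0, .ofNat 501, .negSucc 30, .negSucc 11, .ofNat 0, .ofNat 128, .negSucc 75, .ofNat 0, .ofNat 0, .ofNat 866, .ofNat 2750, .ofNat 0, .ofNat 3198958549835845136049041242141814463397888, .ofNat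 0, .ofNat 0, .ofNat 0, .ofNat 117007043674463829629911466313840821400502272, .ofNat 0, .ofNat 0, .ofNat 0, .ofNat 54237818066175813222232904362215907992272896, .ofNat 0, .ofNat 0, .ofNat 0, .ofNat 344535444868813215304681018097551513732775936, .ofNat 0, .ofNat 0⟩)
    (by decide +kernel)
theorem L01062 : Good (Phi V5.P V5.D 1 (-1)) ⟨2, 0, 3, 3, 3, 4, 2, 3, 4, 7⟩ :=
  out_sound (S := T5.ds_pm) T5.ok_pm (w := 32) (j := 2) (by decide +kernel)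
theorem L01063 : Good (Phi V5.P V5.D 1 (-1)) ⟨2, 0, 3, 3, 3, 5, 2, 3, 3, 3⟩ :=
  out_sound (S := T5.ds_pm) T5.ok_pm (w := 30) (j := 2) (by decide +kernel)
theorem L01064 : Good (Phi V5.P V5.D 1 (-1)) ⟨2, 0, 3, 3, 2, 3, 1, 1, 3, 3⟩ :=
  out_sound (S := T5.ds_pm) T5.ok_pm (w := 26) (j := 2) (by decide +kernel)
theorem L01065 : Good (Phi V5.P V5.D 1 (-1)) ⟨2, 0, 3, 3, 4, 8, 3, 4, 4, 8⟩ :=
  out_sound (S := T5.ds_pm) T5.ok_pm (w := 29) (j := 1) (by decide +kernel)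
theorem L01066 : Good (Phi V5.P V5.D 1 (-1)) ⟨2, 0, 3, 3, 4, 8, 3, 5, 4, 8⟩ :=
  out_sound (S := T5.ds_pm) T5.ok_pm (w := 36) (j := 2) (by decide +kernel)
theorem L01067 : Good (Phi V5.P V5.D 1 (-1)) ⟨2, 0, 3, 3, 4, 8, 2, 2, 4, 9⟩ :=
  out_sound (S := T5.ds_pm) T5.ok_pm (w := 28) (j := 1) (by decide +kernel)
theorem L01068 : Good (Phi V5.P V5.D 1 (-1)) ⟨2, 0, 3, 3, 4, 9, 2, 2, 3, 4⟩ :=
  out_sound (S := T5.ds_pm) T5.ok_pm (w := 32) (j := 2) (by decide +kernel)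
theorem L01069 : Good (Phi V5.P V5.D 1 (-1)) ⟨2, 0, 3, 3, 3, 4, 2, 3, 3, 4⟩ :=
  out_sound (S := T5.ds_pm) T5.ok_pm (w := 30) (j := 2) (by decide +kernel)
theorem L01070 : Good (Phi V5.P V5.D 1 (-1)) ⟨2, 0, 3, 3, 3, 4, 1, 1, 3, 5⟩ :=
  out_sound (S := T5.ds_pm) T5.ok_pm (w := 28) (j := 2) (by decide +kernel)
theorem L01071 : Good (Phi V5.P V5.D 1 (-1)) ⟨2, 0, 3, 3, 3, 5, 1, 1, 2, 2⟩ :=
  out_sound (S := T5.ds_pm) T5.ok_pm (w := 26) (j := 2) (by decide +kernel)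
theorem L01072 : Good (Phi V5.P V5.D 1 (-1)) ⟨2, 0, 3, 3, 2, 2, 1, 1, 2, 3⟩ :=
  out_sound (S := T5.ds_pm) T5.ok_pm (w := 24) (j := 2) (by decide +kernel)
theorem L01073 : Good (Phi V5.P V5.D 1 (-1)) ⟨2, 0, 3, 3, 2, 3, 1, 1, 1, 1⟩ :=
  out_sound (S := T5.ds_pm) T5.ok_pm (w := 22) (j := 2) (by decide +kernel)
theorem L01074 : Good (Phi V5.P V5.D 1 (-1)) ⟨2, 1, 2, 0, 1, 0, 2, 0, 5, 0⟩ :=
  leafYS_sound T5.ok_pm T5.Ypm.bz_eq (w := 188) (c := ⟨⟨.ofNat 555, .ofNat 322, .ofNat 69, .ofNat 623, .ofNat 138, .negSucc 839⟩, ⟨.negSucc 20, .ofNat 50, .negSucc 195, .negSucc 94, .negSucc 2, .ofNat 91⟩, ⟨.negSucc 520, .negSucc 334, .negSucc 88, .negSucc 400, .negSucc 236, .ofNat 717⟩, ⟨.ofNat 1582, .ofNat 327, .ofNat 158, .ofNat 1564, .ofNat 358, .negSucc 2121⟩, ⟨.negSucc 237, .negSucc 73, .ofNat 78, .ofNat 53, .ofNat 249, .negSucc 164⟩, .ofNat 521, .ofNat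 136, .ofNat 0, .ofNat 136, .ofNat 1429, .ofNat 0, .ofNat 282, .negSucc 54, .negSucc 204, .ofNat 0, .ofNat 128, .ofNat 28, .ofNat 0, .ofNat 0, .ofNat 517, .ofNat 2844, .ofNat 0, .ofNat 0, .ofNat 0, .ofNat 0, .ofNat 0, .ofNat 0, .ofNat 0, .ofNat 0, .ofNat 0, .ofNat 0, .ofNat 0, .ofNat 0, .ofNat 0, .ofNat 0, .ofNat 0, .ofNat 0⟩)
    (by decide +kernel)
theorem L01075 : Good (Phi V5.P V5.D 1 (-1)) ⟨2, 1, 2, 0, 1, 0, 2, 0, 5, 1⟩ :=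
  leafYS_sound T5.ok_pm T5.Ypm.bz_eq (w := 189) (c := ⟨⟨.negSucc 197, .ofNat 94, .ofNat 101, .ofNat 655, .ofNat 30, .negSucc 685⟩, ⟨.ofNat 10, .ofNat 0, .negSucc 8, .negSucc 124, .ofNat 13, .ofNat 88⟩, ⟨.ofNat 488, .negSucc 145, .negSucc 167, .negSucc 1100, .negSucc 90, .ofNat 479⟩, ⟨.negSucc 444, .ofNat 206, .ofNat 129, .ofNat 1619, .ofNat 99, .negSucc 1759⟩, ⟨.negSucc 92, .ofNat 91, .ofNat 1, .negSucc 463, .ofNat 175, .negSucc 97⟩, .ofNat 368, .ofNat 51, .ofNat 0, .ofNat 51, .ofNat 669, .ofNat 0, .ofNat 376, .negSucc 34, .negSucc 263, .ofNat 0, .ofNat 128, .ofNat 46, .ofNat 0, .ofNat 0, .ofNat 636, .ofNat 4063, .ofNat 0, .ofNat 0, .ofNat 0, .ofNat 0, .ofNat 0, .ofNat 0, .ofNat 0, .ofNat 0, .ofNat 0, .ofNat 0, .ofNat 0, .ofNat 0, .ofNat 0, .ofNat 0, .ofNat 0, .ofNat 0⟩)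
    (by decide +kernel)
theorem L01076 : Good (Phi V5.P V5.D 1 (-1)) ⟨2, 1, 2, 0, 1, 0, 2, 1, 4, 0⟩ :=
  leafYS_sound T5.ok_pm T5.Ypm.bz_eq (w := 183) (c := ⟨⟨.ofNat 636, .ofNat 69, .ofNat 41, .ofNat 654, .negSucc 339, .negSucc 1440⟩, ⟨.negSucc 10, .negSucc 59, .negSucc 70, .negSucc 82, .ofNat 41, .ofNat 145⟩, ⟨.negSucc 584, .negSucc 139, .negSucc 83, .negSucc 632, .ofNat 344, .ofNat 1234⟩, ⟨.ofNat 1696, .ofNat 112, .ofNat 67, .ofNat 1778, .negSucc 886, .negSucc 3838⟩, ⟨.negSucc 91, .negSucc 28, .ofNat 39, .ofNat 152, .ofNat 140, .negSucc 221⟩, .ofNat 369, .ofNat 43, .ofNat 0, .ofNat 43, .ofNat 673, .ofNat 0, .ofNat 268, .negSucc 24, .negSucc 314, .ofNat 0, .ofNat 128, .ofNat 40, .ofNat 0, .ofNat 0, .ofNat 587, .ofNat 1036, .ofNat 0, .ofNat 0, .ofNat 0, .ofNat 0, .ofNat 0, .ofNat 0, .ofNat 0, .ofNat 0, .ofNat 0, .ofNat 0, .ofNat 0, .ofNat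 0, .ofNat 0, .ofNat 0, .ofNat 0, .ofNat 0⟩)
    (by decide +kernel)
theorem L01077 : Good (Phi V5.P V5.D 1 (-1)) ⟨2, 1, 2, 0, 1, 0, 1, 0, 4, 1⟩ :=
  leafYS_sound T5.ok_pm T5.Ypm.bz_eq (w := 179) (c := ⟨⟨.negSucc 580, .negSucc 287, .negSucc 22, .ofNat 439, .ofNat 31, .negSucc 805⟩, ⟨.negSucc 0, .negSucc 10, .ofNat 172, .negSucc 76, .ofNat 22, .ofNat 82⟩, ⟨.ofNat 968, .ofNat 118, .negSucc 134, .negSucc 1306, .ofNat 74, .ofNat 587⟩, ⟨.negSucc 1723, .negSucc 189, .negSucc 60, .ofNat 1012, .ofNat 38, .negSucc 1920⟩, ⟨.negSucc 223, .ofNat 50, .ofNat 61, .negSucc 312, .ofNat 210, .negSucc 23⟩, .ofNat 522, .ofNat 148, .ofNat 0, .ofNat 148, .ofNat 1432, .ofNat 0, .ofNat 398, .negSucc 58, .negSucc 197, .ofNat 0, .ofNat 128, .ofNat 34, .ofNat 0, .ofNat 0, .ofNat 630, .ofNat 1316, .ofNat 0, .ofNat 0, .ofNat 0, .ofNat 0, .ofNat 0, .ofNat 0, .ofNat 0,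 .ofNat 0, .ofNat 21078983889697040615392183880515584, .ofNat 0, .ofNat 0, .ofNat 0, .ofNat 0, .ofNat 0, .ofNat 0, .ofNat 0⟩)
    (by decide +kernel)
theorem L01078 : Good (Phi V5.P V5.D 1 (-1)) ⟨2, 1, 2, 0, 1, 0, 1, 0, 3, 1⟩ :=
  leafYS_sound T5.ok_pm T5.Ypm.bz_eq (w := 174) (c := ⟨⟨.negSucc 1295, .negSucc 319, .ofNat 38, .ofNat 7, .ofNat 106, .negSucc 136⟩, ⟨.ofNat 58, .negSucc 72, .ofNat 310, .negSucc 27, .negSucc 11, .ofNat 13⟩, ⟨.ofNat 1279, .ofNat 197, .negSucc 120, .negSucc 674, .ofNat 120, .ofNat 372⟩, ⟨.negSucc 3604, .ofNat 28, .ofNat 31, .negSucc 36, .ofNat 275, .negSucc 339⟩, ⟨.negSucc 67, .ofNat 36, .ofNat 0, .negSucc 368, .ofNat 37, .ofNat 12⟩, .ofNat 522, .ofNat 131, .ofNat 0, .ofNat 131, .ofNat 1430, .ofNat 0, .ofNat 391, .negSucc 50, .negSucc 139, .ofNat 0, .ofNat 128, .ofNat 26, .ofNat 0, .ofNat 0, .ofNat 753, .ofNat 1431,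 .ofNat 919311264520645421509290538041344, .ofNat 0, .ofNat 0, .ofNat 0, .ofNat 0, .ofNat 0, .ofNat 0, .ofNat 0, .ofNat 0, .ofNat 0, .ofNat 0, .ofNat 0, .ofNat 49239707992523135657763472043671552, .ofNat 0, .ofNat 0, .ofNat 0⟩)
    (by decide +kernel)
theorem L01079 : Good (Phi V5.P V5.D 1 (-1)) ⟨2, 1, 2, 0, 1, 0, 2, 0, 4, 4⟩ :=
  leafYS_sound T5.ok_pm T5.Ypm.bz_eq (w := 187) (c := ⟨⟨.negSucc 1494, .negSucc 355, .ofNat 13, .ofNat 22, .ofNat 147, .negSucc 1⟩, ⟨.ofNat 45, .negSucc 86, .ofNat 306, .negSucc 26, .ofNat 30, .negSucc 14⟩, ⟨.ofNat 1630, .ofNat 210, .negSucc 35, .negSucc 735, .ofNat 141, .ofNat 124⟩, ⟨.negSucc 3941, .negSucc 27, .negSucc 16, .negSucc 46, .ofNat 213, .ofNat 99⟩, ⟨.negSucc 79, .ofNat 87, .ofNat 18, .negSucc 367, .ofNat 14, .ofNat 30⟩, .ofNat 183, .ofNat 9, .ofNat 0, .ofNat 9, .ofNat 236, .ofNat 0, .ofNat 219, .negSucc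 14, .negSucc 86, .ofNat 0, .ofNat 128, .ofNat 33, .ofNat 0, .ofNat 0, .ofNat 353, .ofNat 20953, .ofNat 1279905022267588038534826321619451904, .ofNat 0, .ofNat 0, .ofNat 0, .ofNat 5809482399545403581549410566350569472, .ofNat 0, .ofNat 0, .ofNat 0, .ofNat 0, .ofNat 0, .ofNat 0, .ofNat 0, .ofNat 5591390193361793254973354260004077568, .ofNat 0, .ofNat 0, .ofNat 0⟩)
    (by decide +kernel)
theorem L01080 : Good (Phi V5.P V5.D 1 (-1)) ⟨2, 1, 2, 0, 1, 0, 2, 1, 4, 4⟩ :=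
  leafYS_sound T5.ok_pm T5.Ypm.bz_eq (w := 185) (c := ⟨⟨.negSucc 1305, .negSucc 352, .ofNat 5, .negSucc 60, .ofNat 56, .ofNat 68⟩, ⟨.ofNat 82, .negSucc 83, .ofNat 287, .negSucc 19, .negSucc 15, .negSucc 6⟩, ⟨.ofNat 1442, .ofNat 302, .ofNat 6, .negSucc 214, .negSucc 45, .negSucc 38⟩, ⟨.negSucc 3629, .negSucc 75, .negSucc 5, .negSucc 209, .ofNat 142, .ofNat 176⟩, ⟨.negSucc 18, .ofNat 26, .ofNat 9, .negSucc 354, .negSucc 20, .ofNat 16⟩, .ofNat 369, .ofNat 54, .ofNat 0, .ofNat 54, .ofNat 668, .ofNat 0, .ofNat 234, .negSucc 29, .negSucc 98, .ofNat 0, .ofNat 128, .ofNat 20, .ofNat 0, .ofNat 0, .ofNat 726, .ofNat 5550, .ofNat 270442676526898233700778485303214080, .ofNat 0, .ofNat 0, .ofNat 0, .ofNat 0, .ofNat 0, .ofNat 0, .ofNat 0, .ofNat 0, .ofNat 0, .ofNat 0, .ofNat 0, .ofNat 0, .ofNat 0, .ofNat 0, .ofNat 0⟩)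
    (by decide +kernel)
theorem L01081 : Good (Phi V5.P V5.D 1 (-1)) ⟨2, 1, 2, 0, 1, 0, 2, 0, 4, 5⟩ :=
  out_sound (S := T5.ds_pm) T5.ok_pm (w := 22) (j := 1) (by decide +kernel)
theorem L01082 : Good (Phi V5.P V5.D 1 (-1)) ⟨2, 1, 2, 0, 1, 0, 3, 2, 4, 5⟩ :=
  leafYS_sound T5.ok_pm T5.Ypm.bz_eq (w := 191) (c := ⟨⟨.negSucc 1201, .negSucc 343, .ofNat 15, .negSucc 94, .ofNat 13, .ofNat 81⟩, ⟨.ofNat 40, .negSucc 79, .ofNat 288, .negSucc 4, .ofNat 14, .negSucc 16⟩, ⟨.ofNat 1459, .ofNat 249, .ofNat 19, .negSucc 337, .ofNat 76, .ofNat 101⟩, ⟨.negSucc 3314, .negSucc 51, .negSucc 15, .negSucc 295, .ofNat 2, .ofNat 214⟩, ⟨.negSucc 43, .ofNat 34, .ofNat 12, .negSucc 333, .negSucc 1, .ofNat 11⟩, .ofNat 182, .ofNat 8, .ofNat 0, .ofNat 8, .ofNat 237, .ofNat 0, .ofNat 146, .negSucc 12, .negSucc 44, .ofNat 0, .ofNat 128, .ofNat 16, .ofNat 0, .ofNat 0, .ofNat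 251, .ofNat 13950, .ofNat 7840940752261904764001074826966990848, .ofNat 0, .ofNat 0, .ofNat 0, .ofNat 34070161119692996399052341506545287168, .ofNat 0, .ofNat 0, .ofNat 0, .ofNat 0, .ofNat 0, .ofNat 0, .ofNat 0, .ofNat 26110376298568563772847578283654512640, .ofNat 0, .ofNat 0, .ofNat 0⟩)
    (by decide +kernel)
theorem L01083 : Good (Phi V5.P V5.D 1 (-1)) ⟨2, 1, 2, 0, 2, 0, 3, 3, 4, 5⟩ :=
  leafYS_sound T5.ok_pm T5.Ypm.bz_eq (w := 206) (c := ⟨⟨.negSucc 1218, .negSucc 323, .ofNat 4, .negSucc 20, .ofNat 33, .ofNat 72⟩, ⟨.ofNat 81, .negSucc 87, .ofNat 275, .negSucc 12, .negSucc 17, .ofNat 5⟩, ⟨.ofNat 1354, .ofNat 313, .ofNat 22, .ofNat 28, .negSucc 119, .negSucc 40⟩, ⟨.negSucc 3393, .negSucc 66, .negSucc 8, .negSucc 76, .ofNat 101, .ofNat 176⟩, ⟨.negSucc 3, .ofNat 6, .ofNat 0, .negSucc 183, .ofNat 2, .ofNat 2⟩, .ofNat 182, .ofNat 8, .ofNat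 0, .ofNat 8, .ofNat 237, .ofNat 0, .ofNat 225, .negSucc 8, .negSucc 98, .ofNat 0, .ofNat 128, .ofNat 14, .ofNat 0, .ofNat 0, .ofNat 559, .ofNat 35703, .ofNat 64173606137040566673628578687661272727552, .ofNat 0, .ofNat 0, .ofNat 0, .ofNat 51037055891805423079564051837258269982720, .ofNat 0, .ofNat 0, .ofNat 0, .ofNat 0, .ofNat 0, .ofNat 0, .ofNat 0, .ofNat 124556732104877845050916718397818010599424, .ofNat 0, .ofNat 0, .ofNat 0⟩)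
    (by decide +kernel)
theorem L01084 : Good (Phi V5.P V5.D 1 (-1)) ⟨2, 1, 2, 0, 2, 1, 3, 3, 4, 5⟩ :=
  leafYS_sound T5.ok_pm T5.Ypm.bz_eq (w := 204) (c := ⟨⟨.negSucc 1228, .negSucc 339, .ofNat 22, .negSucc 57, .ofNat 14, .ofNat 69⟩, ⟨.ofNat 49, .negSucc 81, .ofNat 288, .negSucc 1, .ofNat 1, .negSucc 10⟩, ⟨.ofNat 1267, .ofNat 294, .ofNat 37, .negSucc 47, .negSucc 16, .ofNat 73⟩, ⟨.negSucc 3413, .negSucc 79, .negSucc 15, .negSucc 186, .ofNat 28, .ofNat 192⟩, ⟨.negSucc 196, .ofNat 9, .ofNat 10, .negSucc 172, .negSucc 3, .ofNat 5⟩, .ofNat 183, .ofNat 9, .ofNat 0, .ofNat 9, .ofNat 236, .ofNat 0, .ofNat 158, .negSucc 11, .negSucc 88, .ofNat 0, .ofNat 128, .ofNat 24, .ofNat 0, .ofNat 0, .ofNat 534, .ofNat 8248, .ofNat 16287409272297871411500255916256464470016, .ofNat 0, .ofNat 0, .ofNat 0, .ofNat 0, .ofNat 0, .ofNat 0, .ofNat 0, .ofNat 0, .ofNat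 0, .ofNat 0, .ofNat 0, .ofNat 0, .ofNat 0, .ofNat 0, .ofNat 0⟩)
    (by decide +kernel)
theorem L01085 : Good (Phi V5.P V5.D 1 (-1)) ⟨2, 1, 2, 0, 1, 0, 1, 0, 3, 3⟩ :=
  leafYS_sound T5.ok_pm T5.Ypm.bz_eq (w := 178) (c := ⟨⟨.negSucc 1053, .negSucc 344, .ofNat 19, .negSucc 127, .negSucc 22, .ofNat 139⟩, ⟨.ofNat 41, .negSucc 75, .ofNat 274, .negSucc 10, .ofNat 8, .negSucc 20⟩, ⟨.ofNat 912, .ofNat 295, .ofNat 119, .ofNat 208, .ofNat 182, .ofNat 283⟩, ⟨.negSucc 2906, .negSucc 99, .negSucc 27, .negSucc 387, .negSucc 80, .ofNat 399⟩, ⟨.ofNat 35, .negSucc 15, .ofNat 4, .negSucc 329, .negSucc 58, .ofNat 5⟩, .ofNat 183, .ofNat 9, .ofNat 0, .ofNat 9, .ofNat 236, .ofNat 0, .ofNat 162, .negSucc 12, .negSucc 48, .ofNat 0, .ofNat 128, .ofNat 9, .ofNat 0, .ofNat 0, .ofNat 447, .ofNat 16974, .ofNat 32874763660148318238243589619449856, .ofNat 0, .ofNat 0,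 .ofNat 0, .ofNat 125521067135255070623937563899985920, .ofNat 0, .ofNat 0, .ofNat 0, .ofNat 23717126263747007174448102418415616, .ofNat 0, .ofNat 0, .ofNat 0, .ofNat 153455569199964304010156349291757568, .ofNat 0, .ofNat 0, .ofNat 0⟩)
    (by decide +kernel)
theorem L01086 : Good (Phi V5.P V5.D 1 (-1)) ⟨2, 1, 2, 0, 1, 0, 1, 0, 1, 1⟩ :=
  out_sound (S := T5.ds_pm) T5.ok_pm (w := 15) (j := 1) (by decide +kernel)
theorem L01087 : Good (Phi V5.P V5.D 1 (-1)) ⟨2, 1, 2, 0, 1, 0, 2, 2, 3, 0⟩ :=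
  leafYS_sound T5.ok_pm T5.Ypm.bz_eq (w := 177) (c := ⟨⟨.negSucc 158, .negSucc 407, .ofNat 136, .ofNat 295, .negSucc 6, .negSucc 1104⟩, ⟨.negSucc 100, .negSucc 1, .ofNat 179, .negSucc 59, .ofNat 17, .ofNat 196⟩, ⟨.ofNat 133, .ofNat 362, .negSucc 179, .negSucc 429, .ofNat 104, .ofNat 1039⟩, ⟨.negSucc 525, .negSucc 535, .ofNat 339, .ofNat 641, .negSucc 62, .negSucc 2856⟩, ⟨.ofNat 377, .negSucc 282, .ofNat 51, .negSucc 258, .negSucc 71, .negSucc 384⟩, .ofNat 519, .ofNat 129, .ofNat 0, .ofNat 129, .ofNat 1433, .ofNat 0, .ofNat 388, .negSucc 47, .negSucc 212, .ofNat 0, .ofNat 128, .ofNat 29, .ofNat 0, .ofNat 0, .ofNat 522, .ofNat 362, .ofNat 0, .ofNat 0, .ofNat 0, .ofNat 0, .ofNat 0, .ofNat 0, .ofNat 0, .ofNat 0, .ofNat 0, .ofNat 0, .ofNat 0, .ofNat 0, .ofNat 0, .ofNat 0, .ofNat 0, .ofNat 0⟩)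
    (by decide +kernel)
theorem L01088 : Good (Phi V5.P V5.D 1 (-1)) ⟨2, 1, 2, 0, 1, 0, 2, 3, 3, 0⟩ :=
  leafYS_sound T5.ok_pm T5.Ypm.bz_eq (w := 177) (c := ⟨⟨.negSucc 452, .negSucc 400, .ofNat 46, .ofNat 77, .ofNat 403, .negSucc 588⟩, ⟨.ofNat 23, .ofNat 35, .ofNat 114, .negSucc 29, .negSucc 76, .ofNat 71⟩, ⟨.ofNat 238, .ofNat 540, .negSucc 53, .ofNat 219, .negSucc 325, .ofNat 479⟩, ⟨.negSucc 1275, .negSucc 727, .ofNat 152, .ofNat 177, .ofNat 1000, .negSucc 1470⟩, ⟨.negSucc 37, .negSucc 306, .ofNat 25, .ofNat 21, .ofNat 112, .negSucc 25⟩, .ofNat 527, .ofNat 151, .ofNat 0, .ofNat 151, .ofNat 1422, .ofNat 0, .ofNat 434, .negSucc 51, .negSucc 403, .ofNat 0, .ofNat 128, .ofNat 60, .ofNat 0, .ofNat 0, .ofNat 870, .ofNat 474, .ofNat 0, .ofNat 0, .ofNat 0, .ofNat 0, .ofNat 0, .ofNat 4054089518023250707098357062434816, .ofNat 0, .ofNat 0, .ofNat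 0, .ofNat 0, .ofNat 0, .ofNat 0, .ofNat 0, .ofNat 0, .ofNat 0, .ofNat 0⟩)
    (by decide +kernel)
theorem L01089 : Good (Phi V5.P V5.D 1 (-1)) ⟨2, 1, 2, 0, 1, 0, 2, 2, 3, 1⟩ :=
  leafYS_sound T5.ok_pm T5.Ypm.bz_eq (w := 178) (c := ⟨⟨.negSucc 1134, .negSucc 421, .ofNat 10, .negSucc 93, .ofNat 117, .negSucc 70⟩, ⟨.ofNat 61, .negSucc 82, .ofNat 284, .negSucc 18, .negSucc 14, .ofNat 7⟩, ⟨.ofNat 1029, .ofNat 447, .negSucc 30, .negSucc 57, .negSucc 124, .ofNat 180⟩, ⟨.negSucc 3173, .negSucc 250, .negSucc 5, .negSucc 224, .ofNat 280, .negSucc 222⟩, ⟨.ofNat 107, .negSucc 39, .negSucc 19, .negSucc 301, .negSucc 14, .negSucc 136⟩, .ofNat 521, .ofNat 136, .ofNat 0, .ofNat 136, .ofNat 1434, .ofNat 0, .ofNat 380, .negSucc 50, .negSucc 185, .ofNat 0, .ofNat 128, .ofNat 29, .ofNat 0, .ofNat 0, .ofNat 809, .ofNat 1370, .ofNat 0, .ofNat 0, .ofNat 0, .ofNat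 0, .ofNat 0, .ofNat 0, .ofNat 0, .ofNat 0, .ofNat 0, .ofNat 0, .ofNat 0, .ofNat 0, .ofNat 0, .ofNat 0, .ofNat 0, .ofNat 0⟩)
    (by decide +kernel)
theorem L01090 : Good (Phi V5.P V5.D 1 (-1)) ⟨2, 1, 2, 0, 1, 0, 3, 6, 3, 1⟩ :=
  leafYS_sound T5.ok_pm T5.Ypm.bz_eq (w := 183) (c := ⟨⟨.negSucc 1006, .negSucc 339, .ofNat 12, .negSucc 265, .ofNat 67, .negSucc 83⟩, ⟨.ofNat 53, .negSucc 64, .ofNat 259, .negSucc 6, .negSucc 2, .ofNat 4⟩, ⟨.ofNat 831, .ofNat 375, .ofNat 16, .ofNat 441, .negSucc 98, .ofNat 66⟩, ⟨.negSucc 2814, .negSucc 169, .ofNat 3, .negSucc 716, .ofNat 167, .negSucc 221⟩, ⟨.ofNat 108, .negSucc 57, .negSucc 29, .negSucc 435, .negSucc 33, .negSucc 85⟩, .ofNat 519, .ofNat 130, .ofNat 0, .ofNat 130, .ofNat 1436, .ofNat 0, .ofNat 541, .negSucc 48, .negSucc 276, .ofNat 0, .ofNat 128, .ofNat 39, .ofNat 0, .ofNat 0, .ofNat 1054, .ofNat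 1234, .ofNat 0, .ofNat 0, .ofNat 0, .ofNat 0, .ofNat 0, .ofNat 0, .ofNat 0, .ofNat 0, .ofNat 0, .ofNat 0, .ofNat 0, .ofNat 0, .ofNat 0, .ofNat 0, .ofNat 0, .ofNat 0⟩)
    (by decide +kernel)
theorem L01091 : Good (Phi V5.P V5.D 1 (-1)) ⟨2, 1, 2, 0, 1, 0, 3, 7, 3, 1⟩ :=
  leafYS_sound T5.ok_pm T5.Ypm.bz_eq (w := 182) (c := ⟨⟨.negSucc 600, .negSucc 458, .ofNat 12, .negSucc 712, .ofNat 286, .negSucc 290⟩, ⟨.ofNat 33, .negSucc 40, .ofNat 218, .ofNat 37, .negSucc 53, .ofNat 17⟩, ⟨.ofNat 334, .ofNat 531, .ofNat 3, .ofNat 1057, .negSucc 384, .ofNat 188⟩, ⟨.negSucc 1874, .negSucc 473, .ofNat 57, .negSucc 1754, .ofNat 757, .negSucc 696⟩, ⟨.ofNat 53, .negSucc 67, .ofNat 66, .negSucc 509, .negSucc 28, .negSucc 54⟩, .ofNat 520, .ofNat 140, .ofNat 0, .ofNat 140, .ofNat 1432, .ofNat 0, .ofNat 459, .negSucc 51, .negSucc 262, .ofNat 0, .ofNat 128, .ofNat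 36, .ofNat 0, .ofNat 0, .ofNat 801, .ofNat 673, .ofNat 0, .ofNat 0, .ofNat 0, .ofNat 0, .ofNat 0, .ofNat 108034660668223982509312564606795776, .ofNat 0, .ofNat 0, .ofNat 0, .ofNat 0, .ofNat 0, .ofNat 0, .ofNat 0, .ofNat 72999131288955984567534777335283712, .ofNat 0, .ofNat 0⟩)
    (by decide +kernel)
theorem L01092 : Good (Phi V5.P V5.D 1 (-1)) ⟨3, 2, 2, 0, 1, 0, 2, 2, 3, 2⟩ :=
  leafYS_sound T5.ok_pm T5.Ypm.bz_eq (w := 184) (c := ⟨⟨.negSucc 1230, .negSucc 126, .ofNat 6, .negSucc 114, .ofNat 70, .ofNat 108⟩, ⟨.ofNat 65, .negSucc 17, .ofNat 270, .negSucc 9, .negSucc 9, .negSucc 18⟩, ⟨.ofNat 1172, .ofNat 89, .ofNat 30, .ofNat 196, .negSucc 241, .negSucc 3⟩, ⟨.negSucc 3370, .negSucc 12, .negSucc 19, .negSucc 360, .ofNat 184, .ofNat 279⟩, ⟨.ofNat 4, .ofNat 0, .ofNat 2, .negSucc 380, .negSucc 12, .ofNat 8⟩, .ofNat 550, .ofNat 152, .ofNat 0,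 .ofNat 152, .ofNat 1346, .ofNat 0, .ofNat 399, .negSucc 51, .negSucc 150, .ofNat 0, .ofNat 128, .ofNat 25, .ofNat 0, .ofNat 0, .ofNat 1455, .ofNat 2864, .ofNat 0, .ofNat 0, .ofNat 0, .ofNat 0, .ofNat 0, .ofNat 0, .ofNat 0, .ofNat 0, .ofNat 0, .ofNat 0, .ofNat 0, .ofNat 0, .ofNat 0, .ofNat 0, .ofNat 0, .ofNat 0⟩)
    (by decide +kernel)
theorem L01093 : Good (Phi V5.P V5.D 1 (-1)) ⟨3, 3, 2, 0, 1, 0, 2, 2, 3, 2⟩ :=
  leafYS_sound T5.ok_pm T5.Ypm.bz_eq (w := 184) (c := ⟨⟨.negSucc 1351, .negSucc 199, .ofNat 7, .negSucc 165, .ofNat 47, .ofNat 131⟩, ⟨.ofNat 45, .negSucc 66, .ofNat 270, .negSucc 4, .negSucc 3, .negSucc 13⟩, ⟨.ofNat 1247, .ofNat 164, .ofNat 48, .ofNat 235, .negSucc 201, .ofNat 22⟩, ⟨.negSucc 3363, .negSucc 56, .negSucc 12, .negSucc 433, .ofNat 109, .ofNat 297⟩, ⟨.ofNat 42, .ofNat 10, .ofNat 0, .negSucc 409, .negSucc 30, .negSucc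 30⟩, .ofNat 502, .ofNat 141, .ofNat 0, .ofNat 141, .ofNat 1515, .ofNat 0, .ofNat 419, .negSucc 54, .negSucc 183, .ofNat 0, .ofNat 128, .ofNat 25, .ofNat 0, .ofNat 0, .ofNat 1549, .ofNat 2790, .ofNat 66199462369141414605902788234838016, .ofNat 0, .ofNat 0, .ofNat 0, .ofNat 0, .ofNat 0, .ofNat 0, .ofNat 0, .ofNat 0, .ofNat 0, .ofNat 0, .ofNat 0, .ofNat 0, .ofNat 0, .ofNat 0, .ofNat 0⟩)
    (by decide +kernel)
theorem L01094 : Good (Phi V5.P V5.D 1 (-1)) ⟨3, 2, 2, 0, 1, 0, 2, 2, 3, 3⟩ :=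
  leafYS_sound T5.ok_pm T5.Ypm.bz_eq (w := 184) (c := ⟨⟨.negSucc 1057, .negSucc 146, .negSucc 0, .negSucc 147, .negSucc 2, .ofNat 86⟩, ⟨.ofNat 43, .negSucc 15, .ofNat 261, .negSucc 1, .ofNat 4, .negSucc 19⟩, ⟨.ofNat 971, .ofNat 124, .ofNat 81, .ofNat 460, .negSucc 197, .ofNat 135⟩, ⟨.negSucc 2925, .negSucc 77, .negSucc 33, .negSucc 423, .negSucc 5, .ofNat 211⟩, ⟨.ofNat 34, .negSucc 104, .ofNat 7, .negSucc 314, .ofNat 29, .negSucc 11⟩, .ofNat 731, .ofNat 417, .ofNat 0, .ofNat 417, .ofNat 2806, .ofNat 0, .ofNat 324, .negSucc 75, .negSucc 118, .ofNat 0, .ofNat 128, .ofNat 14, .ofNat 0, .ofNat 0, .ofNat 2336, .ofNat 3061, .ofNat 377859558551323017356244464764452864, .ofNat 0, .ofNat 0, .ofNat 0, .ofNat 0, .ofNat 0, .ofNat 0, .ofNat 0, .ofNat 0, .ofNat 198266351563560607957729540843765760, .ofNat 0, .ofNat 0, .ofNat 90307137138259780590861760761205620736,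 .ofNat 4013176396050010887880484917207891968, .ofNat 0, .ofNat 0⟩)
    (by decide +kernel)
theorem L01095 : Good (Phi V5.P V5.D 1 (-1)) ⟨3, 3, 2, 0, 1, 0, 2, 2, 3, 3⟩ :=
  leafYS_sound T5.ok_pm T5.Ypm.bz_eq (w := 185) (c := ⟨⟨.negSucc 1187, .negSucc 204, .ofNat 9, .negSucc 180, .negSucc 16, .ofNat 96⟩, ⟨.ofNat 30, .negSucc 61, .ofNat 259, .negSucc 6, .ofNat 2, .negSucc 6⟩, ⟨.ofNat 1122, .ofNat 258, .ofNat 65, .ofNat 485, .negSucc 233, .ofNat 31⟩, ⟨.negSucc 2981, .negSucc 90, .ofNat 5, .negSucc 465, .negSucc 41, .ofNat 217⟩, ⟨.ofNat 40, .negSucc 2, .ofNat 21, .negSucc 440, .negSucc 48, .ofNat 15⟩, .ofNat 499, .ofNat 128, .ofNat 0, .ofNat 128, .ofNat 1541, .ofNat 0, .ofNat 452, .negSucc 49, .negSucc 178, .ofNat 0, .ofNat 128, .ofNat 11, .ofNat 0, .ofNat 0, .ofNat 3011, .ofNat 5916, .ofNat 1082746739904502365144911247524757504, .ofNat 0, .ofNat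 0, .ofNat 0, .ofNat 0, .ofNat 651056102248740759366996360274378752, .ofNat 0, .ofNat 0, .ofNat 0, .ofNat 315556683718535246463206447745335296, .ofNat 0, .ofNat 0, .ofNat 132471605899761509162128798299033960448, .ofNat 6952367090735376898507522624305758208, .ofNat 0, .ofNat 0⟩)
    (by decide +kernel)
theorem L01096 : Good (Phi V5.P V5.D 1 (-1)) ⟨2, 1, 2, 0, 2, 0, 2, 3, 3, 2⟩ :=
  leafYS_sound T5.ok_pm T5.Ypm.bz_eq (w := 193) (c := ⟨⟨.negSucc 1034, .negSucc 320, .negSucc 7, .negSucc 164, .ofNat 109, .ofNat 36⟩, ⟨.ofNat 45, .negSucc 53, .ofNat 248, .ofNat 12, .negSucc 9, .ofNat 3⟩, ⟨.ofNat 857, .ofNat 334, .ofNat 46, .ofNat 309, .negSucc 459, .negSucc 169⟩, ⟨.negSucc 2863, .negSucc 183, .negSucc 14, .negSucc 455, .ofNat 312, .ofNat 74⟩, ⟨.ofNat 10, .negSucc 133, .ofNat 105, .negSucc 181, .negSucc 7, .ofNat 11⟩, .ofNat 528, .ofNat 146, .ofNat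 0, .ofNat 146, .ofNat 1413, .ofNat 0, .ofNat 541, .negSucc 51, .negSucc 123, .ofNat 0, .ofNat 128, .ofNat 14, .ofNat 0, .ofNat 0, .ofNat 740, .ofNat 1532, .ofNat 0, .ofNat 0, .ofNat 0, .ofNat 0, .ofNat 0, .ofNat 376141851986539484044457403889647353856, .ofNat 0, .ofNat 0, .ofNat 0, .ofNat 0, .ofNat 0, .ofNat 0, .ofNat 0, .ofNat 0, .ofNat 0, .ofNat 0⟩)
    (by decide +kernel)
theorem L01097 : Good (Phi V5.P V5.D 1 (-1)) ⟨2, 1, 2, 0, 2, 1, 2, 3, 3, 2⟩ :=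
  leafYS_sound T5.ok_pm T5.Ypm.bz_eq (w := 192) (c := ⟨⟨.negSucc 1117, .negSucc 442, .ofNat 24, .negSucc 215, .negSucc 151, .ofNat 39⟩, ⟨.ofNat 30, .negSucc 56, .ofNat 288, .ofNat 3, .ofNat 8, .negSucc 0⟩, ⟨.ofNat 975, .ofNat 466, .ofNat 139, .ofNat 449, .negSucc 126, .negSucc 111⟩, ⟨.negSucc 3117, .negSucc 367, .negSucc 2, .negSucc 572, .negSucc 344, .ofNat 88⟩, ⟨.negSucc 165, .negSucc 114, .negSucc 13, .negSucc 251, .negSucc 29, .ofNat 60⟩, .ofNat 369, .ofNat 50, .ofNat 0, .ofNat 50, .ofNat 669, .ofNat 0, .ofNat 524, .negSucc 27, .negSucc 99, .ofNat 0, .ofNat 128, .ofNat 5, .ofNat 0, .ofNat 0, .ofNat 704, .ofNat 644, .ofNat 0, .ofNat 0, .ofNat 0, .ofNat 0, .ofNat 0, .ofNat 200707876473501037214206140782863187968, .ofNat 0, .ofNat 0, .ofNat 0, .ofNat 27597102168910649896057565561296519168, .ofNat 0, .ofNat 0, .ofNat 0, .ofNat 89013509190620471143448889982443323392,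 .ofNat 0, .ofNat 0⟩)
    (by decide +kernel)
theorem L01098 : Good (Phi V5.P V5.D 1 (-1)) ⟨2, 1, 2, 0, 1, 0, 3, 6, 3, 3⟩ :=
  leafYS_sound T5.ok_pm T5.Ypm.bz_eq (w := 184) (c := ⟨⟨.negSucc 969, .negSucc 370, .ofNat 13, .negSucc 304, .negSucc 31, .ofNat 54⟩, ⟨.ofNat 48, .negSucc 79, .ofNat 268, .ofNat 7, .ofNat 5, .negSucc 4⟩, ⟨.ofNat 683, .ofNat 299, .ofNat 105, .ofNat 751, .negSucc 172, .negSucc 190⟩, ⟨.negSucc 2716, .negSucc 199, .negSucc 21, .negSucc 828, .negSucc 76, .ofNat 142⟩, ⟨.ofNat 22, .negSucc 78, .negSucc 4, .negSucc 390, .ofNat 25, .ofNat 60⟩, .ofNat 368, .ofNat 45, .ofNat 0, .ofNat 45, .ofNat 673, .ofNat 0, .ofNat 362, .negSucc 24, .negSucc 122, .ofNat 0, .ofNat 128, .negSucc 12, .ofNat 0, .ofNat 0, .ofNat 1476, .ofNat 2275, .ofNat 0, .ofNat 0, .ofNat 0, .ofNat 0, .ofNat 0, .ofNat 163920937967532034966355498942595072, .ofNat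 0, .ofNat 0, .ofNat 0, .ofNat 46332123292230951834545753929285632, .ofNat 0, .ofNat 0, .ofNat 0, .ofNat 558608560676194870154886716021800960, .ofNat 0, .ofNat 0⟩)
    (by decide +kernel)
theorem L01099 : Good (Phi V5.P V5.D 1 (-1)) ⟨2, 1, 2, 0, 1, 0, 3, 7, 3, 3⟩ :=
  leafYS_sound T5.ok_pm T5.Ypm.bz_eq (w := 183) (c := ⟨⟨.negSucc 914, .negSucc 398, .ofNat 5, .negSucc 490, .negSucc 49, .negSucc 17⟩, ⟨.ofNat 44, .negSucc 72, .ofNat 261, .ofNat 22, .negSucc 7, .ofNat 13⟩, ⟨.ofNat 463, .ofNat 418, .ofNat 54, .ofNat 704, .negSucc 175, .negSucc 152⟩, ⟨.negSucc 2579, .negSucc 317, .negSucc 10, .negSucc 1195, .negSucc 79, .negSucc 90⟩, ⟨.ofNat 40, .negSucc 121, .ofNat 46, .negSucc 362, .ofNat 26, .ofNat 57⟩, .ofNat 528, .ofNat 140, .ofNat 0, .ofNat 140, .ofNat 1408, .ofNat 0, .ofNat 348, .negSucc 48, .negSucc 102, .ofNat 0, .ofNat 128, .ofNat 4,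 .ofNat 0, .ofNat 0, .ofNat 846, .ofNat 1521, .ofNat 0, .ofNat 576580146198699722269017832947712, .ofNat 0, .ofNat 0, .ofNat 0, .ofNat 274344163366682106445190590369890304, .ofNat 0, .ofNat 0, .ofNat 0, .ofNat 82658442639308491987106098080382976, .ofNat 0, .ofNat 0, .ofNat 0, .ofNat 309075416178967141012527539898286080, .ofNat 0, .ofNat 0⟩)
    (by decide +kernel)
theorem L01100 : Good (Phi V5.P V5.D 1 (-1)) ⟨2, 1, 2, 0, 1, 0, 1, 1, 1, 1⟩ :=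
  leafYS_sound T5.ok_pm T5.Ypm.bz_eq (w := 175) (c := ⟨⟨.negSucc 1047, .negSucc 322, .negSucc 4, .ofNat 1, .negSucc 0, .ofNat 1⟩, ⟨.ofNat 61, .negSucc 83, .ofNat 251, .ofNat 0, .ofNat 0, .ofNat 0⟩, ⟨.ofNat 350, .ofNat 323, .ofNat 5, .ofNat 0, .ofNat 0, .ofNat 0⟩, ⟨.negSucc 2921, .negSucc 144, .negSucc 1, .ofNat 1, .negSucc 0, .ofNat 1⟩, ⟨.ofNat 0, .ofNat 0, .ofNat 0, .ofNat 0, .ofNat 0, .ofNat 0⟩, .ofNat 182, .ofNat 8, .ofNat 0, .ofNat 8, .ofNat 237, .ofNat 0, .ofNat 155, .negSucc 8, .negSucc 117, .ofNat 0, .ofNat 128, .ofNat 6, .ofNat 0, .ofNat 0, .ofNat 321, .ofNat 4303, .ofNat 36556964756063439722639681126400000000, .ofNat 1406041832774992500003749916059893760, .ofNat 0, .ofNat 0, .ofNat 2339645744388060142248939592089600000000, .ofNat 110360756291526145623740885599560663040, .ofNat 0, .ofNat 0, .ofNat 2339645744388060142248939592089600000000,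 .ofNat 110360704532324648072527556861002514432, .ofNat 0, .ofNat 0, .ofNat 2339645744388060142248939592089600000000, .ofNat 110360753761950417848976966377562701824, .ofNat 0, .ofNat 0⟩)
    (by decide +kernel)
theorem L01101 : Good (Phi V5.P V5.D 1 (-1)) ⟨2, 1, 2, 0, 2, 2, 3, 0, 4, 0⟩ :=
  leafYS_sound T5.ok_pm T5.Ypm.bz_eq (w := 201) (c := ⟨⟨.ofNat 1138, .ofNat 286, .ofNat 45, .ofNat 102, .ofNat 255, .negSucc 1501⟩, ⟨.negSucc 155, .ofNat 91, .negSucc 157, .ofNat 74, .ofNat 65, .ofNat 100⟩, ⟨.negSucc 715, .negSucc 366, .negSucc 132, .negSucc 745, .ofNat 39, .ofNat 298⟩, ⟨.ofNat 3060, .ofNat 222, .ofNat 281, .ofNat 457, .ofNat 533, .negSucc 3940⟩, ⟨.negSucc 445, .ofNat 248, .ofNat 242, .ofNat 1574, .ofNat 279, .negSucc 842⟩, .ofNat 368, .ofNat 43, .ofNat 0, .ofNat 43, .ofNat 669, .ofNat 0, .ofNat 395, .negSucc 69, .negSucc 87, .ofNat 0,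 .ofNat 128, .ofNat 24, .ofNat 0, .ofNat 0, .ofNat 308, .ofNat 2687, .ofNat 0, .ofNat 0, .ofNat 0, .ofNat 0, .ofNat 0, .ofNat 0, .ofNat 0, .ofNat 0, .ofNat 28675890164541795543722866648192305332224, .ofNat 0, .ofNat 0, .ofNat 0, .ofNat 0, .ofNat 0, .ofNat 0, .ofNat 0⟩)
    (by decide +kernel)
theorem L01102 : Good (Phi V5.P V5.D 1 (-1)) ⟨2, 1, 2, 0, 2, 2, 3, 0, 4, 1⟩ :=
  leafYS_sound T5.ok_pm T5.Ypm.bz_eq (w := 202) (c := ⟨⟨.negSucc 64, .negSucc 222, .ofNat 9, .negSucc 20, .ofNat 100, .negSucc 1140⟩, ⟨.negSucc 146, .negSucc 9, .ofNat 181, .ofNat 103, .ofNat 16, .ofNat 125⟩, ⟨.negSucc 519, .negSucc 183, .negSucc 115, .negSucc 840, .ofNat 279, .ofNat 696⟩, ⟨.negSucc 464, .negSucc 125, .ofNat 43, .ofNat 78, .ofNat 272, .negSucc 2896⟩, ⟨.negSucc 891, .ofNat 351, .ofNat 228, .ofNat 1109, .ofNat 109, .negSucc 280⟩, .ofNat 370, .ofNat 47, .ofNat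 0, .ofNat 47, .ofNat 668, .ofNat 0, .ofNat 245, .negSucc 69, .negSucc 63, .ofNat 0, .ofNat 128, .ofNat 23, .ofNat 0, .ofNat 0, .ofNat 219, .ofNat 4695, .ofNat 11842088821343299513301230981330828787712, .ofNat 0, .ofNat 0, .ofNat 0, .ofNat 0, .ofNat 0, .ofNat 0, .ofNat 0, .ofNat 36054302145834662182795231796457956704256, .ofNat 0, .ofNat 0, .ofNat 0, .ofNat 0, .ofNat 0, .ofNat 0, .ofNat 0⟩)
    (by decide +kernel)
theorem L01103 : Good (Phi V5.P V5.D 1 (-1)) ⟨2, 1, 2, 0, 3, 6, 3, 0, 4, 0⟩ :=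
  leafYS_sound T5.ok_pm T5.Ypm.bz_eq (w := 216) (c := ⟨⟨.ofNat 1147, .ofNat 267, .ofNat 6, .negSucc 262, .ofNat 202, .negSucc 1321⟩, ⟨.ofNat 28, .negSucc 22, .negSucc 44, .ofNat 192, .negSucc 43, .ofNat 66⟩, ⟨.negSucc 1388, .negSucc 664, .negSucc 65, .ofNat 302, .ofNat 125, .ofNat 150⟩, ⟨.ofNat 3119, .ofNat 164, .ofNat 537, .negSucc 461, .ofNat 477, .negSucc 3447⟩, ⟨.ofNat 1532, .ofNat 334, .ofNat 791, .ofNat 1807, .negSucc 239, .negSucc 1312⟩, .ofNat 525, .ofNat 148, .ofNat 0, .ofNat 148, .ofNat 1425, .ofNat 0, .ofNat 340, .negSucc 104, .negSucc 213, .ofNat 0, .ofNat 128, .ofNat 34, .ofNat 0, .ofNat 0, .ofNat 652, .ofNat 4893, .ofNat 0, .ofNat 0, .ofNat 0, .ofNat 0, .ofNat 0, .ofNat 0, .ofNat 0, .ofNat 0, .ofNat 93815435401577774026474162381332991382126592, .ofNat 0, .ofNat 0, .ofNat 0, .ofNat 0, .ofNat 0, .ofNat 0, .ofNat 0⟩)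
    (by decide +kernel)
theorem L01104 : Good (Phi V5.P V5.D 1 (-1)) ⟨2, 1, 2, 0, 3, 7, 3, 0, 4, 0⟩ :=
  leafYS_sound T5.ok_pm T5.Ypm.bz_eq (w := 215) (c := ⟨⟨.ofNat 554, .ofNat 264, .ofNat 41, .negSucc 707, .ofNat 277, .negSucc 851⟩, ⟨.ofNat 229, .negSucc 81, .ofNat 73, .ofNat 97, .negSucc 99, .ofNat 56⟩, ⟨.negSucc 490, .negSucc 486, .negSucc 253, .ofNat 1438, .negSucc 150, .negSucc 506⟩, ⟨.ofNat 1532, .ofNat 331, .ofNat 938, .negSucc 1645, .ofNat 544, .negSucc 2076⟩, ⟨.ofNat 2705, .ofNat 800, .ofNat 1227, .ofNat 182, .negSucc 577, .negSucc 439⟩, .ofNat 517, .ofNat 127, .ofNat 0, .ofNat 127, .ofNat 1445, .ofNat 0, .ofNat 199, .negSucc 96, .negSucc 156, .ofNat 0, .ofNat 128, .ofNat 5, .ofNat 0, .ofNat 0, .ofNat 389, .ofNat 2632, .ofNat 0, .ofNat 0, .ofNat 0, .ofNat 0, .ofNat 0, .ofNat 0, .ofNat 0, .ofNat 0, .ofNat 0, .ofNat 0, .ofNat 0,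 .ofNat 0, .ofNat 0, .ofNat 0, .ofNat 0, .ofNat 0⟩)
    (by decide +kernel)
theorem L01105 : Good (Phi V5.P V5.D 1 (-1)) ⟨3, 2, 2, 0, 3, 6, 4, 0, 4, 1⟩ :=
  leafYS_sound T5.ok_pm T5.Ypm.bz_eq (w := 225) (c := ⟨⟨.negSucc 98, .negSucc 87, .negSucc 74, .negSucc 55, .ofNat 20, .negSucc 1053⟩, ⟨.negSucc 27, .negSucc 33, .ofNat 271, .ofNat 142, .negSucc 17, .ofNat 118⟩, ⟨.negSucc 1303, .negSucc 113, .negSucc 192, .ofNat 173, .ofNat 120, .ofNat 776⟩, ⟨.negSucc 424, .ofNat 0, .ofNat 205, .ofNat 73, .ofNat 63, .negSucc 2876⟩, ⟨.ofNat 139, .ofNat 416, .ofNat 888, .ofNat 1652, .negSucc 144, .negSucc 541⟩, .ofNat 381, .ofNat 55, .ofNat 0, .ofNat 55, .ofNat 653, .ofNat 0, .ofNat 169, .negSucc 102, .negSucc 133, .ofNat 0, .ofNat 128, .ofNat 41, .ofNat 0, .ofNat 0, .ofNat 355, .ofNat 9722, .ofNat 10271956155401221746417586395801890024536932352, .ofNat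 0, .ofNat 0, .ofNat 0, .ofNat 9272030187900509365893927241965956164950687744, .ofNat 0, .ofNat 0, .ofNat 0, .ofNat 0, .ofNat 0, .ofNat 0, .ofNat 0, .ofNat 0, .ofNat 0, .ofNat 0, .ofNat 0⟩)
    (by decide +kernel)
theorem L01106 : Good (Phi V5.P V5.D 1 (-1)) ⟨3, 3, 2, 0, 3, 6, 4, 0, 4, 1⟩ :=
  leafYS_sound T5.ok_pm T5.Ypm.bz_eq (w := 225) (c := ⟨⟨.negSucc 187, .negSucc 92, .negSucc 120, .ofNat 7, .ofNat 0, .negSucc 1102⟩, ⟨.negSucc 8, .negSucc 30, .ofNat 290, .ofNat 115, .negSucc 7, .ofNat 57⟩, ⟨.negSucc 1537, .negSucc 205, .negSucc 204, .ofNat 220, .ofNat 212, .ofNat 857⟩, ⟨.negSucc 631, .negSucc 28, .ofNat 193, .ofNat 249, .negSucc 20, .negSucc 2708⟩, ⟨.ofNat 381, .ofNat 353, .ofNat 1044, .ofNat 1883, .negSucc 244, .negSucc 403⟩, .ofNat 355, .ofNat 39, .ofNat 0, .ofNat 39, .ofNat 696, .ofNat 0, .ofNat 202, .negSucc 101, .negSucc 149, .ofNat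 0, .ofNat 128, .ofNat 36, .ofNat 0, .ofNat 0, .ofNat 373, .ofNat 9446, .ofNat 7781359309374120562455638855376671323314978816, .ofNat 0, .ofNat 0, .ofNat 0, .ofNat 0, .ofNat 0, .ofNat 0, .ofNat 0, .ofNat 0, .ofNat 0, .ofNat 0, .ofNat 0, .ofNat 25414468983197140852661753313074067306629300224, .ofNat 0, .ofNat 0, .ofNat 0⟩)
    (by decide +kernel)
theorem L01107 : Good (Phi V5.P V5.D 1 (-1)) ⟨2, 1, 2, 0, 3, 6, 4, 1, 4, 1⟩ :=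
  leafYS_sound T5.ok_pm T5.Ypm.bz_eq (w := 220) (c := ⟨⟨.ofNat 17, .negSucc 207, .negSucc 48, .negSucc 30, .ofNat 34, .negSucc 1186⟩, ⟨.negSucc 22, .negSucc 40, .ofNat 245, .ofNat 118, .negSucc 31, .ofNat 109⟩, ⟨.negSucc 1247, .negSucc 252, .negSucc 145, .ofNat 136, .ofNat 159, .ofNat 869⟩, ⟨.negSucc 189, .negSucc 166, .ofNat 225, .ofNat 104, .ofNat 52, .negSucc 3023⟩, ⟨.ofNat 91, .ofNat 673, .ofNat 767, .ofNat 1504, .negSucc 154, .negSucc 404⟩, .ofNat 372, .ofNat 50, .ofNat 0, .ofNat 50, .ofNat 666, .ofNat 0, .ofNat 246, .negSucc 88, .negSucc 126, .ofNat 0, .ofNat 128, .ofNat 36, .ofNat 0, .ofNat 0, .ofNat 299, .ofNat 3848, .ofNat 0, .ofNat 0, .ofNat 0, .ofNat 0, .ofNat 0, .ofNat 0, .ofNat 0, .ofNat 0, .ofNat 0, .ofNat 0, .ofNat 0, .ofNat 0, .ofNat 0, .ofNat 0, .ofNat 0, .ofNat 0⟩)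
    (by decide +kernel)
theorem L01108 : Good (Phi V5.P V5.D 1 (-1)) ⟨2, 1, 2, 0, 3, 7, 3, 0, 4, 1⟩ :=
  leafYS_sound T5.ok_pm T5.Ypm.bz_eq (w := 216) (c := ⟨⟨.negSucc 301, .negSucc 99, .negSucc 124, .negSucc 190, .ofNat 112, .negSucc 921⟩, ⟨.ofNat 186, .negSucc 129, .ofNat 346, .ofNat 123, .negSucc 84, .ofNat 69⟩, ⟨.negSucc 794, .negSucc 228, .negSucc 251, .ofNat 586, .ofNat 90, .ofNat 552⟩, ⟨.negSucc 920, .ofNat 112, .ofNat 430, .negSucc 216, .ofNat 204, .negSucc 2366⟩, ⟨.ofNat 1861, .ofNat 934, .ofNat 1492, .ofNat 1315, .negSucc 788, .negSucc 577⟩, .ofNat 522, .ofNat 138, .ofNat 0, .ofNat 138, .ofNat 1434, .ofNat 0, .ofNat 222, .negSucc 108, .negSucc 183, .ofNat 0, .ofNat 128, .ofNat 19, .ofNat 0, .ofNat 0, .ofNat 517, .ofNat 3231, .ofNat 0, .ofNat 0, .ofNat 0, .ofNat 0, .ofNat 0, .ofNat 0, .ofNat 0, .ofNat 0, .ofNat 0, .ofNat 0, .ofNat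 0, .ofNat 0, .ofNat 0, .ofNat 0, .ofNat 0, .ofNat 0⟩)
    (by decide +kernel)
theorem L01109 : Good (Phi V5.P V5.D 1 (-1)) ⟨2, 1, 2, 0, 2, 2, 3, 1, 3, 0⟩ :=
  leafYS_sound T5.ok_pm T5.Ypm.bz_eq (w := 196) (c := ⟨⟨.ofNat 1450, .negSucc 43, .ofNat 87, .negSucc 44, .ofNat 17, .negSucc 2636⟩, ⟨.negSucc 186, .ofNat 74, .negSucc 115, .ofNat 133, .negSucc 20, .ofNat 269⟩, ⟨.negSucc 984, .negSucc 235, .negSucc 64, .negSucc 475, .ofNat 99, .ofNat 1219⟩, ⟨.ofNat 3632, .negSucc 179, .ofNat 385, .ofNat 134, .ofNat 111, .negSucc 6986⟩, ⟨.ofNat 86, .ofNat 161, .ofNat 240, .ofNat 1206, .ofNat 96, .negSucc 1323⟩, .ofNat 370, .ofNat 44, .ofNat 0, .ofNat 44, .ofNat 669, .ofNat 0, .ofNat 321, .negSucc 52, .negSucc 117, .ofNat 0, .ofNat 128, .ofNat 32, .ofNat 0, .ofNat 0, .ofNat 302, .ofNat 1431, .ofNat 0, .ofNat 0, .ofNat 0, .ofNat 0, .ofNat 0, .ofNat 0,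 .ofNat 0, .ofNat 0, .ofNat 0, .ofNat 0, .ofNat 0, .ofNat 0, .ofNat 0, .ofNat 0, .ofNat 0, .ofNat 0⟩)
    (by decide +kernel)
theorem L01110 : Good (Phi V5.P V5.D 1 (-1)) ⟨2, 1, 2, 0, 2, 3, 3, 1, 3, 0⟩ :=
  leafYS_sound T5.ok_pm T5.Ypm.bz_eq (w := 197) (c := ⟨⟨.ofNat 1293, .ofNat 62, .ofNat 42, .negSucc 408, .ofNat 36, .negSucc 2560⟩, ⟨.ofNat 28, .negSucc 142, .ofNat 118, .ofNat 239, .negSucc 1, .ofNat 134⟩, ⟨.negSucc 1479, .negSucc 310, .negSucc 163, .ofNat 921, .ofNat 187, .ofNat 1058⟩, ⟨.ofNat 3253, .ofNat 50, .ofNat 290, .negSucc 713, .ofNat 159, .negSucc 6204⟩, ⟨.ofNat 1408, .ofNat 494, .ofNat 407, .ofNat 2282, .negSucc 169, .negSucc 1442⟩, .ofNat 528, .ofNat 152, .ofNat 0, .ofNat 152, .ofNat 1457, .ofNat 0, .ofNat 315, .negSucc 94, .negSucc 245, .ofNat 0, .ofNat 128, .ofNat 43, .ofNat 0, .ofNat 0, .ofNat 539, .ofNat 1367, .ofNat 0,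 .ofNat 0, .ofNat 0, .ofNat 0, .ofNat 0, .ofNat 0, .ofNat 0, .ofNat 0, .ofNat 0, .ofNat 0, .ofNat 0, .ofNat 0, .ofNat 0, .ofNat 0, .ofNat 0, .ofNat 0⟩)
    (by decide +kernel)
theorem L01111 : Good (Phi V5.P V5.D 1 (-1)) ⟨2, 1, 2, 0, 2, 2, 2, 1, 3, 0⟩ :=
  leafYS_sound T5.ok_pm T5.Ypm.bz_eq (w := 193) (c := ⟨⟨.ofNat 1363, .ofNat 127, .ofNat 104, .ofNat 15, .negSucc 296, .negSucc 2573⟩, ⟨.negSucc 60, .negSucc 50, .negSucc 26, .ofNat 30, .ofNat 36, .ofNat 185⟩, ⟨.negSucc 1139, .negSucc 165, .negSucc 105, .negSucc 278, .ofNat 453, .ofNat 1567⟩, ⟨.ofNat 3491, .ofNat 187, .ofNat 233, .ofNat 119, .negSucc 731, .negSucc 6377⟩, ⟨.ofNat 354, .ofNat 180, .ofNat 308, .ofNat 842, .negSucc 125, .negSucc 1163⟩, .ofNat 528, .ofNat 152, .ofNat 0, .ofNat 152, .ofNat 1457, .ofNat 0, .ofNat 383, .negSucc 77, .negSucc 189, .ofNat 0, .ofNat 128, .ofNat 41, .ofNat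 0, .ofNat 0, .ofNat 444, .ofNat 902, .ofNat 0, .ofNat 0, .ofNat 0, .ofNat 0, .ofNat 0, .ofNat 0, .ofNat 0, .ofNat 0, .ofNat 0, .ofNat 0, .ofNat 0, .ofNat 0, .ofNat 0, .ofNat 0, .ofNat 0, .ofNat 0⟩)
    (by decide +kernel)
theorem L01112 : Good (Phi V5.P V5.D 1 (-1)) ⟨2, 1, 2, 0, 2, 3, 2, 1, 3, 0⟩ :=
  leafYS_sound T5.ok_pm T5.Ypm.bz_eq (w := 193) (c := ⟨⟨.ofNat 1353, .negSucc 85, .ofNat 10, .negSucc 394, .negSucc 221, .negSucc 2404⟩, ⟨.negSucc 26, .negSucc 8, .ofNat 32, .ofNat 88, .ofNat 11, .ofNat 174⟩, ⟨.negSucc 1432, .negSucc 138, .ofNat 81, .ofNat 597, .ofNat 544, .ofNat 1068⟩, ⟨.ofNat 3620, .negSucc 371, .ofNat 351, .negSucc 910, .negSucc 841, .negSucc 6112⟩, ⟨.ofNat 1831, .ofNat 347, .ofNat 274, .ofNat 1023, .negSucc 910, .negSucc 1854⟩, .ofNat 528, .ofNat 152, .ofNat 0, .ofNat 152, .ofNat 1457, .ofNat 0, .ofNat 349, .negSucc 67,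 .negSucc 258, .ofNat 0, .ofNat 128, .ofNat 48, .ofNat 0, .ofNat 0, .ofNat 471, .ofNat 588, .ofNat 0, .ofNat 0, .ofNat 0, .ofNat 0, .ofNat 0, .ofNat 0, .ofNat 0, .ofNat 0, .ofNat 0, .ofNat 0, .ofNat 0, .ofNat 0, .ofNat 0, .ofNat 0, .ofNat 0, .ofNat 0⟩)
    (by decide +kernel)
theorem L01113 : Good (Phi V5.P V5.D 1 (-1)) ⟨2, 1, 2, 0, 2, 2, 3, 0, 4, 2⟩ :=
  leafYS_sound T5.ok_pm T5.Ypm.bz_eq (w := 203) (c := ⟨⟨.negSucc 1025, .negSucc 366, .negSucc 35, .negSucc 106, .ofNat 25, .negSucc 339⟩, ⟨.negSucc 14, .negSucc 59, .ofNat 329, .ofNat 61, .negSucc 7, .ofNat 26⟩, ⟨.negSucc 62, .negSucc 38, .negSucc 45, .negSucc 598, .ofNat 348, .ofNat 524⟩, ⟨.negSucc 3062, .negSucc 59, .negSucc 119, .negSucc 161, .ofNat 110, .negSucc 839⟩, ⟨.negSucc 878, .ofNat 401, .ofNat 203, .ofNat 687, .ofNat 122, .negSucc 149⟩, .ofNat 514, .ofNat 123, .ofNat 0, .ofNat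 123, .ofNat 1452, .ofNat 0, .ofNat 260, .negSucc 75, .negSucc 75, .ofNat 0, .ofNat 128, .ofNat 22, .ofNat 0, .ofNat 0, .ofNat 406, .ofNat 11565, .ofNat 16724514626259504934923256215625749495808, .ofNat 0, .ofNat 0, .ofNat 0, .ofNat 0, .ofNat 0, .ofNat 0, .ofNat 0, .ofNat 36223748116390523916274984350050781495296, .ofNat 0, .ofNat 0, .ofNat 0, .ofNat 66316762047985142185129331285933191856128, .ofNat 0, .ofNat 0, .ofNat 0⟩)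
    (by decide +kernel)
theorem L01114 : Good (Phi V5.P V5.D 1 (-1)) ⟨2, 1, 2, 0, 2, 2, 3, 1, 4, 2⟩ :=
  leafYS_sound T5.ok_pm T5.Ypm.bz_eq (w := 202) (c := ⟨⟨.negSucc 973, .negSucc 438, .negSucc 30, .negSucc 161, .ofNat 25, .negSucc 299⟩, ⟨.negSucc 20, .negSucc 54, .ofNat 323, .ofNat 62, .negSucc 8, .ofNat 32⟩, ⟨.ofNat 172, .ofNat 74, .negSucc 63, .negSucc 430, .ofNat 253, .ofNat 469⟩, ⟨.negSucc 2861, .negSucc 231, .negSucc 72, .negSucc 300, .ofNat 58, .negSucc 818⟩, ⟨.negSucc 809, .ofNat 414, .ofNat 252, .ofNat 693, .ofNat 8, .negSucc 135⟩, .ofNat 368, .ofNat 50, .ofNat 0, .ofNat 50, .ofNat 673, .ofNat 0, .ofNat 209, .negSucc 54, .negSucc 74, .ofNat 0, .ofNat 128, .ofNat 26, .ofNat 0, .ofNat 0, .ofNat 263, .ofNat 3003, .ofNat 0, .ofNat 0, .ofNat 0, .ofNat 0, .ofNat 0, .ofNat 0, .ofNat 0, .ofNat 0, .ofNat 0, .ofNat 0, .ofNat 0, .ofNat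 0, .ofNat 0, .ofNat 0, .ofNat 0, .ofNat 0⟩)
    (by decide +kernel)
theorem L01115 : Good (Phi V5.P V5.D 1 (-1)) ⟨2, 1, 2, 0, 2, 2, 2, 0, 4, 3⟩ :=
  leafYS_sound T5.ok_pm T5.Ypm.bz_eq (w := 199) (c := ⟨⟨.negSucc 1312, .negSucc 398, .negSucc 11, .negSucc 103, .negSucc 51, .ofNat 27⟩, ⟨.ofNat 20, .negSucc 74, .ofNat 346, .ofNat 33, .ofNat 2, .negSucc 1⟩, ⟨.ofNat 324, .ofNat 120, .negSucc 30, .negSucc 342, .ofNat 510, .ofNat 253⟩, ⟨.negSucc 3763, .negSucc 56, .negSucc 61, .negSucc 197, .negSucc 86, .ofNat 34⟩, ⟨.negSucc 625, .ofNat 294, .ofNat 161, .ofNat 342, .ofNat 58, .negSucc 76⟩, .ofNat 515, .ofNat 107, .ofNat 0, .ofNat 107, .ofNat 1452, .ofNat 0, .ofNat 226, .negSucc 56, .negSucc 80, .ofNat 0, .ofNat 128, .ofNat 22, .ofNat 0, .ofNat 0, .ofNat 527, .ofNat 6958, .ofNat 835472480548797723347812424337852465152, .ofNat 0, .ofNat 0, .ofNat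 0, .ofNat 0, .ofNat 0, .ofNat 0, .ofNat 0, .ofNat 6457866513693941725633566043156816855040, .ofNat 0, .ofNat 0, .ofNat 0, .ofNat 15146902552460095256571593822957427752960, .ofNat 0, .ofNat 0, .ofNat 0⟩)
    (by decide +kernel)
theorem L01116 : Good (Phi V5.P V5.D 1 (-1)) ⟨2, 1, 2, 0, 3, 6, 5, 0, 4, 2⟩ :=
  leafYS_sound T5.ok_pm T5.Ypm.bz_eq (w := 227) (c := ⟨⟨.negSucc 1059, .negSucc 275, .negSucc 139, .negSucc 5, .negSucc 45, .negSucc 332⟩, ⟨.ofNat 40, .negSucc 69, .ofNat 392, .ofNat 115, .negSucc 4, .negSucc 1⟩, ⟨.negSucc 642, .negSucc 226, .negSucc 135, .ofNat 216, .ofNat 151, .ofNat 603⟩, ⟨.negSucc 3157, .ofNat 62, .ofNat 27, .ofNat 200, .negSucc 73, .negSucc 894⟩, ⟨.negSucc 289, .ofNat 919, .ofNat 1002, .ofNat 1538, .negSucc 139, .negSucc 728⟩, .ofNat 528, .ofNat 152, .ofNat 0, .ofNat 152, .ofNat 1457, .ofNat 0, .ofNat 138, .negSucc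 101, .negSucc 57, .ofNat 0, .ofNat 128, .ofNat 16, .ofNat 0, .ofNat 0, .ofNat 269, .ofNat 62334, .ofNat 32600644718620077456052208462411768976461791232, .ofNat 0, .ofNat 0, .ofNat 0, .ofNat 26237047636951884100637155311872204721117724672, .ofNat 0, .ofNat 0, .ofNat 0, .ofNat 0, .ofNat 0, .ofNat 0, .ofNat 0, .ofNat 0, .ofNat 0, .ofNat 0, .ofNat 0⟩)
    (by decide +kernel)
theorem L01117 : Good (Phi V5.P V5.D 1 (-1)) ⟨2, 1, 2, 0, 3, 6, 5, 1, 4, 2⟩ :=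
  leafYS_sound T5.ok_pm T5.Ypm.bz_eq (w := 226) (c := ⟨⟨.negSucc 1128, .negSucc 314, .negSucc 130, .ofNat 37, .negSucc 10, .negSucc 293⟩, ⟨.ofNat 52, .negSucc 71, .ofNat 396, .ofNat 87, .ofNat 6, .negSucc 9⟩, ⟨.negSucc 531, .negSucc 134, .negSucc 109, .ofNat 153, .ofNat 102, .ofNat 609⟩, ⟨.negSucc 3255, .negSucc 1, .negSucc 0, .ofNat 233, .negSucc 21, .negSucc 803⟩, ⟨.negSucc 178, .ofNat 807, .ofNat 791, .ofNat 1245, .negSucc 21, .negSucc 532⟩, .ofNat 519, .ofNat 129, .ofNat 0, .ofNat 129, .ofNat 1448, .ofNat 0, .ofNat 218, .negSucc 91, .negSucc 60, .ofNat 0, .ofNat 128, .ofNat 15, .ofNat 0, .ofNat 0, .ofNat 271, .ofNat 22861, .ofNat 0, .ofNat 0, .ofNat 0, .ofNat 0, .ofNat 0, .ofNat 0, .ofNat 0, .ofNat 0, .ofNat 0, .ofNat 0, .ofNat 0, .ofNat 0, .ofNat 0, .ofNat 0, .ofNat 0, .ofNat 0⟩)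
    (by decide +kernel)
theorem L01118 : Good (Phi V5.P V5.D 1 (-1)) ⟨2, 1, 2, 0, 3, 6, 4, 1, 4, 2⟩ :=
  leafYS_sound T5.ok_pm T5.Ypm.bz_eq (w := 220) (c := ⟨⟨.negSucc 1103, .negSucc 361, .negSucc 100, .ofNat 7, .negSucc 14, .negSucc 317⟩, ⟨.ofNat 50, .negSucc 73, .ofNat 390, .ofNat 85, .ofNat 0, .negSucc 1⟩, ⟨.negSucc 434, .negSucc 70, .negSucc 71, .ofNat 84, .ofNat 177, .ofNat 591⟩, ⟨.negSucc 3222, .negSucc 39, .ofNat 21, .ofNat 199, .negSucc 53, .negSucc 823⟩, ⟨.ofNat 44, .ofNat 587, .ofNat 676, .ofNat 1088, .negSucc 91, .negSucc 491⟩, .ofNat 615, .ofNat 253, .ofNat 0, .ofNat 253, .ofNat 2379, .ofNat 0, .ofNat 193, .negSucc 107, .negSucc 56, .ofNat 0, .ofNat 128, .ofNat 13, .ofNat 0, .ofNat 0, .ofNat 246, .ofNat 6128, .ofNat 0, .ofNat 0, .ofNat 0, .ofNat 0, .ofNat 0, .ofNat 0, .ofNat 0, .ofNat 0, .ofNat 0, .ofNat 0, .ofNat 0, .ofNat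 0, .ofNat 0, .ofNat 0, .ofNat 0, .ofNat 0⟩)
    (by decide +kernel)
theorem L01119 : Good (Phi V5.P V5.D 1 (-1)) ⟨2, 1, 2, 0, 3, 7, 3, 0, 4, 2⟩ :=
  leafYS_sound T5.ok_pm T5.Ypm.bz_eq (w := 216) (c := ⟨⟨.negSucc 1171, .negSucc 219, .negSucc 183, .ofNat 94, .negSucc 43, .negSucc 240⟩, ⟨.ofNat 180, .negSucc 117, .ofNat 455, .ofNat 81, .negSucc 22, .negSucc 32⟩, ⟨.negSucc 294, .negSucc 56, .negSucc 132, .ofNat 180, .ofNat 218, .ofNat 477⟩, ⟨.negSucc 3215, .ofNat 215, .ofNat 159, .ofNat 347, .negSucc 196, .negSucc 698⟩, ⟨.ofNat 1260, .ofNat 1039, .ofNat 1364, .ofNat 1017, .negSucc 505, .negSucc 666⟩, .ofNat 611, .ofNat 251, .ofNat 0, .ofNat 251, .ofNat 2420, .ofNat 0, .ofNat 148, .negSucc 104, .negSucc 61, .ofNat 0, .ofNat 128, .ofNat 8, .ofNat 0, .ofNat 0, .ofNat 255, .ofNat 4559, .ofNat 0, .ofNat 0, .ofNat 0, .ofNat 0, .ofNat 0, .ofNat 0,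 .ofNat 0, .ofNat 0, .ofNat 0, .ofNat 0, .ofNat 0, .ofNat 0, .ofNat 101288740164237182812884454086727911820230656, .ofNat 0, .ofNat 0, .ofNat 0⟩)
    (by decide +kernel)
theorem L01120 : Good (Phi V5.P V5.D 1 (-1)) ⟨2, 1, 2, 0, 2, 3, 3, 0, 4, 3⟩ :=
  leafYS_sound T5.ok_pm T5.Ypm.bz_eq (w := 202) (c := ⟨⟨.negSucc 1365, .negSucc 350, .negSucc 94, .ofNat 75, .negSucc 66, .ofNat 63⟩, ⟨.ofNat 53, .negSucc 70, .ofNat 398, .ofNat 141, .negSucc 10, .negSucc 27⟩, ⟨.ofNat 21, .negSucc 5, .negSucc 46, .ofNat 158, .ofNat 269, .ofNat 270⟩, ⟨.negSucc 3948, .ofNat 11, .ofNat 26, .ofNat 499, .negSucc 197, .ofNat 109⟩, ⟨.negSucc 388, .ofNat 712, .ofNat 665, .ofNat 1823, .negSucc 103, .negSucc 389⟩, .ofNat 530, .ofNat 147, .ofNat 0, .ofNat 147, .ofNat 1418, .ofNat 0, .ofNat 148, .negSucc 73, .negSucc 27, .ofNat 0, .ofNat 128, .ofNat 6, .ofNat 0, .ofNat 0,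 .ofNat 192, .ofNat 3202, .ofNat 2890252842089246394170688465486439514112, .ofNat 0, .ofNat 0, .ofNat 0, .ofNat 0, .ofNat 0, .ofNat 0, .ofNat 0, .ofNat 0, .ofNat 0, .ofNat 0, .ofNat 0, .ofNat 0, .ofNat 0, .ofNat 0, .ofNat 0⟩)
    (by decide +kernel)
theorem L01121 : Good (Phi V5.P V5.D 1 (-1)) ⟨2, 1, 2, 0, 2, 3, 3, 1, 3, 1⟩ :=
  leafYS_sound T5.ok_pm T5.Ypm.bz_eq (w := 197) (c := ⟨⟨.negSucc 1238, .negSucc 416, .negSucc 66, .ofNat 55, .negSucc 58, .negSucc 154⟩, ⟨.ofNat 50, .negSucc 66, .ofNat 375, .ofNat 164, .ofNat 5, .negSucc 45⟩, ⟨.negSucc 170, .ofNat 117, .negSucc 34, .ofNat 116, .ofNat 251, .ofNat 686⟩, ⟨.negSucc 3471, .negSucc 79, .ofNat 70, .ofNat 349, .negSucc 172, .negSucc 632⟩, ⟨.ofNat 37, .ofNat 689, .ofNat 618, .ofNat 1734, .negSucc 133, .negSucc 934⟩, .ofNat 526, .ofNat 131, .ofNat 0, .ofNat 131, .ofNat 1409, .ofNat 0, .ofNat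 262, .negSucc 68, .negSucc 64, .ofNat 0, .ofNat 128, .ofNat 13, .ofNat 0, .ofNat 0, .ofNat 335, .ofNat 2325, .ofNat 0, .ofNat 0, .ofNat 0, .ofNat 0, .ofNat 0, .ofNat 0, .ofNat 0, .ofNat 0, .ofNat 0, .ofNat 0, .ofNat 0, .ofNat 0, .ofNat 0, .ofNat 0, .ofNat 0, .ofNat 0⟩)
    (by decide +kernel)
theorem L01122 : Good (Phi V5.P V5.D 1 (-1)) ⟨2, 1, 2, 0, 2, 2, 2, 1, 3, 1⟩ :=
  leafYS_sound T5.ok_pm T5.Ypm.bz_eq (w := 192) (c := ⟨⟨.negSucc 1134, .negSucc 406, .negSucc 34, .negSucc 139, .negSucc 17, .negSucc 174⟩, ⟨.negSucc 1, .negSucc 59, .ofNat 323, .ofNat 49, .ofNat 8, .ofNat 15⟩, ⟨.ofNat 308, .ofNat 225, .ofNat 23, .negSucc 247, .ofNat 397, .ofNat 640⟩, ⟨.negSucc 3308, .negSucc 65, .negSucc 84, .negSucc 315, .ofNat 23, .negSucc 479⟩, ⟨.negSucc 325, .ofNat 196, .ofNat 108, .ofNat 131, .ofNat 145, .negSucc 239⟩, .ofNat 630, .ofNat 313, .ofNat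 0, .ofNat 313, .ofNat 2364, .ofNat 0, .ofNat 403, .negSucc 99, .negSucc 87, .ofNat 0, .ofNat 128, .ofNat 21, .ofNat 0, .ofNat 0, .ofNat 420, .ofNat 1002, .ofNat 0, .ofNat 0, .ofNat 0, .ofNat 0, .ofNat 0, .ofNat 0, .ofNat 0, .ofNat 0, .ofNat 0, .ofNat 0, .ofNat 0, .ofNat 0, .ofNat 0, .ofNat 0, .ofNat 0, .ofNat 0⟩)
    (by decide +kernel)
theorem L01123 : Good (Phi V5.P V5.D 1 (-1)) ⟨2, 1, 2, 0, 2, 3, 2, 1, 3, 1⟩ :=
  leafYS_sound T5.ok_pm T5.Ypm.bz_eq (w := 192) (c := ⟨⟨.negSucc 1300, .negSucc 494, .negSucc 67, .ofNat 5, .negSucc 168, .negSucc 71⟩, ⟨.ofNat 59, .negSucc 84, .ofNat 387, .ofNat 111, .ofNat 1, .negSucc 27⟩, ⟨.ofNat 106, .ofNat 193, .negSucc 2, .ofNat 41, .ofNat 553, .ofNat 612⟩, ⟨.negSucc 3671, .negSucc 245, .negSucc 52, .ofNat 110, .negSucc 405, .negSucc 310⟩, ⟨.negSucc 65, .ofNat 544, .ofNat 355, .ofNat 1252, .negSucc 322,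 .negSucc 493⟩, .ofNat 528, .ofNat 152, .ofNat 0, .ofNat 152, .ofNat 1457, .ofNat 0, .ofNat 517, .negSucc 72, .negSucc 162, .ofNat 0, .ofNat 128, .ofNat 35, .ofNat 0, .ofNat 0, .ofNat 603, .ofNat 1252, .ofNat 0, .ofNat 0, .ofNat 0, .ofNat 0, .ofNat 0, .ofNat 0, .ofNat 0, .ofNat 0, .ofNat 0, .ofNat 0, .ofNat 0, .ofNat 0, .ofNat 0, .ofNat 0, .ofNat 0, .ofNat 0⟩)
    (by decide +kernel)
theorem L01124 : Good (Phi V5.P V5.D 1 (-1)) ⟨2, 1, 2, 0, 2, 2, 2, 0, 4, 4⟩ :=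
  leafYS_sound T5.ok_pm T5.Ypm.bz_eq (w := 199) (c := ⟨⟨.negSucc 1305, .negSucc 377, .negSucc 5, .negSucc 57, .negSucc 63, .ofNat 108⟩, ⟨.ofNat 32, .negSucc 84, .ofNat 326, .ofNat 26, .ofNat 11, .negSucc 22⟩, ⟨.ofNat 624, .ofNat 131, .negSucc 25, .negSucc 287, .ofNat 410, .ofNat 156⟩, ⟨.negSucc 3721, .negSucc 33, .negSucc 64, .negSucc 118, .negSucc 148, .ofNat 266⟩, ⟨.negSucc 576, .ofNat 198, .ofNat 94, .ofNat 253, .ofNat 37, .negSucc 76⟩, .ofNat 369, .ofNat 51, .ofNat 0, .ofNat 51, .ofNat 679, .ofNat 0, .ofNat 141, .negSucc 40, .negSucc 30, .ofNat 0, .ofNat 128, .ofNat 16, .ofNat 0, .ofNat 0, .ofNat 297, .ofNat 8858, .ofNat 1593243041312226144582373060649257271296, .ofNat 0, .ofNat 0, .ofNat 0, .ofNat 5288918629771571130094803528790172499968, .ofNat 0, .ofNat 0, .ofNat 0, .ofNat 0, .ofNat 0, .ofNat 0, .ofNat 0, .ofNat 8571227218020339844260854933758198939648,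 .ofNat 0, .ofNat 0, .ofNat 0⟩)
    (by decide +kernel)
theorem L01125 : Good (Phi V5.P V5.D 1 (-1)) ⟨2, 1, 2, 0, 2, 2, 2, 1, 4, 4⟩ :=
  leafYS_sound T5.ok_pm T5.Ypm.bz_eq (w := 199) (c := ⟨⟨.negSucc 1348, .negSucc 388, .negSucc 5, .negSucc 73, .negSucc 41, .ofNat 98⟩, ⟨.ofNat 46, .negSucc 83, .ofNat 323, .ofNat 22, .ofNat 4, .negSucc 27⟩, ⟨.ofNat 946, .ofNat 221, .negSucc 3, .negSucc 220, .ofNat 339, .ofNat 134⟩, ⟨.negSucc 3806, .negSucc 85, .negSucc 65, .negSucc 163, .negSucc 88, .ofNat 263⟩, ⟨.negSucc 443, .ofNat 108, .ofNat 70, .ofNat 172, .negSucc 41, .negSucc 8⟩, .ofNat 369, .ofNat 51, .ofNat 0, .ofNat 51, .ofNat 679, .ofNat 0, .ofNat 283, .negSucc 37, .negSucc 119, .ofNat 0, .ofNat 128, .ofNat 39, .ofNat 0, .ofNat 0, .ofNat 869, .ofNat 4012, .ofNat 672814547505079743302308929757606051840, .ofNat 0, .ofNat 0, .ofNat 0, .ofNat 0, .ofNat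 0, .ofNat 0, .ofNat 0, .ofNat 0, .ofNat 0, .ofNat 0, .ofNat 0, .ofNat 0, .ofNat 0, .ofNat 0, .ofNat 0⟩)
    (by decide +kernel)
theorem L01126 : Good (Phi V5.P V5.D 1 (-1)) ⟨2, 1, 2, 0, 2, 2, 2, 0, 4, 5⟩ :=
  leafYS_sound T5.ok_pm T5.Ypm.bz_eq (w := 201) (c := ⟨⟨.negSucc 1255, .negSucc 336, .negSucc 1, .negSucc 10, .negSucc 53, .ofNat 121⟩, ⟨.ofNat 31, .negSucc 66, .ofNat 308, .ofNat 13, .negSucc 6, .negSucc 9⟩, ⟨.ofNat 897, .ofNat 81, .ofNat 15, .negSucc 283, .ofNat 277, .ofNat 215⟩, ⟨.negSucc 3545, .negSucc 13, .negSucc 64, .negSucc 7, .negSucc 135, .ofNat 312⟩, ⟨.negSucc 569, .ofNat 178, .ofNat 99, .ofNat 248, .negSucc 49, .negSucc 4⟩, .ofNat 371, .ofNat 46, .ofNat 0, .ofNat 46, .ofNat 668, .ofNat 0, .ofNat 163, .negSucc 33, .negSucc 27, .ofNat 0, .ofNat 128, .ofNat 13, .ofNat 0, .ofNat 0, .ofNat 538, .ofNat 33348, .ofNat 9023536311044203602278695086238971461632,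 .ofNat 0, .ofNat 0, .ofNat 0, .ofNat 21010994250069278344192682359327553486848, .ofNat 0, .ofNat 0, .ofNat 0, .ofNat 15149177419439968251471381312120184373248, .ofNat 0, .ofNat 0, .ofNat 0, .ofNat 40075039075510965094633193877102321991680, .ofNat 0, .ofNat 0, .ofNat 0⟩)
    (by decide +kernel)
theorem L01127 : Good (Phi V5.P V5.D 1 (-1)) ⟨2, 1, 2, 0, 2, 2, 2, 1, 4, 5⟩ :=
  leafYS_sound T5.ok_pm T5.Ypm.bz_eq (w := 199) (c := ⟨⟨.negSucc 1270, .negSucc 360, .ofNat 6, .negSucc 50, .negSucc 37, .ofNat 112⟩, ⟨.ofNat 27, .negSucc 71, .ofNat 301, .ofNat 18, .ofNat 10, .negSucc 11⟩, ⟨.ofNat 997, .ofNat 211, .ofNat 73, .negSucc 90, .ofNat 307, .ofNat 139⟩, ⟨.negSucc 3571, .negSucc 70, .negSucc 53, .negSucc 123, .negSucc 89, .ofNat 284⟩, ⟨.negSucc 436, .ofNat 74, .ofNat 45, .ofNat 84, .negSucc 2, .ofNat 9⟩, .ofNat 368, .ofNat 46, .ofNat 0, .ofNat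 46, .ofNat 673, .ofNat 0, .ofNat 326, .negSucc 31, .negSucc 67, .ofNat 0, .ofNat 128, .ofNat 20, .ofNat 0, .ofNat 0, .ofNat 1231, .ofNat 5321, .ofNat 1539765859641539648170650668912426876928, .ofNat 0, .ofNat 0, .ofNat 0, .ofNat 0, .ofNat 0, .ofNat 0, .ofNat 0, .ofNat 0, .ofNat 0, .ofNat 0, .ofNat 0, .ofNat 0, .ofNat 0, .ofNat 0, .ofNat 0⟩)
    (by decide +kernel)
theorem L01128 : Good (Phi V5.P V5.D 1 (-1)) ⟨2, 1, 2, 0, 3, 6, 2, 0, 4, 4⟩ :=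
  leafYS_sound T5.ok_pm T5.Ypm.bz_eq (w := 213) (c := ⟨⟨.negSucc 1359, .negSucc 350, .negSucc 37, .ofNat 30, .negSucc 94, .ofNat 138⟩, ⟨.ofNat 62, .negSucc 69, .ofNat 353, .ofNat 22, .negSucc 13, .negSucc 22⟩, ⟨.ofNat 297, .ofNat 75, .negSucc 17, .negSucc 6, .ofNat 495, .ofNat 170⟩, ⟨.negSucc 3837, .ofNat 44, .negSucc 35, .ofNat 171, .negSucc 268, .ofNat 307⟩, ⟨.negSucc 302, .ofNat 457, .ofNat 283, .ofNat 576, .negSucc 166, .negSucc 182⟩, .ofNat 527, .ofNat 158, .ofNat 0, .ofNat 158, .ofNat 1425, .ofNat 0, .ofNat 171, .negSucc 66, .negSucc 22, .ofNat 0, .ofNat 128, .ofNat 7, .ofNat 0, .ofNat 0, .ofNat 298, .ofNat 5737, .ofNat 0, .ofNat 0, .ofNat 0, .ofNat 0, .ofNat 0, .ofNat 0, .ofNat 0, .ofNat 0, .ofNat 0, .ofNat 0, .ofNat 0, .ofNat 0, .ofNat 16739753233424993872315070792080578781904896, .ofNat 0, .ofNat 0, .ofNat 0⟩)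
    (by decide +kernel)
theorem L01129 : Good (Phi V5.P V5.D 1 (-1)) ⟨2, 1, 2, 0, 3, 7, 2, 0, 4, 4⟩ :=
  leafYS_sound T5.ok_pm T5.Ypm.bz_eq (w := 211) (c := ⟨⟨.negSucc 1300, .negSucc 290, .negSucc 98, .ofNat 99, .negSucc 145, .ofNat 129⟩, ⟨.ofNat 91, .negSucc 80, .ofNat 370, .ofNat 61, .negSucc 3, .negSucc 44⟩, ⟨.ofNat 296, .ofNat 92, .ofNat 6, .ofNat 76, .ofNat 478, .ofNat 175⟩, ⟨.negSucc 3615, .ofNat 130, .negSucc 10, .ofNat 335, .negSucc 415, .ofNat 252⟩, ⟨.ofNat 264, .ofNat 700, .ofNat 546, .ofNat 846, .negSucc 379, .negSucc 414⟩, .ofNat 521, .ofNat 130, .ofNat 0, .ofNat 130, .ofNat 1428, .ofNat 0, .ofNat 165, .negSucc 53, .negSucc 15, .ofNat 0, .ofNat 128, .ofNat 1, .ofNat 0, .ofNat 0, .ofNat 290, .ofNat 1852, .ofNat 0, .ofNat 0, .ofNat 0, .ofNat 0, .ofNat 0, .ofNat 0, .ofNat 0, .ofNat 0, .ofNat 0, .ofNat 0, .ofNat 0, .ofNat 0, .ofNat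 0, .ofNat 204067997490189431364883192120360732459008, .ofNat 0, .ofNat 0⟩)
    (by decide +kernel)
theorem L01130 : Good (Phi V5.P V5.D 1 (-1)) ⟨3, 2, 2, 0, 2, 3, 2, 1, 5, 8⟩ :=
  leafYS_sound T5.ok_pm T5.Ypm.bz_eq (w := 206) (c := ⟨⟨.negSucc 1421, .negSucc 187, .negSucc 49, .ofNat 23, .negSucc 99, .ofNat 75⟩, ⟨.ofNat 32, .ofNat 2, .ofNat 362, .ofNat 85, .ofNat 5, .negSucc 16⟩, ⟨.ofNat 701, .ofNat 101, .ofNat 8, .ofNat 80, .ofNat 434, .ofNat 81⟩, ⟨.negSucc 3993, .negSucc 35, .negSucc 59, .ofNat 181, .negSucc 272, .ofNat 174⟩, ⟨.negSucc 374, .ofNat 266, .ofNat 232, .ofNat 969, .negSucc 92, .negSucc 105⟩, .ofNat 661, .ofNat 270, .ofNat 0, .ofNat 270, .ofNat 2125, .ofNat 0, .ofNat 263, .negSucc 68, .negSucc 27, .ofNat 0, .ofNat 128, .ofNat 4, .ofNat 0, .ofNat 0, .ofNat 432, .ofNat 1363, .ofNat 0, .ofNat 0, .ofNat 0, .ofNat 0, .ofNat 0, .ofNat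 0, .ofNat 0, .ofNat 0, .ofNat 0, .ofNat 0, .ofNat 0, .ofNat 0, .ofNat 0, .ofNat 26514882796158022158470045876114453168128, .ofNat 0, .ofNat 0⟩)
    (by decide +kernel)
theorem L01131 : Good (Phi V5.P V5.D 1 (-1)) ⟨3, 3, 2, 0, 2, 3, 2, 1, 5, 8⟩ :=
  leafYS_sound T5.ok_pm T5.Ypm.bz_eq (w := 206) (c := ⟨⟨.negSucc 1594, .negSucc 232, .negSucc 58, .ofNat 61, .negSucc 162, .ofNat 81⟩, ⟨.ofNat 33, .negSucc 80, .ofNat 373, .ofNat 85, .negSucc 0, .negSucc 21⟩, ⟨.ofNat 770, .ofNat 120, .ofNat 28, .ofNat 85, .ofNat 525, .ofNat 62⟩, ⟨.negSucc 4033, .negSucc 43, .negSucc 26, .ofNat 305, .negSucc 433, .ofNat 142⟩, ⟨.negSucc 234, .ofNat 231, .ofNat 315, .ofNat 1379, .negSucc 279, .negSucc 189⟩, .ofNat 356, .ofNat 48, .ofNat 0, .ofNat 48, .ofNat 690, .ofNat 0, .ofNat 242, .negSucc 38, .negSucc 35, .ofNat 0, .ofNat 128, .ofNat 4, .ofNat 0, .ofNat 0, .ofNat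 417, .ofNat 1337, .ofNat 0, .ofNat 0, .ofNat 0, .ofNat 0, .ofNat 0, .ofNat 0, .ofNat 0, .ofNat 0, .ofNat 0, .ofNat 0, .ofNat 0, .ofNat 0, .ofNat 0, .ofNat 22982042881757395761237569312344225349632, .ofNat 0, .ofNat 0⟩)
    (by decide +kernel)
theorem L01132 : Good (Phi V5.P V5.D 1 (-1)) ⟨2, 1, 2, 0, 3, 6, 2, 1, 5, 9⟩ :=
  leafYS_sound T5.ok_pm T5.Ypm.bz_eq (w := 218) (c := ⟨⟨.negSucc 1352, .negSucc 391, .negSucc 38, .ofNat 0, .negSucc 105, .ofNat 73⟩, ⟨.ofNat 40, .negSucc 72, .ofNat 343, .ofNat 37, .ofNat 2, .negSucc 14⟩, ⟨.ofNat 757, .ofNat 190, .ofNat 44, .ofNat 36, .ofNat 501, .ofNat 76⟩, ⟨.negSucc 3835, .negSucc 71, .negSucc 72, .ofNat 63, .negSucc 256, .ofNat 194⟩, ⟨.negSucc 420, .ofNat 318, .ofNat 207, .ofNat 448, .negSucc 105, .negSucc 39⟩, .ofNat 369, .ofNat 51, .ofNat 0, .ofNat 51, .ofNat 679, .ofNat 0, .ofNat 222, .negSucc 38,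 .negSucc 39, .ofNat 0, .ofNat 128, .ofNat 10, .ofNat 0, .ofNat 0, .ofNat 633, .ofNat 5421, .ofNat 0, .ofNat 0, .ofNat 0, .ofNat 0, .ofNat 0, .ofNat 0, .ofNat 0, .ofNat 0, .ofNat 0, .ofNat 0, .ofNat 0, .ofNat 0, .ofNat 0, .ofNat 14815116754817104668955958067515466354524160, .ofNat 0, .ofNat 0⟩)
    (by decide +kernel)
theorem L01133 : Good (Phi V5.P V5.D 1 (-1)) ⟨3, 2, 2, 0, 3, 7, 2, 1, 5, 9⟩ :=
  leafYS_sound T5.ok_pm T5.Ypm.bz_eq (w := 220) (c := ⟨⟨.negSucc 1352, .negSucc 161, .negSucc 66, .ofNat 48, .negSucc 115, .ofNat 76⟩, ⟨.ofNat 60, .negSucc 5, .ofNat 358, .ofNat 48, .ofNat 10, .negSucc 22⟩, ⟨.ofNat 770, .ofNat 101, .ofNat 40, .ofNat 125, .ofNat 463, .ofNat 107⟩, ⟨.negSucc 3782, .negSucc 22, .negSucc 35, .ofNat 230, .negSucc 302, .ofNat 177⟩, ⟨.negSucc 72, .ofNat 248, .ofNat 319, .ofNat 643, .negSucc 82, .negSucc 93⟩, .ofNat 551,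 .ofNat 155, .ofNat 0, .ofNat 155, .ofNat 1346, .ofNat 0, .ofNat 257, .negSucc 53, .negSucc 7, .ofNat 0, .ofNat 128, .negSucc 2, .ofNat 0, .ofNat 0, .ofNat 467, .ofNat 1740, .ofNat 0, .ofNat 0, .ofNat 0, .ofNat 0, .ofNat 0, .ofNat 0, .ofNat 0, .ofNat 0, .ofNat 0, .ofNat 0, .ofNat 0, .ofNat 0, .ofNat 0, .ofNat 270552760364440478860754611858692286380507136, .ofNat 0, .ofNat 0⟩)
    (by decide +kernel)
theorem L01134 : Good (Phi V5.P V5.D 1 (-1)) ⟨3, 3, 2, 0, 3, 7, 2, 1, 5, 9⟩ :=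
  leafYS_sound T5.ok_pm T5.Ypm.bz_eq (w := 220) (c := ⟨⟨.negSucc 1524, .negSucc 190, .negSucc 62, .ofNat 99, .negSucc 160, .ofNat 100⟩, ⟨.ofNat 57, .negSucc 72, .ofNat 363, .ofNat 38, .negSucc 3, .negSucc 20⟩, ⟨.ofNat 838, .ofNat 107, .ofNat 54, .ofNat 128, .ofNat 555, .ofNat 86⟩, ⟨.negSucc 3801, .ofNat 17, .ofNat 12, .ofNat 260, .negSucc 428, .ofNat 185⟩, ⟨.ofNat 202, .ofNat 273, .ofNat 351, .ofNat 751, .negSucc 260, .negSucc 128⟩, .ofNat 494, .ofNat 117, .ofNat 0, .ofNat 117, .ofNat 1533, .ofNat 0, .ofNat 292, .negSucc 48, .negSucc 7, .ofNat 0, .ofNat 128, .negSucc 1, .ofNat 0, .ofNat 0, .ofNat 417, .ofNat 769, .ofNat 0, .ofNat 0, .ofNat 0, .ofNat 0, .ofNat 0, .ofNat 0, .ofNat 0, .ofNat 0, .ofNat 0, .ofNat 0, .ofNat 0, .ofNat 0, .ofNat 0, .ofNat 212620554352659100801650513773273214177247232, .ofNat 0, .ofNat 0⟩)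
    (by decide +kernel)
theorem L01135 : Good (Phi V5.P V5.D 1 (-1)) ⟨2, 1, 2, 0, 2, 3, 2, 0, 4, 5⟩ :=
  leafYS_sound T5.ok_pm T5.Ypm.bz_eq (w := 196) (c := ⟨⟨.negSucc 1222, .negSucc 323, .negSucc 42, .ofNat 76, .negSucc 105, .ofNat 151⟩, ⟨.ofNat 52, .negSucc 76, .ofNat 313, .ofNat 59, .negSucc 9, .negSucc 16⟩, ⟨.ofNat 490, .ofNat 41, .ofNat 31, .ofNat 7, .ofNat 448, .ofNat 171⟩, ⟨.negSucc 3514, .ofNat 39, .negSucc 67, .ofNat 280, .negSucc 215, .ofNat 332⟩, ⟨.negSucc 407, .ofNat 302, .ofNat 218, .ofNat 836, .negSucc 42, .negSucc 67⟩, .ofNat 519, .ofNat 142, .ofNat 0, .ofNat 142, .ofNat 1437, .ofNat 0, .ofNat 208, .negSucc 55, .negSucc 9, .ofNat 0, .ofNat 128, .ofNat 3, .ofNat 0, .ofNat 0, .ofNat 502, .ofNat 508, .ofNat 173185845973130030616387296495526739968, .ofNat 0, .ofNat 0, .ofNat 0, .ofNat 0, .ofNat 0, .ofNat 0, .ofNat 0, .ofNat 0,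 .ofNat 0, .ofNat 0, .ofNat 0, .ofNat 9446959029723431444723696730812851421184, .ofNat 532070113426099622247187574781074472960, .ofNat 0, .ofNat 0⟩)
    (by decide +kernel)
theorem L01136 : Good (Phi V5.P V5.D 1 (-1)) ⟨2, 1, 2, 0, 2, 3, 2, 1, 5, 10⟩ :=
  leafYS_sound T5.ok_pm T5.Ypm.bz_eq (w := 201) (c := ⟨⟨.negSucc 1314, .negSucc 361, .negSucc 21, .ofNat 40, .negSucc 81, .ofNat 78⟩, ⟨.ofNat 37, .negSucc 63, .ofNat 323, .ofNat 47, .negSucc 3, .negSucc 9⟩, ⟨.ofNat 869, .ofNat 165, .ofNat 56, .ofNat 26, .ofNat 482, .ofNat 89⟩, ⟨.negSucc 3685, .negSucc 48, .negSucc 44, .ofNat 215, .negSucc 215, .ofNat 167⟩, ⟨.negSucc 381, .ofNat 256, .ofNat 185, .ofNat 777, .negSucc 123, .negSucc 64⟩, .ofNat 523, .ofNat 136, .ofNat 0, .ofNat 136, .ofNat 1429, .ofNat 0, .ofNat 259, .negSucc 53, .negSucc 7, .ofNat 0, .ofNat 128, .ofNat 1, .ofNat 0, .ofNat 0,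 .ofNat 482, .ofNat 281, .ofNat 0, .ofNat 0, .ofNat 0, .ofNat 0, .ofNat 0, .ofNat 0, .ofNat 0, .ofNat 0, .ofNat 0, .ofNat 0, .ofNat 0, .ofNat 0, .ofNat 0, .ofNat 4200063612506431166285071394883451748352, .ofNat 0, .ofNat 0⟩)
    (by decide +kernel)
theorem L01137 : Good (Phi V5.P V5.D 1 (-1)) ⟨2, 1, 2, 0, 2, 3, 2, 1, 5, 11⟩ :=
  leafYS_sound T5.ok_pm T5.Ypm.bz_eq (w := 201) (c := ⟨⟨.negSucc 1253, .negSucc 340, .negSucc 17, .ofNat 40, .negSucc 62, .ofNat 79⟩, ⟨.ofNat 31, .negSucc 64, .ofNat 308, .ofNat 57, .negSucc 3, .negSucc 5⟩, ⟨.ofNat 908, .ofNat 114, .ofNat 108, .ofNat 91, .ofNat 512, .ofNat 161⟩, ⟨.negSucc 3505, .negSucc 32, .negSucc 69, .ofNat 175, .negSucc 157, .ofNat 160⟩, ⟨.negSucc 357, .ofNat 214, .ofNat 126, .ofNat 583, .negSucc 79, .negSucc 73⟩, .ofNat 368, .ofNat 53, .ofNat 0, .ofNat 53, .ofNat 670, .ofNat 0, .ofNat 129, .negSucc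 35, .ofNat 0, .ofNat 0, .ofNat 128, .ofNat 0, .ofNat 0, .ofNat 0, .ofNat 348, .ofNat 616, .ofNat 0, .ofNat 0, .ofNat 0, .ofNat 0, .ofNat 0, .ofNat 0, .ofNat 0, .ofNat 0, .ofNat 0, .ofNat 0, .ofNat 0, .ofNat 0, .ofNat 0, .ofNat 3428453149516171839769273251807147065344, .ofNat 0, .ofNat 0⟩)
    (by decide +kernel)
theorem L01138 : Good (Phi V5.P V5.D 1 (-1)) ⟨2, 1, 2, 0, 2, 2, 1, 0, 4, 6⟩ :=
  leafYS_sound T5.ok_pm T5.Ypm.bz_eq (w := 194) (c := ⟨⟨.negSucc 1114, .negSucc 350, .ofNat 14, .negSucc 36, .negSucc 97, .ofNat 105⟩, ⟨.ofNat 37, .negSucc 70, .ofNat 273, .ofNat 8, .ofNat 0, .negSucc 10⟩, ⟨.ofNat 562, .ofNat 191, .ofNat 157, .ofNat 97, .ofNat 788, .ofNat 269⟩, ⟨.negSucc 3137, .negSucc 90, .negSucc 34, .negSucc 85, .negSucc 273, .ofNat 255⟩, ⟨.negSucc 183, .ofNat 14, .ofNat 23, .negSucc 5, .negSucc 210, .negSucc 34⟩, .ofNat 368, .ofNat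 46, .ofNat 0, .ofNat 46, .ofNat 674, .ofNat 0, .ofNat 167, .negSucc 28, .negSucc 16, .ofNat 0, .ofNat 128, .negSucc 1, .ofNat 0, .ofNat 0, .ofNat 1241, .ofNat 2569, .ofNat 149469948452373762774113987465842786304, .ofNat 0, .ofNat 0, .ofNat 0, .ofNat 205541706056362148162326003670577053696, .ofNat 87703772982582171969466698304946438144, .ofNat 0, .ofNat 0, .ofNat 0, .ofNat 0, .ofNat 0, .ofNat 0, .ofNat 10483907393645804007946079132650414538752, .ofNat 872816858925117217230033539187173490688, .ofNat 0, .ofNat 0⟩)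
    (by decide +kernel)
theorem L01139 : Good (Phi V5.P V5.D 1 (-1)) ⟨2, 1, 2, 0, 2, 3, 1, 0, 4, 6⟩ :=
  leafYS_sound T5.ok_pm T5.Ypm.bz_eq (w := 192) (c := ⟨⟨.negSucc 1129, .negSucc 322, .negSucc 14, .ofNat 24, .negSucc 121, .ofNat 116⟩, ⟨.ofNat 35, .negSucc 67, .ofNat 291, .ofNat 0, .negSucc 0, .negSucc 33⟩, ⟨.ofNat 614, .ofNat 50, .ofNat 118, .negSucc 108, .ofNat 960, .ofNat 206⟩, ⟨.negSucc 3219, .negSucc 20, .negSucc 67, .ofNat 226, .negSucc 262, .ofNat 356⟩, ⟨.negSucc 337, .ofNat 183, .ofNat 107, .ofNat 507, .negSucc 84, .ofNat 21⟩, .ofNat 183, .ofNat 7, .ofNat 0, .ofNat 7, .ofNat 237, .ofNat 0, .ofNat 128, .negSucc 25, .ofNat 2, .ofNat 0, .ofNat 157, .ofNat 1, .ofNat 0, .ofNat 0, .ofNat 313, .ofNat 791, .ofNat 0, .ofNat 0, .ofNat 0, .ofNat 0, .ofNat 0, .ofNat 71171351917634492056416601056011616256, .ofNat 0, .ofNat 0, .ofNat 492337127377037632010901514134419931136,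 .ofNat 192374785409225016653618195244578242560, .ofNat 0, .ofNat 0, .ofNat 819252816430241137950813981336204738560, .ofNat 176482059589085892318920106004992491520, .ofNat 0, .ofNat 0⟩)
    (by decide +kernel)
theorem L01140 : Good (Phi V5.P V5.D 1 (-1)) ⟨2, 1, 2, 0, 2, 2, 2, 0, 4, 7⟩ :=
  out_sound (S := T5.ds_pm) T5.ok_pm (w := 24) (j := 1) (by decide +kernel)
theorem L01141 : Good (Phi V5.P V5.D 1 (-1)) ⟨2, 1, 2, 0, 3, 4, 3, 2, 4, 7⟩ :=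
  out_sound (S := T5.ds_pm) T5.ok_pm (w := 27) (j := 1) (by decide +kernel)
theorem L01142 : Good (Phi V5.P V5.D 1 (-1)) ⟨2, 1, 2, 0, 4, 8, 3, 3, 5, 14⟩ :=
  out_sound (S := T5.ds_pm) T5.ok_pm (w := 31) (j := 1) (by decide +kernel)

end Crest.Agent.R097C5.N5pm
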