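import Crest.Agent.R097.KS3
import Crest.Agent.R097.T5Ypm

/-!
# Row 97, box cover in dimension n = 5 (generated)
-/

set_option autoImplicit false
set_option Elab.async false
set_option maxHeartbeats 0
set_option maxRecDepth 100000

open Crest.Agent.R097 Crest.Agent.R097.KA


namespace Crest.Agent.R097C5.N5pm

theorem L01143 : Good (Phi V5.P V5.D 1 (-1)) ⟨2, 1, 2, 0, 4, 9, 4, 6, 5, 14⟩ :=
  out_sound (S := T5.ds_pm) T5.ok_pm (w := 32) (j := 1) (by decide +kernel)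
theorem L01144 : Good (Phi V5.P V5.D 1 (-1)) ⟨2, 1, 2, 0, 5, 18, 4, 7, 6, 28⟩ :=
  leafYS_sound T5.ok_pm T5.Ypm.bz_eq (w := 267) (c := ⟨⟨.negSucc 1074, .negSucc 350, .ofNat 31, .negSucc 0, .negSucc 51, .ofNat 1⟩, ⟨.ofNat 142, .negSucc 81, .ofNat 253, .ofNat 0, .negSucc 107, .ofNat 0⟩, ⟨.ofNat 1351, .ofNat 225, .ofNat 484, .ofNat 1, .ofNat 196, .negSucc 0⟩, ⟨.negSucc 3167, .negSucc 113, .negSucc 17, .negSucc 0, .negSucc 0, .ofNat 2⟩, ⟨.negSucc 338, .negSucc 47, .negSucc 42, .ofNat 0, .negSucc 32, .ofNat 0⟩, .ofNat 183, .ofNat 8, .ofNat 0, .ofNat 8, .ofNat 236, .ofNat 0, .ofNat 134, .negSucc 13, .ofNat 13, .ofNat 0, .ofNat 128, .negSucc 19, .ofNat 0, .ofNat 0, .ofNat 469, .ofNat 1543745, .ofNat 0, .ofNat 0, .ofNat 0, .ofNat 0, .ofNat 55616136711229513898450060963973288258438446694996639744, .ofNat 212411175583707861942988603632448043240256786969657344,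 .ofNat 0, .ofNat 0, .ofNat 104863764577485799016693643675767180689432476251968241664, .ofNat 396492292086599090171125055567841878395667208642494464, .ofNat 0, .ofNat 0, .ofNat 75752720223861762045277207755471016026247086118042337280, .ofNat 111882732487180246096787921722322133596654617099239424, .ofNat 0, .ofNat 0⟩)
    (by decide +kernel)
theorem L01145 : Good (Phi V5.P V5.D 1 (-1)) ⟨2, 1, 2, 0, 5, 19, 6, 28, 7, 56⟩ :=
  out_sound (S := T5.ds_pm) T5.ok_pm (w := 40) (j := 1) (by decide +kernel)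
theorem L01146 : Good (Phi V5.P V5.D 1 (-1)) ⟨2, 1, 2, 0, 6, 38, 6, 29, 7, 56⟩ :=
  out_sound (S := T5.ds_pm) T5.ok_pm (w := 42) (j := 1) (by decide +kernel)
theorem L01147 : Good (Phi V5.P V5.D 1 (-1)) ⟨2, 1, 2, 0, 6, 39, 6, 29, 7, 56⟩ :=
  out_sound (S := T5.ds_pm) T5.ok_pm (w := 52) (j := 2) (by decide +kernel)
theorem L01148 : Good (Phi V5.P V5.D 1 (-1)) ⟨2, 1, 2, 0, 5, 19, 5, 14, 7, 57⟩ :=
  out_sound (S := T5.ds_pm) T5.ok_pm (w := 39) (j := 1) (by decide +kernel)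
theorem L01149 : Good (Phi V5.P V5.D 1 (-1)) ⟨2, 1, 2, 0, 7, 76, 6, 30, 7, 56⟩ :=
  out_sound (S := T5.ds_pm) T5.ok_pm (w := 44) (j := 1) (by decide +kernel)
theorem L01150 : Good (Phi V5.P V5.D 1 (-1)) ⟨2, 1, 2, 0, 8, 152, 8, 124, 9, 224⟩ :=
  out_sound (S := T5.ds_pm) T5.ok_pm (w := 52) (j := 1) (by decide +kernel)
theorem L01151 : Good (Phi V5.P V5.D 1 (-1)) ⟨2, 1, 2, 0, 8, 152, 9, 250, 10, 448⟩ :=
  out_sound (S := T5.ds_pm) T5.ok_pm (w := 55) (j := 1) (by decide +kernel)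
theorem L01152 : Good (Phi V5.P V5.D 1 (-1)) ⟨2, 1, 2, 0, 9, 304, 9, 251, 10, 448⟩ :=
  out_sound (S := T5.ds_pm) T5.ok_pm (w := 57) (j := 1) (by decide +kernel)
theorem L01153 : Good (Phi V5.P V5.D 1 (-1)) ⟨2, 1, 2, 0, 9, 305, 9, 251, 10, 448⟩ :=
  out_sound (S := T5.ds_pm) T5.ok_pm (w := 70) (j := 2) (by decide +kernel)
theorem L01154 : Good (Phi V5.P V5.D 1 (-1)) ⟨2, 1, 2, 0, 8, 152, 8, 125, 10, 449⟩ :=
  out_sound (S := T5.ds_pm) T5.ok_pm (w := 54) (j := 1) (by decide +kernel)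
theorem L01155 : Good (Phi V5.P V5.D 1 (-1)) ⟨2, 1, 2, 0, 8, 152, 7, 62, 9, 225⟩ :=
  out_sound (S := T5.ds_pm) T5.ok_pm (w := 51) (j := 1) (by decide +kernel)
theorem L01156 : Good (Phi V5.P V5.D 1 (-1)) ⟨2, 1, 2, 0, 10, 608, 9, 252, 10, 448⟩ :=
  out_sound (S := T5.ds_pm) T5.ok_pm (w := 59) (j := 1) (by decide +kernel)
theorem L01157 : Good (Phi V5.P V5.D 1 (-1)) ⟨2, 1, 2, 0, 11, 1216, 10, 506, 11, 896⟩ :=
  out_sound (S := T5.ds_pm) T5.ok_pm (w := 64) (j := 1) (by decide +kernel)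
theorem L01158 : Good (Phi V5.P V5.D 1 (-1)) ⟨2, 1, 2, 0, 11, 1216, 10, 507, 11, 896⟩ :=
  out_sound (S := T5.ds_pm) T5.ok_pm (w := 78) (j := 2) (by decide +kernel)
theorem L01159 : Good (Phi V5.P V5.D 1 (-1)) ⟨2, 1, 2, 0, 11, 1217, 9, 253, 11, 896⟩ :=
  out_sound (S := T5.ds_pm) T5.ok_pm (w := 76) (j := 2) (by decide +kernel)
theorem L01160 : Good (Phi V5.P V5.D 1 (-1)) ⟨2, 1, 2, 0, 10, 608, 9, 253, 11, 897⟩ :=
  out_sound (S := T5.ds_pm) T5.ok_pm (w := 74) (j := 2) (by decide +kernel)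
theorem L01161 : Good (Phi V5.P V5.D 1 (-1)) ⟨2, 1, 2, 0, 10, 609, 8, 126, 10, 448⟩ :=
  out_sound (S := T5.ds_pm) T5.ok_pm (w := 70) (j := 2) (by decide +kernel)
theorem L01162 : Good (Phi V5.P V5.D 1 (-1)) ⟨2, 1, 2, 0, 9, 304, 8, 126, 10, 449⟩ :=
  out_sound (S := T5.ds_pm) T5.ok_pm (w := 56) (j := 1) (by decide +kernel)
theorem L01163 : Good (Phi V5.P V5.D 1 (-1)) ⟨2, 1, 2, 0, 9, 304, 8, 127, 9, 224⟩ :=
  out_sound (S := T5.ds_pm) T5.ok_pm (w := 66) (j := 2) (by decide +kernel)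
theorem L01164 : Good (Phi V5.P V5.D 1 (-1)) ⟨2, 1, 2, 0, 9, 305, 7, 63, 9, 224⟩ :=
  out_sound (S := T5.ds_pm) T5.ok_pm (w := 64) (j := 2) (by decide +kernel)
theorem L01165 : Good (Phi V5.P V5.D 1 (-1)) ⟨2, 1, 2, 0, 8, 152, 7, 63, 9, 225⟩ :=
  out_sound (S := T5.ds_pm) T5.ok_pm (w := 62) (j := 2) (by decide +kernel)
theorem L01166 : Good (Phi V5.P V5.D 1 (-1)) ⟨2, 1, 2, 0, 8, 153, 6, 31, 8, 112⟩ :=
  out_sound (S := T5.ds_pm) T5.ok_pm (w := 58) (j := 2) (by decide +kernel)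
theorem L01167 : Good (Phi V5.P V5.D 1 (-1)) ⟨2, 1, 2, 0, 7, 76, 6, 31, 8, 113⟩ :=
  out_sound (S := T5.ds_pm) T5.ok_pm (w := 56) (j := 2) (by decide +kernel)
theorem L01168 : Good (Phi V5.P V5.D 1 (-1)) ⟨2, 1, 2, 0, 8, 154, 6, 30, 8, 112⟩ :=
  out_sound (S := T5.ds_pm) T5.ok_pm (w := 48) (j := 1) (by decide +kernel)
theorem L01169 : Good (Phi V5.P V5.D 1 (-1)) ⟨2, 1, 2, 0, 8, 155, 6, 30, 8, 112⟩ :=
  out_sound (S := T5.ds_pm) T5.ok_pm (w := 58) (j := 2) (by decide +kernel)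
theorem L01170 : Good (Phi V5.P V5.D 1 (-1)) ⟨2, 1, 2, 0, 7, 77, 6, 30, 8, 113⟩ :=
  out_sound (S := T5.ds_pm) T5.ok_pm (w := 46) (j := 1) (by decide +kernel)
theorem L01171 : Good (Phi V5.P V5.D 1 (-1)) ⟨2, 1, 2, 0, 7, 77, 6, 31, 7, 56⟩ :=
  out_sound (S := T5.ds_pm) T5.ok_pm (w := 54) (j := 2) (by decide +kernel)
theorem L01172 : Good (Phi V5.P V5.D 1 (-1)) ⟨2, 1, 2, 0, 6, 38, 5, 15, 7, 57⟩ :=
  out_sound (S := T5.ds_pm) T5.ok_pm (w := 50) (j := 2) (by decide +kernel)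
theorem L01173 : Good (Phi V5.P V5.D 1 (-1)) ⟨2, 1, 2, 0, 6, 39, 5, 15, 6, 28⟩ :=
  out_sound (S := T5.ds_pm) T5.ok_pm (w := 48) (j := 2) (by decide +kernel)
theorem L01174 : Good (Phi V5.P V5.D 1 (-1)) ⟨2, 1, 2, 0, 4, 9, 4, 7, 6, 29⟩ :=
  out_sound (S := T5.ds_pm) T5.ok_pm (w := 34) (j := 1) (by decide +kernel)
theorem L01175 : Good (Phi V5.P V5.D 1 (-1)) ⟨2, 1, 2, 0, 3, 4, 3, 3, 5, 15⟩ :=
  out_sound (S := T5.ds_pm) T5.ok_pm (w := 29) (j := 1) (by decide +kernel)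
theorem L01176 : Good (Phi V5.P V5.D 1 (-1)) ⟨2, 1, 2, 0, 4, 10, 3, 2, 5, 14⟩ :=
  out_sound (S := T5.ds_pm) T5.ok_pm (w := 31) (j := 1) (by decide +kernel)
theorem L01177 : Good (Phi V5.P V5.D 1 (-1)) ⟨2, 1, 2, 0, 5, 20, 5, 12, 6, 28⟩ :=
  out_sound (S := T5.ds_pm) T5.ok_pm (w := 37) (j := 1) (by decide +kernel)
theorem L01178 : Good (Phi V5.P V5.D 1 (-1)) ⟨2, 1, 2, 0, 5, 20, 5, 13, 6, 28⟩ :=
  out_sound (S := T5.ds_pm) T5.ok_pm (w := 46) (j := 2) (by decide +kernel)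
theorem L01179 : Good (Phi V5.P V5.D 1 (-1)) ⟨2, 1, 2, 0, 5, 20, 4, 7, 6, 28⟩ :=
  out_sound (S := T5.ds_pm) T5.ok_pm (w := 44) (j := 2) (by decide +kernel)
theorem L01180 : Good (Phi V5.P V5.D 1 (-1)) ⟨2, 1, 2, 0, 5, 20, 3, 3, 6, 29⟩ :=
  out_sound (S := T5.ds_pm) T5.ok_pm (w := 42) (j := 2) (by decide +kernel)
theorem L01181 : Good (Phi V5.P V5.D 1 (-1)) ⟨2, 1, 2, 0, 5, 21, 3, 3, 5, 14⟩ :=
  out_sound (S := T5.ds_pm) T5.ok_pm (w := 40) (j := 2) (by decide +kernel)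
theorem L01182 : Good (Phi V5.P V5.D 1 (-1)) ⟨2, 1, 2, 0, 4, 10, 2, 1, 5, 15⟩ :=
  out_sound (S := T5.ds_pm) T5.ok_pm (w := 36) (j := 2) (by decide +kernel)
theorem L01183 : Good (Phi V5.P V5.D 1 (-1)) ⟨2, 1, 2, 0, 4, 11, 2, 1, 4, 7⟩ :=
  out_sound (S := T5.ds_pm) T5.ok_pm (w := 34) (j := 2) (by decide +kernel)
theorem L01184 : Good (Phi V5.P V5.D 1 (-1)) ⟨2, 1, 2, 0, 2, 3, 1, 0, 4, 7⟩ :=
  out_sound (S := T5.ds_pm) T5.ok_pm (w := 28) (j := 2) (by decide +kernel)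
theorem L01185 : Good (Phi V5.P V5.D 1 (-1)) ⟨2, 1, 2, 0, 3, 4, 1, 0, 3, 4⟩ :=
  out_sound (S := T5.ds_pm) T5.ok_pm (w := 23) (j := 1) (by decide +kernel)
theorem L01186 : Good (Phi V5.P V5.D 1 (-1)) ⟨2, 1, 2, 0, 3, 5, 1, 0, 3, 4⟩ :=
  out_sound (S := T5.ds_pm) T5.ok_pm (w := 28) (j := 2) (by decide +kernel)
theorem L01187 : Good (Phi V5.P V5.D 1 (-1)) ⟨2, 1, 2, 0, 2, 2, 1, 0, 3, 5⟩ :=
  out_sound (S := T5.ds_pm) T5.ok_pm (w := 21) (j := 1) (by decide +kernel)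
theorem L01188 : Good (Phi V5.P V5.D 1 (-1)) ⟨2, 1, 2, 0, 2, 2, 1, 0, 2, 3⟩ :=
  out_sound (S := T5.ds_pm) T5.ok_pm (w := 19) (j := 1) (by decide +kernel)
theorem L01189 : Good (Phi V5.P V5.D 1 (-1)) ⟨2, 1, 2, 0, 2, 3, 1, 0, 1, 1⟩ :=
  out_sound (S := T5.ds_pm) T5.ok_pm (w := 22) (j := 2) (by decide +kernel)
theorem L01190 : Good (Phi V5.P V5.D 1 (-1)) ⟨2, 1, 2, 0, 1, 1, 2, 2, 3, 0⟩ :=
  leafYS_sound T5.ok_pm T5.Ypm.bz_eq (w := 178) (c := ⟨⟨.ofNat 978, .negSucc 277, .ofNat 78, .negSucc 626, .negSucc 506, .negSucc 1803⟩, ⟨.negSucc 150, .ofNat 6, .ofNat 110, .ofNat 114, .ofNat 68, .ofNat 154⟩, ⟨.negSucc 910, .ofNat 184, .ofNat 4, .ofNat 604, .ofNat 673, .ofNat 924⟩, ⟨.ofNat 2274, .negSucc 426, .ofNat 268, .negSucc 1434, .negSucc 1323, .negSucc 4434⟩, ⟨.ofNat 23, .ofNat 424, .ofNat 111, .ofNat 667, .negSucc 88, .negSucc 542⟩, .ofNat 521, .ofNat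 135, .ofNat 0, .ofNat 135, .ofNat 1433, .ofNat 0, .ofNat 405, .negSucc 46, .negSucc 316, .ofNat 0, .ofNat 128, .ofNat 60, .ofNat 0, .ofNat 0, .ofNat 599, .ofNat 365, .ofNat 0, .ofNat 0, .ofNat 0, .ofNat 0, .ofNat 0, .ofNat 0, .ofNat 0, .ofNat 0, .ofNat 0, .ofNat 0, .ofNat 0, .ofNat 0, .ofNat 0, .ofNat 0, .ofNat 0, .ofNat 0⟩)
    (by decide +kernel)
theorem L01191 : Good (Phi V5.P V5.D 1 (-1)) ⟨2, 1, 2, 0, 1, 1, 2, 3, 3, 0⟩ :=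
  leafYS_sound T5.ok_pm T5.Ypm.bz_eq (w := 178) (c := ⟨⟨.ofNat 434, .negSucc 602, .ofNat 43, .negSucc 710, .negSucc 815, .negSucc 1323⟩, ⟨.negSucc 167, .negSucc 4, .ofNat 216, .ofNat 200, .ofNat 188, .ofNat 135⟩, ⟨.negSucc 170, .ofNat 466, .negSucc 34, .ofNat 436, .ofNat 1160, .ofNat 876⟩, ⟨.ofNat 746, .negSucc 959, .ofNat 209, .negSucc 1586, .negSucc 1827, .negSucc 3363⟩, ⟨.ofNat 165, .ofNat 439, .negSucc 398, .ofNat 1147, .ofNat 859, .negSucc 742⟩, .ofNat 529, .ofNat 163, .ofNat 0, .ofNat 163, .ofNat 1413, .ofNat 0, .ofNat 445, .negSucc 41, .negSucc 303, .ofNat 0, .ofNat 128, .ofNat 63, .ofNat 0, .ofNat 0, .ofNat 524, .ofNat 191, .ofNat 0, .ofNat 0, .ofNat 0, .ofNat 0, .ofNat 0, .ofNat 0, .ofNat 0, .ofNat 0, .ofNat 0, .ofNat 1952428149524503513284686072774656, .ofNat 0, .ofNat 0, .ofNat 0, .ofNat 3762169073745934382070798112260096, .ofNat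 0, .ofNat 0⟩)
    (by decide +kernel)
theorem L01192 : Good (Phi V5.P V5.D 1 (-1)) ⟨2, 1, 2, 0, 1, 1, 2, 2, 4, 2⟩ :=
  leafYS_sound T5.ok_pm T5.Ypm.bz_eq (w := 182) (c := ⟨⟨.negSucc 829, .negSucc 662, .ofNat 35, .negSucc 681, .negSucc 234, .negSucc 253⟩, ⟨.negSucc 64, .negSucc 57, .ofNat 368, .ofNat 179, .ofNat 19, .ofNat 26⟩, ⟨.ofNat 397, .ofNat 496, .negSucc 45, .ofNat 155, .ofNat 649, .ofNat 376⟩, ⟨.negSucc 2561, .negSucc 677, .ofNat 105, .negSucc 1586, .negSucc 553, .negSucc 681⟩, ⟨.negSucc 708, .ofNat 266, .negSucc 17, .ofNat 1206, .ofNat 131, .ofNat 25⟩, .ofNat 366, .ofNat 50, .ofNat 0, .ofNat 50, .ofNat 674, .ofNat 0, .ofNat 294, .negSucc 34, .negSucc 121, .ofNat 0, .ofNat 128, .ofNat 28, .ofNat 0, .ofNat 0, .ofNat 285, .ofNat 419, .ofNat 0, .ofNat 0, .ofNat 0, .ofNat 0, .ofNat 0, .ofNat 0, .ofNat 0, .ofNat 0, .ofNat 0, .ofNat 0,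 .ofNat 0, .ofNat 0, .ofNat 0, .ofNat 0, .ofNat 0, .ofNat 0⟩)
    (by decide +kernel)
theorem L01193 : Good (Phi V5.P V5.D 1 (-1)) ⟨2, 1, 2, 0, 1, 1, 2, 3, 4, 2⟩ :=
  leafYS_sound T5.ok_pm T5.Ypm.bz_eq (w := 183) (c := ⟨⟨.negSucc 763, .negSucc 916, .negSucc 28, .negSucc 950, .negSucc 613, .negSucc 250⟩, ⟨.negSucc 108, .negSucc 42, .ofNat 422, .ofNat 250, .ofNat 70, .ofNat 44⟩, ⟨.ofNat 720, .ofNat 844, .ofNat 117, .ofNat 265, .ofNat 941, .ofNat 288⟩, ⟨.negSucc 2646, .negSucc 1077, .ofNat 33, .negSucc 2168, .negSucc 1379, .negSucc 587⟩, ⟨.negSucc 693, .ofNat 60, .negSucc 201, .ofNat 2003, .ofNat 850, .negSucc 177⟩, .ofNat 528, .ofNat 152, .ofNat 0, .ofNat 152, .ofNat 1457, .ofNat 0, .ofNat 307, .negSucc 61, .negSucc 201, .ofNat 0, .ofNat 128, .ofNat 38, .ofNat 0, .ofNat 0, .ofNat 497, .ofNat 220, .ofNat 0, .ofNat 305083108711906175723462578929664,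 .ofNat 0, .ofNat 0, .ofNat 0, .ofNat 16266895461585065083105865887645696, .ofNat 0, .ofNat 0, .ofNat 0, .ofNat 38514479314842702159017207119478784, .ofNat 0, .ofNat 0, .ofNat 0, .ofNat 0, .ofNat 0, .ofNat 0⟩)
    (by decide +kernel)
theorem L01194 : Good (Phi V5.P V5.D 1 (-1)) ⟨2, 1, 2, 0, 1, 1, 2, 2, 5, 6⟩ :=
  leafYS_sound T5.ok_pm T5.Ypm.bz_eq (w := 187) (c := ⟨⟨.negSucc 1265, .negSucc 568, .negSucc 6, .negSucc 463, .negSucc 154, .ofNat 44⟩, ⟨.ofNat 15, .negSucc 77, .ofNat 345, .ofNat 142, .ofNat 18, .ofNat 2⟩, ⟨.ofNat 871, .ofNat 462, .ofNat 3, .ofNat 73, .ofNat 584, .ofNat 64⟩, ⟨.negSucc 3581, .negSucc 445, .ofNat 9, .negSucc 1051, .negSucc 382, .ofNat 9⟩, ⟨.negSucc 455, .ofNat 4, .ofNat 14, .ofNat 1134, .negSucc 30, .ofNat 41⟩, .ofNat 522, .ofNat 143, .ofNat 0, .ofNat 143, .ofNat 1430, .ofNat 0, .ofNat 283, .negSucc 62, .negSucc 64,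 .ofNat 0, .ofNat 128, .ofNat 13, .ofNat 0, .ofNat 0, .ofNat 288, .ofNat 299, .ofNat 0, .ofNat 0, .ofNat 0, .ofNat 0, .ofNat 0, .ofNat 0, .ofNat 0, .ofNat 0, .ofNat 0, .ofNat 0, .ofNat 0, .ofNat 0, .ofNat 0, .ofNat 167591322344807763307472445539090432, .ofNat 0, .ofNat 0⟩)
    (by decide +kernel)
theorem L01195 : Good (Phi V5.P V5.D 1 (-1)) ⟨2, 1, 2, 0, 1, 1, 2, 2, 5, 7⟩ :=
  leafYS_sound T5.ok_pm T5.Ypm.bz_eq (w := 187) (c := ⟨⟨.negSucc 1261, .negSucc 550, .negSucc 42, .negSucc 376, .negSucc 125, .ofNat 73⟩, ⟨.ofNat 13, .negSucc 79, .ofNat 343, .ofNat 117, .ofNat 18, .negSucc 0⟩, ⟨.ofNat 900, .ofNat 453, .ofNat 68, .ofNat 127, .ofNat 535, .ofNat 54⟩, ⟨.negSucc 3663, .negSucc 364, .negSucc 97, .negSucc 819, .negSucc 272, .ofNat 133⟩, ⟨.negSucc 532, .ofNat 70, .negSucc 30, .ofNat 1028, .ofNat 21, .ofNat 33⟩, .ofNat 519, .ofNat 129, .ofNat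 0, .ofNat 129, .ofNat 1443, .ofNat 0, .ofNat 271, .negSucc 56, .negSucc 60, .ofNat 0, .ofNat 128, .ofNat 11, .ofNat 0, .ofNat 0, .ofNat 382, .ofNat 242, .ofNat 0, .ofNat 0, .ofNat 0, .ofNat 0, .ofNat 0, .ofNat 0, .ofNat 0, .ofNat 0, .ofNat 0, .ofNat 0, .ofNat 0, .ofNat 0, .ofNat 0, .ofNat 354331202809363040022447241008513024, .ofNat 0, .ofNat 0⟩)
    (by decide +kernel)
theorem L01196 : Good (Phi V5.P V5.D 1 (-1)) ⟨2, 1, 2, 0, 1, 1, 2, 3, 4, 3⟩ :=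
  leafYS_sound T5.ok_pm T5.Ypm.bz_eq (w := 183) (c := ⟨⟨.negSucc 1178, .negSucc 736, .negSucc 39, .negSucc 763, .negSucc 441, .ofNat 33⟩, ⟨.negSucc 33, .negSucc 86, .ofNat 391, .ofNat 227, .ofNat 102, .ofNat 15⟩, ⟨.ofNat 1106, .ofNat 617, .ofNat 70, .ofNat 416, .ofNat 697, .ofNat 157⟩, ⟨.negSucc 3541, .negSucc 674, .negSucc 65, .negSucc 1700, .negSucc 993, .negSucc 18⟩, ⟨.negSucc 276, .negSucc 105, .negSucc 102, .ofNat 1277, .ofNat 215, .negSucc 311⟩, .ofNat 527, .ofNat 155, .ofNat 0, .ofNat 155, .ofNat 1425, .ofNat 0, .ofNat 243, .negSucc 65, .negSucc 78, .ofNat 0, .ofNat 128, .ofNat 13, .ofNat 0, .ofNat 0, .ofNat 421, .ofNat 351, .ofNat 0, .ofNat 1490359046948620274894010576797696, .ofNat 0, .ofNat 0, .ofNat 0, .ofNat 42277109627171228189523677653499904, .ofNat 0, .ofNat 0, .ofNat 0, .ofNat 68562190987553889783460761541017600, .ofNat 0,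 .ofNat 0, .ofNat 0, .ofNat 64484906728145801811701394980208640, .ofNat 0, .ofNat 0⟩)
    (by decide +kernel)
theorem L01197 : Good (Phi V5.P V5.D 1 (-1)) ⟨2, 1, 2, 0, 2, 2, 2, 2, 4, 4⟩ :=
  leafYS_sound T5.ok_pm T5.Ypm.bz_eq (w := 197) (c := ⟨⟨.negSucc 1302, .negSucc 457, .ofNat 6, .negSucc 190, .negSucc 94, .ofNat 102⟩, ⟨.ofNat 13, .negSucc 67, .ofNat 334, .ofNat 37, .ofNat 8, .negSucc 10⟩, ⟨.ofNat 1041, .ofNat 372, .ofNat 42, .ofNat 72, .ofNat 428, .ofNat 128⟩, ⟨.negSucc 3657, .negSucc 250, .negSucc 56, .negSucc 459, .negSucc 250, .ofNat 228⟩, ⟨.negSucc 426, .ofNat 71, .ofNat 48, .ofNat 122, .negSucc 92, .negSucc 58⟩, .ofNat 366, .ofNat 43, .ofNat 0, .ofNat 43, .ofNat 675, .ofNat 0, .ofNat 349, .negSucc 30, .negSucc 68, .ofNat 0, .ofNat 128, .ofNat 12, .ofNat 0, .ofNat 0, .ofNat 554, .ofNat 642, .ofNat 0, .ofNat 0, .ofNat 0, .ofNat 0,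 .ofNat 0, .ofNat 0, .ofNat 0, .ofNat 0, .ofNat 0, .ofNat 0, .ofNat 0, .ofNat 0, .ofNat 0, .ofNat 358773848410407536013338128111556886528, .ofNat 0, .ofNat 0⟩)
    (by decide +kernel)
theorem L01198 : Good (Phi V5.P V5.D 1 (-1)) ⟨3, 2, 2, 0, 2, 3, 2, 2, 5, 8⟩ :=
  leafYS_sound T5.ok_pm T5.Ypm.bz_eq (w := 205) (c := ⟨⟨.negSucc 1463, .negSucc 224, .negSucc 38, .negSucc 88, .negSucc 131, .ofNat 74⟩, ⟨.ofNat 31, .negSucc 9, .ofNat 375, .ofNat 101, .ofNat 24, .negSucc 17⟩, ⟨.ofNat 1031, .ofNat 179, .ofNat 74, .ofNat 130, .ofNat 571, .ofNat 93⟩, ⟨.negSucc 4120, .negSucc 166, .negSucc 59, .negSucc 68, .negSucc 339, .ofNat 179⟩, ⟨.negSucc 364, .ofNat 83, .ofNat 146, .ofNat 972, .ofNat 7, .negSucc 58⟩, .ofNat 556, .ofNat 175, .ofNat 0, .ofNat 175, .ofNat 1341, .ofNat 0, .ofNat 232, .negSucc 63, .negSucc 20, .ofNat 0, .ofNat 128, .ofNat 0, .ofNat 0,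 .ofNat 0, .ofNat 463, .ofNat 419, .ofNat 0, .ofNat 0, .ofNat 0, .ofNat 0, .ofNat 0, .ofNat 0, .ofNat 0, .ofNat 0, .ofNat 0, .ofNat 0, .ofNat 0, .ofNat 0, .ofNat 0, .ofNat 51209317224856182150682959256762342965248, .ofNat 0, .ofNat 0⟩)
    (by decide +kernel)
theorem L01199 : Good (Phi V5.P V5.D 1 (-1)) ⟨3, 3, 2, 0, 2, 3, 2, 2, 5, 8⟩ :=
  leafYS_sound T5.ok_pm T5.Ypm.bz_eq (w := 206) (c := ⟨⟨.negSucc 1693, .negSucc 293, .negSucc 53, .negSucc 31, .negSucc 220, .ofNat 79⟩, ⟨.ofNat 25, .negSucc 83, .ofNat 387, .ofNat 84, .ofNat 12, .negSucc 18⟩, ⟨.ofNat 1221, .ofNat 195, .ofNat 90, .ofNat 96, .ofNat 673, .ofNat 55⟩, ⟨.negSucc 4331, .negSucc 110, .negSucc 46, .ofNat 54, .negSucc 541, .ofNat 177⟩, ⟨.negSucc 266, .ofNat 111, .ofNat 134, .ofNat 1165, .negSucc 196, .negSucc 127⟩, .ofNat 500, .ofNat 136, .ofNat 0, .ofNat 136, .ofNat 1518, .ofNat 0,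 .ofNat 323, .negSucc 59, .negSucc 25, .ofNat 0, .ofNat 128, .negSucc 0, .ofNat 0, .ofNat 0, .ofNat 577, .ofNat 563, .ofNat 0, .ofNat 0, .ofNat 0, .ofNat 0, .ofNat 0, .ofNat 0, .ofNat 0, .ofNat 0, .ofNat 0, .ofNat 31272647903578610765132013762897260838912, .ofNat 0, .ofNat 0, .ofNat 0, .ofNat 77961887773509960453509857045034217504768, .ofNat 0, .ofNat 0⟩)
    (by decide +kernel)
theorem L01200 : Good (Phi V5.P V5.D 1 (-1)) ⟨3, 2, 2, 0, 2, 3, 2, 2, 5, 9⟩ :=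
  leafYS_sound T5.ok_pm T5.Ypm.bz_eq (w := 204) (c := ⟨⟨.negSucc 1415, .negSucc 207, .negSucc 27, .negSucc 73, .negSucc 100, .ofNat 74⟩, ⟨.ofNat 32, .negSucc 4, .ofNat 351, .ofNat 78, .ofNat 14, .negSucc 14⟩, ⟨.ofNat 1117, .ofNat 171, .ofNat 101, .ofNat 123, .ofNat 559, .ofNat 98⟩, ⟨.negSucc 3962, .negSucc 131, .negSucc 73, .negSucc 50, .negSucc 255, .ofNat 179⟩, ⟨.negSucc 346, .ofNat 63, .ofNat 115, .ofNat 770, .ofNat 14, .negSucc 40⟩, .ofNat 551, .ofNat 157, .ofNat 0, .ofNat 157, .ofNat 1347, .ofNat 0, .ofNat 161, .negSucc 58, .negSucc 5, .ofNat 0, .ofNat 128, .negSucc 0, .ofNat 0, .ofNat 0, .ofNat 337, .ofNat 131, .ofNat 0, .ofNat 200282081220760607363070224326704758784, .ofNat 0, .ofNat 0, .ofNat 0, .ofNat 0, .ofNat 0, .ofNat 0, .ofNat 0, .ofNat 0, .ofNat 0, .ofNat 0, .ofNat 0, .ofNat 39913859402664359279494592370137238601728, .ofNat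 0, .ofNat 0⟩)
    (by decide +kernel)
theorem L01201 : Good (Phi V5.P V5.D 1 (-1)) ⟨3, 3, 2, 0, 2, 3, 2, 2, 5, 9⟩ :=
  leafYS_sound T5.ok_pm T5.Ypm.bz_eq (w := 206) (c := ⟨⟨.negSucc 1633, .negSucc 266, .negSucc 33, .negSucc 30, .negSucc 145, .ofNat 90⟩, ⟨.ofNat 27, .negSucc 83, .ofNat 357, .ofNat 78, .ofNat 10, .negSucc 17⟩, ⟨.ofNat 1274, .ofNat 187, .ofNat 117, .ofNat 116, .ofNat 653, .ofNat 87⟩, ⟨.negSucc 4126, .negSucc 104, .negSucc 72, .ofNat 73, .negSucc 354, .ofNat 203⟩, ⟨.negSucc 289, .ofNat 41, .ofNat 122, .ofNat 1006, .negSucc 128, .negSucc 76⟩, .ofNat 495, .ofNat 113, .ofNat 0, .ofNat 113, .ofNat 1535, .ofNat 0, .ofNat 269, .negSucc 51, .negSucc 13, .ofNat 0, .ofNat 128, .negSucc 0, .ofNat 0, .ofNat 0, .ofNat 531, .ofNat 540, .ofNat 0, .ofNat 490319032040301261032883653883885256704, .ofNat 0, .ofNat 0, .ofNat 0, .ofNat 0, .ofNat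 0, .ofNat 0, .ofNat 0, .ofNat 38792393473411416024221896163288498044928, .ofNat 0, .ofNat 0, .ofNat 0, .ofNat 107073723286281303424896087256554276913152, .ofNat 0, .ofNat 0⟩)
    (by decide +kernel)
theorem L01202 : Good (Phi V5.P V5.D 1 (-1)) ⟨2, 1, 2, 0, 2, 2, 2, 2, 4, 5⟩ :=
  leafYS_sound T5.ok_pm T5.Ypm.bz_eq (w := 196) (c := ⟨⟨.negSucc 1268, .negSucc 398, .ofNat 11, .negSucc 94, .negSucc 78, .ofNat 101⟩, ⟨.ofNat 37, .negSucc 73, .ofNat 298, .ofNat 15, .ofNat 5, .negSucc 14⟩, ⟨.ofNat 1147, .ofNat 347, .ofNat 105, .ofNat 134, .ofNat 306, .ofNat 152⟩, ⟨.negSucc 3560, .negSucc 172, .negSucc 50, .negSucc 233, .negSucc 198, .ofNat 250⟩, ⟨.negSucc 370, .negSucc 26, .ofNat 17, .ofNat 35, .negSucc 58, .negSucc 29⟩, .ofNat 369, .ofNat 50, .ofNat 0, .ofNat 50, .ofNat 671, .ofNat 0, .ofNat 209, .negSucc 32, .negSucc 28, .ofNat 0, .ofNat 128, .ofNat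 1, .ofNat 0, .ofNat 0, .ofNat 597, .ofNat 259, .ofNat 0, .ofNat 0, .ofNat 0, .ofNat 0, .ofNat 0, .ofNat 0, .ofNat 0, .ofNat 0, .ofNat 0, .ofNat 0, .ofNat 0, .ofNat 0, .ofNat 0, .ofNat 634136700019725384034343498842764214272, .ofNat 0, .ofNat 0⟩)
    (by decide +kernel)
theorem L01203 : Good (Phi V5.P V5.D 1 (-1)) ⟨2, 1, 2, 0, 2, 3, 2, 2, 4, 5⟩ :=
  leafYS_sound T5.ok_pm T5.Ypm.bz_eq (w := 195) (c := ⟨⟨.negSucc 1356, .negSucc 437, .negSucc 14, .negSucc 48, .negSucc 87, .ofNat 170⟩, ⟨.ofNat 46, .negSucc 85, .ofNat 330, .ofNat 54, .negSucc 11, .negSucc 10⟩, ⟨.ofNat 1184, .ofNat 332, .ofNat 141, .ofNat 217, .ofNat 620, .ofNat 263⟩, ⟨.negSucc 3796, .negSucc 210, .negSucc 72, .negSucc 42, .negSucc 233, .ofNat 402⟩, ⟨.negSucc 328, .ofNat 56, .ofNat 83, .ofNat 610, .negSucc 62, .negSucc 61⟩, .ofNat 183, .ofNat 9, .ofNat 0, .ofNat 9, .ofNat 236,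 .ofNat 0, .ofNat 147, .negSucc 24, .negSucc 2, .ofNat 0, .ofNat 128, .negSucc 6, .ofNat 0, .ofNat 0, .ofNat 241, .ofNat 149, .ofNat 0, .ofNat 4979275017280413621019588789811544064, .ofNat 0, .ofNat 0, .ofNat 0, .ofNat 104580688660942629677336056493900824576, .ofNat 0, .ofNat 0, .ofNat 0, .ofNat 102908548338500860303005870100299382784, .ofNat 0, .ofNat 0, .ofNat 0, .ofNat 300530917753809835822941154585576734720, .ofNat 0, .ofNat 0⟩)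
    (by decide +kernel)
theorem L01204 : Good (Phi V5.P V5.D 1 (-1)) ⟨2, 1, 2, 0, 2, 2, 3, 6, 4, 4⟩ :=
  leafYS_sound T5.ok_pm T5.Ypm.bz_eq (w := 200) (c := ⟨⟨.negSucc 1340, .negSucc 552, .ofNat 16, .negSucc 298, .negSucc 146, .ofNat 87⟩, ⟨.ofNat 29, .negSucc 79, .ofNat 341, .ofNat 37, .ofNat 1, .negSucc 7⟩, ⟨.ofNat 1203, .ofNat 557, .ofNat 167, .ofNat 413, .ofNat 231, .ofNat 68⟩, ⟨.negSucc 3758, .negSucc 443, .negSucc 54, .negSucc 717, .negSucc 363, .ofNat 186⟩, ⟨.negSucc 323, .negSucc 169, .negSucc 11, .ofNat 54, .negSucc 85, .negSucc 63⟩, .ofNat 368, .ofNat 51, .ofNat 0, .ofNat 51, .ofNat 674, .ofNat 0, .ofNat 351, .negSucc 33, .negSucc 52, .ofNat 0, .ofNat 128, .ofNat 3, .ofNat 0, .ofNat 0, .ofNat 437, .ofNat 204, .ofNat 0, .ofNat 0, .ofNat 0, .ofNat 0, .ofNat 0, .ofNat 0, .ofNat 0, .ofNat 0, .ofNat 0, .ofNat 0, .ofNat 0, .ofNat 0, .ofNat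 0, .ofNat 1395024557152595366644526233851789312000, .ofNat 0, .ofNat 0⟩)
    (by decide +kernel)
theorem L01205 : Good (Phi V5.P V5.D 1 (-1)) ⟨2, 1, 2, 0, 2, 2, 3, 7, 4, 4⟩ :=
  leafYS_sound T5.ok_pm T5.Ypm.bz_eq (w := 201) (c := ⟨⟨.negSucc 1398, .negSucc 631, .ofNat 9, .negSucc 470, .negSucc 256, .ofNat 4⟩, ⟨.ofNat 29, .negSucc 84, .ofNat 354, .ofNat 26, .ofNat 44, .ofNat 1⟩, ⟨.ofNat 1333, .ofNat 662, .ofNat 165, .ofNat 720, .ofNat 241, .ofNat 39⟩, ⟨.negSucc 3913, .negSucc 650, .negSucc 87, .negSucc 1158, .negSucc 682, .ofNat 16⟩, ⟨.negSucc 330, .negSucc 310, .negSucc 30, .negSucc 174, .negSucc 114, .negSucc 23⟩, .ofNat 183, .ofNat 9, .ofNat 0, .ofNat 9, .ofNat 237, .ofNat 0, .ofNat 253, .negSucc 10, .negSucc 75, .ofNat 0, .ofNat 128, .ofNat 1, .ofNat 0, .ofNat 0, .ofNat 216, .ofNat 502, .ofNat 0, .ofNat 0, .ofNat 0, .ofNat 0, .ofNat 0,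 .ofNat 1666373293197391154756942701276874932224, .ofNat 0, .ofNat 0, .ofNat 0, .ofNat 604095283848590239651833728426544463872, .ofNat 0, .ofNat 0, .ofNat 0, .ofNat 1027613593502616141732049281585000742912, .ofNat 0, .ofNat 0⟩)
    (by decide +kernel)
theorem L01206 : Good (Phi V5.P V5.D 1 (-1)) ⟨2, 1, 2, 0, 2, 3, 2, 3, 4, 4⟩ :=
  leafYS_sound T5.ok_pm T5.Ypm.bz_eq (w := 197) (c := ⟨⟨.negSucc 1559, .negSucc 659, .negSucc 37, .negSucc 233, .negSucc 309, .ofNat 167⟩, ⟨.ofNat 72, .negSucc 109, .ofNat 395, .ofNat 50, .ofNat 22, .negSucc 71⟩, ⟨.ofNat 1545, .ofNat 584, .ofNat 148, .ofNat 206, .ofNat 851, .ofNat 126⟩, ⟨.negSucc 4371, .negSucc 598, .negSucc 129, .negSucc 441, .negSucc 823, .ofNat 426⟩, ⟨.negSucc 159, .negSucc 165, .ofNat 7, .ofNat 893, .negSucc 8, .negSucc 80⟩, .ofNat 183, .ofNat 9, .ofNat 0, .ofNat 9, .ofNat 237, .ofNat 0, .ofNat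 207, .negSucc 26, .negSucc 26, .ofNat 0, .ofNat 128, .negSucc 1, .ofNat 0, .ofNat 0, .ofNat 166, .ofNat 809, .ofNat 0, .ofNat 24293608667632749211853093895317487616, .ofNat 0, .ofNat 0, .ofNat 0, .ofNat 565817940347469145044600870772473331712, .ofNat 0, .ofNat 0, .ofNat 0, .ofNat 410793179173773965665062994720449363968, .ofNat 0, .ofNat 0, .ofNat 0, .ofNat 299752621236326202530801672480505200640, .ofNat 0, .ofNat 0⟩)
    (by decide +kernel)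
theorem L01207 : Good (Phi V5.P V5.D 1 (-1)) ⟨2, 1, 2, 0, 2, 2, 2, 3, 4, 5⟩ :=
  leafYS_sound T5.ok_pm T5.Ypm.bz_eq (w := 197) (c := ⟨⟨.negSucc 1297, .negSucc 478, .ofNat 15, .negSucc 225, .negSucc 272, .ofNat 68⟩, ⟨.ofNat 45, .negSucc 84, .ofNat 305, .ofNat 2, .ofNat 8, .negSucc 14⟩, ⟨.ofNat 1227, .ofNat 507, .ofNat 249, .ofNat 600, .ofNat 316, .ofNat 84⟩, ⟨.negSucc 3653, .negSucc 332, .negSucc 53, .negSucc 541, .negSucc 642, .ofNat 179⟩, ⟨.negSucc 315, .negSucc 211, .negSucc 35, .negSucc 181, .negSucc 163, .ofNat 1⟩, .ofNat 370, .ofNat 55, .ofNat 0, .ofNat 55, .ofNat 668, .ofNat 0, .ofNat 455, .negSucc 33, .negSucc 35, .ofNat 0, .ofNat 128, .negSucc 7, .ofNat 0, .ofNat 0, .ofNat 657, .ofNat 445, .ofNat 0, .ofNat 0, .ofNat 0, .ofNat 0, .ofNat 0, .ofNat 987318147855469490057564361597762142208, .ofNat 0, .ofNat 0, .ofNat 0, .ofNat 352081986097199432262029561514497671168,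 .ofNat 0, .ofNat 0, .ofNat 0, .ofNat 1580377704157726792623419653592381915136, .ofNat 0, .ofNat 0⟩)
    (by decide +kernel)
theorem L01208 : Good (Phi V5.P V5.D 1 (-1)) ⟨2, 1, 2, 0, 2, 3, 2, 3, 4, 5⟩ :=
  out_sound (S := T5.ds_pm) T5.ok_pm (w := 30) (j := 2) (by decide +kernel)
theorem L01209 : Good (Phi V5.P V5.D 1 (-1)) ⟨3, 2, 2, 0, 2, 2, 2, 2, 4, 6⟩ :=
  leafYS_sound T5.ok_pm T5.Ypm.bz_eq (w := 202) (c := ⟨⟨.negSucc 1215, .negSucc 147, .ofNat 15, .negSucc 32, .negSucc 64, .ofNat 95⟩, ⟨.ofNat 25, .negSucc 4, .ofNat 273, .ofNat 3, .ofNat 7, .negSucc 16⟩, ⟨.ofNat 1207, .ofNat 166, .ofNat 216, .ofNat 346, .ofNat 175, .ofNat 276⟩, ⟨.negSucc 3373, .negSucc 56, .negSucc 35, .negSucc 120, .negSucc 178, .ofNat 248⟩, ⟨.negSucc 327, .negSucc 24, .negSucc 10, .negSucc 97, .negSucc 46, .negSucc 15⟩, .ofNat 381, .ofNat 52, .ofNat 0, .ofNat 52, .ofNat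 653, .ofNat 0, .ofNat 408, .negSucc 29, .negSucc 20, .ofNat 0, .ofNat 128, .negSucc 19, .ofNat 0, .ofNat 0, .ofNat 1784, .ofNat 1319, .ofNat 0, .ofNat 49782726568321422984660211929442156544, .ofNat 0, .ofNat 0, .ofNat 0, .ofNat 31177125803649424277891996531828075790336, .ofNat 0, .ofNat 0, .ofNat 0, .ofNat 9857233846985036545970342535238275563520, .ofNat 0, .ofNat 0, .ofNat 0, .ofNat 137401310206116360102050255481575103791104, .ofNat 0, .ofNat 0⟩)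
    (by decide +kernel)
theorem L01210 : Good (Phi V5.P V5.D 1 (-1)) ⟨3, 3, 2, 0, 2, 2, 2, 2, 4, 6⟩ :=
  leafYS_sound T5.ok_pm T5.Ypm.bz_eq (w := 202) (c := ⟨⟨.negSucc 1362, .negSucc 215, .ofNat 15, .negSucc 52, .negSucc 95, .ofNat 108⟩, ⟨.ofNat 24, .negSucc 73, .ofNat 273, .negSucc 2, .ofNat 7, .negSucc 14⟩, ⟨.ofNat 1320, .ofNat 195, .ofNat 243, .ofNat 368, .ofNat 278, .ofNat 240⟩, ⟨.negSucc 3428, .negSucc 58, .negSucc 41, .negSucc 125, .negSucc 234, .ofNat 244⟩, ⟨.negSucc 331, .negSucc 46, .negSucc 25, .negSucc 106, .negSucc 120, .ofNat 29⟩, .ofNat 588, .ofNat 258, .ofNat 0, .ofNat 258, .ofNat 2627, .ofNat 0, .ofNat 361, .negSucc 75, .negSucc 12, .ofNat 0, .ofNat 128, .negSucc 8, .ofNat 0, .ofNat 0, .ofNat 2258, .ofNat 2101, .ofNat 0, .ofNat 0, .ofNat 0, .ofNat 0, .ofNat 0, .ofNat 28782542254686164694588897398342396411904, .ofNat 0, .ofNat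 0, .ofNat 0, .ofNat 18014035352840416808230640702725954732032, .ofNat 0, .ofNat 0, .ofNat 0, .ofNat 220756421965745944305754530685783935811584, .ofNat 0, .ofNat 0⟩)
    (by decide +kernel)
theorem L01211 : Good (Phi V5.P V5.D 1 (-1)) ⟨2, 1, 2, 0, 3, 4, 2, 2, 4, 7⟩ :=
  leafYS_sound T5.ok_pm T5.Ypm.bz_eq (w := 212) (c := ⟨⟨.negSucc 1124, .negSucc 349, .ofNat 36, .negSucc 6, .negSucc 69, .ofNat 80⟩, ⟨.ofNat 42, .negSucc 70, .ofNat 261, .negSucc 22, .negSucc 16, .negSucc 16⟩, ⟨.ofNat 1155, .ofNat 300, .ofNat 542, .ofNat 467, .ofNat 349, .ofNat 390⟩, ⟨.negSucc 3133, .negSucc 148, .negSucc 17, .negSucc 18, .negSucc 195, .ofNat 214⟩, ⟨.negSucc 243, .negSucc 92, .negSucc 67, .negSucc 125, .negSucc 146, .negSucc 63⟩, .ofNat 183, .ofNat 10, .ofNat 0, .ofNat 10, .ofNat 236, .ofNat 0, .ofNat 271, .negSucc 14, .ofNat 18, .ofNat 0, .ofNat 128, .negSucc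 57, .ofNat 0, .ofNat 0, .ofNat 1052, .ofNat 1172, .ofNat 3355542369069976313348036582338836951990272, .ofNat 74289233001436042126716944374215594737664, .ofNat 0, .ofNat 0, .ofNat 34331601445743227422076872644366886215090176, .ofNat 4130704138467941469016646772169811397967872, .ofNat 0, .ofNat 0, .ofNat 23846305439240502078720625254818666801790976, .ofNat 2078061583291066829734813852040208528179200, .ofNat 0, .ofNat 0, .ofNat 334490254571520064040338843305871819875024896, .ofNat 21756984134757507923482287506496886012903424, .ofNat 0, .ofNat 0⟩)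
    (by decide +kernel)
theorem L01212 : Good (Phi V5.P V5.D 1 (-1)) ⟨2, 1, 2, 0, 3, 5, 2, 2, 4, 7⟩ :=
  out_sound (S := T5.ds_pm) T5.ok_pm (w := 32) (j := 2) (by decide +kernel)
theorem L01213 : Good (Phi V5.P V5.D 1 (-1)) ⟨2, 1, 2, 0, 2, 2, 2, 3, 3, 3⟩ :=
  leafYS_sound T5.ok_pm T5.Ypm.bz_eq (w := 194) (c := ⟨⟨.negSucc 1251, .negSucc 442, .ofNat 23, .negSucc 214, .negSucc 238, .ofNat 133⟩, ⟨.ofNat 41, .negSucc 82, .ofNat 293, .negSucc 59, .negSucc 16, .negSucc 56⟩, ⟨.ofNat 1294, .ofNat 442, .ofNat 325, .ofNat 814, .ofNat 162, .ofNat 212⟩, ⟨.negSucc 3505, .negSucc 296, .negSucc 48, .negSucc 367, .negSucc 529, .ofNat 384⟩, ⟨.negSucc 314, .negSucc 195, .negSucc 50, .negSucc 266, .negSucc 125, .negSucc 8⟩, .ofNat 183, .ofNat 8, .ofNat 0, .ofNat 8, .ofNat 236, .ofNat 0, .ofNat 267, .negSucc 11, .negSucc 21, .ofNat 0, .ofNat 128, .negSucc 25,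 .ofNat 0, .ofNat 0, .ofNat 442, .ofNat 2061, .ofNat 0, .ofNat 3883309667451952178738182975710560256, .ofNat 0, .ofNat 0, .ofNat 0, .ofNat 398118253260826654959483520060261138432, .ofNat 0, .ofNat 0, .ofNat 0, .ofNat 115569465778135146927968716244316585984, .ofNat 0, .ofNat 0, .ofNat 0, .ofNat 356730653261256655603974099739489599488, .ofNat 0, .ofNat 0⟩)
    (by decide +kernel)
theorem L01214 : Good (Phi V5.P V5.D 1 (-1)) ⟨2, 1, 2, 0, 2, 3, 1, 1, 3, 3⟩ :=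
  out_sound (S := T5.ds_pm) T5.ok_pm (w := 26) (j := 2) (by decide +kernel)
theorem L01215 : Good (Phi V5.P V5.D 1 (-1)) ⟨2, 1, 2, 0, 4, 8, 3, 4, 4, 8⟩ :=
  out_sound (S := T5.ds_pm) T5.ok_pm (w := 29) (j := 1) (by decide +kernel)
theorem L01216 : Good (Phi V5.P V5.D 1 (-1)) ⟨2, 1, 2, 0, 4, 8, 3, 5, 4, 8⟩ :=
  out_sound (S := T5.ds_pm) T5.ok_pm (w := 36) (j := 2) (by decide +kernel)
theorem L01217 : Good (Phi V5.P V5.D 1 (-1)) ⟨2, 1, 2, 0, 4, 8, 2, 2, 4, 9⟩ :=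
  out_sound (S := T5.ds_pm) T5.ok_pm (w := 28) (j := 1) (by decide +kernel)
theorem L01218 : Good (Phi V5.P V5.D 1 (-1)) ⟨2, 1, 2, 0, 4, 9, 2, 2, 3, 4⟩ :=
  out_sound (S := T5.ds_pm) T5.ok_pm (w := 32) (j := 2) (by decide +kernel)
theorem L01219 : Good (Phi V5.P V5.D 1 (-1)) ⟨2, 1, 2, 0, 3, 4, 2, 3, 3, 4⟩ :=
  out_sound (S := T5.ds_pm) T5.ok_pm (w := 30) (j := 2) (by decide +kernel)
theorem L01220 : Good (Phi V5.P V5.D 1 (-1)) ⟨2, 1, 2, 0, 3, 4, 1, 1, 3, 5⟩ :=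
  out_sound (S := T5.ds_pm) T5.ok_pm (w := 28) (j := 2) (by decide +kernel)
theorem L01221 : Good (Phi V5.P V5.D 1 (-1)) ⟨2, 1, 2, 0, 3, 5, 1, 1, 2, 2⟩ :=
  out_sound (S := T5.ds_pm) T5.ok_pm (w := 26) (j := 2) (by decide +kernel)
theorem L01222 : Good (Phi V5.P V5.D 1 (-1)) ⟨2, 1, 2, 0, 2, 2, 1, 1, 2, 3⟩ :=
  out_sound (S := T5.ds_pm) T5.ok_pm (w := 24) (j := 2) (by decide +kernel)
theorem L01223 : Good (Phi V5.P V5.D 1 (-1)) ⟨2, 1, 2, 0, 2, 3, 1, 1, 1, 1⟩ :=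
  out_sound (S := T5.ds_pm) T5.ok_pm (w := 22) (j := 2) (by decide +kernel)
theorem L01224 : Good (Phi V5.P V5.D 1 (-1)) ⟨2, 1, 2, 1, 1, 0, 4, 0, 4, 0⟩ :=
  leafYS_sound T5.ok_pm T5.Ypm.bz_eq (w := 193) (c := ⟨⟨.ofNat 593, .ofNat 206, .ofNat 90, .ofNat 723, .ofNat 12, .negSucc 1464⟩, ⟨.negSucc 144, .negSucc 3, .negSucc 157, .negSucc 261, .negSucc 26, .ofNat 493⟩, ⟨.negSucc 470, .negSucc 204, .negSucc 121, .negSucc 740, .negSucc 78, .ofNat 1156⟩, ⟨.ofNat 1497, .ofNat 313, .ofNat 130, .ofNat 1753, .ofNat 133, .negSucc 3773⟩, ⟨.negSucc 361, .ofNat 196, .ofNat 97, .negSucc 120, .ofNat 76, .negSucc 122⟩, .ofNat 386, .ofNat 122, .ofNat 0, .ofNat 122, .ofNat 655, .ofNat 0, .ofNat 285, .negSucc 68, .negSucc 226, .ofNat 0, .ofNat 128, .ofNat 66, .ofNat 0, .ofNat 0, .ofNat 544, .ofNat 10466, .ofNat 0, .ofNat 0, .ofNat 0, .ofNat 0, .ofNat 0, .ofNat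 0, .ofNat 0, .ofNat 0, .ofNat 0, .ofNat 0, .ofNat 0, .ofNat 0, .ofNat 0, .ofNat 0, .ofNat 0, .ofNat 0⟩)
    (by decide +kernel)
theorem L01225 : Good (Phi V5.P V5.D 1 (-1)) ⟨2, 1, 2, 1, 1, 0, 4, 0, 4, 1⟩ :=
  leafYS_sound T5.ok_pm T5.Ypm.bz_eq (w := 192) (c := ⟨⟨.negSucc 644, .negSucc 157, .ofNat 36, .ofNat 556, .negSucc 4, .negSucc 889⟩, ⟨.ofNat 75, .negSucc 37, .ofNat 174, .negSucc 184, .ofNat 100, .ofNat 290⟩, ⟨.ofNat 1023, .negSucc 11, .negSucc 113, .negSucc 1605, .ofNat 80, .ofNat 759⟩, ⟨.negSucc 1802, .ofNat 18, .ofNat 26, .ofNat 1216, .ofNat 54, .negSucc 2333⟩, ⟨.negSucc 148, .ofNat 145, .ofNat 37, .negSucc 481, .ofNat 9, .negSucc 10⟩, .ofNat 389, .ofNat 121, .ofNat 0, .ofNat 121, .ofNat 655, .ofNat 0, .ofNat 196, .negSucc 66, .negSucc 87, .ofNat 0, .ofNat 128, .ofNat 29, .ofNat 0, .ofNat 0, .ofNat 275, .ofNat 7707, .ofNat 0, .ofNat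 0, .ofNat 0, .ofNat 0, .ofNat 0, .ofNat 0, .ofNat 0, .ofNat 0, .ofNat 0, .ofNat 0, .ofNat 0, .ofNat 0, .ofNat 0, .ofNat 0, .ofNat 0, .ofNat 0⟩)
    (by decide +kernel)
theorem L01226 : Good (Phi V5.P V5.D 1 (-1)) ⟨2, 1, 2, 1, 1, 0, 4, 0, 3, 1⟩ :=
  leafYS_sound T5.ok_pm T5.Ypm.bz_eq (w := 190) (c := ⟨⟨.negSucc 1576, .negSucc 301, .ofNat 27, .ofNat 386, .ofNat 266, .negSucc 1551⟩, ⟨.ofNat 401, .negSucc 53, .ofNat 251, .negSucc 151, .negSucc 27, .ofNat 573⟩, ⟨.ofNat 1860, .ofNat 136, .negSucc 51, .negSucc 1621, .negSucc 104, .ofNat 684⟩, ⟨.negSucc 4033, .ofNat 5, .ofNat 2, .ofNat 751, .ofNat 433, .negSucc 3680⟩, ⟨.negSucc 210, .ofNat 138, .ofNat 28, .negSucc 478, .ofNat 72, .ofNat 451⟩, .ofNat 388, .ofNat 126, .ofNat 0, .ofNat 126, .ofNat 658, .ofNat 0, .ofNat 253, .negSucc 70, .negSucc 146, .ofNat 0, .ofNat 128, .ofNat 55, .ofNat 0, .ofNat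 0, .ofNat 534, .ofNat 24127, .ofNat 144316335996672359455397032099563175936, .ofNat 0, .ofNat 0, .ofNat 0, .ofNat 280077467619627198537923799776812335104, .ofNat 0, .ofNat 1302307729964632299832720234643456, .ofNat 0, .ofNat 128210946327247571488751600079025995776, .ofNat 0, .ofNat 0, .ofNat 0, .ofNat 193363027885291990236470398080950206464, .ofNat 0, .ofNat 0, .ofNat 0⟩)
    (by decide +kernel)
theorem L01227 : Good (Phi V5.P V5.D 1 (-1)) ⟨2, 1, 2, 1, 1, 0, 4, 0, 2, 1⟩ :=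
  out_sound (S := T5.ds_pm) T5.ok_pm (w := 20) (j := 1) (by decide +kernel)
theorem L01228 : Good (Phi V5.P V5.D 1 (-1)) ⟨2, 1, 2, 1, 1, 0, 4, 0, 1, 1⟩ :=
  out_sound (S := T5.ds_pm) T5.ok_pm (w := 18) (j := 1) (by decide +kernel)
theorem L01229 : Good (Phi V5.P V5.D 1 (-1)) ⟨2, 1, 2, 1, 1, 0, 4, 1, 3, 0⟩ :=
  leafYS_sound T5.ok_pm T5.Ypm.bz_eq (w := 187) (c := ⟨⟨.ofNat 546, .ofNat 257, .ofNat 69, .ofNat 618, .ofNat 243, .negSucc 2409⟩, ⟨.negSucc 255, .ofNat 7, .negSucc 71, .negSucc 167, .negSucc 3, .ofNat 808⟩, ⟨.negSucc 587, .negSucc 202, .negSucc 43, .negSucc 721, .ofNat 10, .ofNat 1967⟩, ⟨.ofNat 1613, .ofNat 285, .ofNat 107, .ofNat 1447, .ofNat 445, .negSucc 6277⟩, ⟨.negSucc 289, .ofNat 100, .ofNat 129, .negSucc 78, .ofNat 148, .negSucc 188⟩, .ofNat 390, .ofNat 122, .ofNat 0, .ofNat 122, .ofNat 653, .ofNat 0, .ofNat 329, .negSucc 67,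 .negSucc 180, .ofNat 0, .ofNat 128, .ofNat 57, .ofNat 0, .ofNat 0, .ofNat 475, .ofNat 2783, .ofNat 0, .ofNat 0, .ofNat 0, .ofNat 0, .ofNat 0, .ofNat 0, .ofNat 0, .ofNat 0, .ofNat 0, .ofNat 0, .ofNat 0, .ofNat 0, .ofNat 0, .ofNat 0, .ofNat 0, .ofNat 0⟩)
    (by decide +kernel)
theorem L01230 : Good (Phi V5.P V5.D 1 (-1)) ⟨2, 1, 2, 1, 1, 0, 4, 1, 3, 1⟩ :=
  leafYS_sound T5.ok_pm T5.Ypm.bz_eq (w := 187) (c := ⟨⟨.negSucc 1258, .negSucc 311, .ofNat 35, .ofNat 235, .ofNat 7, .negSucc 593⟩, ⟨.ofNat 347, .negSucc 74, .ofNat 292, .negSucc 109, .negSucc 9, .ofNat 230⟩, ⟨.ofNat 1638, .ofNat 180, .negSucc 65, .negSucc 1472, .ofNat 59, .ofNat 806⟩, ⟨.negSucc 3538, .ofNat 43, .ofNat 36, .ofNat 433, .ofNat 46, .negSucc 1471⟩, ⟨.negSucc 163, .ofNat 106, .ofNat 48, .negSucc 416, .ofNat 44, .ofNat 76⟩, .ofNat 388, .ofNat 124, .ofNat 0, .ofNat 124, .ofNat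 657, .ofNat 0, .ofNat 182, .negSucc 69, .negSucc 95, .ofNat 0, .ofNat 128, .ofNat 38, .ofNat 0, .ofNat 0, .ofNat 385, .ofNat 4080, .ofNat 4337252688448383544049535927900438528, .ofNat 0, .ofNat 0, .ofNat 0, .ofNat 13575378369062209191452749113285672960, .ofNat 0, .ofNat 0, .ofNat 0, .ofNat 0, .ofNat 0, .ofNat 0, .ofNat 0, .ofNat 53205061626662169007917960154226622464, .ofNat 0, .ofNat 0, .ofNat 0⟩)
    (by decide +kernel)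
theorem L01231 : Good (Phi V5.P V5.D 1 (-1)) ⟨2, 1, 2, 1, 1, 0, 4, 1, 2, 1⟩ :=
  out_sound (S := T5.ds_pm) T5.ok_pm (w := 20) (j := 1) (by decide +kernel)
theorem L01232 : Good (Phi V5.P V5.D 1 (-1)) ⟨2, 1, 2, 1, 1, 0, 4, 1, 1, 1⟩ :=
  out_sound (S := T5.ds_pm) T5.ok_pm (w := 18) (j := 1) (by decide +kernel)
theorem L01233 : Good (Phi V5.P V5.D 1 (-1)) ⟨2, 1, 2, 1, 1, 0, 3, 1, 3, 0⟩ :=
  leafYS_sound T5.ok_pm T5.Ypm.bz_eq (w := 182) (c := ⟨⟨.ofNat 768, .ofNat 110, .negSucc 1, .ofNat 721, .negSucc 70, .negSucc 2365⟩, ⟨.negSucc 165, .ofNat 63, .negSucc 96, .negSucc 206, .negSucc 113, .ofNat 783⟩, ⟨.negSucc 695, .ofNat 7, .negSucc 40, .negSucc 720, .negSucc 88, .ofNat 2144⟩, ⟨.ofNat 1918, .ofNat 171, .ofNat 67, .ofNat 1606, .negSucc 113, .negSucc 6120⟩, ⟨.negSucc 61, .ofNat 248, .ofNat 116, .negSucc 69, .negSucc 114, .negSucc 235⟩, .ofNat 389,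 .ofNat 125, .ofNat 0, .ofNat 125, .ofNat 655, .ofNat 0, .ofNat 351, .negSucc 68, .negSucc 179, .ofNat 0, .ofNat 128, .ofNat 56, .ofNat 0, .ofNat 0, .ofNat 425, .ofNat 1156, .ofNat 0, .ofNat 0, .ofNat 0, .ofNat 0, .ofNat 0, .ofNat 0, .ofNat 0, .ofNat 0, .ofNat 0, .ofNat 0, .ofNat 0, .ofNat 0, .ofNat 0, .ofNat 0, .ofNat 20742408439751279829115803271168, .ofNat 0⟩)
    (by decide +kernel)
theorem L01234 : Good (Phi V5.P V5.D 1 (-1)) ⟨2, 1, 2, 1, 1, 0, 3, 1, 3, 1⟩ :=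
  leafYS_sound T5.ok_pm T5.Ypm.bz_eq (w := 183) (c := ⟨⟨.negSucc 1266, .negSucc 335, .ofNat 22, .ofNat 116, .ofNat 45, .negSucc 197⟩, ⟨.ofNat 375, .negSucc 85, .ofNat 303, .negSucc 65, .negSucc 26, .ofNat 59⟩, ⟨.ofNat 1315, .ofNat 257, .negSucc 20, .negSucc 901, .negSucc 30, .ofNat 575⟩, ⟨.negSucc 3551, .ofNat 43, .ofNat 14, .ofNat 145, .ofNat 119, .negSucc 500⟩, ⟨.negSucc 14, .ofNat 74, .negSucc 4, .negSucc 387, .ofNat 21, .negSucc 40⟩, .ofNat 604, .ofNat 366, .ofNat 0, .ofNat 366, .ofNat 1416, .ofNat 0, .ofNat 242, .negSucc 109, .negSucc 101, .ofNat 0, .ofNat 128, .ofNat 37, .ofNat 0, .ofNat 0, .ofNat 572, .ofNat 3124, .ofNat 0, .ofNat 0, .ofNat 0, .ofNat 0, .ofNat 0, .ofNat 0, .ofNat 0, .ofNat 0, .ofNat 0, .ofNat 0, .ofNat 0, .ofNat 0, .ofNat 0, .ofNat 0, .ofNat 0, .ofNat 0⟩)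
    (by decide +kernel)
theorem L01235 : Good (Phi V5.P V5.D 1 (-1)) ⟨2, 1, 2, 1, 1, 0, 3, 1, 2, 1⟩ :=
  leafYS_sound T5.ok_pm T5.Ypm.bz_eq (w := 182) (c := ⟨⟨.negSucc 1359, .negSucc 359, .ofNat 23, .ofNat 20, .ofNat 13, .ofNat 144⟩, ⟨.ofNat 373, .negSucc 83, .ofNat 316, .negSucc 27, .ofNat 6, .negSucc 58⟩, ⟨.ofNat 1709, .ofNat 215, .negSucc 14, .negSucc 759, .ofNat 32, .ofNat 486⟩, ⟨.negSucc 3808, .negSucc 23, .negSucc 4, .negSucc 55, .ofNat 58, .ofNat 380⟩, ⟨.negSucc 138, .ofNat 84, .ofNat 11, .negSucc 327, .ofNat 73, .ofNat 18⟩, .ofNat 384, .ofNat 121, .ofNat 0, .ofNat 121, .ofNat 657, .ofNat 0, .ofNat 239, .negSucc 64, .negSucc 89, .ofNat 0, .ofNat 128, .ofNat 35, .ofNat 0, .ofNat 0, .ofNat 593, .ofNat 24501, .ofNat 341603297031318624419551402289790976, .ofNat 0, .ofNat 0, .ofNat 0, .ofNat 2458548289768613140258400455907868672, .ofNat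 0, .ofNat 2628683651524507766418632081408, .ofNat 0, .ofNat 442525137923289904070108381938974720, .ofNat 0, .ofNat 0, .ofNat 0, .ofNat 1686561514066633862724198896987275264, .ofNat 0, .ofNat 0, .ofNat 0⟩)
    (by decide +kernel)
theorem L01236 : Good (Phi V5.P V5.D 1 (-1)) ⟨2, 1, 2, 1, 1, 0, 3, 1, 1, 1⟩ :=
  out_sound (S := T5.ds_pm) T5.ok_pm (w := 17) (j := 1) (by decide +kernel)
theorem L01237 : Good (Phi V5.P V5.D 1 (-1)) ⟨2, 1, 2, 1, 2, 0, 2, 1, 3, 0⟩ :=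
  leafYS_sound T5.ok_pm T5.Ypm.bz_eq (w := 191) (c := ⟨⟨.ofNat 527, .negSucc 306, .ofNat 85, .ofNat 184, .negSucc 84, .negSucc 1898⟩, ⟨.negSucc 201, .negSucc 18, .ofNat 79, .negSucc 95, .ofNat 79, .ofNat 685⟩, ⟨.negSucc 599, .ofNat 312, .negSucc 113, .negSucc 266, .ofNat 65, .ofNat 1996⟩, ⟨.ofNat 1340, .negSucc 469, .ofNat 157, .ofNat 473, .negSucc 209, .negSucc 5090⟩, ⟨.negSucc 77, .ofNat 13, .ofNat 107, .negSucc 226, .ofNat 126, .negSucc 52⟩, .ofNat 391, .ofNat 128, .ofNat 0, .ofNat 128, .ofNat 657, .ofNat 0, .ofNat 241, .negSucc 62, .negSucc 213, .ofNat 0, .ofNat 128, .ofNat 58, .ofNat 0, .ofNat 0, .ofNat 466, .ofNat 486, .ofNat 0, .ofNat 0, .ofNat 0, .ofNat 0, .ofNat 0, .ofNat 0, .ofNat 0, .ofNat 0, .ofNat 0, .ofNat 0, .ofNat 0, .ofNat 0, .ofNat 0, .ofNat 0, .ofNat 0, .ofNat 0⟩)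
    (by decide +kernel)
theorem L01238 : Good (Phi V5.P V5.D 1 (-1)) ⟨2, 1, 2, 1, 2, 0, 2, 1, 3, 1⟩ :=
  leafYS_sound T5.ok_pm T5.Ypm.bz_eq (w := 193) (c := ⟨⟨.negSucc 1285, .negSucc 376, .negSucc 9, .ofNat 74, .ofNat 88, .negSucc 77⟩, ⟨.ofNat 364, .negSucc 68, .ofNat 293, .negSucc 26, .negSucc 32, .ofNat 36⟩, ⟨.ofNat 1332, .ofNat 351, .negSucc 10, .negSucc 215, .negSucc 160, .ofNat 250⟩, ⟨.negSucc 3581, .negSucc 109, .negSucc 16, .ofNat 114, .ofNat 229, .negSucc 221⟩, ⟨.negSucc 15, .ofNat 30, .ofNat 14, .negSucc 181, .ofNat 6, .negSucc 6⟩, .ofNat 607, .ofNat 380, .ofNat 0, .ofNat 380, .ofNat 1427, .ofNat 0, .ofNat 246, .negSucc 109, .negSucc 100, .ofNat 0, .ofNat 128, .ofNat 34, .ofNat 0, .ofNat 0, .ofNat 495, .ofNat 3569, .ofNat 0, .ofNat 0, .ofNat 0, .ofNat 0, .ofNat 0, .ofNat 0, .ofNat 0, .ofNat 0, .ofNat 0, .ofNat 0, .ofNat 0, .ofNat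 0, .ofNat 0, .ofNat 0, .ofNat 41271803857217098646280156290744320, .ofNat 0⟩)
    (by decide +kernel)
theorem L01239 : Good (Phi V5.P V5.D 1 (-1)) ⟨2, 1, 2, 1, 2, 0, 2, 1, 4, 4⟩ :=
  leafYS_sound T5.ok_pm T5.Ypm.bz_eq (w := 201) (c := ⟨⟨.negSucc 1335, .negSucc 341, .ofNat 0, .ofNat 2, .ofNat 90, .ofNat 65⟩, ⟨.ofNat 404, .negSucc 85, .ofNat 288, .negSucc 25, .negSucc 39, .negSucc 19⟩, ⟨.ofNat 1493, .ofNat 318, .ofNat 6, .negSucc 33, .negSucc 214, .ofNat 17⟩, ⟨.negSucc 3713, .negSucc 70, .negSucc 7, .negSucc 36, .ofNat 227, .ofNat 170⟩, ⟨.negSucc 10, .ofNat 15, .negSucc 0, .negSucc 184, .ofNat 3, .ofNat 4⟩, .ofNat 184, .ofNat 22, .ofNat 0, .ofNat 22, .ofNat 232, .ofNat 0, .ofNat 264, .negSucc 23, .negSucc 182, .ofNat 0, .ofNat 128, .ofNat 42, .ofNat 0, .ofNat 0, .ofNat 791, .ofNat 13846, .ofNat 0, .ofNat 0, .ofNat 0, .ofNat 0, .ofNat 0, .ofNat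 0, .ofNat 0, .ofNat 0, .ofNat 0, .ofNat 0, .ofNat 0, .ofNat 0, .ofNat 0, .ofNat 0, .ofNat 0, .ofNat 0⟩)
    (by decide +kernel)
theorem L01240 : Good (Phi V5.P V5.D 1 (-1)) ⟨2, 1, 2, 1, 2, 0, 2, 1, 4, 5⟩ :=
  leafYS_sound T5.ok_pm T5.Ypm.bz_eq (w := 201) (c := ⟨⟨.negSucc 1272, .negSucc 316, .ofNat 9, .ofNat 2, .ofNat 83, .ofNat 57⟩, ⟨.ofNat 386, .negSucc 73, .ofNat 277, .negSucc 5, .negSucc 43, .negSucc 35⟩, ⟨.ofNat 1491, .ofNat 298, .ofNat 9, .ofNat 35, .negSucc 243, .negSucc 0⟩, ⟨.negSucc 3525, .negSucc 67, .negSucc 2, .negSucc 70, .ofNat 225, .ofNat 171⟩, ⟨.negSucc 3, .ofNat 5, .ofNat 1, .negSucc 180, .ofNat 1, .ofNat 3⟩, .ofNat 185, .ofNat 23, .ofNat 0, .ofNat 23, .ofNat 232, .ofNat 0, .ofNat 218, .negSucc 24, .negSucc 138, .ofNat 0, .ofNat 128, .ofNat 32, .ofNat 0, .ofNat 0, .ofNat 776, .ofNat 20190, .ofNat 4630535812861437746082533475433375072256,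 .ofNat 0, .ofNat 0, .ofNat 0, .ofNat 14744774246501961994671597646970984857600, .ofNat 0, .ofNat 0, .ofNat 0, .ofNat 0, .ofNat 0, .ofNat 0, .ofNat 0, .ofNat 0, .ofNat 0, .ofNat 0, .ofNat 0⟩)
    (by decide +kernel)
theorem L01241 : Good (Phi V5.P V5.D 1 (-1)) ⟨2, 1, 2, 1, 2, 0, 2, 1, 3, 3⟩ :=
  out_sound (S := T5.ds_pm) T5.ok_pm (w := 22) (j := 1) (by decide +kernel)
theorem L01242 : Good (Phi V5.P V5.D 1 (-1)) ⟨2, 1, 2, 1, 2, 0, 2, 1, 1, 1⟩ :=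
  out_sound (S := T5.ds_pm) T5.ok_pm (w := 18) (j := 1) (by decide +kernel)
theorem L01243 : Good (Phi V5.P V5.D 1 (-1)) ⟨2, 1, 2, 1, 3, 2, 3, 2, 3, 0⟩ :=
  leafYS_sound T5.ok_pm T5.Ypm.bz_eq (w := 211) (c := ⟨⟨.ofNat 925, .ofNat 77, .ofNat 101, .ofNat 156, .negSucc 79, .negSucc 2266⟩, ⟨.negSucc 374, .negSucc 24, .ofNat 20, .ofNat 47, .ofNat 100, .ofNat 712⟩, ⟨.negSucc 999, .negSucc 35, .negSucc 147, .negSucc 171, .ofNat 118, .ofNat 2027⟩, ⟨.ofNat 2292, .ofNat 268, .ofNat 198, .ofNat 341, .negSucc 196, .negSucc 5897⟩, ⟨.negSucc 150, .ofNat 56, .negSucc 18, .negSucc 144, .ofNat 97, .negSucc 72⟩, .ofNat 389, .ofNat 119, .ofNat 0, .ofNat 119, .ofNat 654, .ofNat 0, .ofNat 392, .negSucc 66, .negSucc 246, .ofNat 0, .ofNat 128, .ofNat 78, .ofNat 0, .ofNat 0, .ofNat 542, .ofNat 1500, .ofNat 0, .ofNat 0, .ofNat 0, .ofNat 0, .ofNat 0, .ofNat 0, .ofNat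 0, .ofNat 0, .ofNat 0, .ofNat 0, .ofNat 0, .ofNat 0, .ofNat 0, .ofNat 0, .ofNat 0, .ofNat 0⟩)
    (by decide +kernel)
theorem L01244 : Good (Phi V5.P V5.D 1 (-1)) ⟨2, 1, 2, 1, 3, 2, 3, 2, 3, 1⟩ :=
  leafYS_sound T5.ok_pm T5.Ypm.bz_eq (w := 211) (c := ⟨⟨.negSucc 1166, .negSucc 382, .ofNat 20, .ofNat 21, .ofNat 19, .negSucc 148⟩, ⟨.ofNat 311, .negSucc 76, .ofNat 291, .negSucc 10, .negSucc 4, .ofNat 66⟩, ⟨.ofNat 981, .ofNat 308, .negSucc 29, .negSucc 220, .ofNat 7, .ofNat 395⟩, ⟨.negSucc 3345, .negSucc 92, .ofNat 23, .ofNat 9, .ofNat 64, .negSucc 412⟩, ⟨.negSucc 214, .ofNat 45, .ofNat 27, .negSucc 114, .ofNat 38, .negSucc 29⟩, .ofNat 611, .ofNat 373, .ofNat 0, .ofNat 373, .ofNat 1418, .ofNat 0, .ofNat 223, .negSucc 112, .negSucc 55, .ofNat 0, .ofNat 128, .ofNat 22, .ofNat 0, .ofNat 0, .ofNat 271, .ofNat 2377, .ofNat 0, .ofNat 0, .ofNat 0, .ofNat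 0, .ofNat 0, .ofNat 0, .ofNat 0, .ofNat 0, .ofNat 0, .ofNat 0, .ofNat 0, .ofNat 0, .ofNat 0, .ofNat 0, .ofNat 6217651850309656984638487091888949035008, .ofNat 0⟩)
    (by decide +kernel)
theorem L01245 : Good (Phi V5.P V5.D 1 (-1)) ⟨2, 1, 2, 1, 3, 2, 3, 2, 3, 2⟩ :=
  leafYS_sound T5.ok_pm T5.Ypm.bz_eq (w := 214) (c := ⟨⟨.negSucc 1307, .negSucc 348, .ofNat 26, .negSucc 12, .ofNat 21, .ofNat 126⟩, ⟨.ofNat 368, .negSucc 84, .ofNat 299, .negSucc 6, .negSucc 13, .negSucc 29⟩, ⟨.ofNat 1333, .ofNat 265, .negSucc 8, .negSucc 122, .negSucc 4, .ofNat 160⟩, ⟨.negSucc 3699, .negSucc 51, .ofNat 1, .negSucc 55, .ofNat 71, .ofNat 308⟩, ⟨.negSucc 220, .ofNat 39, .ofNat 2, .negSucc 91, .ofNat 10, .ofNat 15⟩, .ofNat 185, .ofNat 21, .ofNat 0, .ofNat 21, .ofNat 232, .ofNat 0, .ofNat 222, .negSucc 25, .negSucc 102, .ofNat 0, .ofNat 128, .ofNat 41, .ofNat 0,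 .ofNat 0, .ofNat 448, .ofNat 17352, .ofNat 24340089613943478223881672186756831448662016, .ofNat 0, .ofNat 0, .ofNat 0, .ofNat 58782119934900890477338072412675577957318656, .ofNat 0, .ofNat 0, .ofNat 0, .ofNat 0, .ofNat 0, .ofNat 0, .ofNat 0, .ofNat 50838571535127698488833230152662684054585344, .ofNat 0, .ofNat 0, .ofNat 0⟩)
    (by decide +kernel)
theorem L01246 : Good (Phi V5.P V5.D 1 (-1)) ⟨2, 1, 2, 1, 3, 2, 3, 2, 3, 3⟩ :=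
  out_sound (S := T5.ds_pm) T5.ok_pm (w := 25) (j := 1) (by decide +kernel)
theorem L01247 : Good (Phi V5.P V5.D 1 (-1)) ⟨2, 1, 2, 1, 3, 2, 3, 2, 1, 1⟩ :=
  out_sound (S := T5.ds_pm) T5.ok_pm (w := 21) (j := 1) (by decide +kernel)
theorem L01248 : Good (Phi V5.P V5.D 1 (-1)) ⟨2, 1, 2, 1, 3, 3, 4, 4, 3, 0⟩ :=
  leafYS_sound T5.ok_pm T5.Ypm.bz_eq (w := 215) (c := ⟨⟨.ofNat 1200, .ofNat 8, .negSucc 0, .ofNat 118, .negSucc 10, .negSucc 2336⟩, ⟨.negSucc 396, .ofNat 64, .negSucc 73, .negSucc 29, .ofNat 34, .ofNat 784⟩, ⟨.negSucc 1144, .negSucc 18, .negSucc 72, .negSucc 148, .ofNat 54, .ofNat 1770⟩, ⟨.ofNat 2922, .ofNat 69, .ofNat 122, .ofNat 356, .ofNat 26, .negSucc 6224⟩, ⟨.negSucc 44, .ofNat 40, .ofNat 105, .ofNat 206, .ofNat 10, .negSucc 496⟩, .ofNat 392, .ofNat 128, .ofNat 0, .ofNat 128, .ofNat 654, .ofNat 0, .ofNat 304, .negSucc 79, .negSucc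 164, .ofNat 0, .ofNat 128, .ofNat 61, .ofNat 0, .ofNat 0, .ofNat 364, .ofNat 1736, .ofNat 0, .ofNat 0, .ofNat 0, .ofNat 0, .ofNat 0, .ofNat 0, .ofNat 0, .ofNat 0, .ofNat 0, .ofNat 0, .ofNat 0, .ofNat 0, .ofNat 0, .ofNat 0, .ofNat 0, .ofNat 0⟩)
    (by decide +kernel)
theorem L01249 : Good (Phi V5.P V5.D 1 (-1)) ⟨2, 1, 2, 1, 3, 3, 4, 4, 3, 1⟩ :=
  leafYS_sound T5.ok_pm T5.Ypm.bz_eq (w := 215) (c := ⟨⟨.negSucc 1095, .negSucc 375, .ofNat 30, .negSucc 43, .ofNat 0, .negSucc 207⟩, ⟨.ofNat 281, .negSucc 75, .ofNat 308, .negSucc 0, .negSucc 8, .ofNat 82⟩, ⟨.ofNat 663, .ofNat 216, .negSucc 30, .negSucc 216, .ofNat 52, .ofNat 541⟩, ⟨.negSucc 3208, .negSucc 41, .ofNat 6, .negSucc 98, .ofNat 30, .negSucc 576⟩, ⟨.negSucc 371, .ofNat 118, .ofNat 23, .negSucc 32, .ofNat 30, .negSucc 16⟩, .ofNat 389, .ofNat 127, .ofNat 0, .ofNat 127, .ofNat 655, .ofNat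 0, .ofNat 390, .negSucc 74, .negSucc 99, .ofNat 0, .ofNat 128, .ofNat 44, .ofNat 0, .ofNat 0, .ofNat 425, .ofNat 4054, .ofNat 0, .ofNat 0, .ofNat 0, .ofNat 0, .ofNat 0, .ofNat 0, .ofNat 0, .ofNat 0, .ofNat 0, .ofNat 0, .ofNat 0, .ofNat 0, .ofNat 0, .ofNat 0, .ofNat 0, .ofNat 0⟩)
    (by decide +kernel)
theorem L01250 : Good (Phi V5.P V5.D 1 (-1)) ⟨2, 1, 2, 1, 3, 3, 4, 4, 3, 2⟩ :=
  leafYS_sound T5.ok_pm T5.Ypm.bz_eq (w := 216) (c := ⟨⟨.negSucc 1314, .negSucc 361, .ofNat 22, .negSucc 22, .ofNat 10, .ofNat 122⟩, ⟨.ofNat 356, .negSucc 79, .ofNat 301, .ofNat 9, .negSucc 10, .negSucc 29⟩, ⟨.ofNat 1154, .ofNat 205, .negSucc 7, .negSucc 164, .ofNat 44, .ofNat 310⟩, ⟨.negSucc 3745, .negSucc 40, .negSucc 9, .negSucc 87, .ofNat 27, .ofNat 309⟩, ⟨.negSucc 330, .ofNat 68, .ofNat 14, .negSucc 51, .negSucc 1, .ofNat 21⟩, .ofNat 185, .ofNat 23, .ofNat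 0, .ofNat 23, .ofNat 232, .ofNat 0, .ofNat 170, .negSucc 32, .negSucc 51, .ofNat 0, .ofNat 128, .ofNat 26, .ofNat 0, .ofNat 0, .ofNat 220, .ofNat 5850, .ofNat 61947410367931582303476185684255963237842944, .ofNat 0, .ofNat 0, .ofNat 0, .ofNat 0, .ofNat 0, .ofNat 0, .ofNat 0, .ofNat 0, .ofNat 0, .ofNat 0, .ofNat 0, .ofNat 152402771464423361592366812917590271633391616, .ofNat 0, .ofNat 0, .ofNat 0⟩)
    (by decide +kernel)
theorem L01251 : Good (Phi V5.P V5.D 1 (-1)) ⟨2, 1, 2, 1, 3, 3, 4, 4, 3, 3⟩ :=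
  out_sound (S := T5.ds_pm) T5.ok_pm (w := 26) (j := 1) (by decide +kernel)
theorem L01252 : Good (Phi V5.P V5.D 1 (-1)) ⟨2, 1, 2, 1, 3, 3, 4, 4, 1, 1⟩ :=
  out_sound (S := T5.ds_pm) T5.ok_pm (w := 22) (j := 1) (by decide +kernel)
theorem L01253 : Good (Phi V5.P V5.D 1 (-1)) ⟨2, 1, 2, 1, 3, 3, 4, 5, 3, 0⟩ :=
  leafYS_sound T5.ok_pm T5.Ypm.bz_eq (w := 214) (c := ⟨⟨.ofNat 1141, .ofNat 135, .ofNat 35, .ofNat 74, .negSucc 82, .negSucc 2342⟩, ⟨.negSucc 363, .ofNat 48, .negSucc 87, .negSucc 12, .ofNat 28, .ofNat 767⟩, ⟨.negSucc 1076, .negSucc 98, .negSucc 102, .negSucc 124, .ofNat 102, .ofNat 1816⟩, ⟨.ofNat 2920, .ofNat 169, .ofNat 211, .ofNat 283, .negSucc 213, .negSucc 6202⟩, ⟨.ofNat 82, .negSucc 80, .ofNat 89, .ofNat 166, .ofNat 42, .negSucc 504⟩, .ofNat 387, .ofNat 126, .ofNat 0, .ofNat 126, .ofNat 657, .ofNat 0, .ofNat 337, .negSucc 77, .negSucc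 150, .ofNat 0, .ofNat 128, .ofNat 53, .ofNat 0, .ofNat 0, .ofNat 318, .ofNat 1280, .ofNat 0, .ofNat 0, .ofNat 0, .ofNat 0, .ofNat 0, .ofNat 0, .ofNat 0, .ofNat 0, .ofNat 0, .ofNat 0, .ofNat 0, .ofNat 0, .ofNat 0, .ofNat 0, .ofNat 0, .ofNat 0⟩)
    (by decide +kernel)
theorem L01254 : Good (Phi V5.P V5.D 1 (-1)) ⟨2, 1, 2, 1, 3, 3, 4, 5, 3, 1⟩ :=
  leafYS_sound T5.ok_pm T5.Ypm.bz_eq (w := 215) (c := ⟨⟨.negSucc 1099, .negSucc 374, .ofNat 31, .negSucc 18, .negSucc 2, .negSucc 217⟩, ⟨.ofNat 279, .negSucc 65, .ofNat 303, .ofNat 2, .ofNat 0, .ofNat 68⟩, ⟨.ofNat 698, .ofNat 250, .negSucc 31, .negSucc 199, .ofNat 55, .ofNat 524⟩, ⟨.negSucc 3213, .negSucc 60, .ofNat 12, .negSucc 45, .negSucc 0, .negSucc 553⟩, ⟨.negSucc 337, .ofNat 105, .ofNat 33, .negSucc 23, .ofNat 10, .negSucc 34⟩, .ofNat 617, .ofNat 383, .ofNat 0, .ofNat 383, .ofNat 1414, .ofNat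 0, .ofNat 273, .negSucc 119, .negSucc 82, .ofNat 0, .ofNat 128, .ofNat 34, .ofNat 0, .ofNat 0, .ofNat 385, .ofNat 2866, .ofNat 0, .ofNat 0, .ofNat 0, .ofNat 0, .ofNat 0, .ofNat 0, .ofNat 0, .ofNat 0, .ofNat 0, .ofNat 0, .ofNat 0, .ofNat 0, .ofNat 0, .ofNat 0, .ofNat 0, .ofNat 0⟩)
    (by decide +kernel)
theorem L01255 : Good (Phi V5.P V5.D 1 (-1)) ⟨2, 1, 2, 1, 3, 3, 4, 5, 3, 2⟩ :=
  leafYS_sound T5.ok_pm T5.Ypm.bz_eq (w := 217) (c := ⟨⟨.negSucc 1302, .negSucc 359, .ofNat 19, .negSucc 32, .ofNat 5, .ofNat 140⟩, ⟨.ofNat 355, .negSucc 81, .ofNat 296, .ofNat 5, .negSucc 8, .negSucc 29⟩, ⟨.ofNat 1149, .ofNat 244, .negSucc 1, .negSucc 115, .ofNat 45, .ofNat 268⟩, ⟨.negSucc 3707, .negSucc 60, .negSucc 12, .negSucc 95, .ofNat 13, .ofNat 347⟩, ⟨.negSucc 311, .ofNat 54, .ofNat 9, .negSucc 57, .negSucc 2, .ofNat 7⟩, .ofNat 185, .ofNat 22, .ofNat 0,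 .ofNat 22, .ofNat 232, .ofNat 0, .ofNat 255, .negSucc 30, .negSucc 66, .ofNat 0, .ofNat 128, .ofNat 30, .ofNat 0, .ofNat 0, .ofNat 299, .ofNat 7578, .ofNat 67166651274162682885694945964941340626124800, .ofNat 0, .ofNat 0, .ofNat 0, .ofNat 0, .ofNat 0, .ofNat 0, .ofNat 0, .ofNat 0, .ofNat 0, .ofNat 0, .ofNat 0, .ofNat 164455660026692991798501081437594015944933376, .ofNat 0, .ofNat 0, .ofNat 0⟩)
    (by decide +kernel)
theorem L01256 : Good (Phi V5.P V5.D 1 (-1)) ⟨2, 1, 2, 1, 3, 3, 4, 5, 3, 3⟩ :=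
  out_sound (S := T5.ds_pm) T5.ok_pm (w := 26) (j := 1) (by decide +kernel)
theorem L01257 : Good (Phi V5.P V5.D 1 (-1)) ⟨2, 1, 2, 1, 3, 3, 4, 5, 1, 1⟩ :=
  out_sound (S := T5.ds_pm) T5.ok_pm (w := 22) (j := 1) (by decide +kernel)
theorem L01258 : Good (Phi V5.P V5.D 1 (-1)) ⟨2, 1, 2, 1, 2, 1, 3, 3, 3, 0⟩ :=
  leafYS_sound T5.ok_pm T5.Ypm.bz_eq (w := 196) (c := ⟨⟨.ofNat 748, .negSucc 54, .ofNat 62, .ofNat 298, .negSucc 86, .negSucc 2020⟩, ⟨.negSucc 330, .ofNat 86, .ofNat 13, .negSucc 179, .ofNat 83, .ofNat 728⟩, ⟨.negSucc 775, .ofNat 46, .negSucc 48, .negSucc 383, .ofNat 110, .ofNat 1770⟩, ⟨.ofNat 1986, .negSucc 121, .ofNat 251, .ofNat 834, .negSucc 319, .negSucc 5498⟩, ⟨.ofNat 21, .negSucc 91, .ofNat 148, .ofNat 153, .negSucc 104, .negSucc 376⟩, .ofNat 390, .ofNat 125, .ofNat 0, .ofNat 125, .ofNat 655, .ofNat 0, .ofNat 270, .negSucc 69,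 .negSucc 172, .ofNat 0, .ofNat 128, .ofNat 57, .ofNat 0, .ofNat 0, .ofNat 362, .ofNat 725, .ofNat 0, .ofNat 0, .ofNat 0, .ofNat 0, .ofNat 0, .ofNat 0, .ofNat 0, .ofNat 0, .ofNat 0, .ofNat 0, .ofNat 0, .ofNat 0, .ofNat 0, .ofNat 0, .ofNat 810625892452253761850222738690539520, .ofNat 0⟩)
    (by decide +kernel)
theorem L01259 : Good (Phi V5.P V5.D 1 (-1)) ⟨2, 1, 2, 1, 2, 1, 3, 3, 3, 1⟩ :=
  leafYS_sound T5.ok_pm T5.Ypm.bz_eq (w := 197) (c := ⟨⟨.negSucc 1066, .negSucc 406, .ofNat 31, .negSucc 63, .ofNat 19, .negSucc 186⟩, ⟨.ofNat 292, .negSucc 59, .ofNat 297, .negSucc 6, .negSucc 22, .ofNat 68⟩, ⟨.ofNat 835, .ofNat 355, .negSucc 41, .negSucc 232, .ofNat 38, .ofNat 458⟩, ⟨.negSucc 3144, .negSucc 118, .ofNat 19, .negSucc 163, .ofNat 69, .negSucc 469⟩, ⟨.negSucc 260, .ofNat 146, .ofNat 31, .negSucc 144, .negSucc 12, .negSucc 2⟩, .ofNat 610, .ofNat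 380, .ofNat 0, .ofNat 380, .ofNat 1419, .ofNat 0, .ofNat 335, .negSucc 116, .negSucc 115, .ofNat 0, .ofNat 128, .ofNat 45, .ofNat 0, .ofNat 0, .ofNat 540, .ofNat 1762, .ofNat 0, .ofNat 0, .ofNat 0, .ofNat 0, .ofNat 0, .ofNat 0, .ofNat 0, .ofNat 0, .ofNat 0, .ofNat 0, .ofNat 0, .ofNat 0, .ofNat 0, .ofNat 0, .ofNat 0, .ofNat 0⟩)
    (by decide +kernel)
theorem L01260 : Good (Phi V5.P V5.D 1 (-1)) ⟨2, 1, 2, 1, 2, 1, 3, 3, 4, 4⟩ :=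
  leafYS_sound T5.ok_pm T5.Ypm.bz_eq (w := 203) (c := ⟨⟨.negSucc 1257, .negSucc 376, .ofNat 16, .negSucc 61, .ofNat 18, .ofNat 56⟩, ⟨.ofNat 349, .negSucc 85, .ofNat 296, .ofNat 7, .negSucc 8, .negSucc 12⟩, ⟨.ofNat 1214, .ofNat 304, .ofNat 16, .negSucc 109, .ofNat 36, .ofNat 95⟩, ⟨.negSucc 3557, .negSucc 100, .negSucc 13, .negSucc 211, .ofNat 41, .ofNat 141⟩, ⟨.negSucc 208, .ofNat 35, .ofNat 9, .negSucc 157, .negSucc 7, .ofNat 5⟩, .ofNat 185, .ofNat 22, .ofNat 0, .ofNat 22, .ofNat 232, .ofNat 0, .ofNat 175, .negSucc 27, .negSucc 108, .ofNat 0, .ofNat 128, .ofNat 41, .ofNat 0, .ofNat 0, .ofNat 428, .ofNat 5870, .ofNat 0, .ofNat 0, .ofNat 0, .ofNat 0, .ofNat 0, .ofNat 0, .ofNat 0, .ofNat 0, .ofNat 0, .ofNat 0, .ofNat 0, .ofNat 0, .ofNat 0, .ofNat 0, .ofNat 0, .ofNat 0⟩)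
    (by decide +kernel)
theorem L01261 : Good (Phi V5.P V5.D 1 (-1)) ⟨2, 1, 2, 1, 2, 1, 3, 3, 4, 5⟩ :=
  leafYS_sound T5.ok_pm T5.Ypm.bz_eq (w := 204) (c := ⟨⟨.negSucc 1210, .negSucc 340, .ofNat 23, .negSucc 56, .ofNat 5, .ofNat 64⟩, ⟨.ofNat 330, .negSucc 75, .ofNat 290, .ofNat 8, .negSucc 4, .negSucc 25⟩, ⟨.ofNat 1249, .ofNat 285, .ofNat 50, .ofNat 6, .ofNat 36, .ofNat 102⟩, ⟨.negSucc 3417, .negSucc 77, .negSucc 10, .negSucc 207, .ofNat 20, .ofNat 184⟩, ⟨.negSucc 195, .ofNat 12, .ofNat 8, .negSucc 163, .negSucc 8, .ofNat 13⟩, .ofNat 185, .ofNat 22, .ofNat 0, .ofNat 22, .ofNat 232, .ofNat 0, .ofNat 219, .negSucc 27, .negSucc 90, .ofNat 0, .ofNat 128, .ofNat 31, .ofNat 0, .ofNat 0, .ofNat 550, .ofNat 12189, .ofNat 23435758756254273554203470932300363988992, .ofNat 0, .ofNat 0, .ofNat 0, .ofNat 0, .ofNat 0, .ofNat 48492162674391227180618817761364148224,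 .ofNat 0, .ofNat 0, .ofNat 0, .ofNat 0, .ofNat 0, .ofNat 0, .ofNat 0, .ofNat 0, .ofNat 0⟩)
    (by decide +kernel)
theorem L01262 : Good (Phi V5.P V5.D 1 (-1)) ⟨2, 1, 2, 1, 2, 1, 3, 3, 3, 3⟩ :=
  leafYS_sound T5.ok_pm T5.Ypm.bz_eq (w := 201) (c := ⟨⟨.negSucc 1090, .negSucc 350, .ofNat 21, .negSucc 82, .negSucc 20, .ofNat 197⟩, ⟨.ofNat 334, .negSucc 78, .ofNat 281, .negSucc 7, .negSucc 17, .negSucc 17⟩, ⟨.ofNat 1166, .ofNat 296, .ofNat 129, .ofNat 174, .ofNat 78, .ofNat 515⟩, ⟨.negSucc 3149, .negSucc 104, .negSucc 23, .negSucc 222, .negSucc 33, .ofNat 415⟩, ⟨.negSucc 146, .negSucc 16, .ofNat 1, .negSucc 168, .negSucc 32, .ofNat 0⟩, .ofNat 184, .ofNat 22, .ofNat 0, .ofNat 22, .ofNat 232, .ofNat 0, .ofNat 181, .negSucc 26, .negSucc 64, .ofNat 0, .ofNat 128, .ofNat 15, .ofNat 0, .ofNat 0, .ofNat 618, .ofNat 28813, .ofNat 9885145451437685528376159700827242496000,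 .ofNat 0, .ofNat 0, .ofNat 0, .ofNat 37971907921953630184323952391713527431168, .ofNat 0, .ofNat 0, .ofNat 0, .ofNat 23316845387935281067460539205708356255744, .ofNat 0, .ofNat 0, .ofNat 0, .ofNat 87418513268260488274764486179116535513088, .ofNat 0, .ofNat 0, .ofNat 0⟩)
    (by decide +kernel)
theorem L01263 : Good (Phi V5.P V5.D 1 (-1)) ⟨2, 1, 2, 1, 2, 1, 3, 3, 1, 1⟩ :=
  out_sound (S := T5.ds_pm) T5.ok_pm (w := 19) (j := 1) (by decide +kernel)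
theorem L01264 : Good (Phi V5.P V5.D 1 (-1)) ⟨2, 1, 2, 1, 1, 0, 2, 2, 3, 0⟩ :=
  leafYS_sound T5.ok_pm T5.Ypm.bz_eq (w := 177) (c := ⟨⟨.negSucc 127, .ofNat 28, .ofNat 158, .ofNat 561, .negSucc 58, .negSucc 1429⟩, ⟨.ofNat 17, .negSucc 203, .ofNat 80, .negSucc 225, .ofNat 6, .ofNat 562⟩, ⟨.negSucc 62, .negSucc 15, .negSucc 114, .negSucc 547, .ofNat 141, .ofNat 1432⟩, ⟨.negSucc 349, .ofNat 638, .ofNat 447, .ofNat 1446, .negSucc 302, .negSucc 3843⟩, ⟨.ofNat 177, .ofNat 187, .ofNat 162, .negSucc 97, .negSucc 183, .negSucc 412⟩, .ofNat 387, .ofNat 123, .ofNat 0, .ofNat 123, .ofNat 656, .ofNat 0, .ofNat 283, .negSucc 63, .negSucc 277, .ofNat 0, .ofNat 128, .ofNat 79, .ofNat 0, .ofNat 0, .ofNat 559, .ofNat 443, .ofNat 0, .ofNat 0, .ofNat 0, .ofNat 0, .ofNat 0, .ofNat 0, .ofNat 0, .ofNat 0, .ofNat 0, .ofNat 0, .ofNat 0, .ofNat 0, .ofNat 0, .ofNat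 0, .ofNat 0, .ofNat 0⟩)
    (by decide +kernel)
theorem L01265 : Good (Phi V5.P V5.D 1 (-1)) ⟨2, 1, 2, 1, 1, 0, 3, 6, 3, 0⟩ :=
  leafYS_sound T5.ok_pm T5.Ypm.bz_eq (w := 181) (c := ⟨⟨.negSucc 451, .negSucc 239, .ofNat 26, .ofNat 206, .ofNat 71, .negSucc 675⟩, ⟨.ofNat 109, .negSucc 26, .ofNat 168, .negSucc 78, .negSucc 44, .ofNat 241⟩, ⟨.ofNat 306, .ofNat 300, .negSucc 16, .negSucc 64, .negSucc 37, .ofNat 638⟩, ⟨.negSucc 1286, .negSucc 108, .ofNat 51, .ofNat 471, .ofNat 132, .negSucc 1774⟩, ⟨.ofNat 154, .ofNat 77, .negSucc 38, .negSucc 164, .negSucc 156, .negSucc 191⟩, .ofNat 613, .ofNat 380, .ofNat 0, .ofNat 380, .ofNat 1420, .ofNat 0, .ofNat 261, .negSucc 110, .negSucc 196, .ofNat 0, .ofNat 128, .ofNat 64, .ofNat 0, .ofNat 0, .ofNat 435, .ofNat 634, .ofNat 0, .ofNat 0, .ofNat 0, .ofNat 0, .ofNat 0, .ofNat 0, .ofNat 0, .ofNat 0, .ofNat 0,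 .ofNat 0, .ofNat 0, .ofNat 0, .ofNat 0, .ofNat 0, .ofNat 30537128707554451025971600424960, .ofNat 0⟩)
    (by decide +kernel)
theorem L01266 : Good (Phi V5.P V5.D 1 (-1)) ⟨2, 1, 2, 1, 1, 0, 3, 7, 3, 0⟩ :=
  leafYS_sound T5.ok_pm T5.Ypm.bz_eq (w := 181) (c := ⟨⟨.negSucc 546, .negSucc 309, .ofNat 31, .negSucc 22, .ofNat 444, .negSucc 264⟩, ⟨.ofNat 186, .ofNat 37, .ofNat 101, .negSucc 8, .negSucc 155, .ofNat 55⟩, ⟨.ofNat 364, .ofNat 423, .negSucc 38, .ofNat 418, .negSucc 402, .ofNat 101⟩, ⟨.negSucc 1440, .negSucc 393, .ofNat 89, .negSucc 145, .ofNat 1119, .negSucc 778⟩, ⟨.negSucc 32, .ofNat 189, .ofNat 159, .negSucc 98, .ofNat 133, .negSucc 363⟩, .ofNat 615, .ofNat 387, .ofNat 0, .ofNat 387, .ofNat 1431, .ofNat 0, .ofNat 289, .negSucc 110, .negSucc 390, .ofNat 0, .ofNat 128, .ofNat 127, .ofNat 0, .ofNat 0, .ofNat 798, .ofNat 355, .ofNat 0,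 .ofNat 0, .ofNat 0, .ofNat 0, .ofNat 0, .ofNat 25733447767820978877750971683831808, .ofNat 0, .ofNat 0, .ofNat 0, .ofNat 0, .ofNat 0, .ofNat 0, .ofNat 0, .ofNat 0, .ofNat 0, .ofNat 0⟩)
    (by decide +kernel)
theorem L01267 : Good (Phi V5.P V5.D 1 (-1)) ⟨2, 1, 2, 1, 1, 0, 2, 2, 3, 1⟩ :=
  leafYS_sound T5.ok_pm T5.Ypm.bz_eq (w := 178) (c := ⟨⟨.negSucc 1149, .negSucc 390, .ofNat 6, .negSucc 39, .ofNat 111, .negSucc 93⟩, ⟨.ofNat 320, .negSucc 42, .ofNat 287, .negSucc 8, .negSucc 44, .ofNat 35⟩, ⟨.ofNat 947, .ofNat 410, .negSucc 8, .negSucc 60, .negSucc 99, .ofNat 319⟩, ⟨.negSucc 3198, .negSucc 224, .negSucc 15, .negSucc 192, .ofNat 276, .negSucc 252⟩, ⟨.ofNat 9, .ofNat 16, .ofNat 13, .negSucc 314, .negSucc 20, .negSucc 33⟩, .ofNat 611, .ofNat 379, .ofNat 0, .ofNat 379, .ofNat 1420, .ofNat 0, .ofNat 263, .negSucc 111, .negSucc 161, .ofNat 0,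 .ofNat 128, .ofNat 56, .ofNat 0, .ofNat 0, .ofNat 668, .ofNat 941, .ofNat 0, .ofNat 0, .ofNat 0, .ofNat 0, .ofNat 0, .ofNat 0, .ofNat 0, .ofNat 0, .ofNat 0, .ofNat 0, .ofNat 0, .ofNat 0, .ofNat 0, .ofNat 0, .ofNat 0, .ofNat 0⟩)
    (by decide +kernel)
theorem L01268 : Good (Phi V5.P V5.D 1 (-1)) ⟨2, 1, 2, 1, 1, 0, 2, 3, 3, 1⟩ :=
  leafYS_sound T5.ok_pm T5.Ypm.bz_eq (w := 178) (c := ⟨⟨.negSucc 935, .negSucc 345, .negSucc 21, .negSucc 315, .ofNat 323, .negSucc 130⟩, ⟨.ofNat 254, .negSucc 34, .ofNat 248, .ofNat 73, .negSucc 114, .ofNat 61⟩, ⟨.ofNat 711, .ofNat 388, .ofNat 66, .ofNat 641, .negSucc 466, .ofNat 115⟩, ⟨.negSucc 2604, .negSucc 253, .negSucc 29, .negSucc 922, .ofNat 844, .negSucc 381⟩, ⟨.ofNat 10, .negSucc 48, .ofNat 136, .negSucc 430, .negSucc 19, .negSucc 72⟩, .ofNat 614, .ofNat 380, .ofNat 0, .ofNat 380, .ofNat 1419, .ofNat 0,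 .ofNat 321, .negSucc 110, .negSucc 162, .ofNat 0, .ofNat 128, .ofNat 54, .ofNat 0, .ofNat 0, .ofNat 584, .ofNat 407, .ofNat 0, .ofNat 0, .ofNat 0, .ofNat 0, .ofNat 0, .ofNat 11260744159384379816936353457766400, .ofNat 0, .ofNat 0, .ofNat 0, .ofNat 3001503429552801870114256188342272, .ofNat 0, .ofNat 0, .ofNat 0, .ofNat 7779590985243750352770692374593536, .ofNat 1192414948063835141937200889856, .ofNat 0⟩)
    (by decide +kernel)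
theorem L01269 : Good (Phi V5.P V5.D 1 (-1)) ⟨2, 1, 2, 1, 2, 0, 2, 2, 3, 2⟩ :=
  leafYS_sound T5.ok_pm T5.Ypm.bz_eq (w := 195) (c := ⟨⟨.negSucc 1220, .negSucc 316, .ofNat 3, .negSucc 56, .ofNat 70, .ofNat 121⟩, ⟨.ofNat 349, .negSucc 71, .ofNat 273, .negSucc 5, .negSucc 22, .negSucc 30⟩, ⟨.ofNat 1214, .ofNat 305, .ofNat 39, .ofNat 196, .negSucc 263, .negSucc 109⟩, ⟨.negSucc 3371, .negSucc 74, .negSucc 19, .negSucc 177, .ofNat 179, .ofNat 296⟩, ⟨.negSucc 4, .negSucc 1, .ofNat 3, .negSucc 183, .negSucc 2, .ofNat 19⟩, .ofNat 385, .ofNat 120, .ofNat 0, .ofNat 120, .ofNat 656, .ofNat 0, .ofNat 472, .negSucc 59, .negSucc 109, .ofNat 0, .ofNat 128, .ofNat 28, .ofNat 0, .ofNat 0, .ofNat 783, .ofNat 5533, .ofNat 0, .ofNat 0, .ofNat 0, .ofNat 0, .ofNat 0, .ofNat 0, .ofNat 0, .ofNat 0, .ofNat 0, .ofNat 0, .ofNat 0, .ofNat 0, .ofNat 0, .ofNat 0, .ofNat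 0, .ofNat 0⟩)
    (by decide +kernel)
theorem L01270 : Good (Phi V5.P V5.D 1 (-1)) ⟨3, 2, 2, 1, 2, 1, 2, 2, 3, 2⟩ :=
  leafYS_sound T5.ok_pm T5.Ypm.bz_eq (w := 198) (c := ⟨⟨.negSucc 1224, .negSucc 159, .ofNat 6, .negSucc 80, .ofNat 2, .ofNat 100⟩, ⟨.ofNat 322, .negSucc 1, .ofNat 289, .ofNat 17, .ofNat 0, .negSucc 35⟩, ⟨.ofNat 1085, .ofNat 215, .ofNat 82, .ofNat 170, .negSucc 1, .ofNat 163⟩, ⟨.negSucc 3426, .negSucc 91, .negSucc 42, .negSucc 280, .ofNat 2, .ofNat 270⟩, ⟨.negSucc 172, .negSucc 13, .ofNat 8, .negSucc 189, .negSucc 18, .negSucc 2⟩, .ofNat 660, .ofNat 420, .ofNat 0, .ofNat 420, .ofNat 1407, .ofNat 0, .ofNat 210, .negSucc 112, .negSucc 151, .ofNat 0, .ofNat 128, .ofNat 59, .ofNat 0, .ofNat 0, .ofNat 1370, .ofNat 3559, .ofNat 0, .ofNat 0, .ofNat 0, .ofNat 0, .ofNat 0, .ofNat 0, .ofNat 0, .ofNat 0, .ofNat 0, .ofNat 0, .ofNat 0,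 .ofNat 0, .ofNat 0, .ofNat 0, .ofNat 0, .ofNat 0⟩)
    (by decide +kernel)
theorem L01271 : Good (Phi V5.P V5.D 1 (-1)) ⟨3, 3, 2, 1, 2, 1, 2, 2, 3, 2⟩ :=
  leafYS_sound T5.ok_pm T5.Ypm.bz_eq (w := 198) (c := ⟨⟨.negSucc 1365, .negSucc 209, .ofNat 4, .negSucc 107, .negSucc 42, .ofNat 106⟩, ⟨.ofNat 314, .negSucc 62, .ofNat 284, .ofNat 23, .ofNat 11, .negSucc 34⟩, ⟨.ofNat 1203, .ofNat 223, .ofNat 88, .ofNat 178, .ofNat 119, .ofNat 177⟩, ⟨.negSucc 3461, .negSucc 65, .negSucc 31, .negSucc 317, .negSucc 107, .ofNat 251⟩, ⟨.negSucc 156, .ofNat 2, .negSucc 2, .negSucc 201, .negSucc 70, .negSucc 18⟩, .ofNat 375, .ofNat 119, .ofNat 0, .ofNat 119, .ofNat 664, .ofNat 0, .ofNat 338, .negSucc 65, .negSucc 190, .ofNat 0, .ofNat 128, .ofNat 54, .ofNat 0, .ofNat 0, .ofNat 1429, .ofNat 2922, .ofNat 0, .ofNat 0, .ofNat 0, .ofNat 0, .ofNat 0, .ofNat 0, .ofNat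 0, .ofNat 0, .ofNat 0, .ofNat 0, .ofNat 0, .ofNat 0, .ofNat 0, .ofNat 0, .ofNat 0, .ofNat 0⟩)
    (by decide +kernel)
theorem L01272 : Good (Phi V5.P V5.D 1 (-1)) ⟨2, 1, 2, 1, 2, 0, 2, 2, 3, 3⟩ :=
  leafYS_sound T5.ok_pm T5.Ypm.bz_eq (w := 196) (c := ⟨⟨.negSucc 1078, .negSucc 305, .ofNat 11, .negSucc 62, .ofNat 20, .ofNat 69⟩, ⟨.ofNat 308, .negSucc 70, .ofNat 261, .ofNat 13, .negSucc 11, .negSucc 18⟩, ⟨.ofNat 1074, .ofNat 300, .ofNat 46, .ofNat 297, .negSucc 296, .negSucc 52⟩, ⟨.negSucc 2998, .negSucc 79, .negSucc 1, .negSucc 224, .ofNat 68, .ofNat 167⟩, ⟨.ofNat 2, .negSucc 11, .ofNat 8, .negSucc 172, .ofNat 3, .ofNat 11⟩, .ofNat 389, .ofNat 125, .ofNat 0, .ofNat 125, .ofNat 656, .ofNat 0, .ofNat 346, .negSucc 60, .negSucc 89, .ofNat 0, .ofNat 128, .ofNat 20, .ofNat 0, .ofNat 0, .ofNat 955, .ofNat 17730, .ofNat 454856151583364190466416638546925322240,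 .ofNat 0, .ofNat 0, .ofNat 0, .ofNat 1150465057191723667237571614525729275904, .ofNat 0, .ofNat 0, .ofNat 0, .ofNat 1292168948535794273246598693184696483840, .ofNat 0, .ofNat 0, .ofNat 0, .ofNat 3609214050289356571204618143911372652544, .ofNat 0, .ofNat 1605904649706526590480115782329040896, .ofNat 0⟩)
    (by decide +kernel)
theorem L01273 : Good (Phi V5.P V5.D 1 (-1)) ⟨3, 2, 2, 1, 2, 1, 2, 2, 4, 6⟩ :=
  leafYS_sound T5.ok_pm T5.Ypm.bz_eq (w := 203) (c := ⟨⟨.negSucc 1117, .negSucc 145, .ofNat 12, .negSucc 73, .negSucc 43, .ofNat 67⟩, ⟨.ofNat 289, .negSucc 5, .ofNat 271, .ofNat 17, .ofNat 19, .negSucc 26⟩, ⟨.ofNat 1162, .ofNat 70, .ofNat 125, .ofNat 437, .negSucc 55, .ofNat 213⟩, ⟨.negSucc 3131, .negSucc 59, .negSucc 23, .negSucc 265, .negSucc 119, .ofNat 161⟩, ⟨.negSucc 157, .negSucc 11, .negSucc 1, .negSucc 197, .negSucc 12, .negSucc 14⟩,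 .ofNat 776, .ofNat 601, .ofNat 0, .ofNat 601, .ofNat 1912, .ofNat 0, .ofNat 248, .negSucc 125, .negSucc 85, .ofNat 0, .ofNat 128, .ofNat 21, .ofNat 0, .ofNat 0, .ofNat 2020, .ofNat 3939, .ofNat 13610086146272371412553633812162707193856, .ofNat 0, .ofNat 0, .ofNat 0, .ofNat 0, .ofNat 0, .ofNat 0, .ofNat 0, .ofNat 0, .ofNat 0, .ofNat 0, .ofNat 0, .ofNat 0, .ofNat 104995537488062926251350210725111369039872, .ofNat 0, .ofNat 0⟩)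
    (by decide +kernel)
theorem L01274 : Good (Phi V5.P V5.D 1 (-1)) ⟨3, 3, 2, 1, 2, 1, 2, 2, 4, 6⟩ :=
  leafYS_sound T5.ok_pm T5.Ypm.bz_eq (w := 203) (c := ⟨⟨.negSucc 1238, .negSucc 208, .ofNat 3, .negSucc 96, .negSucc 83, .ofNat 85⟩, ⟨.ofNat 280, .negSucc 64, .ofNat 274, .ofNat 20, .ofNat 24, .negSucc 28⟩, ⟨.ofNat 1204, .ofNat 198, .ofNat 184, .ofNat 469, .ofNat 98, .ofNat 190⟩, ⟨.negSucc 3141, .negSucc 71, .negSucc 46, .negSucc 305, .negSucc 216, .ofNat 198⟩, ⟨.negSucc 126, .negSucc 21, .negSucc 18, .negSucc 238, .negSucc 85, .negSucc 11⟩, .ofNat 374, .ofNat 117, .ofNat 0, .ofNat 117, .ofNat 667, .ofNat 0, .ofNat 213, .negSucc 62, .negSucc 91, .ofNat 0, .ofNat 128, .ofNat 11, .ofNat 0, .ofNat 0, .ofNat 1514, .ofNat 2787, .ofNat 9564691717325188925856774998101768273920, .ofNat 0, .ofNat 0, .ofNat 0, .ofNat 0, .ofNat 0, .ofNat 0, .ofNat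 0, .ofNat 0, .ofNat 6018789878502600382456907115792584146944, .ofNat 3684391760539026501450116413698080768, .ofNat 0, .ofNat 0, .ofNat 57713177944367399404166197742534563725312, .ofNat 0, .ofNat 0⟩)
    (by decide +kernel)
theorem L01275 : Good (Phi V5.P V5.D 1 (-1)) ⟨2, 1, 2, 1, 3, 2, 2, 2, 4, 7⟩ :=
  leafYS_sound T5.ok_pm T5.Ypm.bz_eq (w := 215) (c := ⟨⟨.negSucc 1003, .negSucc 365, .ofNat 12, .negSucc 51, .negSucc 78, .ofNat 23⟩, ⟨.ofNat 237, .negSucc 69, .ofNat 270, .ofNat 12, .ofNat 65, .negSucc 29⟩, ⟨.ofNat 926, .ofNat 411, .ofNat 281, .ofNat 419, .negSucc 8, .ofNat 156⟩, ⟨.negSucc 2734, .negSucc 201, .negSucc 36, .negSucc 198, .negSucc 318, .ofNat 106⟩, ⟨.negSucc 19, .negSucc 98, .negSucc 27, .negSucc 157, .negSucc 80, .negSucc 16⟩, .ofNat 185, .ofNat 22, .ofNat 0, .ofNat 22, .ofNat 232, .ofNat 0, .ofNat 188, .negSucc 23, .negSucc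 79, .ofNat 0, .ofNat 128, .negSucc 37, .ofNat 0, .ofNat 0, .ofNat 1004, .ofNat 17045, .ofNat 31303558704156525509376505330982669254656000, .ofNat 0, .ofNat 0, .ofNat 0, .ofNat 138223212412529225636930336015753353367650304, .ofNat 0, .ofNat 0, .ofNat 0, .ofNat 0, .ofNat 0, .ofNat 0, .ofNat 0, .ofNat 349937777713757560296024923570331111133282304, .ofNat 0, .ofNat 0, .ofNat 0⟩)
    (by decide +kernel)
theorem L01276 : Good (Phi V5.P V5.D 1 (-1)) ⟨3, 2, 2, 1, 3, 3, 3, 4, 4, 7⟩ :=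
  leafYS_sound T5.ok_pm T5.Ypm.bz_eq (w := 225) (c := ⟨⟨.negSucc 1128, .negSucc 147, .ofNat 34, .ofNat 9, .negSucc 12, .ofNat 119⟩, ⟨.ofNat 303, .negSucc 3, .ofNat 257, .negSucc 16, .negSucc 7, .negSucc 46⟩, ⟨.ofNat 621, .ofNat 161, .ofNat 524, .ofNat 820, .ofNat 419, .ofNat 946⟩, ⟨.negSucc 3103, .negSucc 80, .negSucc 24, .negSucc 61, .negSucc 72, .ofNat 234⟩, ⟨.negSucc 58, .negSucc 45, .negSucc 70, .negSucc 211, .negSucc 112, .negSucc 132⟩, .ofNat 405, .ofNat 137, .ofNat 0, .ofNat 137, .ofNat 650, .ofNat 0, .ofNat 143, .negSucc 65, .ofNat 6, .ofNat 0, .ofNat 128, .negSucc 41, .ofNat 0, .ofNat 0, .ofNat 1967, .ofNat 54740, .ofNat 0, .ofNat 0, .ofNat 0, .ofNat 0, .ofNat 41966405334538535650176809732296414098482003968, .ofNat 0, .ofNat 0, .ofNat 0, .ofNat 37114080757003951166394616980939838666018127872, .ofNat 0, .ofNat 0, .ofNat 0, .ofNat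 456479052191254026643107985073411005676355846144, .ofNat 0, .ofNat 0, .ofNat 0⟩)
    (by decide +kernel)
theorem L01277 : Good (Phi V5.P V5.D 1 (-1)) ⟨3, 2, 2, 1, 4, 6, 3, 5, 4, 7⟩ :=
  leafYS_sound T5.ok_pm T5.Ypm.bz_eq (w := 237) (c := ⟨⟨.negSucc 1114, .negSucc 151, .ofNat 25, .negSucc 4, .negSucc 42, .ofNat 66⟩, ⟨.ofNat 286, .negSucc 3, .ofNat 261, .negSucc 6, .ofNat 14, .negSucc 28⟩, ⟨.ofNat 1093, .ofNat 157, .ofNat 495, .ofNat 450, .ofNat 105, .ofNat 522⟩, ⟨.negSucc 3149, .negSucc 77, .negSucc 23, .negSucc 50, .negSucc 105, .ofNat 110⟩, ⟨.negSucc 240, .negSucc 38, .negSucc 51, .negSucc 89, .ofNat 1, .negSucc 91⟩, .ofNat 1162, .ofNat 1324, .ofNat 0, .ofNat 1324, .ofNat 3590, .ofNat 0, .ofNat 207, .negSucc 127, .ofNat 6, .ofNat 0, .ofNat 111, .negSucc 18, .ofNat 0, .ofNat 0, .ofNat 2130, .ofNat 15151, .ofNat 0, .ofNat 0, .ofNat 0, .ofNat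 0, .ofNat 0, .ofNat 0, .ofNat 0, .ofNat 0, .ofNat 70220451422551371677210113388338409130080354697216, .ofNat 649713154204121856931924171262748702573749862400, .ofNat 0, .ofNat 0, .ofNat 696406331180880429922630600007577540149835412275200, .ofNat 12070842710940547547623779869889249244428611092480, .ofNat 0, .ofNat 0⟩)
    (by decide +kernel)
theorem L01278 : Good (Phi V5.P V5.D 1 (-1)) ⟨3, 2, 2, 1, 4, 7, 3, 5, 4, 7⟩ :=
  leafYS_sound T5.ok_pm T5.Ypm.bz_eq (w := 235) (c := ⟨⟨.negSucc 1136, .negSucc 152, .ofNat 43, .ofNat 10, .negSucc 40, .ofNat 108⟩, ⟨.ofNat 287, .negSucc 0, .ofNat 254, .negSucc 11, .ofNat 12, .negSucc 51⟩, ⟨.ofNat 1330, .ofNat 162, .ofNat 691, .ofNat 512, .ofNat 166, .ofNat 976⟩, ⟨.negSucc 3193, .negSucc 97, .negSucc 21, .negSucc 22, .negSucc 140, .ofNat 216⟩, ⟨.negSucc 223, .negSucc 63, .negSucc 117, .negSucc 136, .negSucc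 87, .negSucc 171⟩, .ofNat 404, .ofNat 134, .ofNat 0, .ofNat 134, .ofNat 650, .ofNat 0, .ofNat 173, .negSucc 63, .ofNat 64, .ofNat 0, .ofNat 128, .negSucc 88, .ofNat 0, .ofNat 0, .ofNat 2144, .ofNat 3611, .ofNat 0, .ofNat 41604954061719012414168821839433585064276918272, .ofNat 0, .ofNat 0, .ofNat 0, .ofNat 0, .ofNat 0, .ofNat 0, .ofNat 0, .ofNat 705875865058952298652390770813351440394001317888, .ofNat 0, .ofNat 0, .ofNat 16397115064114818685476792052396475730768896720896, .ofNat 18985973286016280163558990314163614086161758158848, .ofNat 0, .ofNat 0⟩)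
    (by decide +kernel)
theorem L01279 : Good (Phi V5.P V5.D 1 (-1)) ⟨3, 3, 2, 1, 3, 3, 3, 4, 4, 7⟩ :=
  leafYS_sound T5.ok_pm T5.Ypm.bz_eq (w := 226) (c := ⟨⟨.negSucc 1237, .negSucc 208, .ofNat 37, .negSucc 18, .negSucc 36, .ofNat 175⟩, ⟨.ofNat 301, .negSucc 65, .ofNat 257, .negSucc 24, .negSucc 2, .negSucc 54⟩, ⟨.ofNat 834, .ofNat 238, .ofNat 586, .ofNat 747, .ofNat 369, .ofNat 1470⟩, ⟨.negSucc 3133, .negSucc 75, .negSucc 25, .negSucc 79, .negSucc 112, .ofNat 269⟩, ⟨.negSucc 91, .negSucc 50, .negSucc 81, .negSucc 200, .negSucc 128, .negSucc 227⟩, .ofNat 578, .ofNat 354, .ofNat 0, .ofNat 354, .ofNat 1445, .ofNat 0, .ofNat 191, .negSucc 109, .ofNat 14, .ofNat 0, .ofNat 128, .negSucc 38, .ofNat 0, .ofNat 0, .ofNat 3290, .ofNat 87056, .ofNat 14966505270414151972053447664296762977867005952, .ofNat 0, .ofNat 0, .ofNat 0, .ofNat 65305331092017869579102084259371694082546991104,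 .ofNat 0, .ofNat 0, .ofNat 0, .ofNat 89609960880788823934509077452523985173403926528, .ofNat 0, .ofNat 0, .ofNat 0, .ofNat 1222371546811493944620394701067965789225112043520, .ofNat 0, .ofNat 7131177137779347381993208817552391877427200, .ofNat 0⟩)
    (by decide +kernel)
theorem L01280 : Good (Phi V5.P V5.D 1 (-1)) ⟨3, 3, 2, 1, 4, 6, 3, 5, 4, 7⟩ :=
  leafYS_sound T5.ok_pm T5.Ypm.bz_eq (w := 238) (c := ⟨⟨.negSucc 1259, .negSucc 226, .ofNat 33, .negSucc 4, .negSucc 68, .ofNat 99⟩, ⟨.ofNat 284, .negSucc 67, .ofNat 264, .negSucc 5, .ofNat 11, .negSucc 29⟩, ⟨.ofNat 1177, .ofNat 253, .ofNat 572, .ofNat 499, .ofNat 106, .ofNat 693⟩, ⟨.negSucc 3189, .negSucc 109, .negSucc 31, .negSucc 65, .negSucc 177, .ofNat 157⟩, ⟨.negSucc 178, .negSucc 65, .negSucc 86, .negSucc 145, .negSucc 78, .negSucc 135⟩, .ofNat 566, .ofNat 339, .ofNat 0, .ofNat 339, .ofNat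 1438, .ofNat 0, .ofNat 249, .negSucc 106, .negSucc 18, .ofNat 0, .ofNat 128, .negSucc 45, .ofNat 0, .ofNat 0, .ofNat 3784, .ofNat 15946, .ofNat 0, .ofNat 0, .ofNat 0, .ofNat 0, .ofNat 0, .ofNat 0, .ofNat 0, .ofNat 0, .ofNat 105707745702119147755675325743573727036994266071040, .ofNat 1093573754667147453745512986229854921681612570624, .ofNat 0, .ofNat 0, .ofNat 1575750493295590960252136659611437702006877838114816, .ofNat 35729546541903872369275851102386801779569504288768, .ofNat 0, .ofNat 0⟩)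
    (by decide +kernel)
theorem L01281 : Good (Phi V5.P V5.D 1 (-1)) ⟨3, 3, 2, 1, 4, 7, 3, 5, 4, 7⟩ :=
  leafYS_sound T5.ok_pm T5.Ypm.bz_eq (w := 236) (c := ⟨⟨.negSucc 1283, .negSucc 217, .ofNat 41, .ofNat 8, .negSucc 54, .ofNat 123⟩, ⟨.ofNat 284, .negSucc 68, .ofNat 257, .negSucc 10, .ofNat 12, .negSucc 51⟩, ⟨.ofNat 1466, .ofNat 250, .ofNat 683, .ofNat 521, .ofNat 263, .ofNat 1082⟩, ⟨.negSucc 3292, .negSucc 66, .negSucc 36, .negSucc 12, .negSucc 157, .ofNat 218⟩, ⟨.negSucc 340, .negSucc 27, .negSucc 110, .negSucc 87, .negSucc 87, .negSucc 119⟩, .ofNat 873, .ofNat 950, .ofNat 0, .ofNat 950, .ofNat 3179, .ofNat 0, .ofNat 163, .negSucc 127, .ofNat 39, .ofNat 0, .ofNat 107, .negSucc 34, .ofNat 0, .ofNat 0, .ofNat 2564, .ofNat 4463, .ofNat 4789899472171070409319861050191552870218358325248, .ofNat 57331898610596104493719310960143961723462746112,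 .ofNat 0, .ofNat 0, .ofNat 0, .ofNat 338796181832793587592649194783484584117156184064, .ofNat 0, .ofNat 0, .ofNat 0, .ofNat 1976562768517089960264203258572836488327515340800, .ofNat 0, .ofNat 0, .ofNat 0, .ofNat 27401880485957057965906190430278665914907273199616, .ofNat 0, .ofNat 0⟩)
    (by decide +kernel)
theorem L01282 : Good (Phi V5.P V5.D 1 (-1)) ⟨3, 2, 2, 1, 1, 0, 3, 6, 3, 2⟩ :=
  leafYS_sound T5.ok_pm T5.Ypm.bz_eq (w := 186) (c := ⟨⟨.negSucc 1070, .negSucc 136, .ofNat 0, .negSucc 263, .ofNat 26, .ofNat 36⟩, ⟨.ofNat 274, .negSucc 9, .ofNat 280, .ofNat 91, .negSucc 9, .negSucc 17⟩, ⟨.ofNat 774, .ofNat 139, .ofNat 97, .ofNat 844, .negSucc 147, .negSucc 63⟩, ⟨.negSucc 2946, .negSucc 68, .negSucc 35, .negSucc 799, .ofNat 76, .ofNat 102⟩, ⟨.negSucc 46, .negSucc 36, .ofNat 43, .negSucc 289, .ofNat 39, .ofNat 5⟩, .ofNat 1038, .ofNat 1065,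 .ofNat 0, .ofNat 1065, .ofNat 2891, .ofNat 0, .ofNat 274, .negSucc 127, .negSucc 101, .ofNat 0, .ofNat 111, .ofNat 38, .ofNat 0, .ofNat 0, .ofNat 887, .ofNat 842, .ofNat 0, .ofNat 0, .ofNat 0, .ofNat 0, .ofNat 0, .ofNat 0, .ofNat 0, .ofNat 0, .ofNat 0, .ofNat 409106137773878316977876522047111168, .ofNat 0, .ofNat 0, .ofNat 0, .ofNat 2458646157857844753242782316057591808, .ofNat 0, .ofNat 0⟩)
    (by decide +kernel)
theorem L01283 : Good (Phi V5.P V5.D 1 (-1)) ⟨3, 3, 2, 1, 1, 0, 3, 6, 3, 2⟩ :=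
  leafYS_sound T5.ok_pm T5.Ypm.bz_eq (w := 187) (c := ⟨⟨.negSucc 1192, .negSucc 215, .negSucc 1, .negSucc 369, .ofNat 4, .ofNat 70⟩, ⟨.ofNat 287, .negSucc 55, .ofNat 271, .ofNat 69, .ofNat 6, .negSucc 34⟩, ⟨.ofNat 950, .ofNat 268, .ofNat 41, .ofNat 928, .negSucc 116, .negSucc 141⟩, ⟨.negSucc 2996, .negSucc 107, .negSucc 31, .negSucc 979, .negSucc 9, .ofNat 180⟩, ⟨.ofNat 51, .negSucc 6, .negSucc 5, .negSucc 479, .negSucc 34, .negSucc 31⟩, .ofNat 562, .ofNat 331, .ofNat 0, .ofNat 331, .ofNat 1438, .ofNat 0, .ofNat 356, .negSucc 105, .negSucc 134, .ofNat 0, .ofNat 128, .ofNat 33, .ofNat 0, .ofNat 0, .ofNat 1023, .ofNat 982, .ofNat 0, .ofNat 0, .ofNat 0, .ofNat 0, .ofNat 0, .ofNat 0, .ofNat 0, .ofNat 0, .ofNat 0, .ofNat 0, .ofNat 0, .ofNat 0, .ofNat 0, .ofNat 3598011336748062170825215256196808704, .ofNat 0, .ofNat 0⟩)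
    (by decide +kernel)
theorem L01284 : Good (Phi V5.P V5.D 1 (-1)) ⟨2, 1, 2, 1, 2, 0, 3, 6, 3, 3⟩ :=
  leafYS_sound T5.ok_pm T5.Ypm.bz_eq (w := 199) (c := ⟨⟨.negSucc 978, .negSucc 333, .negSucc 6, .negSucc 139, .negSucc 24, .ofNat 26⟩, ⟨.ofNat 278, .negSucc 50, .ofNat 252, .ofNat 41, .ofNat 13, .negSucc 4⟩, ⟨.ofNat 673, .ofNat 353, .ofNat 79, .ofNat 430, .negSucc 159, .negSucc 124⟩, ⟨.negSucc 2741, .negSucc 188, .negSucc 23, .negSucc 418, .negSucc 56, .ofNat 72⟩, ⟨.ofNat 21, .negSucc 28, .negSucc 4, .negSucc 164, .ofNat 15, .ofNat 11⟩, .ofNat 390, .ofNat 123, .ofNat 0, .ofNat 123, .ofNat 654, .ofNat 0, .ofNat 210, .negSucc 59, .negSucc 53, .ofNat 0, .ofNat 128, .ofNat 9, .ofNat 0, .ofNat 0, .ofNat 485, .ofNat 4853, .ofNat 0, .ofNat 0, .ofNat 0, .ofNat 0, .ofNat 616489180779890452473416587277473153024, .ofNat 0, .ofNat 0, .ofNat 0, .ofNat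 0, .ofNat 0, .ofNat 0, .ofNat 0, .ofNat 5925469070092387051311061158715237335040, .ofNat 0, .ofNat 1491026222175793979051603093610299392, .ofNat 0⟩)
    (by decide +kernel)
theorem L01285 : Good (Phi V5.P V5.D 1 (-1)) ⟨2, 1, 2, 1, 2, 1, 3, 6, 4, 6⟩ :=
  leafYS_sound T5.ok_pm T5.Ypm.bz_eq (w := 202) (c := ⟨⟨.negSucc 1094, .negSucc 406, .ofNat 6, .negSucc 120, .negSucc 103, .ofNat 43⟩, ⟨.ofNat 293, .negSucc 65, .ofNat 284, .ofNat 24, .ofNat 30, .negSucc 1⟩, ⟨.ofNat 873, .ofNat 453, .ofNat 255, .ofNat 915, .negSucc 79, .ofNat 80⟩, ⟨.negSucc 3075, .negSucc 231, .negSucc 69, .negSucc 430, .negSucc 260, .ofNat 69⟩, ⟨.negSucc 68, .negSucc 106, .negSucc 50, .negSucc 332, .negSucc 42, .negSucc 22⟩, .ofNat 607, .ofNat 378, .ofNat 0, .ofNat 378, .ofNat 1424, .ofNat 0, .ofNat 365, .negSucc 109, .negSucc 58, .ofNat 0, .ofNat 128, .ofNat 0, .ofNat 0,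 .ofNat 0, .ofNat 1415, .ofNat 1852, .ofNat 0, .ofNat 0, .ofNat 0, .ofNat 0, .ofNat 0, .ofNat 0, .ofNat 0, .ofNat 0, .ofNat 0, .ofNat 2478668411422326435830319704170467164160, .ofNat 0, .ofNat 0, .ofNat 0, .ofNat 19610481000243924103633567297693842145280, .ofNat 0, .ofNat 0⟩)
    (by decide +kernel)
theorem L01286 : Good (Phi V5.P V5.D 1 (-1)) ⟨2, 1, 2, 1, 3, 2, 3, 6, 4, 7⟩ :=
  leafYS_sound T5.ok_pm T5.Ypm.bz_eq (w := 219) (c := ⟨⟨.negSucc 1056, .negSucc 389, .ofNat 17, .negSucc 69, .negSucc 107, .ofNat 27⟩, ⟨.ofNat 294, .negSucc 67, .ofNat 277, .ofNat 12, .ofNat 37, .negSucc 12⟩, ⟨.ofNat 875, .ofNat 462, .ofNat 300, .ofNat 467, .negSucc 195, .ofNat 6⟩, ⟨.negSucc 2988, .negSucc 256, .negSucc 28, .negSucc 239, .negSucc 257, .ofNat 74⟩, ⟨.negSucc 60, .negSucc 139, .negSucc 47, .negSucc 180, .ofNat 29, .ofNat 2⟩, .ofNat 389, .ofNat 125, .ofNat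 0, .ofNat 125, .ofNat 656, .ofNat 0, .ofNat 411, .negSucc 61, .negSucc 67, .ofNat 0, .ofNat 128, .negSucc 26, .ofNat 0, .ofNat 0, .ofNat 1514, .ofNat 10394, .ofNat 0, .ofNat 0, .ofNat 0, .ofNat 0, .ofNat 0, .ofNat 0, .ofNat 0, .ofNat 0, .ofNat 0, .ofNat 0, .ofNat 0, .ofNat 0, .ofNat 3150604652284264458079670465814494138645610496, .ofNat 89263163936927241921738547417116199329202176, .ofNat 0, .ofNat 0⟩)
    (by decide +kernel)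
theorem L01287 : Good (Phi V5.P V5.D 1 (-1)) ⟨2, 1, 2, 1, 3, 3, 3, 6, 4, 7⟩ :=
  leafYS_sound T5.ok_pm T5.Ypm.bz_eq (w := 216) (c := ⟨⟨.negSucc 1131, .negSucc 396, .ofNat 24, .negSucc 25, .negSucc 123, .ofNat 56⟩, ⟨.ofNat 317, .negSucc 70, .ofNat 266, .negSucc 11, .ofNat 24, .negSucc 28⟩, ⟨.ofNat 1058, .ofNat 478, .ofNat 602, .ofNat 909, .negSucc 12, .ofNat 281⟩, ⟨.negSucc 3219, .negSucc 262, .negSucc 46, .negSucc 161, .negSucc 293, .ofNat 139⟩, ⟨.negSucc 149, .negSucc 176, .negSucc 110, .negSucc 298, .negSucc 68, .negSucc 51⟩, .ofNat 184, .ofNat 22, .ofNat 0, .ofNat 22, .ofNat 232, .ofNat 0, .ofNat 175, .negSucc 24, .negSucc 13, .ofNat 0, .ofNat 128, .negSucc 81, .ofNat 0, .ofNat 0, .ofNat 938, .ofNat 1005, .ofNat 0, .ofNat 380604700087630617320861238504000774471680, .ofNat 0, .ofNat 0, .ofNat 0, .ofNat 7526898244592900227210717984970356855668736,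 .ofNat 0, .ofNat 0, .ofNat 0, .ofNat 8508128129401473180429276634990107108048896, .ofNat 0, .ofNat 0, .ofNat 0, .ofNat 70481344511713114749450358440620699055816704, .ofNat 0, .ofNat 0⟩)
    (by decide +kernel)
theorem L01288 : Good (Phi V5.P V5.D 1 (-1)) ⟨2, 1, 2, 1, 1, 0, 3, 7, 4, 4⟩ :=
  leafYS_sound T5.ok_pm T5.Ypm.bz_eq (w := 187) (c := ⟨⟨.negSucc 891, .negSucc 355, .negSucc 22, .negSucc 561, .ofNat 115, .negSucc 37⟩, ⟨.ofNat 243, .negSucc 32, .ofNat 253, .ofNat 172, .negSucc 40, .ofNat 10⟩, ⟨.ofNat 523, .ofNat 388, .ofNat 67, .ofNat 1122, .negSucc 292, .negSucc 20⟩, ⟨.negSucc 2506, .negSucc 243, .negSucc 72, .negSucc 1618, .ofNat 333, .negSucc 83⟩, ⟨.ofNat 1, .negSucc 9, .ofNat 1, .negSucc 475, .ofNat 13, .ofNat 30⟩, .ofNat 388, .ofNat 122, .ofNat 0, .ofNat 122, .ofNat 655, .ofNat 0, .ofNat 586, .negSucc 61, .negSucc 207, .ofNat 0,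 .ofNat 128, .ofNat 43, .ofNat 0, .ofNat 0, .ofNat 897, .ofNat 848, .ofNat 0, .ofNat 0, .ofNat 0, .ofNat 0, .ofNat 0, .ofNat 3091793195634223590621539988565655552, .ofNat 0, .ofNat 0, .ofNat 0, .ofNat 354983671352278026572911735029628928, .ofNat 0, .ofNat 0, .ofNat 0, .ofNat 1759583400377016674258283360327565312, .ofNat 0, .ofNat 0⟩)
    (by decide +kernel)
theorem L01289 : Good (Phi V5.P V5.D 1 (-1)) ⟨2, 1, 2, 1, 1, 0, 3, 7, 4, 5⟩ :=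
  leafYS_sound T5.ok_pm T5.Ypm.bz_eq (w := 187) (c := ⟨⟨.negSucc 857, .negSucc 436, .ofNat 14, .negSucc 579, .ofNat 9, .negSucc 36⟩, ⟨.ofNat 242, .negSucc 52, .ofNat 274, .ofNat 142, .ofNat 5, .ofNat 23⟩, ⟨.ofNat 418, .ofNat 488, .ofNat 48, .ofNat 1186, .negSucc 212, .negSucc 43⟩, ⟨.negSucc 2428, .negSucc 356, .negSucc 4, .negSucc 1616, .ofNat 14, .negSucc 97⟩, ⟨.ofNat 59, .negSucc 112, .ofNat 28, .negSucc 488, .ofNat 20, .ofNat 40⟩, .ofNat 391, .ofNat 128, .ofNat 0, .ofNat 128, .ofNat 654, .ofNat 0, .ofNat 284, .negSucc 62, .negSucc 108, .ofNat 0, .ofNat 128, .ofNat 19, .ofNat 0, .ofNat 0, .ofNat 595, .ofNat 860, .ofNat 0, .ofNat 0, .ofNat 0, .ofNat 0, .ofNat 0, .ofNat 1084343810644497871328336065417183232, .ofNat 0, .ofNat 0, .ofNat 0, .ofNat 348055633055040224426433832737046528, .ofNat 0, .ofNat 0, .ofNat 0, .ofNat 1007418663509329929625300758119317504,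 .ofNat 0, .ofNat 0⟩)
    (by decide +kernel)
theorem L01290 : Good (Phi V5.P V5.D 1 (-1)) ⟨2, 1, 2, 1, 2, 0, 3, 7, 3, 3⟩ :=
  leafYS_sound T5.ok_pm T5.Ypm.bz_eq (w := 198) (c := ⟨⟨.negSucc 896, .negSucc 398, .ofNat 11, .negSucc 247, .negSucc 95, .negSucc 45⟩, ⟨.ofNat 255, .negSucc 55, .ofNat 266, .ofNat 75, .ofNat 26, .ofNat 17⟩, ⟨.ofNat 433, .ofNat 386, .ofNat 72, .ofNat 468, .negSucc 138, .negSucc 82⟩, ⟨.negSucc 2547, .negSucc 309, .ofNat 4, .negSucc 670, .negSucc 192, .negSucc 99⟩, ⟨.ofNat 15, .negSucc 56, .ofNat 3, .negSucc 119, .ofNat 65, .ofNat 35⟩, .ofNat 387, .ofNat 124, .ofNat 0, .ofNat 124, .ofNat 657, .ofNat 0, .ofNat 398, .negSucc 60, .negSucc 107, .ofNat 0, .ofNat 128, .ofNat 15, .ofNat 0, .ofNat 0, .ofNat 713, .ofNat 2199, .ofNat 0, .ofNat 0, .ofNat 0, .ofNat 0, .ofNat 0, .ofNat 0, .ofNat 0, .ofNat 0, .ofNat 0, .ofNat 263499004821111254518681506119984087040,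 .ofNat 0, .ofNat 0, .ofNat 4918101360071889402622422994163119161344, .ofNat 0, .ofNat 0, .ofNat 0⟩)
    (by decide +kernel)
theorem L01291 : Good (Phi V5.P V5.D 1 (-1)) ⟨2, 1, 2, 1, 2, 1, 3, 7, 4, 6⟩ :=
  leafYS_sound T5.ok_pm T5.Ypm.bz_eq (w := 201) (c := ⟨⟨.negSucc 1138, .negSucc 443, .negSucc 0, .negSucc 239, .negSucc 172, .ofNat 12⟩, ⟨.ofNat 310, .negSucc 48, .ofNat 293, .ofNat 58, .ofNat 46, .negSucc 1⟩, ⟨.ofNat 877, .ofNat 471, .ofNat 203, .ofNat 728, .negSucc 158, .negSucc 94⟩, ⟨.negSucc 3193, .negSucc 392, .negSucc 42, .negSucc 755, .negSucc 401, .ofNat 40⟩, ⟨.negSucc 89, .negSucc 161, .negSucc 24, .negSucc 345, .ofNat 56, .ofNat 45⟩, .ofNat 185, .ofNat 22, .ofNat 0, .ofNat 22, .ofNat 232, .ofNat 0, .ofNat 267, .negSucc 23, .negSucc 72, .ofNat 0, .ofNat 128, .negSucc 23, .ofNat 0, .ofNat 0, .ofNat 438, .ofNat 531, .ofNat 0, .ofNat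 31224631340072940117801677609787981824, .ofNat 0, .ofNat 0, .ofNat 0, .ofNat 2598289949812742649743475551947435540480, .ofNat 0, .ofNat 0, .ofNat 0, .ofNat 1014483564123829480347320977551238627328, .ofNat 0, .ofNat 0, .ofNat 0, .ofNat 3370278495249430145133887182493943070720, .ofNat 0, .ofNat 0⟩)
    (by decide +kernel)
theorem L01292 : Good (Phi V5.P V5.D 1 (-1)) ⟨2, 1, 2, 1, 2, 1, 3, 7, 4, 7⟩ :=
  leafYS_sound T5.ok_pm T5.Ypm.bz_eq (w := 203) (c := ⟨⟨.negSucc 1135, .negSucc 420, .ofNat 5, .negSucc 246, .negSucc 178, .ofNat 10⟩, ⟨.ofNat 307, .negSucc 56, .ofNat 292, .ofNat 62, .ofNat 86, .ofNat 0⟩, ⟨.ofNat 769, .ofNat 454, .ofNat 229, .ofNat 745, .negSucc 176, .negSucc 130⟩, ⟨.negSucc 3160, .negSucc 356, .negSucc 43, .negSucc 723, .negSucc 468, .ofNat 39⟩, ⟨.negSucc 31, .negSucc 162, .negSucc 41, .negSucc 336, .ofNat 58, .ofNat 45⟩, .ofNat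 184, .ofNat 23, .ofNat 0, .ofNat 23, .ofNat 232, .ofNat 0, .ofNat 313, .negSucc 24, .negSucc 83, .ofNat 0, .ofNat 128, .negSucc 56, .ofNat 0, .ofNat 0, .ofNat 717, .ofNat 3123, .ofNat 0, .ofNat 209198330930729712821652845818860797952, .ofNat 0, .ofNat 0, .ofNat 0, .ofNat 11611698540896354271200399319906799058944, .ofNat 0, .ofNat 0, .ofNat 0, .ofNat 3015840664531934954867220635750714310656, .ofNat 0, .ofNat 0, .ofNat 0, .ofNat 12892642018482585229607812135605374025728, .ofNat 0, .ofNat 0⟩)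
    (by decide +kernel)
theorem L01293 : Good (Phi V5.P V5.D 1 (-1)) ⟨2, 1, 2, 1, 1, 0, 1, 1, 1, 1⟩ :=
  leafYS_sound T5.ok_pm T5.Ypm.bz_eq (w := 175) (c := ⟨⟨.negSucc 1050, .negSucc 320, .ofNat 0, .ofNat 1, .negSucc 0, .ofNat 1⟩, ⟨.ofNat 304, .negSucc 71, .ofNat 252, .ofNat 0, .ofNat 0, .ofNat 0⟩, ⟨.ofNat 353, .ofNat 321, .ofNat 0, .ofNat 0, .ofNat 0, .ofNat 0⟩, ⟨.negSucc 2922, .negSucc 144, .ofNat 0, .ofNat 1, .negSucc 0, .ofNat 1⟩, ⟨.ofNat 0, .ofNat 0, .ofNat 0, .ofNat 0, .ofNat 0, .ofNat 0⟩, .ofNat 185, .ofNat 23, .ofNat 0, .ofNat 23, .ofNat 232, .ofNat 0, .ofNat 149, .negSucc 23, .negSucc 113, .ofNat 0, .ofNat 128, .ofNat 15, .ofNat 0, .ofNat 0, .ofNat 312, .ofNat 4217, .ofNat 36556964756063439722639681126400000000, .ofNat 1406048155377239980419768103829766144, .ofNat 0, .ofNat 0, .ofNat 2339645744388060142248939592089600000000, .ofNat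 110360773308095183135667471828559855616, .ofNat 0, .ofNat 0, .ofNat 2339645744388060142248939592089600000000, .ofNat 110360710621287473802581111486707400704, .ofNat 0, .ofNat 0, .ofNat 2339645744388060142248939592089600000000, .ofNat 92354611912820490176335977715905593344, .ofNat 0, .ofNat 0⟩)
    (by decide +kernel)
theorem L01294 : Good (Phi V5.P V5.D 1 (-1)) ⟨2, 1, 2, 1, 2, 2, 4, 0, 4, 0⟩ :=
  leafYS_sound T5.ok_pm T5.Ypm.bz_eq (w := 206) (c := ⟨⟨.ofNat 1327, .ofNat 273, .ofNat 11, .negSucc 116, .ofNat 36, .negSucc 1425⟩, ⟨.negSucc 385, .ofNat 43, .negSucc 190, .ofNat 155, .negSucc 43, .ofNat 390⟩, ⟨.negSucc 877, .negSucc 346, .negSucc 108, .negSucc 553, .ofNat 51, .ofNat 177⟩, ⟨.ofNat 3332, .ofNat 194, .ofNat 229, .ofNat 562, .ofNat 268, .negSucc 4010⟩, ⟨.negSucc 367, .ofNat 200, .ofNat 346, .ofNat 2210, .ofNat 127, .negSucc 1009⟩, .ofNat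 387, .ofNat 120, .ofNat 0, .ofNat 120, .ofNat 657, .ofNat 0, .ofNat 181, .negSucc 115, .negSucc 72, .ofNat 0, .ofNat 128, .ofNat 36, .ofNat 0, .ofNat 0, .ofNat 291, .ofNat 4739, .ofNat 0, .ofNat 0, .ofNat 0, .ofNat 0, .ofNat 0, .ofNat 0, .ofNat 0, .ofNat 0, .ofNat 304663531599294761397925594116032030572544, .ofNat 0, .ofNat 388777481167872553506329717789859774464, .ofNat 0, .ofNat 0, .ofNat 0, .ofNat 0, .ofNat 0⟩)
    (by decide +kernel)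
theorem L01295 : Good (Phi V5.P V5.D 1 (-1)) ⟨2, 1, 2, 1, 2, 2, 4, 0, 4, 1⟩ :=
  leafYS_sound T5.ok_pm T5.Ypm.bz_eq (w := 206) (c := ⟨⟨.ofNat 6, .negSucc 273, .negSucc 48, .negSucc 170, .ofNat 102, .negSucc 1138⟩, ⟨.negSucc 112, .ofNat 34, .ofNat 206, .ofNat 140, .ofNat 2, .ofNat 333⟩, ⟨.negSucc 581, .negSucc 167, .negSucc 57, .negSucc 976, .ofNat 139, .ofNat 693⟩, ⟨.negSucc 434, .negSucc 123, .negSucc 17, .ofNat 89, .ofNat 180, .negSucc 2915⟩, ⟨.negSucc 945, .ofNat 439, .ofNat 332, .ofNat 1602, .negSucc 17, .negSucc 235⟩, .ofNat 388, .ofNat 124, .ofNat 0, .ofNat 124, .ofNat 657, .ofNat 0, .ofNat 178, .negSucc 109, .negSucc 40, .ofNat 0, .ofNat 128, .ofNat 23, .ofNat 0, .ofNat 0, .ofNat 150, .ofNat 6216, .ofNat 83100296185385627026121344201886544166912, .ofNat 0, .ofNat 0, .ofNat 0, .ofNat 0, .ofNat 0, .ofNat 0, .ofNat 0, .ofNat 425574519380502202900378920470226046812160,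 .ofNat 0, .ofNat 0, .ofNat 0, .ofNat 0, .ofNat 0, .ofNat 0, .ofNat 0⟩)
    (by decide +kernel)
theorem L01296 : Good (Phi V5.P V5.D 1 (-1)) ⟨3, 2, 2, 1, 2, 3, 4, 0, 4, 0⟩ :=
  leafYS_sound T5.ok_pm T5.Ypm.bz_eq (w := 209) (c := ⟨⟨.ofNat 1064, .ofNat 50, .negSucc 105, .negSucc 1037, .ofNat 249, .negSucc 993⟩, ⟨.negSucc 190, .negSucc 54, .negSucc 51, .ofNat 633, .negSucc 53, .ofNat 333⟩, ⟨.negSucc 1144, .negSucc 230, .negSucc 22, .ofNat 1479, .negSucc 253, .negSucc 493⟩, ⟨.ofNat 2813, .ofNat 47, .ofNat 929, .negSucc 1263, .ofNat 826, .negSucc 2575⟩, ⟨.ofNat 1072, .ofNat 373, .ofNat 1169, .ofNat 3810, .ofNat 297, .negSucc 249⟩, .ofNat 896, .ofNat 816, .ofNat 0, .ofNat 816, .ofNat 2427, .ofNat 0, .ofNat 136, .negSucc 127, .negSucc 87, .ofNat 0, .ofNat 94, .ofNat 24, .ofNat 0, .ofNat 0, .ofNat 315, .ofNat 1832, .ofNat 0, .ofNat 0, .ofNat 0, .ofNat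 0, .ofNat 0, .ofNat 0, .ofNat 0, .ofNat 0, .ofNat 0, .ofNat 0, .ofNat 0, .ofNat 0, .ofNat 0, .ofNat 0, .ofNat 0, .ofNat 0⟩)
    (by decide +kernel)
theorem L01297 : Good (Phi V5.P V5.D 1 (-1)) ⟨3, 3, 2, 1, 2, 3, 4, 0, 4, 0⟩ :=
  leafYS_sound T5.ok_pm T5.Ypm.bz_eq (w := 209) (c := ⟨⟨.ofNat 1183, .ofNat 135, .negSucc 127, .negSucc 857, .ofNat 217, .negSucc 1190⟩, ⟨.negSucc 199, .ofNat 29, .ofNat 3, .ofNat 530, .negSucc 119, .ofNat 380⟩, ⟨.negSucc 1507, .negSucc 349, .negSucc 209, .ofNat 1465, .negSucc 68, .negSucc 362⟩, ⟨.ofNat 3242, .negSucc 220, .ofNat 729, .negSucc 885, .ofNat 315, .negSucc 2555⟩, ⟨.ofNat 2187, .negSucc 357, .ofNat 1008, .ofNat 3667, .negSucc 707, .ofNat 412⟩, .ofNat 773, .ofNat 723, .ofNat 0, .ofNat 723, .ofNat 2520, .ofNat 0, .ofNat 130, .negSucc 127, .negSucc 104, .ofNat 0, .ofNat 86, .ofNat 27, .ofNat 0, .ofNat 0, .ofNat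 321, .ofNat 1418, .ofNat 70392931211212490223211544148687127052288, .ofNat 0, .ofNat 0, .ofNat 0, .ofNat 0, .ofNat 0, .ofNat 0, .ofNat 0, .ofNat 0, .ofNat 0, .ofNat 0, .ofNat 0, .ofNat 0, .ofNat 0, .ofNat 171501253970380848673988663255794450432, .ofNat 0⟩)
    (by decide +kernel)
theorem L01298 : Good (Phi V5.P V5.D 1 (-1)) ⟨3, 2, 2, 1, 3, 6, 5, 0, 4, 1⟩ :=
  leafYS_sound T5.ok_pm T5.Ypm.bz_eq (w := 230) (c := ⟨⟨.negSucc 109, .negSucc 123, .negSucc 201, .negSucc 126, .ofNat 63, .negSucc 1155⟩, ⟨.ofNat 65, .ofNat 23, .ofNat 246, .ofNat 236, .negSucc 47, .ofNat 378⟩, ⟨.negSucc 1420, .negSucc 209, .negSucc 129, .ofNat 84, .ofNat 80, .ofNat 766⟩, ⟨.negSucc 380, .ofNat 21, .ofNat 490, .ofNat 689, .ofNat 26, .negSucc 3188⟩, ⟨.ofNat 560, .ofNat 550, .ofNat 1235, .ofNat 2719, .negSucc 201, .negSucc 534⟩, .ofNat 653, .ofNat 408, .ofNat 0, .ofNat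 408, .ofNat 1400, .ofNat 0, .ofNat 128, .negSucc 151, .negSucc 64, .ofNat 0, .ofNat 132, .ofNat 28, .ofNat 0, .ofNat 0, .ofNat 234, .ofNat 24944, .ofNat 213148609112409758826960122051130136228075143168, .ofNat 0, .ofNat 0, .ofNat 0, .ofNat 0, .ofNat 0, .ofNat 0, .ofNat 0, .ofNat 291405152050887619077730883729818162870764961792, .ofNat 0, .ofNat 0, .ofNat 0, .ofNat 0, .ofNat 0, .ofNat 0, .ofNat 0⟩)
    (by decide +kernel)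
theorem L01299 : Good (Phi V5.P V5.D 1 (-1)) ⟨3, 2, 2, 1, 3, 6, 5, 1, 4, 1⟩ :=
  leafYS_sound T5.ok_pm T5.Ypm.bz_eq (w := 229) (c := ⟨⟨.negSucc 47, .negSucc 132, .negSucc 134, .negSucc 121, .ofNat 54, .negSucc 1190⟩, ⟨.ofNat 18, .ofNat 43, .ofNat 209, .ofNat 249, .negSucc 44, .ofNat 406⟩, ⟨.negSucc 1329, .negSucc 221, .negSucc 96, .ofNat 67, .ofNat 96, .ofNat 762⟩, ⟨.negSucc 182, .negSucc 52, .ofNat 513, .ofNat 517, .ofNat 43, .negSucc 3239⟩, ⟨.ofNat 496, .ofNat 545, .ofNat 1072, .ofNat 2411, .negSucc 209, .negSucc 420⟩, .ofNat 650, .ofNat 404, .ofNat 0, .ofNat 404, .ofNat 1401, .ofNat 0, .ofNat 128, .negSucc 151, .negSucc 61, .ofNat 0, .ofNat 133, .ofNat 27, .ofNat 0, .ofNat 0, .ofNat 212, .ofNat 12335, .ofNat 0, .ofNat 0, .ofNat 0, .ofNat 0, .ofNat 0, .ofNat 0, .ofNat 0, .ofNat 0, .ofNat 0, .ofNat 0, .ofNat 0, .ofNat 0, .ofNat 0, .ofNat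 0, .ofNat 0, .ofNat 0⟩)
    (by decide +kernel)
theorem L01300 : Good (Phi V5.P V5.D 1 (-1)) ⟨3, 2, 2, 1, 3, 7, 4, 0, 4, 1⟩ :=
  leafYS_sound T5.ok_pm T5.Ypm.bz_eq (w := 225) (c := ⟨⟨.negSucc 438, .negSucc 74, .negSucc 288, .negSucc 339, .ofNat 163, .negSucc 907⟩, ⟨.ofNat 400, .negSucc 72, .ofNat 346, .ofNat 347, .negSucc 134, .ofNat 297⟩, ⟨.negSucc 1133, .negSucc 39, .negSucc 294, .ofNat 310, .ofNat 177, .ofNat 485⟩, ⟨.negSucc 210, .ofNat 83, .ofNat 1338, .ofNat 227, .negSucc 316, .negSucc 2431⟩, ⟨.ofNat 3425, .ofNat 727, .ofNat 2779, .ofNat 2841, .negSucc 1499, .negSucc 365⟩, .ofNat 871, .ofNat 768, .ofNat 0, .ofNat 768, .ofNat 2375, .ofNat 0, .ofNat 128, .negSucc 271, .negSucc 178, .ofNat 0, .ofNat 217, .ofNat 42, .ofNat 0, .ofNat 0, .ofNat 592, .ofNat 6406, .ofNat 0, .ofNat 0, .ofNat 0, .ofNat 0, .ofNat 0, .ofNat 0, .ofNat 0, .ofNat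 0, .ofNat 0, .ofNat 0, .ofNat 0, .ofNat 0, .ofNat 0, .ofNat 0, .ofNat 0, .ofNat 0⟩)
    (by decide +kernel)

end Crest.Agent.R097C5.N5pm
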