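import Crest.Agent.R097.KS3
import Crest.Agent.R097.T5Ypm

/-!
# Row 97, box cover in dimension n = 5 (generated)
-/

set_option autoImplicit false
set_option Elab.async false
set_option maxHeartbeats 0
set_option maxRecDepth 100000

open Crest.Agent.R097 Crest.Agent.R097.KA


namespace Crest.Agent.R097C5.N5pm

theorem L01301 : Good (Phi V5.P V5.D 1 (-1)) ⟨3, 3, 2, 1, 3, 6, 5, 0, 4, 1⟩ :=
  leafYS_sound T5.ok_pm T5.Ypm.bz_eq (w := 229) (c := ⟨⟨.negSucc 201, .negSucc 91, .negSucc 239, .negSucc 39, .ofNat 51, .negSucc 1278⟩, ⟨.ofNat 61, .ofNat 1, .ofNat 316, .ofNat 202, .negSucc 16, .ofNat 352⟩, ⟨.negSucc 1709, .negSucc 221, .negSucc 135, .negSucc 2, .ofNat 141, .ofNat 931⟩, ⟨.negSucc 374, .negSucc 120, .ofNat 414, .ofNat 852, .negSucc 72, .negSucc 3128⟩, ⟨.ofNat 1058, .ofNat 367, .ofNat 1330, .ofNat 2954, .negSucc 368, .negSucc 391⟩, .ofNat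 578, .ofNat 357, .ofNat 0, .ofNat 357, .ofNat 1451, .ofNat 0, .ofNat 128, .negSucc 210, .negSucc 65, .ofNat 0, .ofNat 171, .ofNat 25, .ofNat 0, .ofNat 0, .ofNat 220, .ofNat 14138, .ofNat 92437282642283363346387047516821017066446258176, .ofNat 0, .ofNat 0, .ofNat 0, .ofNat 0, .ofNat 0, .ofNat 0, .ofNat 0, .ofNat 0, .ofNat 0, .ofNat 0, .ofNat 0, .ofNat 87458315543907969153791765358803944538141360128, .ofNat 0, .ofNat 0, .ofNat 0⟩)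
    (by decide +kernel)
theorem L01302 : Good (Phi V5.P V5.D 1 (-1)) ⟨3, 3, 2, 1, 3, 6, 5, 1, 4, 1⟩ :=
  leafYS_sound T5.ok_pm T5.Ypm.bz_eq (w := 229) (c := ⟨⟨.negSucc 91, .negSucc 139, .negSucc 215, .negSucc 63, .ofNat 82, .negSucc 1360⟩, ⟨.ofNat 2, .ofNat 37, .ofNat 299, .ofNat 237, .negSucc 53, .ofNat 392⟩, ⟨.negSucc 1606, .negSucc 214, .negSucc 80, .negSucc 9, .ofNat 167, .ofNat 935⟩, ⟨.negSucc 267, .negSucc 133, .ofNat 426, .ofNat 679, .ofNat 47, .negSucc 3254⟩, ⟨.ofNat 815, .ofNat 427, .ofNat 1220, .ofNat 2706, .negSucc 275, .negSucc 343⟩, .ofNat 565, .ofNat 336, .ofNat 0, .ofNat 336, .ofNat 1439, .ofNat 0, .ofNat 128, .negSucc 136, .negSucc 72, .ofNat 0, .ofNat 113, .ofNat 27, .ofNat 0, .ofNat 0, .ofNat 226, .ofNat 8924, .ofNat 0, .ofNat 0, .ofNat 0, .ofNat 0, .ofNat 0, .ofNat 0, .ofNat 0, .ofNat 0, .ofNat 0, .ofNat 0, .ofNat 0, .ofNat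 0, .ofNat 0, .ofNat 0, .ofNat 0, .ofNat 0⟩)
    (by decide +kernel)
theorem L01303 : Good (Phi V5.P V5.D 1 (-1)) ⟨3, 3, 2, 1, 3, 7, 4, 0, 4, 1⟩ :=
  leafYS_sound T5.ok_pm T5.Ypm.bz_eq (w := 224) (c := ⟨⟨.negSucc 432, .ofNat 15, .negSucc 243, .negSucc 169, .ofNat 72, .negSucc 1068⟩, ⟨.ofNat 335, .ofNat 2, .ofNat 390, .ofNat 242, .negSucc 116, .ofNat 305⟩, ⟨.negSucc 1344, .negSucc 249, .negSucc 442, .ofNat 413, .ofNat 279, .ofNat 661⟩, ⟨.negSucc 410, .ofNat 38, .ofNat 1316, .ofNat 610, .negSucc 267, .negSucc 2415⟩, ⟨.ofNat 3765, .ofNat 587, .ofNat 2611, .ofNat 2953, .negSucc 1397, .negSucc 113⟩, .ofNat 761, .ofNat 708, .ofNat 0, .ofNat 708, .ofNat 2538, .ofNat 0, .ofNat 128, .negSucc 181, .negSucc 175, .ofNat 0, .ofNat 135, .ofNat 39, .ofNat 0, .ofNat 0, .ofNat 491, .ofNat 2438, .ofNat 0, .ofNat 0, .ofNat 0, .ofNat 0, .ofNat 0, .ofNat 0, .ofNat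 0, .ofNat 0, .ofNat 0, .ofNat 0, .ofNat 0, .ofNat 0, .ofNat 0, .ofNat 0, .ofNat 7813280782676348637193443589502877950803968, .ofNat 0⟩)
    (by decide +kernel)
theorem L01304 : Good (Phi V5.P V5.D 1 (-1)) ⟨2, 1, 2, 1, 2, 2, 4, 1, 3, 0⟩ :=
  leafYS_sound T5.ok_pm T5.Ypm.bz_eq (w := 200) (c := ⟨⟨.ofNat 1418, .ofNat 139, .ofNat 41, .negSucc 160, .ofNat 41, .negSucc 2746⟩, ⟨.negSucc 458, .negSucc 18, .negSucc 28, .ofNat 223, .negSucc 25, .ofNat 799⟩, ⟨.negSucc 941, .negSucc 261, .negSucc 72, .negSucc 638, .ofNat 104, .ofNat 1017⟩, ⟨.ofNat 3656, .ofNat 3, .ofNat 292, .ofNat 195, .ofNat 173, .negSucc 7286⟩, ⟨.negSucc 65, .ofNat 224, .ofNat 256, .ofNat 1714, .ofNat 62, .negSucc 1138⟩, .ofNat 388, .ofNat 123, .ofNat 0, .ofNat 123, .ofNat 657, .ofNat 0, .ofNat 206, .negSucc 106, .negSucc 65, .ofNat 0, .ofNat 128, .ofNat 32, .ofNat 0, .ofNat 0, .ofNat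 208, .ofNat 1923, .ofNat 0, .ofNat 0, .ofNat 0, .ofNat 0, .ofNat 0, .ofNat 0, .ofNat 0, .ofNat 0, .ofNat 0, .ofNat 0, .ofNat 0, .ofNat 0, .ofNat 0, .ofNat 0, .ofNat 0, .ofNat 0⟩)
    (by decide +kernel)
theorem L01305 : Good (Phi V5.P V5.D 1 (-1)) ⟨2, 1, 2, 1, 2, 3, 4, 1, 4, 0⟩ :=
  leafYS_sound T5.ok_pm T5.Ypm.bz_eq (w := 205) (c := ⟨⟨.ofNat 1161, .ofNat 238, .negSucc 28, .negSucc 747, .ofNat 119, .negSucc 1139⟩, ⟨.negSucc 209, .ofNat 28, .negSucc 61, .ofNat 440, .negSucc 59, .ofNat 320⟩, ⟨.negSucc 1366, .negSucc 533, .negSucc 101, .ofNat 1146, .ofNat 212, .negSucc 151⟩, ⟨.ofNat 3520, .negSucc 79, .ofNat 776, .negSucc 883, .ofNat 4, .negSucc 2541⟩, ⟨.ofNat 1802, .ofNat 418, .ofNat 916, .ofNat 2763, .negSucc 622, .negSucc 40⟩, .ofNat 813, .ofNat 742, .ofNat 0, .ofNat 742, .ofNat 2450, .ofNat 0, .ofNat 163, .negSucc 127, .negSucc 108, .ofNat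 0, .ofNat 90, .ofNat 32, .ofNat 0, .ofNat 0, .ofNat 306, .ofNat 1135, .ofNat 0, .ofNat 0, .ofNat 33361509942177128453390779438663204864, .ofNat 0, .ofNat 0, .ofNat 0, .ofNat 0, .ofNat 0, .ofNat 0, .ofNat 0, .ofNat 0, .ofNat 0, .ofNat 0, .ofNat 0, .ofNat 200981152318076648344554816451725230080, .ofNat 0⟩)
    (by decide +kernel)
theorem L01306 : Good (Phi V5.P V5.D 1 (-1)) ⟨3, 2, 2, 1, 2, 3, 4, 1, 4, 1⟩ :=
  leafYS_sound T5.ok_pm T5.Ypm.bz_eq (w := 209) (c := ⟨⟨.ofNat 4, .negSucc 43, .negSucc 181, .negSucc 471, .ofNat 95, .negSucc 1156⟩, ⟨.ofNat 26, .negSucc 20, .ofNat 223, .ofNat 488, .negSucc 77, .ofNat 394⟩, ⟨.negSucc 1238, .negSucc 163, .negSucc 56, .ofNat 386, .ofNat 84, .ofNat 712⟩, ⟨.negSucc 131, .negSucc 29, .ofNat 561, .ofNat 487, .ofNat 81, .negSucc 2879⟩, ⟨.ofNat 540, .ofNat 407, .ofNat 1182, .ofNat 4285, .negSucc 559, .negSucc 63⟩,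 .ofNat 912, .ofNat 835, .ofNat 0, .ofNat 835, .ofNat 2429, .ofNat 0, .ofNat 128, .negSucc 159, .negSucc 80, .ofNat 0, .ofNat 121, .ofNat 31, .ofNat 0, .ofNat 0, .ofNat 254, .ofNat 1460, .ofNat 0, .ofNat 0, .ofNat 0, .ofNat 0, .ofNat 0, .ofNat 0, .ofNat 0, .ofNat 0, .ofNat 0, .ofNat 0, .ofNat 0, .ofNat 0, .ofNat 0, .ofNat 0, .ofNat 0, .ofNat 0⟩)
    (by decide +kernel)
theorem L01307 : Good (Phi V5.P V5.D 1 (-1)) ⟨3, 3, 2, 1, 2, 3, 4, 1, 4, 1⟩ :=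
  leafYS_sound T5.ok_pm T5.Ypm.bz_eq (w := 210) (c := ⟨⟨.negSucc 108, .negSucc 124, .negSucc 152, .negSucc 216, .ofNat 86, .negSucc 1303⟩, ⟨.ofNat 31, .ofNat 38, .ofNat 260, .ofNat 423, .negSucc 81, .ofNat 375⟩, ⟨.negSucc 1433, .negSucc 124, .negSucc 169, .ofNat 450, .ofNat 143, .ofNat 789⟩, ⟨.negSucc 417, .negSucc 168, .ofNat 766, .ofNat 1000, .negSucc 122, .negSucc 2841⟩, ⟨.ofNat 762, .ofNat 362, .ofNat 1488, .ofNat 4859, .negSucc 861, .negSucc 39⟩, .ofNat 739, .ofNat 660, .ofNat 0, .ofNat 660, .ofNat 2486, .ofNat 0, .ofNat 128, .negSucc 172, .negSucc 147, .ofNat 0, .ofNat 125, .ofNat 41, .ofNat 0, .ofNat 0, .ofNat 393, .ofNat 2029, .ofNat 0, .ofNat 0, .ofNat 0, .ofNat 0, .ofNat 0, .ofNat 0, .ofNat 0, .ofNat 0, .ofNat 0, .ofNat 0, .ofNat 0, .ofNat 0, .ofNat 0, .ofNat 0, .ofNat 279864965257917492129815919708629630976, .ofNat 0⟩)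
    (by decide +kernel)
theorem L01308 : Good (Phi V5.P V5.D 1 (-1)) ⟨2, 1, 2, 1, 2, 2, 3, 1, 3, 0⟩ :=
  leafYS_sound T5.ok_pm T5.Ypm.bz_eq (w := 196) (c := ⟨⟨.ofNat 1419, .ofNat 215, .ofNat 12, .negSucc 90, .ofNat 16, .negSucc 2718⟩, ⟨.negSucc 516, .ofNat 84, .negSucc 74, .ofNat 147, .ofNat 75, .ofNat 792⟩, ⟨.negSucc 1205, .negSucc 165, .ofNat 13, .negSucc 450, .ofNat 224, .ofNat 1261⟩, ⟨.ofNat 3645, .ofNat 206, .ofNat 311, .ofNat 270, .ofNat 107, .negSucc 7220⟩, ⟨.ofNat 17, .ofNat 365, .ofNat 311, .ofNat 1478, .ofNat 179, .negSucc 1360⟩, .ofNat 387, .ofNat 123, .ofNat 0, .ofNat 123, .ofNat 658, .ofNat 0, .ofNat 243, .negSucc 100, .negSucc 85, .ofNat 0, .ofNat 128, .ofNat 38, .ofNat 0, .ofNat 0, .ofNat 214, .ofNat 1055, .ofNat 0, .ofNat 0, .ofNat 0, .ofNat 0, .ofNat 0, .ofNat 0, .ofNat 0, .ofNat 0, .ofNat 0, .ofNat 0, .ofNat 0, .ofNat 0,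 .ofNat 0, .ofNat 0, .ofNat 0, .ofNat 0⟩)
    (by decide +kernel)
theorem L01309 : Good (Phi V5.P V5.D 1 (-1)) ⟨2, 1, 2, 1, 2, 3, 3, 1, 4, 0⟩ :=
  leafYS_sound T5.ok_pm T5.Ypm.bz_eq (w := 201) (c := ⟨⟨.ofNat 1164, .ofNat 303, .negSucc 72, .negSucc 745, .ofNat 94, .negSucc 956⟩, ⟨.negSucc 156, .ofNat 27, .negSucc 116, .ofNat 361, .negSucc 91, .ofNat 223⟩, ⟨.negSucc 1236, .negSucc 506, .ofNat 72, .ofNat 1051, .ofNat 151, .negSucc 139⟩, ⟨.ofNat 3609, .ofNat 139, .ofNat 448, .negSucc 1290, .negSucc 76, .negSucc 2202⟩, ⟨.ofNat 2193, .ofNat 518, .ofNat 387, .ofNat 1422, .negSucc 829, .negSucc 400⟩, .ofNat 724, .ofNat 572, .ofNat 0, .ofNat 572, .ofNat 1953, .ofNat 0, .ofNat 176, .negSucc 127, .negSucc 152, .ofNat 0, .ofNat 95, .ofNat 50, .ofNat 0, .ofNat 0, .ofNat 387, .ofNat 909, .ofNat 0, .ofNat 0, .ofNat 2387441050034764387353314500701847552, .ofNat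 0, .ofNat 0, .ofNat 0, .ofNat 0, .ofNat 0, .ofNat 0, .ofNat 0, .ofNat 2203564064329602649189761955378757632, .ofNat 0, .ofNat 0, .ofNat 0, .ofNat 0, .ofNat 0⟩)
    (by decide +kernel)
theorem L01310 : Good (Phi V5.P V5.D 1 (-1)) ⟨2, 1, 2, 1, 2, 3, 4, 2, 4, 1⟩ :=
  leafYS_sound T5.ok_pm T5.Ypm.bz_eq (w := 205) (c := ⟨⟨.ofNat 63, .negSucc 194, .negSucc 72, .negSucc 260, .ofNat 73, .negSucc 1288⟩, ⟨.ofNat 5, .negSucc 1, .ofNat 195, .ofNat 350, .negSucc 79, .ofNat 397⟩, ⟨.negSucc 1173, .negSucc 193, .negSucc 52, .ofNat 333, .ofNat 125, .ofNat 833⟩, ⟨.ofNat 50, .negSucc 208, .ofNat 604, .ofNat 462, .ofNat 42, .negSucc 3180⟩, ⟨.ofNat 567, .ofNat 686, .ofNat 879, .ofNat 3393, .negSucc 527, .negSucc 273⟩, .ofNat 599, .ofNat 361, .ofNat 0, .ofNat 361, .ofNat 1423, .ofNat 0, .ofNat 141, .negSucc 127, .negSucc 133, .ofNat 0, .ofNat 113, .ofNat 40, .ofNat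 0, .ofNat 0, .ofNat 332, .ofNat 1342, .ofNat 0, .ofNat 0, .ofNat 0, .ofNat 0, .ofNat 0, .ofNat 0, .ofNat 123230217845514830745329121500432695296, .ofNat 0, .ofNat 0, .ofNat 0, .ofNat 0, .ofNat 0, .ofNat 0, .ofNat 0, .ofNat 0, .ofNat 0⟩)
    (by decide +kernel)
theorem L01311 : Good (Phi V5.P V5.D 1 (-1)) ⟨2, 1, 2, 1, 2, 3, 4, 3, 4, 1⟩ :=
  leafYS_sound T5.ok_pm T5.Ypm.bz_eq (w := 205) (c := ⟨⟨.ofNat 160, .negSucc 249, .ofNat 16, .negSucc 311, .ofNat 64, .negSucc 1349⟩, ⟨.negSucc 50, .negSucc 7, .ofNat 143, .ofNat 317, .negSucc 25, .ofNat 421⟩, ⟨.negSucc 984, .negSucc 171, .negSucc 104, .ofNat 330, .ofNat 118, .ofNat 842⟩, ⟨.ofNat 399, .negSucc 312, .ofNat 625, .negSucc 1, .negSucc 64, .negSucc 3311⟩, ⟨.ofNat 670, .ofNat 479, .ofNat 672, .ofNat 2422, .negSucc 507, .negSucc 286⟩, .ofNat 607, .ofNat 371, .ofNat 0, .ofNat 371, .ofNat 1415, .ofNat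 0, .ofNat 175, .negSucc 127, .negSucc 150, .ofNat 0, .ofNat 112, .ofNat 48, .ofNat 0, .ofNat 0, .ofNat 345, .ofNat 1448, .ofNat 0, .ofNat 0, .ofNat 0, .ofNat 0, .ofNat 0, .ofNat 0, .ofNat 0, .ofNat 0, .ofNat 0, .ofNat 0, .ofNat 0, .ofNat 0, .ofNat 0, .ofNat 0, .ofNat 0, .ofNat 0⟩)
    (by decide +kernel)
theorem L01312 : Good (Phi V5.P V5.D 1 (-1)) ⟨2, 1, 2, 1, 2, 2, 5, 0, 4, 2⟩ :=
  leafYS_sound T5.ok_pm T5.Ypm.bz_eq (w := 214) (c := ⟨⟨.negSucc 998, .negSucc 421, .negSucc 198, .negSucc 243, .ofNat 108, .negSucc 511⟩, ⟨.ofNat 150, .negSucc 6, .ofNat 388, .ofNat 291, .negSucc 80, .ofNat 100⟩, ⟨.negSucc 256, .negSucc 234, .negSucc 16, .negSucc 451, .ofNat 82, .ofNat 831⟩, ⟨.negSucc 3606, .negSucc 119, .negSucc 89, .ofNat 455, .ofNat 63, .negSucc 1447⟩, ⟨.negSucc 2315, .ofNat 796, .ofNat 659, .ofNat 3084, .negSucc 392, .negSucc 134⟩, .ofNat 619,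 .ofNat 395, .ofNat 0, .ofNat 395, .ofNat 1458, .ofNat 0, .ofNat 128, .negSucc 179, .negSucc 21, .ofNat 0, .ofNat 158, .ofNat 12, .ofNat 0, .ofNat 0, .ofNat 131, .ofNat 99090, .ofNat 12064294796149960589165684883245952342687744, .ofNat 0, .ofNat 0, .ofNat 0, .ofNat 14430695828622215549607828250445741174030336, .ofNat 0, .ofNat 0, .ofNat 0, .ofNat 0, .ofNat 0, .ofNat 0, .ofNat 0, .ofNat 12183760141546430386752865951809834902880256, .ofNat 0, .ofNat 0, .ofNat 0⟩)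
    (by decide +kernel)
theorem L01313 : Good (Phi V5.P V5.D 1 (-1)) ⟨2, 1, 2, 1, 2, 2, 5, 1, 4, 2⟩ :=
  leafYS_sound T5.ok_pm T5.Ypm.bz_eq (w := 212) (c := ⟨⟨.negSucc 946, .negSucc 388, .negSucc 71, .negSucc 277, .ofNat 8, .negSucc 336⟩, ⟨.ofNat 188, .negSucc 42, .ofNat 340, .ofNat 202, .negSucc 11, .ofNat 107⟩, ⟨.ofNat 51, .negSucc 94, .negSucc 16, .negSucc 748, .ofNat 77, .ofNat 687⟩, ⟨.negSucc 3006, .negSucc 19, .negSucc 83, .negSucc 207, .negSucc 94, .negSucc 875⟩, ⟨.negSucc 853, .ofNat 505, .ofNat 243, .ofNat 1441, .negSucc 273, .negSucc 105⟩, .ofNat 619, .ofNat 395, .ofNat 0, .ofNat 395, .ofNat 1458, .ofNat 0, .ofNat 128, .negSucc 174, .negSucc 40, .ofNat 0, .ofNat 155, .ofNat 21, .ofNat 0, .ofNat 0, .ofNat 218, .ofNat 22164, .ofNat 531922592530350870266007048498831977086976, .ofNat 0, .ofNat 0, .ofNat 0, .ofNat 2321859283528370172984313816090202551091200,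 .ofNat 0, .ofNat 0, .ofNat 0, .ofNat 0, .ofNat 0, .ofNat 0, .ofNat 0, .ofNat 1996114757245873496154680405505141507096576, .ofNat 0, .ofNat 0, .ofNat 0⟩)
    (by decide +kernel)
theorem L01314 : Good (Phi V5.P V5.D 1 (-1)) ⟨2, 1, 2, 1, 2, 2, 4, 1, 4, 2⟩ :=
  leafYS_sound T5.ok_pm T5.Ypm.bz_eq (w := 207) (c := ⟨⟨.negSucc 959, .negSucc 415, .negSucc 57, .negSucc 236, .ofNat 8, .negSucc 304⟩, ⟨.ofNat 201, .negSucc 45, .ofNat 350, .ofNat 161, .negSucc 4, .ofNat 93⟩, ⟨.ofNat 47, .negSucc 45, .negSucc 37, .negSucc 554, .ofNat 160, .ofNat 543⟩, ⟨.negSucc 3094, .negSucc 87, .negSucc 17, .negSucc 188, .ofNat 18, .negSucc 795⟩, ⟨.negSucc 865, .ofNat 397, .ofNat 302, .ofNat 1155, .ofNat 15, .negSucc 131⟩, .ofNat 609, .ofNat 379, .ofNat 0, .ofNat 379, .ofNat 1418, .ofNat 0, .ofNat 128, .negSucc 135, .negSucc 35, .ofNat 0, .ofNat 125, .ofNat 17, .ofNat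 0, .ofNat 0, .ofNat 164, .ofNat 6954, .ofNat 0, .ofNat 0, .ofNat 0, .ofNat 0, .ofNat 0, .ofNat 0, .ofNat 0, .ofNat 0, .ofNat 0, .ofNat 0, .ofNat 0, .ofNat 0, .ofNat 72729416911655598222113304270904867422208, .ofNat 0, .ofNat 0, .ofNat 0⟩)
    (by decide +kernel)
theorem L01315 : Good (Phi V5.P V5.D 1 (-1)) ⟨2, 1, 2, 1, 2, 2, 3, 1, 4, 2⟩ :=
  leafYS_sound T5.ok_pm T5.Ypm.bz_eq (w := 202) (c := ⟨⟨.negSucc 899, .negSucc 448, .negSucc 55, .negSucc 254, .ofNat 44, .negSucc 346⟩, ⟨.ofNat 181, .negSucc 28, .ofNat 351, .ofNat 147, .negSucc 9, .ofNat 108⟩, ⟨.ofNat 45, .ofNat 61, .negSucc 13, .negSucc 382, .ofNat 276, .ofNat 521⟩, ⟨.negSucc 2896, .negSucc 150, .negSucc 57, .negSucc 286, .ofNat 115, .negSucc 913⟩, ⟨.negSucc 726, .ofNat 376, .ofNat 261, .ofNat 951, .negSucc 12, .negSucc 138⟩, .ofNat 599, .ofNat 363, .ofNat 0, .ofNat 363, .ofNat 1424,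 .ofNat 0, .ofNat 140, .negSucc 127, .negSucc 48, .ofNat 0, .ofNat 122, .ofNat 22, .ofNat 0, .ofNat 0, .ofNat 198, .ofNat 2931, .ofNat 0, .ofNat 0, .ofNat 0, .ofNat 0, .ofNat 0, .ofNat 0, .ofNat 0, .ofNat 0, .ofNat 0, .ofNat 0, .ofNat 0, .ofNat 0, .ofNat 0, .ofNat 0, .ofNat 0, .ofNat 0⟩)
    (by decide +kernel)
theorem L01316 : Good (Phi V5.P V5.D 1 (-1)) ⟨2, 1, 2, 1, 2, 2, 3, 0, 4, 3⟩ :=
  leafYS_sound T5.ok_pm T5.Ypm.bz_eq (w := 204) (c := ⟨⟨.negSucc 1297, .negSucc 413, .negSucc 62, .negSucc 190, .ofNat 8, .ofNat 35⟩, ⟨.ofNat 305, .negSucc 58, .ofNat 373, .ofNat 125, .ofNat 7, .negSucc 23⟩, ⟨.ofNat 307, .ofNat 0, .negSucc 15, .negSucc 411, .ofNat 318, .ofNat 334⟩, ⟨.negSucc 3898, .ofNat 0, .negSucc 97, .negSucc 195, .negSucc 2, .ofNat 38⟩, ⟨.negSucc 767, .ofNat 400, .ofNat 190, .ofNat 900, .negSucc 51, .negSucc 166⟩, .ofNat 601, .ofNat 360,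 .ofNat 0, .ofNat 360, .ofNat 1415, .ofNat 0, .ofNat 169, .negSucc 124, .negSucc 53, .ofNat 0, .ofNat 128, .ofNat 27, .ofNat 0, .ofNat 0, .ofNat 346, .ofNat 19573, .ofNat 6882139686741848213073096908123169357824, .ofNat 0, .ofNat 0, .ofNat 0, .ofNat 0, .ofNat 0, .ofNat 0, .ofNat 0, .ofNat 93224098042697874327671684513604237787136, .ofNat 0, .ofNat 0, .ofNat 0, .ofNat 87575347376379127783987675843458154627072, .ofNat 0, .ofNat 0, .ofNat 0⟩)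
    (by decide +kernel)
theorem L01317 : Good (Phi V5.P V5.D 1 (-1)) ⟨2, 1, 2, 1, 2, 2, 3, 1, 4, 3⟩ :=
  leafYS_sound T5.ok_pm T5.Ypm.bz_eq (w := 202) (c := ⟨⟨.negSucc 1265, .negSucc 446, .negSucc 40, .negSucc 193, .negSucc 4, .ofNat 7⟩, ⟨.ofNat 308, .negSucc 62, .ofNat 355, .ofNat 112, .ofNat 2, .ofNat 11⟩, ⟨.ofNat 512, .ofNat 111, .ofNat 2, .negSucc 318, .ofNat 248, .ofNat 285⟩, ⟨.negSucc 3837, .negSucc 64, .negSucc 44, .negSucc 222, .ofNat 17, .negSucc 26⟩, ⟨.negSucc 697, .ofNat 358, .ofNat 155, .ofNat 723, .ofNat 37, .negSucc 80⟩, .ofNat 603, .ofNat 367, .ofNat 0, .ofNat 367, .ofNat 1419, .ofNat 0, .ofNat 131, .negSucc 125, .negSucc 38, .ofNat 0, .ofNat 128, .ofNat 18, .ofNat 0, .ofNat 0, .ofNat 223, .ofNat 4050, .ofNat 0, .ofNat 0, .ofNat 0, .ofNat 0, .ofNat 0, .ofNat 0, .ofNat 0, .ofNat 0, .ofNat 0, .ofNat 0, .ofNat 0, .ofNat 0, .ofNat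 18898667878050277180861773024893291462656, .ofNat 0, .ofNat 0, .ofNat 0⟩)
    (by decide +kernel)
theorem L01318 : Good (Phi V5.P V5.D 1 (-1)) ⟨2, 1, 2, 1, 3, 6, 5, 0, 5, 4⟩ :=
  leafYS_sound T5.ok_pm T5.Ypm.bz_eq (w := 232) (c := ⟨⟨.negSucc 1137, .negSucc 367, .negSucc 273, .negSucc 93, .negSucc 5, .negSucc 209⟩, ⟨.ofNat 342, .negSucc 5, .ofNat 452, .ofNat 209, .negSucc 4, .ofNat 36⟩, ⟨.negSucc 707, .negSucc 243, .negSucc 73, .ofNat 83, .ofNat 112, .ofNat 406⟩, ⟨.negSucc 3250, .ofNat 1, .ofNat 246, .ofNat 643, .negSucc 141, .negSucc 642⟩, ⟨.ofNat 585, .ofNat 1101, .ofNat 1270, .ofNat 2412, .negSucc 646, .negSucc 352⟩, .ofNat 722, .ofNat 557, .ofNat 0, .ofNat 557, .ofNat 1938, .ofNat 0, .ofNat 128, .negSucc 194, .negSucc 53, .ofNat 0, .ofNat 163, .ofNat 22, .ofNat 0, .ofNat 0, .ofNat 214, .ofNat 58472, .ofNat 210101517875066155312497160702288840084454113280,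 .ofNat 0, .ofNat 0, .ofNat 0, .ofNat 85258818816238691060690391836472713864217100288, .ofNat 0, .ofNat 2909331776884924131775741430512057869397917696, .ofNat 0, .ofNat 0, .ofNat 0, .ofNat 0, .ofNat 0, .ofNat 24650079005228139091913526732035501802523721728, .ofNat 0, .ofNat 0, .ofNat 0⟩)
    (by decide +kernel)
theorem L01319 : Good (Phi V5.P V5.D 1 (-1)) ⟨2, 1, 2, 1, 3, 6, 5, 1, 5, 4⟩ :=
  leafYS_sound T5.ok_pm T5.Ypm.bz_eq (w := 231) (c := ⟨⟨.negSucc 1153, .negSucc 388, .negSucc 245, .negSucc 77, .ofNat 17, .negSucc 224⟩, ⟨.ofNat 352, .negSucc 18, .ofNat 444, .ofNat 188, .negSucc 17, .ofNat 52⟩, ⟨.negSucc 644, .negSucc 171, .negSucc 63, .ofNat 95, .ofNat 131, .ofNat 387⟩, ⟨.negSucc 3273, .negSucc 49, .ofNat 229, .ofNat 555, .negSucc 45, .negSucc 708⟩, ⟨.ofNat 189, .ofNat 1055, .ofNat 1141, .ofNat 2255, .negSucc 224, .negSucc 420⟩, .ofNat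 619, .ofNat 395, .ofNat 0, .ofNat 395, .ofNat 1458, .ofNat 0, .ofNat 128, .negSucc 174, .negSucc 60, .ofNat 0, .ofNat 157, .ofNat 27, .ofNat 0, .ofNat 0, .ofNat 228, .ofNat 19176, .ofNat 0, .ofNat 0, .ofNat 0, .ofNat 0, .ofNat 0, .ofNat 0, .ofNat 3302347506535893315037056019685773033923936256, .ofNat 0, .ofNat 0, .ofNat 0, .ofNat 0, .ofNat 0, .ofNat 0, .ofNat 0, .ofNat 0, .ofNat 0⟩)
    (by decide +kernel)
theorem L01320 : Good (Phi V5.P V5.D 1 (-1)) ⟨2, 1, 2, 1, 3, 6, 5, 0, 5, 5⟩ :=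
  leafYS_sound T5.ok_pm T5.Ypm.bz_eq (w := 234) (c := ⟨⟨.negSucc 1441, .negSucc 316, .negSucc 270, .negSucc 31, .ofNat 20, .negSucc 49⟩, ⟨.ofNat 382, .negSucc 39, .ofNat 498, .ofNat 205, .negSucc 13, .negSucc 34⟩, ⟨.negSucc 392, .negSucc 184, .negSucc 108, .ofNat 167, .ofNat 109, .ofNat 288⟩, ⟨.negSucc 4394, .ofNat 236, .ofNat 384, .ofNat 783, .ofNat 46, .negSucc 336⟩, ⟨.negSucc 638, .ofNat 1351, .ofNat 1514, .ofNat 2541, .negSucc 148, .negSucc 613⟩, .ofNat 712, .ofNat 539, .ofNat 0, .ofNat 539, .ofNat 1924, .ofNat 0, .ofNat 128, .negSucc 140, .negSucc 36, .ofNat 0, .ofNat 129, .ofNat 14, .ofNat 0, .ofNat 0, .ofNat 163, .ofNat 177533, .ofNat 1048457870808824976659737912949033908327227064320, .ofNat 0, .ofNat 0, .ofNat 0, .ofNat 1445732075653111454190089557488355129194209869824, .ofNat 0, .ofNat 0, .ofNat 0, .ofNat 1157682401535672819713654416665803265237191753728,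 .ofNat 0, .ofNat 0, .ofNat 0, .ofNat 294450461587037988503603057196964438059675287552, .ofNat 0, .ofNat 0, .ofNat 0⟩)
    (by decide +kernel)
theorem L01321 : Good (Phi V5.P V5.D 1 (-1)) ⟨2, 1, 2, 1, 3, 6, 5, 1, 5, 5⟩ :=
  leafYS_sound T5.ok_pm T5.Ypm.bz_eq (w := 232) (c := ⟨⟨.negSucc 1388, .negSucc 391, .negSucc 220, .negSucc 50, .ofNat 8, .negSucc 47⟩, ⟨.ofNat 397, .negSucc 29, .ofNat 462, .ofNat 166, .negSucc 5, .negSucc 4⟩, ⟨.negSucc 280, .negSucc 108, .negSucc 43, .ofNat 77, .ofNat 113, .ofNat 268⟩, ⟨.negSucc 4068, .ofNat 63, .ofNat 182, .ofNat 608, .negSucc 9, .negSucc 215⟩, ⟨.negSucc 203, .ofNat 1021, .ofNat 1020, .ofNat 2092, .negSucc 25, .negSucc 342⟩, .ofNat 734, .ofNat 583, .ofNat 0, .ofNat 583, .ofNat 1946, .ofNat 0, .ofNat 128, .negSucc 172, .negSucc 38, .ofNat 0, .ofNat 151, .ofNat 17, .ofNat 0, .ofNat 0, .ofNat 186, .ofNat 33301,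 .ofNat 0, .ofNat 0, .ofNat 0, .ofNat 0, .ofNat 0, .ofNat 0, .ofNat 1181335987996635224932354257758967008994525184, .ofNat 0, .ofNat 0, .ofNat 0, .ofNat 0, .ofNat 0, .ofNat 0, .ofNat 0, .ofNat 0, .ofNat 0⟩)
    (by decide +kernel)
theorem L01322 : Good (Phi V5.P V5.D 1 (-1)) ⟨2, 1, 2, 1, 3, 6, 4, 1, 5, 4⟩ :=
  leafYS_sound T5.ok_pm T5.Ypm.bz_eq (w := 226) (c := ⟨⟨.negSucc 1145, .negSucc 418, .negSucc 181, .negSucc 58, .ofNat 50, .negSucc 258⟩, ⟨.ofNat 349, .ofNat 1, .ofNat 409, .ofNat 164, .negSucc 47, .ofNat 77⟩, ⟨.negSucc 542, .negSucc 82, .negSucc 28, .ofNat 64, .ofNat 205, .ofNat 351⟩, ⟨.negSucc 3265, .negSucc 30, .ofNat 203, .ofNat 488, .negSucc 53, .negSucc 624⟩, ⟨.ofNat 121, .ofNat 1135, .ofNat 918, .ofNat 2037, .negSucc 420, .negSucc 131⟩, .ofNat 623, .ofNat 388, .ofNat 0, .ofNat 388, .ofNat 1410, .ofNat 0, .ofNat 156, .negSucc 127,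 .negSucc 58, .ofNat 0, .ofNat 119, .ofNat 26, .ofNat 0, .ofNat 0, .ofNat 207, .ofNat 9636, .ofNat 0, .ofNat 0, .ofNat 0, .ofNat 0, .ofNat 0, .ofNat 0, .ofNat 0, .ofNat 0, .ofNat 0, .ofNat 0, .ofNat 273411205951554787409383572278297688656576512, .ofNat 0, .ofNat 0, .ofNat 0, .ofNat 0, .ofNat 0⟩)
    (by decide +kernel)
theorem L01323 : Good (Phi V5.P V5.D 1 (-1)) ⟨2, 1, 2, 1, 3, 6, 4, 1, 5, 5⟩ :=
  leafYS_sound T5.ok_pm T5.Ypm.bz_eq (w := 226) (c := ⟨⟨.negSucc 1347, .negSucc 427, .negSucc 178, .negSucc 80, .ofNat 2, .negSucc 76⟩, ⟨.ofNat 403, .negSucc 35, .ofNat 442, .ofNat 147, .negSucc 20, .ofNat 8⟩, ⟨.negSucc 213, .negSucc 21, .negSucc 34, .ofNat 69, .ofNat 208, .ofNat 261⟩, ⟨.negSucc 3835, .negSucc 15, .ofNat 197, .ofNat 367, .negSucc 106, .negSucc 318⟩, ⟨.ofNat 112, .ofNat 906, .ofNat 895, .ofNat 1705, .negSucc 287, .negSucc 361⟩, .ofNat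 607, .ofNat 370, .ofNat 0, .ofNat 370, .ofNat 1411, .ofNat 0, .ofNat 161, .negSucc 127, .negSucc 48, .ofNat 0, .ofNat 128, .ofNat 21, .ofNat 0, .ofNat 0, .ofNat 210, .ofNat 11591, .ofNat 0, .ofNat 0, .ofNat 37262933184283548519881183985943112207826944, .ofNat 0, .ofNat 0, .ofNat 0, .ofNat 0, .ofNat 0, .ofNat 0, .ofNat 0, .ofNat 843448804562740825559386097608464326086098944, .ofNat 0, .ofNat 0, .ofNat 0, .ofNat 0, .ofNat 0⟩)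
    (by decide +kernel)
theorem L01324 : Good (Phi V5.P V5.D 1 (-1)) ⟨2, 1, 2, 1, 3, 6, 3, 1, 4, 2⟩ :=
  leafYS_sound T5.ok_pm T5.Ypm.bz_eq (w := 216) (c := ⟨⟨.negSucc 1088, .negSucc 517, .negSucc 112, .negSucc 99, .ofNat 34, .negSucc 367⟩, ⟨.ofNat 336, .negSucc 2, .ofNat 390, .ofNat 131, .negSucc 48, .ofNat 101⟩, ⟨.negSucc 384, .ofNat 90, .negSucc 14, .ofNat 41, .ofNat 310, .ofNat 579⟩, ⟨.negSucc 3056, .negSucc 317, .ofNat 142, .ofNat 257, .negSucc 71, .negSucc 1024⟩, ⟨.ofNat 310, .ofNat 769, .ofNat 527, .ofNat 1460, .negSucc 492, .negSucc 313⟩, .ofNat 600, .ofNat 362, .ofNat 0, .ofNat 362, .ofNat 1419, .ofNat 0, .ofNat 183, .negSucc 127, .negSucc 50, .ofNat 0, .ofNat 124, .ofNat 21, .ofNat 0, .ofNat 0, .ofNat 174, .ofNat 3221, .ofNat 0, .ofNat 0, .ofNat 67963284935246996040131216143926289235968, .ofNat 0, .ofNat 0, .ofNat 0, .ofNat 0, .ofNat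 0, .ofNat 0, .ofNat 0, .ofNat 0, .ofNat 0, .ofNat 0, .ofNat 0, .ofNat 53364163185974959615956089425419667767296, .ofNat 0⟩)
    (by decide +kernel)
theorem L01325 : Good (Phi V5.P V5.D 1 (-1)) ⟨3, 2, 2, 1, 3, 6, 3, 0, 4, 3⟩ :=
  leafYS_sound T5.ok_pm T5.Ypm.bz_eq (w := 222) (c := ⟨⟨.negSucc 1489, .negSucc 176, .negSucc 128, .negSucc 28, .negSucc 12, .ofNat 93⟩, ⟨.ofNat 450, .ofNat 1, .ofNat 413, .ofNat 86, .negSucc 16, .negSucc 68⟩, ⟨.negSucc 51, .negSucc 7, .negSucc 39, .ofNat 22, .ofNat 309, .ofNat 306⟩, ⟨.negSucc 4003, .ofNat 32, .ofNat 44, .ofNat 268, .negSucc 149, .ofNat 43⟩, ⟨.ofNat 360, .ofNat 323, .ofNat 563, .ofNat 983, .negSucc 272, .negSucc 472⟩, .ofNat 979, .ofNat 974, .ofNat 0, .ofNat 974, .ofNat 2817, .ofNat 0, .ofNat 128, .negSucc 206, .negSucc 35, .ofNat 0, .ofNat 179, .ofNat 17, .ofNat 0, .ofNat 0, .ofNat 249, .ofNat 19865,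 .ofNat 787155629662500910915701513702427550994661376, .ofNat 0, .ofNat 0, .ofNat 0, .ofNat 1692287547952307858064373544039656748853755904, .ofNat 0, .ofNat 0, .ofNat 0, .ofNat 12423863126201559678369396644707194245126029312, .ofNat 0, .ofNat 0, .ofNat 0, .ofNat 2381357443309917725132312173091576207172960256, .ofNat 0, .ofNat 0, .ofNat 0⟩)
    (by decide +kernel)
theorem L01326 : Good (Phi V5.P V5.D 1 (-1)) ⟨3, 3, 2, 1, 3, 6, 3, 0, 4, 3⟩ :=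
  leafYS_sound T5.ok_pm T5.Ypm.bz_eq (w := 222) (c := ⟨⟨.negSucc 1682, .negSucc 188, .negSucc 142, .ofNat 13, .negSucc 44, .ofNat 117⟩, ⟨.ofNat 465, .negSucc 63, .ofNat 423, .ofNat 82, .negSucc 25, .negSucc 71⟩, ⟨.negSucc 134, .negSucc 16, .negSucc 40, .ofNat 27, .ofNat 412, .ofNat 306⟩, ⟨.negSucc 4023, .ofNat 92, .ofNat 68, .ofNat 358, .negSucc 225, .ofNat 99⟩, ⟨.ofNat 789, .ofNat 392, .ofNat 556, .ofNat 1193, .negSucc 426, .negSucc 531⟩, .ofNat 761, .ofNat 708, .ofNat 0, .ofNat 708, .ofNat 2538, .ofNat 0, .ofNat 128, .negSucc 203, .negSucc 32, .ofNat 0, .ofNat 175, .ofNat 13, .ofNat 0, .ofNat 0, .ofNat 222, .ofNat 13141, .ofNat 48534270020230440192100201156150036948582400, .ofNat 0, .ofNat 0, .ofNat 0, .ofNat 2799309995720180155129863889844986723117826048, .ofNat 0, .ofNat 0, .ofNat 0, .ofNat 0, .ofNat 0, .ofNat 0, .ofNat 0, .ofNat 1462560940045617758324381811529941735733985280,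 .ofNat 0, .ofNat 0, .ofNat 0⟩)
    (by decide +kernel)
theorem L01327 : Good (Phi V5.P V5.D 1 (-1)) ⟨2, 1, 2, 1, 3, 6, 3, 1, 4, 3⟩ :=
  leafYS_sound T5.ok_pm T5.Ypm.bz_eq (w := 217) (c := ⟨⟨.negSucc 1488, .negSucc 425, .negSucc 84, .negSucc 32, .negSucc 41, .ofNat 91⟩, ⟨.ofNat 445, .negSucc 56, .ofNat 408, .ofNat 80, .negSucc 3, .negSucc 65⟩, ⟨.ofNat 210, .ofNat 103, .negSucc 22, .ofNat 36, .ofNat 294, .ofNat 271⟩, ⟨.negSucc 4137, .negSucc 10, .ofNat 84, .ofNat 280, .negSucc 176, .ofNat 66⟩, ⟨.ofNat 45, .ofNat 704, .ofNat 496, .ofNat 1038, .negSucc 211, .negSucc 424⟩, .ofNat 605, .ofNat 367, .ofNat 0, .ofNat 367, .ofNat 1417, .ofNat 0, .ofNat 195, .negSucc 115, .negSucc 46, .ofNat 0, .ofNat 128, .ofNat 19, .ofNat 0, .ofNat 0, .ofNat 287, .ofNat 4928, .ofNat 0, .ofNat 0, .ofNat 88721032613970905813862633261101586841600, .ofNat 0, .ofNat 0,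 .ofNat 0, .ofNat 0, .ofNat 0, .ofNat 0, .ofNat 0, .ofNat 1244814064498330534206549430065449771466752, .ofNat 0, .ofNat 0, .ofNat 0, .ofNat 0, .ofNat 0⟩)
    (by decide +kernel)
theorem L01328 : Good (Phi V5.P V5.D 1 (-1)) ⟨3, 2, 2, 1, 3, 7, 3, 0, 5, 4⟩ :=
  leafYS_sound T5.ok_pm T5.Ypm.bz_eq (w := 226) (c := ⟨⟨.negSucc 1313, .negSucc 116, .negSucc 314, .negSucc 134, .ofNat 113, .negSucc 161⟩, ⟨.ofNat 610, .negSucc 22, .ofNat 476, .ofNat 232, .negSucc 156, .ofNat 19⟩, ⟨.negSucc 490, .negSucc 51, .negSucc 160, .ofNat 6, .ofNat 364, .ofNat 290⟩, ⟨.negSucc 3047, .ofNat 284, .ofNat 856, .ofNat 740, .negSucc 458, .negSucc 452⟩, ⟨.ofNat 2509, .ofNat 965, .ofNat 2203, .ofNat 2624, .negSucc 1812, .negSucc 301⟩, .ofNat 985, .ofNat 971, .ofNat 0, .ofNat 971, .ofNat 2784, .ofNat 0, .ofNat 128, .negSucc 217, .negSucc 114, .ofNat 0, .ofNat 183, .ofNat 33,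 .ofNat 0, .ofNat 0, .ofNat 438, .ofNat 3688, .ofNat 0, .ofNat 0, .ofNat 0, .ofNat 0, .ofNat 0, .ofNat 0, .ofNat 0, .ofNat 0, .ofNat 0, .ofNat 0, .ofNat 0, .ofNat 0, .ofNat 0, .ofNat 0, .ofNat 0, .ofNat 0⟩)
    (by decide +kernel)
theorem L01329 : Good (Phi V5.P V5.D 1 (-1)) ⟨3, 3, 2, 1, 3, 7, 3, 0, 5, 4⟩ :=
  leafYS_sound T5.ok_pm T5.Ypm.bz_eq (w := 225) (c := ⟨⟨.negSucc 1421, .negSucc 109, .negSucc 275, .ofNat 37, .negSucc 12, .negSucc 231⟩, ⟨.ofNat 569, .ofNat 10, .ofNat 506, .ofNat 162, .negSucc 137, .ofNat 27⟩, ⟨.negSucc 597, .negSucc 115, .negSucc 215, .ofNat 38, .ofNat 476, .ofNat 348⟩, ⟨.negSucc 2861, .ofNat 224, .ofNat 799, .ofNat 756, .negSucc 523, .negSucc 568⟩, ⟨.ofNat 3387, .ofNat 937, .ofNat 2004, .ofNat 2216, .negSucc 1678, .negSucc 394⟩, .ofNat 882, .ofNat 1006, .ofNat 0, .ofNat 1006, .ofNat 3583, .ofNat 0, .ofNat 128, .negSucc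 221, .negSucc 134, .ofNat 0, .ofNat 175, .ofNat 32, .ofNat 0, .ofNat 0, .ofNat 451, .ofNat 1940, .ofNat 0, .ofNat 0, .ofNat 0, .ofNat 0, .ofNat 0, .ofNat 0, .ofNat 0, .ofNat 0, .ofNat 0, .ofNat 0, .ofNat 0, .ofNat 0, .ofNat 0, .ofNat 0, .ofNat 17057200014451416412297843412863548114599936, .ofNat 0⟩)
    (by decide +kernel)
theorem L01330 : Good (Phi V5.P V5.D 1 (-1)) ⟨2, 1, 2, 1, 3, 7, 3, 1, 5, 4⟩ :=
  leafYS_sound T5.ok_pm T5.Ypm.bz_eq (w := 221) (c := ⟨⟨.negSucc 1178, .negSucc 359, .negSucc 220, .negSucc 66, .ofNat 2, .negSucc 232⟩, ⟨.ofNat 499, .negSucc 27, .ofNat 432, .ofNat 125, .negSucc 109, .ofNat 58⟩, ⟨.negSucc 307, .ofNat 46, .negSucc 47, .ofNat 115, .ofNat 328, .ofNat 326⟩, ⟨.negSucc 2771, .negSucc 54, .ofNat 418, .ofNat 284, .negSucc 516, .negSucc 645⟩, ⟨.ofNat 2050, .ofNat 1076, .ofNat 1152, .ofNat 1308, .negSucc 1535, .negSucc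 251⟩, .ofNat 808, .ofNat 736, .ofNat 0, .ofNat 736, .ofNat 2451, .ofNat 0, .ofNat 128, .negSucc 139, .negSucc 79, .ofNat 0, .ofNat 115, .ofNat 23, .ofNat 0, .ofNat 0, .ofNat 235, .ofNat 1877, .ofNat 0, .ofNat 0, .ofNat 0, .ofNat 0, .ofNat 0, .ofNat 0, .ofNat 0, .ofNat 0, .ofNat 0, .ofNat 0, .ofNat 0, .ofNat 0, .ofNat 0, .ofNat 0, .ofNat 13986870090337074809500536831446928874012672, .ofNat 0⟩)
    (by decide +kernel)
theorem L01331 : Good (Phi V5.P V5.D 1 (-1)) ⟨2, 1, 2, 1, 3, 7, 3, 0, 5, 5⟩ :=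
  leafYS_sound T5.ok_pm T5.Ypm.bz_eq (w := 222) (c := ⟨⟨.negSucc 1482, .negSucc 223, .negSucc 307, .negSucc 0, .negSucc 19, .negSucc 28⟩, ⟨.ofNat 618, .negSucc 50, .ofNat 517, .ofNat 173, .negSucc 94, .negSucc 42⟩, ⟨.negSucc 278, .negSucc 43, .negSucc 121, .negSucc 39, .ofNat 449, .ofNat 235⟩, ⟨.negSucc 3486, .ofNat 204, .ofNat 666, .ofNat 1099, .negSucc 622, .negSucc 206⟩, ⟨.ofNat 2220, .ofNat 1282, .ofNat 1998, .ofNat 2804, .negSucc 1521, .negSucc 585⟩, .ofNat 817, .ofNat 738, .ofNat 0, .ofNat 738, .ofNat 2434, .ofNat 0, .ofNat 128, .negSucc 192, .negSucc 116, .ofNat 0, .ofNat 175, .ofNat 31, .ofNat 0, .ofNat 0, .ofNat 520, .ofNat 3612, .ofNat 0, .ofNat 0, .ofNat 0, .ofNat 0, .ofNat 0, .ofNat 0, .ofNat 2866895974055631702075980937217371713568768, .ofNat 0, .ofNat 0, .ofNat 0, .ofNat 0, .ofNat 0, .ofNat 0, .ofNat 0, .ofNat 0, .ofNat 0⟩)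
    (by decide +kernel)
theorem L01332 : Good (Phi V5.P V5.D 1 (-1)) ⟨2, 1, 2, 1, 3, 7, 3, 1, 5, 5⟩ :=
  leafYS_sound T5.ok_pm T5.Ypm.bz_eq (w := 221) (c := ⟨⟨.negSucc 1420, .negSucc 394, .negSucc 211, .negSucc 17, .negSucc 18, .negSucc 70⟩, ⟨.ofNat 546, .negSucc 44, .ofNat 455, .ofNat 102, .negSucc 62, .negSucc 4⟩, ⟨.negSucc 13, .ofNat 134, .negSucc 8, .ofNat 81, .ofNat 303, .ofNat 236⟩, ⟨.negSucc 3539, .negSucc 21, .ofNat 336, .ofNat 362, .negSucc 394, .negSucc 248⟩, ⟨.ofNat 1658, .ofNat 1032, .ofNat 1001, .ofNat 1255, .negSucc 1018, .negSucc 320⟩, .ofNat 723, .ofNat 565, .ofNat 0, .ofNat 565, .ofNat 1936, .ofNat 0, .ofNat 128, .negSucc 137, .negSucc 70, .ofNat 0, .ofNat 132, .ofNat 19, .ofNat 0, .ofNat 0, .ofNat 273, .ofNat 3293, .ofNat 0, .ofNat 0, .ofNat 0, .ofNat 0, .ofNat 0, .ofNat 0, .ofNat 0, .ofNat 0, .ofNat 0, .ofNat 0, .ofNat 0,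 .ofNat 0, .ofNat 0, .ofNat 0, .ofNat 0, .ofNat 0⟩)
    (by decide +kernel)
theorem L01333 : Good (Phi V5.P V5.D 1 (-1)) ⟨2, 1, 2, 1, 3, 7, 2, 0, 4, 3⟩ :=
  leafYS_sound T5.ok_pm T5.Ypm.bz_eq (w := 212) (c := ⟨⟨.negSucc 1503, .negSucc 333, .negSucc 187, .ofNat 1, .negSucc 89, .ofNat 122⟩, ⟨.ofNat 581, .negSucc 42, .ofNat 439, .ofNat 116, .negSucc 67, .negSucc 103⟩, ⟨.negSucc 91, .ofNat 105, .negSucc 0, .ofNat 38, .ofNat 652, .ofNat 273⟩, ⟨.negSucc 3569, .ofNat 249, .ofNat 259, .ofNat 786, .negSucc 831, .negSucc 44⟩, ⟨.ofNat 1949, .ofNat 1184, .ofNat 925, .ofNat 1897, .negSucc 1588, .negSucc 939⟩, .ofNat 819, .ofNat 736, .ofNat 0, .ofNat 736, .ofNat 2421, .ofNat 0, .ofNat 128, .negSucc 183, .negSucc 70, .ofNat 0, .ofNat 181, .ofNat 18, .ofNat 0, .ofNat 0, .ofNat 499, .ofNat 1420, .ofNat 0, .ofNat 0, .ofNat 0, .ofNat 0, .ofNat 0, .ofNat 0, .ofNat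 0, .ofNat 0, .ofNat 0, .ofNat 0, .ofNat 0, .ofNat 0, .ofNat 0, .ofNat 0, .ofNat 0, .ofNat 0⟩)
    (by decide +kernel)
theorem L01334 : Good (Phi V5.P V5.D 1 (-1)) ⟨2, 1, 2, 1, 2, 2, 2, 1, 4, 0⟩ :=
  leafYS_sound T5.ok_pm T5.Ypm.bz_eq (w := 197) (c := ⟨⟨.ofNat 1276, .ofNat 345, .negSucc 62, .ofNat 11, .negSucc 380, .negSucc 1170⟩, ⟨.negSucc 358, .ofNat 40, .negSucc 148, .ofNat 67, .ofNat 122, .ofNat 332⟩, ⟨.negSucc 1211, .negSucc 208, .ofNat 59, .negSucc 105, .ofNat 502, .ofNat 559⟩, ⟨.ofNat 3563, .ofNat 240, .ofNat 44, .ofNat 573, .negSucc 1075, .negSucc 3355⟩, ⟨.ofNat 377, .ofNat 257, .ofNat 231, .ofNat 1460, .negSucc 353, .negSucc 973⟩, .ofNat 389, .ofNat 124, .ofNat 0, .ofNat 124, .ofNat 656, .ofNat 0, .ofNat 273, .negSucc 80, .negSucc 271, .ofNat 0, .ofNat 128, .ofNat 100, .ofNat 0, .ofNat 0, .ofNat 500, .ofNat 1052, .ofNat 0, .ofNat 0,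 .ofNat 0, .ofNat 0, .ofNat 0, .ofNat 0, .ofNat 0, .ofNat 0, .ofNat 0, .ofNat 0, .ofNat 0, .ofNat 0, .ofNat 0, .ofNat 0, .ofNat 0, .ofNat 0⟩)
    (by decide +kernel)
theorem L01335 : Good (Phi V5.P V5.D 1 (-1)) ⟨2, 1, 2, 1, 2, 3, 2, 1, 4, 0⟩ :=
  leafYS_sound T5.ok_pm T5.Ypm.bz_eq (w := 198) (c := ⟨⟨.ofNat 1129, .ofNat 265, .negSucc 52, .negSucc 605, .negSucc 240, .negSucc 833⟩, ⟨.negSucc 135, .negSucc 0, .negSucc 146, .ofNat 224, .negSucc 51, .ofNat 208⟩, ⟨.negSucc 1031, .negSucc 467, .ofNat 67, .ofNat 913, .ofNat 459, .negSucc 69⟩, ⟨.ofNat 3810, .ofNat 96, .ofNat 261, .negSucc 1587, .negSucc 1225, .negSucc 2227⟩, ⟨.ofNat 2765, .ofNat 135, .negSucc 97, .negSucc 102, .negSucc 1818, .negSucc 679⟩, .ofNat 600, .ofNat 362, .ofNat 0, .ofNat 362, .ofNat 1419, .ofNat 0, .ofNat 331, .negSucc 127, .negSucc 237, .ofNat 0, .ofNat 116, .ofNat 77, .ofNat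 0, .ofNat 0, .ofNat 475, .ofNat 610, .ofNat 0, .ofNat 0, .ofNat 96896310275117592849157749053849600, .ofNat 0, .ofNat 0, .ofNat 0, .ofNat 0, .ofNat 0, .ofNat 0, .ofNat 0, .ofNat 0, .ofNat 0, .ofNat 0, .ofNat 0, .ofNat 0, .ofNat 0⟩)
    (by decide +kernel)
theorem L01336 : Good (Phi V5.P V5.D 1 (-1)) ⟨2, 1, 2, 1, 2, 2, 2, 1, 4, 1⟩ :=
  leafYS_sound T5.ok_pm T5.Ypm.bz_eq (w := 197) (c := ⟨⟨.ofNat 45, .negSucc 163, .ofNat 41, .ofNat 78, .negSucc 155, .negSucc 1100⟩, ⟨.negSucc 83, .negSucc 4, .ofNat 148, .ofNat 1, .ofNat 18, .ofNat 356⟩, ⟨.negSucc 588, .ofNat 32, .negSucc 8, .negSucc 357, .ofNat 606, .ofNat 788⟩, ⟨.negSucc 185, .negSucc 55, .ofNat 145, .ofNat 569, .negSucc 323, .negSucc 2823⟩, ⟨.negSucc 372, .ofNat 204, .ofNat 199, .ofNat 925, .negSucc 102, .negSucc 368⟩, .ofNat 605, .ofNat 379, .ofNat 0, .ofNat 379, .ofNat 1423, .ofNat 0, .ofNat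 235, .negSucc 127, .negSucc 124, .ofNat 0, .ofNat 116, .ofNat 50, .ofNat 0, .ofNat 0, .ofNat 303, .ofNat 1294, .ofNat 0, .ofNat 0, .ofNat 0, .ofNat 0, .ofNat 0, .ofNat 0, .ofNat 0, .ofNat 0, .ofNat 0, .ofNat 0, .ofNat 1013995672114752528944316099892084736, .ofNat 0, .ofNat 0, .ofNat 0, .ofNat 0, .ofNat 0⟩)
    (by decide +kernel)
theorem L01337 : Good (Phi V5.P V5.D 1 (-1)) ⟨2, 1, 2, 1, 2, 3, 2, 1, 4, 1⟩ :=
  leafYS_sound T5.ok_pm T5.Ypm.bz_eq (w := 197) (c := ⟨⟨.ofNat 204, .negSucc 367, .ofNat 22, .negSucc 192, .negSucc 88, .negSucc 1299⟩, ⟨.negSucc 4, .ofNat 34, .ofNat 129, .ofNat 170, .negSucc 127, .ofNat 427⟩, ⟨.negSucc 905, .negSucc 58, .negSucc 29, .ofNat 190, .ofNat 633, .ofNat 822⟩, ⟨.ofNat 567, .negSucc 635, .ofNat 401, .negSucc 91, .negSucc 631, .negSucc 3198⟩, ⟨.ofNat 1058, .ofNat 153, .ofNat 301, .ofNat 1235, .negSucc 1458, .negSucc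 279⟩, .ofNat 610, .ofNat 379, .ofNat 0, .ofNat 379, .ofNat 1415, .ofNat 0, .ofNat 271, .negSucc 127, .negSucc 143, .ofNat 0, .ofNat 113, .ofNat 47, .ofNat 0, .ofNat 0, .ofNat 283, .ofNat 503, .ofNat 0, .ofNat 0, .ofNat 0, .ofNat 0, .ofNat 0, .ofNat 0, .ofNat 5483069195185284386026731512732319744, .ofNat 0, .ofNat 0, .ofNat 0, .ofNat 0, .ofNat 0, .ofNat 0, .ofNat 0, .ofNat 1855030064316977773548471492810899456, .ofNat 0⟩)
    (by decide +kernel)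
theorem L01338 : Good (Phi V5.P V5.D 1 (-1)) ⟨2, 1, 2, 1, 2, 2, 2, 1, 4, 2⟩ :=
  leafYS_sound T5.ok_pm T5.Ypm.bz_eq (w := 197) (c := ⟨⟨.negSucc 853, .negSucc 485, .ofNat 6, .negSucc 271, .ofNat 24, .negSucc 389⟩, ⟨.ofNat 209, .negSucc 44, .ofNat 331, .ofNat 132, .negSucc 25, .ofNat 94⟩, ⟨.ofNat 170, .ofNat 211, .negSucc 49, .negSucc 223, .ofNat 463, .ofNat 528⟩, ⟨.negSucc 2663, .negSucc 296, .ofNat 59, .negSucc 409, .ofNat 2, .negSucc 1037⟩, ⟨.negSucc 537, .ofNat 265, .ofNat 209, .ofNat 704, .negSucc 67, .negSucc 156⟩, .ofNat 386, .ofNat 123, .ofNat 0, .ofNat 123, .ofNat 656, .ofNat 0, .ofNat 255, .negSucc 85, .negSucc 109, .ofNat 0, .ofNat 128, .ofNat 46, .ofNat 0, .ofNat 0, .ofNat 301, .ofNat 1456, .ofNat 0, .ofNat 0, .ofNat 0, .ofNat 0, .ofNat 0, .ofNat 0, .ofNat 0, .ofNat 0, .ofNat 0, .ofNat 0, .ofNat 0, .ofNat 0, .ofNat 0, .ofNat 0, .ofNat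 0, .ofNat 0⟩)
    (by decide +kernel)
theorem L01339 : Good (Phi V5.P V5.D 1 (-1)) ⟨2, 1, 2, 1, 2, 3, 2, 1, 4, 2⟩ :=
  leafYS_sound T5.ok_pm T5.Ypm.bz_eq (w := 196) (c := ⟨⟨.negSucc 1029, .negSucc 559, .negSucc 60, .negSucc 224, .negSucc 74, .negSucc 392⟩, ⟨.ofNat 289, .negSucc 0, .ofNat 391, .ofNat 196, .negSucc 49, .ofNat 124⟩, ⟨.negSucc 158, .ofNat 240, .ofNat 5, .ofNat 177, .ofNat 570, .ofNat 556⟩, ⟨.negSucc 3130, .negSucc 389, .ofNat 255, .ofNat 52, .negSucc 459, .negSucc 838⟩, ⟨.negSucc 61, .ofNat 636, .ofNat 597, .ofNat 1671, .negSucc 848, .ofNat 88⟩, .ofNat 818, .ofNat 750, .ofNat 0, .ofNat 750, .ofNat 2457, .ofNat 0, .ofNat 142, .negSucc 127, .negSucc 48, .ofNat 0, .ofNat 101, .ofNat 17, .ofNat 0, .ofNat 0, .ofNat 144, .ofNat 373, .ofNat 0, .ofNat 0, .ofNat 27236273640857333000734345275637760, .ofNat 0, .ofNat 0, .ofNat 0, .ofNat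 1268908615728360928531345633949253632, .ofNat 0, .ofNat 0, .ofNat 0, .ofNat 0, .ofNat 0, .ofNat 0, .ofNat 0, .ofNat 0, .ofNat 0⟩)
    (by decide +kernel)
theorem L01340 : Good (Phi V5.P V5.D 1 (-1)) ⟨2, 1, 2, 1, 2, 2, 2, 1, 4, 3⟩ :=
  leafYS_sound T5.ok_pm T5.Ypm.bz_eq (w := 197) (c := ⟨⟨.negSucc 1292, .negSucc 428, .negSucc 11, .negSucc 187, .ofNat 1, .ofNat 7⟩, ⟨.ofNat 328, .negSucc 47, .ofNat 344, .ofNat 90, .negSucc 3, .negSucc 3⟩, ⟨.ofNat 644, .ofNat 223, .ofNat 12, .negSucc 218, .ofNat 390, .ofNat 282⟩, ⟨.negSucc 3744, .negSucc 125, .negSucc 36, .negSucc 352, .negSucc 1, .negSucc 31⟩, ⟨.negSucc 404, .ofNat 210, .ofNat 104, .ofNat 364, .negSucc 41, .negSucc 127⟩, .ofNat 390, .ofNat 122, .ofNat 0, .ofNat 122, .ofNat 655, .ofNat 0, .ofNat 268, .negSucc 76, .negSucc 98, .ofNat 0, .ofNat 128, .ofNat 44, .ofNat 0, .ofNat 0, .ofNat 451, .ofNat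 1668, .ofNat 0, .ofNat 0, .ofNat 0, .ofNat 0, .ofNat 0, .ofNat 0, .ofNat 0, .ofNat 0, .ofNat 0, .ofNat 0, .ofNat 0, .ofNat 0, .ofNat 0, .ofNat 0, .ofNat 0, .ofNat 0⟩)
    (by decide +kernel)
theorem L01341 : Good (Phi V5.P V5.D 1 (-1)) ⟨2, 1, 2, 1, 2, 3, 2, 1, 4, 3⟩ :=
  leafYS_sound T5.ok_pm T5.Ypm.bz_eq (w := 197) (c := ⟨⟨.negSucc 1448, .negSucc 511, .negSucc 112, .negSucc 72, .negSucc 145, .ofNat 94⟩, ⟨.ofNat 432, .negSucc 56, .ofNat 406, .ofNat 158, .negSucc 13, .negSucc 40⟩, ⟨.ofNat 384, .ofNat 250, .ofNat 35, .ofNat 120, .ofNat 606, .ofNat 250⟩, ⟨.negSucc 4020, .negSucc 170, .ofNat 20, .ofNat 326, .negSucc 538, .ofNat 1⟩, ⟨.ofNat 234, .ofNat 478, .ofNat 366, .ofNat 1589, .negSucc 676, .negSucc 425⟩, .ofNat 807, .ofNat 742, .ofNat 0, .ofNat 742, .ofNat 2450, .ofNat 0, .ofNat 201, .negSucc 127, .negSucc 62, .ofNat 0, .ofNat 114, .ofNat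 19, .ofNat 0, .ofNat 0, .ofNat 429, .ofNat 1139, .ofNat 0, .ofNat 0, .ofNat 0, .ofNat 0, .ofNat 0, .ofNat 0, .ofNat 590738101086931038342498457934102528, .ofNat 0, .ofNat 0, .ofNat 0, .ofNat 0, .ofNat 0, .ofNat 0, .ofNat 0, .ofNat 0, .ofNat 0⟩)
    (by decide +kernel)
theorem L01342 : Good (Phi V5.P V5.D 1 (-1)) ⟨2, 1, 2, 1, 3, 4, 2, 0, 4, 4⟩ :=
  leafYS_sound T5.ok_pm T5.Ypm.bz_eq (w := 214) (c := ⟨⟨.negSucc 1323, .negSucc 380, .negSucc 0, .negSucc 50, .negSucc 19, .ofNat 90⟩, ⟨.ofNat 334, .negSucc 82, .ofNat 330, .ofNat 23, .ofNat 18, .negSucc 30⟩, ⟨.ofNat 652, .ofNat 138, .negSucc 4, .negSucc 178, .ofNat 363, .ofNat 180⟩, ⟨.negSucc 3851, .negSucc 23, .negSucc 44, .negSucc 104, .negSucc 11, .ofNat 209⟩, ⟨.negSucc 519, .ofNat 150, .ofNat 60, .ofNat 86, .ofNat 79, .negSucc 26⟩, .ofNat 390, .ofNat 128, .ofNat 0, .ofNat 128, .ofNat 663, .ofNat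 0, .ofNat 151, .negSucc 74, .negSucc 20, .ofNat 0, .ofNat 128, .ofNat 13, .ofNat 0, .ofNat 0, .ofNat 193, .ofNat 11793, .ofNat 6942196153713172912968090033499394843607040, .ofNat 0, .ofNat 0, .ofNat 0, .ofNat 0, .ofNat 0, .ofNat 0, .ofNat 0, .ofNat 0, .ofNat 0, .ofNat 0, .ofNat 0, .ofNat 21281582045433623219192092783609495888592896, .ofNat 0, .ofNat 0, .ofNat 0⟩)
    (by decide +kernel)
theorem L01343 : Good (Phi V5.P V5.D 1 (-1)) ⟨2, 1, 2, 1, 3, 5, 2, 0, 4, 4⟩ :=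
  leafYS_sound T5.ok_pm T5.Ypm.bz_eq (w := 213) (c := ⟨⟨.negSucc 1369, .negSucc 389, .negSucc 23, .negSucc 58, .negSucc 28, .ofNat 121⟩, ⟨.ofNat 374, .negSucc 69, .ofNat 345, .ofNat 37, .negSucc 1, .negSucc 44⟩, ⟨.ofNat 380, .ofNat 112, .ofNat 5, .negSucc 104, .ofNat 465, .ofNat 192⟩, ⟨.negSucc 3952, .negSucc 0, .negSucc 47, .negSucc 22, .negSucc 68, .ofNat 261⟩, ⟨.negSucc 376, .ofNat 281, .ofNat 133, .ofNat 338, .negSucc 51, .negSucc 106⟩, .ofNat 619, .ofNat 395, .ofNat 0, .ofNat 395, .ofNat 1458, .ofNat 0, .ofNat 163, .negSucc 120, .negSucc 21, .ofNat 0, .ofNat 128, .ofNat 12, .ofNat 0, .ofNat 0, .ofNat 251, .ofNat 7346, .ofNat 1559210876337439981517475433160077987545088, .ofNat 0, .ofNat 0, .ofNat 0, .ofNat 0, .ofNat 0, .ofNat 0, .ofNat 0, .ofNat 0, .ofNat 0, .ofNat 0, .ofNat 0, .ofNat 24476757335198843033960383024376655978168320, .ofNat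 0, .ofNat 0, .ofNat 0⟩)
    (by decide +kernel)
theorem L01344 : Good (Phi V5.P V5.D 1 (-1)) ⟨2, 1, 2, 1, 2, 2, 3, 2, 4, 4⟩ :=
  leafYS_sound T5.ok_pm T5.Ypm.bz_eq (w := 203) (c := ⟨⟨.negSucc 1317, .negSucc 409, .negSucc 12, .negSucc 149, .negSucc 18, .ofNat 113⟩, ⟨.ofNat 349, .negSucc 75, .ofNat 332, .ofNat 66, .ofNat 9, .negSucc 44⟩, ⟨.ofNat 917, .ofNat 214, .ofNat 32, .negSucc 186, .ofNat 191, .ofNat 136⟩, ⟨.negSucc 3830, .negSucc 79, .negSucc 54, .negSucc 233, .negSucc 31, .ofNat 250⟩, ⟨.negSucc 446, .ofNat 167, .ofNat 50, .ofNat 354, .ofNat 0, .negSucc 54⟩, .ofNat 390, .ofNat 128, .ofNat 0, .ofNat 128, .ofNat 663, .ofNat 0, .ofNat 178, .negSucc 74, .negSucc 50, .ofNat 0, .ofNat 128, .ofNat 24, .ofNat 0, .ofNat 0, .ofNat 386, .ofNat 4741, .ofNat 3422204981857347904027131044013732265984, .ofNat 0, .ofNat 0, .ofNat 0, .ofNat 0, .ofNat 0,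 .ofNat 0, .ofNat 0, .ofNat 0, .ofNat 0, .ofNat 0, .ofNat 0, .ofNat 0, .ofNat 0, .ofNat 0, .ofNat 0⟩)
    (by decide +kernel)
theorem L01345 : Good (Phi V5.P V5.D 1 (-1)) ⟨2, 1, 2, 1, 2, 2, 3, 3, 4, 4⟩ :=
  leafYS_sound T5.ok_pm T5.Ypm.bz_eq (w := 202) (c := ⟨⟨.negSucc 1314, .negSucc 425, .negSucc 18, .negSucc 151, .negSucc 3, .ofNat 96⟩, ⟨.ofNat 344, .negSucc 56, .ofNat 346, .ofNat 61, .negSucc 0, .negSucc 41⟩, ⟨.ofNat 990, .ofNat 292, .ofNat 42, .negSucc 88, .ofNat 184, .ofNat 187⟩, ⟨.negSucc 3770, .negSucc 145, .negSucc 57, .negSucc 292, .negSucc 38, .ofNat 197⟩, ⟨.negSucc 364, .ofNat 117, .ofNat 101, .ofNat 251, .negSucc 79, .negSucc 93⟩, .ofNat 387, .ofNat 118, .ofNat 0, .ofNat 118, .ofNat 655, .ofNat 0, .ofNat 164, .negSucc 68, .negSucc 46, .ofNat 0, .ofNat 128, .ofNat 18, .ofNat 0, .ofNat 0, .ofNat 378, .ofNat 2678, .ofNat 0, .ofNat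 0, .ofNat 0, .ofNat 0, .ofNat 0, .ofNat 0, .ofNat 0, .ofNat 0, .ofNat 0, .ofNat 0, .ofNat 0, .ofNat 0, .ofNat 0, .ofNat 0, .ofNat 96694085566344844027155790725302452224, .ofNat 0⟩)
    (by decide +kernel)
theorem L01346 : Good (Phi V5.P V5.D 1 (-1)) ⟨2, 1, 2, 1, 3, 6, 2, 0, 4, 4⟩ :=
  leafYS_sound T5.ok_pm T5.Ypm.bz_eq (w := 212) (c := ⟨⟨.negSucc 1402, .negSucc 365, .negSucc 71, .negSucc 6, .negSucc 77, .ofNat 157⟩, ⟨.ofNat 415, .negSucc 75, .ofNat 374, .ofNat 47, .ofNat 0, .negSucc 53⟩, ⟨.ofNat 223, .ofNat 72, .ofNat 10, .ofNat 4, .ofNat 555, .ofNat 189⟩, ⟨.negSucc 3902, .ofNat 93, .negSucc 8, .ofNat 235, .negSucc 272, .ofNat 297⟩, ⟨.ofNat 118, .ofNat 543, .ofNat 288, .ofNat 733, .negSucc 358, .negSucc 243⟩, .ofNat 599, .ofNat 362, .ofNat 0, .ofNat 362, .ofNat 1413, .ofNat 0, .ofNat 128, .negSucc 112, .negSucc 14, .ofNat 0, .ofNat 137, .ofNat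 6, .ofNat 0, .ofNat 0, .ofNat 231, .ofNat 3306, .ofNat 0, .ofNat 0, .ofNat 0, .ofNat 0, .ofNat 0, .ofNat 0, .ofNat 0, .ofNat 0, .ofNat 0, .ofNat 0, .ofNat 0, .ofNat 0, .ofNat 3954494446346038713786187698645600500187136, .ofNat 0, .ofNat 6293935907724161285300577128936969863168, .ofNat 0⟩)
    (by decide +kernel)
theorem L01347 : Good (Phi V5.P V5.D 1 (-1)) ⟨2, 1, 2, 1, 3, 7, 2, 0, 4, 4⟩ :=
  leafYS_sound T5.ok_pm T5.Ypm.bz_eq (w := 211) (c := ⟨⟨.negSucc 1410, .negSucc 296, .negSucc 114, .ofNat 17, .negSucc 101, .ofNat 184⟩, ⟨.ofNat 472, .negSucc 61, .ofNat 393, .ofNat 82, .negSucc 11, .negSucc 102⟩, ⟨.ofNat 204, .ofNat 114, .negSucc 6, .ofNat 104, .ofNat 561, .ofNat 204⟩, ⟨.negSucc 3676, .ofNat 267, .ofNat 280, .ofNat 448, .negSucc 456, .ofNat 139⟩, ⟨.ofNat 806, .ofNat 923, .ofNat 838, .ofNat 1144, .negSucc 591, .negSucc 707⟩, .ofNat 701,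 .ofNat 527, .ofNat 0, .ofNat 527, .ofNat 1930, .ofNat 0, .ofNat 138, .negSucc 107, .negSucc 15, .ofNat 0, .ofNat 128, .negSucc 0, .ofNat 0, .ofNat 0, .ofNat 358, .ofNat 1073, .ofNat 0, .ofNat 0, .ofNat 0, .ofNat 0, .ofNat 0, .ofNat 0, .ofNat 0, .ofNat 0, .ofNat 0, .ofNat 0, .ofNat 0, .ofNat 0, .ofNat 0, .ofNat 480047319887659884917945955659951927984128, .ofNat 10193396313891691815288448319950531067904, .ofNat 0⟩)
    (by decide +kernel)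
theorem L01348 : Good (Phi V5.P V5.D 1 (-1)) ⟨2, 1, 2, 1, 2, 3, 2, 1, 5, 8⟩ :=
  leafYS_sound T5.ok_pm T5.Ypm.bz_eq (w := 202) (c := ⟨⟨.negSucc 1412, .negSucc 448, .negSucc 66, .negSucc 65, .negSucc 107, .ofNat 72⟩, ⟨.ofNat 393, .negSucc 65, .ofNat 386, .ofNat 135, .ofNat 3, .negSucc 24⟩, ⟨.ofNat 612, .ofNat 255, .ofNat 68, .ofNat 129, .ofNat 559, .ofNat 103⟩, ⟨.negSucc 4062, .negSucc 64, .ofNat 29, .ofNat 284, .negSucc 352, .ofNat 168⟩, ⟨.negSucc 159, .ofNat 435, .ofNat 294, .ofNat 1418, .negSucc 335, .negSucc 98⟩, .ofNat 619, .ofNat 395, .ofNat 0, .ofNat 395, .ofNat 1458, .ofNat 0, .ofNat 222, .negSucc 109, .negSucc 42, .ofNat 0, .ofNat 128, .ofNat 6, .ofNat 0, .ofNat 0, .ofNat 683, .ofNat 1354, .ofNat 0, .ofNat 0, .ofNat 0, .ofNat 0, .ofNat 0, .ofNat 0, .ofNat 0, .ofNat 0, .ofNat 0, .ofNat 1253520563543054170786448314765525647360, .ofNat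 25325984747904160912608288105069281280, .ofNat 0, .ofNat 0, .ofNat 5390493197113295108022053429640171618304, .ofNat 0, .ofNat 0⟩)
    (by decide +kernel)
theorem L01349 : Good (Phi V5.P V5.D 1 (-1)) ⟨2, 1, 2, 1, 2, 3, 2, 1, 5, 9⟩ :=
  leafYS_sound T5.ok_pm T5.Ypm.bz_eq (w := 202) (c := ⟨⟨.negSucc 1379, .negSucc 396, .negSucc 70, .negSucc 12, .negSucc 94, .ofNat 93⟩, ⟨.ofNat 396, .negSucc 73, .ofNat 359, .ofNat 92, .ofNat 8, .negSucc 33⟩, ⟨.ofNat 708, .ofNat 243, .ofNat 70, .ofNat 150, .ofNat 583, .ofNat 99⟩, ⟨.negSucc 3966, .negSucc 7, .negSucc 28, .ofNat 393, .negSucc 277, .ofNat 190⟩, ⟨.negSucc 228, .ofNat 387, .ofNat 204, .ofNat 1320, .negSucc 231, .negSucc 88⟩, .ofNat 609, .ofNat 378, .ofNat 0, .ofNat 378, .ofNat 1426, .ofNat 0, .ofNat 212, .negSucc 103, .negSucc 12, .ofNat 0, .ofNat 128, .negSucc 5, .ofNat 0, .ofNat 0, .ofNat 716, .ofNat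 854, .ofNat 0, .ofNat 0, .ofNat 0, .ofNat 0, .ofNat 0, .ofNat 0, .ofNat 0, .ofNat 0, .ofNat 0, .ofNat 1940233207185418582709663162539819663360, .ofNat 0, .ofNat 0, .ofNat 0, .ofNat 8066186299244228110425479504769769799680, .ofNat 0, .ofNat 0⟩)
    (by decide +kernel)
theorem L01350 : Good (Phi V5.P V5.D 1 (-1)) ⟨3, 2, 2, 1, 2, 2, 2, 0, 4, 5⟩ :=
  leafYS_sound T5.ok_pm T5.Ypm.bz_eq (w := 205) (c := ⟨⟨.negSucc 1206, .negSucc 154, .negSucc 19, .negSucc 96, .negSucc 47, .ofNat 140⟩, ⟨.ofNat 296, .negSucc 4, .ofNat 325, .ofNat 64, .ofNat 0, .negSucc 58⟩, ⟨.ofNat 696, .ofNat 60, .ofNat 36, .negSucc 191, .ofNat 405, .ofNat 253⟩, ⟨.negSucc 3605, .negSucc 1, .negSucc 49, .negSucc 56, .negSucc 115, .ofNat 333⟩, ⟨.negSucc 605, .ofNat 106, .ofNat 123, .ofNat 445, .negSucc 57, .negSucc 73⟩, .ofNat 407, .ofNat 140, .ofNat 0, .ofNat 140, .ofNat 650, .ofNat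 0, .ofNat 176, .negSucc 70, .negSucc 27, .ofNat 0, .ofNat 128, .ofNat 16, .ofNat 0, .ofNat 0, .ofNat 720, .ofNat 23905, .ofNat 96819803468365161835276748073447821672448, .ofNat 0, .ofNat 0, .ofNat 0, .ofNat 215797818462756922321601982715358280155136, .ofNat 0, .ofNat 0, .ofNat 0, .ofNat 651441327203968583225503230182809889931264, .ofNat 0, .ofNat 0, .ofNat 0, .ofNat 472439191892879215826390442307203436118016, .ofNat 0, .ofNat 0, .ofNat 0⟩)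
    (by decide +kernel)
theorem L01351 : Good (Phi V5.P V5.D 1 (-1)) ⟨3, 2, 2, 1, 2, 2, 2, 1, 4, 5⟩ :=
  leafYS_sound T5.ok_pm T5.Ypm.bz_eq (w := 203) (c := ⟨⟨.negSucc 1259, .negSucc 155, .ofNat 0, .negSucc 87, .negSucc 31, .ofNat 111⟩, ⟨.ofNat 314, .negSucc 2, .ofNat 308, .ofNat 44, .ofNat 9, .negSucc 42⟩, ⟨.ofNat 991, .ofNat 117, .ofNat 52, .negSucc 55, .ofNat 385, .ofNat 193⟩, ⟨.negSucc 3605, .negSucc 31, .negSucc 54, .negSucc 163, .negSucc 85, .ofNat 284⟩, ⟨.negSucc 385, .ofNat 53, .ofNat 31, .ofNat 151, .negSucc 43, .negSucc 10⟩, .ofNat 403, .ofNat 134, .ofNat 0, .ofNat 134, .ofNat 650, .ofNat 0, .ofNat 163, .negSucc 68, .negSucc 57, .ofNat 0, .ofNat 128, .ofNat 22, .ofNat 0, .ofNat 0, .ofNat 1204, .ofNat 4389, .ofNat 17745511559342052135686853984164346068992, .ofNat 0, .ofNat 0, .ofNat 0, .ofNat 0, .ofNat 0, .ofNat 0, .ofNat 0, .ofNat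 0, .ofNat 3427828125212117740079626704739427680256, .ofNat 0, .ofNat 0, .ofNat 0, .ofNat 30652031916443227829383883478725939953664, .ofNat 0, .ofNat 0⟩)
    (by decide +kernel)
theorem L01352 : Good (Phi V5.P V5.D 1 (-1)) ⟨3, 2, 2, 1, 3, 6, 1, 0, 4, 5⟩ :=
  leafYS_sound T5.ok_pm T5.Ypm.bz_eq (w := 211) (c := ⟨⟨.negSucc 1290, .negSucc 163, .negSucc 36, .negSucc 10, .negSucc 92, .ofNat 151⟩, ⟨.ofNat 331, .ofNat 1, .ofNat 331, .ofNat 44, .ofNat 34, .negSucc 58⟩, ⟨.ofNat 432, .ofNat 58, .ofNat 78, .negSucc 24, .ofNat 1011, .ofNat 229⟩, ⟨.negSucc 3602, .negSucc 0, .negSucc 38, .ofNat 147, .negSucc 360, .ofNat 342⟩, ⟨.negSucc 154, .ofNat 186, .ofNat 167, .ofNat 468, .negSucc 255, .negSucc 97⟩, .ofNat 647, .ofNat 400, .ofNat 0, .ofNat 400, .ofNat 1399, .ofNat 0, .ofNat 203, .negSucc 102, .ofNat 3, .ofNat 0, .ofNat 128, .negSucc 8, .ofNat 0, .ofNat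 0, .ofNat 1083, .ofNat 1334, .ofNat 0, .ofNat 0, .ofNat 0, .ofNat 0, .ofNat 0, .ofNat 0, .ofNat 0, .ofNat 0, .ofNat 0, .ofNat 5967232042136973783808682316921557351399424, .ofNat 0, .ofNat 0, .ofNat 0, .ofNat 36959397120940524889330003933000290164277248, .ofNat 0, .ofNat 0⟩)
    (by decide +kernel)
theorem L01353 : Good (Phi V5.P V5.D 1 (-1)) ⟨3, 2, 2, 1, 3, 7, 1, 0, 4, 5⟩ :=
  leafYS_sound T5.ok_pm T5.Ypm.bz_eq (w := 210) (c := ⟨⟨.negSucc 1267, .negSucc 149, .negSucc 78, .ofNat 22, .negSucc 140, .ofNat 164⟩, ⟨.ofNat 376, .negSucc 2, .ofNat 349, .ofNat 58, .ofNat 24, .negSucc 74⟩, ⟨.ofNat 479, .ofNat 40, .ofNat 14, .ofNat 60, .ofNat 1009, .ofNat 202⟩, ⟨.negSucc 3403, .ofNat 55, .ofNat 88, .ofNat 376, .negSucc 597, .ofNat 228⟩, ⟨.ofNat 319, .ofNat 308, .ofNat 441, .ofNat 888, .negSucc 503, .negSucc 362⟩, .ofNat 647, .ofNat 402, .ofNat 0, .ofNat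 402, .ofNat 1404, .ofNat 0, .ofNat 159, .negSucc 94, .ofNat 0, .ofNat 0, .ofNat 128, .negSucc 6, .ofNat 0, .ofNat 0, .ofNat 427, .ofNat 346, .ofNat 0, .ofNat 37580275888839129856405815270010548912128, .ofNat 0, .ofNat 0, .ofNat 0, .ofNat 0, .ofNat 0, .ofNat 0, .ofNat 0, .ofNat 0, .ofNat 0, .ofNat 0, .ofNat 0, .ofNat 11449890784441192412702387682900539286224896, .ofNat 0, .ofNat 0⟩)
    (by decide +kernel)
theorem L01354 : Good (Phi V5.P V5.D 1 (-1)) ⟨3, 3, 2, 1, 2, 2, 2, 0, 4, 5⟩ :=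
  leafYS_sound T5.ok_pm T5.Ypm.bz_eq (w := 205) (c := ⟨⟨.negSucc 1353, .negSucc 204, .negSucc 30, .negSucc 82, .negSucc 69, .ofNat 160⟩, ⟨.ofNat 266, .negSucc 68, .ofNat 324, .ofNat 65, .ofNat 29, .negSucc 56⟩, ⟨.ofNat 658, .ofNat 46, .ofNat 38, .negSucc 212, .ofNat 536, .ofNat 209⟩, ⟨.negSucc 3576, .ofNat 5, .negSucc 50, .negSucc 32, .negSucc 170, .ofNat 336⟩, ⟨.negSucc 525, .ofNat 109, .ofNat 125, .ofNat 540, .negSucc 90, .negSucc 108⟩, .ofNat 372, .ofNat 111, .ofNat 0, .ofNat 111, .ofNat 665, .ofNat 0, .ofNat 142, .negSucc 64, .negSucc 24, .ofNat 0, .ofNat 128, .ofNat 12, .ofNat 0, .ofNat 0, .ofNat 533, .ofNat 24871, .ofNat 94932784998888661866989281818764220825600, .ofNat 0, .ofNat 0, .ofNat 0, .ofNat 198378096099091257193178375974414498922496, .ofNat 0, .ofNat 0, .ofNat 0, .ofNat 620947052440459539410237021630054604472320, .ofNat 0, .ofNat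 0, .ofNat 0, .ofNat 320258396945110511583655054646734697267200, .ofNat 0, .ofNat 0, .ofNat 0⟩)
    (by decide +kernel)
theorem L01355 : Good (Phi V5.P V5.D 1 (-1)) ⟨3, 3, 2, 1, 2, 2, 3, 2, 4, 5⟩ :=
  leafYS_sound T5.ok_pm T5.Ypm.bz_eq (w := 208) (c := ⟨⟨.negSucc 1408, .negSucc 217, .ofNat 0, .negSucc 97, .negSucc 32, .ofNat 133⟩, ⟨.ofNat 313, .negSucc 72, .ofNat 305, .ofNat 45, .ofNat 8, .negSucc 43⟩, ⟨.ofNat 1057, .ofNat 131, .ofNat 61, .negSucc 93, .ofNat 246, .ofNat 206⟩, ⟨.negSucc 3631, .negSucc 34, .negSucc 36, .negSucc 153, .negSucc 70, .ofNat 290⟩, ⟨.negSucc 354, .ofNat 45, .ofNat 53, .ofNat 227, .negSucc 16, .negSucc 61⟩, .ofNat 565, .ofNat 335, .ofNat 0, .ofNat 335, .ofNat 1445, .ofNat 0, .ofNat 285, .negSucc 109, .negSucc 51, .ofNat 0, .ofNat 128, .ofNat 19, .ofNat 0, .ofNat 0, .ofNat 1083, .ofNat 13266, .ofNat 393903677576647859181797879519201919500288,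 .ofNat 0, .ofNat 0, .ofNat 0, .ofNat 0, .ofNat 0, .ofNat 0, .ofNat 0, .ofNat 0, .ofNat 0, .ofNat 0, .ofNat 0, .ofNat 0, .ofNat 0, .ofNat 0, .ofNat 0⟩)
    (by decide +kernel)
theorem L01356 : Good (Phi V5.P V5.D 1 (-1)) ⟨3, 3, 2, 1, 2, 2, 3, 3, 4, 5⟩ :=
  leafYS_sound T5.ok_pm T5.Ypm.bz_eq (w := 206) (c := ⟨⟨.negSucc 1430, .negSucc 219, .ofNat 3, .negSucc 100, .negSucc 28, .ofNat 122⟩, ⟨.ofNat 319, .negSucc 73, .ofNat 306, .ofNat 42, .ofNat 7, .negSucc 41⟩, ⟨.ofNat 1222, .ofNat 111, .ofNat 104, .ofNat 23, .ofNat 218, .ofNat 226⟩, ⟨.negSucc 3668, .negSucc 48, .negSucc 44, .negSucc 186, .negSucc 72, .ofNat 278⟩, ⟨.negSucc 346, .ofNat 13, .ofNat 26, .ofNat 154, .negSucc 27, .negSucc 26⟩, .ofNat 567, .ofNat 343, .ofNat 0, .ofNat 343, .ofNat 1440, .ofNat 0, .ofNat 234, .negSucc 111, .negSucc 40, .ofNat 0, .ofNat 128, .ofNat 12, .ofNat 0, .ofNat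 0, .ofNat 966, .ofNat 2733, .ofNat 78885162388834502883935286334020212752384, .ofNat 0, .ofNat 0, .ofNat 0, .ofNat 0, .ofNat 0, .ofNat 0, .ofNat 0, .ofNat 0, .ofNat 0, .ofNat 0, .ofNat 0, .ofNat 0, .ofNat 94339188935849122263461411324963363749888, .ofNat 0, .ofNat 0⟩)
    (by decide +kernel)
theorem L01357 : Good (Phi V5.P V5.D 1 (-1)) ⟨3, 3, 2, 1, 4, 12, 1, 0, 4, 5⟩ :=
  leafYS_sound T5.ok_pm T5.Ypm.bz_eq (w := 226) (c := ⟨⟨.negSucc 1421, .negSucc 212, .negSucc 38, .negSucc 6, .negSucc 147, .ofNat 164⟩, ⟨.ofNat 344, .negSucc 63, .ofNat 334, .ofNat 11, .ofNat 18, .negSucc 58⟩, ⟨.ofNat 321, .ofNat 66, .ofNat 70, .negSucc 11, .ofNat 1300, .ofNat 253⟩, ⟨.negSucc 3544, .ofNat 20, .negSucc 34, .ofNat 65, .negSucc 484, .ofNat 343⟩, ⟨.ofNat 87, .ofNat 188, .ofNat 158, .ofNat 243, .negSucc 416, .negSucc 121⟩, .ofNat 573, .ofNat 352, .ofNat 0, .ofNat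 352, .ofNat 1458, .ofNat 0, .ofNat 319, .negSucc 105, .negSucc 6, .ofNat 0, .ofNat 128, .negSucc 0, .ofNat 0, .ofNat 0, .ofNat 1171, .ofNat 2160, .ofNat 0, .ofNat 0, .ofNat 0, .ofNat 0, .ofNat 0, .ofNat 0, .ofNat 0, .ofNat 0, .ofNat 0, .ofNat 27825398297428937089973792572584067617880276992, .ofNat 0, .ofNat 0, .ofNat 0, .ofNat 171198389671823829088157931381973249435541438464, .ofNat 0, .ofNat 0⟩)
    (by decide +kernel)
theorem L01358 : Good (Phi V5.P V5.D 1 (-1)) ⟨3, 3, 2, 1, 4, 13, 1, 0, 4, 5⟩ :=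
  leafYS_sound T5.ok_pm T5.Ypm.bz_eq (w := 225) (c := ⟨⟨.negSucc 1415, .negSucc 190, .negSucc 56, .ofNat 11, .negSucc 183, .ofNat 182⟩, ⟨.ofNat 366, .negSucc 62, .ofNat 342, .ofNat 19, .ofNat 10, .negSucc 76⟩, ⟨.ofNat 212, .ofNat 104, .ofNat 115, .ofNat 41, .ofNat 1392, .ofNat 270⟩, ⟨.negSucc 3429, .ofNat 36, .ofNat 14, .ofNat 112, .negSucc 626, .ofNat 330⟩, ⟨.ofNat 453, .ofNat 208, .ofNat 249, .ofNat 315, .negSucc 629, .negSucc 282⟩, .ofNat 567, .ofNat 339, .ofNat 0, .ofNat 339, .ofNat 1441, .ofNat 0, .ofNat 254, .negSucc 98, .ofNat 3, .ofNat 0, .ofNat 128, .negSucc 8, .ofNat 0, .ofNat 0, .ofNat 914, .ofNat 1003, .ofNat 0, .ofNat 273245331994310905616003607767057706094952448, .ofNat 0, .ofNat 0, .ofNat 0, .ofNat 0, .ofNat 0, .ofNat 0, .ofNat 0, .ofNat 25889583395591374162955686499103309099945689088, .ofNat 0, .ofNat 0, .ofNat 0, .ofNat 130720079789205717023360961282631639495933427712,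 .ofNat 0, .ofNat 0⟩)
    (by decide +kernel)
theorem L01359 : Good (Phi V5.P V5.D 1 (-1)) ⟨3, 3, 2, 1, 3, 7, 1, 0, 4, 5⟩ :=
  leafYS_sound T5.ok_pm T5.Ypm.bz_eq (w := 211) (c := ⟨⟨.negSucc 1387, .negSucc 162, .negSucc 78, .ofNat 66, .negSucc 232, .ofNat 182⟩, ⟨.ofNat 376, .negSucc 59, .ofNat 360, .ofNat 56, .ofNat 6, .negSucc 84⟩, ⟨.ofNat 335, .ofNat 105, .ofNat 82, .ofNat 142, .ofNat 1291, .ofNat 201⟩, ⟨.negSucc 3337, .ofNat 123, .ofNat 116, .ofNat 492, .negSucc 762, .ofNat 270⟩, ⟨.ofNat 687, .ofNat 382, .ofNat 459, .ofNat 1087, .negSucc 790, .negSucc 429⟩, .ofNat 562, .ofNat 327, .ofNat 0, .ofNat 327, .ofNat 1444, .ofNat 0, .ofNat 203, .negSucc 90, .negSucc 1, .ofNat 0, .ofNat 128, .negSucc 8, .ofNat 0, .ofNat 0, .ofNat 636, .ofNat 870, .ofNat 0, .ofNat 171272204138633059710918971650391456874496, .ofNat 0, .ofNat 0, .ofNat 0, .ofNat 0, .ofNat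 0, .ofNat 0, .ofNat 0, .ofNat 8740542022622146584007985189386070773465088, .ofNat 0, .ofNat 0, .ofNat 0, .ofNat 26670827930915694405166098778574732788760576, .ofNat 0, .ofNat 0⟩)
    (by decide +kernel)
theorem L01360 : Good (Phi V5.P V5.D 1 (-1)) ⟨2, 1, 2, 1, 3, 4, 1, 0, 4, 6⟩ :=
  leafYS_sound T5.ok_pm T5.Ypm.bz_eq (w := 209) (c := ⟨⟨.negSucc 1129, .negSucc 348, .ofNat 17, .negSucc 17, .negSucc 65, .ofNat 104⟩, ⟨.ofNat 290, .negSucc 69, .ofNat 279, .ofNat 19, .ofNat 21, .negSucc 44⟩, ⟨.ofNat 632, .ofNat 263, .ofNat 187, .ofNat 140, .ofNat 780, .ofNat 472⟩, ⟨.negSucc 3222, .negSucc 96, .negSucc 35, .negSucc 76, .negSucc 194, .ofNat 249⟩, ⟨.negSucc 193, .negSucc 9, .negSucc 5, .negSucc 36, .negSucc 151, .negSucc 53⟩, .ofNat 390, .ofNat 128, .ofNat 0, .ofNat 128, .ofNat 663, .ofNat 0, .ofNat 146, .negSucc 65, .negSucc 33, .ofNat 0, .ofNat 128,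 .ofNat 20, .ofNat 0, .ofNat 0, .ofNat 1523, .ofNat 7004, .ofNat 1067143390784651335420774115842668237946880, .ofNat 0, .ofNat 0, .ofNat 0, .ofNat 1814925383306807509173989271842137816694784, .ofNat 0, .ofNat 0, .ofNat 0, .ofNat 4746917485301005246841485111170946473918464, .ofNat 711325171895530479514079411523124889387008, .ofNat 0, .ofNat 0, .ofNat 62723765102585870233303450165805413035933696, .ofNat 5527242382055191570424901365172627134480384, .ofNat 0, .ofNat 0⟩)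
    (by decide +kernel)
theorem L01361 : Good (Phi V5.P V5.D 1 (-1)) ⟨2, 1, 2, 1, 4, 10, 1, 0, 4, 6⟩ :=
  leafYS_sound T5.ok_pm T5.Ypm.bz_eq (w := 222) (c := ⟨⟨.negSucc 1167, .negSucc 355, .ofNat 21, .negSucc 14, .negSucc 51, .ofNat 145⟩, ⟨.ofNat 317, .negSucc 74, .ofNat 288, .ofNat 4, .ofNat 4, .negSucc 48⟩, ⟨.ofNat 296, .ofNat 209, .ofNat 229, .ofNat 49, .ofNat 1330, .ofNat 603⟩, ⟨.negSucc 3297, .negSucc 72, .negSucc 37, .negSucc 11, .negSucc 226, .ofNat 332⟩, ⟨.negSucc 134, .ofNat 47, .ofNat 0, .ofNat 34, .negSucc 299, .negSucc 66⟩, .ofNat 390, .ofNat 128, .ofNat 0, .ofNat 128, .ofNat 663, .ofNat 0, .ofNat 179, .negSucc 64, .ofNat 7, .ofNat 0, .ofNat 128, .negSucc 1, .ofNat 0, .ofNat 0, .ofNat 1301, .ofNat 3288, .ofNat 1650706987014262379492900705098354368677150720, .ofNat 0, .ofNat 0, .ofNat 0, .ofNat 0, .ofNat 0, .ofNat 0, .ofNat 0, .ofNat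 23520260354855416234905823977821467502046085120, .ofNat 2838085580923908989819963764233694962920718336, .ofNat 0, .ofNat 0, .ofNat 183878576547432102520929593283354683326752358400, .ofNat 23618921013283703829862319235036707753096642560, .ofNat 0, .ofNat 0⟩)
    (by decide +kernel)
theorem L01362 : Good (Phi V5.P V5.D 1 (-1)) ⟨2, 1, 2, 1, 4, 11, 1, 0, 4, 6⟩ :=
  leafYS_sound T5.ok_pm T5.Ypm.bz_eq (w := 222) (c := ⟨⟨.negSucc 1198, .negSucc 341, .negSucc 0, .ofNat 3, .negSucc 23, .ofNat 158⟩, ⟨.ofNat 316, .negSucc 59, .ofNat 296, .ofNat 11, .ofNat 2, .negSucc 70⟩, ⟨.ofNat 285, .ofNat 175, .ofNat 207, .ofNat 46, .ofNat 1458, .ofNat 504⟩, ⟨.negSucc 3332, .negSucc 41, .negSucc 47, .ofNat 25, .negSucc 213, .ofNat 373⟩, ⟨.negSucc 118, .ofNat 120, .ofNat 38, .ofNat 84, .negSucc 341, .negSucc 64⟩, .ofNat 394, .ofNat 132, .ofNat 0, .ofNat 132, .ofNat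 655, .ofNat 0, .ofNat 273, .negSucc 65, .ofNat 26, .ofNat 0, .ofNat 128, .negSucc 21, .ofNat 0, .ofNat 0, .ofNat 1136, .ofNat 2160, .ofNat 1085960300795332167355612363015567292904767488, .ofNat 74530111773344840101354915047993412360863744, .ofNat 0, .ofNat 0, .ofNat 0, .ofNat 0, .ofNat 0, .ofNat 0, .ofNat 20321746854282614041590619596234087852127813632, .ofNat 2689537636709341593228117549674597221255872512, .ofNat 0, .ofNat 0, .ofNat 163274955662735198254575639485005144403902201856, .ofNat 25318965526959784776923760029889022892953305088, .ofNat 0, .ofNat 0⟩)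
    (by decide +kernel)
theorem L01363 : Good (Phi V5.P V5.D 1 (-1)) ⟨2, 1, 2, 1, 2, 3, 1, 0, 4, 6⟩ :=
  leafYS_sound T5.ok_pm T5.Ypm.bz_eq (w := 192) (c := ⟨⟨.negSucc 1184, .negSucc 341, .negSucc 19, .ofNat 84, .negSucc 32, .ofNat 193⟩, ⟨.ofNat 311, .negSucc 72, .ofNat 300, .ofNat 94, .ofNat 26, .negSucc 64⟩, ⟨.ofNat 570, .ofNat 98, .ofNat 139, .negSucc 103, .ofNat 1194, .ofNat 364⟩, ⟨.negSucc 3268, .ofNat 5, .negSucc 32, .ofNat 165, .negSucc 315, .ofNat 302⟩, ⟨.negSucc 104, .ofNat 228, .ofNat 112, .ofNat 559, .negSucc 350, .negSucc 206⟩, .ofNat 184, .ofNat 21, .ofNat 0, .ofNat 21, .ofNat 232, .ofNat 0, .ofNat 128, .negSucc 39, .ofNat 14, .ofNat 0, .ofNat 150, .negSucc 15, .ofNat 0, .ofNat 0, .ofNat 430, .ofNat 861, .ofNat 11812099736587614734042838451301122048, .ofNat 3636540044805707697660992912554459136, .ofNat 0, .ofNat 0, .ofNat 0, .ofNat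 73713308468736813684476879988829716480, .ofNat 0, .ofNat 0, .ofNat 1258205250290815176795598864569799278592, .ofNat 299793740618937239651486109299728449536, .ofNat 0, .ofNat 0, .ofNat 1345274896030732587075249156382640832512, .ofNat 381696526787877926331290158223862005760, .ofNat 0, .ofNat 0⟩)
    (by decide +kernel)
theorem L01364 : Good (Phi V5.P V5.D 1 (-1)) ⟨2, 1, 2, 1, 2, 2, 2, 0, 4, 7⟩ :=
  out_sound (S := T5.ds_pm) T5.ok_pm (w := 24) (j := 1) (by decide +kernel)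
theorem L01365 : Good (Phi V5.P V5.D 1 (-1)) ⟨2, 1, 2, 1, 3, 4, 3, 2, 4, 7⟩ :=
  out_sound (S := T5.ds_pm) T5.ok_pm (w := 27) (j := 1) (by decide +kernel)
theorem L01366 : Good (Phi V5.P V5.D 1 (-1)) ⟨2, 1, 2, 1, 4, 8, 3, 3, 5, 14⟩ :=
  out_sound (S := T5.ds_pm) T5.ok_pm (w := 31) (j := 1) (by decide +kernel)
theorem L01367 : Good (Phi V5.P V5.D 1 (-1)) ⟨2, 1, 2, 1, 4, 9, 4, 6, 5, 14⟩ :=
  out_sound (S := T5.ds_pm) T5.ok_pm (w := 32) (j := 1) (by decide +kernel)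
theorem L01368 : Good (Phi V5.P V5.D 1 (-1)) ⟨2, 1, 2, 1, 5, 18, 4, 7, 6, 28⟩ :=
  leafYS_sound T5.ok_pm T5.Ypm.bz_eq (w := 267) (c := ⟨⟨.negSucc 1156, .negSucc 330, .ofNat 56, .negSucc 0, .ofNat 52, .ofNat 1⟩, ⟨.ofNat 221, .negSucc 68, .ofNat 240, .ofNat 0, .ofNat 66, .ofNat 0⟩, ⟨.ofNat 2074, .ofNat 338, .ofNat 786, .ofNat 1, .negSucc 135, .negSucc 0⟩, ⟨.negSucc 3149, .negSucc 105, .ofNat 9, .negSucc 0, .negSucc 43, .ofNat 2⟩, ⟨.negSucc 376, .negSucc 49, .negSucc 109, .ofNat 0, .negSucc 30, .ofNat 0⟩, .ofNat 185, .ofNat 23, .ofNat 0, .ofNat 23, .ofNat 232, .ofNat 0, .ofNat 165, .negSucc 29, .ofNat 50, .ofNat 0, .ofNat 128, .negSucc 64, .ofNat 0, .ofNat 0, .ofNat 957, .ofNat 1131431, .ofNat 0, .ofNat 0, .ofNat 0, .ofNat 0, .ofNat 64229146780654914551292461120964730915564422850670493696, .ofNat 186418791848627563554218209985376606790433696817086464,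 .ofNat 0, .ofNat 0, .ofNat 35143108704791899613011544019345910556353866452464304128, .ofNat 0, .ofNat 0, .ofNat 0, .ofNat 256947525106998945168074583604875740297243140876857769984, .ofNat 480631351218710361266066565457668354409657453932183552, .ofNat 10947177276967613904422698105819108625497118372670734336, .ofNat 0⟩)
    (by decide +kernel)
theorem L01369 : Good (Phi V5.P V5.D 1 (-1)) ⟨2, 1, 2, 1, 5, 19, 6, 28, 7, 56⟩ :=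
  out_sound (S := T5.ds_pm) T5.ok_pm (w := 40) (j := 1) (by decide +kernel)
theorem L01370 : Good (Phi V5.P V5.D 1 (-1)) ⟨2, 1, 2, 1, 6, 38, 6, 29, 7, 56⟩ :=
  out_sound (S := T5.ds_pm) T5.ok_pm (w := 42) (j := 1) (by decide +kernel)
theorem L01371 : Good (Phi V5.P V5.D 1 (-1)) ⟨2, 1, 2, 1, 6, 39, 6, 29, 7, 56⟩ :=
  out_sound (S := T5.ds_pm) T5.ok_pm (w := 52) (j := 2) (by decide +kernel)
theorem L01372 : Good (Phi V5.P V5.D 1 (-1)) ⟨2, 1, 2, 1, 5, 19, 5, 14, 7, 57⟩ :=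
  out_sound (S := T5.ds_pm) T5.ok_pm (w := 39) (j := 1) (by decide +kernel)
theorem L01373 : Good (Phi V5.P V5.D 1 (-1)) ⟨2, 1, 2, 1, 7, 76, 6, 30, 7, 56⟩ :=
  out_sound (S := T5.ds_pm) T5.ok_pm (w := 44) (j := 1) (by decide +kernel)
theorem L01374 : Good (Phi V5.P V5.D 1 (-1)) ⟨2, 1, 2, 1, 8, 152, 8, 124, 9, 224⟩ :=
  out_sound (S := T5.ds_pm) T5.ok_pm (w := 52) (j := 1) (by decide +kernel)
theorem L01375 : Good (Phi V5.P V5.D 1 (-1)) ⟨2, 1, 2, 1, 8, 152, 9, 250, 10, 448⟩ :=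
  out_sound (S := T5.ds_pm) T5.ok_pm (w := 55) (j := 1) (by decide +kernel)
theorem L01376 : Good (Phi V5.P V5.D 1 (-1)) ⟨2, 1, 2, 1, 9, 304, 9, 251, 10, 448⟩ :=
  out_sound (S := T5.ds_pm) T5.ok_pm (w := 57) (j := 1) (by decide +kernel)
theorem L01377 : Good (Phi V5.P V5.D 1 (-1)) ⟨2, 1, 2, 1, 9, 305, 9, 251, 10, 448⟩ :=
  out_sound (S := T5.ds_pm) T5.ok_pm (w := 70) (j := 2) (by decide +kernel)
theorem L01378 : Good (Phi V5.P V5.D 1 (-1)) ⟨2, 1, 2, 1, 8, 152, 8, 125, 10, 449⟩ :=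
  out_sound (S := T5.ds_pm) T5.ok_pm (w := 54) (j := 1) (by decide +kernel)
theorem L01379 : Good (Phi V5.P V5.D 1 (-1)) ⟨2, 1, 2, 1, 8, 152, 7, 62, 9, 225⟩ :=
  out_sound (S := T5.ds_pm) T5.ok_pm (w := 51) (j := 1) (by decide +kernel)
theorem L01380 : Good (Phi V5.P V5.D 1 (-1)) ⟨2, 1, 2, 1, 10, 608, 9, 252, 10, 448⟩ :=
  out_sound (S := T5.ds_pm) T5.ok_pm (w := 59) (j := 1) (by decide +kernel)
theorem L01381 : Good (Phi V5.P V5.D 1 (-1)) ⟨2, 1, 2, 1, 11, 1216, 10, 506, 11, 896⟩ :=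
  out_sound (S := T5.ds_pm) T5.ok_pm (w := 64) (j := 1) (by decide +kernel)
theorem L01382 : Good (Phi V5.P V5.D 1 (-1)) ⟨2, 1, 2, 1, 11, 1216, 10, 507, 11, 896⟩ :=
  out_sound (S := T5.ds_pm) T5.ok_pm (w := 78) (j := 2) (by decide +kernel)
theorem L01383 : Good (Phi V5.P V5.D 1 (-1)) ⟨2, 1, 2, 1, 11, 1217, 9, 253, 11, 896⟩ :=
  out_sound (S := T5.ds_pm) T5.ok_pm (w := 76) (j := 2) (by decide +kernel)
theorem L01384 : Good (Phi V5.P V5.D 1 (-1)) ⟨2, 1, 2, 1, 10, 608, 9, 253, 11, 897⟩ :=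
  out_sound (S := T5.ds_pm) T5.ok_pm (w := 74) (j := 2) (by decide +kernel)
theorem L01385 : Good (Phi V5.P V5.D 1 (-1)) ⟨2, 1, 2, 1, 10, 609, 8, 126, 10, 448⟩ :=
  out_sound (S := T5.ds_pm) T5.ok_pm (w := 70) (j := 2) (by decide +kernel)
theorem L01386 : Good (Phi V5.P V5.D 1 (-1)) ⟨2, 1, 2, 1, 9, 304, 8, 126, 10, 449⟩ :=
  out_sound (S := T5.ds_pm) T5.ok_pm (w := 56) (j := 1) (by decide +kernel)
theorem L01387 : Good (Phi V5.P V5.D 1 (-1)) ⟨2, 1, 2, 1, 9, 304, 8, 127, 9, 224⟩ :=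
  out_sound (S := T5.ds_pm) T5.ok_pm (w := 66) (j := 2) (by decide +kernel)
theorem L01388 : Good (Phi V5.P V5.D 1 (-1)) ⟨2, 1, 2, 1, 9, 305, 7, 63, 9, 224⟩ :=
  out_sound (S := T5.ds_pm) T5.ok_pm (w := 64) (j := 2) (by decide +kernel)
theorem L01389 : Good (Phi V5.P V5.D 1 (-1)) ⟨2, 1, 2, 1, 8, 152, 7, 63, 9, 225⟩ :=
  out_sound (S := T5.ds_pm) T5.ok_pm (w := 62) (j := 2) (by decide +kernel)
theorem L01390 : Good (Phi V5.P V5.D 1 (-1)) ⟨2, 1, 2, 1, 8, 153, 6, 31, 8, 112⟩ :=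
  out_sound (S := T5.ds_pm) T5.ok_pm (w := 58) (j := 2) (by decide +kernel)
theorem L01391 : Good (Phi V5.P V5.D 1 (-1)) ⟨2, 1, 2, 1, 7, 76, 6, 31, 8, 113⟩ :=
  out_sound (S := T5.ds_pm) T5.ok_pm (w := 56) (j := 2) (by decide +kernel)
theorem L01392 : Good (Phi V5.P V5.D 1 (-1)) ⟨2, 1, 2, 1, 8, 154, 6, 30, 8, 112⟩ :=
  out_sound (S := T5.ds_pm) T5.ok_pm (w := 48) (j := 1) (by decide +kernel)
theorem L01393 : Good (Phi V5.P V5.D 1 (-1)) ⟨2, 1, 2, 1, 8, 155, 6, 30, 8, 112⟩ :=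
  out_sound (S := T5.ds_pm) T5.ok_pm (w := 58) (j := 2) (by decide +kernel)
theorem L01394 : Good (Phi V5.P V5.D 1 (-1)) ⟨2, 1, 2, 1, 7, 77, 6, 30, 8, 113⟩ :=
  out_sound (S := T5.ds_pm) T5.ok_pm (w := 46) (j := 1) (by decide +kernel)
theorem L01395 : Good (Phi V5.P V5.D 1 (-1)) ⟨2, 1, 2, 1, 7, 77, 6, 31, 7, 56⟩ :=
  out_sound (S := T5.ds_pm) T5.ok_pm (w := 54) (j := 2) (by decide +kernel)
theorem L01396 : Good (Phi V5.P V5.D 1 (-1)) ⟨2, 1, 2, 1, 6, 38, 5, 15, 7, 57⟩ :=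
  out_sound (S := T5.ds_pm) T5.ok_pm (w := 50) (j := 2) (by decide +kernel)
theorem L01397 : Good (Phi V5.P V5.D 1 (-1)) ⟨2, 1, 2, 1, 6, 39, 5, 15, 6, 28⟩ :=
  out_sound (S := T5.ds_pm) T5.ok_pm (w := 48) (j := 2) (by decide +kernel)
theorem L01398 : Good (Phi V5.P V5.D 1 (-1)) ⟨2, 1, 2, 1, 4, 9, 4, 7, 6, 29⟩ :=
  out_sound (S := T5.ds_pm) T5.ok_pm (w := 34) (j := 1) (by decide +kernel)
theorem L01399 : Good (Phi V5.P V5.D 1 (-1)) ⟨2, 1, 2, 1, 3, 4, 3, 3, 5, 15⟩ :=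
  out_sound (S := T5.ds_pm) T5.ok_pm (w := 29) (j := 1) (by decide +kernel)
theorem L01400 : Good (Phi V5.P V5.D 1 (-1)) ⟨2, 1, 2, 1, 4, 10, 3, 2, 5, 14⟩ :=
  out_sound (S := T5.ds_pm) T5.ok_pm (w := 31) (j := 1) (by decide +kernel)
theorem L01401 : Good (Phi V5.P V5.D 1 (-1)) ⟨2, 1, 2, 1, 5, 20, 5, 12, 6, 28⟩ :=
  out_sound (S := T5.ds_pm) T5.ok_pm (w := 37) (j := 1) (by decide +kernel)
theorem L01402 : Good (Phi V5.P V5.D 1 (-1)) ⟨2, 1, 2, 1, 5, 20, 5, 13, 6, 28⟩ :=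
  out_sound (S := T5.ds_pm) T5.ok_pm (w := 46) (j := 2) (by decide +kernel)
theorem L01403 : Good (Phi V5.P V5.D 1 (-1)) ⟨2, 1, 2, 1, 5, 20, 4, 7, 6, 28⟩ :=
  out_sound (S := T5.ds_pm) T5.ok_pm (w := 44) (j := 2) (by decide +kernel)
theorem L01404 : Good (Phi V5.P V5.D 1 (-1)) ⟨2, 1, 2, 1, 5, 20, 3, 3, 6, 29⟩ :=
  out_sound (S := T5.ds_pm) T5.ok_pm (w := 42) (j := 2) (by decide +kernel)
theorem L01405 : Good (Phi V5.P V5.D 1 (-1)) ⟨2, 1, 2, 1, 5, 21, 3, 3, 5, 14⟩ :=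
  out_sound (S := T5.ds_pm) T5.ok_pm (w := 40) (j := 2) (by decide +kernel)
theorem L01406 : Good (Phi V5.P V5.D 1 (-1)) ⟨2, 1, 2, 1, 4, 10, 2, 1, 5, 15⟩ :=
  out_sound (S := T5.ds_pm) T5.ok_pm (w := 36) (j := 2) (by decide +kernel)
theorem L01407 : Good (Phi V5.P V5.D 1 (-1)) ⟨2, 1, 2, 1, 4, 11, 2, 1, 4, 7⟩ :=
  out_sound (S := T5.ds_pm) T5.ok_pm (w := 34) (j := 2) (by decide +kernel)
theorem L01408 : Good (Phi V5.P V5.D 1 (-1)) ⟨2, 1, 2, 1, 2, 3, 1, 0, 4, 7⟩ :=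
  out_sound (S := T5.ds_pm) T5.ok_pm (w := 28) (j := 2) (by decide +kernel)
theorem L01409 : Good (Phi V5.P V5.D 1 (-1)) ⟨2, 1, 2, 1, 3, 4, 1, 0, 3, 4⟩ :=
  out_sound (S := T5.ds_pm) T5.ok_pm (w := 23) (j := 1) (by decide +kernel)
theorem L01410 : Good (Phi V5.P V5.D 1 (-1)) ⟨2, 1, 2, 1, 3, 5, 1, 0, 3, 4⟩ :=
  out_sound (S := T5.ds_pm) T5.ok_pm (w := 28) (j := 2) (by decide +kernel)
theorem L01411 : Good (Phi V5.P V5.D 1 (-1)) ⟨2, 1, 2, 1, 2, 2, 1, 0, 3, 5⟩ :=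
  out_sound (S := T5.ds_pm) T5.ok_pm (w := 21) (j := 1) (by decide +kernel)
theorem L01412 : Good (Phi V5.P V5.D 1 (-1)) ⟨2, 1, 2, 1, 2, 2, 1, 0, 2, 3⟩ :=
  out_sound (S := T5.ds_pm) T5.ok_pm (w := 19) (j := 1) (by decide +kernel)
theorem L01413 : Good (Phi V5.P V5.D 1 (-1)) ⟨2, 1, 2, 1, 2, 3, 1, 0, 1, 1⟩ :=
  out_sound (S := T5.ds_pm) T5.ok_pm (w := 22) (j := 2) (by decide +kernel)
theorem L01414 : Good (Phi V5.P V5.D 1 (-1)) ⟨2, 1, 2, 1, 2, 2, 2, 2, 3, 0⟩ :=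
  leafYS_sound T5.ok_pm T5.Ypm.bz_eq (w := 192) (c := ⟨⟨.ofNat 764, .negSucc 49, .negSucc 15, .negSucc 2, .negSucc 496, .negSucc 1584⟩, ⟨.negSucc 183, .ofNat 11, .negSucc 16, .ofNat 36, .ofNat 148, .ofNat 441⟩, ⟨.negSucc 843, .ofNat 105, .ofNat 41, .ofNat 49, .ofNat 732, .ofNat 1138⟩, ⟨.ofNat 2038, .negSucc 27, .ofNat 115, .ofNat 279, .negSucc 1379, .negSucc 4487⟩, ⟨.ofNat 378, .ofNat 349, .ofNat 75, .ofNat 782, .negSucc 193, .negSucc 1069⟩, .ofNat 390, .ofNat 124, .ofNat 0, .ofNat 124, .ofNat 655, .ofNat 0, .ofNat 350, .negSucc 69, .negSucc 278, .ofNat 0, .ofNat 128, .ofNat 94, .ofNat 0, .ofNat 0, .ofNat 470, .ofNat 502, .ofNat 0, .ofNat 0, .ofNat 0, .ofNat 0, .ofNat 0, .ofNat 0, .ofNat 0, .ofNat 0, .ofNat 0, .ofNat 0, .ofNat 0, .ofNat 0, .ofNat 0, .ofNat 0, .ofNat 0, .ofNat 0⟩)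
    (by decide +kernel)
theorem L01415 : Good (Phi V5.P V5.D 1 (-1)) ⟨2, 1, 2, 1, 2, 3, 2, 2, 4, 0⟩ :=
  leafYS_sound T5.ok_pm T5.Ypm.bz_eq (w := 197) (c := ⟨⟨.ofNat 749, .ofNat 126, .ofNat 14, .negSucc 429, .negSucc 674, .negSucc 610⟩, ⟨.negSucc 88, .ofNat 41, .negSucc 84, .ofNat 91, .ofNat 175, .ofNat 110⟩, ⟨.negSucc 550, .negSucc 191, .ofNat 81, .ofNat 530, .ofNat 801, .ofNat 37⟩, ⟨.ofNat 2366, .ofNat 30, .ofNat 340, .negSucc 1301, .negSucc 1822, .negSucc 1718⟩, ⟨.ofNat 1870, .ofNat 95, .negSucc 16, .negSucc 834, .negSucc 589, .negSucc 846⟩, .ofNat 619, .ofNat 395, .ofNat 0, .ofNat 395, .ofNat 1458, .ofNat 0, .ofNat 308, .negSucc 127, .negSucc 195, .ofNat 0, .ofNat 113, .ofNat 71, .ofNat 0, .ofNat 0, .ofNat 331, .ofNat 324, .ofNat 0, .ofNat 0, .ofNat 0, .ofNat 0, .ofNat 0, .ofNat 0, .ofNat 3309433303808856432496490669406158848, .ofNat 0,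 .ofNat 0, .ofNat 0, .ofNat 0, .ofNat 0, .ofNat 0, .ofNat 0, .ofNat 0, .ofNat 0⟩)
    (by decide +kernel)
theorem L01416 : Good (Phi V5.P V5.D 1 (-1)) ⟨2, 1, 2, 1, 2, 3, 2, 2, 4, 1⟩ :=
  leafYS_sound T5.ok_pm T5.Ypm.bz_eq (w := 196) (c := ⟨⟨.ofNat 199, .negSucc 589, .ofNat 179, .negSucc 421, .negSucc 557, .negSucc 1158⟩, ⟨.negSucc 80, .ofNat 89, .ofNat 153, .ofNat 135, .ofNat 144, .ofNat 367⟩, ⟨.negSucc 509, .ofNat 291, .negSucc 2, .ofNat 279, .ofNat 893, .ofNat 793⟩, ⟨.ofNat 399, .negSucc 959, .ofNat 424, .negSucc 1171, .negSucc 1340, .negSucc 2865⟩, ⟨.ofNat 586, .ofNat 155, .negSucc 42, .negSucc 428, .negSucc 188, .negSucc 200⟩, .ofNat 619, .ofNat 395, .ofNat 0, .ofNat 395, .ofNat 1458, .ofNat 0, .ofNat 422, .negSucc 127, .negSucc 150, .ofNat 0, .ofNat 109, .ofNat 52, .ofNat 0, .ofNat 0, .ofNat 266, .ofNat 327, .ofNat 0, .ofNat 0, .ofNat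 0, .ofNat 0, .ofNat 0, .ofNat 0, .ofNat 0, .ofNat 0, .ofNat 0, .ofNat 0, .ofNat 0, .ofNat 0, .ofNat 0, .ofNat 0, .ofNat 1337592435196334565005236955085012992, .ofNat 0⟩)
    (by decide +kernel)
theorem L01417 : Good (Phi V5.P V5.D 1 (-1)) ⟨2, 1, 2, 1, 2, 2, 2, 3, 3, 0⟩ :=
  leafYS_sound T5.ok_pm T5.Ypm.bz_eq (w := 192) (c := ⟨⟨.ofNat 293, .negSucc 544, .negSucc 7, .negSucc 284, .negSucc 848, .negSucc 1018⟩, ⟨.negSucc 203, .ofNat 97, .ofNat 147, .ofNat 230, .ofNat 363, .ofNat 343⟩, ⟨.negSucc 286, .ofNat 562, .ofNat 71, .ofNat 390, .ofNat 1341, .ofNat 775⟩, ⟨.ofNat 568, .negSucc 823, .ofNat 83, .negSucc 422, .negSucc 1902, .negSucc 2923⟩, ⟨.negSucc 60, .ofNat 590, .ofNat 150, .ofNat 872, .ofNat 741, .negSucc 1129⟩, .ofNat 612, .ofNat 381, .ofNat 0, .ofNat 381, .ofNat 1419, .ofNat 0, .ofNat 334, .negSucc 120, .negSucc 321, .ofNat 0, .ofNat 128,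 .ofNat 113, .ofNat 0, .ofNat 0, .ofNat 580, .ofNat 267, .ofNat 0, .ofNat 0, .ofNat 0, .ofNat 0, .ofNat 0, .ofNat 16301874165271915771562336858398523392, .ofNat 0, .ofNat 0, .ofNat 0, .ofNat 0, .ofNat 0, .ofNat 0, .ofNat 0, .ofNat 0, .ofNat 0, .ofNat 0⟩)
    (by decide +kernel)
theorem L01418 : Good (Phi V5.P V5.D 1 (-1)) ⟨3, 2, 2, 1, 2, 3, 2, 3, 3, 0⟩ :=
  leafYS_sound T5.ok_pm T5.Ypm.bz_eq (w := 195) (c := ⟨⟨.ofNat 89, .negSucc 293, .ofNat 65, .negSucc 226, .negSucc 901, .negSucc 1250⟩, ⟨.negSucc 33, .ofNat 71, .ofNat 129, .ofNat 97, .ofNat 413, .ofNat 417⟩, ⟨.ofNat 243, .ofNat 222, .ofNat 36, .ofNat 42, .ofNat 1206, .ofNat 757⟩, ⟨.ofNat 424, .negSucc 553, .ofNat 301, .negSucc 702, .negSucc 1941, .negSucc 3479⟩, ⟨.ofNat 1147, .ofNat 89, .negSucc 131, .negSucc 293, .ofNat 1207, .negSucc 876⟩, .ofNat 930, .ofNat 863, .ofNat 0, .ofNat 863, .ofNat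 2452, .ofNat 0, .ofNat 128, .negSucc 150, .negSucc 78, .ofNat 0, .ofNat 112, .ofNat 32, .ofNat 0, .ofNat 0, .ofNat 156, .ofNat 124, .ofNat 0, .ofNat 0, .ofNat 0, .ofNat 0, .ofNat 0, .ofNat 0, .ofNat 0, .ofNat 0, .ofNat 0, .ofNat 123085193558935205791555440484640882688, .ofNat 0, .ofNat 0, .ofNat 0, .ofNat 20651299894697313863255026762369728512, .ofNat 0, .ofNat 0⟩)
    (by decide +kernel)
theorem L01419 : Good (Phi V5.P V5.D 1 (-1)) ⟨3, 3, 2, 1, 2, 3, 2, 3, 4, 0⟩ :=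
  leafYS_sound T5.ok_pm T5.Ypm.bz_eq (w := 201) (c := ⟨⟨.negSucc 83, .negSucc 299, .ofNat 58, .negSucc 364, .negSucc 1148, .negSucc 395⟩, ⟨.ofNat 62, .ofNat 40, .ofNat 119, .ofNat 44, .ofNat 467, .ofNat 84⟩, ⟨.ofNat 382, .ofNat 174, .ofNat 83, .ofNat 123, .ofNat 1399, .ofNat 118⟩, ⟨.ofNat 88, .negSucc 647, .ofNat 276, .negSucc 1168, .negSucc 2159, .negSucc 1068⟩, ⟨.ofNat 1486, .negSucc 95, .negSucc 347, .negSucc 927, .ofNat 1569, .negSucc 317⟩, .ofNat 677, .ofNat 535, .ofNat 0, .ofNat 535, .ofNat 1975, .ofNat 0, .ofNat 294, .negSucc 127, .negSucc 241, .ofNat 0, .ofNat 94, .ofNat 77, .ofNat 0, .ofNat 0, .ofNat 359, .ofNat 169, .ofNat 0, .ofNat 0, .ofNat 0, .ofNat 0, .ofNat 0, .ofNat 0, .ofNat 0, .ofNat 0, .ofNat 0, .ofNat 529000396519496930262636974585143099392, .ofNat 0, .ofNat 0, .ofNat 0, .ofNat 0, .ofNat 0, .ofNat 0⟩)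
    (by decide +kernel)
theorem L01420 : Good (Phi V5.P V5.D 1 (-1)) ⟨3, 3, 2, 1, 2, 3, 2, 3, 4, 1⟩ :=
  leafYS_sound T5.ok_pm T5.Ypm.bz_eq (w := 200) (c := ⟨⟨.negSucc 479, .negSucc 654, .ofNat 108, .negSucc 653, .negSucc 1097, .negSucc 1054⟩, ⟨.ofNat 66, .ofNat 0, .ofNat 303, .ofNat 200, .ofNat 426, .ofNat 321⟩, ⟨.ofNat 535, .ofNat 372, .ofNat 63, .ofNat 100, .ofNat 1498, .ofNat 815⟩, ⟨.negSucc 1248, .negSucc 857, .ofNat 250, .negSucc 1789, .negSucc 2119, .negSucc 2551⟩, ⟨.ofNat 638, .ofNat 290, .negSucc 186, .negSucc 679, .ofNat 1296, .negSucc 336⟩, .ofNat 790, .ofNat 756, .ofNat 0, .ofNat 756, .ofNat 2537, .ofNat 0, .ofNat 140, .negSucc 127, .negSucc 107, .ofNat 0, .ofNat 83, .ofNat 34, .ofNat 0, .ofNat 0, .ofNat 184, .ofNat 77, .ofNat 0, .ofNat 13484540135462793127185651591070875648, .ofNat 0, .ofNat 0, .ofNat 0, .ofNat 116777436497453648993854353506761179136,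 .ofNat 0, .ofNat 0, .ofNat 0, .ofNat 0, .ofNat 0, .ofNat 0, .ofNat 0, .ofNat 0, .ofNat 0, .ofNat 0⟩)
    (by decide +kernel)
theorem L01421 : Good (Phi V5.P V5.D 1 (-1)) ⟨2, 1, 2, 1, 1, 1, 2, 2, 4, 2⟩ :=
  leafYS_sound T5.ok_pm T5.Ypm.bz_eq (w := 182) (c := ⟨⟨.negSucc 780, .negSucc 654, .ofNat 42, .negSucc 670, .negSucc 163, .negSucc 377⟩, ⟨.ofNat 142, .ofNat 3, .ofNat 359, .ofNat 274, .ofNat 65, .ofNat 122⟩, ⟨.ofNat 298, .ofNat 421, .ofNat 74, .ofNat 212, .ofNat 693, .ofNat 468⟩, ⟨.negSucc 2395, .negSucc 677, .ofNat 16, .negSucc 1294, .negSucc 516, .negSucc 1013⟩, ⟨.negSucc 220, .ofNat 322, .negSucc 137, .ofNat 891, .negSucc 264, .negSucc 221⟩, .ofNat 605, .ofNat 375, .ofNat 0, .ofNat 375, .ofNat 1420, .ofNat 0, .ofNat 343, .negSucc 127, .negSucc 116, .ofNat 0, .ofNat 123, .ofNat 41, .ofNat 0, .ofNat 0, .ofNat 331, .ofNat 369, .ofNat 0, .ofNat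 0, .ofNat 0, .ofNat 0, .ofNat 0, .ofNat 0, .ofNat 614922717606668190690591817859072, .ofNat 0, .ofNat 0, .ofNat 0, .ofNat 0, .ofNat 0, .ofNat 0, .ofNat 0, .ofNat 0, .ofNat 0⟩)
    (by decide +kernel)
theorem L01422 : Good (Phi V5.P V5.D 1 (-1)) ⟨2, 1, 2, 1, 1, 1, 3, 6, 4, 2⟩ :=
  leafYS_sound T5.ok_pm T5.Ypm.bz_eq (w := 186) (c := ⟨⟨.negSucc 721, .negSucc 903, .negSucc 119, .negSucc 1164, .negSucc 221, .negSucc 204⟩, ⟨.ofNat 135, .ofNat 21, .ofNat 417, .ofNat 444, .ofNat 92, .ofNat 67⟩, ⟨.ofNat 653, .ofNat 702, .ofNat 264, .ofNat 569, .ofNat 445, .ofNat 297⟩, ⟨.negSucc 2378, .negSucc 1148, .negSucc 240, .negSucc 2533, .negSucc 516, .negSucc 659⟩, ⟨.negSucc 259, .negSucc 161, .negSucc 239, .ofNat 935, .ofNat 286, .negSucc 79⟩, .ofNat 608, .ofNat 363, .ofNat 0, .ofNat 363, .ofNat 1409, .ofNat 0, .ofNat 278, .negSucc 127, .negSucc 100, .ofNat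 0, .ofNat 128, .ofNat 30, .ofNat 0, .ofNat 0, .ofNat 302, .ofNat 253, .ofNat 0, .ofNat 0, .ofNat 0, .ofNat 0, .ofNat 0, .ofNat 0, .ofNat 6825557442029770806732878222721024, .ofNat 0, .ofNat 0, .ofNat 92578489664149107399447700490420224, .ofNat 0, .ofNat 0, .ofNat 0, .ofNat 0, .ofNat 0, .ofNat 0⟩)
    (by decide +kernel)
theorem L01423 : Good (Phi V5.P V5.D 1 (-1)) ⟨2, 1, 2, 1, 1, 1, 3, 7, 4, 2⟩ :=
  leafYS_sound T5.ok_pm T5.Ypm.bz_eq (w := 187) (c := ⟨⟨.negSucc 766, .negSucc 1007, .negSucc 96, .negSucc 1455, .negSucc 307, .negSucc 341⟩, ⟨.ofNat 130, .negSucc 10, .ofNat 445, .ofNat 584, .ofNat 122, .ofNat 161⟩, ⟨.ofNat 865, .ofNat 761, .ofNat 279, .ofNat 773, .ofNat 560, .ofNat 604⟩, ⟨.negSucc 2560, .negSucc 1332, .negSucc 225, .negSucc 3064, .negSucc 724, .negSucc 932⟩, ⟨.negSucc 182, .negSucc 61, .negSucc 119, .ofNat 1347, .ofNat 139, .negSucc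 323⟩, .ofNat 619, .ofNat 395, .ofNat 0, .ofNat 395, .ofNat 1458, .ofNat 0, .ofNat 308, .negSucc 127, .negSucc 163, .ofNat 0, .ofNat 116, .ofNat 48, .ofNat 0, .ofNat 0, .ofNat 403, .ofNat 207, .ofNat 0, .ofNat 6560361167433665281866494950506496, .ofNat 0, .ofNat 0, .ofNat 0, .ofNat 85062847249383900414401176940838912, .ofNat 5430033803182322449492962443264000, .ofNat 0, .ofNat 0, .ofNat 175368564791768028489130667851907072, .ofNat 0, .ofNat 0, .ofNat 0, .ofNat 120321120704300417499363038615044096, .ofNat 0, .ofNat 0⟩)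
    (by decide +kernel)
theorem L01424 : Good (Phi V5.P V5.D 1 (-1)) ⟨2, 1, 2, 1, 2, 2, 2, 2, 4, 3⟩ :=
  leafYS_sound T5.ok_pm T5.Ypm.bz_eq (w := 197) (c := ⟨⟨.negSucc 1174, .negSucc 559, .ofNat 11, .negSucc 318, .negSucc 117, .negSucc 10⟩, ⟨.ofNat 263, .negSucc 11, .ofNat 338, .ofNat 140, .ofNat 44, .ofNat 16⟩, ⟨.ofNat 780, .ofNat 469, .ofNat 43, .ofNat 137, .ofNat 554, .ofNat 193⟩, ⟨.negSucc 3428, .negSucc 485, .negSucc 8, .negSucc 674, .negSucc 307, .negSucc 92⟩, ⟨.negSucc 462, .ofNat 119, .ofNat 82, .ofNat 314, .negSucc 56, .negSucc 64⟩, .ofNat 394, .ofNat 130, .ofNat 0, .ofNat 130, .ofNat 654, .ofNat 0, .ofNat 471, .negSucc 78, .negSucc 145, .ofNat 0, .ofNat 128, .ofNat 51, .ofNat 0, .ofNat 0, .ofNat 571, .ofNat 1132, .ofNat 0, .ofNat 0, .ofNat 0, .ofNat 0, .ofNat 0, .ofNat 0, .ofNat 0, .ofNat 0, .ofNat 0, .ofNat 0, .ofNat 0, .ofNat 0,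 .ofNat 0, .ofNat 0, .ofNat 0, .ofNat 0⟩)
    (by decide +kernel)
theorem L01425 : Good (Phi V5.P V5.D 1 (-1)) ⟨2, 1, 2, 1, 2, 3, 2, 2, 5, 6⟩ :=
  leafYS_sound T5.ok_pm T5.Ypm.bz_eq (w := 202) (c := ⟨⟨.negSucc 1340, .negSucc 715, .negSucc 107, .negSucc 333, .negSucc 299, .ofNat 7⟩, ⟨.ofNat 354, .negSucc 15, .ofNat 444, .ofNat 194, .ofNat 83, .negSucc 20⟩, ⟨.ofNat 721, .ofNat 497, .ofNat 149, .ofNat 160, .ofNat 808, .ofNat 123⟩, ⟨.negSucc 3899, .negSucc 585, .negSucc 169, .negSucc 652, .negSucc 749, .ofNat 20⟩, ⟨.negSucc 14, .ofNat 309, .negSucc 3, .ofNat 632, .negSucc 186, .ofNat 50⟩, .ofNat 619, .ofNat 395, .ofNat 0, .ofNat 395, .ofNat 1458, .ofNat 0, .ofNat 258, .negSucc 127, .negSucc 63, .ofNat 0, .ofNat 128, .ofNat 17, .ofNat 0, .ofNat 0, .ofNat 362, .ofNat 643, .ofNat 0, .ofNat 0, .ofNat 0, .ofNat 0, .ofNat 0, .ofNat 0, .ofNat 0, .ofNat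 0, .ofNat 0, .ofNat 0, .ofNat 0, .ofNat 0, .ofNat 0, .ofNat 953461773629333145263564851791693611008, .ofNat 33271981064197952543042761896635662336, .ofNat 0⟩)
    (by decide +kernel)
theorem L01426 : Good (Phi V5.P V5.D 1 (-1)) ⟨2, 1, 2, 1, 2, 3, 2, 2, 5, 7⟩ :=
  leafYS_sound T5.ok_pm T5.Ypm.bz_eq (w := 201) (c := ⟨⟨.negSucc 1488, .negSucc 590, .negSucc 78, .negSucc 166, .negSucc 234, .ofNat 101⟩, ⟨.ofNat 415, .negSucc 56, .ofNat 424, .ofNat 128, .ofNat 43, .negSucc 38⟩, ⟨.ofNat 889, .ofNat 450, .ofNat 140, .ofNat 187, .ofNat 772, .ofNat 107⟩, ⟨.negSucc 4288, .negSucc 356, .negSucc 47, .negSucc 113, .negSucc 608, .ofNat 226⟩, ⟨.negSucc 160, .ofNat 259, .ofNat 136, .ofNat 965, .negSucc 234, .negSucc 12⟩, .ofNat 615, .ofNat 382, .ofNat 0, .ofNat 382, .ofNat 1419, .ofNat 0, .ofNat 261, .negSucc 115, .negSucc 38, .ofNat 0, .ofNat 128, .ofNat 1,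 .ofNat 0, .ofNat 0, .ofNat 501, .ofNat 260, .ofNat 0, .ofNat 0, .ofNat 0, .ofNat 0, .ofNat 0, .ofNat 0, .ofNat 0, .ofNat 0, .ofNat 0, .ofNat 1050746970341258247617144249465826181120, .ofNat 0, .ofNat 0, .ofNat 0, .ofNat 3062063859451833892232933917876243398656, .ofNat 0, .ofNat 0⟩)
    (by decide +kernel)
theorem L01427 : Good (Phi V5.P V5.D 1 (-1)) ⟨2, 1, 2, 1, 2, 2, 3, 6, 4, 3⟩ :=
  leafYS_sound T5.ok_pm T5.Ypm.bz_eq (w := 200) (c := ⟨⟨.negSucc 1213, .negSucc 677, .negSucc 7, .negSucc 444, .negSucc 164, .negSucc 7⟩, ⟨.ofNat 317, .negSucc 36, .ofNat 353, .ofNat 168, .ofNat 56, .negSucc 14⟩, ⟨.ofNat 1076, .ofNat 679, .ofNat 109, .ofNat 466, .ofNat 381, .ofNat 170⟩, ⟨.negSucc 3546, .negSucc 696, .negSucc 40, .negSucc 1020, .negSucc 430, .negSucc 95⟩, ⟨.negSucc 314, .negSucc 162, .ofNat 46, .ofNat 224, .negSucc 38, .negSucc 149⟩, .ofNat 607,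 .ofNat 370, .ofNat 0, .ofNat 370, .ofNat 1408, .ofNat 0, .ofNat 295, .negSucc 123, .negSucc 69, .ofNat 0, .ofNat 128, .ofNat 21, .ofNat 0, .ofNat 0, .ofNat 334, .ofNat 309, .ofNat 0, .ofNat 0, .ofNat 0, .ofNat 0, .ofNat 0, .ofNat 0, .ofNat 0, .ofNat 0, .ofNat 0, .ofNat 0, .ofNat 0, .ofNat 0, .ofNat 0, .ofNat 592680016765740573698667600558029799424, .ofNat 0, .ofNat 0⟩)
    (by decide +kernel)
theorem L01428 : Good (Phi V5.P V5.D 1 (-1)) ⟨2, 1, 2, 1, 2, 2, 3, 7, 4, 3⟩ :=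
  leafYS_sound T5.ok_pm T5.Ypm.bz_eq (w := 201) (c := ⟨⟨.negSucc 1191, .negSucc 782, .negSucc 7, .negSucc 751, .negSucc 327, .negSucc 84⟩, ⟨.ofNat 285, .negSucc 30, .ofNat 414, .ofNat 268, .ofNat 77, .ofNat 20⟩, ⟨.ofNat 1228, .ofNat 814, .ofNat 154, .ofNat 746, .ofNat 433, .ofNat 198⟩, ⟨.negSucc 3543, .negSucc 947, .negSucc 101, .negSucc 1722, .negSucc 855, .negSucc 255⟩, ⟨.negSucc 294, .negSucc 320, .negSucc 59, .ofNat 334, .negSucc 151, .negSucc 155⟩, .ofNat 389, .ofNat 123, .ofNat 0, .ofNat 123, .ofNat 656, .ofNat 0, .ofNat 326, .negSucc 72, .negSucc 97, .ofNat 0, .ofNat 128, .ofNat 21, .ofNat 0, .ofNat 0, .ofNat 332, .ofNat 499, .ofNat 0, .ofNat 0, .ofNat 0, .ofNat 0, .ofNat 0, .ofNat 2725906800600130724712814015278879866880, .ofNat 0, .ofNat 0, .ofNat 0, .ofNat 795134878127453508472722117546364370944, .ofNat 0, .ofNat 0, .ofNat 0, .ofNat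 1137557416913755307760356722090138664960, .ofNat 4345982223022112559100460584962883584, .ofNat 0⟩)
    (by decide +kernel)
theorem L01429 : Good (Phi V5.P V5.D 1 (-1)) ⟨2, 1, 2, 1, 2, 3, 3, 6, 5, 6⟩ :=
  leafYS_sound T5.ok_pm T5.Ypm.bz_eq (w := 206) (c := ⟨⟨.negSucc 1520, .negSucc 852, .negSucc 99, .negSucc 451, .negSucc 341, .ofNat 23⟩, ⟨.ofNat 407, .negSucc 63, .ofNat 497, .ofNat 256, .ofNat 139, .negSucc 13⟩, ⟨.ofNat 1382, .ofNat 669, .ofNat 216, .ofNat 74, .ofNat 628, .ofNat 129⟩, ⟨.negSucc 4358, .negSucc 843, .negSucc 247, .negSucc 857, .negSucc 824, .ofNat 24⟩, ⟨.ofNat 128, .ofNat 17, .negSucc 223, .ofNat 948, .ofNat 24, .negSucc 33⟩, .ofNat 608, .ofNat 380, .ofNat 0, .ofNat 380, .ofNat 1429, .ofNat 0, .ofNat 262, .negSucc 127, .negSucc 40, .ofNat 0, .ofNat 125, .ofNat 4, .ofNat 0, .ofNat 0, .ofNat 307, .ofNat 272, .ofNat 0, .ofNat 0,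 .ofNat 0, .ofNat 0, .ofNat 0, .ofNat 0, .ofNat 0, .ofNat 0, .ofNat 0, .ofNat 4181680729037656445175153190085653954560, .ofNat 0, .ofNat 0, .ofNat 0, .ofNat 5266345438498296460407896824578586968064, .ofNat 0, .ofNat 0⟩)
    (by decide +kernel)
theorem L01430 : Good (Phi V5.P V5.D 1 (-1)) ⟨2, 1, 2, 1, 2, 3, 3, 6, 5, 7⟩ :=
  leafYS_sound T5.ok_pm T5.Ypm.bz_eq (w := 206) (c := ⟨⟨.negSucc 1617, .negSucc 734, .negSucc 60, .negSucc 371, .negSucc 259, .ofNat 69⟩, ⟨.ofNat 448, .negSucc 56, .ofNat 428, .ofNat 239, .ofNat 88, .negSucc 23⟩, ⟨.ofNat 1488, .ofNat 676, .ofNat 214, .ofNat 255, .ofNat 614, .ofNat 150⟩, ⟨.negSucc 4552, .negSucc 747, .negSucc 147, .negSucc 574, .negSucc 671, .ofNat 122⟩, ⟨.negSucc 20, .negSucc 159, .negSucc 46, .ofNat 1126, .negSucc 157, .negSucc 135⟩, .ofNat 387, .ofNat 121, .ofNat 0, .ofNat 121, .ofNat 656, .ofNat 0, .ofNat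 336, .negSucc 79, .negSucc 29, .ofNat 0, .ofNat 128, .negSucc 7, .ofNat 0, .ofNat 0, .ofNat 333, .ofNat 392, .ofNat 0, .ofNat 375948835172120656297669173437762895872, .ofNat 0, .ofNat 0, .ofNat 0, .ofNat 0, .ofNat 0, .ofNat 0, .ofNat 0, .ofNat 6415834154282670923259603323344153214976, .ofNat 0, .ofNat 0, .ofNat 0, .ofNat 12606865457413064353435516479514548895744, .ofNat 0, .ofNat 0⟩)
    (by decide +kernel)
theorem L01431 : Good (Phi V5.P V5.D 1 (-1)) ⟨2, 1, 2, 1, 2, 3, 3, 7, 4, 3⟩ :=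
  leafYS_sound T5.ok_pm T5.Ypm.bz_eq (w := 202) (c := ⟨⟨.negSucc 1751, .negSucc 1060, .negSucc 88, .negSucc 872, .ofNat 144, .ofNat 131⟩, ⟨.ofNat 507, .negSucc 17, .ofNat 510, .ofNat 264, .ofNat 203, .negSucc 33⟩, ⟨.ofNat 1832, .ofNat 919, .ofNat 223, .ofNat 530, .ofNat 413, .ofNat 189⟩, ⟨.negSucc 4900, .negSucc 1430, .negSucc 242, .negSucc 1467, .negSucc 398, .ofNat 61⟩, ⟨.ofNat 246, .negSucc 331, .negSucc 154, .ofNat 1169, .ofNat 99, .negSucc 423⟩, .ofNat 388, .ofNat 124, .ofNat 0, .ofNat 124, .ofNat 658, .ofNat 0, .ofNat 213, .negSucc 84, .negSucc 57, .ofNat 0, .ofNat 128, .ofNat 9, .ofNat 0, .ofNat 0, .ofNat 184, .ofNat 1015, .ofNat 0, .ofNat 219699110148761939240317538461032644608, .ofNat 0, .ofNat 0, .ofNat 0, .ofNat 4673848977065337899280265301358331035648, .ofNat 6776187596172262230435804441923813376, .ofNat 0, .ofNat 0, .ofNat 1703344102220910820432578754098422087680,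 .ofNat 0, .ofNat 0, .ofNat 0, .ofNat 3504196870812811256077560108117911404544, .ofNat 0, .ofNat 0⟩)
    (by decide +kernel)
theorem L01432 : Good (Phi V5.P V5.D 1 (-1)) ⟨2, 1, 2, 1, 2, 2, 2, 2, 4, 4⟩ :=
  leafYS_sound T5.ok_pm T5.Ypm.bz_eq (w := 197) (c := ⟨⟨.negSucc 1239, .negSucc 487, .ofNat 1, .negSucc 258, .negSucc 119, .ofNat 109⟩, ⟨.ofNat 330, .negSucc 69, .ofNat 336, .ofNat 87, .ofNat 42, .negSucc 33⟩, ⟨.ofNat 980, .ofNat 417, .ofNat 104, .ofNat 139, .ofNat 539, .ofNat 145⟩, ⟨.negSucc 3620, .negSucc 287, .negSucc 61, .negSucc 549, .negSucc 326, .ofNat 232⟩, ⟨.negSucc 372, .ofNat 54, .negSucc 5, .ofNat 222, .negSucc 115, .negSucc 79⟩, .ofNat 391, .ofNat 127, .ofNat 0, .ofNat 127, .ofNat 656, .ofNat 0, .ofNat 287, .negSucc 72, .negSucc 80, .ofNat 0, .ofNat 128, .ofNat 19, .ofNat 0, .ofNat 0, .ofNat 722, .ofNat 729, .ofNat 0, .ofNat 0,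 .ofNat 0, .ofNat 0, .ofNat 0, .ofNat 0, .ofNat 0, .ofNat 0, .ofNat 0, .ofNat 164072694546239267060101791326020829184, .ofNat 0, .ofNat 0, .ofNat 0, .ofNat 756822070870278630098314396370393366528, .ofNat 0, .ofNat 0⟩)
    (by decide +kernel)

end Crest.Agent.R097C5.N5pm
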