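import Crest.Agent.R097.KS3
import Crest.Agent.R097.T5Ypm

/-!
# Row 97, box cover in dimension n = 5 (generated)
-/

set_option autoImplicit false
set_option Elab.async false
set_option maxHeartbeats 0
set_option maxRecDepth 100000

open Crest.Agent.R097 Crest.Agent.R097.KA


namespace Crest.Agent.R097C5.N5pm

theorem L01433 : Good (Phi V5.P V5.D 1 (-1)) ⟨2, 1, 2, 1, 3, 6, 2, 2, 5, 8⟩ :=
  leafYS_sound T5.ok_pm T5.Ypm.bz_eq (w := 216) (c := ⟨⟨.negSucc 1454, .negSucc 562, .negSucc 45, .negSucc 101, .negSucc 201, .ofNat 120⟩, ⟨.ofNat 393, .negSucc 54, .ofNat 395, .ofNat 68, .ofNat 43, .negSucc 34⟩, ⟨.ofNat 1026, .ofNat 464, .ofNat 140, .ofNat 93, .ofNat 827, .ofNat 34⟩, ⟨.negSucc 4140, .negSucc 373, .negSucc 55, .negSucc 77, .negSucc 559, .ofNat 246⟩, ⟨.negSucc 192, .ofNat 119, .ofNat 120, .ofNat 505, .negSucc 297, .negSucc 16⟩, .ofNat 387, .ofNat 124, .ofNat 0,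 .ofNat 124, .ofNat 656, .ofNat 0, .ofNat 236, .negSucc 72, .negSucc 28, .ofNat 0, .ofNat 128, .negSucc 9, .ofNat 0, .ofNat 0, .ofNat 573, .ofNat 797, .ofNat 0, .ofNat 0, .ofNat 0, .ofNat 0, .ofNat 0, .ofNat 0, .ofNat 0, .ofNat 0, .ofNat 0, .ofNat 6034275376476355999279014185015179047075840, .ofNat 0, .ofNat 0, .ofNat 0, .ofNat 24303646958522563756163911250806360739151872, .ofNat 0, .ofNat 0⟩)
    (by decide +kernel)
theorem L01434 : Good (Phi V5.P V5.D 1 (-1)) ⟨2, 1, 2, 1, 3, 7, 2, 2, 5, 8⟩ :=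
  leafYS_sound T5.ok_pm T5.Ypm.bz_eq (w := 215) (c := ⟨⟨.negSucc 1596, .negSucc 480, .negSucc 69, .negSucc 12, .negSucc 159, .ofNat 134⟩, ⟨.ofNat 483, .negSucc 98, .ofNat 406, .ofNat 55, .ofNat 43, .negSucc 38⟩, ⟨.ofNat 1023, .ofNat 453, .ofNat 191, .ofNat 185, .ofNat 752, .ofNat 160⟩, ⟨.negSucc 4337, .negSucc 150, .negSucc 10, .ofNat 74, .negSucc 511, .ofNat 273⟩, ⟨.ofNat 294, .ofNat 285, .ofNat 120, .ofNat 521, .negSucc 191, .negSucc 68⟩, .ofNat 594, .ofNat 350, .ofNat 0, .ofNat 350, .ofNat 1414, .ofNat 0, .ofNat 203, .negSucc 100, .ofNat 9, .ofNat 0, .ofNat 128, .negSucc 21, .ofNat 0, .ofNat 0, .ofNat 470, .ofNat 321, .ofNat 0, .ofNat 186211734149247779552246816831195913912320, .ofNat 0, .ofNat 0, .ofNat 0, .ofNat 0, .ofNat 0, .ofNat 0, .ofNat 0, .ofNat 7900491305363774052108575674623862861987840, .ofNat 0, .ofNat 0, .ofNat 0, .ofNat 23935097572627281957606661264097107505053696,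 .ofNat 0, .ofNat 0⟩)
    (by decide +kernel)
theorem L01435 : Good (Phi V5.P V5.D 1 (-1)) ⟨2, 1, 2, 1, 3, 6, 2, 2, 5, 9⟩ :=
  leafYS_sound T5.ok_pm T5.Ypm.bz_eq (w := 216) (c := ⟨⟨.negSucc 1414, .negSucc 492, .negSucc 35, .negSucc 63, .negSucc 130, .ofNat 87⟩, ⟨.ofNat 397, .negSucc 76, .ofNat 367, .ofNat 55, .ofNat 14, .negSucc 40⟩, ⟨.ofNat 1101, .ofNat 424, .ofNat 158, .ofNat 140, .ofNat 885, .ofNat 137⟩, ⟨.negSucc 4039, .negSucc 225, .negSucc 48, .negSucc 12, .negSucc 413, .ofNat 175⟩, ⟨.negSucc 187, .ofNat 103, .ofNat 105, .ofNat 436, .negSucc 340, .negSucc 103⟩, .ofNat 611, .ofNat 375, .ofNat 0, .ofNat 375, .ofNat 1414, .ofNat 0, .ofNat 221, .negSucc 110, .ofNat 4, .ofNat 0, .ofNat 128, .negSucc 13, .ofNat 0, .ofNat 0, .ofNat 652, .ofNat 640, .ofNat 0, .ofNat 198905244806167181956529009271614887428096, .ofNat 0, .ofNat 0, .ofNat 0, .ofNat 0, .ofNat 0, .ofNat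 0, .ofNat 0, .ofNat 12304347191955968476715269227789590462464000, .ofNat 0, .ofNat 0, .ofNat 0, .ofNat 44998156452971739298107683365273862320160768, .ofNat 0, .ofNat 0⟩)
    (by decide +kernel)
theorem L01436 : Good (Phi V5.P V5.D 1 (-1)) ⟨2, 1, 2, 1, 3, 7, 2, 2, 5, 9⟩ :=
  leafYS_sound T5.ok_pm T5.Ypm.bz_eq (w := 217) (c := ⟨⟨.negSucc 1490, .negSucc 460, .negSucc 52, .ofNat 18, .negSucc 128, .ofNat 126⟩, ⟨.ofNat 451, .negSucc 86, .ofNat 377, .ofNat 59, .ofNat 10, .negSucc 40⟩, ⟨.ofNat 1193, .ofNat 429, .ofNat 199, .ofNat 168, .ofNat 804, .ofNat 199⟩, ⟨.negSucc 4103, .negSucc 156, .ofNat 1, .ofNat 198, .negSucc 447, .ofNat 243⟩, ⟨.ofNat 208, .ofNat 242, .ofNat 136, .ofNat 655, .negSucc 390, .negSucc 151⟩, .ofNat 387, .ofNat 125, .ofNat 0, .ofNat 125, .ofNat 657, .ofNat 0, .ofNat 196, .negSucc 65, .ofNat 18, .ofNat 0, .ofNat 128, .negSucc 36, .ofNat 0, .ofNat 0,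 .ofNat 488, .ofNat 1398, .ofNat 0, .ofNat 1158254147478651080750567563370242827616256, .ofNat 0, .ofNat 0, .ofNat 0, .ofNat 14368248817594081922742257997489128958066688, .ofNat 0, .ofNat 0, .ofNat 0, .ofNat 15997742921252143880119604964078005468004352, .ofNat 0, .ofNat 0, .ofNat 0, .ofNat 73112110041089386426568909974701539046981632, .ofNat 0, .ofNat 0⟩)
    (by decide +kernel)
theorem L01437 : Good (Phi V5.P V5.D 1 (-1)) ⟨2, 1, 2, 1, 3, 4, 2, 2, 4, 5⟩ :=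
  leafYS_sound T5.ok_pm T5.Ypm.bz_eq (w := 211) (c := ⟨⟨.negSucc 1257, .negSucc 404, .ofNat 16, .negSucc 55, .negSucc 88, .ofNat 114⟩, ⟨.ofNat 327, .negSucc 58, .ofNat 308, .ofNat 24, .ofNat 12, .negSucc 39⟩, ⟨.ofNat 1228, .ofNat 316, .ofNat 93, .ofNat 154, .ofNat 479, .ofNat 174⟩, ⟨.negSucc 3593, .negSucc 184, .negSucc 43, .negSucc 164, .negSucc 250, .ofNat 281⟩, ⟨.negSucc 341, .negSucc 33, .ofNat 14, .negSucc 39, .negSucc 142, .ofNat 1⟩, .ofNat 390, .ofNat 125, .ofNat 0, .ofNat 125, .ofNat 656, .ofNat 0, .ofNat 388, .negSucc 67, .negSucc 52, .ofNat 0, .ofNat 128, .negSucc 2, .ofNat 0, .ofNat 0, .ofNat 1218, .ofNat 971, .ofNat 0, .ofNat 0, .ofNat 0, .ofNat 0, .ofNat 0, .ofNat 0, .ofNat 0, .ofNat 0, .ofNat 0, .ofNat 937920978230894065244183367359245517324288, .ofNat 0, .ofNat 0, .ofNat 0, .ofNat 11583775713990857255077617934785235560431616, .ofNat 0, .ofNat 0⟩)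
    (by decide +kernel)
theorem L01438 : Good (Phi V5.P V5.D 1 (-1)) ⟨2, 1, 2, 1, 3, 5, 3, 4, 4, 5⟩ :=
  leafYS_sound T5.ok_pm T5.Ypm.bz_eq (w := 215) (c := ⟨⟨.negSucc 1319, .negSucc 422, .ofNat 9, .negSucc 61, .negSucc 37, .ofNat 155⟩, ⟨.ofNat 372, .negSucc 82, .ofNat 316, .ofNat 18, .ofNat 1, .negSucc 67⟩, ⟨.ofNat 1051, .ofNat 397, .ofNat 220, .ofNat 201, .ofNat 415, .ofNat 455⟩, ⟨.negSucc 3790, .negSucc 170, .negSucc 63, .negSucc 89, .negSucc 124, .ofNat 355⟩, ⟨.negSucc 293, .negSucc 13, .negSucc 5, .ofNat 84, .negSucc 128, .negSucc 113⟩, .ofNat 387, .ofNat 126, .ofNat 0, .ofNat 126, .ofNat 656, .ofNat 0, .ofNat 207, .negSucc 68, .ofNat 2, .ofNat 0, .ofNat 128, .negSucc 15, .ofNat 0, .ofNat 0, .ofNat 683, .ofNat 673, .ofNat 0, .ofNat 57304984702543881131743104450381666582528, .ofNat 0, .ofNat 0, .ofNat 0, .ofNat 0, .ofNat 0, .ofNat 0, .ofNat 0, .ofNat 0, .ofNat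 0, .ofNat 0, .ofNat 0, .ofNat 18915296649610866617317132568320039804993536, .ofNat 0, .ofNat 0⟩)
    (by decide +kernel)
theorem L01439 : Good (Phi V5.P V5.D 1 (-1)) ⟨2, 1, 2, 1, 3, 5, 3, 5, 4, 5⟩ :=
  leafYS_sound T5.ok_pm T5.Ypm.bz_eq (w := 214) (c := ⟨⟨.negSucc 1341, .negSucc 444, .ofNat 23, .negSucc 73, .negSucc 84, .ofNat 137⟩, ⟨.ofNat 356, .negSucc 70, .ofNat 315, .ofNat 17, .ofNat 10, .negSucc 53⟩, ⟨.ofNat 1361, .ofNat 459, .ofNat 288, .ofNat 274, .ofNat 369, .ofNat 465⟩, ⟨.negSucc 3822, .negSucc 247, .negSucc 66, .negSucc 165, .negSucc 221, .ofNat 305⟩, ⟨.negSucc 330, .negSucc 101, .negSucc 67, .ofNat 22, .negSucc 118, .negSucc 101⟩, .ofNat 390, .ofNat 129, .ofNat 0, .ofNat 129, .ofNat 656, .ofNat 0, .ofNat 239, .negSucc 71, .ofNat 1, .ofNat 0, .ofNat 128, .negSucc 16, .ofNat 0, .ofNat 0, .ofNat 581, .ofNat 426, .ofNat 0, .ofNat 207914972622516179235130916022339619520512,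 .ofNat 0, .ofNat 0, .ofNat 0, .ofNat 0, .ofNat 0, .ofNat 0, .ofNat 0, .ofNat 5188045276597121702794334111797924513972224, .ofNat 0, .ofNat 0, .ofNat 0, .ofNat 22847326174023633727226469374988484366827520, .ofNat 0, .ofNat 0⟩)
    (by decide +kernel)
theorem L01440 : Good (Phi V5.P V5.D 1 (-1)) ⟨2, 1, 2, 1, 3, 6, 2, 2, 5, 10⟩ :=
  leafYS_sound T5.ok_pm T5.Ypm.bz_eq (w := 215) (c := ⟨⟨.negSucc 1370, .negSucc 437, .negSucc 14, .negSucc 48, .negSucc 79, .ofNat 95⟩, ⟨.ofNat 376, .negSucc 75, .ofNat 344, .ofNat 37, .ofNat 16, .negSucc 42⟩, ⟨.ofNat 1223, .ofNat 413, .ofNat 220, .ofNat 153, .ofNat 922, .ofNat 195⟩, ⟨.negSucc 3897, .negSucc 168, .negSucc 70, .ofNat 43, .negSucc 296, .ofNat 223⟩, ⟨.negSucc 229, .ofNat 79, .ofNat 30, .ofNat 388, .negSucc 343, .negSucc 71⟩, .ofNat 388, .ofNat 124, .ofNat 0, .ofNat 124, .ofNat 656, .ofNat 0, .ofNat 219, .negSucc 68, .ofNat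 9, .ofNat 0, .ofNat 128, .negSucc 15, .ofNat 0, .ofNat 0, .ofNat 391, .ofNat 324, .ofNat 0, .ofNat 317626626956244923469192199389931097817088, .ofNat 31842779248175722270117516914385257234432, .ofNat 0, .ofNat 0, .ofNat 0, .ofNat 0, .ofNat 0, .ofNat 0, .ofNat 10875036799341055547756733113798844313763840, .ofNat 0, .ofNat 0, .ofNat 0, .ofNat 26843378937760005178117544944617081412780032, .ofNat 0, .ofNat 0⟩)
    (by decide +kernel)
theorem L01441 : Good (Phi V5.P V5.D 1 (-1)) ⟨2, 1, 2, 1, 3, 6, 2, 2, 5, 11⟩ :=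
  leafYS_sound T5.ok_pm T5.Ypm.bz_eq (w := 219) (c := ⟨⟨.negSucc 1292, .negSucc 418, .negSucc 1, .ofNat 1, .negSucc 204, .ofNat 1⟩, ⟨.ofNat 353, .negSucc 81, .ofNat 319, .ofNat 0, .negSucc 82, .ofNat 0⟩, ⟨.ofNat 1452, .ofNat 373, .ofNat 265, .negSucc 0, .ofNat 799, .negSucc 0⟩, ⟨.negSucc 3693, .negSucc 155, .negSucc 55, .ofNat 2, .negSucc 86, .ofNat 2⟩, ⟨.negSucc 279, .ofNat 53, .ofNat 11, .ofNat 0, .negSucc 217, .ofNat 0⟩, .ofNat 184, .ofNat 21, .ofNat 0, .ofNat 21, .ofNat 232, .ofNat 0, .ofNat 128, .negSucc 38, .ofNat 20, .ofNat 0, .ofNat 135, .negSucc 37, .ofNat 0, .ofNat 0, .ofNat 439, .ofNat 8523, .ofNat 0, .ofNat 4327531561751769707184315407207106583986176, .ofNat 0, .ofNat 0, .ofNat 0, .ofNat 160863383589581351059889571122861405364027392, .ofNat 0, .ofNat 0, .ofNat 0, .ofNat 100381456617706911262209764935377901320142848, .ofNat 0, .ofNat 0, .ofNat 0, .ofNat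 310552530672225700576390189661647019356192768, .ofNat 0, .ofNat 0⟩)
    (by decide +kernel)
theorem L01442 : Good (Phi V5.P V5.D 1 (-1)) ⟨2, 1, 2, 1, 3, 7, 2, 2, 4, 5⟩ :=
  out_sound (S := T5.ds_pm) T5.ok_pm (w := 32) (j := 2) (by decide +kernel)
theorem L01443 : Good (Phi V5.P V5.D 1 (-1)) ⟨2, 1, 2, 1, 2, 2, 3, 6, 5, 8⟩ :=
  leafYS_sound T5.ok_pm T5.Ypm.bz_eq (w := 204) (c := ⟨⟨.negSucc 1271, .negSucc 592, .ofNat 10, .negSucc 348, .negSucc 141, .ofNat 41⟩, ⟨.ofNat 315, .negSucc 59, .ofNat 373, .ofNat 120, .ofNat 47, .negSucc 11⟩, ⟨.ofNat 1232, .ofNat 622, .ofNat 172, .ofNat 500, .ofNat 272, .ofNat 89⟩, ⟨.negSucc 3674, .negSucc 529, .negSucc 93, .negSucc 854, .negSucc 398, .ofNat 68⟩, ⟨.negSucc 332, .negSucc 190, .negSucc 44, .ofNat 85, .negSucc 80, .negSucc 61⟩, .ofNat 386, .ofNat 121, .ofNat 0, .ofNat 121, .ofNat 656, .ofNat 0, .ofNat 146, .negSucc 72, .negSucc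 32, .ofNat 0, .ofNat 128, .ofNat 2, .ofNat 0, .ofNat 0, .ofNat 269, .ofNat 147, .ofNat 0, .ofNat 0, .ofNat 0, .ofNat 0, .ofNat 0, .ofNat 0, .ofNat 0, .ofNat 0, .ofNat 0, .ofNat 0, .ofNat 0, .ofNat 0, .ofNat 0, .ofNat 4674377456446046276276013074363191394304, .ofNat 0, .ofNat 0⟩)
    (by decide +kernel)
theorem L01444 : Good (Phi V5.P V5.D 1 (-1)) ⟨2, 1, 2, 1, 2, 2, 3, 6, 5, 9⟩ :=
  leafYS_sound T5.ok_pm T5.Ypm.bz_eq (w := 206) (c := ⟨⟨.negSucc 1303, .negSucc 532, .ofNat 12, .negSucc 272, .negSucc 121, .ofNat 61⟩, ⟨.ofNat 332, .negSucc 65, .ofNat 339, .ofNat 70, .ofNat 35, .negSucc 8⟩, ⟨.ofNat 1318, .ofNat 586, .ofNat 215, .ofNat 620, .ofNat 224, .ofNat 74⟩, ⟨.negSucc 3727, .negSucc 433, .negSucc 74, .negSucc 707, .negSucc 354, .ofNat 106⟩, ⟨.negSucc 324, .negSucc 206, .negSucc 39, .negSucc 128, .negSucc 99, .negSucc 26⟩, .ofNat 387, .ofNat 120, .ofNat 0, .ofNat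 120, .ofNat 655, .ofNat 0, .ofNat 330, .negSucc 68, .negSucc 45, .ofNat 0, .ofNat 128, .negSucc 0, .ofNat 0, .ofNat 0, .ofNat 564, .ofNat 476, .ofNat 0, .ofNat 0, .ofNat 0, .ofNat 0, .ofNat 0, .ofNat 0, .ofNat 0, .ofNat 0, .ofNat 0, .ofNat 10046419190821967855934500507210909483008, .ofNat 0, .ofNat 0, .ofNat 0, .ofNat 31312616725209676914329936964206324613120, .ofNat 0, .ofNat 0⟩)
    (by decide +kernel)
theorem L01445 : Good (Phi V5.P V5.D 1 (-1)) ⟨2, 1, 2, 1, 2, 2, 3, 7, 4, 4⟩ :=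
  leafYS_sound T5.ok_pm T5.Ypm.bz_eq (w := 202) (c := ⟨⟨.negSucc 1394, .negSucc 603, .ofNat 25, .negSucc 510, .negSucc 398, .negSucc 6⟩, ⟨.ofNat 367, .negSucc 50, .ofNat 355, .ofNat 103, .ofNat 3, .negSucc 5⟩, ⟨.ofNat 1467, .ofNat 672, .ofNat 157, .ofNat 813, .ofNat 376, .ofNat 121⟩, ⟨.negSucc 3994, .negSucc 650, .negSucc 61, .negSucc 1256, .negSucc 811, .negSucc 6⟩, ⟨.negSucc 356, .negSucc 323, .negSucc 39, .negSucc 211, .negSucc 122, .negSucc 35⟩, .ofNat 184, .ofNat 22, .ofNat 0, .ofNat 22, .ofNat 232, .ofNat 0, .ofNat 384, .negSucc 29, .negSucc 118, .ofNat 0, .ofNat 128, .negSucc 0, .ofNat 0, .ofNat 0, .ofNat 360, .ofNat 1114, .ofNat 0, .ofNat 94778286784082633251446684277469609984, .ofNat 0, .ofNat 0, .ofNat 0, .ofNat 6344811649826637336368503072967186448384, .ofNat 0, .ofNat 0, .ofNat 0, .ofNat 1854808322700561151407609603665747247104, .ofNat 0, .ofNat 0,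 .ofNat 0, .ofNat 3689195499535403509609665139719922515968, .ofNat 0, .ofNat 0⟩)
    (by decide +kernel)
theorem L01446 : Good (Phi V5.P V5.D 1 (-1)) ⟨3, 2, 2, 1, 2, 2, 3, 6, 4, 5⟩ :=
  leafYS_sound T5.ok_pm T5.Ypm.bz_eq (w := 205) (c := ⟨⟨.negSucc 1308, .negSucc 191, .ofNat 23, .negSucc 170, .negSucc 91, .ofNat 68⟩, ⟨.ofNat 327, .negSucc 1, .ofNat 307, .ofNat 67, .ofNat 33, .negSucc 25⟩, ⟨.ofNat 1406, .ofNat 259, .ofNat 265, .ofNat 668, .ofNat 179, .ofNat 228⟩, ⟨.negSucc 3701, .negSucc 163, .negSucc 61, .negSucc 554, .negSucc 274, .ofNat 169⟩, ⟨.negSucc 331, .negSucc 107, .negSucc 62, .negSucc 223, .negSucc 77, .negSucc 32⟩, .ofNat 403, .ofNat 131, .ofNat 0, .ofNat 131, .ofNat 649, .ofNat 0, .ofNat 263, .negSucc 67, .negSucc 26, .ofNat 0, .ofNat 128, .negSucc 13, .ofNat 0, .ofNat 0, .ofNat 773, .ofNat 773, .ofNat 0, .ofNat 1008516138558381328239795508657191387136,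 .ofNat 0, .ofNat 0, .ofNat 0, .ofNat 43182332102308257778575055180233143484416, .ofNat 0, .ofNat 0, .ofNat 0, .ofNat 35487030127796353912044003687590197723136, .ofNat 0, .ofNat 0, .ofNat 0, .ofNat 174346426233997971506702251920394075242496, .ofNat 0, .ofNat 0⟩)
    (by decide +kernel)
theorem L01447 : Good (Phi V5.P V5.D 1 (-1)) ⟨3, 3, 2, 1, 2, 2, 3, 6, 4, 5⟩ :=
  leafYS_sound T5.ok_pm T5.Ypm.bz_eq (w := 205) (c := ⟨⟨.negSucc 1509, .negSucc 282, .ofNat 23, .negSucc 200, .negSucc 149, .ofNat 96⟩, ⟨.ofNat 330, .negSucc 69, .ofNat 312, .ofNat 51, .ofNat 25, .negSucc 33⟩, ⟨.ofNat 1629, .ofNat 303, .ofNat 308, .ofNat 732, .ofNat 222, .ofNat 232⟩, ⟨.negSucc 3876, .negSucc 180, .negSucc 71, .negSucc 578, .negSucc 381, .ofNat 212⟩, ⟨.negSucc 403, .negSucc 112, .negSucc 74, .negSucc 297, .negSucc 153, .negSucc 52⟩, .ofNat 373, .ofNat 117, .ofNat 0, .ofNat 117, .ofNat 663,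 .ofNat 0, .ofNat 293, .negSucc 67, .negSucc 23, .ofNat 0, .ofNat 128, .negSucc 12, .ofNat 0, .ofNat 0, .ofNat 644, .ofNat 370, .ofNat 0, .ofNat 1092892104255480809913216712094794121216, .ofNat 0, .ofNat 0, .ofNat 0, .ofNat 34129458857540274074261181744530608619520, .ofNat 0, .ofNat 0, .ofNat 0, .ofNat 28972251083315873640910687556412893036544, .ofNat 0, .ofNat 0, .ofNat 0, .ofNat 112889916953642157791170348136675193913344, .ofNat 0, .ofNat 0⟩)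
    (by decide +kernel)
theorem L01448 : Good (Phi V5.P V5.D 1 (-1)) ⟨2, 1, 2, 1, 2, 2, 3, 7, 4, 5⟩ :=
  out_sound (S := T5.ds_pm) T5.ok_pm (w := 32) (j := 2) (by decide +kernel)
theorem L01449 : Good (Phi V5.P V5.D 1 (-1)) ⟨2, 1, 2, 1, 2, 3, 2, 3, 3, 2⟩ :=
  leafYS_sound T5.ok_pm T5.Ypm.bz_eq (w := 192) (c := ⟨⟨.negSucc 1593, .negSucc 660, .negSucc 29, .negSucc 336, .negSucc 281, .ofNat 319⟩, ⟨.ofNat 447, .negSucc 73, .ofNat 411, .ofNat 106, .ofNat 57, .negSucc 172⟩, ⟨.ofNat 1657, .ofNat 640, .ofNat 224, .ofNat 285, .ofNat 844, .ofNat 561⟩, ⟨.negSucc 4482, .negSucc 625, .negSucc 141, .negSucc 533, .negSucc 885, .ofNat 788⟩, ⟨.negSucc 130, .negSucc 185, .negSucc 61, .ofNat 869, .negSucc 159, .negSucc 412⟩, .ofNat 184, .ofNat 21, .ofNat 0, .ofNat 21, .ofNat 233, .ofNat 0, .ofNat 197, .negSucc 47, .negSucc 33, .ofNat 0, .ofNat 128, .negSucc 23, .ofNat 0, .ofNat 0,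 .ofNat 275, .ofNat 633, .ofNat 0, .ofNat 6186349687541730507045940179561873408, .ofNat 0, .ofNat 0, .ofNat 0, .ofNat 117556638775121491112144775298081095680, .ofNat 0, .ofNat 0, .ofNat 0, .ofNat 69974630698493804500372494923388157952, .ofNat 0, .ofNat 0, .ofNat 0, .ofNat 131711252432604201696153543744031817728, .ofNat 0, .ofNat 0⟩)
    (by decide +kernel)
theorem L01450 : Good (Phi V5.P V5.D 1 (-1)) ⟨3, 2, 2, 1, 3, 4, 3, 4, 4, 6⟩ :=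
  leafYS_sound T5.ok_pm T5.Ypm.bz_eq (w := 220) (c := ⟨⟨.negSucc 1209, .negSucc 151, .ofNat 28, .negSucc 6, .negSucc 17, .ofNat 108⟩, ⟨.ofNat 308, .negSucc 0, .ofNat 271, .negSucc 4, .ofNat 6, .negSucc 47⟩, ⟨.ofNat 1168, .ofNat 142, .ofNat 328, .ofNat 385, .ofNat 249, .ofNat 647⟩, ⟨.negSucc 3398, .negSucc 61, .negSucc 23, .negSucc 59, .negSucc 74, .ofNat 226⟩, ⟨.negSucc 283, .negSucc 15, .negSucc 33, .negSucc 109, .negSucc 59, .negSucc 81⟩, .ofNat 1059, .ofNat 1119, .ofNat 0, .ofNat 1119, .ofNat 3110, .ofNat 0, .ofNat 144, .negSucc 127, .ofNat 15, .ofNat 0, .ofNat 111, .negSucc 15, .ofNat 0, .ofNat 0, .ofNat 1788, .ofNat 2342, .ofNat 0, .ofNat 1541397097417741908053241409429652398669824, .ofNat 0, .ofNat 0, .ofNat 0, .ofNat 0, .ofNat 0, .ofNat 0, .ofNat 0, .ofNat 141488813794742815677575002261069203943456768, .ofNat 0, .ofNat 0, .ofNat 0, .ofNat 2056931342534068018465910619184922866950864896,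 .ofNat 0, .ofNat 0⟩)
    (by decide +kernel)
theorem L01451 : Good (Phi V5.P V5.D 1 (-1)) ⟨3, 2, 2, 1, 4, 8, 3, 5, 4, 6⟩ :=
  leafYS_sound T5.ok_pm T5.Ypm.bz_eq (w := 235) (c := ⟨⟨.negSucc 1220, .negSucc 160, .ofNat 37, .negSucc 2, .negSucc 40, .ofNat 105⟩, ⟨.ofNat 309, .negSucc 2, .ofNat 268, .negSucc 1, .ofNat 14, .negSucc 43⟩, ⟨.ofNat 1338, .ofNat 186, .ofNat 430, .ofNat 286, .ofNat 202, .ofNat 662⟩, ⟨.negSucc 3444, .negSucc 101, .negSucc 25, .negSucc 41, .negSucc 142, .ofNat 235⟩, ⟨.negSucc 291, .negSucc 56, .negSucc 84, .negSucc 89, .negSucc 85, .negSucc 96⟩, .ofNat 404, .ofNat 134, .ofNat 0, .ofNat 134, .ofNat 650, .ofNat 0, .ofNat 160, .negSucc 65, .ofNat 28, .ofNat 0, .ofNat 128, .negSucc 54, .ofNat 0, .ofNat 0, .ofNat 1555, .ofNat 3166, .ofNat 0, .ofNat 0, .ofNat 0, .ofNat 0, .ofNat 0, .ofNat 0, .ofNat 0, .ofNat 0, .ofNat 0, .ofNat 572238970537761447304199200407168676557907558400,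 .ofNat 0, .ofNat 0, .ofNat 0, .ofNat 9794844490103947954570019610562295048989092872192, .ofNat 0, .ofNat 0⟩)
    (by decide +kernel)
theorem L01452 : Good (Phi V5.P V5.D 1 (-1)) ⟨3, 2, 2, 1, 4, 9, 3, 5, 4, 6⟩ :=
  leafYS_sound T5.ok_pm T5.Ypm.bz_eq (w := 235) (c := ⟨⟨.negSucc 1233, .negSucc 164, .ofNat 38, .negSucc 9, .negSucc 39, .ofNat 121⟩, ⟨.ofNat 309, .negSucc 2, .ofNat 277, .negSucc 2, .ofNat 12, .negSucc 54⟩, ⟨.ofNat 1546, .ofNat 213, .ofNat 427, .ofNat 250, .ofNat 279, .ofNat 708⟩, ⟨.negSucc 3503, .negSucc 103, .negSucc 33, .negSucc 45, .negSucc 139, .ofNat 278⟩, ⟨.negSucc 359, .negSucc 62, .negSucc 84, .negSucc 63, .negSucc 97, .negSucc 114⟩, .ofNat 403, .ofNat 131, .ofNat 0, .ofNat 131, .ofNat 650, .ofNat 0, .ofNat 174, .negSucc 65, .ofNat 23, .ofNat 0, .ofNat 128, .negSucc 45, .ofNat 0, .ofNat 0, .ofNat 1461, .ofNat 3803, .ofNat 0, .ofNat 65135934198807509145787873490962805708451479552,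 .ofNat 0, .ofNat 0, .ofNat 0, .ofNat 1309828182492014655750086594165574780891932131328, .ofNat 0, .ofNat 0, .ofNat 0, .ofNat 1766455538956304364146071038544354610668889964544, .ofNat 0, .ofNat 0, .ofNat 0, .ofNat 15633874258153142544978351261546119610058703634432, .ofNat 0, .ofNat 0⟩)
    (by decide +kernel)
theorem L01453 : Good (Phi V5.P V5.D 1 (-1)) ⟨3, 3, 2, 1, 3, 4, 3, 4, 4, 6⟩ :=
  leafYS_sound T5.ok_pm T5.Ypm.bz_eq (w := 221) (c := ⟨⟨.negSucc 1354, .negSucc 216, .ofNat 25, .negSucc 6, .negSucc 35, .ofNat 116⟩, ⟨.ofNat 308, .negSucc 75, .ofNat 275, .negSucc 3, .ofNat 2, .negSucc 40⟩, ⟨.ofNat 1290, .ofNat 271, .ofNat 300, .ofNat 461, .ofNat 360, .ofNat 555⟩, ⟨.negSucc 3458, .negSucc 63, .negSucc 27, .negSucc 60, .negSucc 122, .ofNat 244⟩, ⟨.negSucc 307, .negSucc 36, .negSucc 23, .negSucc 108, .negSucc 124, .negSucc 40⟩, .ofNat 752, .ofNat 690, .ofNat 0, .ofNat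 690, .ofNat 2500, .ofNat 0, .ofNat 175, .negSucc 127, .negSucc 0, .ofNat 0, .ofNat 114, .negSucc 9, .ofNat 0, .ofNat 0, .ofNat 1851, .ofNat 2873, .ofNat 0, .ofNat 2523002905051286034887962016012253532258304, .ofNat 0, .ofNat 0, .ofNat 0, .ofNat 0, .ofNat 0, .ofNat 0, .ofNat 0, .ofNat 203722319751139096326665217472727117471940608, .ofNat 0, .ofNat 0, .ofNat 0, .ofNat 2305985846413030070022754143962738785175732224, .ofNat 0, .ofNat 0⟩)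
    (by decide +kernel)
theorem L01454 : Good (Phi V5.P V5.D 1 (-1)) ⟨3, 3, 2, 1, 3, 4, 3, 5, 5, 12⟩ :=
  leafYS_sound T5.ok_pm T5.Ypm.bz_eq (w := 226) (c := ⟨⟨.negSucc 1373, .negSucc 242, .ofNat 33, .negSucc 29, .negSucc 70, .ofNat 60⟩, ⟨.ofNat 305, .negSucc 72, .ofNat 282, .negSucc 4, .ofNat 7, .negSucc 19⟩, ⟨.ofNat 1584, .ofNat 237, .ofNat 379, .ofNat 527, .ofNat 269, .ofNat 257⟩, ⟨.negSucc 3541, .negSucc 101, .negSucc 39, .negSucc 104, .negSucc 176, .ofNat 124⟩, ⟨.negSucc 388, .negSucc 49, .negSucc 65, .negSucc 122, .negSucc 95, .negSucc 20⟩, .ofNat 754, .ofNat 690, .ofNat 0, .ofNat 690, .ofNat 2489, .ofNat 0, .ofNat 240, .negSucc 127, .ofNat 6, .ofNat 0, .ofNat 113, .negSucc 15, .ofNat 0, .ofNat 0, .ofNat 1643, .ofNat 3470, .ofNat 0, .ofNat 0, .ofNat 0, .ofNat 0, .ofNat 0, .ofNat 0, .ofNat 0, .ofNat 0, .ofNat 0, .ofNat 2499790417673671896110763343109708090246692864,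 .ofNat 0, .ofNat 0, .ofNat 0, .ofNat 22230964848424088556911205430650040945548984320, .ofNat 0, .ofNat 0⟩)
    (by decide +kernel)
theorem L01455 : Good (Phi V5.P V5.D 1 (-1)) ⟨3, 3, 2, 1, 3, 4, 3, 5, 5, 13⟩ :=
  leafYS_sound T5.ok_pm T5.Ypm.bz_eq (w := 226) (c := ⟨⟨.negSucc 1353, .negSucc 220, .ofNat 51, .ofNat 23, .negSucc 54, .ofNat 77⟩, ⟨.ofNat 302, .negSucc 70, .ofNat 259, .negSucc 21, .ofNat 5, .negSucc 31⟩, ⟨.ofNat 1492, .ofNat 283, .ofNat 697, .ofNat 907, .ofNat 317, .ofNat 552⟩, ⟨.negSucc 3452, .negSucc 80, .negSucc 24, .negSucc 28, .negSucc 164, .ofNat 141⟩, ⟨.negSucc 339, .negSucc 57, .negSucc 127, .negSucc 234, .negSucc 137, .negSucc 89⟩, .ofNat 565, .ofNat 336, .ofNat 0, .ofNat 336, .ofNat 1442, .ofNat 0, .ofNat 318, .negSucc 107, .ofNat 36, .ofNat 0, .ofNat 128, .negSucc 38, .ofNat 0, .ofNat 0, .ofNat 2162, .ofNat 3374, .ofNat 0, .ofNat 185305014086220186415447579295946375637762048,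 .ofNat 0, .ofNat 0, .ofNat 0, .ofNat 4781627107288167563852820115314751081568796672, .ofNat 0, .ofNat 0, .ofNat 0, .ofNat 4954500500341896014616322077703578051269361664, .ofNat 0, .ofNat 0, .ofNat 0, .ofNat 46607313193959030794678863335207637432273993728, .ofNat 0, .ofNat 0⟩)
    (by decide +kernel)
theorem L01456 : Good (Phi V5.P V5.D 1 (-1)) ⟨2, 1, 2, 1, 3, 5, 3, 4, 5, 12⟩ :=
  leafYS_sound T5.ok_pm T5.Ypm.bz_eq (w := 220) (c := ⟨⟨.negSucc 1226, .negSucc 369, .ofNat 29, .ofNat 6, .negSucc 16, .ofNat 77⟩, ⟨.ofNat 326, .negSucc 68, .ofNat 280, .negSucc 12, .negSucc 1, .negSucc 33⟩, ⟨.ofNat 1391, .ofNat 381, .ofNat 376, .ofNat 378, .ofNat 492, .ofNat 358⟩, ⟨.negSucc 3502, .negSucc 139, .negSucc 38, .ofNat 4, .negSucc 87, .ofNat 183⟩, ⟨.negSucc 344, .negSucc 43, .negSucc 48, .negSucc 10, .negSucc 150, .negSucc 51⟩, .ofNat 185, .ofNat 22, .ofNat 0, .ofNat 22, .ofNat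 232, .ofNat 0, .ofNat 222, .negSucc 32, .ofNat 23, .ofNat 0, .ofNat 128, .negSucc 40, .ofNat 0, .ofNat 0, .ofNat 607, .ofNat 984, .ofNat 0, .ofNat 2608459911083436902868614902021732371005440, .ofNat 0, .ofNat 0, .ofNat 0, .ofNat 0, .ofNat 0, .ofNat 0, .ofNat 0, .ofNat 51675711934908293635529458490803619377446912, .ofNat 0, .ofNat 0, .ofNat 0, .ofNat 266357699298073091849847166103782336562724864, .ofNat 0, .ofNat 0⟩)
    (by decide +kernel)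
theorem L01457 : Good (Phi V5.P V5.D 1 (-1)) ⟨2, 1, 2, 1, 3, 5, 3, 4, 5, 13⟩ :=
  leafYS_sound T5.ok_pm T5.Ypm.bz_eq (w := 223) (c := ⟨⟨.negSucc 1155, .negSucc 357, .ofNat 35, .negSucc 5, .negSucc 15, .ofNat 60⟩, ⟨.ofNat 310, .negSucc 76, .ofNat 263, .negSucc 47, .negSucc 38, .negSucc 54⟩, ⟨.ofNat 1674, .ofNat 369, .ofNat 513, .ofNat 729, .ofNat 676, .ofNat 540⟩, ⟨.negSucc 3344, .negSucc 120, .negSucc 19, .ofNat 50, .negSucc 47, .ofNat 192⟩, ⟨.negSucc 380, .negSucc 43, .negSucc 69, .negSucc 138, .negSucc 194, .negSucc 91⟩, .ofNat 184, .ofNat 21, .ofNat 0, .ofNat 21, .ofNat 232, .ofNat 0, .ofNat 171, .negSucc 29, .ofNat 33, .ofNat 0, .ofNat 128, .negSucc 48, .ofNat 0, .ofNat 0, .ofNat 748, .ofNat 5560, .ofNat 0, .ofNat 24163226683400721507587896431939876215062528, .ofNat 0, .ofNat 0, .ofNat 0, .ofNat 354711694431844772448147370573486791782825984, .ofNat 0, .ofNat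 0, .ofNat 0, .ofNat 270172603749900199544616816583302400194904064, .ofNat 0, .ofNat 0, .ofNat 0, .ofNat 1489959529980719927156930883894166178720907264, .ofNat 0, .ofNat 0⟩)
    (by decide +kernel)
theorem L01458 : Good (Phi V5.P V5.D 1 (-1)) ⟨2, 1, 2, 1, 3, 5, 3, 5, 4, 6⟩ :=
  out_sound (S := T5.ds_pm) T5.ok_pm (w := 34) (j := 2) (by decide +kernel)
theorem L01459 : Good (Phi V5.P V5.D 1 (-1)) ⟨2, 1, 2, 1, 4, 8, 3, 4, 5, 14⟩ :=
  leafYS_sound T5.ok_pm T5.Ypm.bz_eq (w := 238) (c := ⟨⟨.negSucc 1099, .negSucc 347, .ofNat 57, .ofNat 9, .negSucc 31, .ofNat 79⟩, ⟨.ofNat 321, .negSucc 67, .ofNat 246, .negSucc 26, .negSucc 20, .negSucc 46⟩, ⟨.ofNat 1154, .ofNat 406, .ofNat 809, .ofNat 542, .ofNat 554, .ofNat 875⟩, ⟨.negSucc 3165, .negSucc 141, .negSucc 5, .ofNat 10, .negSucc 94, .ofNat 154⟩, ⟨.negSucc 185, .negSucc 106, .negSucc 126, .negSucc 129, .negSucc 172, .negSucc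 143⟩, .ofNat 385, .ofNat 120, .ofNat 0, .ofNat 120, .ofNat 657, .ofNat 0, .ofNat 217, .negSucc 61, .ofNat 51, .ofNat 0, .ofNat 128, .negSucc 63, .ofNat 0, .ofNat 0, .ofNat 2147, .ofNat 10299, .ofNat 0, .ofNat 0, .ofNat 0, .ofNat 0, .ofNat 0, .ofNat 0, .ofNat 0, .ofNat 0, .ofNat 37160025065364010973720155578788128722136418222080, .ofNat 474956449645190123310739785862123300132688494592, .ofNat 0, .ofNat 0, .ofNat 450774835280266114458459351547749783557505518927872, .ofNat 11269547810275048633925291561562524273004639158272, .ofNat 0, .ofNat 0⟩)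
    (by decide +kernel)
theorem L01460 : Good (Phi V5.P V5.D 1 (-1)) ⟨2, 1, 2, 1, 4, 9, 3, 4, 5, 14⟩ :=
  leafYS_sound T5.ok_pm T5.Ypm.bz_eq (w := 237) (c := ⟨⟨.negSucc 1139, .negSucc 333, .ofNat 61, .ofNat 69, .ofNat 59, .ofNat 94⟩, ⟨.ofNat 285, .negSucc 67, .ofNat 242, .negSucc 3, .ofNat 11, .negSucc 44⟩, ⟨.ofNat 1645, .ofNat 367, .ofNat 813, .ofNat 582, .ofNat 685, .ofNat 922⟩, ⟨.negSucc 3215, .negSucc 119, .ofNat 7, .ofNat 65, .negSucc 14, .ofNat 200⟩, ⟨.negSucc 335, .negSucc 70, .negSucc 120, .negSucc 121, .negSucc 176, .negSucc 139⟩, .ofNat 185, .ofNat 22, .ofNat 0, .ofNat 22, .ofNat 232, .ofNat 0, .ofNat 217, .negSucc 28, .ofNat 54, .ofNat 0, .ofNat 128, .negSucc 78, .ofNat 0, .ofNat 0, .ofNat 1147, .ofNat 4959, .ofNat 2438054496942791127338843178064904744800006176768, .ofNat 69380572406621948684240253525051751172872863744, .ofNat 0, .ofNat 0, .ofNat 35390197380573613807166674693464468131828228685824,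 .ofNat 926784303565382381120488323349959702711363436544, .ofNat 0, .ofNat 0, .ofNat 18979857534634768977191194663888327252303444705280, .ofNat 847076292900746180576069863701689509057887469568, .ofNat 0, .ofNat 0, .ofNat 193742393896736338830344292790702217662805422637056, .ofNat 7258877651607696442955725605632032312012650315776, .ofNat 0, .ofNat 0⟩)
    (by decide +kernel)
theorem L01461 : Good (Phi V5.P V5.D 1 (-1)) ⟨2, 1, 2, 1, 4, 8, 3, 5, 5, 14⟩ :=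
  leafYS_sound T5.ok_pm T5.Ypm.bz_eq (w := 237) (c := ⟨⟨.negSucc 1152, .negSucc 354, .ofNat 66, .ofNat 49, .negSucc 0, .ofNat 95⟩, ⟨.ofNat 304, .negSucc 73, .ofNat 244, .negSucc 29, .negSucc 15, .negSucc 35⟩, ⟨.ofNat 1462, .ofNat 504, .ofNat 929, .ofNat 818, .ofNat 751, .ofNat 804⟩, ⟨.negSucc 3264, .negSucc 160, .negSucc 2, .ofNat 42, .negSucc 94, .ofNat 164⟩, ⟨.negSucc 291, .negSucc 141, .negSucc 158, .negSucc 190, .negSucc 228, .negSucc 133⟩, .ofNat 385, .ofNat 121, .ofNat 0, .ofNat 121, .ofNat 657, .ofNat 0, .ofNat 367, .negSucc 62, .ofNat 56, .ofNat 0, .ofNat 128, .negSucc 77, .ofNat 0, .ofNat 0, .ofNat 2312, .ofNat 6276, .ofNat 0, .ofNat 111080262973233952485801004637978181553541349376, .ofNat 0, .ofNat 0, .ofNat 0, .ofNat 2356286726681165978771001833530995027164658663424, .ofNat 0, .ofNat 0, .ofNat 0, .ofNat 1616595738458945820394384763939421137404373762048,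 .ofNat 0, .ofNat 0, .ofNat 0, .ofNat 19901285164480307214342885743017625744289686355968, .ofNat 0, .ofNat 0⟩)
    (by decide +kernel)
theorem L01462 : Good (Phi V5.P V5.D 1 (-1)) ⟨2, 1, 2, 1, 4, 9, 3, 5, 5, 14⟩ :=
  out_sound (S := T5.ds_pm) T5.ok_pm (w := 38) (j := 2) (by decide +kernel)
theorem L01463 : Good (Phi V5.P V5.D 1 (-1)) ⟨2, 1, 2, 1, 4, 8, 4, 8, 5, 15⟩ :=
  out_sound (S := T5.ds_pm) T5.ok_pm (w := 32) (j := 1) (by decide +kernel)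
theorem L01464 : Good (Phi V5.P V5.D 1 (-1)) ⟨2, 1, 2, 1, 5, 16, 4, 9, 6, 30⟩ :=
  out_sound (S := T5.ds_pm) T5.ok_pm (w := 36) (j := 1) (by decide +kernel)
theorem L01465 : Good (Phi V5.P V5.D 1 (-1)) ⟨2, 1, 2, 1, 5, 17, 4, 9, 6, 30⟩ :=
  out_sound (S := T5.ds_pm) T5.ok_pm (w := 44) (j := 2) (by decide +kernel)
theorem L01466 : Good (Phi V5.P V5.D 1 (-1)) ⟨2, 1, 2, 1, 4, 8, 4, 9, 6, 31⟩ :=
  out_sound (S := T5.ds_pm) T5.ok_pm (w := 34) (j := 1) (by decide +kernel)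
theorem L01467 : Good (Phi V5.P V5.D 1 (-1)) ⟨2, 1, 2, 1, 4, 8, 3, 5, 5, 15⟩ :=
  out_sound (S := T5.ds_pm) T5.ok_pm (w := 38) (j := 2) (by decide +kernel)
theorem L01468 : Good (Phi V5.P V5.D 1 (-1)) ⟨2, 1, 2, 1, 4, 9, 2, 2, 5, 15⟩ :=
  out_sound (S := T5.ds_pm) T5.ok_pm (w := 36) (j := 2) (by decide +kernel)
theorem L01469 : Good (Phi V5.P V5.D 1 (-1)) ⟨2, 1, 2, 1, 3, 5, 2, 2, 4, 7⟩ :=
  out_sound (S := T5.ds_pm) T5.ok_pm (w := 32) (j := 2) (by decide +kernel)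
theorem L01470 : Good (Phi V5.P V5.D 1 (-1)) ⟨2, 1, 2, 1, 2, 2, 2, 3, 3, 3⟩ :=
  leafYS_sound T5.ok_pm T5.Ypm.bz_eq (w := 193) (c := ⟨⟨.negSucc 1239, .negSucc 435, .ofNat 31, .negSucc 71, .negSucc 185, .ofNat 183⟩, ⟨.ofNat 324, .negSucc 75, .ofNat 294, .ofNat 42, .ofNat 33, .negSucc 61⟩, ⟨.ofNat 1538, .ofNat 540, .ofNat 415, .ofNat 1168, .ofNat 568, .ofNat 881⟩, ⟨.negSucc 3550, .negSucc 305, .negSucc 50, .negSucc 371, .negSucc 516, .ofNat 416⟩, ⟨.negSucc 342, .negSucc 211, .negSucc 87, .negSucc 456, .negSucc 290, .negSucc 190⟩, .ofNat 184, .ofNat 22, .ofNat 0, .ofNat 22, .ofNat 232, .ofNat 0, .ofNat 310, .negSucc 28, .negSucc 20, .ofNat 0, .ofNat 128, .negSucc 60, .ofNat 0, .ofNat 0, .ofNat 773, .ofNat 1105, .ofNat 0, .ofNat 17718797822956003275441933675655069696, .ofNat 0, .ofNat 0, .ofNat 0, .ofNat 423829540103595337767285829609151528960, .ofNat 0, .ofNat 0,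 .ofNat 0, .ofNat 213886076139341477487737462773937864704, .ofNat 0, .ofNat 0, .ofNat 0, .ofNat 1130946795059973097537628843605273608192, .ofNat 0, .ofNat 0⟩)
    (by decide +kernel)
theorem L01471 : Good (Phi V5.P V5.D 1 (-1)) ⟨2, 1, 2, 1, 2, 3, 1, 1, 3, 3⟩ :=
  out_sound (S := T5.ds_pm) T5.ok_pm (w := 26) (j := 2) (by decide +kernel)
theorem L01472 : Good (Phi V5.P V5.D 1 (-1)) ⟨2, 1, 2, 1, 4, 8, 3, 4, 4, 8⟩ :=
  out_sound (S := T5.ds_pm) T5.ok_pm (w := 29) (j := 1) (by decide +kernel)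
theorem L01473 : Good (Phi V5.P V5.D 1 (-1)) ⟨2, 1, 2, 1, 4, 8, 3, 5, 4, 8⟩ :=
  out_sound (S := T5.ds_pm) T5.ok_pm (w := 36) (j := 2) (by decide +kernel)
theorem L01474 : Good (Phi V5.P V5.D 1 (-1)) ⟨2, 1, 2, 1, 4, 8, 2, 2, 4, 9⟩ :=
  out_sound (S := T5.ds_pm) T5.ok_pm (w := 28) (j := 1) (by decide +kernel)
theorem L01475 : Good (Phi V5.P V5.D 1 (-1)) ⟨2, 1, 2, 1, 4, 9, 2, 2, 3, 4⟩ :=
  out_sound (S := T5.ds_pm) T5.ok_pm (w := 32) (j := 2) (by decide +kernel)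
theorem L01476 : Good (Phi V5.P V5.D 1 (-1)) ⟨2, 1, 2, 1, 3, 4, 2, 3, 3, 4⟩ :=
  out_sound (S := T5.ds_pm) T5.ok_pm (w := 30) (j := 2) (by decide +kernel)
theorem L01477 : Good (Phi V5.P V5.D 1 (-1)) ⟨2, 1, 2, 1, 3, 4, 1, 1, 3, 5⟩ :=
  out_sound (S := T5.ds_pm) T5.ok_pm (w := 28) (j := 2) (by decide +kernel)
theorem L01478 : Good (Phi V5.P V5.D 1 (-1)) ⟨2, 1, 2, 1, 3, 5, 1, 1, 2, 2⟩ :=
  out_sound (S := T5.ds_pm) T5.ok_pm (w := 26) (j := 2) (by decide +kernel)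
theorem L01479 : Good (Phi V5.P V5.D 1 (-1)) ⟨2, 1, 2, 1, 2, 2, 1, 1, 2, 3⟩ :=
  out_sound (S := T5.ds_pm) T5.ok_pm (w := 24) (j := 2) (by decide +kernel)
theorem L01480 : Good (Phi V5.P V5.D 1 (-1)) ⟨2, 1, 2, 1, 2, 3, 1, 1, 1, 1⟩ :=
  out_sound (S := T5.ds_pm) T5.ok_pm (w := 22) (j := 2) (by decide +kernel)
theorem L01481 : Good (Phi V5.P V5.D 1 (-1)) ⟨2, 0, 1, 1, 2, 0, 2, 0, 4, 0⟩ :=
  leafYS_sound T5.ok_pm T5.Ypm.bz_eq (w := 195) (c := ⟨⟨.ofNat 524, .ofNat 89, .ofNat 40, .ofNat 320, .ofNat 61, .negSucc 1267⟩, ⟨.negSucc 298, .negSucc 38, .negSucc 157, .negSucc 204, .negSucc 30, .ofNat 760⟩, ⟨.negSucc 517, .negSucc 77, .negSucc 101, .negSucc 424, .negSucc 155, .ofNat 1307⟩, ⟨.ofNat 1572, .ofNat 173, .ofNat 65, .ofNat 701, .ofNat 260, .negSucc 3801⟩, ⟨.negSucc 70, .ofNat 41, .ofNat 36, .negSucc 387, .ofNat 127, .negSucc 51⟩, .ofNat 462, .ofNat 204, .ofNat 0, .ofNat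 204, .ofNat 652, .ofNat 0, .ofNat 184, .negSucc 80, .negSucc 179, .ofNat 0, .ofNat 128, .ofNat 75, .ofNat 0, .ofNat 0, .ofNat 428, .ofNat 3369, .ofNat 0, .ofNat 0, .ofNat 36463839032310077745241254008979456, .ofNat 0, .ofNat 0, .ofNat 0, .ofNat 1902662971989211372542278867722698752, .ofNat 0, .ofNat 92595034548406924386492704997108613120, .ofNat 0, .ofNat 2496730203605448021210221820245966848, .ofNat 0, .ofNat 0, .ofNat 0, .ofNat 0, .ofNat 0⟩)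
    (by decide +kernel)
theorem L01482 : Good (Phi V5.P V5.D 1 (-1)) ⟨2, 0, 1, 1, 2, 1, 2, 0, 4, 0⟩ :=
  leafYS_sound T5.ok_pm T5.Ypm.bz_eq (w := 195) (c := ⟨⟨.ofNat 824, .ofNat 137, .ofNat 134, .ofNat 307, .negSucc 1, .negSucc 1194⟩, ⟨.negSucc 472, .negSucc 62, .negSucc 351, .negSucc 172, .negSucc 5, .ofNat 730⟩, ⟨.negSucc 756, .negSucc 155, .negSucc 333, .negSucc 277, .negSucc 58, .ofNat 772⟩, ⟨.ofNat 2163, .ofNat 299, .ofNat 311, .ofNat 1002, .ofNat 285, .negSucc 3768⟩, ⟨.negSucc 659, .ofNat 146, .ofNat 157, .ofNat 154, .ofNat 509, .negSucc 331⟩, .ofNat 518, .ofNat 290, .ofNat 0, .ofNat 290, .ofNat 712, .ofNat 0, .ofNat 146, .negSucc 112, .negSucc 183, .ofNat 0, .ofNat 128, .ofNat 111, .ofNat 0, .ofNat 0, .ofNat 443, .ofNat 2773, .ofNat 0, .ofNat 0, .ofNat 23758255866727540029702320773136384, .ofNat 0, .ofNat 141894221136440960015180531808312754176, .ofNat 0,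 .ofNat 796489501962020433175309394640896000, .ofNat 0, .ofNat 0, .ofNat 0, .ofNat 1008957590773438642358685931222859776, .ofNat 0, .ofNat 0, .ofNat 0, .ofNat 1804836620036586883274766892841041920, .ofNat 0⟩)
    (by decide +kernel)
theorem L01483 : Good (Phi V5.P V5.D 1 (-1)) ⟨2, 0, 1, 1, 1, 0, 2, 0, 4, 1⟩ :=
  leafYS_sound T5.ok_pm T5.Ypm.bz_eq (w := 180) (c := ⟨⟨.negSucc 489, .negSucc 46, .ofNat 100, .ofNat 423, .negSucc 1, .negSucc 810⟩, ⟨.ofNat 192, .ofNat 22, .ofNat 396, .negSucc 279, .ofNat 25, .ofNat 505⟩, ⟨.ofNat 734, .ofNat 20, .negSucc 268, .negSucc 1261, .ofNat 22, .ofNat 714⟩, ⟨.negSucc 1666, .ofNat 170, .ofNat 246, .ofNat 844, .ofNat 121, .negSucc 2360⟩, ⟨.negSucc 298, .ofNat 216, .ofNat 333, .negSucc 662, .ofNat 202, .negSucc 5⟩, .ofNat 902, .ofNat 715, .ofNat 0, .ofNat 715, .ofNat 1571, .ofNat 0, .ofNat 128, .negSucc 141, .negSucc 69, .ofNat 0, .ofNat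 136, .ofNat 40, .ofNat 0, .ofNat 0, .ofNat 260, .ofNat 2289, .ofNat 0, .ofNat 0, .ofNat 0, .ofNat 0, .ofNat 0, .ofNat 0, .ofNat 0, .ofNat 0, .ofNat 0, .ofNat 0, .ofNat 217411007363344400238915333652480, .ofNat 0, .ofNat 0, .ofNat 0, .ofNat 49621162348666375535649456390144, .ofNat 0⟩)
    (by decide +kernel)
theorem L01484 : Good (Phi V5.P V5.D 1 (-1)) ⟨2, 1, 2, 2, 2, 0, 3, 0, 4, 0⟩ :=
  leafYS_sound T5.ok_pm T5.Ypm.bz_eq (w := 203) (c := ⟨⟨.ofNat 658, .ofNat 181, .negSucc 4, .ofNat 372, .ofNat 96, .negSucc 1486⟩, ⟨.negSucc 352, .ofNat 24, .negSucc 91, .negSucc 206, .negSucc 41, .ofNat 775⟩, ⟨.negSucc 660, .negSucc 148, .ofNat 4, .negSucc 442, .negSucc 160, .ofNat 1499⟩, ⟨.ofNat 1759, .ofNat 200, .ofNat 20, .ofNat 778, .ofNat 267, .negSucc 3924⟩, ⟨.negSucc 44, .ofNat 12, .ofNat 44, .negSucc 377, .ofNat 43, .negSucc 3⟩, .ofNat 424, .ofNat 190, .ofNat 0, .ofNat 190,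 .ofNat 668, .ofNat 0, .ofNat 238, .negSucc 84, .negSucc 192, .ofNat 0, .ofNat 128, .ofNat 73, .ofNat 0, .ofNat 0, .ofNat 434, .ofNat 7619, .ofNat 0, .ofNat 0, .ofNat 1729293881694186305997838411884396544, .ofNat 0, .ofNat 0, .ofNat 0, .ofNat 0, .ofNat 0, .ofNat 0, .ofNat 0, .ofNat 83871168409156237266760286006279143424, .ofNat 0, .ofNat 0, .ofNat 0, .ofNat 149146744043558074747223347741054730240, .ofNat 0⟩)
    (by decide +kernel)
theorem L01485 : Good (Phi V5.P V5.D 1 (-1)) ⟨2, 1, 2, 2, 2, 1, 3, 0, 4, 0⟩ :=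
  leafYS_sound T5.ok_pm T5.Ypm.bz_eq (w := 203) (c := ⟨⟨.ofNat 1008, .ofNat 244, .ofNat 54, .ofNat 355, .ofNat 74, .negSucc 1445⟩, ⟨.negSucc 552, .ofNat 14, .negSucc 169, .negSucc 164, .negSucc 34, .ofNat 744⟩, ⟨.negSucc 929, .negSucc 219, .negSucc 197, .negSucc 352, .negSucc 67, .ofNat 986⟩, ⟨.ofNat 2456, .ofNat 341, .ofNat 153, .ofNat 1002, .ofNat 302, .negSucc 3900⟩, ⟨.negSucc 505, .ofNat 89, .ofNat 24, .ofNat 211, .ofNat 248, .negSucc 268⟩, .ofNat 417, .ofNat 185, .ofNat 0, .ofNat 185, .ofNat 668, .ofNat 0, .ofNat 290, .negSucc 102, .negSucc 204, .ofNat 0, .ofNat 128, .ofNat 93, .ofNat 0, .ofNat 0, .ofNat 516, .ofNat 6934, .ofNat 0, .ofNat 0, .ofNat 1156413187181267618857716226837184512, .ofNat 0, .ofNat 0, .ofNat 0, .ofNat 0, .ofNat 0, .ofNat 2102605886385916351096801781181268885504, .ofNat 0, .ofNat 72141711518479880688609695181024788480, .ofNat 0, .ofNat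 0, .ofNat 0, .ofNat 0, .ofNat 0⟩)
    (by decide +kernel)
theorem L01486 : Good (Phi V5.P V5.D 1 (-1)) ⟨2, 1, 2, 2, 1, 0, 3, 1, 4, 0⟩ :=
  leafYS_sound T5.ok_pm T5.Ypm.bz_eq (w := 188) (c := ⟨⟨.ofNat 771, .ofNat 241, .negSucc 59, .ofNat 692, .negSucc 34, .negSucc 1541⟩, ⟨.negSucc 378, .ofNat 0, .negSucc 157, .negSucc 373, .ofNat 10, .ofNat 789⟩, ⟨.negSucc 821, .negSucc 179, .ofNat 48, .negSucc 743, .ofNat 85, .ofNat 1318⟩, ⟨.ofNat 1926, .ofNat 321, .ofNat 57, .ofNat 1889, .negSucc 44, .negSucc 4072⟩, ⟨.negSucc 264, .ofNat 74, .ofNat 211, .ofNat 147, .ofNat 123, .negSucc 119⟩, .ofNat 419, .ofNat 186, .ofNat 0, .ofNat 186, .ofNat 668, .ofNat 0, .ofNat 237, .negSucc 88, .negSucc 348, .ofNat 0, .ofNat 128, .ofNat 138, .ofNat 0, .ofNat 0, .ofNat 705, .ofNat 2429, .ofNat 0, .ofNat 0, .ofNat 0, .ofNat 0, .ofNat 0, .ofNat 0, .ofNat 8275756306494028697105403427684352, .ofNat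 0, .ofNat 0, .ofNat 0, .ofNat 3332853063011319128783929498140672, .ofNat 0, .ofNat 0, .ofNat 0, .ofNat 0, .ofNat 0⟩)
    (by decide +kernel)
theorem L01487 : Good (Phi V5.P V5.D 1 (-1)) ⟨2, 1, 2, 3, 1, 0, 2, 0, 4, 0⟩ :=
  out_sound (S := T5.ds_pm) T5.ok_pm (w := 37) (j := 3) (by decide +kernel)
theorem L01488 : Good (Phi V5.P V5.D 1 (-1)) ⟨2, 1, 1, 1, 1, 0, 2, 0, 4, 1⟩ :=
  leafYS_sound T5.ok_pm T5.Ypm.bz_eq (w := 180) (c := ⟨⟨.negSucc 681, .negSucc 108, .ofNat 296, .ofNat 525, .negSucc 11, .negSucc 839⟩, ⟨.ofNat 312, .negSucc 59, .ofNat 223, .negSucc 266, .ofNat 0, .ofNat 453⟩, ⟨.ofNat 885, .ofNat 58, .negSucc 256, .negSucc 1491, .ofNat 63, .ofNat 767⟩, ⟨.negSucc 2052, .ofNat 304, .ofNat 796, .ofNat 1045, .ofNat 136, .negSucc 2104⟩, ⟨.negSucc 345, .ofNat 208, .ofNat 339, .negSucc 453, .ofNat 277, .ofNat 63⟩, .ofNat 753, .ofNat 619, .ofNat 0, .ofNat 619, .ofNat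 1585, .ofNat 0, .ofNat 145, .negSucc 127, .negSucc 78, .ofNat 0, .ofNat 115, .ofNat 38, .ofNat 0, .ofNat 0, .ofNat 253, .ofNat 1550, .ofNat 0, .ofNat 0, .ofNat 14280521042146320026096784900096, .ofNat 0, .ofNat 0, .ofNat 0, .ofNat 0, .ofNat 0, .ofNat 0, .ofNat 0, .ofNat 140744729802503854066899519275008, .ofNat 0, .ofNat 2601111755184815023142071558995968, .ofNat 0, .ofNat 30756663536796072271297904640000, .ofNat 0⟩)
    (by decide +kernel)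
theorem L01489 : Good (Phi V5.P V5.D 1 (-1)) ⟨1, 0, 1, 1, 1, 0, 2, 0, 3, 1⟩ :=
  leafYS_sound T5.ok_pm T5.Ypm.bz_eq (w := 171) (c := ⟨⟨.negSucc 1054, .negSucc 464, .ofNat 76, .ofNat 55, .negSucc 9, .negSucc 138⟩, ⟨.ofNat 559, .ofNat 50, .ofNat 712, .negSucc 53, .ofNat 0, .ofNat 81⟩, ⟨.ofNat 1140, .ofNat 271, .negSucc 66, .negSucc 863, .ofNat 144, .ofNat 413⟩, ⟨.negSucc 3498, .negSucc 67, .negSucc 128, .negSucc 3, .ofNat 79, .negSucc 380⟩, ⟨.negSucc 350, .ofNat 204, .ofNat 115, .negSucc 354, .ofNat 165, .ofNat 65⟩, .ofNat 443, .ofNat 198, .ofNat 0, .ofNat 198, .ofNat 660, .ofNat 0, .ofNat 197, .negSucc 85, .negSucc 78, .ofNat 0, .ofNat 128, .ofNat 39, .ofNat 0, .ofNat 0, .ofNat 387, .ofNat 2190, .ofNat 187725771251801463537172821835776, .ofNat 0, .ofNat 651555518541395162180257579008, .ofNat 0, .ofNat 0, .ofNat 0, .ofNat 0, .ofNat 0, .ofNat 0, .ofNat 0, .ofNat 11355371248183513977692123824128,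 .ofNat 0, .ofNat 1661049578346088264990825243475968, .ofNat 0, .ofNat 0, .ofNat 0⟩)
    (by decide +kernel)
theorem L01490 : Good (Phi V5.P V5.D 1 (-1)) ⟨1, 0, 1, 1, 1, 0, 2, 0, 3, 2⟩ :=
  leafYS_sound T5.ok_pm T5.Ypm.bz_eq (w := 174) (c := ⟨⟨.negSucc 1128, .negSucc 412, .ofNat 143, .ofNat 17, .negSucc 59, .ofNat 85⟩, ⟨.ofNat 667, .ofNat 22, .ofNat 716, .negSucc 32, .negSucc 38, .negSucc 29⟩, ⟨.ofNat 1474, .ofNat 266, .negSucc 74, .negSucc 685, .ofNat 91, .ofNat 375⟩, ⟨.negSucc 3888, .ofNat 11, .ofNat 0, .negSucc 122, .ofNat 172, .ofNat 221⟩, ⟨.negSucc 324, .ofNat 151, .ofNat 52, .negSucc 350, .ofNat 216, .negSucc 16⟩, .ofNat 192, .ofNat 33, .ofNat 0, .ofNat 33, .ofNat 229, .ofNat 0, .ofNat 170, .negSucc 39, .negSucc 53, .ofNat 0, .ofNat 128, .ofNat 28, .ofNat 0, .ofNat 0, .ofNat 221, .ofNat 14116, .ofNat 1138581428326020424232444966731776, .ofNat 0, .ofNat 1375312371051291110777534021632,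 .ofNat 0, .ofNat 2221287408489820950085006721548288, .ofNat 0, .ofNat 12881611890467528329222797918208, .ofNat 0, .ofNat 1577539890857198345628472926273536, .ofNat 0, .ofNat 10965238607506062103799308222464, .ofNat 0, .ofNat 3049717583729899215354679011573760, .ofNat 0, .ofNat 264827246287662572291319922688, .ofNat 0⟩)
    (by decide +kernel)
theorem L01491 : Good (Phi V5.P V5.D 1 (-1)) ⟨1, 0, 1, 1, 1, 0, 2, 0, 3, 3⟩ :=
  out_sound (S := T5.ds_pm) T5.ok_pm (w := 20) (j := 1) (by decide +kernel)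
theorem L01492 : Good (Phi V5.P V5.D 1 (-1)) ⟨1, 0, 1, 1, 1, 0, 2, 0, 1, 1⟩ :=
  out_sound (S := T5.ds_pm) T5.ok_pm (w := 16) (j := 1) (by decide +kernel)
theorem L01493 : Good (Phi V5.P V5.D 1 (-1)) ⟨1, 0, 2, 2, 1, 0, 2, 1, 3, 0⟩ :=
  leafYS_sound T5.ok_pm T5.Ypm.bz_eq (w := 174) (c := ⟨⟨.ofNat 680, .ofNat 89, .ofNat 60, .ofNat 390, .negSucc 11, .negSucc 2019⟩, ⟨.negSucc 345, .negSucc 22, .negSucc 5, .negSucc 264, .ofNat 32, .ofNat 1104⟩, ⟨.negSucc 619, .negSucc 188, .negSucc 86, .negSucc 558, .ofNat 103, .ofNat 1813⟩, ⟨.ofNat 1823, .ofNat 53, .ofNat 203, .ofNat 1254, .negSucc 151, .negSucc 5703⟩, ⟨.ofNat 6, .negSucc 74, .ofNat 99, .negSucc 30, .ofNat 140, .negSucc 260⟩, .ofNat 440, .ofNat 196, .ofNat 0, .ofNat 196, .ofNat 660, .ofNat 0, .ofNat 289, .negSucc 86, .negSucc 237, .ofNat 0, .ofNat 128, .ofNat 103, .ofNat 0, .ofNat 0, .ofNat 540, .ofNat 662, .ofNat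 0, .ofNat 0, .ofNat 0, .ofNat 0, .ofNat 0, .ofNat 0, .ofNat 0, .ofNat 0, .ofNat 0, .ofNat 0, .ofNat 19945902311636557012376976621568, .ofNat 0, .ofNat 0, .ofNat 0, .ofNat 0, .ofNat 0⟩)
    (by decide +kernel)
theorem L01494 : Good (Phi V5.P V5.D 1 (-1)) ⟨1, 0, 2, 2, 1, 0, 2, 1, 3, 1⟩ :=
  leafYS_sound T5.ok_pm T5.Ypm.bz_eq (w := 174) (c := ⟨⟨.negSucc 1091, .negSucc 441, .ofNat 104, .ofNat 59, .ofNat 117, .negSucc 150⟩, ⟨.ofNat 586, .ofNat 43, .ofNat 316, .negSucc 64, .negSucc 36, .ofNat 57⟩, ⟨.ofNat 1056, .ofNat 355, .negSucc 97, .negSucc 627, .negSucc 69, .ofNat 469⟩, ⟨.negSucc 3420, .negSucc 85, .ofNat 93, .ofNat 17, .ofNat 277, .negSucc 419⟩, ⟨.negSucc 39, .ofNat 128, .negSucc 25, .negSucc 338, .ofNat 35, .negSucc 76⟩, .ofNat 436, .ofNat 193, .ofNat 0, .ofNat 193, .ofNat 660, .ofNat 0, .ofNat 269, .negSucc 84, .negSucc 86, .ofNat 0, .ofNat 128, .ofNat 41, .ofNat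 0, .ofNat 0, .ofNat 371, .ofNat 1082, .ofNat 0, .ofNat 0, .ofNat 0, .ofNat 0, .ofNat 0, .ofNat 0, .ofNat 0, .ofNat 0, .ofNat 0, .ofNat 0, .ofNat 19892563814769845401262514765824, .ofNat 0, .ofNat 0, .ofNat 0, .ofNat 0, .ofNat 0⟩)
    (by decide +kernel)
theorem L01495 : Good (Phi V5.P V5.D 1 (-1)) ⟨2, 0, 2, 2, 1, 0, 2, 1, 4, 4⟩ :=
  leafYS_sound T5.ok_pm T5.Ypm.bz_eq (w := 186) (c := ⟨⟨.negSucc 1185, .negSucc 120, .ofNat 19, .ofNat 15, .ofNat 61, .ofNat 45⟩, ⟨.ofNat 613, .ofNat 58, .ofNat 292, .negSucc 13, .negSucc 36, .negSucc 30⟩, ⟨.ofNat 1256, .ofNat 125, .negSucc 95, .negSucc 261, .negSucc 38, .ofNat 120⟩, ⟨.negSucc 3641, .negSucc 1, .ofNat 3, .negSucc 197, .ofNat 202, .ofNat 146⟩, ⟨.negSucc 43, .ofNat 16, .negSucc 5, .negSucc 376, .ofNat 33, .ofNat 8⟩, .ofNat 461, .ofNat 202, .ofNat 0, .ofNat 202, .ofNat 650, .ofNat 0, .ofNat 128, .negSucc 88, .negSucc 128,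 .ofNat 0, .ofNat 140, .ofNat 67, .ofNat 0, .ofNat 0, .ofNat 970, .ofNat 7700, .ofNat 219164689450610408382268239853387776, .ofNat 0, .ofNat 151454071978422144782414381056, .ofNat 0, .ofNat 0, .ofNat 0, .ofNat 21477805771867085011712804388864, .ofNat 0, .ofNat 0, .ofNat 0, .ofNat 0, .ofNat 0, .ofNat 0, .ofNat 0, .ofNat 0, .ofNat 0⟩)
    (by decide +kernel)
theorem L01496 : Good (Phi V5.P V5.D 1 (-1)) ⟨2, 0, 2, 2, 1, 0, 3, 2, 4, 5⟩ :=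
  leafYS_sound T5.ok_pm T5.Ypm.bz_eq (w := 192) (c := ⟨⟨.negSucc 1085, .negSucc 123, .ofNat 32, .negSucc 39, .ofNat 8, .ofNat 73⟩, ⟨.ofNat 552, .ofNat 68, .ofNat 298, .ofNat 4, .negSucc 8, .negSucc 33⟩, ⟨.ofNat 1353, .ofNat 142, .ofNat 19, .negSucc 308, .ofNat 40, .ofNat 181⟩, ⟨.negSucc 3374, .negSucc 31, .negSucc 3, .negSucc 285, .ofNat 64, .ofNat 190⟩, ⟨.negSucc 80, .ofNat 38, .ofNat 5, .negSucc 340, .ofNat 26, .ofNat 23⟩, .ofNat 462, .ofNat 205, .ofNat 0, .ofNat 205, .ofNat 653, .ofNat 0, .ofNat 178, .negSucc 84, .negSucc 37, .ofNat 0, .ofNat 128, .ofNat 22, .ofNat 0, .ofNat 0, .ofNat 388, .ofNat 34334, .ofNat 13249609708928476613905020393483141120, .ofNat 0, .ofNat 0, .ofNat 0, .ofNat 104520563261970211558806015532936986624, .ofNat 0, .ofNat 18940883214469964385348507400142848, .ofNat 0, .ofNat 73045090458715978056367431989678047232, .ofNat 0, .ofNat 0, .ofNat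 0, .ofNat 76257566756029643457796245224587001856, .ofNat 0, .ofNat 4272442579045884980786577587306496, .ofNat 0⟩)
    (by decide +kernel)
theorem L01497 : Good (Phi V5.P V5.D 1 (-1)) ⟨3, 0, 2, 2, 1, 0, 3, 3, 4, 5⟩ :=
  leafYS_sound T5.ok_pm T5.Ypm.bz_eq (w := 195) (c := ⟨⟨.negSucc 1117, .negSucc 23, .ofNat 15, .negSucc 6, .ofNat 30, .ofNat 50⟩, ⟨.ofNat 558, .ofNat 37, .ofNat 282, .negSucc 9, .negSucc 16, .negSucc 30⟩, ⟨.ofNat 1196, .ofNat 35, .negSucc 4, .negSucc 4, .negSucc 41, .ofNat 108⟩, ⟨.negSucc 3365, .negSucc 7, .negSucc 10, .negSucc 225, .ofNat 100, .ofNat 171⟩, ⟨.negSucc 18, .negSucc 0, .negSucc 2, .negSucc 358, .ofNat 12, .ofNat 22⟩, .ofNat 461, .ofNat 193, .ofNat 0, .ofNat 193, .ofNat 645, .ofNat 0, .ofNat 128, .negSucc 89, .negSucc 96, .ofNat 0, .ofNat 148, .ofNat 46, .ofNat 0, .ofNat 0, .ofNat 1048, .ofNat 21297, .ofNat 75441564991582185105717926466731114496,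 .ofNat 0, .ofNat 16955138862780478642047948947456, .ofNat 0, .ofNat 0, .ofNat 0, .ofNat 0, .ofNat 0, .ofNat 0, .ofNat 0, .ofNat 0, .ofNat 0, .ofNat 0, .ofNat 0, .ofNat 13638357396442291033750970862403584, .ofNat 0⟩)
    (by decide +kernel)
theorem L01498 : Good (Phi V5.P V5.D 1 (-1)) ⟨3, 1, 2, 2, 1, 0, 3, 3, 4, 5⟩ :=
  leafYS_sound T5.ok_pm T5.Ypm.bz_eq (w := 195) (c := ⟨⟨.negSucc 1117, .negSucc 91, .ofNat 10, .negSucc 25, .ofNat 16, .ofNat 51⟩, ⟨.ofNat 584, .ofNat 30, .ofNat 282, .ofNat 6, .negSucc 13, .negSucc 27⟩, ⟨.ofNat 1139, .ofNat 121, .ofNat 16, .ofNat 96, .ofNat 5, .ofNat 109⟩, ⟨.negSucc 3303, .negSucc 42, .negSucc 12, .negSucc 279, .ofNat 61, .ofNat 152⟩, ⟨.negSucc 20, .ofNat 6, .ofNat 6, .negSucc 343, .ofNat 5, .ofNat 10⟩, .ofNat 472, .ofNat 229, .ofNat 0, .ofNat 229, .ofNat 668, .ofNat 0, .ofNat 195, .negSucc 87, .negSucc 120, .ofNat 0, .ofNat 128,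 .ofNat 65, .ofNat 0, .ofNat 0, .ofNat 1242, .ofNat 21722, .ofNat 118230397907894047625327915929792675840, .ofNat 0, .ofNat 25742413008062064961934734655488, .ofNat 0, .ofNat 0, .ofNat 0, .ofNat 0, .ofNat 0, .ofNat 0, .ofNat 0, .ofNat 524403159919993169550045836476416, .ofNat 0, .ofNat 0, .ofNat 0, .ofNat 0, .ofNat 0⟩)
    (by decide +kernel)
theorem L01499 : Good (Phi V5.P V5.D 1 (-1)) ⟨2, 1, 2, 2, 1, 0, 2, 1, 4, 4⟩ :=
  leafYS_sound T5.ok_pm T5.Ypm.bz_eq (w := 185) (c := ⟨⟨.negSucc 1300, .negSucc 341, .ofNat 3, .negSucc 14, .ofNat 63, .ofNat 54⟩, ⟨.ofNat 669, .negSucc 60, .ofNat 288, .ofNat 3, .negSucc 28, .negSucc 27⟩, ⟨.ofNat 1357, .ofNat 267, .negSucc 35, .negSucc 205, .ofNat 40, .ofNat 39⟩, ⟨.negSucc 3610, .negSucc 77, .negSucc 3, .negSucc 218, .ofNat 146, .ofNat 151⟩, ⟨.negSucc 19, .ofNat 30, .ofNat 13, .negSucc 335, .negSucc 16, .ofNat 15⟩, .ofNat 420, .ofNat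 187, .ofNat 0, .ofNat 187, .ofNat 668, .ofNat 0, .ofNat 188, .negSucc 83, .negSucc 120, .ofNat 0, .ofNat 128, .ofNat 54, .ofNat 0, .ofNat 0, .ofNat 868, .ofNat 4818, .ofNat 172792542997781168631669003936333824, .ofNat 0, .ofNat 3048421877391311536499296567296, .ofNat 0, .ofNat 0, .ofNat 0, .ofNat 1663372662200592969384709119279104, .ofNat 0, .ofNat 0, .ofNat 0, .ofNat 705673909412341767580349848616960, .ofNat 0, .ofNat 0, .ofNat 0, .ofNat 0, .ofNat 0⟩)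
    (by decide +kernel)
theorem L01500 : Good (Phi V5.P V5.D 1 (-1)) ⟨3, 2, 2, 2, 1, 0, 2, 1, 4, 5⟩ :=
  leafYS_sound T5.ok_pm T5.Ypm.bz_eq (w := 191) (c := ⟨⟨.negSucc 1220, .negSucc 147, .ofNat 7, .negSucc 40, .ofNat 37, .ofNat 62⟩, ⟨.ofNat 618, .negSucc 6, .ofNat 287, .ofNat 14, .negSucc 21, .negSucc 31⟩, ⟨.ofNat 1204, .ofNat 139, .ofNat 17, .ofNat 108, .ofNat 38, .ofNat 124⟩, ⟨.negSucc 3383, .negSucc 37, .negSucc 27, .negSucc 272, .ofNat 104, .ofNat 148⟩, ⟨.negSucc 23, .ofNat 24, .ofNat 3, .negSucc 308, .negSucc 5, .negSucc 16⟩, .ofNat 1140, .ofNat 1176, .ofNat 0, .ofNat 1176, .ofNat 2506, .ofNat 0, .ofNat 128, .negSucc 144, .negSucc 94, .ofNat 0, .ofNat 118, .ofNat 51, .ofNat 0, .ofNat 0, .ofNat 1170, .ofNat 18517, .ofNat 17116220118358210002819954194981584896, .ofNat 0, .ofNat 1573639600443441093249343684608, .ofNat 0, .ofNat 0, .ofNat 0, .ofNat 0, .ofNat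 0, .ofNat 20072041213736288245648983466356768768, .ofNat 0, .ofNat 201733873610112367375695845785600, .ofNat 0, .ofNat 505636926843271788409301869884025602048, .ofNat 0, .ofNat 547710856916899766562009445826560, .ofNat 0⟩)
    (by decide +kernel)
theorem L01501 : Good (Phi V5.P V5.D 1 (-1)) ⟨3, 3, 2, 2, 1, 0, 2, 1, 4, 5⟩ :=
  leafYS_sound T5.ok_pm T5.Ypm.bz_eq (w := 190) (c := ⟨⟨.negSucc 1333, .negSucc 193, .ofNat 9, .negSucc 77, .ofNat 19, .ofNat 72⟩, ⟨.ofNat 600, .negSucc 62, .ofNat 286, .ofNat 15, .negSucc 13, .negSucc 30⟩, ⟨.ofNat 1248, .ofNat 147, .negSucc 24, .ofNat 116, .ofNat 159, .ofNat 90⟩, ⟨.negSucc 3360, .negSucc 7, .negSucc 18, .negSucc 314, .ofNat 45, .ofNat 165⟩, ⟨.negSucc 16, .ofNat 52, .ofNat 10, .negSucc 312, .negSucc 19, .negSucc 15⟩, .ofNat 1041, .ofNat 1175, .ofNat 0, .ofNat 1175, .ofNat 2928, .ofNat 0, .ofNat 184, .negSucc 127, .negSucc 80,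 .ofNat 0, .ofNat 97, .ofNat 37, .ofNat 0, .ofNat 0, .ofNat 913, .ofNat 11647, .ofNat 11905392485548232935717936810562682880, .ofNat 0, .ofNat 0, .ofNat 0, .ofNat 0, .ofNat 0, .ofNat 0, .ofNat 0, .ofNat 0, .ofNat 0, .ofNat 405650939719400110283989815656448, .ofNat 0, .ofNat 320986953141930424790783665392763011072, .ofNat 0, .ofNat 428103660061210221247798012018688, .ofNat 0⟩)
    (by decide +kernel)
theorem L01502 : Good (Phi V5.P V5.D 1 (-1)) ⟨1, 0, 2, 2, 1, 0, 2, 1, 3, 3⟩ :=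
  leafYS_sound T5.ok_pm T5.Ypm.bz_eq (w := 178) (c := ⟨⟨.negSucc 1011, .negSucc 405, .ofNat 65, .negSucc 65, .ofNat 57, .ofNat 121⟩, ⟨.ofNat 412, .ofNat 32, .ofNat 306, .ofNat 85, .ofNat 45, .negSucc 120⟩, ⟨.ofNat 753, .ofNat 464, .ofNat 100, .ofNat 376, .ofNat 201, .ofNat 735⟩, ⟨.negSucc 2928, .negSucc 167, .negSucc 23, .negSucc 412, .negSucc 3, .ofNat 392⟩, ⟨.ofNat 15, .negSucc 22, .negSucc 5, .negSucc 327, .negSucc 21, .negSucc 5⟩, .ofNat 192, .ofNat 33, .ofNat 0, .ofNat 33, .ofNat 229, .ofNat 0, .ofNat 260, .negSucc 37, .negSucc 47, .ofNat 0, .ofNat 128, .ofNat 13, .ofNat 0, .ofNat 0, .ofNat 513, .ofNat 11767, .ofNat 6393111588673810530416862345297920, .ofNat 0, .ofNat 5199198069957165040389538709504, .ofNat 0, .ofNat 25882683148109024972127699424247808, .ofNat 0, .ofNat 0, .ofNat 0, .ofNat 28396567686714485273607587407855616, .ofNat 0, .ofNat 0, .ofNat 0,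 .ofNat 127946394737449555708601196060082176, .ofNat 0, .ofNat 27477019736776348280996424056832, .ofNat 0⟩)
    (by decide +kernel)
theorem L01503 : Good (Phi V5.P V5.D 1 (-1)) ⟨1, 0, 2, 2, 1, 0, 2, 1, 1, 1⟩ :=
  out_sound (S := T5.ds_pm) T5.ok_pm (w := 16) (j := 1) (by decide +kernel)
theorem L01504 : Good (Phi V5.P V5.D 1 (-1)) ⟨1, 0, 2, 3, 1, 0, 2, 1, 0, 0⟩ :=
  out_sound (S := T5.ds_pm) T5.ok_pm (w := 31) (j := 3) (by decide +kernel)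
theorem L01505 : Good (Phi V5.P V5.D 1 (-1)) ⟨2, 0, 2, 2, 2, 0, 2, 2, 3, 0⟩ :=
  leafYS_sound T5.ok_pm T5.Ypm.bz_eq (w := 191) (c := ⟨⟨.ofNat 10, .negSucc 3, .negSucc 148, .ofNat 214, .negSucc 84, .negSucc 1047⟩, ⟨.negSucc 45, .ofNat 15, .ofNat 237, .negSucc 130, .ofNat 46, .ofNat 605⟩, ⟨.negSucc 129, .ofNat 20, .ofNat 149, .negSucc 301, .ofNat 92, .ofNat 1089⟩, ⟨.negSucc 16, .ofNat 139, .negSucc 379, .ofNat 543, .negSucc 319, .negSucc 3085⟩, ⟨.ofNat 49, .negSucc 73, .ofNat 35, .negSucc 135, .negSucc 50, .negSucc 30⟩, .ofNat 915, .ofNat 732, .ofNat 0, .ofNat 732, .ofNat 1584, .ofNat 0, .ofNat 133, .negSucc 127, .negSucc 124, .ofNat 0, .ofNat 127, .ofNat 67, .ofNat 0, .ofNat 0, .ofNat 345, .ofNat 550, .ofNat 0, .ofNat 0, .ofNat 0, .ofNat 0, .ofNat 0, .ofNat 0, .ofNat 0, .ofNat 0, .ofNat 0, .ofNat 0, .ofNat 177206876878238162705878259697975296, .ofNat 0, .ofNat 0,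 .ofNat 0, .ofNat 0, .ofNat 0⟩)
    (by decide +kernel)
theorem L01506 : Good (Phi V5.P V5.D 1 (-1)) ⟨2, 0, 2, 2, 2, 0, 2, 2, 3, 1⟩ :=
  leafYS_sound T5.ok_pm T5.Ypm.bz_eq (w := 193) (c := ⟨⟨.negSucc 1086, .negSucc 113, .ofNat 24, .ofNat 14, .ofNat 137, .negSucc 53⟩, ⟨.ofNat 558, .ofNat 74, .ofNat 257, .negSucc 17, .negSucc 81, .ofNat 29⟩, ⟨.ofNat 1011, .ofNat 148, .negSucc 13, .ofNat 15, .negSucc 243, .ofNat 100⟩, ⟨.negSucc 3306, .negSucc 93, .ofNat 62, .negSucc 54, .ofNat 398, .negSucc 140⟩, ⟨.negSucc 15, .negSucc 25, .ofNat 25, .negSucc 183, .ofNat 0, .ofNat 13⟩, .ofNat 895, .ofNat 702, .ofNat 0, .ofNat 702, .ofNat 1553, .ofNat 0, .ofNat 128, .negSucc 150, .negSucc 119, .ofNat 0, .ofNat 152, .ofNat 64, .ofNat 0, .ofNat 0, .ofNat 626, .ofNat 2739, .ofNat 0, .ofNat 0, .ofNat 0, .ofNat 0, .ofNat 0, .ofNat 0, .ofNat 0, .ofNat 0, .ofNat 0, .ofNat 0, .ofNat 267676949042438677533205518136377344,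 .ofNat 0, .ofNat 0, .ofNat 0, .ofNat 122305136886008003440851477965307904, .ofNat 0⟩)
    (by decide +kernel)
theorem L01507 : Good (Phi V5.P V5.D 1 (-1)) ⟨2, 0, 2, 2, 2, 0, 3, 6, 2, 0⟩ :=
  leafYS_sound T5.ok_pm T5.Ypm.bz_eq (w := 190) (c := ⟨⟨.negSucc 646, .negSucc 72, .ofNat 10, .ofNat 19, .ofNat 103, .negSucc 383⟩, ⟨.ofNat 305, .ofNat 50, .ofNat 229, .negSucc 24, .negSucc 69, .ofNat 236⟩, ⟨.ofNat 480, .ofNat 116, .ofNat 19, .ofNat 37, .negSucc 151, .ofNat 360⟩, ⟨.negSucc 1992, .ofNat 6, .ofNat 0, .negSucc 12, .ofNat 303, .negSucc 1129⟩, ⟨.negSucc 102, .negSucc 19, .ofNat 41, .negSucc 154, .negSucc 0, .ofNat 101⟩, .ofNat 999, .ofNat 840, .ofNat 0, .ofNat 840, .ofNat 1689, .ofNat 0, .ofNat 148, .negSucc 127, .negSucc 114, .ofNat 0, .ofNat 123, .ofNat 66, .ofNat 0, .ofNat 0, .ofNat 387, .ofNat 422, .ofNat 0, .ofNat 0, .ofNat 0, .ofNat 0, .ofNat 0, .ofNat 0, .ofNat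 0, .ofNat 0, .ofNat 0, .ofNat 0, .ofNat 38979130141864002355431062663856128, .ofNat 0, .ofNat 0, .ofNat 0, .ofNat 0, .ofNat 0⟩)
    (by decide +kernel)
theorem L01508 : Good (Phi V5.P V5.D 1 (-1)) ⟨2, 0, 2, 2, 2, 0, 3, 7, 4, 0⟩ :=
  leafYS_sound T5.ok_pm T5.Ypm.bz_eq (w := 202) (c := ⟨⟨.negSucc 526, .negSucc 4, .ofNat 11, .ofNat 133, .ofNat 388, .negSucc 127⟩, ⟨.ofNat 286, .ofNat 7, .ofNat 73, .negSucc 88, .negSucc 225, .ofNat 72⟩, ⟨.ofNat 410, .ofNat 54, .negSucc 33, .negSucc 93, .negSucc 419, .ofNat 61⟩, ⟨.negSucc 1557, .ofNat 74, .negSucc 21, .ofNat 230, .ofNat 1114, .negSucc 380⟩, ⟨.ofNat 5, .ofNat 30, .negSucc 62, .negSucc 280, .negSucc 14, .negSucc 10⟩, .ofNat 999, .ofNat 840, .ofNat 0, .ofNat 840, .ofNat 1689, .ofNat 0, .ofNat 128, .negSucc 147, .negSucc 266, .ofNat 0, .ofNat 143, .ofNat 151, .ofNat 0, .ofNat 0, .ofNat 588, .ofNat 1901, .ofNat 0, .ofNat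 0, .ofNat 130643741649828943668343721705865216, .ofNat 0, .ofNat 0, .ofNat 0, .ofNat 0, .ofNat 0, .ofNat 0, .ofNat 0, .ofNat 48996532253818784731028748743724761088, .ofNat 0, .ofNat 0, .ofNat 0, .ofNat 0, .ofNat 0⟩)
    (by decide +kernel)
theorem L01509 : Good (Phi V5.P V5.D 1 (-1)) ⟨2, 0, 2, 2, 2, 0, 3, 7, 4, 1⟩ :=
  leafYS_sound T5.ok_pm T5.Ypm.bz_eq (w := 202) (c := ⟨⟨.negSucc 704, .negSucc 58, .ofNat 18, .ofNat 90, .ofNat 529, .negSucc 153⟩, ⟨.ofNat 383, .ofNat 32, .ofNat 110, .negSucc 60, .negSucc 314, .ofNat 83⟩, ⟨.ofNat 550, .ofNat 106, .negSucc 37, .negSucc 43, .negSucc 611, .ofNat 100⟩, ⟨.negSucc 2110, .negSucc 65, .ofNat 52, .ofNat 87, .ofNat 1537, .negSucc 440⟩, ⟨.ofNat 4, .ofNat 15, .ofNat 65, .negSucc 292, .negSucc 52, .negSucc 8⟩, .ofNat 906, .ofNat 719, .ofNat 0, .ofNat 719, .ofNat 1572, .ofNat 0, .ofNat 128, .negSucc 133, .negSucc 200, .ofNat 0,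 .ofNat 135, .ofNat 107, .ofNat 0, .ofNat 0, .ofNat 516, .ofNat 1553, .ofNat 0, .ofNat 0, .ofNat 0, .ofNat 0, .ofNat 0, .ofNat 0, .ofNat 0, .ofNat 0, .ofNat 0, .ofNat 0, .ofNat 60033134184436149945373712474869596160, .ofNat 0, .ofNat 0, .ofNat 0, .ofNat 34399164190255840051462652797395140608, .ofNat 0⟩)
    (by decide +kernel)
theorem L01510 : Good (Phi V5.P V5.D 1 (-1)) ⟨2, 0, 2, 2, 2, 0, 3, 7, 3, 1⟩ :=
  leafYS_sound T5.ok_pm T5.Ypm.bz_eq (w := 196) (c := ⟨⟨.negSucc 716, .negSucc 70, .ofNat 7, .negSucc 98, .ofNat 378, .negSucc 209⟩, ⟨.ofNat 355, .ofNat 56, .ofNat 177, .ofNat 54, .negSucc 221, .ofNat 133⟩, ⟨.ofNat 492, .ofNat 113, .ofNat 9, .ofNat 265, .negSucc 537, .ofNat 112⟩, ⟨.negSucc 2218, .negSucc 44, .ofNat 62, .negSucc 364, .ofNat 1121, .negSucc 583⟩, ⟨.negSucc 98, .negSucc 2, .ofNat 71, .negSucc 136, .ofNat 11, .ofNat 102⟩, .ofNat 888, .ofNat 688, .ofNat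 0, .ofNat 688, .ofNat 1537, .ofNat 0, .ofNat 128, .negSucc 132, .negSucc 121, .ofNat 0, .ofNat 136, .ofNat 64, .ofNat 0, .ofNat 0, .ofNat 432, .ofNat 959, .ofNat 0, .ofNat 0, .ofNat 0, .ofNat 0, .ofNat 0, .ofNat 110628491243684254428551936034281095168, .ofNat 0, .ofNat 0, .ofNat 0, .ofNat 90376695549961930439253772981120270336, .ofNat 2385893959074725764151692283822997504, .ofNat 0, .ofNat 0, .ofNat 61555215854181870137877611482391248896, .ofNat 1269340911822555322314080574221844480, .ofNat 0⟩)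
    (by decide +kernel)
theorem L01511 : Good (Phi V5.P V5.D 1 (-1)) ⟨2, 0, 2, 2, 2, 1, 1, 1, 3, 0⟩ :=
  leafYS_sound T5.ok_pm T5.Ypm.bz_eq (w := 187) (c := ⟨⟨.ofNat 16, .negSucc 49, .ofNat 161, .ofNat 81, .negSucc 151, .negSucc 826⟩, ⟨.negSucc 61, .ofNat 37, .ofNat 22, .negSucc 42, .ofNat 93, .ofNat 483⟩, ⟨.negSucc 398, .ofNat 179, .negSucc 193, .ofNat 42, .ofNat 488, .ofNat 733⟩, ⟨.negSucc 122, .ofNat 31, .ofNat 445, .ofNat 275, .negSucc 464, .negSucc 2503⟩, ⟨.negSucc 265, .ofNat 141, .ofNat 73, .ofNat 121, .negSucc 18, .negSucc 211⟩, .ofNat 999, .ofNat 840, .ofNat 0, .ofNat 840, .ofNat 1689, .ofNat 0, .ofNat 128, .negSucc 139, .negSucc 170, .ofNat 0, .ofNat 130, .ofNat 102, .ofNat 0, .ofNat 0, .ofNat 417, .ofNat 369, .ofNat 0, .ofNat 22774013329576612901625621265776640, .ofNat 7804771618757418217640084635648, .ofNat 0, .ofNat 0, .ofNat 0, .ofNat 0, .ofNat 0,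 .ofNat 0, .ofNat 0, .ofNat 5418941501842148932006226633424896, .ofNat 0, .ofNat 0, .ofNat 0, .ofNat 3488497935064235219499699218153472, .ofNat 0⟩)
    (by decide +kernel)
theorem L01512 : Good (Phi V5.P V5.D 1 (-1)) ⟨2, 0, 2, 2, 2, 1, 1, 1, 3, 1⟩ :=
  leafYS_sound T5.ok_pm T5.Ypm.bz_eq (w := 187) (c := ⟨⟨.negSucc 904, .negSucc 171, .ofNat 102, .negSucc 48, .ofNat 145, .negSucc 193⟩, ⟨.ofNat 429, .ofNat 110, .ofNat 222, .ofNat 24, .negSucc 81, .ofNat 119⟩, ⟨.ofNat 553, .ofNat 343, .negSucc 207, .ofNat 39, .negSucc 37, .ofNat 414⟩, ⟨.negSucc 2892, .negSucc 246, .ofNat 296, .negSucc 231, .ofNat 521, .negSucc 575⟩, ⟨.negSucc 243, .ofNat 0, .ofNat 64, .negSucc 159, .ofNat 93, .ofNat 4⟩, .ofNat 889, .ofNat 693, .ofNat 0, .ofNat 693, .ofNat 1543, .ofNat 0, .ofNat 131, .negSucc 127, .negSucc 89, .ofNat 0, .ofNat 125, .ofNat 50, .ofNat 0, .ofNat 0, .ofNat 406, .ofNat 351,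 .ofNat 0, .ofNat 0, .ofNat 129625275508216150282092761055232, .ofNat 0, .ofNat 0, .ofNat 0, .ofNat 0, .ofNat 0, .ofNat 0, .ofNat 1779561977301098756172982910934056960, .ofNat 3638555090115891568577624693276672, .ofNat 0, .ofNat 0, .ofNat 2269178281588013829154740884268384256, .ofNat 7695275872421393233501882257768448, .ofNat 0⟩)
    (by decide +kernel)
theorem L01513 : Good (Phi V5.P V5.D 1 (-1)) ⟨2, 0, 2, 2, 1, 0, 2, 2, 4, 4⟩ :=
  leafYS_sound T5.ok_pm T5.Ypm.bz_eq (w := 184) (c := ⟨⟨.negSucc 1079, .negSucc 110, .ofNat 11, .negSucc 55, .ofNat 76, .ofNat 25⟩, ⟨.ofNat 549, .ofNat 61, .ofNat 277, .ofNat 18, .negSucc 41, .negSucc 9⟩, ⟨.ofNat 983, .ofNat 121, .ofNat 44, .ofNat 210, .negSucc 147, .ofNat 70⟩, ⟨.negSucc 3278, .negSucc 45, .negSucc 10, .negSucc 366, .ofNat 223, .ofNat 69⟩, ⟨.negSucc 2, .negSucc 19, .ofNat 3, .negSucc 373, .ofNat 14, .ofNat 12⟩, .ofNat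 880, .ofNat 679, .ofNat 0, .ofNat 679, .ofNat 1526, .ofNat 0, .ofNat 128, .negSucc 153, .negSucc 115, .ofNat 0, .ofNat 156, .ofNat 62, .ofNat 0, .ofNat 0, .ofNat 961, .ofNat 2763, .ofNat 0, .ofNat 0, .ofNat 0, .ofNat 0, .ofNat 0, .ofNat 0, .ofNat 0, .ofNat 0, .ofNat 0, .ofNat 0, .ofNat 0, .ofNat 0, .ofNat 0, .ofNat 0, .ofNat 0, .ofNat 0⟩)
    (by decide +kernel)
theorem L01514 : Good (Phi V5.P V5.D 1 (-1)) ⟨2, 0, 2, 2, 2, 0, 2, 2, 4, 5⟩ :=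
  leafYS_sound T5.ok_pm T5.Ypm.bz_eq (w := 201) (c := ⟨⟨.negSucc 1066, .negSucc 102, .ofNat 6, .negSucc 4, .ofNat 83, .ofNat 39⟩, ⟨.ofNat 543, .ofNat 58, .ofNat 262, .ofNat 3, .negSucc 43, .negSucc 26⟩, ⟨.ofNat 1059, .ofNat 106, .ofNat 33, .ofNat 189, .negSucc 294, .negSucc 20⟩, ⟨.negSucc 3222, .negSucc 40, .negSucc 3, .negSucc 125, .ofNat 237, .ofNat 128⟩, ⟨.negSucc 6, .negSucc 8, .ofNat 4, .negSucc 164, .ofNat 15, .ofNat 4⟩, .ofNat 461, .ofNat 201, .ofNat 0, .ofNat 201, .ofNat 650, .ofNat 0, .ofNat 288, .negSucc 78, .negSucc 113, .ofNat 0, .ofNat 128, .ofNat 48, .ofNat 0, .ofNat 0, .ofNat 1070, .ofNat 12751, .ofNat 0, .ofNat 0, .ofNat 0, .ofNat 0, .ofNat 0, .ofNat 0, .ofNat 0, .ofNat 0, .ofNat 0, .ofNat 0, .ofNat 0, .ofNat 0, .ofNat 0, .ofNat 0, .ofNat 51204052224999130001386626195780534272, .ofNat 0⟩)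
    (by decide +kernel)
theorem L01515 : Good (Phi V5.P V5.D 1 (-1)) ⟨2, 0, 2, 2, 2, 1, 2, 2, 4, 5⟩ :=
  leafYS_sound T5.ok_pm T5.Ypm.bz_eq (w := 199) (c := ⟨⟨.negSucc 1049, .negSucc 122, .ofNat 8, .negSucc 56, .ofNat 13, .ofNat 49⟩, ⟨.ofNat 523, .ofNat 73, .ofNat 277, .ofNat 32, .negSucc 6, .negSucc 28⟩, ⟨.ofNat 1038, .ofNat 174, .ofNat 69, .ofNat 227, .negSucc 8, .ofNat 148⟩, ⟨.negSucc 3284, .negSucc 117, .ofNat 2, .negSucc 259, .ofNat 51, .ofNat 156⟩, ⟨.negSucc 175, .negSucc 52, .ofNat 14, .negSucc 155, .ofNat 9, .ofNat 27⟩, .ofNat 908, .ofNat 720, .ofNat 0, .ofNat 720, .ofNat 1571, .ofNat 0, .ofNat 128, .negSucc 153, .negSucc 119, .ofNat 0, .ofNat 152, .ofNat 64, .ofNat 0, .ofNat 0, .ofNat 1642, .ofNat 4507, .ofNat 0, .ofNat 0, .ofNat 0, .ofNat 0, .ofNat 0, .ofNat 0, .ofNat 0, .ofNat 0, .ofNat 0, .ofNat 0, .ofNat 0, .ofNat 0, .ofNat 0, .ofNat 0, .ofNat 127264598018836489925126981680246030336,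 .ofNat 0⟩)
    (by decide +kernel)
theorem L01516 : Good (Phi V5.P V5.D 1 (-1)) ⟨2, 0, 2, 2, 2, 0, 2, 3, 4, 4⟩ :=
  leafYS_sound T5.ok_pm T5.Ypm.bz_eq (w := 198) (c := ⟨⟨.negSucc 953, .negSucc 112, .ofNat 44, .negSucc 77, .ofNat 224, .negSucc 25⟩, ⟨.ofNat 483, .ofNat 78, .ofNat 210, .ofNat 46, .negSucc 133, .ofNat 18⟩, ⟨.ofNat 734, .ofNat 146, .negSucc 11, .ofNat 317, .negSucc 539, .ofNat 10⟩, ⟨.negSucc 2886, .negSucc 137, .ofNat 131, .negSucc 335, .ofNat 683, .negSucc 54⟩, ⟨.negSucc 8, .negSucc 53, .ofNat 33, .negSucc 168, .ofNat 45, .ofNat 36⟩, .ofNat 910, .ofNat 724, .ofNat 0, .ofNat 724, .ofNat 1578, .ofNat 0, .ofNat 128, .negSucc 130, .negSucc 54, .ofNat 0, .ofNat 131, .ofNat 29, .ofNat 0, .ofNat 0, .ofNat 342, .ofNat 1189, .ofNat 0, .ofNat 0, .ofNat 26640561788236197268346562936832000, .ofNat 0, .ofNat 0, .ofNat 367713275722633090568330448385005846528, .ofNat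 0, .ofNat 0, .ofNat 0, .ofNat 327981667568921527120986265583064449024, .ofNat 4836741307530970274653451874388148224, .ofNat 0, .ofNat 0, .ofNat 63707709336765588546102180904578318336, .ofNat 3215116299435160973625679132330295296, .ofNat 0⟩)
    (by decide +kernel)
theorem L01517 : Good (Phi V5.P V5.D 1 (-1)) ⟨2, 0, 2, 2, 3, 0, 2, 3, 4, 5⟩ :=
  leafYS_sound T5.ok_pm T5.Ypm.bz_eq (w := 212) (c := ⟨⟨.negSucc 922, .negSucc 110, .negSucc 3, .negSucc 46, .ofNat 141, .negSucc 13⟩, ⟨.ofNat 472, .ofNat 68, .ofNat 233, .ofNat 23, .negSucc 78, .ofNat 8⟩, ⟨.ofNat 707, .ofNat 118, .ofNat 23, .ofNat 175, .negSucc 520, .negSucc 32⟩, ⟨.negSucc 2816, .negSucc 108, .ofNat 24, .negSucc 143, .ofNat 439, .negSucc 42⟩, ⟨.negSucc 37, .negSucc 17, .ofNat 63, .negSucc 19, .ofNat 32, .ofNat 19⟩, .ofNat 1210, .ofNat 1137, .ofNat 0, .ofNat 1137, .ofNat 2287, .ofNat 0, .ofNat 128, .negSucc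 150, .negSucc 35, .ofNat 0, .ofNat 136, .ofNat 19, .ofNat 0, .ofNat 0, .ofNat 274, .ofNat 2216, .ofNat 0, .ofNat 0, .ofNat 0, .ofNat 0, .ofNat 0, .ofNat 0, .ofNat 0, .ofNat 0, .ofNat 0, .ofNat 0, .ofNat 144509903266231206348419548559893126447104, .ofNat 0, .ofNat 0, .ofNat 0, .ofNat 9536171956140298167338813007860582055936, .ofNat 0⟩)
    (by decide +kernel)
theorem L01518 : Good (Phi V5.P V5.D 1 (-1)) ⟨2, 0, 2, 2, 3, 1, 2, 3, 4, 5⟩ :=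
  leafYS_sound T5.ok_pm T5.Ypm.bz_eq (w := 212) (c := ⟨⟨.negSucc 945, .negSucc 111, .negSucc 29, .negSucc 53, .ofNat 29, .ofNat 0⟩, ⟨.ofNat 470, .ofNat 67, .ofNat 274, .ofNat 31, .negSucc 7, .ofNat 7⟩, ⟨.ofNat 803, .ofNat 129, .ofNat 106, .ofNat 241, .negSucc 361, .negSucc 17⟩, ⟨.negSucc 2895, .negSucc 116, .negSucc 68, .negSucc 195, .ofNat 128, .negSucc 11⟩, ⟨.negSucc 68, .negSucc 58, .ofNat 74, .negSucc 55, .ofNat 79, .ofNat 7⟩, .ofNat 898, .ofNat 707, .ofNat 0, .ofNat 707, .ofNat 1558, .ofNat 0, .ofNat 170, .negSucc 126, .negSucc 33, .ofNat 0, .ofNat 128, .ofNat 17, .ofNat 0, .ofNat 0, .ofNat 300, .ofNat 2126, .ofNat 0, .ofNat 0, .ofNat 3729852218221778752404854040897215528960, .ofNat 0, .ofNat 0, .ofNat 3643116294488986357398586671553551475408896, .ofNat 0, .ofNat 0, .ofNat 0, .ofNat 2102871118559539539532606268249410528870400, .ofNat 38038560476560540256221891076932591681536,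 .ofNat 0, .ofNat 0, .ofNat 249721493657755294435063907527041262551040, .ofNat 18549504280827987754573309406924718997504, .ofNat 0⟩)
    (by decide +kernel)
theorem L01519 : Good (Phi V5.P V5.D 1 (-1)) ⟨3, 0, 2, 2, 2, 1, 3, 6, 4, 4⟩ :=
  leafYS_sound T5.ok_pm T5.Ypm.bz_eq (w := 207) (c := ⟨⟨.negSucc 983, .negSucc 52, .negSucc 12, .negSucc 141, .ofNat 0, .negSucc 0⟩, ⟨.ofNat 476, .ofNat 53, .ofNat 289, .ofNat 79, .ofNat 4, .ofNat 1⟩, ⟨.ofNat 813, .ofNat 121, .ofNat 113, .ofNat 384, .negSucc 21, .ofNat 101⟩, ⟨.negSucc 3051, .negSucc 114, .negSucc 85, .negSucc 493, .ofNat 32, .ofNat 18⟩, ⟨.negSucc 178, .negSucc 26, .negSucc 5, .negSucc 122, .ofNat 57, .ofNat 33⟩, .ofNat 884, .ofNat 670, .ofNat 0, .ofNat 670, .ofNat 1516, .ofNat 0, .ofNat 128, .negSucc 155, .negSucc 98, .ofNat 0, .ofNat 158, .ofNat 49, .ofNat 0, .ofNat 0, .ofNat 824, .ofNat 3422, .ofNat 0, .ofNat 0,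 .ofNat 0, .ofNat 0, .ofNat 0, .ofNat 13009423525248743083952120727579576500224, .ofNat 0, .ofNat 0, .ofNat 0, .ofNat 0, .ofNat 0, .ofNat 0, .ofNat 0, .ofNat 60538531618647991980268806533317478318080, .ofNat 77515121195451801471749002352578789376, .ofNat 0⟩)
    (by decide +kernel)
theorem L01520 : Good (Phi V5.P V5.D 1 (-1)) ⟨3, 0, 2, 2, 2, 1, 3, 6, 4, 5⟩ :=
  leafYS_sound T5.ok_pm T5.Ypm.bz_eq (w := 207) (c := ⟨⟨.negSucc 982, .negSucc 51, .ofNat 3, .negSucc 111, .negSucc 28, .ofNat 18⟩, ⟨.ofNat 480, .ofNat 50, .ofNat 279, .ofNat 59, .ofNat 18, .negSucc 9⟩, ⟨.ofNat 845, .ofNat 92, .ofNat 147, .ofNat 575, .negSucc 44, .ofNat 134⟩, ⟨.negSucc 3025, .negSucc 118, .negSucc 51, .negSucc 422, .negSucc 43, .ofNat 64⟩, ⟨.negSucc 121, .negSucc 53, .negSucc 29, .negSucc 153, .ofNat 68, .ofNat 11⟩, .ofNat 874, .ofNat 655, .ofNat 0, .ofNat 655, .ofNat 1497, .ofNat 0, .ofNat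 128, .negSucc 127, .negSucc 74, .ofNat 0, .ofNat 133, .ofNat 29, .ofNat 0, .ofNat 0, .ofNat 1186, .ofNat 2860, .ofNat 0, .ofNat 0, .ofNat 2146706411330651382228315567707652096, .ofNat 0, .ofNat 0, .ofNat 0, .ofNat 0, .ofNat 0, .ofNat 0, .ofNat 24195696453288194632569120068555608424448, .ofNat 27547840898878903607529793896105115648, .ofNat 0, .ofNat 0, .ofNat 152473679402709805776771273346612520288256, .ofNat 231728711181281422072870984657567481856, .ofNat 0⟩)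
    (by decide +kernel)
theorem L01521 : Good (Phi V5.P V5.D 1 (-1)) ⟨3, 1, 2, 2, 2, 1, 3, 6, 3, 2⟩ :=
  leafYS_sound T5.ok_pm T5.Ypm.bz_eq (w := 199) (c := ⟨⟨.negSucc 1039, .negSucc 103, .ofNat 12, .negSucc 119, .negSucc 31, .ofNat 19⟩, ⟨.ofNat 526, .ofNat 40, .ofNat 289, .ofNat 69, .ofNat 20, .negSucc 9⟩, ⟨.ofNat 903, .ofNat 63, .ofNat 167, .ofNat 607, .negSucc 25, .ofNat 207⟩, ⟨.negSucc 3144, .negSucc 115, .negSucc 40, .negSucc 481, .negSucc 81, .ofNat 78⟩, ⟨.negSucc 172, .negSucc 44, .negSucc 15, .negSucc 223, .ofNat 17, .ofNat 51⟩, .ofNat 933, .ofNat 772, .ofNat 0, .ofNat 772, .ofNat 1632, .ofNat 0, .ofNat 128, .negSucc 136, .negSucc 53, .ofNat 0, .ofNat 130, .ofNat 27, .ofNat 0, .ofNat 0, .ofNat 579, .ofNat 421, .ofNat 0, .ofNat 0, .ofNat 9788130640248725837744434766151680, .ofNat 0, .ofNat 0, .ofNat 0, .ofNat 0, .ofNat 0, .ofNat 0, .ofNat 0, .ofNat 0, .ofNat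 0, .ofNat 0, .ofNat 3911288708901012176486650005839916564480, .ofNat 1178013587557980486982066054000279552, .ofNat 0⟩)
    (by decide +kernel)
theorem L01522 : Good (Phi V5.P V5.D 1 (-1)) ⟨2, 0, 2, 2, 4, 4, 3, 7, 3, 2⟩ :=
  leafYS_sound T5.ok_pm T5.Ypm.bz_eq (w := 225) (c := ⟨⟨.negSucc 929, .negSucc 172, .ofNat 21, .negSucc 38, .negSucc 32, .negSucc 60⟩, ⟨.ofNat 451, .ofNat 102, .ofNat 264, .ofNat 25, .ofNat 30, .ofNat 45⟩, ⟨.ofNat 761, .ofNat 222, .ofNat 134, .ofNat 149, .negSucc 130, .ofNat 70⟩, ⟨.negSucc 2867, .negSucc 318, .ofNat 19, .negSucc 142, .negSucc 51, .negSucc 147⟩, ⟨.negSucc 120, .negSucc 120, .negSucc 3, .negSucc 28, .ofNat 104, .ofNat 94⟩, .ofNat 897, .ofNat 706, .ofNat 0, .ofNat 706, .ofNat 1557, .ofNat 0, .ofNat 128, .negSucc 127, .negSucc 33, .ofNat 0, .ofNat 128, .ofNat 16, .ofNat 0, .ofNat 0, .ofNat 267, .ofNat 1522, .ofNat 0, .ofNat 29779187948489408164813499724384045516193792,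 .ofNat 38207803241525354111412564580484965115887616, .ofNat 0, .ofNat 0, .ofNat 3581579432446419262480123478606154461494640640, .ofNat 0, .ofNat 0, .ofNat 0, .ofNat 3455194616519252148456000545732879126462726144, .ofNat 718812489596013068896963268563522772931706880, .ofNat 0, .ofNat 0, .ofNat 657928618943434657970870424877038327224598528, .ofNat 316669605798041517475827321286552085094989824, .ofNat 0⟩)
    (by decide +kernel)
theorem L01523 : Good (Phi V5.P V5.D 1 (-1)) ⟨2, 0, 2, 2, 4, 5, 3, 7, 3, 2⟩ :=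
  leafYS_sound T5.ok_pm T5.Ypm.bz_eq (w := 224) (c := ⟨⟨.negSucc 970, .negSucc 180, .ofNat 8, .negSucc 47, .negSucc 89, .negSucc 43⟩, ⟨.ofNat 480, .ofNat 106, .ofNat 284, .ofNat 27, .ofNat 48, .ofNat 27⟩, ⟨.ofNat 812, .ofNat 275, .ofNat 156, .ofNat 189, .negSucc 23, .ofNat 163⟩, ⟨.negSucc 3013, .negSucc 377, .negSucc 23, .negSucc 165, .negSucc 180, .negSucc 82⟩, ⟨.negSucc 109, .negSucc 185, .negSucc 16, .negSucc 36, .ofNat 103, .ofNat 69⟩, .ofNat 894, .ofNat 700, .ofNat 0, .ofNat 700, .ofNat 1549, .ofNat 0, .ofNat 128, .negSucc 133, .negSucc 30, .ofNat 0, .ofNat 134, .ofNat 14, .ofNat 0, .ofNat 0, .ofNat 283, .ofNat 1011, .ofNat 0, .ofNat 36584036496211579967603680639516272534487040, .ofNat 29966516347032112233071501623368691314851840, .ofNat 0, .ofNat 0, .ofNat 0, .ofNat 0, .ofNat 0, .ofNat 0, .ofNat 3401579735743901165125288901801035894970384384, .ofNat 0, .ofNat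 0, .ofNat 0, .ofNat 927747313454846505909002446277122700819300352, .ofNat 304600692892037349644380398036201655511285760, .ofNat 0⟩)
    (by decide +kernel)
theorem L01524 : Good (Phi V5.P V5.D 1 (-1)) ⟨2, 0, 2, 2, 3, 3, 3, 7, 3, 2⟩ :=
  leafYS_sound T5.ok_pm T5.Ypm.bz_eq (w := 210) (c := ⟨⟨.negSucc 1048, .negSucc 170, .negSucc 9, .negSucc 104, .negSucc 94, .negSucc 6⟩, ⟨.ofNat 513, .ofNat 109, .ofNat 305, .ofNat 64, .ofNat 44, .ofNat 10⟩, ⟨.ofNat 929, .ofNat 300, .ofNat 188, .ofNat 338, .ofNat 66, .ofNat 242⟩, ⟨.negSucc 3223, .negSucc 377, .negSucc 89, .negSucc 371, .negSucc 183, .negSucc 13⟩, ⟨.negSucc 133, .negSucc 196, .negSucc 43, .negSucc 70, .ofNat 93, .ofNat 55⟩, .ofNat 460, .ofNat 200, .ofNat 0, .ofNat 200, .ofNat 650, .ofNat 0, .ofNat 388, .negSucc 83, .negSucc 75, .ofNat 0, .ofNat 128, .ofNat 16, .ofNat 0, .ofNat 0, .ofNat 617, .ofNat 580, .ofNat 0, .ofNat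 20345639105814064355196518255234973171712, .ofNat 616078396403686014945383522245476876288, .ofNat 0, .ofNat 0, .ofNat 0, .ofNat 0, .ofNat 0, .ofNat 0, .ofNat 515845459928695621679610929930557546561536, .ofNat 0, .ofNat 0, .ofNat 0, .ofNat 3167445991356305130758382063931137437204480, .ofNat 0, .ofNat 0⟩)
    (by decide +kernel)
theorem L01525 : Good (Phi V5.P V5.D 1 (-1)) ⟨2, 0, 2, 2, 2, 0, 2, 2, 3, 3⟩ :=
  leafYS_sound T5.ok_pm T5.Ypm.bz_eq (w := 196) (c := ⟨⟨.negSucc 985, .negSucc 107, .ofNat 1, .negSucc 35, .ofNat 41, .ofNat 77⟩, ⟨.ofNat 503, .ofNat 58, .ofNat 254, .ofNat 17, .negSucc 22, .negSucc 38⟩, ⟨.ofNat 951, .ofNat 108, .ofNat 66, .ofNat 363, .negSucc 294, .negSucc 20⟩, ⟨.negSucc 3002, .negSucc 58, .negSucc 16, .negSucc 191, .ofNat 140, .ofNat 224⟩, ⟨.negSucc 14, .negSucc 12, .ofNat 2, .negSucc 147, .ofNat 28, .ofNat 27⟩, .ofNat 463, .ofNat 207, .ofNat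 0, .ofNat 207, .ofNat 653, .ofNat 0, .ofNat 342, .negSucc 79, .negSucc 86, .ofNat 0, .ofNat 128, .ofNat 33, .ofNat 0, .ofNat 0, .ofNat 1030, .ofNat 19128, .ofNat 0, .ofNat 0, .ofNat 0, .ofNat 0, .ofNat 0, .ofNat 0, .ofNat 0, .ofNat 0, .ofNat 1145836855524888085755937540307798720512, .ofNat 0, .ofNat 434336987817117291812018752021594112, .ofNat 0, .ofNat 7714525839444009734934257587949987168256, .ofNat 0, .ofNat 1189129970436708225614795107809099776, .ofNat 0⟩)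
    (by decide +kernel)
theorem L01526 : Good (Phi V5.P V5.D 1 (-1)) ⟨2, 0, 2, 2, 2, 0, 3, 6, 4, 6⟩ :=
  leafYS_sound T5.ok_pm T5.Ypm.bz_eq (w := 204) (c := ⟨⟨.negSucc 884, .negSucc 134, .ofNat 1, .negSucc 75, .negSucc 5, .negSucc 18⟩, ⟨.ofNat 450, .ofNat 76, .ofNat 251, .ofNat 42, .ofNat 0, .ofNat 6⟩, ⟨.ofNat 572, .ofNat 157, .ofNat 63, .ofNat 449, .negSucc 175, .ofNat 20⟩, ⟨.negSucc 2711, .negSucc 149, .negSucc 14, .negSucc 289, .ofNat 19, .negSucc 22⟩, ⟨.ofNat 4, .negSucc 34, .ofNat 0, .negSucc 106, .ofNat 29, .ofNat 11⟩, .ofNat 461, .ofNat 203, .ofNat 0, .ofNat 203, .ofNat 652, .ofNat 0, .ofNat 200, .negSucc 78, .negSucc 60, .ofNat 0, .ofNat 128, .ofNat 21, .ofNat 0, .ofNat 0, .ofNat 585, .ofNat 10384, .ofNat 0, .ofNat 0, .ofNat 24679889437465850720779250984575565824, .ofNat 0, .ofNat 0, .ofNat 0, .ofNat 82236913684056113777368992684911362048, .ofNat 0, .ofNat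 0, .ofNat 0, .ofNat 0, .ofNat 0, .ofNat 0, .ofNat 0, .ofNat 172475468008102072096343181606007078912, .ofNat 0⟩)
    (by decide +kernel)
theorem L01527 : Good (Phi V5.P V5.D 1 (-1)) ⟨3, 0, 2, 2, 2, 0, 4, 14, 4, 6⟩ :=
  leafYS_sound T5.ok_pm T5.Ypm.bz_eq (w := 213) (c := ⟨⟨.negSucc 860, .negSucc 55, .negSucc 27, .negSucc 129, .negSucc 0, .negSucc 12⟩, ⟨.ofNat 424, .ofNat 50, .ofNat 260, .ofNat 74, .ofNat 4, .ofNat 9⟩, ⟨.ofNat 383, .ofNat 58, .ofNat 95, .ofNat 487, .negSucc 103, .negSucc 30⟩, ⟨.negSucc 2607, .negSucc 112, .negSucc 60, .negSucc 396, .ofNat 18, .negSucc 17⟩, ⟨.negSucc 11, .negSucc 29, .ofNat 36, .negSucc 24, .ofNat 37, .ofNat 29⟩, .ofNat 1187, .ofNat 1085, .ofNat 0, .ofNat 1085, .ofNat 2214, .ofNat 0, .ofNat 128, .negSucc 189, .negSucc 55, .ofNat 0, .ofNat 176, .ofNat 27, .ofNat 0, .ofNat 0, .ofNat 564, .ofNat 12299, .ofNat 0, .ofNat 0, .ofNat 210378986615269699032010421318035963904,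 .ofNat 0, .ofNat 0, .ofNat 0, .ofNat 0, .ofNat 0, .ofNat 0, .ofNat 0, .ofNat 2473639838722303988819938440033010188288, .ofNat 0, .ofNat 0, .ofNat 0, .ofNat 1544150413429692531537783050242027945984, .ofNat 0⟩)
    (by decide +kernel)
theorem L01528 : Good (Phi V5.P V5.D 1 (-1)) ⟨3, 0, 2, 2, 2, 0, 4, 15, 5, 12⟩ :=
  leafYS_sound T5.ok_pm T5.Ypm.bz_eq (w := 217) (c := ⟨⟨.negSucc 821, .negSucc 59, .negSucc 14, .negSucc 186, .ofNat 10, .negSucc 22⟩, ⟨.ofNat 404, .ofNat 54, .ofNat 243, .ofNat 111, .negSucc 2, .ofNat 13⟩, ⟨.ofNat 257, .ofNat 63, .ofNat 74, .ofNat 508, .negSucc 122, .negSucc 6⟩, ⟨.negSucc 2489, .negSucc 119, .negSucc 34, .negSucc 515, .ofNat 44, .negSucc 53⟩, ⟨.negSucc 10, .negSucc 15, .negSucc 2, .ofNat 65, .ofNat 35, .ofNat 21⟩, .ofNat 1566, .ofNat 1641, .ofNat 0, .ofNat 1641, .ofNat 3109, .ofNat 0, .ofNat 128, .negSucc 229, .negSucc 76, .ofNat 0, .ofNat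 196, .ofNat 40, .ofNat 0, .ofNat 0, .ofNat 593, .ofNat 7618, .ofNat 0, .ofNat 107292274391721999114603036027298699542528, .ofNat 2788642363845050562518337647001072566272, .ofNat 0, .ofNat 0, .ofNat 2886445397683970016787041746819096445452288, .ofNat 0, .ofNat 0, .ofNat 0, .ofNat 4772973449185083548808087270386802853150720, .ofNat 54582164049407667604165611563512632442880, .ofNat 0, .ofNat 0, .ofNat 2538500731698652717804904760159451702362112, .ofNat 25521896425830431530126434526369146732544, .ofNat 0⟩)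
    (by decide +kernel)
theorem L01529 : Good (Phi V5.P V5.D 1 (-1)) ⟨3, 0, 2, 2, 2, 0, 4, 15, 5, 13⟩ :=
  leafYS_sound T5.ok_pm T5.Ypm.bz_eq (w := 217) (c := ⟨⟨.negSucc 844, .negSucc 57, .negSucc 20, .negSucc 177, .negSucc 8, .negSucc 14⟩, ⟨.ofNat 413, .ofNat 53, .ofNat 254, .ofNat 110, .ofNat 8, .ofNat 9⟩, ⟨.ofNat 249, .ofNat 57, .ofNat 88, .ofNat 517, .negSucc 98, .negSucc 14⟩, ⟨.negSucc 2551, .negSucc 114, .negSucc 49, .negSucc 507, .ofNat 6, .negSucc 30⟩, ⟨.ofNat 8, .negSucc 24, .negSucc 6, .ofNat 40, .ofNat 57, .ofNat 22⟩, .ofNat 464, .ofNat 199, .ofNat 0, .ofNat 199, .ofNat 648, .ofNat 0, .ofNat 163, .negSucc 76, .negSucc 85, .ofNat 0, .ofNat 128, .ofNat 24, .ofNat 0, .ofNat 0, .ofNat 568, .ofNat 6639, .ofNat 0, .ofNat 173431682239240326902386265192811215192064, .ofNat 3127577680296011323203236357669002412032, .ofNat 0, .ofNat 0, .ofNat 2383994571706033594877526502793294672560128,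 .ofNat 0, .ofNat 0, .ofNat 0, .ofNat 1638586704541852019026789816995087833366528, .ofNat 6529098025697086937817680633976984698880, .ofNat 0, .ofNat 0, .ofNat 2505825401610164727257675026787306454384640, .ofNat 0, .ofNat 0⟩)
    (by decide +kernel)
theorem L01530 : Good (Phi V5.P V5.D 1 (-1)) ⟨3, 1, 2, 2, 2, 0, 4, 14, 4, 6⟩ :=
  leafYS_sound T5.ok_pm T5.Ypm.bz_eq (w := 212) (c := ⟨⟨.negSucc 888, .negSucc 93, .negSucc 2, .negSucc 174, .negSucc 15, .negSucc 2⟩, ⟨.ofNat 454, .ofNat 39, .ofNat 251, .ofNat 104, .ofNat 10, .ofNat 3⟩, ⟨.ofNat 405, .ofNat 120, .ofNat 67, .ofNat 538, .negSucc 92, .negSucc 47⟩, ⟨.negSucc 2619, .negSucc 115, .negSucc 4, .negSucc 537, .negSucc 21, .ofNat 0⟩, ⟨.negSucc 1, .negSucc 44, .ofNat 5, .negSucc 60, .ofNat 42, .ofNat 23⟩, .ofNat 906, .ofNat 734, .ofNat 0, .ofNat 734, .ofNat 1594, .ofNat 0, .ofNat 159, .negSucc 127, .negSucc 45, .ofNat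 0, .ofNat 126, .ofNat 22, .ofNat 0, .ofNat 0, .ofNat 430, .ofNat 6092, .ofNat 0, .ofNat 0, .ofNat 124194092175832126456119293890969731072, .ofNat 0, .ofNat 0, .ofNat 0, .ofNat 0, .ofNat 0, .ofNat 0, .ofNat 0, .ofNat 0, .ofNat 0, .ofNat 0, .ofNat 0, .ofNat 784382571790286025361003399138726903808, .ofNat 0⟩)
    (by decide +kernel)
theorem L01531 : Good (Phi V5.P V5.D 1 (-1)) ⟨3, 1, 2, 2, 2, 0, 4, 15, 4, 6⟩ :=
  leafYS_sound T5.ok_pm T5.Ypm.bz_eq (w := 211) (c := ⟨⟨.negSucc 827, .negSucc 121, .negSucc 9, .negSucc 247, .negSucc 20, .negSucc 45⟩, ⟨.ofNat 417, .ofNat 49, .ofNat 260, .ofNat 152, .ofNat 11, .ofNat 30⟩, ⟨.ofNat 269, .ofNat 117, .ofNat 89, .ofNat 579, .negSucc 106, .negSucc 25⟩, ⟨.negSucc 2469, .negSucc 168, .negSucc 24, .negSucc 712, .negSucc 19, .negSucc 100⟩, ⟨.negSucc 9, .negSucc 30, .negSucc 0, .negSucc 11, .ofNat 57, .ofNat 47⟩, .ofNat 901, .ofNat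 729, .ofNat 0, .ofNat 729, .ofNat 1590, .ofNat 0, .ofNat 128, .negSucc 132, .negSucc 62, .ofNat 0, .ofNat 131, .ofNat 29, .ofNat 0, .ofNat 0, .ofNat 455, .ofNat 4088, .ofNat 0, .ofNat 19328309835452823394397141827387052261376, .ofNat 7703595577875679766800127576787386368, .ofNat 0, .ofNat 0, .ofNat 172990136014557772667162533395799130243072, .ofNat 0, .ofNat 0, .ofNat 0, .ofNat 206585164474391388210873334681618654167040, .ofNat 0, .ofNat 0, .ofNat 0, .ofNat 181385090990992580073809169005366533423104, .ofNat 0, .ofNat 0⟩)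
    (by decide +kernel)
theorem L01532 : Good (Phi V5.P V5.D 1 (-1)) ⟨2, 0, 2, 2, 2, 0, 3, 6, 4, 7⟩ :=
  leafYS_sound T5.ok_pm T5.Ypm.bz_eq (w := 205) (c := ⟨⟨.negSucc 864, .negSucc 141, .ofNat 1, .negSucc 90, .negSucc 29, .ofNat 26⟩, ⟨.ofNat 441, .ofNat 69, .ofNat 258, .ofNat 48, .ofNat 16, .negSucc 11⟩, ⟨.ofNat 525, .ofNat 141, .ofNat 102, .ofNat 509, .negSucc 185, .negSucc 45⟩, ⟨.negSucc 2659, .negSucc 166, .negSucc 22, .negSucc 311, .negSucc 31, .ofNat 72⟩, ⟨.ofNat 8, .negSucc 60, .negSucc 6, .negSucc 96, .ofNat 65, .ofNat 28⟩, .ofNat 896, .ofNat 707, .ofNat 0, .ofNat 707, .ofNat 1558, .ofNat 0, .ofNat 128, .negSucc 131, .negSucc 26, .ofNat 0, .ofNat 133, .ofNat 11, .ofNat 0, .ofNat 0, .ofNat 416, .ofNat 14149, .ofNat 0, .ofNat 0, .ofNat 0, .ofNat 0, .ofNat 0, .ofNat 0, .ofNat 0, .ofNat 0, .ofNat 0, .ofNat 0, .ofNat 0, .ofNat 0, .ofNat 65750434325260899832738953441459283427328,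 .ofNat 0, .ofNat 185757807318886714585163579784108703744, .ofNat 0⟩)
    (by decide +kernel)
theorem L01533 : Good (Phi V5.P V5.D 1 (-1)) ⟨2, 0, 2, 2, 2, 0, 4, 14, 4, 7⟩ :=
  leafYS_sound T5.ok_pm T5.Ypm.bz_eq (w := 209) (c := ⟨⟨.negSucc 830, .negSucc 159, .negSucc 22, .negSucc 136, .negSucc 39, .negSucc 22⟩, ⟨.ofNat 414, .ofNat 84, .ofNat 270, .ofNat 85, .ofNat 25, .ofNat 13⟩, ⟨.ofNat 321, .ofNat 174, .ofNat 103, .ofNat 498, .negSucc 94, .negSucc 68⟩, ⟨.negSucc 2544, .negSucc 220, .negSucc 69, .negSucc 429, .negSucc 76, .negSucc 42⟩, ⟨.ofNat 22, .negSucc 64, .negSucc 9, .negSucc 26, .ofNat 55, .ofNat 31⟩, .ofNat 461, .ofNat 203, .ofNat 0, .ofNat 203, .ofNat 652, .ofNat 0, .ofNat 186, .negSucc 78, .negSucc 48, .ofNat 0, .ofNat 128, .ofNat 12, .ofNat 0, .ofNat 0, .ofNat 464, .ofNat 10405, .ofNat 0, .ofNat 1916703068377983403068481459873348845568, .ofNat 623073369449659179413843386817994293248,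 .ofNat 0, .ofNat 0, .ofNat 0, .ofNat 0, .ofNat 0, .ofNat 0, .ofNat 0, .ofNat 3649405990973823126973819231362105737216, .ofNat 0, .ofNat 101318807911525730054159003708280956518400, .ofNat 0, .ofNat 1544103155851070916974149109911023255552, .ofNat 0⟩)
    (by decide +kernel)
theorem L01534 : Good (Phi V5.P V5.D 1 (-1)) ⟨2, 0, 2, 2, 2, 0, 4, 15, 4, 7⟩ :=
  leafYS_sound T5.ok_pm T5.Ypm.bz_eq (w := 208) (c := ⟨⟨.negSucc 826, .negSucc 183, .negSucc 18, .negSucc 199, .negSucc 37, .negSucc 17⟩, ⟨.ofNat 407, .ofNat 102, .ofNat 264, .ofNat 121, .ofNat 32, .ofNat 16⟩, ⟨.ofNat 219, .ofNat 171, .ofNat 90, .ofNat 492, .negSucc 70, .negSucc 22⟩, ⟨.negSucc 2507, .negSucc 312, .negSucc 37, .negSucc 542, .negSucc 95, .negSucc 61⟩, ⟨.ofNat 58, .negSucc 97, .ofNat 3, .ofNat 36, .ofNat 50, .ofNat 12⟩, .ofNat 897, .ofNat 704, .ofNat 0, .ofNat 704, .ofNat 1556, .ofNat 0, .ofNat 203,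 .negSucc 125, .negSucc 59, .ofNat 0, .ofNat 128, .ofNat 27, .ofNat 0, .ofNat 0, .ofNat 522, .ofNat 6557, .ofNat 0, .ofNat 2438056101259945274338901837284531765248, .ofNat 571080871780027253970447813803581112320, .ofNat 0, .ofNat 0, .ofNat 0, .ofNat 0, .ofNat 0, .ofNat 0, .ofNat 16062701951750389052241282481799141785600, .ofNat 2683508161834694598429624383249760387072, .ofNat 0, .ofNat 0, .ofNat 20603077267558945256717284172086449799168, .ofNat 0, .ofNat 0⟩)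
    (by decide +kernel)
theorem L01535 : Good (Phi V5.P V5.D 1 (-1)) ⟨2, 0, 2, 2, 3, 2, 2, 2, 4, 6⟩ :=
  leafYS_sound T5.ok_pm T5.Ypm.bz_eq (w := 215) (c := ⟨⟨.negSucc 989, .negSucc 130, .ofNat 13, .negSucc 22, .negSucc 3, .ofNat 41⟩, ⟨.ofNat 492, .ofNat 74, .ofNat 269, .ofNat 12, .ofNat 2, .negSucc 22⟩, ⟨.ofNat 1062, .ofNat 191, .ofNat 139, .ofNat 268, .negSucc 92, .ofNat 170⟩, ⟨.negSucc 3086, .negSucc 146, .negSucc 22, .negSucc 122, .ofNat 24, .ofNat 116⟩, ⟨.negSucc 152, .negSucc 52, .negSucc 0, .negSucc 89, .ofNat 38, .ofNat 3⟩, .ofNat 463, .ofNat 204, .ofNat 0, .ofNat 204, .ofNat 652, .ofNat 0, .ofNat 385, .negSucc 80, .negSucc 92, .ofNat 0, .ofNat 128, .ofNat 25, .ofNat 0, .ofNat 0, .ofNat 1560, .ofNat 19186, .ofNat 0, .ofNat 0, .ofNat 10996730959327319734588722227224317526016, .ofNat 0, .ofNat 0, .ofNat 0, .ofNat 0, .ofNat 0, .ofNat 0, .ofNat 0, .ofNat 0,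 .ofNat 0, .ofNat 0, .ofNat 0, .ofNat 3248184396571297828738985809296231606779904, .ofNat 0⟩)
    (by decide +kernel)
theorem L01536 : Good (Phi V5.P V5.D 1 (-1)) ⟨2, 0, 2, 2, 3, 2, 2, 2, 4, 7⟩ :=
  leafYS_sound T5.ok_pm T5.Ypm.bz_eq (w := 217) (c := ⟨⟨.negSucc 919, .negSucc 139, .ofNat 27, .negSucc 20, .negSucc 38, .ofNat 44⟩, ⟨.ofNat 431, .ofNat 74, .ofNat 265, .ofNat 15, .ofNat 46, .negSucc 32⟩, ⟨.ofNat 1071, .ofNat 189, .ofNat 318, .ofNat 535, .negSucc 179, .ofNat 409⟩, ⟨.negSucc 2770, .negSucc 174, .negSucc 29, .negSucc 154, .negSucc 160, .ofNat 102⟩, ⟨.negSucc 88, .negSucc 70, .negSucc 36, .negSucc 133, .ofNat 29, .negSucc 51⟩, .ofNat 461, .ofNat 204, .ofNat 0, .ofNat 204, .ofNat 652, .ofNat 0, .ofNat 284, .negSucc 80, .negSucc 62, .ofNat 0, .ofNat 128, .negSucc 10, .ofNat 0, .ofNat 0, .ofNat 1955, .ofNat 41519, .ofNat 24460611718150636508848469293362980312842240,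 .ofNat 0, .ofNat 152072949801606764642569933930239216320512, .ofNat 0, .ofNat 398664732083771330774951547140593034561847296, .ofNat 0, .ofNat 0, .ofNat 0, .ofNat 118396637289673957714930204505882711300243456, .ofNat 0, .ofNat 124598923139640399652649629482883596943360, .ofNat 0, .ofNat 1902514881267289765447859124146874048535592960, .ofNat 0, .ofNat 1970293690572157120975984831628199430455296, .ofNat 0⟩)
    (by decide +kernel)
theorem L01537 : Good (Phi V5.P V5.D 1 (-1)) ⟨3, 0, 3, 4, 3, 2, 3, 6, 5, 12⟩ :=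
  leafYS_sound T5.ok_pm T5.Ypm.bz_eq (w := 231) (c := ⟨⟨.negSucc 971, .negSucc 52, .ofNat 2, .negSucc 52, .negSucc 33, .ofNat 9⟩, ⟨.ofNat 476, .ofNat 49, .ofNat 132, .ofNat 27, .ofNat 24, .negSucc 3⟩, ⟨.ofNat 940, .ofNat 82, .ofNat 93, .ofNat 351, .negSucc 104, .ofNat 31⟩, ⟨.negSucc 2982, .negSucc 110, .negSucc 10, .negSucc 191, .negSucc 65, .ofNat 28⟩, ⟨.negSucc 120, .negSucc 31, .negSucc 5, .negSucc 62, .ofNat 69, .ofNat 10⟩, .ofNat 1519, .ofNat 1573, .ofNat 0, .ofNat 1573, .ofNat 3023, .ofNat 0, .ofNat 132, .negSucc 127, .negSucc 32, .ofNat 0, .ofNat 109, .ofNat 15, .ofNat 0, .ofNat 0, .ofNat 686, .ofNat 11053, .ofNat 0, .ofNat 122086432570012399234595481760167345346576384, .ofNat 11347098709063491019528700460276713483403264, .ofNat 0, .ofNat 0, .ofNat 0, .ofNat 0, .ofNat 0, .ofNat 0, .ofNat 0, .ofNat 0, .ofNat 0, .ofNat 0, .ofNat 13797299571109005474143417579066324555847958528,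 .ofNat 0, .ofNat 0⟩)
    (by decide +kernel)
theorem L01538 : Good (Phi V5.P V5.D 1 (-1)) ⟨3, 0, 3, 4, 3, 2, 4, 12, 5, 13⟩ :=
  leafYS_sound T5.ok_pm T5.Ypm.bz_eq (w := 236) (c := ⟨⟨.negSucc 966, .negSucc 47, .ofNat 3, .negSucc 39, .negSucc 16, .ofNat 17⟩, ⟨.ofNat 476, .ofNat 47, .ofNat 131, .ofNat 19, .ofNat 11, .negSucc 8⟩, ⟨.ofNat 949, .ofNat 86, .ofNat 104, .ofNat 415, .negSucc 50, .ofNat 59⟩, ⟨.negSucc 2954, .negSucc 105, .negSucc 15, .negSucc 170, .negSucc 34, .ofNat 52⟩, ⟨.negSucc 91, .negSucc 40, .negSucc 8, .negSucc 93, .ofNat 25, .ofNat 6⟩, .ofNat 877, .ofNat 659, .ofNat 0, .ofNat 659, .ofNat 1503, .ofNat 0, .ofNat 204, .negSucc 121, .negSucc 56, .ofNat 0, .ofNat 128, .ofNat 15, .ofNat 0, .ofNat 0, .ofNat 1531, .ofNat 36370, .ofNat 0, .ofNat 0, .ofNat 0, .ofNat 0, .ofNat 0, .ofNat 0, .ofNat 0, .ofNat 0, .ofNat 0, .ofNat 0, .ofNat 0, .ofNat 0, .ofNat 0,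 .ofNat 0, .ofNat 0, .ofNat 0⟩)
    (by decide +kernel)
theorem L01539 : Good (Phi V5.P V5.D 1 (-1)) ⟨3, 0, 3, 4, 3, 2, 4, 13, 6, 26⟩ :=
  leafYS_sound T5.ok_pm T5.Ypm.bz_eq (w := 241) (c := ⟨⟨.negSucc 968, .negSucc 58, .ofNat 1, .negSucc 52, .negSucc 27, .ofNat 5⟩, ⟨.ofNat 478, .ofNat 52, .ofNat 133, .ofNat 28, .ofNat 18, .negSucc 2⟩, ⟨.ofNat 877, .ofNat 73, .ofNat 123, .ofNat 456, .negSucc 75, .ofNat 14⟩, ⟨.negSucc 2943, .negSucc 132, .negSucc 21, .negSucc 215, .negSucc 58, .ofNat 20⟩, ⟨.negSucc 53, .negSucc 52, .negSucc 17, .negSucc 98, .ofNat 44, .ofNat 8⟩, .ofNat 894, .ofNat 685, .ofNat 0, .ofNat 685, .ofNat 1529, .ofNat 0, .ofNat 128, .negSucc 140, .negSucc 37, .ofNat 0, .ofNat 146, .ofNat 7, .ofNat 0, .ofNat 0, .ofNat 1035, .ofNat 27635, .ofNat 0, .ofNat 50523379442194049018031742281985637067947769856, .ofNat 18298798560885789482992684483003439643531149312,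 .ofNat 0, .ofNat 0, .ofNat 166009939773071516954514483536671353766934478848, .ofNat 0, .ofNat 0, .ofNat 0, .ofNat 0, .ofNat 0, .ofNat 0, .ofNat 0, .ofNat 1183782639294504327951783266805024541787956445184, .ofNat 0, .ofNat 0⟩)
    (by decide +kernel)
theorem L01540 : Good (Phi V5.P V5.D 1 (-1)) ⟨3, 0, 3, 4, 3, 2, 4, 13, 6, 27⟩ :=
  leafYS_sound T5.ok_pm T5.Ypm.bz_eq (w := 241) (c := ⟨⟨.negSucc 962, .negSucc 56, .ofNat 3, .negSucc 50, .negSucc 33, .ofNat 3⟩, ⟨.ofNat 475, .ofNat 50, .ofNat 132, .ofNat 25, .ofNat 22, .negSucc 1⟩, ⟨.ofNat 864, .ofNat 83, .ofNat 141, .ofNat 513, .negSucc 85, .ofNat 10⟩, ⟨.negSucc 2915, .negSucc 131, .negSucc 20, .negSucc 216, .negSucc 75, .ofNat 14⟩, ⟨.negSucc 38, .negSucc 55, .negSucc 22, .negSucc 116, .ofNat 46, .ofNat 8⟩, .ofNat 462, .ofNat 197, .ofNat 0, .ofNat 197, .ofNat 647, .ofNat 0, .ofNat 195, .negSucc 77, .negSucc 49, .ofNat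 0, .ofNat 128, .negSucc 16, .ofNat 0, .ofNat 0, .ofNat 1245, .ofNat 31499, .ofNat 0, .ofNat 117453007116336722056446463096511615859402211328, .ofNat 19320891194720558442291217482090986129311399936, .ofNat 0, .ofNat 0, .ofNat 0, .ofNat 0, .ofNat 0, .ofNat 0, .ofNat 0, .ofNat 0, .ofNat 0, .ofNat 0, .ofNat 1608332008499223055172337563262790963391367217152, .ofNat 0, .ofNat 0⟩)
    (by decide +kernel)
theorem L01541 : Good (Phi V5.P V5.D 1 (-1)) ⟨4, 0, 3, 5, 3, 2, 3, 6, 4, 6⟩ :=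
  out_sound (S := T5.ds_pm) T5.ok_pm (w := 51) (j := 3) (by decide +kernel)
theorem L01542 : Good (Phi V5.P V5.D 1 (-1)) ⟨4, 1, 4, 10, 3, 2, 3, 6, 5, 12⟩ :=
  leafYS_sound T5.ok_pm T5.Ypm.bz_eq (w := 241) (c := ⟨⟨.negSucc 984, .negSucc 31, .negSucc 5, .negSucc 53, .negSucc 47, .ofNat 12⟩, ⟨.ofNat 628, .ofNat 24, .ofNat 73, .ofNat 33, .ofNat 32, .negSucc 7⟩, ⟨.ofNat 1033, .ofNat 40, .ofNat 46, .ofNat 387, .negSucc 78, .ofNat 44⟩, ⟨.negSucc 3036, .negSucc 60, .negSucc 23, .negSucc 190, .negSucc 94, .ofNat 33⟩, ⟨.negSucc 140, .negSucc 32, .ofNat 10, .negSucc 50, .ofNat 69, .negSucc 2⟩, .ofNat 5691, .ofNat 7675, .ofNat 0, .ofNat 7675, .ofNat 11922, .ofNat 0, .ofNat 128, .negSucc 773, .negSucc 124, .ofNat 0, .ofNat 564, .ofNat 76, .ofNat 0, .ofNat 0, .ofNat 2946, .ofNat 57822, .ofNat 0, .ofNat 0, .ofNat 56811140273004234277225808437121502307942400, .ofNat 0, .ofNat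 0, .ofNat 0, .ofNat 0, .ofNat 0, .ofNat 0, .ofNat 0, .ofNat 0, .ofNat 0, .ofNat 0, .ofNat 25510624300638222818426565301949397802769306353664, .ofNat 1684618099710928775654831392389373430190833664, .ofNat 0⟩)
    (by decide +kernel)
theorem L01543 : Good (Phi V5.P V5.D 1 (-1)) ⟨4, 1, 4, 10, 3, 2, 3, 6, 5, 13⟩ :=
  leafYS_sound T5.ok_pm T5.Ypm.bz_eq (w := 240) (c := ⟨⟨.negSucc 978, .negSucc 35, .negSucc 0, .negSucc 40, .negSucc 51, .ofNat 16⟩, ⟨.ofNat 624, .ofNat 26, .ofNat 67, .ofNat 24, .ofNat 34, .negSucc 9⟩, ⟨.ofNat 1040, .ofNat 41, .ofNat 85, .ofNat 496, .negSucc 129, .ofNat 96⟩, ⟨.negSucc 2990, .negSucc 65, .negSucc 20, .negSucc 196, .negSucc 111, .ofNat 40⟩, ⟨.negSucc 100, .negSucc 21, .negSucc 12, .negSucc 117, .ofNat 63, .negSucc 11⟩, .ofNat 2215, .ofNat 2555, .ofNat 0, .ofNat 2555, .ofNat 4297, .ofNat 0, .ofNat 128, .negSucc 370, .negSucc 78, .ofNat 0,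 .ofNat 292, .ofNat 40, .ofNat 0, .ofNat 0, .ofNat 2728, .ofNat 54647, .ofNat 0, .ofNat 629678728256465501277031008740900406815495290880, .ofNat 52141693426305706198771907406644771429548032, .ofNat 0, .ofNat 0, .ofNat 0, .ofNat 0, .ofNat 0, .ofNat 0, .ofNat 0, .ofNat 0, .ofNat 0, .ofNat 0, .ofNat 27559959064318590677429520701778111203556416552960, .ofNat 1280314115638578217802030899866585413229477888, .ofNat 0⟩)
    (by decide +kernel)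
theorem L01544 : Good (Phi V5.P V5.D 1 (-1)) ⟨4, 1, 4, 11, 3, 2, 3, 6, 4, 6⟩ :=
  out_sound (S := T5.ds_pm) T5.ok_pm (w := 53) (j := 3) (by decide +kernel)
theorem L01545 : Good (Phi V5.P V5.D 1 (-1)) ⟨3, 1, 3, 4, 3, 2, 3, 6, 4, 6⟩ :=
  leafYS_sound T5.ok_pm T5.Ypm.bz_eq (w := 225) (c := ⟨⟨.negSucc 1009, .negSucc 103, .ofNat 3, .negSucc 49, .negSucc 58, .ofNat 20⟩, ⟨.ofNat 518, .ofNat 37, .ofNat 137, .ofNat 27, .ofNat 35, .negSucc 11⟩, ⟨.ofNat 959, .ofNat 121, .ofNat 106, .ofNat 470, .negSucc 95, .ofNat 66⟩, ⟨.negSucc 3030, .negSucc 121, .negSucc 22, .negSucc 220, .negSucc 139, .ofNat 65⟩, ⟨.negSucc 106, .negSucc 45, .negSucc 13, .negSucc 129, .ofNat 40, .ofNat 10⟩, .ofNat 879, .ofNat 697, .ofNat 0, .ofNat 697, .ofNat 1556, .ofNat 0, .ofNat 182, .negSucc 127, .negSucc 39, .ofNat 0, .ofNat 128, .ofNat 12, .ofNat 0, .ofNat 0, .ofNat 867, .ofNat 7815, .ofNat 0, .ofNat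 0, .ofNat 0, .ofNat 0, .ofNat 0, .ofNat 0, .ofNat 0, .ofNat 0, .ofNat 0, .ofNat 0, .ofNat 0, .ofNat 0, .ofNat 0, .ofNat 2325176744663360506831790443348496739398057984, .ofNat 0, .ofNat 0⟩)
    (by decide +kernel)

end Crest.Agent.R097C5.N5pm
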