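import Crest.Agent.R097.KS3
import Crest.Agent.R097.T5Ypm

/-!
# Row 97, box cover in dimension n = 5 (generated)
-/

set_option autoImplicit false
set_option Elab.async false
set_option maxHeartbeats 0
set_option maxRecDepth 100000

open Crest.Agent.R097 Crest.Agent.R097.KA


namespace Crest.Agent.R097C5.N5pm

theorem L01546 : Good (Phi V5.P V5.D 1 (-1)) ⟨3, 1, 3, 5, 3, 2, 3, 6, 4, 6⟩ :=
  leafYS_sound T5.ok_pm T5.Ypm.bz_eq (w := 226) (c := ⟨⟨.negSucc 1006, .negSucc 106, .ofNat 6, .negSucc 44, .negSucc 57, .ofNat 17⟩, ⟨.ofNat 650, .ofNat 39, .ofNat 136, .ofNat 29, .ofNat 39, .negSucc 10⟩, ⟨.ofNat 1019, .ofNat 77, .ofNat 239, .ofNat 480, .negSucc 87, .ofNat 137⟩, ⟨.negSucc 3043, .negSucc 114, .negSucc 33, .negSucc 218, .negSucc 143, .ofNat 45⟩, ⟨.negSucc 106, .negSucc 32, .negSucc 43, .negSucc 136, .ofNat 34, .negSucc 7⟩, .ofNat 1030, .ofNat 906, .ofNat 0, .ofNat 906, .ofNat 1780, .ofNat 0, .ofNat 128, .negSucc 222,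 .negSucc 85, .ofNat 0, .ofNat 205, .ofNat 36, .ofNat 0, .ofNat 0, .ofNat 1949, .ofNat 14958, .ofNat 0, .ofNat 116508967251865704767064354700964944697884672, .ofNat 659784315474069382681265520988334397063168, .ofNat 0, .ofNat 0, .ofNat 859499854114200760767962220076168605499129856, .ofNat 0, .ofNat 0, .ofNat 0, .ofNat 0, .ofNat 0, .ofNat 0, .ofNat 0, .ofNat 10400778987884330581953878366377793843586138112, .ofNat 24383509772520615003605346601812382623727616, .ofNat 0⟩)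
    (by decide +kernel)
theorem L01547 : Good (Phi V5.P V5.D 1 (-1)) ⟨4, 0, 4, 8, 3, 2, 4, 14, 5, 12⟩ :=
  leafYS_sound T5.ok_pm T5.Ypm.bz_eq (w := 242) (c := ⟨⟨.negSucc 982, .negSucc 27, .negSucc 2, .negSucc 78, .negSucc 32, .negSucc 0⟩, ⟨.ofNat 488, .ofNat 29, .ofNat 68, .ofNat 39, .ofNat 22, .ofNat 1⟩, ⟨.ofNat 841, .ofNat 42, .ofNat 42, .ofNat 361, .negSucc 87, .ofNat 3⟩, ⟨.negSucc 2972, .negSucc 84, .negSucc 15, .negSucc 264, .negSucc 54, .ofNat 8⟩, ⟨.negSucc 40, .negSucc 33, .negSucc 5, .negSucc 53, .ofNat 80, .ofNat 20⟩, .ofNat 845, .ofNat 610, .ofNat 0, .ofNat 610, .ofNat 1460, .ofNat 0, .ofNat 128, .negSucc 118, .negSucc 37, .ofNat 0, .ofNat 128, .ofNat 8, .ofNat 0, .ofNat 0, .ofNat 672, .ofNat 20818, .ofNat 0, .ofNat 1036039515411869183986155848307048008049320001536, .ofNat 0, .ofNat 0, .ofNat 0, .ofNat 11284986538585231431972439473483329965342731534336, .ofNat 0, .ofNat 0, .ofNat 0, .ofNat 10394494690970004971923525116691628702079792447488,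 .ofNat 0, .ofNat 0, .ofNat 0, .ofNat 19723607504839579991764309286451316082096321069056, .ofNat 0, .ofNat 0⟩)
    (by decide +kernel)
theorem L01548 : Good (Phi V5.P V5.D 1 (-1)) ⟨4, 0, 4, 9, 4, 4, 4, 14, 5, 12⟩ :=
  leafYS_sound T5.ok_pm T5.Ypm.bz_eq (w := 258) (c := ⟨⟨.negSucc 983, .negSucc 25, .negSucc 2, .negSucc 39, .negSucc 34, .negSucc 4⟩, ⟨.ofNat 551, .ofNat 29, .ofNat 67, .ofNat 23, .ofNat 24, .ofNat 3⟩, ⟨.ofNat 877, .ofNat 30, .ofNat 43, .ofNat 181, .negSucc 79, .ofNat 7⟩, ⟨.negSucc 2982, .negSucc 74, .negSucc 14, .negSucc 134, .negSucc 61, .negSucc 2⟩, ⟨.negSucc 44, .negSucc 24, .negSucc 6, .negSucc 23, .ofNat 74, .ofNat 17⟩, .ofNat 1699, .ofNat 1838, .ofNat 0, .ofNat 1838, .ofNat 3395, .ofNat 0, .ofNat 128, .negSucc 273, .negSucc 48, .ofNat 0, .ofNat 226, .ofNat 23, .ofNat 0, .ofNat 0, .ofNat 802, .ofNat 50610, .ofNat 0, .ofNat 9399607677841088752748363779253722840428737955102720, .ofNat 7496013547724514116245409054813889782873675792384,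 .ofNat 0, .ofNat 0, .ofNat 73013302998314941308692234371588362866181381478678528, .ofNat 0, .ofNat 0, .ofNat 0, .ofNat 148909324979544242172889929472365680059890630096060416, .ofNat 0, .ofNat 0, .ofNat 0, .ofNat 0, .ofNat 0, .ofNat 0⟩)
    (by decide +kernel)
theorem L01549 : Good (Phi V5.P V5.D 1 (-1)) ⟨4, 0, 4, 9, 4, 5, 4, 14, 5, 12⟩ :=
  leafYS_sound T5.ok_pm T5.Ypm.bz_eq (w := 257) (c := ⟨⟨.negSucc 1025, .negSucc 27, .negSucc 0, .negSucc 35, .negSucc 41, .ofNat 3⟩, ⟨.ofNat 574, .ofNat 30, .ofNat 69, .ofNat 20, .ofNat 27, .negSucc 1⟩, ⟨.ofNat 1026, .ofNat 41, .ofNat 59, .ofNat 226, .negSucc 58, .ofNat 41⟩, ⟨.negSucc 3115, .negSucc 87, .negSucc 13, .negSucc 133, .negSucc 81, .ofNat 15⟩, ⟨.negSucc 58, .negSucc 36, .negSucc 11, .negSucc 43, .ofNat 71, .ofNat 9⟩, .ofNat 911, .ofNat 709, .ofNat 0, .ofNat 709, .ofNat 1568, .ofNat 0, .ofNat 138, .negSucc 126, .negSucc 30, .ofNat 0, .ofNat 128, .ofNat 5, .ofNat 0, .ofNat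 0, .ofNat 797, .ofNat 34244, .ofNat 0, .ofNat 10660884929087483490600522806155047231736380005548032, .ofNat 4944750195000081186800650462313739834660841586688, .ofNat 0, .ofNat 0, .ofNat 85334302709770632994138087299271278984010788153327616, .ofNat 2845059005229305032870623488968243907092889468928, .ofNat 0, .ofNat 0, .ofNat 92818782862341681478463752935637304314514304661454848, .ofNat 0, .ofNat 0, .ofNat 0, .ofNat 143237088716042855732133708622494150371831048136818688, .ofNat 3310572012290197728353903089371648538907246592000, .ofNat 0⟩)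
    (by decide +kernel)
theorem L01550 : Good (Phi V5.P V5.D 1 (-1)) ⟨4, 0, 3, 4, 4, 4, 5, 28, 5, 13⟩ :=
  leafYS_sound T5.ok_pm T5.Ypm.bz_eq (w := 259) (c := ⟨⟨.negSucc 985, .negSucc 25, .negSucc 2, .negSucc 36, .negSucc 19, .ofNat 0⟩, ⟨.ofNat 490, .ofNat 28, .ofNat 131, .ofNat 19, .ofNat 13, .ofNat 0⟩, ⟨.ofNat 843, .ofNat 27, .ofNat 103, .ofNat 193, .negSucc 47, .negSucc 4⟩, ⟨.negSucc 2971, .negSucc 73, .negSucc 21, .negSucc 124, .negSucc 38, .ofNat 10⟩, ⟨.negSucc 22, .negSucc 23, .negSucc 16, .negSucc 26, .ofNat 36, .ofNat 18⟩, .ofNat 857, .ofNat 629, .ofNat 0, .ofNat 629, .ofNat 1478, .ofNat 0, .ofNat 139, .negSucc 119, .negSucc 38, .ofNat 0, .ofNat 128, .ofNat 7, .ofNat 0, .ofNat 0, .ofNat 806, .ofNat 65144, .ofNat 0, .ofNat 6762734885697653573397811833003065849092278788816896, .ofNat 73669561671583057562058736208682908477225854566400, .ofNat 0, .ofNat 0, .ofNat 0, .ofNat 0, .ofNat 0, .ofNat 0, .ofNat 0, .ofNat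 0, .ofNat 0, .ofNat 0, .ofNat 0, .ofNat 267144479633722128544796272010797182042501223022592, .ofNat 0⟩)
    (by decide +kernel)
theorem L01551 : Good (Phi V5.P V5.D 1 (-1)) ⟨4, 0, 3, 4, 4, 4, 5, 29, 5, 13⟩ :=
  leafYS_sound T5.ok_pm T5.Ypm.bz_eq (w := 259) (c := ⟨⟨.negSucc 1000, .negSucc 27, .negSucc 4, .negSucc 40, .negSucc 22, .negSucc 2⟩, ⟨.ofNat 499, .ofNat 29, .ofNat 132, .ofNat 24, .ofNat 16, .ofNat 3⟩, ⟨.ofNat 799, .ofNat 24, .ofNat 99, .ofNat 185, .negSucc 48, .negSucc 12⟩, ⟨.negSucc 2999, .negSucc 78, .negSucc 24, .negSucc 136, .negSucc 43, .ofNat 1⟩, ⟨.ofNat 12, .negSucc 23, .negSucc 15, .negSucc 19, .ofNat 46, .ofNat 20⟩, .ofNat 866, .ofNat 643, .ofNat 0, .ofNat 643, .ofNat 1495, .ofNat 0, .ofNat 183, .negSucc 120, .negSucc 48, .ofNat 0, .ofNat 128, .ofNat 10, .ofNat 0, .ofNat 0, .ofNat 903, .ofNat 73389, .ofNat 0, .ofNat 16219295130060536851149524107118124751732474468368384, .ofNat 53310938828300689802041898763446774531644989636608,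 .ofNat 0, .ofNat 0, .ofNat 90549878315089788575685184455448002064738351059042304, .ofNat 0, .ofNat 0, .ofNat 0, .ofNat 49419562832133485655512134465019314374178703094579200, .ofNat 0, .ofNat 0, .ofNat 0, .ofNat 131426231044299151240378018322511236578675215906635776, .ofNat 68556363481991179895500628415310132963286492119040, .ofNat 0⟩)
    (by decide +kernel)
theorem L01552 : Good (Phi V5.P V5.D 1 (-1)) ⟨4, 0, 4, 8, 4, 5, 4, 14, 5, 13⟩ :=
  leafYS_sound T5.ok_pm T5.Ypm.bz_eq (w := 258) (c := ⟨⟨.negSucc 1024, .negSucc 26, .ofNat 0, .negSucc 32, .negSucc 40, .ofNat 5⟩, ⟨.ofNat 509, .ofNat 28, .ofNat 66, .ofNat 15, .ofNat 27, .negSucc 1⟩, ⟨.ofNat 1012, .ofNat 32, .ofNat 63, .ofNat 228, .negSucc 85, .ofNat 21⟩, ⟨.negSucc 3095, .negSucc 81, .negSucc 11, .negSucc 119, .negSucc 82, .ofNat 20⟩, ⟨.negSucc 42, .negSucc 32, .negSucc 10, .negSucc 40, .ofNat 79, .ofNat 11⟩, .ofNat 456, .ofNat 182, .ofNat 0, .ofNat 182, .ofNat 640,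 .ofNat 0, .ofNat 294, .negSucc 73, .negSucc 49, .ofNat 0, .ofNat 128, .negSucc 21, .ofNat 0, .ofNat 0, .ofNat 1129, .ofNat 55522, .ofNat 0, .ofNat 20877816506348356581353416565592600640962482145329152, .ofNat 0, .ofNat 0, .ofNat 0, .ofNat 312319136262870745190273147380693022882304675557670912, .ofNat 0, .ofNat 0, .ofNat 0, .ofNat 120085356098251694523610679212481108294953472794558464, .ofNat 0, .ofNat 0, .ofNat 0, .ofNat 529303491806683333495504937109295293766228140630212608, .ofNat 0, .ofNat 0⟩)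
    (by decide +kernel)
theorem L01553 : Good (Phi V5.P V5.D 1 (-1)) ⟨4, 0, 4, 9, 4, 5, 5, 28, 5, 13⟩ :=
  leafYS_sound T5.ok_pm T5.Ypm.bz_eq (w := 262) (c := ⟨⟨.negSucc 1024, .negSucc 25, .negSucc 0, .negSucc 31, .negSucc 22, .ofNat 4⟩, ⟨.ofNat 574, .ofNat 29, .ofNat 68, .ofNat 17, .ofNat 15, .negSucc 1⟩, ⟨.ofNat 1070, .ofNat 33, .ofNat 67, .ofNat 249, .negSucc 48, .ofNat 29⟩, ⟨.negSucc 3105, .negSucc 79, .negSucc 13, .negSucc 124, .negSucc 46, .ofNat 19⟩, ⟨.negSucc 51, .negSucc 31, .negSucc 12, .negSucc 48, .ofNat 38, .ofNat 9⟩, .ofNat 467, .ofNat 204, .ofNat 0, .ofNat 204, .ofNat 655, .ofNat 0, .ofNat 255, .negSucc 79, .negSucc 53, .ofNat 0, .ofNat 128, .negSucc 25, .ofNat 0, .ofNat 0, .ofNat 1343, .ofNat 61449, .ofNat 0, .ofNat 89434025386678479685738543843895623482572726666788864, .ofNat 151514029027372106593944394447289288766786507898880, .ofNat 0, .ofNat 0, .ofNat 0, .ofNat 0, .ofNat 0, .ofNat 0, .ofNat 437215172053253191498715455439518544569802073994952704,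 .ofNat 0, .ofNat 0, .ofNat 0, .ofNat 3199182722198279908216434781112235706797009944113577984, .ofNat 538945674664988142434880672584086403202670428946432, .ofNat 0⟩)
    (by decide +kernel)
theorem L01554 : Good (Phi V5.P V5.D 1 (-1)) ⟨4, 0, 4, 9, 4, 5, 5, 29, 5, 13⟩ :=
  out_sound (S := T5.ds_pm) T5.ok_pm (w := 42) (j := 2) (by decide +kernel)
theorem L01555 : Good (Phi V5.P V5.D 1 (-1)) ⟨4, 1, 3, 4, 4, 4, 4, 14, 4, 6⟩ :=
  leafYS_sound T5.ok_pm T5.Ypm.bz_eq (w := 249) (c := ⟨⟨.negSucc 1004, .negSucc 38, .negSucc 2, .negSucc 39, .negSucc 45, .negSucc 3⟩, ⟨.ofNat 511, .ofNat 28, .ofNat 135, .ofNat 22, .ofNat 30, .ofNat 4⟩, ⟨.ofNat 864, .ofNat 41, .ofNat 91, .ofNat 198, .negSucc 82, .negSucc 2⟩, ⟨.negSucc 3030, .negSucc 79, .negSucc 21, .negSucc 143, .negSucc 95, .ofNat 7⟩, ⟨.negSucc 54, .negSucc 26, .negSucc 12, .negSucc 39, .ofNat 67, .ofNat 32⟩, .ofNat 463, .ofNat 200, .ofNat 0, .ofNat 200, .ofNat 646, .ofNat 0, .ofNat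 198, .negSucc 78, .negSucc 45, .ofNat 0, .ofNat 128, .ofNat 0, .ofNat 0, .ofNat 0, .ofNat 626, .ofNat 23426, .ofNat 0, .ofNat 124148454236733912798054145784830540253254022856704, .ofNat 19898745366749691266632590785050318296450072576, .ofNat 0, .ofNat 0, .ofNat 922864629310332239174025029031301250362795538513920, .ofNat 0, .ofNat 0, .ofNat 0, .ofNat 414999450105014231982273524955614654773083915681792, .ofNat 0, .ofNat 0, .ofNat 0, .ofNat 0, .ofNat 0, .ofNat 0⟩)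
    (by decide +kernel)
theorem L01556 : Good (Phi V5.P V5.D 1 (-1)) ⟨4, 1, 3, 4, 4, 5, 4, 14, 4, 6⟩ :=
  leafYS_sound T5.ok_pm T5.Ypm.bz_eq (w := 249) (c := ⟨⟨.negSucc 1050, .negSucc 39, .ofNat 1, .negSucc 38, .negSucc 50, .ofNat 6⟩, ⟨.ofNat 533, .ofNat 29, .ofNat 139, .ofNat 21, .ofNat 31, .negSucc 3⟩, ⟨.ofNat 1014, .ofNat 49, .ofNat 123, .ofNat 238, .negSucc 61, .ofNat 57⟩, ⟨.negSucc 3176, .negSucc 86, .negSucc 24, .negSucc 148, .negSucc 115, .ofNat 31⟩, ⟨.negSucc 77, .negSucc 35, .negSucc 22, .negSucc 57, .ofNat 58, .ofNat 19⟩, .ofNat 464, .ofNat 201, .ofNat 0, .ofNat 201, .ofNat 647, .ofNat 0, .ofNat 190, .negSucc 79, .negSucc 53, .ofNat 0, .ofNat 128, .negSucc 13, .ofNat 0, .ofNat 0, .ofNat 1044, .ofNat 23660, .ofNat 0, .ofNat 168225791835639220941729579734752042323462173229056, .ofNat 31981231267431667612295862172469844674632220672, .ofNat 0, .ofNat 0, .ofNat 1267943607038677651766913896163123053229683274416128,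 .ofNat 0, .ofNat 0, .ofNat 0, .ofNat 796091279349649010042399459374016509832351413436416, .ofNat 0, .ofNat 0, .ofNat 0, .ofNat 4280796812935727216868861372658638349905176150671360, .ofNat 0, .ofNat 0⟩)
    (by decide +kernel)
theorem L01557 : Good (Phi V5.P V5.D 1 (-1)) ⟨4, 0, 3, 5, 3, 2, 4, 14, 4, 6⟩ :=
  out_sound (S := T5.ds_pm) T5.ok_pm (w := 51) (j := 3) (by decide +kernel)
theorem L01558 : Good (Phi V5.P V5.D 1 (-1)) ⟨4, 1, 3, 5, 3, 2, 4, 14, 5, 12⟩ :=
  leafYS_sound T5.ok_pm T5.Ypm.bz_eq (w := 241) (c := ⟨⟨.negSucc 1005, .negSucc 40, .ofNat 2, .negSucc 81, .negSucc 47, .ofNat 0⟩, ⟨.ofNat 642, .ofNat 30, .ofNat 140, .ofNat 51, .ofNat 32, .ofNat 1⟩, ⟨.ofNat 928, .ofNat 52, .ofNat 90, .ofNat 443, .negSucc 74, .ofNat 19⟩, ⟨.negSucc 3051, .negSucc 86, .negSucc 14, .negSucc 288, .negSucc 91, .negSucc 0⟩, ⟨.negSucc 66, .negSucc 34, .negSucc 4, .negSucc 75, .ofNat 75, .ofNat 3⟩, .ofNat 4001, .ofNat 5174, .ofNat 0, .ofNat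 5174, .ofNat 8198, .ofNat 0, .ofNat 128, .negSucc 540, .negSucc 101, .ofNat 0, .ofNat 400, .ofNat 59, .ofNat 0, .ofNat 0, .ofNat 2369, .ofNat 54697, .ofNat 0, .ofNat 492110122093286959701439984686294836506622164992, .ofNat 236582388536382721591400221724782538952540160, .ofNat 0, .ofNat 0, .ofNat 3288732476693287694121222740921796762511909847040, .ofNat 4686945145391564044552662675645115194268450816, .ofNat 0, .ofNat 0, .ofNat 15326909962729189980271886267578774321636699013120, .ofNat 3752135357290565426785893158378022805438464000, .ofNat 0, .ofNat 0, .ofNat 18604233284704406596808731354341602566543645868032, .ofNat 12860023515424472689794093571092601212919349248, .ofNat 0⟩)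
    (by decide +kernel)
theorem L01559 : Good (Phi V5.P V5.D 1 (-1)) ⟨4, 1, 3, 5, 3, 2, 4, 14, 5, 13⟩ :=
  leafYS_sound T5.ok_pm T5.Ypm.bz_eq (w := 240) (c := ⟨⟨.negSucc 1008, .negSucc 39, .ofNat 2, .negSucc 72, .negSucc 51, .ofNat 1⟩, ⟨.ofNat 645, .ofNat 29, .ofNat 133, .ofNat 46, .ofNat 34, .ofNat 0⟩, ⟨.ofNat 945, .ofNat 41, .ofNat 130, .ofNat 478, .negSucc 97, .ofNat 14⟩, ⟨.negSucc 3046, .negSucc 81, .negSucc 10, .negSucc 283, .negSucc 107, .ofNat 8⟩, ⟨.negSucc 44, .negSucc 30, .negSucc 20, .negSucc 104, .ofNat 67, .ofNat 10⟩, .ofNat 1015, .ofNat 859, .ofNat 0, .ofNat 859, .ofNat 1711, .ofNat 0, .ofNat 128, .negSucc 231, .negSucc 51, .ofNat 0, .ofNat 221, .ofNat 12, .ofNat 0, .ofNat 0, .ofNat 1366, .ofNat 27295, .ofNat 0, .ofNat 338311786405888887717622928545220240609697071104, .ofNat 195351670477209128037134678690738027876057088, .ofNat 0, .ofNat 0, .ofNat 2001200838862549657739119677902353518219812143104, .ofNat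 576234954996297189115896418558925855279546368, .ofNat 0, .ofNat 0, .ofNat 3539702830533040486779968950211690693622249816064, .ofNat 795030394933272675058726389370264359303905280, .ofNat 0, .ofNat 0, .ofNat 11587482623871614346411425762149843739554980298752, .ofNat 4088271945231708036501340779619083845634097152, .ofNat 0⟩)
    (by decide +kernel)
theorem L01560 : Good (Phi V5.P V5.D 1 (-1)) ⟨3, 0, 2, 2, 3, 2, 4, 15, 4, 6⟩ :=
  leafYS_sound T5.ok_pm T5.Ypm.bz_eq (w := 228) (c := ⟨⟨.negSucc 1004, .negSucc 73, .negSucc 13, .negSucc 121, .negSucc 53, .negSucc 24⟩, ⟨.ofNat 504, .ofNat 61, .ofNat 271, .ofNat 60, .ofNat 32, .ofNat 16⟩, ⟨.ofNat 761, .ofNat 76, .ofNat 162, .ofNat 354, .negSucc 84, .negSucc 18⟩, ⟨.negSucc 3006, .negSucc 184, .negSucc 50, .negSucc 363, .negSucc 92, .negSucc 46⟩, ⟨.ofNat 38, .negSucc 58, .negSucc 22, .negSucc 38, .ofNat 102, .ofNat 43⟩, .ofNat 196, .ofNat 33, .ofNat 0, .ofNat 33, .ofNat 227, .ofNat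 0, .ofNat 289, .negSucc 32, .negSucc 117, .ofNat 0, .ofNat 128, .negSucc 19, .ofNat 0, .ofNat 0, .ofNat 537, .ofNat 19465, .ofNat 0, .ofNat 515851636264913772782918041564953410462023680, .ofNat 2585669474864566296592155354772612573036544, .ofNat 0, .ofNat 0, .ofNat 9368813126056292137389161599172696733084811264, .ofNat 3131102320153626352283226529721183807471616, .ofNat 0, .ofNat 0, .ofNat 2314350742427005130974557808158118330538917888, .ofNat 1791046142511217054758067681614572524929024, .ofNat 0, .ofNat 0, .ofNat 7238911231382170167929652174691413001332850688, .ofNat 7243183138217720420173074396903138809348096, .ofNat 0⟩)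
    (by decide +kernel)
theorem L01561 : Good (Phi V5.P V5.D 1 (-1)) ⟨3, 1, 2, 2, 3, 2, 4, 14, 5, 12⟩ :=
  leafYS_sound T5.ok_pm T5.Ypm.bz_eq (w := 232) (c := ⟨⟨.negSucc 1041, .negSucc 116, .ofNat 3, .negSucc 84, .negSucc 59, .ofNat 2⟩, ⟨.ofNat 531, .ofNat 46, .ofNat 287, .ofNat 51, .ofNat 36, .ofNat 0⟩, ⟨.ofNat 866, .ofNat 149, .ofNat 208, .ofNat 460, .negSucc 85, .ofNat 19⟩, ⟨.negSucc 3087, .negSucc 174, .negSucc 48, .negSucc 333, .negSucc 134, .ofNat 11⟩, ⟨.negSucc 50, .negSucc 76, .negSucc 32, .negSucc 137, .ofNat 53, .ofNat 8⟩, .ofNat 464, .ofNat 216, .ofNat 0, .ofNat 216, .ofNat 660, .ofNat 0, .ofNat 245, .negSucc 84, .negSucc 59, .ofNat 0, .ofNat 128, .ofNat 1, .ofNat 0, .ofNat 0, .ofNat 830, .ofNat 9632, .ofNat 0, .ofNat 635192591223365212438268774343885498712326144, .ofNat 69956227234288975087638116193007042861989888, .ofNat 0, .ofNat 0, .ofNat 16354175011522162141732844694180077780781236224, .ofNat 0, .ofNat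 0, .ofNat 0, .ofNat 5058582286522222312477170670428186123903696896, .ofNat 0, .ofNat 0, .ofNat 0, .ofNat 13979291810640603971308386931846377105075994624, .ofNat 862316571324403327776957098981904915835650048, .ofNat 0⟩)
    (by decide +kernel)
theorem L01562 : Good (Phi V5.P V5.D 1 (-1)) ⟨3, 1, 2, 2, 3, 2, 4, 14, 5, 13⟩ :=
  leafYS_sound T5.ok_pm T5.Ypm.bz_eq (w := 232) (c := ⟨⟨.negSucc 1040, .negSucc 115, .ofNat 2, .negSucc 77, .negSucc 61, .negSucc 2⟩, ⟨.ofNat 535, .ofNat 45, .ofNat 282, .ofNat 47, .ofNat 38, .ofNat 0⟩, ⟨.ofNat 881, .ofNat 127, .ofNat 229, .ofNat 475, .negSucc 89, .negSucc 17⟩, ⟨.negSucc 3086, .negSucc 166, .negSucc 50, .negSucc 312, .negSucc 142, .ofNat 9⟩, ⟨.negSucc 42, .negSucc 68, .negSucc 38, .negSucc 134, .ofNat 54, .ofNat 17⟩, .ofNat 464, .ofNat 214, .ofNat 0, .ofNat 214, .ofNat 659, .ofNat 0, .ofNat 295, .negSucc 83, .negSucc 72, .ofNat 0, .ofNat 128, .negSucc 7, .ofNat 0, .ofNat 0, .ofNat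 1236, .ofNat 11618, .ofNat 0, .ofNat 1429373835934551108109251476988758613095874560, .ofNat 67693710007605068140879926180314272778682368, .ofNat 0, .ofNat 0, .ofNat 27330280002529902878420378335452124498106515456, .ofNat 155547868140721316179654875059100020992114688, .ofNat 0, .ofNat 0, .ofNat 5826301366299254766797425246195611195825717248, .ofNat 0, .ofNat 0, .ofNat 0, .ofNat 32696643376379575834706770660307214506385211392, .ofNat 4265780839579768597042739842703054219031609344, .ofNat 0⟩)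
    (by decide +kernel)
theorem L01563 : Good (Phi V5.P V5.D 1 (-1)) ⟨3, 1, 2, 2, 3, 2, 4, 15, 4, 6⟩ :=
  leafYS_sound T5.ok_pm T5.Ypm.bz_eq (w := 227) (c := ⟨⟨.negSucc 1080, .negSucc 128, .negSucc 8, .negSucc 128, .negSucc 63, .negSucc 22⟩, ⟨.ofNat 561, .ofNat 50, .ofNat 282, .ofNat 82, .ofNat 50, .ofNat 18⟩, ⟨.ofNat 839, .ofNat 134, .ofNat 164, .ofNat 375, .negSucc 83, .negSucc 37⟩, ⟨.negSucc 3185, .negSucc 201, .negSucc 50, .negSucc 437, .negSucc 167, .negSucc 44⟩, ⟨.negSucc 15, .negSucc 67, .negSucc 24, .negSucc 96, .ofNat 75, .ofNat 41⟩, .ofNat 195, .ofNat 35, .ofNat 0, .ofNat 35, .ofNat 228, .ofNat 0, .ofNat 238, .negSucc 34, .negSucc 129, .ofNat 0, .ofNat 128, .negSucc 18, .ofNat 0, .ofNat 0, .ofNat 584, .ofNat 15465, .ofNat 0, .ofNat 516513795274106470755330149437701115003011072, .ofNat 0, .ofNat 0, .ofNat 0, .ofNat 7463516162584706638729343189840365335529652224, .ofNat 0, .ofNat 0, .ofNat 0, .ofNat 1800505054610532546580671616563074516566147072,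 .ofNat 3356105749981691650752882735311118766440448, .ofNat 0, .ofNat 0, .ofNat 7061476431722971928685621901956659165553229824, .ofNat 0, .ofNat 0⟩)
    (by decide +kernel)
theorem L01564 : Good (Phi V5.P V5.D 1 (-1)) ⟨2, 0, 2, 2, 4, 4, 3, 6, 4, 7⟩ :=
  leafYS_sound T5.ok_pm T5.Ypm.bz_eq (w := 234) (c := ⟨⟨.negSucc 932, .negSucc 158, .ofNat 25, .negSucc 21, .negSucc 55, .negSucc 1⟩, ⟨.ofNat 465, .ofNat 87, .ofNat 263, .ofNat 9, .ofNat 37, .negSucc 3⟩, ⟨.ofNat 977, .ofNat 154, .ofNat 245, .ofNat 248, .negSucc 187, .ofNat 37⟩, ⟨.negSucc 2878, .negSucc 245, .negSucc 8, .negSucc 88, .negSucc 124, .ofNat 19⟩, ⟨.negSucc 71, .negSucc 87, .negSucc 22, .negSucc 57, .ofNat 73, .ofNat 0⟩, .ofNat 463, .ofNat 207, .ofNat 0, .ofNat 207, .ofNat 655, .ofNat 0, .ofNat 377, .negSucc 80, .negSucc 45, .ofNat 0, .ofNat 128, .negSucc 9, .ofNat 0, .ofNat 0, .ofNat 1122, .ofNat 19771, .ofNat 0, .ofNat 6350421786277024104634695544459500640668745728,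 .ofNat 33910301694498559287131202144019664872610463744, .ofNat 0, .ofNat 0, .ofNat 0, .ofNat 0, .ofNat 0, .ofNat 0, .ofNat 0, .ofNat 0, .ofNat 0, .ofNat 7635292337004082147729695836216703623911729790976, .ofNat 38937609269157280239419511688772580382156521472, .ofNat 266520356567151313977356046515821426877948493824, .ofNat 0⟩)
    (by decide +kernel)
theorem L01565 : Good (Phi V5.P V5.D 1 (-1)) ⟨2, 0, 3, 4, 4, 5, 4, 12, 4, 7⟩ :=
  leafYS_sound T5.ok_pm T5.Ypm.bz_eq (w := 241) (c := ⟨⟨.negSucc 962, .negSucc 152, .ofNat 7, .negSucc 9, .negSucc 29, .ofNat 63⟩, ⟨.ofNat 482, .ofNat 82, .ofNat 132, .ofNat 1, .ofNat 16, .negSucc 27⟩, ⟨.ofNat 1054, .ofNat 199, .ofNat 181, .ofNat 432, .negSucc 57, .ofNat 383⟩, ⟨.negSucc 2968, .negSucc 230, .negSucc 20, .negSucc 86, .negSucc 71, .ofNat 109⟩, ⟨.negSucc 77, .negSucc 103, .negSucc 25, .negSucc 110, .ofNat 14, .negSucc 55⟩, .ofNat 460, .ofNat 203, .ofNat 0, .ofNat 203, .ofNat 651,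 .ofNat 0, .ofNat 246, .negSucc 79, .negSucc 36, .ofNat 0, .ofNat 128, .negSucc 50, .ofNat 0, .ofNat 0, .ofNat 2324, .ofNat 26919, .ofNat 0, .ofNat 0, .ofNat 0, .ofNat 0, .ofNat 0, .ofNat 0, .ofNat 0, .ofNat 0, .ofNat 127569648452585987913489572109697648877638921486336, .ofNat 580892278606546076402955248978897236809773744128, .ofNat 0, .ofNat 0, .ofNat 2864878842927187115460866242740006373913730501050368, .ofNat 23326120516291058727828515055408575167114080419840, .ofNat 2920682962011730807639037882647537321676636160, .ofNat 0⟩)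
    (by decide +kernel)
theorem L01566 : Good (Phi V5.P V5.D 1 (-1)) ⟨2, 0, 3, 4, 4, 5, 4, 13, 4, 7⟩ :=
  leafYS_sound T5.ok_pm T5.Ypm.bz_eq (w := 239) (c := ⟨⟨.negSucc 989, .negSucc 156, .ofNat 11, .negSucc 7, .negSucc 36, .ofNat 37⟩, ⟨.ofNat 488, .ofNat 92, .ofNat 133, .ofNat 5, .ofNat 27, .negSucc 17⟩, ⟨.ofNat 1040, .ofNat 161, .ofNat 221, .ofNat 394, .negSucc 106, .ofNat 196⟩, ⟨.negSucc 3001, .negSucc 274, .negSucc 21, .negSucc 94, .negSucc 100, .ofNat 73⟩, ⟨.negSucc 52, .negSucc 116, .negSucc 42, .negSucc 102, .ofNat 40, .negSucc 24⟩, .ofNat 196, .ofNat 33, .ofNat 0, .ofNat 33, .ofNat 227, .ofNat 0, .ofNat 277, .negSucc 33, .negSucc 47, .ofNat 0, .ofNat 128, .negSucc 108, .ofNat 0, .ofNat 0, .ofNat 1196, .ofNat 5355, .ofNat 0, .ofNat 136073919282594268542061944454245673360538206208, .ofNat 103213116487414757590180510050283691560606367744, .ofNat 0, .ofNat 0, .ofNat 0, .ofNat 0, .ofNat 0, .ofNat 0, .ofNat 659400552195711883414649582722522271994683064320,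 .ofNat 0, .ofNat 0, .ofNat 0, .ofNat 15248189625549118251204247498430286627742588862464, .ofNat 0, .ofNat 0⟩)
    (by decide +kernel)
theorem L01567 : Good (Phi V5.P V5.D 1 (-1)) ⟨2, 0, 4, 10, 4, 5, 4, 12, 4, 7⟩ :=
  leafYS_sound T5.ok_pm T5.Ypm.bz_eq (w := 244) (c := ⟨⟨.negSucc 932, .negSucc 184, .ofNat 13, .negSucc 5, .negSucc 30, .ofNat 51⟩, ⟨.ofNat 617, .ofNat 77, .ofNat 66, .ofNat 0, .ofNat 17, .negSucc 28⟩, ⟨.ofNat 1133, .ofNat 233, .ofNat 173, .ofNat 529, .negSucc 28, .ofNat 457⟩, ⟨.negSucc 2971, .negSucc 235, .negSucc 13, .negSucc 94, .negSucc 78, .ofNat 83⟩, ⟨.negSucc 69, .negSucc 108, .negSucc 36, .negSucc 141, .negSucc 0, .negSucc 83⟩, .ofNat 486, .ofNat 242, .ofNat 0, .ofNat 242, .ofNat 674, .ofNat 0, .ofNat 135, .negSucc 88, .negSucc 11, .ofNat 0, .ofNat 128, .negSucc 66, .ofNat 0, .ofNat 0, .ofNat 2586, .ofNat 19804, .ofNat 51312349142644961496814289068670421906450068537344, .ofNat 2269036092232557277903522245680162482888133050368,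 .ofNat 2552386534589642593432561739368858963249060642816, .ofNat 0, .ofNat 0, .ofNat 0, .ofNat 7367231719014232088094303519510571126323220054016, .ofNat 0, .ofNat 1191224789869615907645606039929467473127854066106368, .ofNat 0, .ofNat 2575548382501505633693540668409693998849244266496, .ofNat 0, .ofNat 25866097488724663929792773376645937517913447822524416, .ofNat 249037092307266223759287187078384283103373333364736, .ofNat 44660629608620511170311172047299795771459448602624, .ofNat 0⟩)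
    (by decide +kernel)
theorem L01568 : Good (Phi V5.P V5.D 1 (-1)) ⟨2, 0, 4, 10, 4, 5, 5, 26, 5, 14⟩ :=
  leafYS_sound T5.ok_pm T5.Ypm.bz_eq (w := 253) (c := ⟨⟨.negSucc 956, .negSucc 190, .ofNat 9, .negSucc 4, .negSucc 17, .ofNat 19⟩, ⟨.ofNat 626, .ofNat 86, .ofNat 69, .ofNat 3, .ofNat 14, .negSucc 11⟩, ⟨.ofNat 1151, .ofNat 229, .ofNat 114, .ofNat 502, .negSucc 36, .ofNat 154⟩, ⟨.negSucc 3015, .negSucc 273, .negSucc 15, .negSucc 106, .negSucc 51, .ofNat 37⟩, ⟨.negSucc 63, .negSucc 128, .negSucc 23, .negSucc 136, .ofNat 9, .negSucc 24⟩, .ofNat 1028, .ofNat 897, .ofNat 0, .ofNat 897, .ofNat 1766, .ofNat 0, .ofNat 128, .negSucc 131, .negSucc 0, .ofNat 0, .ofNat 123, .negSucc 21, .ofNat 0, .ofNat 0, .ofNat 1860, .ofNat 32141, .ofNat 0, .ofNat 167542321162863983354484746018439829982990968029184, .ofNat 2082655193882861836523430086813857380458537209036800, .ofNat 0, .ofNat 0, .ofNat 0, .ofNat 16825531024122894358380643577902810289986555476967424,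 .ofNat 0, .ofNat 0, .ofNat 0, .ofNat 0, .ofNat 0, .ofNat 0, .ofNat 7703759972624023594942578524800523728124209954553856, .ofNat 0, .ofNat 0⟩)
    (by decide +kernel)
theorem L01569 : Good (Phi V5.P V5.D 1 (-1)) ⟨2, 0, 4, 10, 4, 5, 5, 27, 5, 14⟩ :=
  leafYS_sound T5.ok_pm T5.Ypm.bz_eq (w := 253) (c := ⟨⟨.negSucc 964, .negSucc 198, .ofNat 10, .negSucc 15, .negSucc 28, .ofNat 12⟩, ⟨.ofNat 634, .ofNat 92, .ofNat 69, .ofNat 9, .ofNat 18, .negSucc 8⟩, ⟨.ofNat 1144, .ofNat 221, .ofNat 118, .ofNat 441, .negSucc 55, .ofNat 88⟩, ⟨.negSucc 3045, .negSucc 301, .negSucc 11, .negSucc 123, .negSucc 66, .ofNat 30⟩, ⟨.negSucc 57, .negSucc 133, .negSucc 24, .negSucc 120, .ofNat 18, .negSucc 10⟩, .ofNat 479, .ofNat 234, .ofNat 0, .ofNat 234, .ofNat 670, .ofNat 0, .ofNat 311, .negSucc 87, .negSucc 23, .ofNat 0, .ofNat 128, .negSucc 50, .ofNat 0, .ofNat 0, .ofNat 1776, .ofNat 34512, .ofNat 0, .ofNat 265185003159854987479098745289543483864253263249408,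 .ofNat 1819324637390891821584440903704446562003104271695872, .ofNat 0, .ofNat 0, .ofNat 0, .ofNat 0, .ofNat 0, .ofNat 0, .ofNat 936027087043945910249077827527850169442695173373952, .ofNat 0, .ofNat 0, .ofNat 0, .ofNat 13016033759512564255416003088980065299236101856165888, .ofNat 6472605731506967398843707552766725757906774703210496, .ofNat 0⟩)
    (by decide +kernel)
theorem L01570 : Good (Phi V5.P V5.D 1 (-1)) ⟨2, 0, 4, 10, 4, 5, 4, 13, 5, 15⟩ :=
  leafYS_sound T5.ok_pm T5.Ypm.bz_eq (w := 250) (c := ⟨⟨.negSucc 942, .negSucc 192, .ofNat 13, .ofNat 7, .negSucc 43, .ofNat 22⟩, ⟨.ofNat 616, .ofNat 88, .ofNat 66, .negSucc 3, .ofNat 30, .negSucc 12⟩, ⟨.ofNat 1275, .ofNat 157, .ofNat 176, .ofNat 652, .negSucc 128, .ofNat 194⟩, ⟨.negSucc 2983, .negSucc 274, .negSucc 12, .negSucc 95, .negSucc 111, .ofNat 33⟩, ⟨.negSucc 79, .negSucc 116, .negSucc 33, .negSucc 168, .ofNat 32, .negSucc 41⟩, .ofNat 486, .ofNat 242, .ofNat 0, .ofNat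 242, .ofNat 674, .ofNat 0, .ofNat 173, .negSucc 88, .ofNat 32, .ofNat 0, .ofNat 128, .negSucc 102, .ofNat 0, .ofNat 0, .ofNat 2213, .ofNat 34833, .ofNat 0, .ofNat 87327443369924946227145585255359629565550902902784, .ofNat 107986369763839491965488310081055860670004564328448, .ofNat 0, .ofNat 0, .ofNat 124432484531023668794857405351321756580582522880000, .ofNat 421627973663761620161013430572809387368186229293056, .ofNat 0, .ofNat 0, .ofNat 84475474505629799568402124599917500973760869564416, .ofNat 204831727499812678164933512009942301702626400534528, .ofNat 0, .ofNat 236672568915529286127058258390070898937235696043163648, .ofNat 3395973881438675651571505934235731551918707250823168, .ofNat 74695306289884747411954110516381108213610801266688, .ofNat 0⟩)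
    (by decide +kernel)
theorem L01571 : Good (Phi V5.P V5.D 1 (-1)) ⟨2, 0, 4, 11, 4, 5, 3, 6, 4, 7⟩ :=
  out_sound (S := T5.ds_pm) T5.ok_pm (w := 41) (j := 3) (by decide +kernel)
theorem L01572 : Good (Phi V5.P V5.D 1 (-1)) ⟨2, 0, 3, 4, 4, 4, 4, 14, 4, 7⟩ :=
  leafYS_sound T5.ok_pm T5.Ypm.bz_eq (w := 240) (c := ⟨⟨.negSucc 967, .negSucc 180, .ofNat 1, .negSucc 35, .negSucc 64, .ofNat 4⟩, ⟨.ofNat 490, .ofNat 98, .ofNat 135, .ofNat 17, .ofNat 37, .ofNat 1⟩, ⟨.ofNat 817, .ofNat 154, .ofNat 122, .ofNat 227, .negSucc 125, .negSucc 49⟩, ⟨.negSucc 2941, .negSucc 309, .negSucc 17, .negSucc 134, .negSucc 138, .ofNat 26⟩, ⟨.ofNat 12, .negSucc 109, .negSucc 20, .negSucc 52, .ofNat 71, .ofNat 33⟩, .ofNat 195, .ofNat 33, .ofNat 0, .ofNat 33, .ofNat 227, .ofNat 0, .ofNat 300, .negSucc 32, .negSucc 89, .ofNat 0, .ofNat 128, .negSucc 69, .ofNat 0, .ofNat 0, .ofNat 900, .ofNat 16750, .ofNat 0, .ofNat 528375990641637727467405738835008174184149811200,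 .ofNat 617390567459168305522350123864517430926496497664, .ofNat 0, .ofNat 0, .ofNat 4615053918973620599559521630932463486214829244416, .ofNat 229004308826448840507822471570598569235055640576, .ofNat 0, .ofNat 0, .ofNat 1390304988132934944342067743785465741836220891136, .ofNat 55937785926245967204707143611848765913136365568, .ofNat 0, .ofNat 0, .ofNat 6306362191608455752351360197784977026567376994304, .ofNat 4873581249879053029181972001170452350707542523904, .ofNat 0⟩)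
    (by decide +kernel)
theorem L01573 : Good (Phi V5.P V5.D 1 (-1)) ⟨2, 0, 3, 4, 4, 5, 4, 14, 4, 7⟩ :=
  leafYS_sound T5.ok_pm T5.Ypm.bz_eq (w := 241) (c := ⟨⟨.negSucc 1005, .negSucc 173, .negSucc 0, .negSucc 40, .negSucc 58, .ofNat 3⟩, ⟨.ofNat 510, .ofNat 99, .ofNat 135, .ofNat 11, .ofNat 29, .negSucc 9⟩, ⟨.ofNat 1006, .ofNat 166, .ofNat 163, .ofNat 314, .negSucc 103, .ofNat 38⟩, ⟨.negSucc 3071, .negSucc 319, .negSucc 25, .negSucc 137, .negSucc 127, .ofNat 38⟩, ⟨.negSucc 21, .negSucc 127, .negSucc 31, .negSucc 83, .ofNat 57, .ofNat 11⟩, .ofNat 195, .ofNat 33, .ofNat 0, .ofNat 33, .ofNat 227, .ofNat 0, .ofNat 487, .negSucc 33, .negSucc 87, .ofNat 0, .ofNat 128, .negSucc 98, .ofNat 0, .ofNat 0, .ofNat 1130, .ofNat 31398, .ofNat 0, .ofNat 1302078471859736831737827031608607061293603487744, .ofNat 1142416430135578908228078349297052257922022637568, .ofNat 0, .ofNat 0, .ofNat 26090344592337883685379585403687141393728014385152,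 .ofNat 0, .ofNat 0, .ofNat 0, .ofNat 5054921291119690510249650714378137606852234444800, .ofNat 0, .ofNat 0, .ofNat 0, .ofNat 38837746369486341063836871529475075126928961699840, .ofNat 0, .ofNat 0⟩)
    (by decide +kernel)
theorem L01574 : Good (Phi V5.P V5.D 1 (-1)) ⟨2, 0, 4, 10, 4, 4, 4, 14, 4, 7⟩ :=
  leafYS_sound T5.ok_pm T5.Ypm.bz_eq (w := 244) (c := ⟨⟨.negSucc 946, .negSucc 210, .ofNat 5, .negSucc 30, .negSucc 67, .ofNat 6⟩, ⟨.ofNat 627, .ofNat 91, .ofNat 70, .ofNat 22, .ofNat 43, .negSucc 0⟩, ⟨.ofNat 887, .ofNat 208, .ofNat 62, .ofNat 265, .negSucc 125, .negSucc 46⟩, ⟨.negSucc 2963, .negSucc 301, .negSucc 9, .negSucc 139, .negSucc 149, .ofNat 31⟩, ⟨.negSucc 0, .negSucc 109, .negSucc 12, .negSucc 67, .ofNat 65, .ofNat 31⟩, .ofNat 477, .ofNat 236, .ofNat 0, .ofNat 236, .ofNat 673, .ofNat 0, .ofNat 432, .negSucc 88, .negSucc 62, .ofNat 0, .ofNat 128, .negSucc 22, .ofNat 0, .ofNat 0, .ofNat 1521, .ofNat 28692, .ofNat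 0, .ofNat 8704409168580838416133127695842599259953319378944, .ofNat 1780127810651512819873208770815746710257012834304, .ofNat 0, .ofNat 0, .ofNat 0, .ofNat 0, .ofNat 0, .ofNat 0, .ofNat 24361487086873580883584993929534133453577917562880, .ofNat 3231525130761162104512079139757376246417069178880, .ofNat 0, .ofNat 0, .ofNat 130695006047397105033577475784827461352723543228416, .ofNat 56092069716860988549807784679426410509032734326784, .ofNat 0⟩)
    (by decide +kernel)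
theorem L01575 : Good (Phi V5.P V5.D 1 (-1)) ⟨2, 0, 4, 11, 4, 4, 4, 14, 4, 7⟩ :=
  out_sound (S := T5.ds_pm) T5.ok_pm (w := 41) (j := 3) (by decide +kernel)
theorem L01576 : Good (Phi V5.P V5.D 1 (-1)) ⟨2, 0, 3, 5, 4, 5, 4, 14, 5, 14⟩ :=
  leafYS_sound T5.ok_pm T5.Ypm.bz_eq (w := 246) (c := ⟨⟨.negSucc 979, .negSucc 210, .ofNat 0, .negSucc 26, .negSucc 70, .ofNat 7⟩, ⟨.ofNat 647, .ofNat 97, .ofNat 137, .ofNat 17, .ofNat 40, .negSucc 3⟩, ⟨.ofNat 1128, .ofNat 217, .ofNat 184, .ofNat 336, .negSucc 115, .ofNat 29⟩, ⟨.negSucc 3090, .negSucc 328, .negSucc 26, .negSucc 139, .negSucc 153, .ofNat 22⟩, ⟨.negSucc 45, .negSucc 136, .negSucc 36, .negSucc 93, .ofNat 50, .ofNat 3⟩, .ofNat 197, .ofNat 38, .ofNat 0, .ofNat 38, .ofNat 228, .ofNat 0, .ofNat 365, .negSucc 37, .negSucc 57, .ofNat 0, .ofNat 128, .negSucc 68, .ofNat 0, .ofNat 0, .ofNat 796, .ofNat 22589, .ofNat 0, .ofNat 9119307673353604140145708045968815373579137843200,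 .ofNat 31642917051052116578211467745618803271982081114112, .ofNat 0, .ofNat 0, .ofNat 104428072436188315626075109659760290452931335946240, .ofNat 159747091289415353122175695482166533956197354045440, .ofNat 0, .ofNat 0, .ofNat 38156028996502428108210955898877035860690760368128, .ofNat 0, .ofNat 0, .ofNat 0, .ofNat 222804528309634682337793189518612145597220634230784, .ofNat 129136936558999462864439547937603411991765832433664, .ofNat 0⟩)
    (by decide +kernel)
theorem L01577 : Good (Phi V5.P V5.D 1 (-1)) ⟨2, 0, 3, 5, 4, 5, 4, 14, 5, 15⟩ :=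
  out_sound (S := T5.ds_pm) T5.ok_pm (w := 40) (j := 2) (by decide +kernel)
theorem L01578 : Good (Phi V5.P V5.D 1 (-1)) ⟨2, 0, 2, 2, 3, 2, 4, 15, 4, 7⟩ :=
  out_sound (S := T5.ds_pm) T5.ok_pm (w := 36) (j := 2) (by decide +kernel)
theorem L01579 : Good (Phi V5.P V5.D 1 (-1)) ⟨2, 0, 2, 2, 3, 3, 3, 4, 4, 6⟩ :=
  leafYS_sound T5.ok_pm T5.Ypm.bz_eq (w := 218) (c := ⟨⟨.negSucc 1024, .negSucc 127, .ofNat 29, .negSucc 8, .negSucc 0, .ofNat 66⟩, ⟨.ofNat 506, .ofNat 73, .ofNat 269, .ofNat 3, .ofNat 5, .negSucc 40⟩, ⟨.ofNat 1061, .ofNat 172, .ofNat 266, .ofNat 301, .ofNat 101, .ofNat 441⟩, ⟨.negSucc 3215, .negSucc 131, .negSucc 19, .negSucc 89, .negSucc 5, .ofNat 184⟩, ⟨.negSucc 210, .negSucc 42, .negSucc 24, .negSucc 107, .negSucc 1, .negSucc 19⟩, .ofNat 460, .ofNat 201, .ofNat 0, .ofNat 201, .ofNat 650, .ofNat 0, .ofNat 216, .negSucc 80, .negSucc 52, .ofNat 0, .ofNat 128, .ofNat 2, .ofNat 0, .ofNat 0, .ofNat 1886, .ofNat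 11096, .ofNat 0, .ofNat 0, .ofNat 138932981281781445330567613942504047509504, .ofNat 0, .ofNat 0, .ofNat 0, .ofNat 0, .ofNat 0, .ofNat 0, .ofNat 0, .ofNat 4942844980519820420033382410360311722803200, .ofNat 0, .ofNat 0, .ofNat 0, .ofNat 49168492249128739316403916448940429410304000, .ofNat 0⟩)
    (by decide +kernel)
theorem L01580 : Good (Phi V5.P V5.D 1 (-1)) ⟨2, 0, 2, 2, 3, 3, 3, 5, 5, 12⟩ :=
  leafYS_sound T5.ok_pm T5.Ypm.bz_eq (w := 222) (c := ⟨⟨.negSucc 1007, .negSucc 137, .ofNat 23, .negSucc 22, .negSucc 16, .ofNat 19⟩, ⟨.ofNat 498, .ofNat 77, .ofNat 279, .ofNat 11, .ofNat 12, .negSucc 15⟩, ⟨.ofNat 1088, .ofNat 274, .ofNat 261, .ofNat 404, .ofNat 104, .ofNat 166⟩, ⟨.negSucc 3145, .negSucc 185, .negSucc 34, .negSucc 147, .negSucc 53, .ofNat 57⟩, ⟨.negSucc 169, .negSucc 100, .negSucc 28, .negSucc 128, .negSucc 0, .negSucc 19⟩, .ofNat 903, .ofNat 716, .ofNat 0, .ofNat 716, .ofNat 1570, .ofNat 0, .ofNat 200, .negSucc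 127, .negSucc 48, .ofNat 0, .ofNat 127, .ofNat 9, .ofNat 0, .ofNat 0, .ofNat 2247, .ofNat 3453, .ofNat 0, .ofNat 0, .ofNat 6156927283893282029482771077547728989847552, .ofNat 0, .ofNat 0, .ofNat 0, .ofNat 0, .ofNat 0, .ofNat 0, .ofNat 49898555287816969720920085948501197815021568, .ofNat 125878126661271733278183040572887746830401536, .ofNat 0, .ofNat 0, .ofNat 0, .ofNat 0, .ofNat 0⟩)
    (by decide +kernel)
theorem L01581 : Good (Phi V5.P V5.D 1 (-1)) ⟨2, 0, 2, 2, 4, 6, 3, 5, 5, 13⟩ :=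
  leafYS_sound T5.ok_pm T5.Ypm.bz_eq (w := 238) (c := ⟨⟨.negSucc 988, .negSucc 134, .ofNat 26, .negSucc 2, .negSucc 20, .ofNat 29⟩, ⟨.ofNat 488, .ofNat 76, .ofNat 269, .ofNat 2, .ofNat 10, .negSucc 17⟩, ⟨.ofNat 1138, .ofNat 259, .ofNat 360, .ofNat 331, .ofNat 112, .ofNat 275⟩, ⟨.negSucc 3077, .negSucc 183, .negSucc 42, .negSucc 62, .negSucc 65, .ofNat 65⟩, ⟨.negSucc 151, .negSucc 93, .negSucc 56, .negSucc 89, .negSucc 20, .negSucc 34⟩, .ofNat 463, .ofNat 208, .ofNat 0, .ofNat 208, .ofNat 655, .ofNat 0, .ofNat 235, .negSucc 82, .negSucc 41, .ofNat 0, .ofNat 128, .negSucc 25, .ofNat 0, .ofNat 0, .ofNat 2292, .ofNat 20829, .ofNat 0, .ofNat 0, .ofNat 666590777944824430988382796667050801687190044672, .ofNat 0, .ofNat 0, .ofNat 0, .ofNat 0, .ofNat 0, .ofNat 0, .ofNat 0, .ofNat 2126319100652465378143382116815003874665590423552, .ofNat 0, .ofNat 0, .ofNat 0, .ofNat 48667526259723239939765879483767900200125388029952, .ofNat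 0⟩)
    (by decide +kernel)
theorem L01582 : Good (Phi V5.P V5.D 1 (-1)) ⟨2, 0, 2, 2, 4, 7, 4, 10, 5, 13⟩ :=
  leafYS_sound T5.ok_pm T5.Ypm.bz_eq (w := 242) (c := ⟨⟨.negSucc 1014, .negSucc 134, .ofNat 37, .ofNat 23, .negSucc 0, .ofNat 54⟩, ⟨.ofNat 501, .ofNat 73, .ofNat 262, .negSucc 14, .negSucc 0, .negSucc 34⟩, ⟨.ofNat 1157, .ofNat 323, .ofNat 500, .ofNat 559, .ofNat 189, .ofNat 584⟩, ⟨.negSucc 3159, .negSucc 182, .negSucc 30, .negSucc 28, .negSucc 29, .ofNat 106⟩, ⟨.negSucc 163, .negSucc 109, .negSucc 95, .negSucc 153, .negSucc 47, .negSucc 86⟩, .ofNat 461, .ofNat 203, .ofNat 0, .ofNat 203, .ofNat 652, .ofNat 0, .ofNat 128, .negSucc 97, .ofNat 10, .ofNat 0, .ofNat 153, .negSucc 72, .ofNat 0, .ofNat 0, .ofNat 3009, .ofNat 11000, .ofNat 0, .ofNat 0, .ofNat 7976513834182624796973135329956426850081026605056, .ofNat 0, .ofNat 0, .ofNat 0, .ofNat 16721352193994161668691113323354995153093762482176, .ofNat 0, .ofNat 0,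 .ofNat 0, .ofNat 41763666545150352030999574245170530020426050961408, .ofNat 0, .ofNat 0, .ofNat 27153210591843554270662944506324879589377820327936, .ofNat 963394503217657094445731546392662035869673386409984, .ofNat 0⟩)
    (by decide +kernel)
theorem L01583 : Good (Phi V5.P V5.D 1 (-1)) ⟨3, 0, 3, 4, 5, 14, 4, 11, 5, 13⟩ :=
  leafYS_sound T5.ok_pm T5.Ypm.bz_eq (w := 264) (c := ⟨⟨.negSucc 1023, .negSucc 42, .ofNat 20, .ofNat 8, .negSucc 4, .ofNat 47⟩, ⟨.ofNat 501, .ofNat 42, .ofNat 128, .negSucc 7, .ofNat 2, .negSucc 28⟩, ⟨.ofNat 1313, .ofNat 160, .ofNat 276, .ofNat 268, .ofNat 150, .ofNat 476⟩, ⟨.negSucc 3173, .negSucc 107, .negSucc 14, .negSucc 6, .negSucc 27, .ofNat 88⟩, ⟨.negSucc 202, .negSucc 71, .negSucc 53, .negSucc 49, .negSucc 17, .negSucc 76⟩, .ofNat 1781, .ofNat 1967, .ofNat 0, .ofNat 1967, .ofNat 3665, .ofNat 0, .ofNat 147, .negSucc 127, .ofNat 28, .ofNat 0, .ofNat 106, .negSucc 30, .ofNat 0, .ofNat 0, .ofNat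 2162, .ofNat 25689, .ofNat 0, .ofNat 0, .ofNat 173389437479882426952172448326284296236367922163875840, .ofNat 0, .ofNat 0, .ofNat 0, .ofNat 0, .ofNat 0, .ofNat 0, .ofNat 0, .ofNat 0, .ofNat 0, .ofNat 0, .ofNat 11427226332908559310147170880149908426308378244352573440, .ofNat 0, .ofNat 0⟩)
    (by decide +kernel)
theorem L01584 : Good (Phi V5.P V5.D 1 (-1)) ⟨3, 0, 3, 4, 5, 15, 4, 11, 5, 13⟩ :=
  leafYS_sound T5.ok_pm T5.Ypm.bz_eq (w := 263) (c := ⟨⟨.negSucc 1023, .negSucc 41, .ofNat 24, .ofNat 9, .negSucc 1, .ofNat 54⟩, ⟨.ofNat 497, .ofNat 42, .ofNat 126, .negSucc 7, .ofNat 0, .negSucc 34⟩, ⟨.ofNat 1510, .ofNat 163, .ofNat 306, .ofNat 258, .ofNat 196, .ofNat 560⟩, ⟨.negSucc 3190, .negSucc 111, .negSucc 12, .negSucc 9, .negSucc 28, .ofNat 107⟩, ⟨.negSucc 238, .negSucc 68, .negSucc 60, .negSucc 70, .negSucc 39, .negSucc 89⟩, .ofNat 886, .ofNat 671, .ofNat 0, .ofNat 671, .ofNat 1510, .ofNat 0, .ofNat 128, .negSucc 128,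 .ofNat 83, .ofNat 0, .ofNat 134, .negSucc 89, .ofNat 0, .ofNat 0, .ofNat 3026, .ofNat 15767, .ofNat 0, .ofNat 186856074616359478082470984797970448950480858383384576, .ofNat 48718372195070687609363617458104572861838323559170048, .ofNat 0, .ofNat 0, .ofNat 0, .ofNat 0, .ofNat 0, .ofNat 0, .ofNat 1835226935825187604162628353200953094792416467166953472, .ofNat 0, .ofNat 0, .ofNat 0, .ofNat 49002911484107655330304680064098851042471647984677289984, .ofNat 0, .ofNat 0⟩)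
    (by decide +kernel)
theorem L01585 : Good (Phi V5.P V5.D 1 (-1)) ⟨3, 1, 3, 4, 4, 7, 4, 11, 5, 13⟩ :=
  leafYS_sound T5.ok_pm T5.Ypm.bz_eq (w := 248) (c := ⟨⟨.negSucc 1068, .negSucc 97, .ofNat 19, .ofNat 22, .negSucc 14, .ofNat 54⟩, ⟨.ofNat 542, .ofNat 40, .ofNat 132, .negSucc 18, .ofNat 9, .negSucc 36⟩, ⟨.ofNat 1435, .ofNat 129, .ofNat 259, .ofNat 623, .ofNat 113, .ofNat 566⟩, ⟨.negSucc 3261, .negSucc 118, .negSucc 19, .negSucc 33, .negSucc 68, .ofNat 107⟩, ⟨.negSucc 234, .negSucc 55, .negSucc 50, .negSucc 166, .negSucc 40, .negSucc 92⟩, .ofNat 888, .ofNat 704, .ofNat 0, .ofNat 704, .ofNat 1560, .ofNat 0, .ofNat 138, .negSucc 127, .ofNat 48, .ofNat 0, .ofNat 127, .negSucc 61, .ofNat 0, .ofNat 0, .ofNat 2844, .ofNat 6928, .ofNat 0, .ofNat 18273052472093376901165349251090169473966081572864, .ofNat 0, .ofNat 0, .ofNat 0, .ofNat 0, .ofNat 0, .ofNat 0, .ofNat 0, .ofNat 262262338015274131806219057592873957587218916704256,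 .ofNat 0, .ofNat 0, .ofNat 0, .ofNat 7060363223034420811956186191055680705232289352646656, .ofNat 0, .ofNat 0⟩)
    (by decide +kernel)
theorem L01586 : Good (Phi V5.P V5.D 1 (-1)) ⟨2, 0, 4, 10, 5, 14, 4, 11, 5, 13⟩ :=
  leafYS_sound T5.ok_pm T5.Ypm.bz_eq (w := 262) (c := ⟨⟨.negSucc 980, .negSucc 172, .ofNat 20, .ofNat 17, .negSucc 4, .ofNat 56⟩, ⟨.ofNat 640, .ofNat 74, .ofNat 66, .negSucc 10, .ofNat 2, .negSucc 37⟩, ⟨.ofNat 1397, .ofNat 367, .ofNat 174, .ofNat 373, .ofNat 235, .ofNat 595⟩, ⟨.negSucc 3170, .negSucc 223, .negSucc 4, .negSucc 20, .negSucc 55, .ofNat 97⟩, ⟨.negSucc 180, .negSucc 138, .negSucc 36, .negSucc 103, .negSucc 70, .negSucc 104⟩, .ofNat 486, .ofNat 242, .ofNat 0, .ofNat 242, .ofNat 674, .ofNat 0, .ofNat 140, .negSucc 90, .ofNat 35, .ofNat 0, .ofNat 128, .negSucc 91, .ofNat 0, .ofNat 0, .ofNat 2709, .ofNat 16797, .ofNat 0, .ofNat 52302565801361319607216943928060518656692720939040768, .ofNat 680294969818896317607951847791192972674116075093229568,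 .ofNat 0, .ofNat 0, .ofNat 0, .ofNat 4079189182063240110808009898163176948103763177920004096, .ofNat 0, .ofNat 0, .ofNat 0, .ofNat 3329560308345160273564258424174037743689090788484972544, .ofNat 0, .ofNat 0, .ofNat 8769154221656239545584175098767317149302396084392296448, .ofNat 84775039129771443253664394556806818180514558478185922560, .ofNat 0⟩)
    (by decide +kernel)
theorem L01587 : Good (Phi V5.P V5.D 1 (-1)) ⟨2, 0, 4, 10, 5, 15, 5, 22, 5, 13⟩ :=
  leafYS_sound T5.ok_pm T5.Ypm.bz_eq (w := 266) (c := ⟨⟨.negSucc 978, .negSucc 171, .ofNat 22, .ofNat 27, .ofNat 1, .ofNat 78⟩, ⟨.ofNat 644, .ofNat 68, .ofNat 63, .negSucc 18, .negSucc 0, .negSucc 51⟩, ⟨.ofNat 1561, .ofNat 426, .ofNat 214, .ofNat 459, .ofNat 145, .ofNat 836⟩, ⟨.negSucc 3211, .negSucc 215, .negSucc 4, .negSucc 1, .negSucc 23, .ofNat 125⟩, ⟨.negSucc 227, .negSucc 150, .negSucc 48, .negSucc 126, .negSucc 45, .negSucc 156⟩, .ofNat 486, .ofNat 242, .ofNat 0,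 .ofNat 242, .ofNat 674, .ofNat 0, .ofNat 157, .negSucc 90, .ofNat 76, .ofNat 0, .ofNat 128, .negSucc 116, .ofNat 0, .ofNat 0, .ofNat 2646, .ofNat 14156, .ofNat 0, .ofNat 292641046500160313951334624709136417292097720063885312, .ofNat 14774894367953765264523796019551724325119512013961166848, .ofNat 0, .ofNat 0, .ofNat 0, .ofNat 0, .ofNat 0, .ofNat 0, .ofNat 533076621454547147238731442767963713904784062564794368, .ofNat 89191597026205722511188185561804538213765637610114383872, .ofNat 0, .ofNat 0, .ofNat 69763544486561722101921691091856052549834084827472592896, .ofNat 457310952546978311604250650089219978228474252155133362176, .ofNat 0⟩)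
    (by decide +kernel)
theorem L01588 : Good (Phi V5.P V5.D 1 (-1)) ⟨2, 0, 4, 10, 5, 15, 5, 23, 5, 13⟩ :=
  leafYS_sound T5.ok_pm T5.Ypm.bz_eq (w := 266) (c := ⟨⟨.negSucc 977, .negSucc 171, .ofNat 26, .ofNat 22, .negSucc 1, .ofNat 78⟩, ⟨.ofNat 641, .ofNat 72, .ofNat 62, .negSucc 16, .negSucc 1, .negSucc 53⟩, ⟨.ofNat 1697, .ofNat 423, .ofNat 239, .ofNat 431, .ofNat 164, .ofNat 859⟩, ⟨.negSucc 3216, .negSucc 239, .negSucc 3, .negSucc 10, .negSucc 27, .ofNat 120⟩, ⟨.negSucc 250, .negSucc 169, .negSucc 51, .negSucc 125, .negSucc 48, .negSucc 173⟩, .ofNat 486, .ofNat 242, .ofNat 0, .ofNat 242, .ofNat 674, .ofNat 0, .ofNat 150, .negSucc 90, .ofNat 89, .ofNat 0, .ofNat 128, .negSucc 124, .ofNat 0, .ofNat 0, .ofNat 2317, .ofNat 11122, .ofNat 0, .ofNat 364434098070386806775266504616254936543632704225148928, .ofNat 14647868776510963312337259760956442930916271799291346944, .ofNat 0, .ofNat 0, .ofNat 0, .ofNat 0, .ofNat 0, .ofNat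 0, .ofNat 2862287188517779435233247989227573725117272277504753664, .ofNat 36271511906139428798141183966901681458248547045054873600, .ofNat 0, .ofNat 0, .ofNat 81947557943663766307665435942312291899054056666491256832, .ofNat 0, .ofNat 0⟩)
    (by decide +kernel)
theorem L01589 : Good (Phi V5.P V5.D 1 (-1)) ⟨2, 0, 4, 11, 4, 7, 4, 11, 5, 13⟩ :=
  out_sound (S := T5.ds_pm) T5.ok_pm (w := 41) (j := 3) (by decide +kernel)
theorem L01590 : Good (Phi V5.P V5.D 1 (-1)) ⟨2, 0, 2, 2, 3, 3, 3, 4, 4, 7⟩ :=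
  leafYS_sound T5.ok_pm T5.Ypm.bz_eq (w := 220) (c := ⟨⟨.negSucc 1030, .negSucc 123, .ofNat 50, .ofNat 41, .ofNat 34, .ofNat 160⟩, ⟨.ofNat 500, .ofNat 65, .ofNat 250, .negSucc 26, .negSucc 2, .negSucc 128⟩, ⟨.ofNat 570, .ofNat 354, .ofNat 678, .ofNat 996, .ofNat 450, .ofNat 2376⟩, ⟨.negSucc 3056, .negSucc 153, .negSucc 16, .negSucc 24, .negSucc 15, .ofNat 281⟩, ⟨.negSucc 18, .negSucc 104, .negSucc 108, .negSucc 230, .negSucc 93, .negSucc 396⟩, .ofNat 460, .ofNat 201, .ofNat 0, .ofNat 201, .ofNat 650, .ofNat 0, .ofNat 129, .negSucc 80, .ofNat 38, .ofNat 0, .ofNat 128, .negSucc 86, .ofNat 0, .ofNat 0, .ofNat 3252, .ofNat 24023, .ofNat 216383515801098913009844027877797834533109760, .ofNat 0, .ofNat 1228074562272269055863514413777815232053248, .ofNat 0, .ofNat 2450802164258764717171779052614278086377078784, .ofNat 0, .ofNat 0, .ofNat 0, .ofNat 2805697100116603976546128880634893673485565952, .ofNat 0, .ofNat 3875778779864122097020087317180818621726720,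 .ofNat 0, .ofNat 65271607198109223388400395842157141110923722752, .ofNat 0, .ofNat 64992306011022225915267583259194407576928256, .ofNat 0⟩)
    (by decide +kernel)
theorem L01591 : Good (Phi V5.P V5.D 1 (-1)) ⟨2, 0, 3, 4, 4, 6, 3, 5, 5, 14⟩ :=
  leafYS_sound T5.ok_pm T5.Ypm.bz_eq (w := 241) (c := ⟨⟨.negSucc 972, .negSucc 133, .ofNat 20, .ofNat 15, .negSucc 21, .ofNat 50⟩, ⟨.ofNat 479, .ofNat 78, .ofNat 131, .negSucc 12, .ofNat 10, .negSucc 29⟩, ⟨.ofNat 1198, .ofNat 175, .ofNat 275, .ofNat 583, .ofNat 174, .ofNat 497⟩, ⟨.negSucc 3007, .negSucc 196, .negSucc 24, .negSucc 33, .negSucc 74, .ofNat 89⟩, ⟨.negSucc 127, .negSucc 82, .negSucc 52, .negSucc 141, .negSucc 39, .negSucc 81⟩, .ofNat 459, .ofNat 199, .ofNat 0, .ofNat 199, .ofNat 649, .ofNat 0, .ofNat 157, .negSucc 79, .ofNat 10, .ofNat 0, .ofNat 128, .negSucc 82, .ofNat 0, .ofNat 0, .ofNat 2923, .ofNat 18370, .ofNat 0, .ofNat 0, .ofNat 0, .ofNat 0, .ofNat 0, .ofNat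 0, .ofNat 0, .ofNat 0, .ofNat 12148519577793312329291016886050345704833010368512, .ofNat 0, .ofNat 0, .ofNat 0, .ofNat 0, .ofNat 81632829084099251012136493360497498358059053875200, .ofNat 0, .ofNat 0⟩)
    (by decide +kernel)
theorem L01592 : Good (Phi V5.P V5.D 1 (-1)) ⟨2, 0, 4, 10, 4, 6, 4, 10, 5, 14⟩ :=
  leafYS_sound T5.ok_pm T5.Ypm.bz_eq (w := 250) (c := ⟨⟨.negSucc 938, .negSucc 163, .ofNat 18, .ofNat 12, .negSucc 7, .ofNat 50⟩, ⟨.ofNat 610, .ofNat 73, .ofNat 63, .negSucc 7, .ofNat 6, .negSucc 34⟩, ⟨.ofNat 1415, .ofNat 202, .ofNat 195, .ofNat 510, .ofNat 84, .ofNat 636⟩, ⟨.negSucc 3025, .negSucc 179, .negSucc 2, .negSucc 46, .negSucc 38, .ofNat 85⟩, ⟨.negSucc 168, .negSucc 77, .negSucc 29, .negSucc 120, .negSucc 21, .negSucc 104⟩, .ofNat 478, .ofNat 236, .ofNat 0, .ofNat 236, .ofNat 672, .ofNat 0, .ofNat 146, .negSucc 88, .negSucc 7, .ofNat 0, .ofNat 128, .negSucc 55, .ofNat 0, .ofNat 0, .ofNat 2911, .ofNat 79050,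 .ofNat 0, .ofNat 0, .ofNat 0, .ofNat 0, .ofNat 18464196505377607190496486439505878644688387477340160, .ofNat 0, .ofNat 441236147308047059523799195585255126901208475762688, .ofNat 0, .ofNat 28156411036921219515097304654010124764037209095405568, .ofNat 0, .ofNat 0, .ofNat 0, .ofNat 408785981020404219190144625323932343868634559917588480, .ofNat 0, .ofNat 6569115243599680931499992923949663610189886290657280, .ofNat 0⟩)
    (by decide +kernel)
theorem L01593 : Good (Phi V5.P V5.D 1 (-1)) ⟨2, 0, 4, 10, 4, 6, 4, 11, 6, 28⟩ :=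
  leafYS_sound T5.ok_pm T5.Ypm.bz_eq (w := 254) (c := ⟨⟨.negSucc 939, .negSucc 166, .ofNat 13, .ofNat 14, .negSucc 12, .ofNat 18⟩, ⟨.ofNat 616, .ofNat 73, .ofNat 66, .negSucc 11, .ofNat 8, .negSucc 13⟩, ⟨.ofNat 1439, .ofNat 296, .ofNat 160, .ofNat 618, .ofNat 98, .ofNat 219⟩, ⟨.negSucc 3030, .negSucc 215, .negSucc 12, .negSucc 50, .negSucc 56, .ofNat 35⟩, ⟨.negSucc 151, .negSucc 132, .negSucc 26, .negSucc 144, .negSucc 31, .negSucc 35⟩, .ofNat 1565, .ofNat 1646, .ofNat 0, .ofNat 1646, .ofNat 2919, .ofNat 0, .ofNat 128, .negSucc 146, .ofNat 26, .ofNat 0, .ofNat 121, .negSucc 29, .ofNat 0, .ofNat 0, .ofNat 2389, .ofNat 32489, .ofNat 0, .ofNat 0, .ofNat 3548382461334849825989376049348208842324697772195840, .ofNat 0, .ofNat 0, .ofNat 0, .ofNat 33833169863280931181370428910717892151238355020939264, .ofNat 0, .ofNat 0, .ofNat 0, .ofNat 0, .ofNat 0, .ofNat 0, .ofNat 14988331268575882506413447245932118491024029867048960, .ofNat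 136507066735427477192045481175481231373231689291530240, .ofNat 0⟩)
    (by decide +kernel)
theorem L01594 : Good (Phi V5.P V5.D 1 (-1)) ⟨2, 0, 4, 10, 4, 6, 4, 11, 6, 29⟩ :=
  leafYS_sound T5.ok_pm T5.Ypm.bz_eq (w := 255) (c := ⟨⟨.negSucc 942, .negSucc 165, .ofNat 27, .ofNat 49, .negSucc 7, .ofNat 30⟩, ⟨.ofNat 614, .ofNat 74, .ofNat 58, .negSucc 32, .ofNat 5, .negSucc 18⟩, ⟨.ofNat 1378, .ofNat 288, .ofNat 305, .ofNat 1097, .ofNat 164, .ofNat 388⟩, ⟨.negSucc 3009, .negSucc 212, .negSucc 0, .negSucc 24, .negSucc 56, .ofNat 41⟩, ⟨.negSucc 112, .negSucc 126, .negSucc 50, .negSucc 262, .negSucc 60, .negSucc 68⟩, .ofNat 477, .ofNat 235, .ofNat 0, .ofNat 235, .ofNat 672, .ofNat 0, .ofNat 128, .negSucc 115, .ofNat 60, .ofNat 0, .ofNat 167, .negSucc 135, .ofNat 0, .ofNat 0, .ofNat 3793, .ofNat 39443, .ofNat 0, .ofNat 249411551744601747049924864147735150465050564624384, .ofNat 5243408340573317789547417497179009067273757367730176,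 .ofNat 0, .ofNat 0, .ofNat 0, .ofNat 8406435340370537070694039111183011233147248837656576, .ofNat 0, .ofNat 0, .ofNat 0, .ofNat 0, .ofNat 0, .ofNat 0, .ofNat 33101544681353350030184465494248911619579095375937536, .ofNat 291165153929570593995555843977787608983133600014663680, .ofNat 0⟩)
    (by decide +kernel)
theorem L01595 : Good (Phi V5.P V5.D 1 (-1)) ⟨2, 0, 4, 11, 4, 6, 3, 5, 5, 14⟩ :=
  out_sound (S := T5.ds_pm) T5.ok_pm (w := 41) (j := 3) (by decide +kernel)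
theorem L01596 : Good (Phi V5.P V5.D 1 (-1)) ⟨2, 0, 2, 2, 4, 6, 4, 10, 6, 30⟩ :=
  out_sound (S := T5.ds_pm) T5.ok_pm (w := 34) (j := 1) (by decide +kernel)
theorem L01597 : Good (Phi V5.P V5.D 1 (-1)) ⟨2, 0, 3, 4, 4, 6, 4, 11, 6, 30⟩ :=
  leafYS_sound T5.ok_pm T5.Ypm.bz_eq (w := 252) (c := ⟨⟨.negSucc 910, .negSucc 134, .ofNat 46, .ofNat 15, .negSucc 62, .ofNat 70⟩, ⟨.ofNat 472, .ofNat 73, .ofNat 114, .negSucc 36, .ofNat 15, .negSucc 19⟩, ⟨.ofNat 1430, .ofNat 335, .ofNat 662, .ofNat 1084, .negSucc 169, .ofNat 503⟩, ⟨.negSucc 2920, .negSucc 216, .negSucc 8, .negSucc 28, .negSucc 94, .ofNat 59⟩, ⟨.negSucc 91, .negSucc 144, .negSucc 124, .negSucc 275, .negSucc 7, .negSucc 96⟩, .ofNat 457, .ofNat 197, .ofNat 0, .ofNat 197, .ofNat 648, .ofNat 0, .ofNat 196, .negSucc 78, .ofNat 77, .ofNat 0, .ofNat 128, .negSucc 142, .ofNat 0, .ofNat 0, .ofNat 3234, .ofNat 70010, .ofNat 0, .ofNat 0, .ofNat 0, .ofNat 0, .ofNat 60750481753351207303664739454089813981059667147620352,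 .ofNat 0, .ofNat 0, .ofNat 0, .ofNat 35931277829121474803991519670944324990300753101848576, .ofNat 136253380510387435964960188584311787651838567776256, .ofNat 0, .ofNat 0, .ofNat 630984303022069217006949109380850969803179677148250112, .ofNat 6222466255682933507247334374994031385927699465764864, .ofNat 0, .ofNat 0⟩)
    (by decide +kernel)
theorem L01598 : Good (Phi V5.P V5.D 1 (-1)) ⟨2, 0, 3, 5, 4, 6, 4, 11, 6, 30⟩ :=
  leafYS_sound T5.ok_pm T5.Ypm.bz_eq (w := 253) (c := ⟨⟨.negSucc 938, .negSucc 161, .ofNat 55, .ofNat 95, .negSucc 11, .ofNat 42⟩, ⟨.ofNat 609, .ofNat 69, .ofNat 110, .negSucc 62, .ofNat 13, .negSucc 35⟩, ⟨.ofNat 1421, .ofNat 402, .ofNat 777, .ofNat 1732, .ofNat 31, .ofNat 725⟩, ⟨.negSucc 2968, .negSucc 238, .negSucc 13, .ofNat 20, .negSucc 65, .ofNat 50⟩, ⟨.negSucc 104, .negSucc 188, .negSucc 141, .negSucc 371, .negSucc 18, .negSucc 141⟩, .ofNat 2386, .ofNat 2849, .ofNat 0, .ofNat 2849, .ofNat 4747,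 .ofNat 0, .ofNat 128, .negSucc 204, .ofNat 169, .ofNat 0, .ofNat 156, .negSucc 131, .ofNat 0, .ofNat 0, .ofNat 5078, .ofNat 65412, .ofNat 1565910248411463282772080253163583987626576221044736, .ofNat 73049212704622991106709608519762628336226331000832, .ofNat 4526437809328787274725365102071089072089316160700416, .ofNat 0, .ofNat 0, .ofNat 0, .ofNat 0, .ofNat 0, .ofNat 84015318000245984619472476143598250686806949791531008, .ofNat 234208330344602180091651189560406981207470672707584, .ofNat 17933719900947993628416961482017415299826735544008704, .ofNat 0, .ofNat 1027519109491835389992051715306208761250272818233344000, .ofNat 12721137813467812319843724121537495351496169433858048, .ofNat 307599534873813681040890822120549585236033437400301568, .ofNat 0⟩)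
    (by decide +kernel)
theorem L01599 : Good (Phi V5.P V5.D 1 (-1)) ⟨2, 0, 2, 2, 4, 6, 3, 5, 6, 31⟩ :=
  out_sound (S := T5.ds_pm) T5.ok_pm (w := 33) (j := 1) (by decide +kernel)
theorem L01600 : Good (Phi V5.P V5.D 1 (-1)) ⟨2, 0, 2, 2, 5, 14, 4, 10, 5, 14⟩ :=
  leafYS_sound T5.ok_pm T5.Ypm.bz_eq (w := 256) (c := ⟨⟨.negSucc 977, .negSucc 134, .ofNat 57, .ofNat 23, .negSucc 10, .ofNat 72⟩, ⟨.ofNat 488, .ofNat 68, .ofNat 248, .negSucc 16, .ofNat 0, .negSucc 48⟩, ⟨.ofNat 1373, .ofNat 363, .ofNat 745, .ofNat 458, .ofNat 117, .ofNat 959⟩, ⟨.negSucc 3077, .negSucc 187, .negSucc 15, .ofNat 6, .negSucc 29, .ofNat 120⟩, ⟨.negSucc 176, .negSucc 132, .negSucc 114, .negSucc 107, .negSucc 31, .negSucc 166⟩, .ofNat 461, .ofNat 203, .ofNat 0, .ofNat 203, .ofNat 652, .ofNat 0, .ofNat 158, .negSucc 80, .ofNat 67, .ofNat 0, .ofNat 128, .negSucc 121, .ofNat 0, .ofNat 0, .ofNat 3455, .ofNat 17343, .ofNat 0, .ofNat 0, .ofNat 250868942312555396458567493560658698542385240544903168,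 .ofNat 0, .ofNat 0, .ofNat 0, .ofNat 0, .ofNat 0, .ofNat 0, .ofNat 0, .ofNat 587527344543201933715871303720884952144510443642159104, .ofNat 0, .ofNat 8470301066012284316537826127416329625472917749471641600, .ofNat 207538026185199846889456872996366638162490260356857856, .ofNat 23997299618899402024685273638136560411455456900494131200, .ofNat 0⟩)
    (by decide +kernel)
theorem L01601 : Good (Phi V5.P V5.D 1 (-1)) ⟨2, 0, 3, 4, 5, 15, 4, 10, 6, 28⟩ :=
  leafYS_sound T5.ok_pm T5.Ypm.bz_eq (w := 264) (c := ⟨⟨.negSucc 988, .negSucc 130, .ofNat 43, .ofNat 31, .ofNat 15, .ofNat 41⟩, ⟨.ofNat 492, .ofNat 68, .ofNat 113, .negSucc 24, .negSucc 14, .negSucc 28⟩, ⟨.ofNat 1385, .ofNat 382, .ofNat 583, .ofNat 581, .ofNat 452, .ofNat 563⟩, ⟨.negSucc 3087, .negSucc 193, .ofNat 1, .ofNat 20, .negSucc 13, .ofNat 64⟩, ⟨.negSucc 179, .negSucc 138, .negSucc 106, .negSucc 132, .negSucc 108, .negSucc 102⟩, .ofNat 872, .ofNat 670, .ofNat 0,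 .ofNat 670, .ofNat 1521, .ofNat 0, .ofNat 209, .negSucc 124, .ofNat 132, .ofNat 0, .ofNat 128, .negSucc 129, .ofNat 0, .ofNat 0, .ofNat 4748, .ofNat 18100, .ofNat 0, .ofNat 98332990766187527887104584407127290060458118824853504, .ofNat 3698180718847883694788105974978072232979609067353800704, .ofNat 0, .ofNat 0, .ofNat 0, .ofNat 0, .ofNat 0, .ofNat 0, .ofNat 373435750685774412426703847659436995074010165406597120, .ofNat 0, .ofNat 0, .ofNat 0, .ofNat 0, .ofNat 0, .ofNat 0⟩)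
    (by decide +kernel)
theorem L01602 : Good (Phi V5.P V5.D 1 (-1)) ⟨2, 0, 4, 10, 5, 15, 5, 20, 6, 28⟩ :=
  leafYS_sound T5.ok_pm T5.Ypm.bz_eq (w := 273) (c := ⟨⟨.negSucc 949, .negSucc 151, .ofNat 33, .ofNat 49, .ofNat 10, .ofNat 60⟩, ⟨.ofNat 621, .ofNat 62, .ofNat 50, .negSucc 32, .negSucc 9, .negSucc 39⟩, ⟨.ofNat 1680, .ofNat 441, .ofNat 436, .ofNat 750, .ofNat 285, .ofNat 774⟩, ⟨.negSucc 3115, .negSucc 172, .ofNat 8, .ofNat 30, .negSucc 3, .ofNat 86⟩, ⟨.negSucc 230, .negSucc 132, .negSucc 88, .negSucc 172, .negSucc 70, .negSucc 136⟩, .ofNat 477, .ofNat 234, .ofNat 0, .ofNat 234, .ofNat 672, .ofNat 0, .ofNat 128, .negSucc 100, .ofNat 151, .ofNat 0, .ofNat 145, .negSucc 199, .ofNat 0, .ofNat 0, .ofNat 4896, .ofNat 44934, .ofNat 0, .ofNat 0, .ofNat 0, .ofNat 0, .ofNat 0, .ofNat 0, .ofNat 1744338599193247274915194575584197357319454491356476473344, .ofNat 0, .ofNat 0, .ofNat 0, .ofNat 1431762840317320855887763449003779755930321141381011079168,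 .ofNat 0, .ofNat 0, .ofNat 0, .ofNat 0, .ofNat 0⟩)
    (by decide +kernel)
theorem L01603 : Good (Phi V5.P V5.D 1 (-1)) ⟨3, 0, 4, 10, 5, 15, 5, 21, 6, 28⟩ :=
  leafYS_sound T5.ok_pm T5.Ypm.bz_eq (w := 277) (c := ⟨⟨.negSucc 968, .negSucc 44, .ofNat 23, .ofNat 53, .ofNat 16, .ofNat 60⟩, ⟨.ofNat 611, .ofNat 35, .ofNat 56, .negSucc 36, .negSucc 10, .negSucc 40⟩, ⟨.ofNat 1871, .ofNat 271, .ofNat 297, .ofNat 806, .ofNat 304, .ofNat 789⟩, ⟨.negSucc 3121, .negSucc 89, .negSucc 0, .ofNat 39, .negSucc 0, .ofNat 89⟩, ⟨.negSucc 277, .negSucc 78, .negSucc 60, .negSucc 184, .negSucc 73, .negSucc 141⟩, .ofNat 488, .ofNat 239, .ofNat 0, .ofNat 239, .ofNat 677, .ofNat 0, .ofNat 128, .negSucc 148, .ofNat 215, .ofNat 0, .ofNat 213, .negSucc 270, .ofNat 0, .ofNat 0, .ofNat 5645, .ofNat 57630, .ofNat 0, .ofNat 127320936004675436866598679962829471398052344962190671872, .ofNat 489427093770814070463899856767011855728111539117149388800, .ofNat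 0, .ofNat 0, .ofNat 97999382565720936665972477719350999234681095425351483392, .ofNat 972684056677918126780782414396009249189440433807322775552, .ofNat 0, .ofNat 0, .ofNat 403829380664924016800660379206940702858912579420631859200, .ofNat 2831812110208792097095765061984462793837433386353089839104, .ofNat 0, .ofNat 0, .ofNat 31250433587728049987313507003662896432659334638357778006016, .ofNat 60234430626584079860316160004530071141746595221537233567744, .ofNat 0⟩)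
    (by decide +kernel)
theorem L01604 : Good (Phi V5.P V5.D 1 (-1)) ⟨3, 1, 4, 10, 5, 15, 5, 21, 6, 28⟩ :=
  leafYS_sound T5.ok_pm T5.Ypm.bz_eq (w := 277) (c := ⟨⟨.negSucc 1008, .negSucc 86, .ofNat 33, .ofNat 50, .ofNat 11, .ofNat 60⟩, ⟨.ofNat 643, .ofNat 33, .ofNat 53, .negSucc 34, .negSucc 7, .negSucc 39⟩, ⟨.ofNat 2187, .ofNat 186, .ofNat 392, .ofNat 766, .ofNat 262, .ofNat 773⟩, ⟨.negSucc 3202, .negSucc 96, .ofNat 5, .ofNat 32, .negSucc 13, .ofNat 85⟩, ⟨.negSucc 361, .negSucc 63, .negSucc 73, .negSucc 180, .negSucc 74, .negSucc 138⟩, .ofNat 481, .ofNat 243, .ofNat 0, .ofNat 243, .ofNat 678, .ofNat 0, .ofNat 128, .negSucc 125, .ofNat 184, .ofNat 0, .ofNat 176, .negSucc 226, .ofNat 0, .ofNat 0, .ofNat 4657, .ofNat 34600, .ofNat 0, .ofNat 95859364145148482884344105424158848743709531165098508288, .ofNat 273853441705512157903024157194409273499821003644646457344, .ofNat 0, .ofNat 0, .ofNat 0, .ofNat 0, .ofNat 0, .ofNat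 0, .ofNat 823832209153413612027025547914374232087384192255289982976, .ofNat 0, .ofNat 0, .ofNat 0, .ofNat 32014215657287151812848476162353090550669959656000391741440, .ofNat 1700058203977159339685312535982239843665154920325423562752, .ofNat 0⟩)
    (by decide +kernel)
theorem L01605 : Good (Phi V5.P V5.D 1 (-1)) ⟨2, 0, 4, 11, 5, 15, 4, 10, 6, 28⟩ :=
  out_sound (S := T5.ds_pm) T5.ok_pm (w := 41) (j := 3) (by decide +kernel)
theorem L01606 : Good (Phi V5.P V5.D 1 (-1)) ⟨2, 0, 3, 4, 5, 15, 4, 10, 6, 29⟩ :=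
  leafYS_sound T5.ok_pm T5.Ypm.bz_eq (w := 265) (c := ⟨⟨.negSucc 964, .negSucc 124, .ofNat 51, .ofNat 53, .ofNat 17, .ofNat 73⟩, ⟨.ofNat 477, .ofNat 65, .ofNat 103, .negSucc 34, .negSucc 16, .negSucc 42⟩, ⟨.ofNat 1653, .ofNat 419, .ofNat 766, .ofNat 831, .ofNat 519, .ofNat 925⟩, ⟨.negSucc 3041, .negSucc 180, .ofNat 10, .ofNat 44, .negSucc 14, .ofNat 99⟩, ⟨.negSucc 215, .negSucc 139, .negSucc 141, .negSucc 182, .negSucc 133, .negSucc 161⟩, .ofNat 459, .ofNat 198, .ofNat 0, .ofNat 198, .ofNat 649, .ofNat 0, .ofNat 239, .negSucc 79, .ofNat 135, .ofNat 0, .ofNat 128, .negSucc 170, .ofNat 0, .ofNat 0, .ofNat 3696, .ofNat 18949, .ofNat 0, .ofNat 109498109651678268200297193175919289608123584618692608, .ofNat 0, .ofNat 0, .ofNat 0, .ofNat 0, .ofNat 0, .ofNat 0, .ofNat 0, .ofNat 642229037874652043117768331866477182828486386302058496, .ofNat 0, .ofNat 0, .ofNat 0, .ofNat 31764475270358860668281437240110430330338060519516143616,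 .ofNat 0, .ofNat 0⟩)
    (by decide +kernel)
theorem L01607 : Good (Phi V5.P V5.D 1 (-1)) ⟨2, 0, 4, 10, 5, 15, 5, 20, 6, 29⟩ :=
  leafYS_sound T5.ok_pm T5.Ypm.bz_eq (w := 273) (c := ⟨⟨.negSucc 927, .negSucc 149, .ofNat 49, .ofNat 85, .ofNat 28, .ofNat 84⟩, ⟨.ofNat 602, .ofNat 65, .ofNat 43, .negSucc 57, .negSucc 19, .negSucc 54⟩, ⟨.ofNat 2013, .ofNat 380, .ofNat 596, .ofNat 1245, .ofNat 489, .ofNat 1167⟩, ⟨.negSucc 3049, .negSucc 181, .ofNat 15, .ofNat 68, .ofNat 1, .ofNat 110⟩, ⟨.negSucc 268, .negSucc 127, .negSucc 110, .negSucc 267, .negSucc 119, .negSucc 200⟩, .ofNat 1025, .ofNat 890, .ofNat 0, .ofNat 890, .ofNat 1757, .ofNat 0, .ofNat 142, .negSucc 127, .ofNat 192, .ofNat 0, .ofNat 119, .negSucc 163, .ofNat 0, .ofNat 0, .ofNat 4747, .ofNat 53299, .ofNat 0, .ofNat 2431205215471313428269135048875909757662185550688288768, .ofNat 680348492497891723557516009458637014734692961838816034816, .ofNat 0, .ofNat 0, .ofNat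 0, .ofNat 0, .ofNat 0, .ofNat 21460977177125563633077002997260671579484543984946110267392, .ofNat 32583262242333693300405570505604059510101712574561124352, .ofNat 3638008963065781669637723999782270610926463481885835132928, .ofNat 0, .ofNat 391010261229100435413337648649615041003168022438473218654208, .ofNat 1928608974567144663568176427907329947095887399993714147328, .ofNat 31593409307744678529929422942167492423483068207826139611136, .ofNat 0⟩)
    (by decide +kernel)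
theorem L01608 : Good (Phi V5.P V5.D 1 (-1)) ⟨2, 0, 4, 10, 6, 30, 5, 21, 6, 29⟩ :=
  leafYS_sound T5.ok_pm T5.Ypm.bz_eq (w := 286) (c := ⟨⟨.negSucc 910, .negSucc 146, .ofNat 49, .ofNat 47, .ofNat 27, .ofNat 100⟩, ⟨.ofNat 590, .ofNat 63, .ofNat 44, .negSucc 32, .negSucc 19, .negSucc 64⟩, ⟨.ofNat 2319, .ofNat 463, .ofNat 604, .ofNat 708, .ofNat 498, .ofNat 1375⟩, ⟨.negSucc 3051, .negSucc 186, .ofNat 14, .ofNat 41, .ofNat 2, .ofNat 117⟩, ⟨.negSucc 342, .negSucc 145, .negSucc 115, .negSucc 151, .negSucc 121, .negSucc 253⟩, .ofNat 478, .ofNat 235, .ofNat 0, .ofNat 235, .ofNat 672, .ofNat 0, .ofNat 197, .negSucc 88, .ofNat 261, .ofNat 0, .ofNat 128, .negSucc 310, .ofNat 0, .ofNat 0, .ofNat 6138, .ofNat 30481, .ofNat 0, .ofNat 27619150323039837779104295215007738529043876109537912029184, .ofNat 9321466274341672744496783750834865450703266294397624091934720, .ofNat 0, .ofNat 0, .ofNat 0, .ofNat 0, .ofNat 0, .ofNat 0, .ofNat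 155854231364569514776183515610215062661768171561968994353152, .ofNat 16247415511582596071015868694455946124553964685310963428098048, .ofNat 0, .ofNat 0, .ofNat 13372832226744000631513257217541285473003114617906558983471104, .ofNat 0, .ofNat 0⟩)
    (by decide +kernel)
theorem L01609 : Good (Phi V5.P V5.D 1 (-1)) ⟨2, 0, 4, 10, 6, 31, 5, 21, 6, 29⟩ :=
  leafYS_sound T5.ok_pm T5.Ypm.bz_eq (w := 287) (c := ⟨⟨.negSucc 869, .negSucc 142, .ofNat 54, .ofNat 48, .ofNat 35, .ofNat 105⟩, ⟨.ofNat 566, .ofNat 58, .ofNat 39, .negSucc 36, .negSucc 28, .negSucc 72⟩, ⟨.ofNat 2885, .ofNat 531, .ofNat 670, .ofNat 744, .ofNat 643, .ofNat 1492⟩, ⟨.negSucc 3025, .negSucc 180, .ofNat 19, .ofNat 49, .ofNat 14, .ofNat 135⟩, ⟨.negSucc 469, .negSucc 157, .negSucc 125, .negSucc 162, .negSucc 155, .negSucc 271⟩, .ofNat 478, .ofNat 236, .ofNat 0, .ofNat 236, .ofNat 672, .ofNat 0, .ofNat 421, .negSucc 89, .ofNat 202, .ofNat 0, .ofNat 128, .negSucc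 230, .ofNat 0, .ofNat 0, .ofNat 4366, .ofNat 46800, .ofNat 0, .ofNat 77476403083009688994328748871432985262865469336046675165184, .ofNat 8397947496590336155814311574123973536646619074447772756213760, .ofNat 0, .ofNat 0, .ofNat 0, .ofNat 0, .ofNat 0, .ofNat 0, .ofNat 623741307102957172450507278382501154423995962716494900494336, .ofNat 0, .ofNat 0, .ofNat 0, .ofNat 15378325019075354892839471030013453239495413074992123552464896, .ofNat 430494781280732435097025038954788008244093755830856620563234816, .ofNat 0⟩)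
    (by decide +kernel)
theorem L01610 : Good (Phi V5.P V5.D 1 (-1)) ⟨2, 0, 4, 11, 5, 15, 4, 10, 6, 29⟩ :=
  out_sound (S := T5.ds_pm) T5.ok_pm (w := 41) (j := 3) (by decide +kernel)
theorem L01611 : Good (Phi V5.P V5.D 1 (-1)) ⟨2, 0, 3, 4, 5, 14, 4, 11, 6, 28⟩ :=
  leafYS_sound T5.ok_pm T5.Ypm.bz_eq (w := 264) (c := ⟨⟨.negSucc 998, .negSucc 136, .ofNat 38, .ofNat 33, .ofNat 9, .ofNat 37⟩, ⟨.ofNat 486, .ofNat 75, .ofNat 121, .negSucc 18, .negSucc 1, .negSucc 22⟩, ⟨.ofNat 1470, .ofNat 303, .ofNat 458, .ofNat 529, .ofNat 295, .ofNat 425⟩, ⟨.negSucc 3089, .negSucc 217, .negSucc 9, .ofNat 4, .negSucc 34, .ofNat 61⟩, ⟨.negSucc 186, .negSucc 131, .negSucc 87, .negSucc 128, .negSucc 76, .negSucc 73⟩, .ofNat 461, .ofNat 201, .ofNat 0, .ofNat 201, .ofNat 651, .ofNat 0, .ofNat 357, .negSucc 80, .ofNat 98, .ofNat 0, .ofNat 128, .negSucc 172, .ofNat 0, .ofNat 0, .ofNat 4109, .ofNat 11396, .ofNat 0, .ofNat 66212813881409834320222586907647089965297392337027072,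 .ofNat 3637683840409920830407379750680144939800028324334403584, .ofNat 0, .ofNat 0, .ofNat 0, .ofNat 0, .ofNat 0, .ofNat 0, .ofNat 310739627629058264694992815507028408324053772468748288, .ofNat 0, .ofNat 0, .ofNat 0, .ofNat 0, .ofNat 0, .ofNat 0⟩)
    (by decide +kernel)
theorem L01612 : Good (Phi V5.P V5.D 1 (-1)) ⟨2, 0, 4, 10, 6, 28, 4, 11, 6, 28⟩ :=
  leafYS_sound T5.ok_pm T5.Ypm.bz_eq (w := 283) (c := ⟨⟨.negSucc 940, .negSucc 166, .ofNat 32, .ofNat 16, .ofNat 5, .ofNat 37⟩, ⟨.ofNat 614, .ofNat 73, .ofNat 57, .negSucc 9, .negSucc 4, .negSucc 24⟩, ⟨.ofNat 1815, .ofNat 351, .ofNat 336, .ofNat 291, .ofNat 362, .ofNat 466⟩, ⟨.negSucc 3086, .negSucc 223, .ofNat 0, .negSucc 2, .negSucc 48, .ofNat 54⟩, ⟨.negSucc 241, .negSucc 145, .negSucc 63, .negSucc 71, .negSucc 103, .negSucc 83⟩, .ofNat 1022, .ofNat 888, .ofNat 0, .ofNat 888, .ofNat 1756, .ofNat 0, .ofNat 165, .negSucc 127, .ofNat 93, .ofNat 0, .ofNat 119, .negSucc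 91, .ofNat 0, .ofNat 0, .ofNat 3298, .ofNat 45021, .ofNat 0, .ofNat 6335538671463289983318840659308744938394614620853322645504, .ofNat 1556852068774273537745911398756757011667967808484947523534848, .ofNat 0, .ofNat 0, .ofNat 0, .ofNat 13549885454330081885662049754936972180680720431951723406295040, .ofNat 0, .ofNat 0, .ofNat 8647142354809046981479031825961732835303666017409857224704, .ofNat 4391856556809751856903398437838165568116859655134959064055808, .ofNat 0, .ofNat 0, .ofNat 508684962882050543897339373627171006650276902242383065776128, .ofNat 80693913834005378077019394584066381657412259568757536850968576, .ofNat 0⟩)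
    (by decide +kernel)
theorem L01613 : Good (Phi V5.P V5.D 1 (-1)) ⟨2, 0, 4, 10, 6, 29, 5, 22, 6, 28⟩ :=
  leafYS_sound T5.ok_pm T5.Ypm.bz_eq (w := 287) (c := ⟨⟨.negSucc 935, .negSucc 161, .ofNat 28, .ofNat 21, .ofNat 6, .ofNat 48⟩, ⟨.ofNat 608, .ofNat 69, .ofNat 60, .negSucc 13, .negSucc 5, .negSucc 30⟩, ⟨.ofNat 2009, .ofNat 393, .ofNat 281, .ofNat 341, .ofNat 226, .ofNat 588⟩, ⟨.negSucc 3103, .negSucc 208, .negSucc 3, .ofNat 7, .negSucc 18, .ofNat 67⟩, ⟨.negSucc 296, .negSucc 143, .negSucc 51, .negSucc 82, .negSucc 62, .negSucc 107⟩, .ofNat 486, .ofNat 242, .ofNat 0, .ofNat 242, .ofNat 674, .ofNat 0, .ofNat 199, .negSucc 89, .ofNat 118, .ofNat 0, .ofNat 128, .negSucc 167, .ofNat 0, .ofNat 0, .ofNat 3654, .ofNat 50433, .ofNat 0, .ofNat 0, .ofNat 22241473377888333833473895595391580592618877697850033347493888, .ofNat 0, .ofNat 0, .ofNat 0, .ofNat 96217205075967645729722560481683015262200031318001997181878272, .ofNat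 0, .ofNat 0, .ofNat 32719766068756685245490156392272693236529669816387100475392, .ofNat 86535684715124731886135734694275725493012164531979354409795584, .ofNat 0, .ofNat 0, .ofNat 3397219721894699115755140531317066534793307217087776568639488, .ofNat 1739198442789845678484873189831489219325876501148267294035542016, .ofNat 0⟩)
    (by decide +kernel)
theorem L01614 : Good (Phi V5.P V5.D 1 (-1)) ⟨2, 0, 4, 10, 6, 29, 5, 23, 6, 28⟩ :=
  leafYS_sound T5.ok_pm T5.Ypm.bz_eq (w := 286) (c := ⟨⟨.negSucc 932, .negSucc 165, .ofNat 33, .ofNat 27, .ofNat 9, .ofNat 54⟩, ⟨.ofNat 607, .ofNat 71, .ofNat 53, .negSucc 17, .negSucc 6, .negSucc 36⟩, ⟨.ofNat 2140, .ofNat 393, .ofNat 394, .ofNat 400, .ofNat 262, .ofNat 694⟩, ⟨.negSucc 3115, .negSucc 259, .ofNat 8, .ofNat 26, .negSucc 7, .ofNat 99⟩, ⟨.negSucc 323, .negSucc 210, .negSucc 67, .negSucc 72, .negSucc 51, .negSucc 89⟩, .ofNat 2668, .ofNat 3191, .ofNat 0, .ofNat 3191, .ofNat 5151,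 .ofNat 0, .ofNat 145, .negSucc 127, .ofNat 111, .ofNat 0, .ofNat 98, .negSucc 83, .ofNat 0, .ofNat 0, .ofNat 2484, .ofNat 33621, .ofNat 0, .ofNat 45494693122134576918721507040743652528742967016878623424512, .ofNat 9962992658061717469472492047237615850180100504112805229625344, .ofNat 0, .ofNat 0, .ofNat 0, .ofNat 484551302090233928453639529132247106565969555624092851383566336, .ofNat 0, .ofNat 0, .ofNat 219415467938246530746885384567989761639445034571925670592512, .ofNat 21984231938517008304679765787421194230447257077470719650037760, .ofNat 0, .ofNat 0, .ofNat 4183224309738463634463679628716840227194304066920145301274624, .ofNat 6600620009630477938061358213626233274576843535708912485400576, .ofNat 0⟩)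
    (by decide +kernel)
theorem L01615 : Good (Phi V5.P V5.D 1 (-1)) ⟨2, 0, 4, 11, 5, 14, 4, 11, 6, 28⟩ :=
  out_sound (S := T5.ds_pm) T5.ok_pm (w := 41) (j := 3) (by decide +kernel)
theorem L01616 : Good (Phi V5.P V5.D 1 (-1)) ⟨2, 0, 3, 4, 5, 14, 4, 11, 6, 29⟩ :=
  leafYS_sound T5.ok_pm T5.Ypm.bz_eq (w := 264) (c := ⟨⟨.negSucc 971, .negSucc 130, .ofNat 51, .ofNat 41, .negSucc 1, .ofNat 46⟩, ⟨.ofNat 482, .ofNat 71, .ofNat 109, .negSucc 32, .negSucc 10, .negSucc 32⟩, ⟨.ofNat 1571, .ofNat 338, .ofNat 729, .ofNat 806, .ofNat 395, .ofNat 651⟩, ⟨.negSucc 3052, .negSucc 207, .ofNat 1, .ofNat 29, .negSucc 27, .ofNat 68⟩, ⟨.negSucc 197, .negSucc 140, .negSucc 138, .negSucc 177, .negSucc 96, .negSucc 118⟩, .ofNat 458, .ofNat 200, .ofNat 0, .ofNat 200, .ofNat 650, .ofNat 0, .ofNat 309, .negSucc 79, .ofNat 121, .ofNat 0, .ofNat 128, .negSucc 181, .ofNat 0, .ofNat 0, .ofNat 3986, .ofNat 12724, .ofNat 0, .ofNat 109243627751827756189968285264191631590588158150967296,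 .ofNat 2431311627474436793974069084675925199691330136190222336, .ofNat 0, .ofNat 0, .ofNat 0, .ofNat 0, .ofNat 0, .ofNat 0, .ofNat 895761130133969263711798617103972280711244278694674432, .ofNat 0, .ofNat 0, .ofNat 0, .ofNat 34113372327791543430362412847979324814658093506476638208, .ofNat 0, .ofNat 0⟩)
    (by decide +kernel)
theorem L01617 : Good (Phi V5.P V5.D 1 (-1)) ⟨2, 0, 4, 10, 6, 28, 5, 22, 6, 29⟩ :=
  leafYS_sound T5.ok_pm T5.Ypm.bz_eq (w := 288) (c := ⟨⟨.negSucc 918, .negSucc 154, .ofNat 36, .ofNat 23, .ofNat 6, .ofNat 57⟩, ⟨.ofNat 600, .ofNat 68, .ofNat 50, .negSucc 19, .negSucc 6, .negSucc 38⟩, ⟨.ofNat 2078, .ofNat 390, .ofNat 487, .ofNat 469, .ofNat 259, .ofNat 801⟩, ⟨.negSucc 3050, .negSucc 204, .negSucc 1, .ofNat 9, .negSucc 22, .ofNat 74⟩, ⟨.negSucc 283, .negSucc 144, .negSucc 92, .negSucc 109, .negSucc 75, .negSucc 141⟩, .ofNat 1023, .ofNat 887, .ofNat 0, .ofNat 887, .ofNat 1753, .ofNat 0, .ofNat 207,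 .negSucc 127, .ofNat 177, .ofNat 0, .ofNat 119, .negSucc 162, .ofNat 0, .ofNat 0, .ofNat 5099, .ofNat 78755, .ofNat 0, .ofNat 0, .ofNat 26346656869422281823782613847360089864065125840189670222200832, .ofNat 0, .ofNat 0, .ofNat 0, .ofNat 0, .ofNat 0, .ofNat 0, .ofNat 40378892806279595202297321907255643708344580479235980787712, .ofNat 101905670137291935770997215249524574761653253163907092808990720, .ofNat 0, .ofNat 0, .ofNat 5886773091137440658283706720511138460102739080425311226036224, .ofNat 2535291729426589570935616484579648773168448208959483428418355200, .ofNat 0⟩)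
    (by decide +kernel)
theorem L01618 : Good (Phi V5.P V5.D 1 (-1)) ⟨2, 0, 4, 10, 6, 29, 5, 22, 6, 29⟩ :=
  leafYS_sound T5.ok_pm T5.Ypm.bz_eq (w := 287) (c := ⟨⟨.negSucc 908, .negSucc 159, .ofNat 51, .ofNat 39, .ofNat 18, .ofNat 80⟩, ⟨.ofNat 589, .ofNat 68, .ofNat 44, .negSucc 27, .negSucc 12, .negSucc 52⟩, ⟨.ofNat 2366, .ofNat 371, .ofNat 611, .ofNat 607, .ofNat 387, .ofNat 1107⟩, ⟨.negSucc 3053, .negSucc 207, .ofNat 11, .ofNat 27, .negSucc 10, .ofNat 92⟩, ⟨.negSucc 349, .negSucc 140, .negSucc 119, .negSucc 136, .negSucc 103, .negSucc 206⟩, .ofNat 486, .ofNat 242, .ofNat 0, .ofNat 242, .ofNat 674, .ofNat 0, .ofNat 156, .negSucc 89, .ofNat 218, .ofNat 0, .ofNat 128, .negSucc 268, .ofNat 0, .ofNat 0, .ofNat 4993, .ofNat 37993, .ofNat 0, .ofNat 43008113620595698096621296815189160972318739995442309758976, .ofNat 14992884390015281717840467202056240983693274782177395612844032, .ofNat 0, .ofNat 0, .ofNat 0, .ofNat 0, .ofNat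 0, .ofNat 0, .ofNat 165129431744821452724683188461898093608954336974728463384576, .ofNat 15803532890893895061125981847607082210459831288618818757197824, .ofNat 0, .ofNat 0, .ofNat 11054171797442227336422111937919753169034127913617321206218752, .ofNat 0, .ofNat 0⟩)
    (by decide +kernel)
theorem L01619 : Good (Phi V5.P V5.D 1 (-1)) ⟨2, 0, 4, 10, 6, 28, 5, 23, 6, 29⟩ :=
  leafYS_sound T5.ok_pm T5.Ypm.bz_eq (w := 287) (c := ⟨⟨.negSucc 922, .negSucc 159, .ofNat 47, .ofNat 37, .ofNat 18, .ofNat 67⟩, ⟨.ofNat 594, .ofNat 72, .ofNat 50, .negSucc 22, .negSucc 6, .negSucc 42⟩, ⟨.ofNat 2278, .ofNat 349, .ofNat 525, .ofNat 545, .ofNat 307, .ofNat 902⟩, ⟨.negSucc 3064, .negSucc 219, .ofNat 2, .ofNat 16, .negSucc 23, .ofNat 71⟩, ⟨.negSucc 331, .negSucc 146, .negSucc 101, .negSucc 126, .negSucc 89, .negSucc 174⟩, .ofNat 1027, .ofNat 896, .ofNat 0, .ofNat 896, .ofNat 1766, .ofNat 0, .ofNat 266, .negSucc 127, .ofNat 219, .ofNat 0,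 .ofNat 119, .negSucc 198, .ofNat 0, .ofNat 0, .ofNat 5621, .ofNat 38575, .ofNat 0, .ofNat 50496115878706907329667344082679791314817527559437575782400, .ofNat 15227861188268816037461508936975828937859248858705702485491712, .ofNat 0, .ofNat 0, .ofNat 0, .ofNat 0, .ofNat 0, .ofNat 0, .ofNat 353731917844001743338582578784220383081189917323164085387264, .ofNat 0, .ofNat 0, .ofNat 0, .ofNat 13720026431001318218590440381917346261137580451614525516414976, .ofNat 0, .ofNat 0⟩)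
    (by decide +kernel)
theorem L01620 : Good (Phi V5.P V5.D 1 (-1)) ⟨2, 0, 4, 10, 6, 29, 5, 23, 6, 29⟩ :=
  leafYS_sound T5.ok_pm T5.Ypm.bz_eq (w := 287) (c := ⟨⟨.negSucc 885, .negSucc 151, .ofNat 40, .ofNat 21, .negSucc 12, .ofNat 61⟩, ⟨.ofNat 575, .ofNat 67, .ofNat 47, .negSucc 24, .negSucc 9, .negSucc 45⟩, ⟨.ofNat 2753, .ofNat 449, .ofNat 538, .ofNat 536, .ofNat 293, .ofNat 931⟩, ⟨.negSucc 3052, .negSucc 220, .ofNat 5, .ofNat 22, .negSucc 17, .ofNat 84⟩, ⟨.negSucc 441, .negSucc 164, .negSucc 104, .negSucc 137, .negSucc 108, .negSucc 196⟩, .ofNat 196, .ofNat 38, .ofNat 0, .ofNat 38, .ofNat 228, .ofNat 0, .ofNat 291, .negSucc 39, .ofNat 134, .ofNat 0, .ofNat 128, .negSucc 354, .ofNat 0, .ofNat 0, .ofNat 3205, .ofNat 59480, .ofNat 0, .ofNat 124987974715640430582942894287066733339343249863748408573952, .ofNat 16011433643283106476522278730346172732600557830242846256398336, .ofNat 0, .ofNat 0, .ofNat 1319294689924192026470096730002800975595265587630062197276672,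 .ofNat 0, .ofNat 0, .ofNat 0, .ofNat 592494847053918956727367749607281713601550025235642594623488, .ofNat 0, .ofNat 0, .ofNat 0, .ofNat 15837308604566568487831802922819776726922101847048255677923328, .ofNat 371670985659913757737917075212247872844121624640128183405903872, .ofNat 0⟩)
    (by decide +kernel)
theorem L01621 : Good (Phi V5.P V5.D 1 (-1)) ⟨2, 0, 4, 11, 5, 14, 4, 11, 6, 29⟩ :=
  out_sound (S := T5.ds_pm) T5.ok_pm (w := 41) (j := 3) (by decide +kernel)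
theorem L01622 : Good (Phi V5.P V5.D 1 (-1)) ⟨2, 0, 3, 4, 5, 15, 4, 11, 6, 28⟩ :=
  leafYS_sound T5.ok_pm T5.Ypm.bz_eq (w := 264) (c := ⟨⟨.negSucc 981, .negSucc 125, .ofNat 42, .ofNat 31, .ofNat 24, .ofNat 45⟩, ⟨.ofNat 477, .ofNat 71, .ofNat 115, .negSucc 24, .negSucc 4, .negSucc 28⟩, ⟨.ofNat 1828, .ofNat 381, .ofNat 558, .ofNat 587, .ofNat 314, .ofNat 541⟩, ⟨.negSucc 3099, .negSucc 207, .ofNat 0, .ofNat 17, .negSucc 23, .ofNat 71⟩, ⟨.negSucc 276, .negSucc 144, .negSucc 107, .negSucc 142, .negSucc 83, .negSucc 98⟩, .ofNat 461, .ofNat 200, .ofNat 0, .ofNat 200, .ofNat 645, .ofNat 0, .ofNat 237, .negSucc 79, .ofNat 133, .ofNat 0, .ofNat 128, .negSucc 169, .ofNat 0, .ofNat 0, .ofNat 2969, .ofNat 14320, .ofNat 0, .ofNat 152385686283965851282443036857525197647494517555724288, .ofNat 4421098782818718013738119631082871452840329038178287616, .ofNat 0, .ofNat 0, .ofNat 0, .ofNat 0, .ofNat 0, .ofNat 0, .ofNat 1214805401641293719206239061203720307007451306248896512,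 .ofNat 0, .ofNat 0, .ofNat 0, .ofNat 31095288502783386672575112167811014496747599321066635264, .ofNat 0, .ofNat 0⟩)
    (by decide +kernel)
theorem L01623 : Good (Phi V5.P V5.D 1 (-1)) ⟨2, 0, 4, 10, 6, 30, 5, 22, 6, 28⟩ :=
  leafYS_sound T5.ok_pm T5.Ypm.bz_eq (w := 286) (c := ⟨⟨.negSucc 930, .negSucc 154, .ofNat 37, .ofNat 28, .ofNat 12, .ofNat 64⟩, ⟨.ofNat 605, .ofNat 65, .ofNat 53, .negSucc 20, .negSucc 10, .negSucc 42⟩, ⟨.ofNat 2148, .ofNat 484, .ofNat 402, .ofNat 432, .ofNat 298, .ofNat 811⟩, ⟨.negSucc 3111, .negSucc 204, .ofNat 1, .ofNat 19, .negSucc 13, .ofNat 85⟩, ⟨.negSucc 333, .negSucc 160, .negSucc 81, .negSucc 103, .negSucc 82, .negSucc 151⟩, .ofNat 486, .ofNat 242, .ofNat 0, .ofNat 242, .ofNat 674, .ofNat 0, .ofNat 242, .negSucc 89, .ofNat 172, .ofNat 0, .ofNat 128, .negSucc 215, .ofNat 0, .ofNat 0, .ofNat 4032, .ofNat 31543, .ofNat 0, .ofNat 39914102432878437922274577559371432286947065839775962365952,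 .ofNat 10053662743080776484557306781403732816127954668611764370800640, .ofNat 0, .ofNat 0, .ofNat 0, .ofNat 0, .ofNat 0, .ofNat 0, .ofNat 150618721267982827198372041194626385904420147107896758370304, .ofNat 26814256606468304606726308499296128912156408620034947853320192, .ofNat 0, .ofNat 0, .ofNat 8045476131813429297156200832342151286624078181506950612647936, .ofNat 0, .ofNat 0⟩)
    (by decide +kernel)
theorem L01624 : Good (Phi V5.P V5.D 1 (-1)) ⟨2, 0, 4, 10, 6, 31, 5, 22, 6, 28⟩ :=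
  leafYS_sound T5.ok_pm T5.Ypm.bz_eq (w := 286) (c := ⟨⟨.negSucc 907, .negSucc 151, .ofNat 38, .ofNat 32, .ofNat 19, .ofNat 71⟩, ⟨.ofNat 587, .ofNat 66, .ofNat 52, .negSucc 22, .negSucc 13, .negSucc 45⟩, ⟨.ofNat 2536, .ofNat 483, .ofNat 417, .ofNat 472, .ofNat 367, .ofNat 860⟩, ⟨.negSucc 3097, .negSucc 207, .ofNat 5, .ofNat 23, .negSucc 6, .ofNat 95⟩, ⟨.negSucc 424, .negSucc 163, .negSucc 83, .negSucc 114, .negSucc 100, .negSucc 165⟩, .ofNat 197, .ofNat 38, .ofNat 0, .ofNat 38, .ofNat 228, .ofNat 0, .ofNat 247, .negSucc 40, .ofNat 93, .ofNat 0, .ofNat 128, .negSucc 210, .ofNat 0, .ofNat 0, .ofNat 1933, .ofNat 19003, .ofNat 0, .ofNat 41516840687040545713485038846649967898644066776129329954816, .ofNat 5605824270605657768214550330672986691705061042867879125450752, .ofNat 0, .ofNat 0, .ofNat 0, .ofNat 0, .ofNat 0, .ofNat 0, .ofNat 255699172284222630690771033350429929522055862664503278698496, .ofNat 0, .ofNat 0, .ofNat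 0, .ofNat 3648990223424569231382462885320939779101908448909670681149440, .ofNat 115714375043447666003163059908254477900313735006465452276711424, .ofNat 0⟩)
    (by decide +kernel)

end Crest.Agent.R097C5.N5pm
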