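import Crest.Agent.R097.KS3
import Crest.Agent.R097.T5Ypm

/-!
# Row 97, box cover in dimension n = 5 (generated)
-/

set_option autoImplicit false
set_option Elab.async false
set_option maxHeartbeats 0
set_option maxRecDepth 100000

open Crest.Agent.R097 Crest.Agent.R097.KA


namespace Crest.Agent.R097C5.N5pm

theorem L01625 : Good (Phi V5.P V5.D 1 (-1)) ⟨2, 0, 4, 10, 5, 15, 5, 23, 6, 28⟩ :=
  leafYS_sound T5.ok_pm T5.Ypm.bz_eq (w := 272) (c := ⟨⟨.negSucc 910, .negSucc 160, .ofNat 33, .ofNat 54, .ofNat 8, .ofNat 58⟩, ⟨.ofNat 592, .ofNat 69, .ofNat 54, .negSucc 32, .negSucc 9, .negSucc 41⟩, ⟨.ofNat 2495, .ofNat 449, .ofNat 388, .ofNat 748, .ofNat 282, .ofNat 721⟩, ⟨.negSucc 3106, .negSucc 228, .ofNat 1, .ofNat 26, .negSucc 19, .ofNat 79⟩, ⟨.negSucc 410, .negSucc 168, .negSucc 79, .negSucc 211, .negSucc 93, .negSucc 151⟩, .ofNat 196, .ofNat 39, .ofNat 0, .ofNat 39, .ofNat 228, .ofNat 0, .ofNat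 323, .negSucc 41, .ofNat 75, .ofNat 0, .ofNat 128, .negSucc 205, .ofNat 0, .ofNat 0, .ofNat 1864, .ofNat 28040, .ofNat 0, .ofNat 14647078444813651691810841300703111473051656666648412160, .ofNat 590869917161398789780367379068181834639939229627457732608, .ofNat 0, .ofNat 0, .ofNat 200620959139462018054713796456471548545824243044677844992, .ofNat 0, .ofNat 0, .ofNat 0, .ofNat 106879180426179228061467175809856702253705971813941510144, .ofNat 0, .ofNat 0, .ofNat 0, .ofNat 1522768698736958532470011993990433931844983301171885113344, .ofNat 6599230589700023570070338450311141353822362425508929470464, .ofNat 0⟩)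
    (by decide +kernel)
theorem L01626 : Good (Phi V5.P V5.D 1 (-1)) ⟨2, 0, 4, 11, 5, 15, 4, 11, 6, 28⟩ :=
  out_sound (S := T5.ds_pm) T5.ok_pm (w := 41) (j := 3) (by decide +kernel)
theorem L01627 : Good (Phi V5.P V5.D 1 (-1)) ⟨2, 0, 3, 4, 5, 15, 4, 11, 6, 29⟩ :=
  leafYS_sound T5.ok_pm T5.Ypm.bz_eq (w := 266) (c := ⟨⟨.negSucc 952, .negSucc 121, .ofNat 67, .ofNat 76, .ofNat 20, .ofNat 51⟩, ⟨.ofNat 456, .ofNat 70, .ofNat 103, .negSucc 28, .negSucc 16, .negSucc 36⟩, ⟨.ofNat 2209, .ofNat 386, .ofNat 816, .ofNat 756, .ofNat 488, .ofNat 723⟩, ⟨.negSucc 3040, .negSucc 201, .ofNat 10, .ofNat 36, .negSucc 9, .ofNat 81⟩, ⟨.negSucc 343, .negSucc 145, .negSucc 153, .negSucc 182, .negSucc 139, .negSucc 136⟩, .ofNat 457, .ofNat 197, .ofNat 0, .ofNat 197, .ofNat 649, .ofNat 0, .ofNat 379, .negSucc 79, .ofNat 200, .ofNat 0, .ofNat 128, .negSucc 267, .ofNat 0, .ofNat 0, .ofNat 5569, .ofNat 35326, .ofNat 0,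 .ofNat 750264757837783790250290163625556021562165544087453696, .ofNat 0, .ofNat 0, .ofNat 0, .ofNat 6638325081184762999419112966999207548503562040251514880, .ofNat 0, .ofNat 0, .ofNat 0, .ofNat 5741086865900813889923312542352174923880854471653195776, .ofNat 0, .ofNat 0, .ofNat 0, .ofNat 170292017417380288872416685390837746869992570137398476800, .ofNat 875613235686516725905906901259123201970923224976976773120, .ofNat 0⟩)
    (by decide +kernel)
theorem L01628 : Good (Phi V5.P V5.D 1 (-1)) ⟨2, 0, 4, 10, 6, 30, 5, 22, 6, 29⟩ :=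
  leafYS_sound T5.ok_pm T5.Ypm.bz_eq (w := 287) (c := ⟨⟨.negSucc 879, .negSucc 143, .ofNat 50, .ofNat 41, .ofNat 19, .ofNat 89⟩, ⟨.ofNat 570, .ofNat 63, .ofNat 40, .negSucc 33, .negSucc 19, .negSucc 63⟩, ⟨.ofNat 2818, .ofNat 495, .ofNat 661, .ofNat 676, .ofNat 465, .ofNat 1309⟩, ⟨.negSucc 3038, .negSucc 198, .ofNat 14, .ofNat 36, .ofNat 0, .ofNat 112⟩, ⟨.negSucc 455, .negSucc 163, .negSucc 126, .negSucc 153, .negSucc 122, .negSucc 247⟩, .ofNat 477, .ofNat 235, .ofNat 0, .ofNat 235, .ofNat 673, .ofNat 0, .ofNat 450, .negSucc 89, .ofNat 260, .ofNat 0, .ofNat 128, .negSucc 316, .ofNat 0, .ofNat 0, .ofNat 6036, .ofNat 52075, .ofNat 0, .ofNat 96848414858770573491449950391515232233762122903219712557056, .ofNat 23741864748262335235245128939991473513300823519180439672586240, .ofNat 0, .ofNat 0, .ofNat 0, .ofNat 0, .ofNat 0, .ofNat 0, .ofNat 809310831129196204104142471062312085557590133652562387140608,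 .ofNat 4773219604053476497163723063264443747021323032409850171621376, .ofNat 0, .ofNat 0, .ofNat 29057938910780883718944463309625301052910571261672920658739200, .ofNat 0, .ofNat 0⟩)
    (by decide +kernel)
theorem L01629 : Good (Phi V5.P V5.D 1 (-1)) ⟨2, 0, 4, 10, 6, 31, 5, 22, 6, 29⟩ :=
  out_sound (S := T5.ds_pm) T5.ok_pm (w := 48) (j := 2) (by decide +kernel)
theorem L01630 : Good (Phi V5.P V5.D 1 (-1)) ⟨2, 0, 4, 11, 5, 15, 5, 22, 6, 29⟩ :=
  out_sound (S := T5.ds_pm) T5.ok_pm (w := 41) (j := 3) (by decide +kernel)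
theorem L01631 : Good (Phi V5.P V5.D 1 (-1)) ⟨2, 0, 3, 5, 5, 15, 5, 23, 6, 29⟩ :=
  out_sound (S := T5.ds_pm) T5.ok_pm (w := 46) (j := 2) (by decide +kernel)
theorem L01632 : Good (Phi V5.P V5.D 1 (-1)) ⟨2, 0, 2, 2, 4, 7, 5, 20, 6, 30⟩ :=
  out_sound (S := T5.ds_pm) T5.ok_pm (w := 35) (j := 1) (by decide +kernel)
theorem L01633 : Good (Phi V5.P V5.D 1 (-1)) ⟨2, 0, 2, 2, 5, 14, 6, 42, 7, 60⟩ :=
  out_sound (S := T5.ds_pm) T5.ok_pm (w := 40) (j := 1) (by decide +kernel)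
theorem L01634 : Good (Phi V5.P V5.D 1 (-1)) ⟨2, 0, 2, 2, 6, 28, 6, 43, 7, 60⟩ :=
  out_sound (S := T5.ds_pm) T5.ok_pm (w := 42) (j := 1) (by decide +kernel)
theorem L01635 : Good (Phi V5.P V5.D 1 (-1)) ⟨2, 0, 2, 2, 6, 29, 7, 86, 8, 120⟩ :=
  out_sound (S := T5.ds_pm) T5.ok_pm (w := 45) (j := 1) (by decide +kernel)
theorem L01636 : Good (Phi V5.P V5.D 1 (-1)) ⟨2, 0, 2, 2, 7, 58, 7, 87, 8, 120⟩ :=
  out_sound (S := T5.ds_pm) T5.ok_pm (w := 47) (j := 1) (by decide +kernel)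
theorem L01637 : Good (Phi V5.P V5.D 1 (-1)) ⟨2, 0, 2, 2, 7, 59, 8, 174, 9, 240⟩ :=
  out_sound (S := T5.ds_pm) T5.ok_pm (w := 50) (j := 1) (by decide +kernel)
theorem L01638 : Good (Phi V5.P V5.D 1 (-1)) ⟨2, 0, 2, 2, 8, 118, 8, 175, 9, 240⟩ :=
  out_sound (S := T5.ds_pm) T5.ok_pm (w := 52) (j := 1) (by decide +kernel)
theorem L01639 : Good (Phi V5.P V5.D 1 (-1)) ⟨2, 0, 2, 2, 9, 238, 9, 350, 10, 480⟩ :=
  out_sound (S := T5.ds_pm) T5.ok_pm (w := 57) (j := 1) (by decide +kernel)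
theorem L01640 : Good (Phi V5.P V5.D 1 (-1)) ⟨2, 0, 2, 2, 9, 238, 9, 351, 10, 480⟩ :=
  out_sound (S := T5.ds_pm) T5.ok_pm (w := 70) (j := 2) (by decide +kernel)
theorem L01641 : Good (Phi V5.P V5.D 1 (-1)) ⟨2, 0, 2, 2, 9, 238, 8, 175, 10, 481⟩ :=
  out_sound (S := T5.ds_pm) T5.ok_pm (w := 56) (j := 1) (by decide +kernel)
theorem L01642 : Good (Phi V5.P V5.D 1 (-1)) ⟨2, 0, 2, 2, 9, 239, 8, 175, 9, 240⟩ :=
  out_sound (S := T5.ds_pm) T5.ok_pm (w := 66) (j := 2) (by decide +kernel)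
theorem L01643 : Good (Phi V5.P V5.D 1 (-1)) ⟨2, 0, 2, 2, 7, 59, 7, 87, 9, 241⟩ :=
  out_sound (S := T5.ds_pm) T5.ok_pm (w := 49) (j := 1) (by decide +kernel)
theorem L01644 : Good (Phi V5.P V5.D 1 (-1)) ⟨2, 0, 2, 2, 6, 29, 6, 43, 8, 121⟩ :=
  out_sound (S := T5.ds_pm) T5.ok_pm (w := 44) (j := 1) (by decide +kernel)
theorem L01645 : Good (Phi V5.P V5.D 1 (-1)) ⟨2, 0, 2, 2, 5, 14, 5, 21, 7, 61⟩ :=
  out_sound (S := T5.ds_pm) T5.ok_pm (w := 39) (j := 1) (by decide +kernel)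
theorem L01646 : Good (Phi V5.P V5.D 1 (-1)) ⟨2, 0, 2, 2, 6, 30, 6, 42, 7, 60⟩ :=
  out_sound (S := T5.ds_pm) T5.ok_pm (w := 42) (j := 1) (by decide +kernel)
theorem L01647 : Good (Phi V5.P V5.D 1 (-1)) ⟨2, 0, 2, 2, 7, 60, 8, 172, 9, 240⟩ :=
  out_sound (S := T5.ds_pm) T5.ok_pm (w := 50) (j := 1) (by decide +kernel)
theorem L01648 : Good (Phi V5.P V5.D 1 (-1)) ⟨2, 0, 2, 2, 8, 120, 8, 173, 9, 240⟩ :=
  out_sound (S := T5.ds_pm) T5.ok_pm (w := 52) (j := 1) (by decide +kernel)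
theorem L01649 : Good (Phi V5.P V5.D 1 (-1)) ⟨2, 0, 2, 2, 8, 121, 8, 173, 9, 240⟩ :=
  out_sound (S := T5.ds_pm) T5.ok_pm (w := 64) (j := 2) (by decide +kernel)
theorem L01650 : Good (Phi V5.P V5.D 1 (-1)) ⟨2, 0, 2, 2, 7, 60, 7, 86, 9, 241⟩ :=
  out_sound (S := T5.ds_pm) T5.ok_pm (w := 49) (j := 1) (by decide +kernel)
theorem L01651 : Good (Phi V5.P V5.D 1 (-1)) ⟨2, 0, 2, 2, 7, 60, 7, 86, 8, 121⟩ :=
  out_sound (S := T5.ds_pm) T5.ok_pm (w := 47) (j := 1) (by decide +kernel)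
theorem L01652 : Good (Phi V5.P V5.D 1 (-1)) ⟨2, 0, 2, 2, 7, 60, 7, 87, 7, 60⟩ :=
  out_sound (S := T5.ds_pm) T5.ok_pm (w := 56) (j := 2) (by decide +kernel)
theorem L01653 : Good (Phi V5.P V5.D 1 (-1)) ⟨2, 0, 2, 2, 7, 61, 6, 43, 7, 60⟩ :=
  out_sound (S := T5.ds_pm) T5.ok_pm (w := 54) (j := 2) (by decide +kernel)
theorem L01654 : Good (Phi V5.P V5.D 1 (-1)) ⟨2, 0, 2, 2, 6, 30, 5, 21, 7, 61⟩ :=
  out_sound (S := T5.ds_pm) T5.ok_pm (w := 41) (j := 1) (by decide +kernel)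
theorem L01655 : Good (Phi V5.P V5.D 1 (-1)) ⟨2, 0, 2, 2, 6, 31, 5, 21, 6, 30⟩ :=
  out_sound (S := T5.ds_pm) T5.ok_pm (w := 48) (j := 2) (by decide +kernel)
theorem L01656 : Good (Phi V5.P V5.D 1 (-1)) ⟨2, 0, 2, 2, 4, 7, 4, 10, 6, 31⟩ :=
  out_sound (S := T5.ds_pm) T5.ok_pm (w := 34) (j := 1) (by decide +kernel)
theorem L01657 : Good (Phi V5.P V5.D 1 (-1)) ⟨2, 0, 3, 4, 5, 14, 4, 11, 6, 30⟩ :=
  leafYS_sound T5.ok_pm T5.Ypm.bz_eq (w := 265) (c := ⟨⟨.negSucc 960, .negSucc 127, .ofNat 66, .ofNat 69, .ofNat 56, .negSucc 12⟩, ⟨.ofNat 467, .ofNat 68, .ofNat 97, .negSucc 50, .negSucc 21, .negSucc 40⟩, ⟨.ofNat 1837, .ofNat 384, .ofNat 972, .ofNat 1200, .ofNat 711, .ofNat 641⟩, ⟨.negSucc 3018, .negSucc 208, .ofNat 14, .ofNat 71, .ofNat 13, .ofNat 60⟩, ⟨.negSucc 255, .negSucc 154, .negSucc 173, .negSucc 235, .negSucc 145, .negSucc 140⟩, .ofNat 870, .ofNat 665, .ofNat 0, .ofNat 665, .ofNat 1513, .ofNat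 0, .ofNat 536, .negSucc 123, .ofNat 198, .ofNat 0, .ofNat 128, .negSucc 191, .ofNat 0, .ofNat 0, .ofNat 5737, .ofNat 20664, .ofNat 0, .ofNat 233777414460583117599699765037016148975570936230051840, .ofNat 0, .ofNat 0, .ofNat 0, .ofNat 0, .ofNat 0, .ofNat 0, .ofNat 176861078767515513693108985718931981165724407306999824384, .ofNat 3158842381127953673581047068252418211997036575711035392, .ofNat 0, .ofNat 0, .ofNat 5317622266755546455115260865394978616281738408666876346368, .ofNat 96858058243071655308776149021319686298012258604083576832, .ofNat 0, .ofNat 0⟩)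
    (by decide +kernel)
theorem L01658 : Good (Phi V5.P V5.D 1 (-1)) ⟨2, 0, 4, 10, 5, 14, 5, 22, 6, 30⟩ :=
  leafYS_sound T5.ok_pm T5.Ypm.bz_eq (w := 274) (c := ⟨⟨.negSucc 882, .negSucc 154, .ofNat 55, .ofNat 104, .ofNat 18, .ofNat 108⟩, ⟨.ofNat 575, .ofNat 67, .ofNat 38, .negSucc 71, .negSucc 17, .negSucc 44⟩, ⟨.ofNat 2570, .ofNat 399, .ofNat 766, .ofNat 1671, .ofNat 499, .ofNat 1104⟩, ⟨.negSucc 2992, .negSucc 209, .ofNat 13, .ofNat 70, .negSucc 11, .ofNat 84⟩, ⟨.negSucc 340, .negSucc 149, .negSucc 143, .negSucc 383, .negSucc 146, .negSucc 230⟩, .ofNat 478, .ofNat 235, .ofNat 0, .ofNat 235, .ofNat 672, .ofNat 0, .ofNat 383, .negSucc 88, .ofNat 188, .ofNat 0, .ofNat 128, .negSucc 240, .ofNat 0, .ofNat 0, .ofNat 4637, .ofNat 77031, .ofNat 0, .ofNat 20713712869659280849480836324307270041506541376347570176, .ofNat 1891117530922900335694015224629681566251794523781102305280, .ofNat 0, .ofNat 0,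 .ofNat 0, .ofNat 0, .ofNat 0, .ofNat 17786958802722624079789606606503365635892382407651510714368, .ofNat 97016848875592053255815216081055181492023181643157078016, .ofNat 1148480125980466392250972281838511939684799806512539107328, .ofNat 0, .ofNat 519817956633445830932392884379266801929235839024566626156544, .ofNat 3534456626499198211690585234793376075660445600815127724032, .ofNat 6921891220096029141608855002120777668638789530089871638528, .ofNat 0⟩)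
    (by decide +kernel)
theorem L01659 : Good (Phi V5.P V5.D 1 (-1)) ⟨2, 0, 4, 10, 5, 14, 5, 23, 6, 30⟩ :=
  leafYS_sound T5.ok_pm T5.Ypm.bz_eq (w := 273) (c := ⟨⟨.negSucc 860, .negSucc 152, .ofNat 55, .ofNat 89, .ofNat 3, .ofNat 81⟩, ⟨.ofNat 558, .ofNat 66, .ofNat 40, .negSucc 69, .negSucc 20, .negSucc 59⟩, ⟨.ofNat 3048, .ofNat 433, .ofNat 743, .ofNat 1591, .ofNat 440, .ofNat 1316⟩, ⟨.negSucc 3000, .negSucc 214, .ofNat 10, .ofNat 70, .negSucc 13, .ofNat 96⟩, ⟨.negSucc 477, .negSucc 156, .negSucc 141, .negSucc 401, .negSucc 146, .negSucc 282⟩, .ofNat 197, .ofNat 38, .ofNat 0, .ofNat 38, .ofNat 228, .ofNat 0, .ofNat 201, .negSucc 39, .ofNat 122, .ofNat 0, .ofNat 128, .negSucc 319, .ofNat 0, .ofNat 0, .ofNat 2888, .ofNat 38633, .ofNat 0, .ofNat 20715251200865037686565070432910543366937378167862591488, .ofNat 423962331206330215028026824816587784057995507449685082112, .ofNat 0, .ofNat 0, .ofNat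 150048362172658265685627838499956273382945856187157970944, .ofNat 0, .ofNat 0, .ofNat 0, .ofNat 101886039607230794086391144250649738819652169283170992128, .ofNat 0, .ofNat 0, .ofNat 0, .ofNat 2434805465483714125039169390800018632047780109086982406144, .ofNat 10091231904184971411536883984150384851188419237498333429760, .ofNat 0⟩)
    (by decide +kernel)
theorem L01660 : Good (Phi V5.P V5.D 1 (-1)) ⟨2, 0, 4, 11, 5, 14, 4, 11, 6, 30⟩ :=
  out_sound (S := T5.ds_pm) T5.ok_pm (w := 41) (j := 3) (by decide +kernel)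
theorem L01661 : Good (Phi V5.P V5.D 1 (-1)) ⟨2, 0, 2, 2, 5, 14, 5, 22, 6, 31⟩ :=
  out_sound (S := T5.ds_pm) T5.ok_pm (w := 37) (j := 1) (by decide +kernel)
theorem L01662 : Good (Phi V5.P V5.D 1 (-1)) ⟨2, 0, 2, 2, 5, 14, 5, 23, 6, 31⟩ :=
  out_sound (S := T5.ds_pm) T5.ok_pm (w := 46) (j := 2) (by decide +kernel)
theorem L01663 : Good (Phi V5.P V5.D 1 (-1)) ⟨2, 0, 2, 2, 5, 15, 4, 11, 5, 15⟩ :=
  out_sound (S := T5.ds_pm) T5.ok_pm (w := 42) (j := 2) (by decide +kernel)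
theorem L01664 : Good (Phi V5.P V5.D 1 (-1)) ⟨3, 0, 3, 4, 3, 3, 4, 12, 5, 12⟩ :=
  leafYS_sound T5.ok_pm T5.Ypm.bz_eq (w := 234) (c := ⟨⟨.negSucc 1029, .negSucc 50, .ofNat 10, .negSucc 23, .negSucc 20, .ofNat 26⟩, ⟨.ofNat 504, .ofNat 48, .ofNat 137, .ofNat 8, .ofNat 13, .negSucc 15⟩, ⟨.ofNat 1109, .ofNat 130, .ofNat 164, .ofNat 561, .ofNat 11, .ofNat 204⟩, ⟨.negSucc 3162, .negSucc 125, .negSucc 22, .negSucc 159, .negSucc 52, .ofNat 63⟩, ⟨.negSucc 141, .negSucc 66, .negSucc 30, .negSucc 152, .ofNat 17, .negSucc 23⟩, .ofNat 873, .ofNat 654, .ofNat 0, .ofNat 654, .ofNat 1496, .ofNat 0, .ofNat 136, .negSucc 122, .negSucc 17, .ofNat 0, .ofNat 128, .negSucc 12, .ofNat 0, .ofNat 0, .ofNat 1744, .ofNat 9036, .ofNat 0, .ofNat 756260215913984943036043254441753253242732544, .ofNat 207457150856866864943130275234358603829739520, .ofNat 0, .ofNat 0, .ofNat 0, .ofNat 0, .ofNat 0, .ofNat 0, .ofNat 50139685361735107934429714381427423759220867072,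 .ofNat 0, .ofNat 0, .ofNat 0, .ofNat 654345635382495465104624524646489359060255637504, .ofNat 0, .ofNat 0⟩)
    (by decide +kernel)
theorem L01665 : Good (Phi V5.P V5.D 1 (-1)) ⟨3, 0, 3, 4, 3, 3, 4, 13, 5, 12⟩ :=
  leafYS_sound T5.ok_pm T5.Ypm.bz_eq (w := 235) (c := ⟨⟨.negSucc 1034, .negSucc 59, .ofNat 8, .negSucc 44, .negSucc 36, .ofNat 17⟩, ⟨.ofNat 510, .ofNat 52, .ofNat 138, .ofNat 19, .ofNat 21, .negSucc 10⟩, ⟨.ofNat 1171, .ofNat 127, .ofNat 151, .ofNat 526, .negSucc 31, .ofNat 119⟩, ⟨.negSucc 3181, .negSucc 156, .negSucc 22, .negSucc 206, .negSucc 77, .ofNat 48⟩, ⟨.negSucc 127, .negSucc 81, .negSucc 30, .negSucc 130, .ofNat 42, .negSucc 6⟩, .ofNat 886, .ofNat 671, .ofNat 0, .ofNat 671, .ofNat 1510, .ofNat 0, .ofNat 182, .negSucc 123, .ofNat 14, .ofNat 0, .ofNat 128, .negSucc 37, .ofNat 0, .ofNat 0, .ofNat 1585, .ofNat 10197, .ofNat 0, .ofNat 5796289240412510555695308851165761600565018624,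 .ofNat 82724842181404379872377501056292855100735488, .ofNat 0, .ofNat 0, .ofNat 0, .ofNat 0, .ofNat 0, .ofNat 0, .ofNat 80959869282062232662010143615944288362718822400, .ofNat 0, .ofNat 0, .ofNat 0, .ofNat 1029030046060326829984422873532966857764184784896, .ofNat 0, .ofNat 0⟩)
    (by decide +kernel)
theorem L01666 : Good (Phi V5.P V5.D 1 (-1)) ⟨3, 0, 3, 5, 3, 3, 3, 6, 5, 12⟩ :=
  leafYS_sound T5.ok_pm T5.Ypm.bz_eq (w := 232) (c := ⟨⟨.negSucc 1012, .negSucc 64, .ofNat 16, .negSucc 14, .negSucc 51, .ofNat 30⟩, ⟨.ofNat 641, .ofNat 49, .ofNat 135, .ofNat 7, .ofNat 34, .negSucc 19⟩, ⟨.ofNat 1167, .ofNat 155, .ofNat 244, .ofNat 674, .ofNat 48, .ofNat 256⟩, ⟨.negSucc 3169, .negSucc 131, .negSucc 17, .negSucc 169, .negSucc 138, .ofNat 63⟩, ⟨.negSucc 135, .negSucc 73, .negSucc 43, .negSucc 194, .ofNat 20, .negSucc 38⟩, .ofNat 2240, .ofNat 2590, .ofNat 0, .ofNat 2590, .ofNat 4344, .ofNat 0, .ofNat 128,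 .negSucc 557, .ofNat 17, .ofNat 0, .ofNat 436, .negSucc 39, .ofNat 0, .ofNat 0, .ofNat 5820, .ofNat 21061, .ofNat 0, .ofNat 2550776370400650427943537372287302866120474624, .ofNat 39718882607672968716762167068613011367264256, .ofNat 0, .ofNat 0, .ofNat 21008706737686340020283291621251089813016150016, .ofNat 746004868492049453469408536529335761156177920, .ofNat 0, .ofNat 0, .ofNat 131123738866185979568664509127812421218509783040, .ofNat 1277808165839331726418867002063872581032738816, .ofNat 0, .ofNat 0, .ofNat 1795823035191166296664720854607349490615146512384, .ofNat 12350662833776149306163927070328232314310492160, .ofNat 0⟩)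
    (by decide +kernel)
theorem L01667 : Good (Phi V5.P V5.D 1 (-1)) ⟨3, 1, 2, 2, 4, 6, 3, 6, 5, 12⟩ :=
  leafYS_sound T5.ok_pm T5.Ypm.bz_eq (w := 241) (c := ⟨⟨.negSucc 1074, .negSucc 104, .ofNat 16, .negSucc 17, .negSucc 63, .ofNat 23⟩, ⟨.ofNat 544, .ofNat 39, .ofNat 282, .ofNat 9, .ofNat 42, .negSucc 13⟩, ⟨.ofNat 1227, .ofNat 179, .ofNat 287, .ofNat 306, .ofNat 42, .ofNat 147⟩, ⟨.negSucc 3250, .negSucc 137, .negSucc 48, .negSucc 111, .negSucc 191, .ofNat 55⟩, ⟨.negSucc 182, .negSucc 75, .negSucc 52, .negSucc 95, .negSucc 3, .negSucc 16⟩, .ofNat 462, .ofNat 212, .ofNat 0, .ofNat 212, .ofNat 658, .ofNat 0, .ofNat 326, .negSucc 84, .negSucc 33, .ofNat 0, .ofNat 128, .negSucc 18, .ofNat 0, .ofNat 0, .ofNat 1220, .ofNat 6244, .ofNat 0, .ofNat 0, .ofNat 86859761966401404047488740948189636481750401024, .ofNat 0, .ofNat 0, .ofNat 0, .ofNat 0, .ofNat 0, .ofNat 0, .ofNat 0, .ofNat 0, .ofNat 0, .ofNat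 0, .ofNat 14535138271781516748690258380730267999833126076416, .ofNat 3754280785266345013796472828580150456051163987968, .ofNat 0⟩)
    (by decide +kernel)
theorem L01668 : Good (Phi V5.P V5.D 1 (-1)) ⟨3, 1, 2, 2, 4, 7, 3, 6, 5, 12⟩ :=
  leafYS_sound T5.ok_pm T5.Ypm.bz_eq (w := 240) (c := ⟨⟨.negSucc 1113, .negSucc 99, .ofNat 35, .ofNat 3, .negSucc 48, .ofNat 43⟩, ⟨.ofNat 565, .ofNat 35, .ofNat 280, .negSucc 3, .ofNat 27, .negSucc 28⟩, ⟨.ofNat 1317, .ofNat 246, .ofNat 418, .ofNat 443, .ofNat 230, .ofNat 363⟩, ⟨.negSucc 3406, .negSucc 127, .negSucc 44, .negSucc 33, .negSucc 108, .ofNat 72⟩, ⟨.negSucc 263, .negSucc 93, .negSucc 85, .negSucc 66, .ofNat 40, .negSucc 77⟩, .ofNat 1885, .ofNat 2156, .ofNat 0, .ofNat 2156, .ofNat 3832, .ofNat 0, .ofNat 184, .negSucc 127, .ofNat 17, .ofNat 0, .ofNat 100, .negSucc 17, .ofNat 0, .ofNat 0, .ofNat 1212, .ofNat 2812, .ofNat 0, .ofNat 379679052264517186565361618074950753191859322880,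 .ofNat 13856453480051548757851269109010400965824610304, .ofNat 0, .ofNat 0, .ofNat 0, .ofNat 0, .ofNat 0, .ofNat 0, .ofNat 5279703689597543033930782087964610547683560521728, .ofNat 34306197210917558929611682603048055783320190976, .ofNat 0, .ofNat 0, .ofNat 55295052059528460888790140967107451736066480930816, .ofNat 0, .ofNat 0⟩)
    (by decide +kernel)
theorem L01669 : Good (Phi V5.P V5.D 1 (-1)) ⟨2, 0, 3, 4, 4, 6, 4, 12, 5, 13⟩ :=
  leafYS_sound T5.ok_pm T5.Ypm.bz_eq (w := 245) (c := ⟨⟨.negSucc 1004, .negSucc 150, .ofNat 13, .ofNat 2, .negSucc 28, .ofNat 33⟩, ⟨.ofNat 498, .ofNat 84, .ofNat 135, .negSucc 0, .ofNat 14, .negSucc 18⟩, ⟨.ofNat 1174, .ofNat 270, .ofNat 210, .ofNat 417, .ofNat 8, .ofNat 242⟩, ⟨.negSucc 3105, .negSucc 250, .negSucc 23, .negSucc 71, .negSucc 73, .ofNat 70⟩, ⟨.negSucc 127, .negSucc 132, .negSucc 39, .negSucc 109, .ofNat 1, .negSucc 30⟩, .ofNat 460, .ofNat 200, .ofNat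 0, .ofNat 200, .ofNat 649, .ofNat 0, .ofNat 332, .negSucc 79, .negSucc 17, .ofNat 0, .ofNat 128, .negSucc 44, .ofNat 0, .ofNat 0, .ofNat 1778, .ofNat 14667, .ofNat 0, .ofNat 1632434986348653316074541248115692042972985032704, .ofNat 12702911964319142986024359889685502823701101412352, .ofNat 0, .ofNat 0, .ofNat 0, .ofNat 0, .ofNat 0, .ofNat 0, .ofNat 8741139979160486640986602625771412624020089077760, .ofNat 0, .ofNat 0, .ofNat 0, .ofNat 167050600477523671660911028835629723610740101742592, .ofNat 0, .ofNat 0⟩)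
    (by decide +kernel)
theorem L01670 : Good (Phi V5.P V5.D 1 (-1)) ⟨2, 0, 3, 5, 4, 6, 4, 12, 5, 13⟩ :=
  leafYS_sound T5.ok_pm T5.Ypm.bz_eq (w := 245) (c := ⟨⟨.negSucc 971, .negSucc 189, .ofNat 40, .ofNat 11, .negSucc 22, .ofNat 32⟩, ⟨.ofNat 636, .ofNat 83, .ofNat 133, .negSucc 5, .ofNat 15, .negSucc 21⟩, ⟨.ofNat 1270, .ofNat 261, .ofNat 307, .ofNat 544, .ofNat 58, .ofNat 330⟩, ⟨.negSucc 3107, .negSucc 262, .negSucc 6, .negSucc 77, .negSucc 80, .ofNat 59⟩, ⟨.negSucc 123, .negSucc 135, .negSucc 56, .negSucc 152, .negSucc 20, .negSucc 55⟩, .ofNat 1023, .ofNat 888, .ofNat 0, .ofNat 888, .ofNat 1755, .ofNat 0, .ofNat 128, .negSucc 135, .ofNat 11, .ofNat 0, .ofNat 126, .negSucc 31, .ofNat 0, .ofNat 0, .ofNat 2292, .ofNat 18015, .ofNat 0, .ofNat 1979840821847741441231125793757702459202239201280, .ofNat 31451018007307496441553513797960859888380729622528, .ofNat 0, .ofNat 0, .ofNat 0, .ofNat 345715212493299265497960696240640550597596742156288,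 .ofNat 0, .ofNat 0, .ofNat 1992335205053178391881203197773385774299328020480, .ofNat 119589111733342969562205568059662901021008394715136, .ofNat 0, .ofNat 0, .ofNat 199332914380482589795457072634013834879730249105408, .ofNat 2237761287541294305190627096939049193079633245896704, .ofNat 0⟩)
    (by decide +kernel)
theorem L01671 : Good (Phi V5.P V5.D 1 (-1)) ⟨2, 0, 3, 4, 5, 12, 4, 13, 5, 13⟩ :=
  leafYS_sound T5.ok_pm T5.Ypm.bz_eq (w := 260) (c := ⟨⟨.negSucc 1012, .negSucc 167, .ofNat 14, .negSucc 5, .negSucc 46, .ofNat 26⟩, ⟨.ofNat 506, .ofNat 91, .ofNat 136, .ofNat 0, .ofNat 22, .negSucc 12⟩, ⟨.ofNat 1211, .ofNat 245, .ofNat 213, .ofNat 205, .negSucc 11, .ofNat 174⟩, ⟨.negSucc 3133, .negSucc 302, .negSucc 21, .negSucc 50, .negSucc 101, .ofNat 49⟩, ⟨.negSucc 107, .negSucc 154, .negSucc 41, .negSucc 57, .ofNat 14, .negSucc 26⟩, .ofNat 459, .ofNat 199, .ofNat 0, .ofNat 199, .ofNat 649, .ofNat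 0, .ofNat 667, .negSucc 79, .negSucc 17, .ofNat 0, .ofNat 128, .negSucc 60, .ofNat 0, .ofNat 0, .ofNat 1945, .ofNat 36597, .ofNat 0, .ofNat 26790299769572411100693836078505894757434067014123520, .ofNat 555046968991112727222123468003393926358628377607274496, .ofNat 0, .ofNat 0, .ofNat 0, .ofNat 0, .ofNat 0, .ofNat 0, .ofNat 44836924934343033406122080448173077654825482005250048, .ofNat 0, .ofNat 0, .ofNat 0, .ofNat 1205855689210688192885844107512603148521877129081651200, .ofNat 0, .ofNat 0⟩)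
    (by decide +kernel)
theorem L01672 : Good (Phi V5.P V5.D 1 (-1)) ⟨2, 0, 3, 4, 5, 13, 4, 13, 5, 13⟩ :=
  leafYS_sound T5.ok_pm T5.Ypm.bz_eq (w := 259) (c := ⟨⟨.negSucc 1026, .negSucc 158, .ofNat 16, .negSucc 10, .negSucc 35, .ofNat 30⟩, ⟨.ofNat 510, .ofNat 91, .ofNat 136, .negSucc 3, .ofNat 16, .negSucc 16⟩, ⟨.ofNat 1358, .ofNat 283, .ofNat 230, .ofNat 242, .ofNat 56, .ofNat 243⟩, ⟨.negSucc 3186, .negSucc 303, .negSucc 21, .negSucc 47, .negSucc 96, .ofNat 57⟩, ⟨.negSucc 148, .negSucc 168, .negSucc 48, .negSucc 66, .negSucc 2, .negSucc 42⟩, .ofNat 195, .ofNat 33, .ofNat 0, .ofNat 33, .ofNat 227, .ofNat 0, .ofNat 416, .negSucc 35, .negSucc 28, .ofNat 0, .ofNat 128, .negSucc 90, .ofNat 0, .ofNat 0, .ofNat 977, .ofNat 13994, .ofNat 0, .ofNat 13376273610376823424983086951492115405308921924026368, .ofNat 243651544853998471680678655655955722267552901995954176, .ofNat 0, .ofNat 0, .ofNat 0, .ofNat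 0, .ofNat 0, .ofNat 0, .ofNat 103467944429210401411675745480926251330788682333421568, .ofNat 0, .ofNat 0, .ofNat 0, .ofNat 791401531988257711709745974801140647395524193300774912, .ofNat 0, .ofNat 0⟩)
    (by decide +kernel)
theorem L01673 : Good (Phi V5.P V5.D 1 (-1)) ⟨2, 0, 3, 5, 4, 6, 4, 13, 5, 13⟩ :=
  leafYS_sound T5.ok_pm T5.Ypm.bz_eq (w := 244) (c := ⟨⟨.negSucc 982, .negSucc 197, .ofNat 25, .negSucc 3, .negSucc 47, .ofNat 24⟩, ⟨.ofNat 645, .ofNat 88, .ofNat 141, .ofNat 2, .ofNat 27, .negSucc 16⟩, ⟨.ofNat 1344, .ofNat 313, .ofNat 225, .ofNat 481, .negSucc 12, .ofNat 227⟩, ⟨.negSucc 3151, .negSucc 303, .negSucc 21, .negSucc 105, .negSucc 123, .ofNat 48⟩, ⟨.negSucc 128, .negSucc 165, .negSucc 45, .negSucc 142, .ofNat 1, .negSucc 40⟩, .ofNat 197, .ofNat 39, .ofNat 0, .ofNat 39, .ofNat 228, .ofNat 0, .ofNat 300, .negSucc 40, .negSucc 34, .ofNat 0, .ofNat 128, .negSucc 93, .ofNat 0, .ofNat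 0, .ofNat 1043, .ofNat 5890, .ofNat 0, .ofNat 1196258100779913920830219980378747918946364555264, .ofNat 11863264739230763296484200496236947388344089706496, .ofNat 0, .ofNat 0, .ofNat 0, .ofNat 0, .ofNat 0, .ofNat 0, .ofNat 13712142343261519414063447995703231271019523080192, .ofNat 29437989660727428287742098479702528077677755105280, .ofNat 0, .ofNat 0, .ofNat 98932869747650201023092209193412571952514974351360, .ofNat 460037027604698652101209577708004846195286239870976, .ofNat 0⟩)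
    (by decide +kernel)
theorem L01674 : Good (Phi V5.P V5.D 1 (-1)) ⟨2, 0, 3, 4, 5, 14, 4, 12, 5, 13⟩ :=
  leafYS_sound T5.ok_pm T5.Ypm.bz_eq (w := 259) (c := ⟨⟨.negSucc 1014, .negSucc 148, .ofNat 22, .ofNat 8, .negSucc 23, .ofNat 39⟩, ⟨.ofNat 505, .ofNat 80, .ofNat 131, .negSucc 6, .ofNat 9, .negSucc 28⟩, ⟨.ofNat 1405, .ofNat 352, .ofNat 303, .ofNat 297, .ofNat 105, .ofNat 427⟩, ⟨.negSucc 3182, .negSucc 255, .negSucc 18, .negSucc 22, .negSucc 72, .ofNat 84⟩, ⟨.negSucc 182, .negSucc 163, .negSucc 63, .negSucc 82, .negSucc 27, .negSucc 76⟩, .ofNat 461, .ofNat 200, .ofNat 0, .ofNat 200, .ofNat 645, .ofNat 0, .ofNat 274, .negSucc 80, .ofNat 45, .ofNat 0, .ofNat 128, .negSucc 95, .ofNat 0, .ofNat 0, .ofNat 1978, .ofNat 12946, .ofNat 0, .ofNat 11159161581137978955343839392657841610328708860608512, .ofNat 193565171950619224266952313780991337175632721702027264, .ofNat 0, .ofNat 0, .ofNat 0, .ofNat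 0, .ofNat 0, .ofNat 0, .ofNat 75801924229210480362008991308433565848380630305341440, .ofNat 0, .ofNat 0, .ofNat 0, .ofNat 1466911161792178138804653333174426249977098270628904960, .ofNat 0, .ofNat 0⟩)
    (by decide +kernel)
theorem L01675 : Good (Phi V5.P V5.D 1 (-1)) ⟨2, 0, 3, 5, 5, 14, 4, 12, 5, 13⟩ :=
  leafYS_sound T5.ok_pm T5.Ypm.bz_eq (w := 258) (c := ⟨⟨.negSucc 982, .negSucc 178, .ofNat 44, .ofNat 14, .negSucc 18, .ofNat 56⟩, ⟨.ofNat 639, .ofNat 80, .ofNat 132, .negSucc 9, .ofNat 12, .negSucc 36⟩, ⟨.ofNat 1620, .ofNat 349, .ofNat 395, .ofNat 360, .ofNat 144, .ofNat 580⟩, ⟨.negSucc 3195, .negSucc 261, .negSucc 19, .negSucc 25, .negSucc 86, .ofNat 89⟩, ⟨.negSucc 218, .negSucc 162, .negSucc 88, .negSucc 104, .negSucc 51, .negSucc 113⟩, .ofNat 496, .ofNat 257, .ofNat 0, .ofNat 257, .ofNat 686, .ofNat 0, .ofNat 140, .negSucc 93, .ofNat 60, .ofNat 0, .ofNat 128, .negSucc 95, .ofNat 0, .ofNat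 0, .ofNat 1787, .ofNat 8697, .ofNat 0, .ofNat 7838483681174743874824418755762463721452547346530304, .ofNat 347977280856877473630103872736554899859063100040806400, .ofNat 0, .ofNat 0, .ofNat 0, .ofNat 0, .ofNat 0, .ofNat 0, .ofNat 53601963191437011385959716394656943181270286625406976, .ofNat 2233353972393394598305433912876088575829713296300179456, .ofNat 0, .ofNat 0, .ofNat 1016001071513097286100889515063976911748840591774973952, .ofNat 26681893238088759934374938753930710737246502603659935744, .ofNat 0⟩)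
    (by decide +kernel)
theorem L01676 : Good (Phi V5.P V5.D 1 (-1)) ⟨2, 0, 2, 2, 5, 15, 4, 12, 5, 13⟩ :=
  leafYS_sound T5.ok_pm T5.Ypm.bz_eq (w := 256) (c := ⟨⟨.negSucc 1017, .negSucc 146, .ofNat 56, .ofNat 6, .negSucc 9, .ofNat 51⟩, ⟨.ofNat 500, .ofNat 79, .ofNat 261, .negSucc 6, .negSucc 0, .negSucc 38⟩, ⟨.ofNat 1625, .ofNat 387, .ofNat 681, .ofNat 267, .ofNat 231, .ofNat 558⟩, ⟨.negSucc 3209, .negSucc 265, .negSucc 30, .negSucc 21, .negSucc 63, .ofNat 100⟩, ⟨.negSucc 242, .negSucc 176, .negSucc 148, .negSucc 76, .negSucc 61, .negSucc 107⟩, .ofNat 462, .ofNat 206, .ofNat 0, .ofNat 206, .ofNat 653, .ofNat 0, .ofNat 454, .negSucc 82, .ofNat 59, .ofNat 0, .ofNat 128, .negSucc 126, .ofNat 0, .ofNat 0, .ofNat 2894, .ofNat 12741, .ofNat 0, .ofNat 3494684571544869213984378338244970820541314605514752, .ofNat 105019642075650351045791758191092860364312448423952384, .ofNat 0, .ofNat 0, .ofNat 0, .ofNat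 0, .ofNat 0, .ofNat 0, .ofNat 48085738423962733621410569075845304927470283439210496, .ofNat 7749651461703034482411536286357539864146074511867904, .ofNat 0, .ofNat 0, .ofNat 852103593119757538504841250036574226257418193175838720, .ofNat 0, .ofNat 0⟩)
    (by decide +kernel)
theorem L01677 : Good (Phi V5.P V5.D 1 (-1)) ⟨2, 0, 2, 2, 4, 7, 4, 13, 5, 13⟩ :=
  out_sound (S := T5.ds_pm) T5.ok_pm (w := 40) (j := 2) (by decide +kernel)
theorem L01678 : Good (Phi V5.P V5.D 1 (-1)) ⟨2, 0, 2, 2, 3, 3, 3, 7, 4, 6⟩ :=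
  leafYS_sound T5.ok_pm T5.Ypm.bz_eq (w := 219) (c := ⟨⟨.negSucc 1050, .negSucc 183, .ofNat 11, .negSucc 121, .negSucc 204, .ofNat 11⟩, ⟨.ofNat 529, .ofNat 101, .ofNat 289, .ofNat 24, .ofNat 7, .negSucc 11⟩, ⟨.ofNat 1160, .ofNat 271, .ofNat 268, .ofNat 510, .negSucc 55, .ofNat 126⟩, ⟨.negSucc 3237, .negSucc 372, .negSucc 51, .negSucc 287, .negSucc 179, .ofNat 58⟩, ⟨.negSucc 80, .negSucc 182, .negSucc 54, .negSucc 146, .ofNat 90, .ofNat 2⟩, .ofNat 196, .ofNat 34, .ofNat 0, .ofNat 34, .ofNat 227, .ofNat 0, .ofNat 578, .negSucc 35, .negSucc 125, .ofNat 0, .ofNat 128, .negSucc 84, .ofNat 0, .ofNat 0, .ofNat 1196, .ofNat 12454, .ofNat 0, .ofNat 5364480889596609421902505879188909596868608, .ofNat 514362842533462524087146642741239058792448, .ofNat 0, .ofNat 0, .ofNat 356880026179993418609805106906336680002715648, .ofNat 1456853093902553413389061461751214301511680, .ofNat 0, .ofNat 0, .ofNat 65896025362813740231058198291957840584114176,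 .ofNat 483209659304519547466637189227144636530688, .ofNat 0, .ofNat 0, .ofNat 562369212191593859129784567625334240091045888, .ofNat 0, .ofNat 0⟩)
    (by decide +kernel)
theorem L01679 : Good (Phi V5.P V5.D 1 (-1)) ⟨2, 0, 3, 4, 5, 12, 4, 12, 5, 14⟩ :=
  leafYS_sound T5.ok_pm T5.Ypm.bz_eq (w := 260) (c := ⟨⟨.negSucc 986, .negSucc 146, .ofNat 19, .ofNat 8, .negSucc 20, .ofNat 35⟩, ⟨.ofNat 486, .ofNat 82, .ofNat 130, .negSucc 3, .ofNat 15, .negSucc 20⟩, ⟨.ofNat 1307, .ofNat 244, .ofNat 286, .ofNat 289, .ofNat 24, .ofNat 338⟩, ⟨.negSucc 3041, .negSucc 244, .negSucc 21, .negSucc 32, .negSucc 79, .ofNat 61⟩, ⟨.negSucc 125, .negSucc 130, .negSucc 53, .negSucc 76, .negSucc 13, .negSucc 59⟩, .ofNat 459, .ofNat 199, .ofNat 0, .ofNat 199, .ofNat 650, .ofNat 0, .ofNat 270, .negSucc 79, .ofNat 13, .ofNat 0, .ofNat 128, .negSucc 82, .ofNat 0, .ofNat 0, .ofNat 2366, .ofNat 35763, .ofNat 0, .ofNat 22030519573187381939272846710630344840308839598260224,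 .ofNat 620304129654936464001997330047413928968231108428693504, .ofNat 0, .ofNat 0, .ofNat 0, .ofNat 0, .ofNat 0, .ofNat 0, .ofNat 41732356016704635772481455685052680892106934438592512, .ofNat 0, .ofNat 0, .ofNat 0, .ofNat 1418026408572784206288042009076382109075651902174134272, .ofNat 0, .ofNat 0⟩)
    (by decide +kernel)
theorem L01680 : Good (Phi V5.P V5.D 1 (-1)) ⟨2, 0, 3, 4, 5, 13, 4, 12, 5, 14⟩ :=
  leafYS_sound T5.ok_pm T5.Ypm.bz_eq (w := 260) (c := ⟨⟨.negSucc 990, .negSucc 148, .ofNat 30, .ofNat 20, .negSucc 21, .ofNat 45⟩, ⟨.ofNat 490, .ofNat 79, .ofNat 123, .negSucc 9, .ofNat 9, .negSucc 30⟩, ⟨.ofNat 1442, .ofNat 284, .ofNat 437, .ofNat 379, .ofNat 89, .ofNat 536⟩, ⟨.negSucc 3087, .negSucc 242, .negSucc 16, .negSucc 14, .negSucc 69, .ofNat 77⟩, ⟨.negSucc 165, .negSucc 142, .negSucc 89, .negSucc 95, .negSucc 29, .negSucc 101⟩, .ofNat 461, .ofNat 200, .ofNat 0, .ofNat 200, .ofNat 645,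 .ofNat 0, .ofNat 241, .negSucc 79, .ofNat 62, .ofNat 0, .ofNat 128, .negSucc 119, .ofNat 0, .ofNat 0, .ofNat 2387, .ofNat 18559, .ofNat 0, .ofNat 17264551871515481691064315240345333294154337927299072, .ofNat 240009565922098334329943456268752324551986193146839040, .ofNat 0, .ofNat 0, .ofNat 0, .ofNat 0, .ofNat 0, .ofNat 0, .ofNat 90899181246941032745971385340823524332408586639507456, .ofNat 0, .ofNat 0, .ofNat 0, .ofNat 2207726677844551385380207238557982092653286872995332096, .ofNat 0, .ofNat 0⟩)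
    (by decide +kernel)
theorem L01681 : Good (Phi V5.P V5.D 1 (-1)) ⟨3, 0, 4, 10, 5, 12, 4, 12, 5, 14⟩ :=
  leafYS_sound T5.ok_pm T5.Ypm.bz_eq (w := 269) (c := ⟨⟨.negSucc 970, .negSucc 68, .ofNat 21, .ofNat 12, .negSucc 18, .ofNat 39⟩, ⟨.ofNat 613, .ofNat 52, .ofNat 55, .negSucc 8, .ofNat 12, .negSucc 25⟩, ⟨.ofNat 1575, .negSucc 3, .ofNat 342, .ofNat 388, .ofNat 62, .ofNat 460⟩, ⟨.negSucc 3069, .negSucc 119, .negSucc 10, .negSucc 28, .negSucc 69, .ofNat 61⟩, ⟨.negSucc 182, .negSucc 29, .negSucc 81, .negSucc 98, .negSucc 20, .negSucc 82⟩, .ofNat 1017, .ofNat 861, .ofNat 0, .ofNat 861, .ofNat 1714, .ofNat 0, .ofNat 128, .negSucc 274, .ofNat 109, .ofNat 0, .ofNat 262, .negSucc 152, .ofNat 0, .ofNat 0, .ofNat 7195, .ofNat 88685, .ofNat 0, .ofNat 6740876970336009079531991223588430073303757205566128128, .ofNat 1536654492807335574603564233871169317615423015517945856, .ofNat 0, .ofNat 0, .ofNat 0,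 .ofNat 7645407479452136997779498450992904443201670313953722368, .ofNat 0, .ofNat 0, .ofNat 18561866300174784861178111496858229455276333576556118016, .ofNat 5226723121957458382682168509158307877259670840500289536, .ofNat 0, .ofNat 0, .ofNat 1178003343160279382520123117252508060232712885900285050880, .ofNat 132995615871024571113121776807358195046589934532227497984, .ofNat 0⟩)
    (by decide +kernel)
theorem L01682 : Good (Phi V5.P V5.D 1 (-1)) ⟨3, 1, 4, 10, 5, 12, 5, 24, 5, 14⟩ :=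
  leafYS_sound T5.ok_pm T5.Ypm.bz_eq (w := 272) (c := ⟨⟨.negSucc 1036, .negSucc 97, .ofNat 13, .ofNat 16, .negSucc 8, .ofNat 41⟩, ⟨.ofNat 665, .ofNat 34, .ofNat 65, .negSucc 7, .ofNat 6, .negSucc 27⟩, ⟨.ofNat 1560, .ofNat 174, .ofNat 189, .ofNat 418, .ofNat 62, .ofNat 471⟩, ⟨.negSucc 3184, .negSucc 118, .negSucc 10, .negSucc 31, .negSucc 41, .ofNat 62⟩, ⟨.negSucc 204, .negSucc 69, .negSucc 34, .negSucc 112, .negSucc 25, .negSucc 87⟩, .ofNat 476, .ofNat 237, .ofNat 0, .ofNat 237, .ofNat 674, .ofNat 0, .ofNat 128, .negSucc 94, .ofNat 30, .ofNat 0, .ofNat 135, .negSucc 114, .ofNat 0, .ofNat 0, .ofNat 3381, .ofNat 55643, .ofNat 0, .ofNat 15707228472833945856037327033459809084996371034243334144, .ofNat 12432191727901452904026611089453341111116748633898221568, .ofNat 0, .ofNat 0, .ofNat 0, .ofNat 0, .ofNat 0, .ofNat 0, .ofNat 0, .ofNat 6901303991286230120349409403858800721951696569271058432, .ofNat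 0, .ofNat 0, .ofNat 879235872704424215494665499026173646362427893553194598400, .ofNat 711256004204092175496390813976828593009561350043489796096, .ofNat 0⟩)
    (by decide +kernel)
theorem L01683 : Good (Phi V5.P V5.D 1 (-1)) ⟨3, 1, 4, 10, 5, 12, 5, 25, 5, 14⟩ :=
  leafYS_sound T5.ok_pm T5.Ypm.bz_eq (w := 271) (c := ⟨⟨.negSucc 1041, .negSucc 98, .ofNat 12, .ofNat 11, .negSucc 16, .ofNat 40⟩, ⟨.ofNat 671, .ofNat 36, .ofNat 64, .negSucc 10, .ofNat 11, .negSucc 27⟩, ⟨.ofNat 1604, .ofNat 186, .ofNat 199, .ofNat 437, .ofNat 5, .ofNat 467⟩, ⟨.negSucc 3215, .negSucc 131, .negSucc 10, .negSucc 36, .negSucc 52, .ofNat 58⟩, ⟨.negSucc 215, .negSucc 82, .negSucc 39, .negSucc 118, .negSucc 9, .negSucc 92⟩, .ofNat 477, .ofNat 238, .ofNat 0, .ofNat 238, .ofNat 675, .ofNat 0, .ofNat 151, .negSucc 89, .ofNat 44, .ofNat 0, .ofNat 128, .negSucc 138, .ofNat 0, .ofNat 0, .ofNat 3540, .ofNat 27003, .ofNat 0, .ofNat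 13174103325519006881433612261750774395511173179569602560, .ofNat 4396348913406200895677765158427225055018703965774675968, .ofNat 0, .ofNat 0, .ofNat 0, .ofNat 0, .ofNat 0, .ofNat 0, .ofNat 42733920217241666230747550564926238393741736797850828800, .ofNat 211111909224361064994806666905009670545705762197340160, .ofNat 0, .ofNat 0, .ofNat 2066950774081929703606077795932869067368859928865351401472, .ofNat 0, .ofNat 0⟩)
    (by decide +kernel)
theorem L01684 : Good (Phi V5.P V5.D 1 (-1)) ⟨3, 0, 5, 20, 5, 13, 5, 24, 5, 14⟩ :=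
  leafYS_sound T5.ok_pm T5.Ypm.bz_eq (w := 276) (c := ⟨⟨.negSucc 973, .negSucc 60, .ofNat 10, .ofNat 23, .negSucc 5, .ofNat 57⟩, ⟨.ofNat 615, .ofNat 46, .ofNat 28, .negSucc 16, .ofNat 3, .negSucc 39⟩, ⟨.ofNat 1757, .ofNat 107, .ofNat 160, .ofNat 499, .ofNat 70, .ofNat 735⟩, ⟨.negSucc 3134, .negSucc 89, .negSucc 22, .ofNat 5, .negSucc 21, .ofNat 79⟩, ⟨.negSucc 268, .negSucc 20, .negSucc 58, .negSucc 95, .negSucc 8, .negSucc 136⟩, .ofNat 6611, .ofNat 9035, .ofNat 0, .ofNat 9035, .ofNat 13940, .ofNat 0, .ofNat 128, .negSucc 516, .ofNat 351, .ofNat 0, .ofNat 376, .negSucc 261, .ofNat 0, .ofNat 0, .ofNat 11622, .ofNat 95419, .ofNat 0, .ofNat 357988633178662487099477312688171502542619358640868425728, .ofNat 24643443439002719755117447348014101018823828034222555136, .ofNat 0, .ofNat 0, .ofNat 976778999779682557585214913703235863168775027958912909312, .ofNat 1532944639566859192880454348911924901595020107248922787840,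 .ofNat 0, .ofNat 0, .ofNat 8512489512825868686726067461478691818373139926073420546048, .ofNat 55698765622876676539559723228598281888998006039456514048, .ofNat 0, .ofNat 0, .ofNat 215480749210606552267625995267140572189865939971256570871808, .ofNat 0, .ofNat 0⟩)
    (by decide +kernel)
theorem L01685 : Good (Phi V5.P V5.D 1 (-1)) ⟨3, 0, 5, 20, 5, 13, 5, 25, 5, 14⟩ :=
  leafYS_sound T5.ok_pm T5.Ypm.bz_eq (w := 275) (c := ⟨⟨.negSucc 976, .negSucc 62, .ofNat 8, .ofNat 17, .negSucc 9, .ofNat 51⟩, ⟨.ofNat 617, .ofNat 46, .ofNat 31, .negSucc 12, .ofNat 6, .negSucc 34⟩, ⟨.ofNat 1825, .ofNat 145, .ofNat 118, .ofNat 439, .ofNat 57, .ofNat 606⟩, ⟨.negSucc 3128, .negSucc 129, .negSucc 5, .negSucc 22, .negSucc 38, .ofNat 73⟩, ⟨.negSucc 244, .negSucc 73, .negSucc 24, .negSucc 111, .negSucc 16, .negSucc 118⟩, .ofNat 1014, .ofNat 857, .ofNat 0, .ofNat 857, .ofNat 1710, .ofNat 0, .ofNat 128, .negSucc 161, .ofNat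 72, .ofNat 0, .ofNat 154, .negSucc 81, .ofNat 0, .ofNat 0, .ofNat 2898, .ofNat 48680, .ofNat 0, .ofNat 209446400493213010241532783752695807172704695897538166784, .ofNat 14462434006753363962510297853746607841316980319374540800, .ofNat 0, .ofNat 0, .ofNat 707370476401402801935400653224219596230595149444918804480, .ofNat 106250803008792797323290100565480908866348721052974055424, .ofNat 0, .ofNat 0, .ofNat 2847355385913796565517804580212537826735278953703109820416, .ofNat 0, .ofNat 0, .ofNat 0, .ofNat 34666454631783385546616685751902436989756443949007737192448, .ofNat 92628826052086913611758211736366541989554334819929817088, .ofNat 0⟩)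
    (by decide +kernel)
theorem L01686 : Good (Phi V5.P V5.D 1 (-1)) ⟨3, 0, 5, 21, 5, 13, 4, 12, 5, 14⟩ :=
  out_sound (S := T5.ds_pm) T5.ok_pm (w := 49) (j := 3) (by decide +kernel)
theorem L01687 : Good (Phi V5.P V5.D 1 (-1)) ⟨3, 1, 4, 10, 5, 13, 4, 12, 6, 28⟩ :=
  leafYS_sound T5.ok_pm T5.Ypm.bz_eq (w := 272) (c := ⟨⟨.negSucc 1030, .negSucc 95, .ofNat 16, .ofNat 24, .negSucc 18, .ofNat 27⟩, ⟨.ofNat 662, .ofNat 36, .ofNat 63, .negSucc 16, .ofNat 10, .negSucc 19⟩, ⟨.ofNat 1859, .ofNat 190, .ofNat 238, .ofNat 522, .ofNat 152, .ofNat 340⟩, ⟨.negSucc 3220, .negSucc 122, .negSucc 11, .negSucc 18, .negSucc 89, .ofNat 41⟩, ⟨.negSucc 281, .negSucc 79, .negSucc 46, .negSucc 135, .negSucc 62, .negSucc 65⟩, .ofNat 1027, .ofNat 905, .ofNat 0, .ofNat 905, .ofNat 1781, .ofNat 0, .ofNat 166, .negSucc 127, .ofNat 77, .ofNat 0, .ofNat 117, .negSucc 80, .ofNat 0, .ofNat 0, .ofNat 2856, .ofNat 28808, .ofNat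 0, .ofNat 26122209333906798943086463250134464738332246718629806080, .ofNat 12891569327687208691160348716004295203134779889111007232, .ofNat 0, .ofNat 0, .ofNat 0, .ofNat 0, .ofNat 0, .ofNat 0, .ofNat 168968845247814411797742452850031762868028798399858868224, .ofNat 1205213391620369492744850225592141291628118730818453504, .ofNat 0, .ofNat 0, .ofNat 3282794907176671374562740447083721745505096938127034941440, .ofNat 0, .ofNat 0⟩)
    (by decide +kernel)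
theorem L01688 : Good (Phi V5.P V5.D 1 (-1)) ⟨3, 1, 4, 10, 5, 13, 5, 24, 6, 29⟩ :=
  leafYS_sound T5.ok_pm T5.Ypm.bz_eq (w := 277) (c := ⟨⟨.negSucc 1011, .negSucc 91, .ofNat 21, .ofNat 39, .negSucc 4, .ofNat 38⟩, ⟨.ofNat 647, .ofNat 36, .ofNat 58, .negSucc 26, .ofNat 3, .negSucc 25⟩, ⟨.ofNat 2099, .ofNat 185, .ofNat 318, .ofNat 731, .ofNat 105, .ofNat 505⟩, ⟨.negSucc 3184, .negSucc 134, .ofNat 7, .negSucc 8, .negSucc 45, .ofNat 43⟩, ⟨.negSucc 322, .negSucc 99, .negSucc 38, .negSucc 181, .negSucc 46, .negSucc 100⟩, .ofNat 2467, .ofNat 2960, .ofNat 0, .ofNat 2960, .ofNat 4893, .ofNat 0, .ofNat 141, .negSucc 127, .ofNat 113, .ofNat 0, .ofNat 97, .negSucc 87, .ofNat 0, .ofNat 0, .ofNat 3314, .ofNat 33246, .ofNat 0, .ofNat 153032214087114366852863690326091949361615563545494159360, .ofNat 206939713557541192298376670555383261223566807945908846592, .ofNat 0, .ofNat 0, .ofNat 0, .ofNat 0, .ofNat 0,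 .ofNat 0, .ofNat 925770993532819413362690016646196268904487732479522766848, .ofNat 0, .ofNat 0, .ofNat 0, .ofNat 21175761997040018887470524328538010657458237766109568696320, .ofNat 0, .ofNat 0⟩)
    (by decide +kernel)
theorem L01689 : Good (Phi V5.P V5.D 1 (-1)) ⟨3, 1, 4, 10, 5, 13, 5, 25, 6, 29⟩ :=
  leafYS_sound T5.ok_pm T5.Ypm.bz_eq (w := 277) (c := ⟨⟨.negSucc 1014, .negSucc 97, .ofNat 21, .ofNat 36, .negSucc 0, .ofNat 32⟩, ⟨.ofNat 648, .ofNat 37, .ofNat 60, .negSucc 18, .ofNat 10, .negSucc 19⟩, ⟨.ofNat 2241, .ofNat 176, .ofNat 295, .ofNat 618, .ofNat 52, .ofNat 369⟩, ⟨.negSucc 3222, .negSucc 131, .negSucc 8, .negSucc 17, .negSucc 45, .ofNat 39⟩, ⟨.negSucc 369, .negSucc 80, .negSucc 58, .negSucc 174, .negSucc 36, .negSucc 80⟩, .ofNat 196, .ofNat 39, .ofNat 0, .ofNat 39, .ofNat 228, .ofNat 0, .ofNat 281, .negSucc 39, .ofNat 23, .ofNat 0, .ofNat 128, .negSucc 172, .ofNat 0, .ofNat 0, .ofNat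 1592, .ofNat 54017, .ofNat 0, .ofNat 306280776705050877177312388489756469796166468272587276288, .ofNat 416410398240287227019615246875040603259356646441951952896, .ofNat 0, .ofNat 0, .ofNat 2166231479845803239083340662176717850071791073372363816960, .ofNat 0, .ofNat 0, .ofNat 0, .ofNat 1728517619971178366781472114458410404350114337124975116288, .ofNat 0, .ofNat 0, .ofNat 0, .ofNat 22597310359455305760106275764272586916903829484963429875712, .ofNat 1036903517336044148171130429798098435001546187825586634752, .ofNat 0⟩)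
    (by decide +kernel)
theorem L01690 : Good (Phi V5.P V5.D 1 (-1)) ⟨2, 0, 4, 11, 4, 6, 4, 12, 5, 14⟩ :=
  out_sound (S := T5.ds_pm) T5.ok_pm (w := 41) (j := 3) (by decide +kernel)
theorem L01691 : Good (Phi V5.P V5.D 1 (-1)) ⟨2, 0, 3, 4, 4, 6, 4, 13, 5, 14⟩ :=
  leafYS_sound T5.ok_pm T5.Ypm.bz_eq (w := 245) (c := ⟨⟨.negSucc 1006, .negSucc 164, .ofNat 16, .ofNat 31, .negSucc 15, .ofNat 38⟩, ⟨.ofNat 497, .ofNat 88, .ofNat 132, .negSucc 3, .ofNat 22, .negSucc 14⟩, ⟨.ofNat 1347, .ofNat 217, .ofNat 290, .ofNat 505, .negSucc 21, .ofNat 215⟩, ⟨.negSucc 3096, .negSucc 284, .negSucc 22, .negSucc 85, .negSucc 107, .ofNat 49⟩, ⟨.negSucc 128, .negSucc 140, .negSucc 57, .negSucc 142, .ofNat 6, .negSucc 38⟩, .ofNat 195, .ofNat 33, .ofNat 0, .ofNat 33, .ofNat 227, .ofNat 0, .ofNat 360, .negSucc 33, .negSucc 30, .ofNat 0, .ofNat 128, .negSucc 148, .ofNat 0, .ofNat 0, .ofNat 1508, .ofNat 16353, .ofNat 0,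 .ofNat 4677370692219921354490965172221896361514903797760, .ofNat 18445989881263225934279932160041167822516629012480, .ofNat 0, .ofNat 0, .ofNat 73977449973935873885782944481452073843052892913664, .ofNat 0, .ofNat 0, .ofNat 0, .ofNat 37306202212221246279180180931265055950637843349504, .ofNat 0, .ofNat 0, .ofNat 0, .ofNat 488185258971743556209396251391620120668745121136640, .ofNat 0, .ofNat 0⟩)
    (by decide +kernel)
theorem L01692 : Good (Phi V5.P V5.D 1 (-1)) ⟨2, 0, 4, 10, 5, 12, 4, 13, 5, 14⟩ :=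
  leafYS_sound T5.ok_pm T5.Ypm.bz_eq (w := 262) (c := ⟨⟨.negSucc 969, .negSucc 185, .ofNat 16, .ofNat 6, .negSucc 31, .ofNat 32⟩, ⟨.ofNat 631, .ofNat 88, .ofNat 66, .negSucc 3, .ofNat 27, .negSucc 20⟩, ⟨.ofNat 1558, .ofNat 270, .ofNat 174, .ofNat 338, .negSucc 20, .ofNat 320⟩, ⟨.negSucc 3117, .negSucc 288, .negSucc 10, .negSucc 43, .negSucc 106, .ofNat 51⟩, ⟨.negSucc 168, .negSucc 152, .negSucc 34, .negSucc 92, .ofNat 1, .negSucc 61⟩, .ofNat 197, .ofNat 38, .ofNat 0, .ofNat 38, .ofNat 228, .ofNat 0, .ofNat 228, .negSucc 38, .negSucc 16, .ofNat 0, .ofNat 128, .negSucc 133, .ofNat 0, .ofNat 0, .ofNat 1321, .ofNat 17211, .ofNat 0, .ofNat 165890039925638683395383702874305044190758126569390080, .ofNat 903138239050923135495754070220231310748823300847173632, .ofNat 0, .ofNat 0, .ofNat 1347881734707792417148199577108781932765756882501500928, .ofNat 0, .ofNat 0, .ofNat 0, .ofNat 1065771826537501554723073995080599298895169302833397760,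 .ofNat 0, .ofNat 0, .ofNat 0, .ofNat 11865677606897437771830944532580808279571619409416945664, .ofNat 6966164116422949262670073734804513814298829082205356032, .ofNat 0⟩)
    (by decide +kernel)
theorem L01693 : Good (Phi V5.P V5.D 1 (-1)) ⟨2, 0, 4, 10, 5, 13, 4, 13, 5, 14⟩ :=
  out_sound (S := T5.ds_pm) T5.ok_pm (w := 42) (j := 2) (by decide +kernel)
theorem L01694 : Good (Phi V5.P V5.D 1 (-1)) ⟨2, 0, 4, 11, 4, 6, 4, 13, 5, 14⟩ :=
  out_sound (S := T5.ds_pm) T5.ok_pm (w := 41) (j := 3) (by decide +kernel)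
theorem L01695 : Good (Phi V5.P V5.D 1 (-1)) ⟨2, 0, 3, 4, 4, 6, 4, 12, 5, 15⟩ :=
  leafYS_sound T5.ok_pm T5.Ypm.bz_eq (w := 244) (c := ⟨⟨.negSucc 969, .negSucc 138, .ofNat 31, .ofNat 47, .negSucc 14, .ofNat 28⟩, ⟨.ofNat 474, .ofNat 82, .ofNat 119, .negSucc 23, .ofNat 16, .negSucc 27⟩, ⟨.ofNat 1485, .ofNat 215, .ofNat 526, .ofNat 953, .negSucc 10, .ofNat 468⟩, ⟨.negSucc 2996, .negSucc 238, .negSucc 16, .negSucc 25, .negSucc 74, .ofNat 67⟩, ⟨.negSucc 150, .negSucc 123, .negSucc 102, .negSucc 232, .negSucc 13, .negSucc 85⟩, .ofNat 195, .ofNat 32, .ofNat 0, .ofNat 32, .ofNat 227, .ofNat 0, .ofNat 195, .negSucc 32, .ofNat 12, .ofNat 0, .ofNat 128, .negSucc 150, .ofNat 0, .ofNat 0, .ofNat 1475, .ofNat 5615, .ofNat 0, .ofNat 1652816956114811835571884114308695975979602935808, .ofNat 0, .ofNat 0, .ofNat 0, .ofNat 0, .ofNat 0, .ofNat 0, .ofNat 709758371956764026185004572422790158407159261429760, .ofNat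 14023858173897949071451053065245072306884571037696, .ofNat 0, .ofNat 0, .ofNat 11104823731354763353402936748763878216614528965148672, .ofNat 196557378119914675364374742164047181999363992846336, .ofNat 0, .ofNat 0⟩)
    (by decide +kernel)
theorem L01696 : Good (Phi V5.P V5.D 1 (-1)) ⟨2, 0, 3, 4, 4, 6, 4, 13, 5, 15⟩ :=
  out_sound (S := T5.ds_pm) T5.ok_pm (w := 40) (j := 2) (by decide +kernel)
theorem L01697 : Good (Phi V5.P V5.D 1 (-1)) ⟨2, 0, 4, 10, 5, 12, 4, 12, 6, 30⟩ :=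
  leafYS_sound T5.ok_pm T5.Ypm.bz_eq (w := 269) (c := ⟨⟨.negSucc 925, .negSucc 175, .ofNat 25, .ofNat 34, .negSucc 16, .ofNat 28⟩, ⟨.ofNat 606, .ofNat 74, .ofNat 59, .negSucc 22, .ofNat 11, .negSucc 19⟩, ⟨.ofNat 1725, .ofNat 315, .ofNat 340, .ofNat 714, .ofNat 129, .ofNat 400⟩, ⟨.negSucc 3004, .negSucc 241, .negSucc 11, .negSucc 16, .negSucc 88, .ofNat 32⟩, ⟨.negSucc 179, .negSucc 144, .negSucc 67, .negSucc 172, .negSucc 60, .negSucc 81⟩, .ofNat 486, .ofNat 242, .ofNat 0, .ofNat 242, .ofNat 674, .ofNat 0, .ofNat 286, .negSucc 88, .ofNat 88, .ofNat 0, .ofNat 128, .negSucc 154, .ofNat 0, .ofNat 0, .ofNat 3162, .ofNat 45954, .ofNat 0, .ofNat 2933889617886565611695800396950441431685477073959256064, .ofNat 75173424591067266318664619766170793448373875084623872000, .ofNat 0, .ofNat 0, .ofNat 0, .ofNat 0, .ofNat 0, .ofNat 0, .ofNat 5890573368016188171986502058158551612230661726453891072, .ofNat 94818981119607632913780622833623994763196045227359993856,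 .ofNat 0, .ofNat 0, .ofNat 212010418401939671925143548865667716378287792816893460480, .ofNat 525088342305813262260186889462659678550240427314455248896, .ofNat 0⟩)
    (by decide +kernel)
theorem L01698 : Good (Phi V5.P V5.D 1 (-1)) ⟨2, 0, 4, 11, 5, 12, 4, 12, 6, 30⟩ :=
  out_sound (S := T5.ds_pm) T5.ok_pm (w := 41) (j := 3) (by decide +kernel)
theorem L01699 : Good (Phi V5.P V5.D 1 (-1)) ⟨2, 0, 3, 5, 5, 12, 4, 13, 6, 30⟩ :=
  out_sound (S := T5.ds_pm) T5.ok_pm (w := 44) (j := 2) (by decide +kernel)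
theorem L01700 : Good (Phi V5.P V5.D 1 (-1)) ⟨2, 0, 4, 10, 5, 12, 5, 24, 6, 31⟩ :=
  out_sound (S := T5.ds_pm) T5.ok_pm (w := 37) (j := 1) (by decide +kernel)
theorem L01701 : Good (Phi V5.P V5.D 1 (-1)) ⟨2, 0, 4, 10, 6, 24, 7, 100, 8, 124⟩ :=
  out_sound (S := T5.ds_pm) T5.ok_pm (w := 45) (j := 1) (by decide +kernel)
theorem L01702 : Good (Phi V5.P V5.D 1 (-1)) ⟨2, 0, 4, 10, 7, 48, 7, 101, 9, 248⟩ :=
  out_sound (S := T5.ds_pm) T5.ok_pm (w := 49) (j := 1) (by decide +kernel)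
theorem L01703 : Good (Phi V5.P V5.D 1 (-1)) ⟨2, 0, 4, 10, 7, 49, 7, 101, 9, 248⟩ :=
  out_sound (S := T5.ds_pm) T5.ok_pm (w := 60) (j := 2) (by decide +kernel)
theorem L01704 : Good (Phi V5.P V5.D 1 (-1)) ⟨2, 0, 4, 10, 6, 24, 7, 101, 9, 249⟩ :=
  out_sound (S := T5.ds_pm) T5.ok_pm (w := 47) (j := 1) (by decide +kernel)
theorem L01705 : Good (Phi V5.P V5.D 1 (-1)) ⟨2, 0, 4, 10, 6, 24, 6, 50, 8, 125⟩ :=
  out_sound (S := T5.ds_pm) T5.ok_pm (w := 44) (j := 1) (by decide +kernel)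
theorem L01706 : Good (Phi V5.P V5.D 1 (-1)) ⟨2, 0, 4, 10, 6, 24, 6, 51, 7, 62⟩ :=
  out_sound (S := T5.ds_pm) T5.ok_pm (w := 52) (j := 2) (by decide +kernel)
theorem L01707 : Good (Phi V5.P V5.D 1 (-1)) ⟨2, 0, 4, 10, 6, 24, 5, 25, 7, 63⟩ :=
  out_sound (S := T5.ds_pm) T5.ok_pm (w := 41) (j := 1) (by decide +kernel)
theorem L01708 : Good (Phi V5.P V5.D 1 (-1)) ⟨2, 0, 4, 10, 6, 25, 5, 25, 6, 31⟩ :=
  out_sound (S := T5.ds_pm) T5.ok_pm (w := 48) (j := 2) (by decide +kernel)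
theorem L01709 : Good (Phi V5.P V5.D 1 (-1)) ⟨2, 0, 4, 10, 5, 12, 4, 13, 6, 31⟩ :=
  out_sound (S := T5.ds_pm) T5.ok_pm (w := 44) (j := 2) (by decide +kernel)
theorem L01710 : Good (Phi V5.P V5.D 1 (-1)) ⟨2, 0, 4, 11, 5, 12, 3, 6, 6, 31⟩ :=
  out_sound (S := T5.ds_pm) T5.ok_pm (w := 41) (j := 3) (by decide +kernel)
theorem L01711 : Good (Phi V5.P V5.D 1 (-1)) ⟨2, 0, 4, 10, 5, 13, 5, 24, 6, 30⟩ :=
  leafYS_sound T5.ok_pm T5.Ypm.bz_eq (w := 274) (c := ⟨⟨.negSucc 903, .negSucc 168, .ofNat 30, .ofNat 62, .ofNat 5, .ofNat 48⟩, ⟨.ofNat 588, .ofNat 73, .ofNat 53, .negSucc 38, .ofNat 1, .negSucc 34⟩, ⟨.ofNat 2348, .ofNat 333, .ofNat 461, .ofNat 1011, .ofNat 135, .ofNat 726⟩, ⟨.negSucc 3030, .negSucc 234, .negSucc 5, .ofNat 10, .negSucc 36, .ofNat 51⟩, ⟨.negSucc 332, .negSucc 146, .negSucc 89, .negSucc 237, .negSucc 52, .negSucc 143⟩, .ofNat 478, .ofNat 235, .ofNat 0, .ofNat 235, .ofNat 672, .ofNat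 0, .ofNat 314, .negSucc 88, .ofNat 138, .ofNat 0, .ofNat 128, .negSucc 214, .ofNat 0, .ofNat 0, .ofNat 4363, .ofNat 68860, .ofNat 0, .ofNat 21949789874958132791776729357356853826388903668423327744, .ofNat 1993617107999940782377124317237760008073254067743756386304, .ofNat 0, .ofNat 0, .ofNat 0, .ofNat 0, .ofNat 0, .ofNat 0, .ofNat 148933357756912451001276325469865155771791287611018969088, .ofNat 1357576331142710816931889180987618575174768897677074628608, .ofNat 0, .ofNat 0, .ofNat 3822651238243516423087132573628933847568321261745052057600, .ofNat 43765096359058272393821670369989812017194031517561637568512, .ofNat 0⟩)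
    (by decide +kernel)
theorem L01712 : Good (Phi V5.P V5.D 1 (-1)) ⟨2, 0, 4, 11, 5, 13, 5, 24, 6, 30⟩ :=
  out_sound (S := T5.ds_pm) T5.ok_pm (w := 41) (j := 3) (by decide +kernel)
theorem L01713 : Good (Phi V5.P V5.D 1 (-1)) ⟨2, 0, 3, 5, 6, 26, 6, 48, 6, 31⟩ :=
  out_sound (S := T5.ds_pm) T5.ok_pm (w := 40) (j := 1) (by decide +kernel)
theorem L01714 : Good (Phi V5.P V5.D 1 (-1)) ⟨2, 0, 3, 5, 6, 26, 6, 49, 6, 31⟩ :=
  out_sound (S := T5.ds_pm) T5.ok_pm (w := 50) (j := 2) (by decide +kernel)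
theorem L01715 : Good (Phi V5.P V5.D 1 (-1)) ⟨2, 0, 3, 5, 6, 27, 5, 24, 6, 31⟩ :=
  out_sound (S := T5.ds_pm) T5.ok_pm (w := 48) (j := 2) (by decide +kernel)
theorem L01716 : Good (Phi V5.P V5.D 1 (-1)) ⟨2, 0, 3, 5, 5, 13, 5, 25, 5, 15⟩ :=
  out_sound (S := T5.ds_pm) T5.ok_pm (w := 44) (j := 2) (by decide +kernel)
theorem L01717 : Good (Phi V5.P V5.D 1 (-1)) ⟨2, 0, 3, 5, 5, 13, 4, 13, 5, 15⟩ :=
  out_sound (S := T5.ds_pm) T5.ok_pm (w := 42) (j := 2) (by decide +kernel)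
theorem L01718 : Good (Phi V5.P V5.D 1 (-1)) ⟨2, 0, 3, 4, 5, 14, 4, 12, 5, 14⟩ :=
  leafYS_sound T5.ok_pm T5.Ypm.bz_eq (w := 259) (c := ⟨⟨.negSucc 987, .negSucc 141, .ofNat 37, .ofNat 30, .ofNat 0, .ofNat 48⟩, ⟨.ofNat 484, .ofNat 77, .ofNat 122, .negSucc 15, .ofNat 0, .negSucc 43⟩, ⟨.ofNat 1720, .ofNat 335, .ofNat 476, .ofNat 513, .ofNat 273, .ofNat 730⟩, ⟨.negSucc 3110, .negSucc 245, .negSucc 11, .negSucc 6, .negSucc 45, .ofNat 100⟩, ⟨.negSucc 237, .negSucc 156, .negSucc 96, .negSucc 132, .negSucc 74, .negSucc 146⟩, .ofNat 195, .ofNat 33, .ofNat 0, .ofNat 33, .ofNat 227, .ofNat 0, .ofNat 439, .negSucc 35, .ofNat 57, .ofNat 0, .ofNat 128, .negSucc 333, .ofNat 0, .ofNat 0, .ofNat 3230, .ofNat 9594, .ofNat 0, .ofNat 17457973638883527055913598686353942575388756205895680, .ofNat 145618138567266124011975536733321831205077008961765376, .ofNat 0, .ofNat 0, .ofNat 414882583193454936271043688759705065308007093460008960,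 .ofNat 0, .ofNat 0, .ofNat 0, .ofNat 212214898625863697137379255559426784863165858875179008, .ofNat 0, .ofNat 0, .ofNat 0, .ofNat 4936406406694631137544954089214057072268187750677610496, .ofNat 0, .ofNat 0⟩)
    (by decide +kernel)
theorem L01719 : Good (Phi V5.P V5.D 1 (-1)) ⟨2, 0, 4, 10, 5, 14, 5, 24, 5, 14⟩ :=
  leafYS_sound T5.ok_pm T5.Ypm.bz_eq (w := 267) (c := ⟨⟨.negSucc 935, .negSucc 168, .ofNat 25, .ofNat 28, .negSucc 6, .ofNat 75⟩, ⟨.ofNat 611, .ofNat 75, .ofNat 59, .negSucc 28, .negSucc 0, .negSucc 55⟩, ⟨.ofNat 2110, .ofNat 383, .ofNat 313, .ofNat 648, .ofNat 154, .ofNat 976⟩, ⟨.negSucc 3121, .negSucc 249, .negSucc 4, .negSucc 2, .negSucc 33, .ofNat 105⟩, ⟨.negSucc 312, .negSucc 166, .negSucc 62, .negSucc 170, .negSucc 52, .negSucc 200⟩, .ofNat 478, .ofNat 234, .ofNat 0, .ofNat 234, .ofNat 671, .ofNat 0, .ofNat 390, .negSucc 88, .ofNat 67, .ofNat 0, .ofNat 128, .negSucc 107, .ofNat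 0, .ofNat 0, .ofNat 2237, .ofNat 20155, .ofNat 0, .ofNat 1171427273553014683961245855925781762574936986980712448, .ofNat 13772274048420729792245803427869027094121645116697346048, .ofNat 0, .ofNat 0, .ofNat 0, .ofNat 0, .ofNat 0, .ofNat 0, .ofNat 13189357336785478402193508812895248357532408067980787712, .ofNat 0, .ofNat 0, .ofNat 0, .ofNat 176489291315367676978726386207746849141288363890499911680, .ofNat 269613985727543604069708773721741460271521823400002584576, .ofNat 0⟩)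
    (by decide +kernel)
theorem L01720 : Good (Phi V5.P V5.D 1 (-1)) ⟨2, 0, 4, 10, 5, 14, 5, 25, 5, 14⟩ :=
  out_sound (S := T5.ds_pm) T5.ok_pm (w := 44) (j := 2) (by decide +kernel)
theorem L01721 : Good (Phi V5.P V5.D 1 (-1)) ⟨2, 0, 4, 11, 5, 14, 4, 12, 5, 14⟩ :=
  out_sound (S := T5.ds_pm) T5.ok_pm (w := 41) (j := 3) (by decide +kernel)
theorem L01722 : Good (Phi V5.P V5.D 1 (-1)) ⟨2, 0, 2, 2, 5, 15, 4, 12, 5, 14⟩ :=
  out_sound (S := T5.ds_pm) T5.ok_pm (w := 42) (j := 2) (by decide +kernel)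
theorem L01723 : Good (Phi V5.P V5.D 1 (-1)) ⟨2, 0, 2, 2, 4, 7, 4, 13, 5, 14⟩ :=
  out_sound (S := T5.ds_pm) T5.ok_pm (w := 40) (j := 2) (by decide +kernel)
theorem L01724 : Good (Phi V5.P V5.D 1 (-1)) ⟨2, 0, 2, 2, 4, 7, 3, 6, 5, 15⟩ :=
  out_sound (S := T5.ds_pm) T5.ok_pm (w := 38) (j := 2) (by decide +kernel)
theorem L01725 : Good (Phi V5.P V5.D 1 (-1)) ⟨2, 0, 2, 2, 3, 3, 3, 7, 4, 7⟩ :=
  out_sound (S := T5.ds_pm) T5.ok_pm (w := 34) (j := 2) (by decide +kernel)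
theorem L01726 : Good (Phi V5.P V5.D 1 (-1)) ⟨2, 0, 2, 2, 1, 0, 1, 1, 1, 1⟩ :=
  leafYS_sound T5.ok_pm T5.Ypm.bz_eq (w := 175) (c := ⟨⟨.negSucc 948, .negSucc 100, .ofNat 1, .ofNat 0, .ofNat 0, .ofNat 0⟩, ⟨.ofNat 483, .ofNat 55, .ofNat 243, .ofNat 0, .ofNat 0, .ofNat 0⟩, ⟨.ofNat 252, .ofNat 101, .negSucc 0, .ofNat 0, .ofNat 0, .ofNat 0⟩, ⟨.negSucc 2877, .negSucc 43, .ofNat 0, .ofNat 1, .negSucc 0, .ofNat 1⟩, ⟨.ofNat 0, .ofNat 0, .ofNat 0, .ofNat 0, .ofNat 0, .ofNat 0⟩, .ofNat 196, .ofNat 34, .ofNat 0, .ofNat 34, .ofNat 228, .ofNat 0, .ofNat 139, .negSucc 32, .negSucc 103, .ofNat 0, .ofNat 128, .ofNat 22, .ofNat 0, .ofNat 0, .ofNat 300, .ofNat 7168, .ofNat 36556964756063439722639681126400000000, .ofNat 1406074110330335092606268932544790528, .ofNat 0, .ofNat 0, .ofNat 2339645744388060142248939592089600000000, .ofNat 110360791966327455244918975108160159744, .ofNat 0, .ofNat 0, .ofNat 40870941728114981648404178771378176,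 .ofNat 2057617643329695811263756761038848, .ofNat 0, .ofNat 0, .ofNat 107406687787674028785315998999773184, .ofNat 5311850833506237310458494315397120, .ofNat 146814990464726795720589312, .ofNat 0⟩)
    (by decide +kernel)
theorem L01727 : Good (Phi V5.P V5.D 1 (-1)) ⟨2, 1, 2, 2, 1, 0, 2, 2, 3, 0⟩ :=
  leafYS_sound T5.ok_pm T5.Ypm.bz_eq (w := 177) (c := ⟨⟨.ofNat 88, .negSucc 257, .negSucc 58, .ofNat 543, .negSucc 118, .negSucc 1304⟩, ⟨.negSucc 42, .ofNat 88, .ofNat 41, .negSucc 275, .ofNat 78, .ofNat 630⟩, ⟨.negSucc 219, .ofNat 253, .ofNat 15, .negSucc 591, .ofNat 228, .ofNat 1282⟩, ⟨.ofNat 244, .negSucc 358, .ofNat 126, .ofNat 1243, .negSucc 461, .negSucc 3469⟩, ⟨.ofNat 116, .ofNat 97, .ofNat 280, .negSucc 191, .negSucc 141, .negSucc 185⟩, .ofNat 760, .ofNat 619, .ofNat 0, .ofNat 619, .ofNat 1581, .ofNat 0, .ofNat 207, .negSucc 127, .negSucc 173, .ofNat 0, .ofNat 118, .ofNat 81, .ofNat 0, .ofNat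 0, .ofNat 409, .ofNat 530, .ofNat 0, .ofNat 0, .ofNat 0, .ofNat 0, .ofNat 0, .ofNat 0, .ofNat 28257370518863820648848633626624, .ofNat 0, .ofNat 0, .ofNat 0, .ofNat 7984394298541897004421499322368, .ofNat 0, .ofNat 0, .ofNat 0, .ofNat 2165703689965067931791283716096, .ofNat 0⟩)
    (by decide +kernel)
theorem L01728 : Good (Phi V5.P V5.D 1 (-1)) ⟨2, 1, 2, 2, 1, 0, 2, 3, 3, 0⟩ :=
  leafYS_sound T5.ok_pm T5.Ypm.bz_eq (w := 177) (c := ⟨⟨.negSucc 567, .negSucc 302, .negSucc 76, .ofNat 10, .ofNat 548, .negSucc 434⟩, ⟨.ofNat 293, .ofNat 53, .ofNat 170, .negSucc 27, .negSucc 293, .ofNat 234⟩, ⟨.ofNat 368, .ofNat 336, .ofNat 147, .ofNat 312, .negSucc 498, .ofNat 327⟩, ⟨.negSucc 1428, .negSucc 508, .negSucc 196, .negSucc 168, .ofNat 1300, .negSucc 1111⟩, ⟨.ofNat 163, .negSucc 37, .ofNat 137, .negSucc 371, .negSucc 189, .negSucc 24⟩, .ofNat 752, .ofNat 615, .ofNat 0, .ofNat 615, .ofNat 1583, .ofNat 0,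 .ofNat 170, .negSucc 127, .negSucc 353, .ofNat 0, .ofNat 119, .ofNat 160, .ofNat 0, .ofNat 0, .ofNat 752, .ofNat 342, .ofNat 0, .ofNat 0, .ofNat 0, .ofNat 0, .ofNat 0, .ofNat 0, .ofNat 12090542579055069415884604833792, .ofNat 0, .ofNat 0, .ofNat 0, .ofNat 2185856004890255115190789996544, .ofNat 0, .ofNat 0, .ofNat 0, .ofNat 0, .ofNat 0⟩)
    (by decide +kernel)
theorem L01729 : Good (Phi V5.P V5.D 1 (-1)) ⟨2, 1, 2, 2, 2, 0, 1, 1, 3, 1⟩ :=
  leafYS_sound T5.ok_pm T5.Ypm.bz_eq (w := 187) (c := ⟨⟨.negSucc 1238, .negSucc 314, .ofNat 6, .ofNat 10, .ofNat 477, .negSucc 81⟩, ⟨.ofNat 658, .negSucc 53, .ofNat 239, .negSucc 20, .negSucc 245, .ofNat 25⟩, ⟨.ofNat 1257, .ofNat 325, .negSucc 27, .ofNat 75, .negSucc 798, .ofNat 18⟩, ⟨.negSucc 3427, .negSucc 111, .ofNat 53, .negSucc 87, .ofNat 1220, .negSucc 171⟩, ⟨.ofNat 16, .negSucc 7, .ofNat 80, .negSucc 247, .negSucc 22, .ofNat 16⟩, .ofNat 751, .ofNat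 612, .ofNat 0, .ofNat 612, .ofNat 1578, .ofNat 0, .ofNat 148, .negSucc 127, .negSucc 87, .ofNat 0, .ofNat 121, .ofNat 40, .ofNat 0, .ofNat 0, .ofNat 353, .ofNat 373, .ofNat 0, .ofNat 0, .ofNat 0, .ofNat 0, .ofNat 0, .ofNat 0, .ofNat 5731511729560237075168652414681088, .ofNat 0, .ofNat 0, .ofNat 3915224945116064025934791134972739584, .ofNat 4050236174114279839950491734769664, .ofNat 0, .ofNat 0, .ofNat 0, .ofNat 0, .ofNat 0⟩)
    (by decide +kernel)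
theorem L01730 : Good (Phi V5.P V5.D 1 (-1)) ⟨2, 1, 2, 2, 2, 1, 1, 1, 3, 1⟩ :=
  leafYS_sound T5.ok_pm T5.Ypm.bz_eq (w := 187) (c := ⟨⟨.negSucc 1021, .negSucc 348, .ofNat 52, .negSucc 75, .ofNat 29, .negSucc 200⟩, ⟨.ofNat 515, .negSucc 49, .ofNat 251, .ofNat 36, .negSucc 10, .ofNat 112⟩, ⟨.ofNat 735, .ofNat 369, .negSucc 101, .ofNat 35, .ofNat 236, .ofNat 454⟩, ⟨.negSucc 2949, .negSucc 29, .ofNat 111, .negSucc 246, .ofNat 106, .negSucc 626⟩, ⟨.negSucc 174, .ofNat 148, .ofNat 35, .negSucc 121, .ofNat 58, .negSucc 147⟩, .ofNat 752, .ofNat 614, .ofNat 0, .ofNat 614, .ofNat 1582, .ofNat 0, .ofNat 177, .negSucc 127, .negSucc 126, .ofNat 0, .ofNat 115, .ofNat 61, .ofNat 0, .ofNat 0, .ofNat 488, .ofNat 242, .ofNat 0, .ofNat 0, .ofNat 0, .ofNat 0, .ofNat 0, .ofNat 3867774476731828518976478929359994880, .ofNat 8445690605577185435427431786741760, .ofNat 0, .ofNat 0, .ofNat 1085620583571682858634034816581894144,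 .ofNat 2489329845502411816143725292158976, .ofNat 0, .ofNat 0, .ofNat 0, .ofNat 0, .ofNat 0⟩)
    (by decide +kernel)
theorem L01731 : Good (Phi V5.P V5.D 1 (-1)) ⟨2, 1, 2, 2, 2, 0, 2, 2, 3, 2⟩ :=
  leafYS_sound T5.ok_pm T5.Ypm.bz_eq (w := 195) (c := ⟨⟨.negSucc 1211, .negSucc 313, .negSucc 1, .negSucc 27, .ofNat 80, .ofNat 96⟩, ⟨.ofNat 640, .negSucc 64, .ofNat 258, .ofNat 8, .negSucc 43, .negSucc 56⟩, ⟨.ofNat 1187, .ofNat 328, .ofNat 23, .ofNat 203, .negSucc 284, .negSucc 39⟩, ⟨.negSucc 3376, .negSucc 80, .negSucc 4, .negSucc 158, .ofNat 213, .ofNat 263⟩, ⟨.negSucc 1, .ofNat 6, .ofNat 4, .negSucc 174, .negSucc 0, .ofNat 3⟩, .ofNat 418, .ofNat 185, .ofNat 0, .ofNat 185, .ofNat 667, .ofNat 0, .ofNat 288, .negSucc 81, .negSucc 119, .ofNat 0, .ofNat 128, .ofNat 45, .ofNat 0, .ofNat 0, .ofNat 912, .ofNat 5568, .ofNat 44293820785422726131142440538184089600, .ofNat 0, .ofNat 5747171783732861416915861134901248,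 .ofNat 0, .ofNat 0, .ofNat 0, .ofNat 0, .ofNat 0, .ofNat 0, .ofNat 0, .ofNat 59996769051155694050336945591025664, .ofNat 0, .ofNat 0, .ofNat 0, .ofNat 952841508879625766450309214194630656, .ofNat 0⟩)
    (by decide +kernel)
theorem L01732 : Good (Phi V5.P V5.D 1 (-1)) ⟨2, 1, 2, 2, 2, 0, 2, 3, 3, 2⟩ :=
  leafYS_sound T5.ok_pm T5.Ypm.bz_eq (w := 192) (c := ⟨⟨.negSucc 994, .negSucc 346, .negSucc 19, .negSucc 160, .ofNat 51, .negSucc 9⟩, ⟨.ofNat 511, .negSucc 16, .ofNat 276, .ofNat 70, .negSucc 30, .ofNat 7⟩, ⟨.ofNat 783, .ofNat 371, .ofNat 32, .ofNat 470, .negSucc 370, .negSucc 56⟩, ⟨.negSucc 2798, .negSucc 224, .negSucc 84, .negSucc 477, .ofNat 192, .negSucc 10⟩, ⟨.negSucc 20, .negSucc 8, .negSucc 3, .negSucc 168, .ofNat 86, .ofNat 22⟩, .ofNat 754, .ofNat 616, .ofNat 0, .ofNat 616, .ofNat 1583, .ofNat 0, .ofNat 165, .negSucc 127, .negSucc 55, .ofNat 0, .ofNat 121, .ofNat 24, .ofNat 0, .ofNat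 0, .ofNat 361, .ofNat 660, .ofNat 0, .ofNat 0, .ofNat 0, .ofNat 0, .ofNat 0, .ofNat 46778754801533058657724472147260211200, .ofNat 166404750653444435008794787730948096, .ofNat 0, .ofNat 0, .ofNat 0, .ofNat 98859101011337752712973590678470656, .ofNat 0, .ofNat 0, .ofNat 0, .ofNat 0, .ofNat 0⟩)
    (by decide +kernel)
theorem L01733 : Good (Phi V5.P V5.D 1 (-1)) ⟨2, 1, 2, 2, 2, 1, 3, 4, 3, 2⟩ :=
  leafYS_sound T5.ok_pm T5.Ypm.bz_eq (w := 198) (c := ⟨⟨.negSucc 1216, .negSucc 353, .negSucc 3, .negSucc 73, .ofNat 0, .ofNat 120⟩, ⟨.ofNat 618, .negSucc 54, .ofNat 278, .ofNat 30, .negSucc 1, .negSucc 43⟩, ⟨.ofNat 1084, .ofNat 333, .ofNat 119, .ofNat 184, .ofNat 59, .ofNat 206⟩, ⟨.negSucc 3455, .negSucc 131, .negSucc 46, .negSucc 281, .negSucc 1, .ofNat 281⟩, ⟨.negSucc 168, .negSucc 15, .negSucc 24, .negSucc 176, .negSucc 12, .ofNat 5⟩, .ofNat 417, .ofNat 187, .ofNat 0, .ofNat 187, .ofNat 670, .ofNat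 0, .ofNat 290, .negSucc 86, .negSucc 101, .ofNat 0, .ofNat 128, .ofNat 43, .ofNat 0, .ofNat 0, .ofNat 784, .ofNat 4052, .ofNat 0, .ofNat 0, .ofNat 0, .ofNat 0, .ofNat 0, .ofNat 0, .ofNat 0, .ofNat 0, .ofNat 0, .ofNat 0, .ofNat 5946540458827144943438379598168981504, .ofNat 0, .ofNat 0, .ofNat 0, .ofNat 11353862853788695455014340792669962240, .ofNat 0⟩)
    (by decide +kernel)
theorem L01734 : Good (Phi V5.P V5.D 1 (-1)) ⟨2, 1, 2, 2, 2, 1, 3, 5, 3, 2⟩ :=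
  leafYS_sound T5.ok_pm T5.Ypm.bz_eq (w := 197) (c := ⟨⟨.negSucc 1171, .negSucc 352, .ofNat 38, .negSucc 124, .negSucc 24, .ofNat 77⟩, ⟨.ofNat 596, .negSucc 50, .ofNat 290, .ofNat 55, .ofNat 11, .negSucc 35⟩, ⟨.ofNat 983, .ofNat 364, .ofNat 117, .ofNat 413, .ofNat 80, .ofNat 269⟩, ⟨.negSucc 3337, .negSucc 154, .ofNat 5, .negSucc 428, .negSucc 68, .ofNat 192⟩, ⟨.negSucc 160, .negSucc 28, .ofNat 8, .negSucc 239, .negSucc 25, .negSucc 0⟩, .ofNat 415, .ofNat 183, .ofNat 0, .ofNat 183, .ofNat 668, .ofNat 0, .ofNat 271, .negSucc 85, .negSucc 146, .ofNat 0, .ofNat 128, .ofNat 53, .ofNat 0, .ofNat 0, .ofNat 1151, .ofNat 1905, .ofNat 0, .ofNat 0, .ofNat 0, .ofNat 0, .ofNat 0, .ofNat 0, .ofNat 0, .ofNat 0, .ofNat 0, .ofNat 0, .ofNat 3957489430759770783625123483938193408, .ofNat 0, .ofNat 0, .ofNat 0, .ofNat 22082160075439430581505796884184170496, .ofNat 0⟩)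
    (by decide +kernel)
theorem L01735 : Good (Phi V5.P V5.D 1 (-1)) ⟨2, 1, 2, 2, 3, 2, 2, 3, 3, 2⟩ :=
  leafYS_sound T5.ok_pm T5.Ypm.bz_eq (w := 206) (c := ⟨⟨.negSucc 1114, .negSucc 390, .ofNat 20, .negSucc 87, .negSucc 149, .ofNat 18⟩, ⟨.ofNat 558, .negSucc 29, .ofNat 300, .ofNat 38, .ofNat 77, .ofNat 0⟩, ⟨.ofNat 1036, .ofNat 458, .ofNat 85, .ofNat 297, .negSucc 19, .ofNat 102⟩, ⟨.negSucc 3196, .negSucc 240, .negSucc 47, .negSucc 288, .negSucc 371, .ofNat 51⟩, ⟨.negSucc 182, .negSucc 43, .negSucc 17, .negSucc 143, .negSucc 1, .ofNat 37⟩, .ofNat 753, .ofNat 618, .ofNat 0, .ofNat 618, .ofNat 1587, .ofNat 0, .ofNat 159, .negSucc 127, .negSucc 56, .ofNat 0, .ofNat 119, .ofNat 24, .ofNat 0, .ofNat 0, .ofNat 429, .ofNat 702, .ofNat 0, .ofNat 0, .ofNat 0, .ofNat 0, .ofNat 0, .ofNat 194430754214557644967177784186991762472960, .ofNat 5665686529400346428931370204008982511616, .ofNat 0, .ofNat 0, .ofNat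 135242928434873719870094661789980481814528, .ofNat 2006264075806516174702951973462283911168, .ofNat 0, .ofNat 0, .ofNat 66328197319007316455644127353457145282560, .ofNat 3636460717052503383489890646446793818112, .ofNat 0⟩)
    (by decide +kernel)
theorem L01736 : Good (Phi V5.P V5.D 1 (-1)) ⟨3, 2, 2, 2, 3, 3, 2, 3, 3, 2⟩ :=
  leafYS_sound T5.ok_pm T5.Ypm.bz_eq (w := 210) (c := ⟨⟨.negSucc 1221, .negSucc 176, .ofNat 13, .negSucc 61, .negSucc 183, .ofNat 54⟩, ⟨.ofNat 599, .ofNat 6, .ofNat 311, .ofNat 36, .ofNat 104, .negSucc 30⟩, ⟨.ofNat 1134, .ofNat 205, .ofNat 139, .ofNat 404, .ofNat 235, .ofNat 388⟩, ⟨.negSucc 3482, .negSucc 129, .negSucc 80, .negSucc 262, .negSucc 536, .ofNat 111⟩, ⟨.negSucc 230, .negSucc 56, .negSucc 41, .negSucc 166, .negSucc 81, .negSucc 49⟩, .ofNat 918, .ofNat 825, .ofNat 0, .ofNat 825, .ofNat 1770, .ofNat 0, .ofNat 156, .negSucc 127, .negSucc 48, .ofNat 0, .ofNat 111,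 .ofNat 19, .ofNat 0, .ofNat 0, .ofNat 667, .ofNat 407, .ofNat 0, .ofNat 44926562465655081891176709709979327660032, .ofNat 0, .ofNat 0, .ofNat 0, .ofNat 0, .ofNat 0, .ofNat 0, .ofNat 0, .ofNat 1553502661940963561849349623419991765286912, .ofNat 219320344654061814185712812100249714688, .ofNat 0, .ofNat 0, .ofNat 7316734865382782808437959549922890552967168, .ofNat 0, .ofNat 0⟩)
    (by decide +kernel)
theorem L01737 : Good (Phi V5.P V5.D 1 (-1)) ⟨3, 3, 2, 2, 3, 3, 2, 3, 3, 2⟩ :=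
  leafYS_sound T5.ok_pm T5.Ypm.bz_eq (w := 210) (c := ⟨⟨.negSucc 1405, .negSucc 253, .ofNat 23, .negSucc 94, .negSucc 245, .ofNat 83⟩, ⟨.ofNat 616, .negSucc 57, .ofNat 313, .ofNat 29, .ofNat 93, .negSucc 38⟩, ⟨.ofNat 1342, .ofNat 311, .ofNat 128, .ofNat 405, .ofNat 362, .ofNat 361⟩, ⟨.negSucc 3640, .negSucc 151, .negSucc 35, .negSucc 317, .negSucc 667, .ofNat 163⟩, ⟨.negSucc 244, .negSucc 81, .ofNat 4, .negSucc 221, .negSucc 206, .negSucc 80⟩, .ofNat 747, .ofNat 647, .ofNat 0, .ofNat 647, .ofNat 1615, .ofNat 0, .ofNat 253, .negSucc 127, .negSucc 52, .ofNat 0, .ofNat 111, .ofNat 17, .ofNat 0, .ofNat 0, .ofNat 611, .ofNat 354, .ofNat 0, .ofNat 24333720010021235122815093884590680440832, .ofNat 32384103649908436751049524726005235712, .ofNat 0, .ofNat 0, .ofNat 0, .ofNat 0, .ofNat 0, .ofNat 0, .ofNat 1512798497886840611980737358890829569064960, .ofNat 257716999845933727953923656894841356288, .ofNat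 0, .ofNat 0, .ofNat 4714407750889949643947389601466070962536448, .ofNat 2181265679934659436564421007737144475648, .ofNat 0⟩)
    (by decide +kernel)
theorem L01738 : Good (Phi V5.P V5.D 1 (-1)) ⟨3, 2, 2, 2, 2, 0, 2, 2, 4, 6⟩ :=
  leafYS_sound T5.ok_pm T5.Ypm.bz_eq (w := 206) (c := ⟨⟨.negSucc 1089, .negSucc 143, .ofNat 2, .negSucc 47, .ofNat 41, .ofNat 28⟩, ⟨.ofNat 551, .negSucc 1, .ofNat 260, .ofNat 24, .negSucc 21, .negSucc 13⟩, ⟨.ofNat 1083, .ofNat 149, .ofNat 67, .ofNat 406, .negSucc 341, .ofNat 1⟩, ⟨.negSucc 3002, .negSucc 77, .negSucc 18, .negSucc 224, .ofNat 113, .ofNat 77⟩, ⟨.ofNat 2, .negSucc 6, .ofNat 2, .negSucc 170, .ofNat 4, .ofNat 12⟩, .ofNat 439, .ofNat 206, .ofNat 0, .ofNat 206, .ofNat 673, .ofNat 0, .ofNat 204, .negSucc 84, .negSucc 84, .ofNat 0, .ofNat 128, .ofNat 30, .ofNat 0, .ofNat 0, .ofNat 948, .ofNat 21593, .ofNat 72850816389438908173617453961184934887424, .ofNat 0, .ofNat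 0, .ofNat 0, .ofNat 146626220239477927156467777762991638839296, .ofNat 0, .ofNat 3092832992465710452859486352107896832, .ofNat 0, .ofNat 152960926190395795498587255870854107496448, .ofNat 0, .ofNat 1803229417604826825803647077085872128, .ofNat 0, .ofNat 0, .ofNat 0, .ofNat 0, .ofNat 0⟩)
    (by decide +kernel)
theorem L01739 : Good (Phi V5.P V5.D 1 (-1)) ⟨3, 2, 2, 2, 3, 2, 2, 2, 4, 6⟩ :=
  leafYS_sound T5.ok_pm T5.Ypm.bz_eq (w := 219) (c := ⟨⟨.negSucc 1114, .negSucc 137, .ofNat 12, .negSucc 29, .negSucc 34, .ofNat 50⟩, ⟨.ofNat 556, .negSucc 3, .ofNat 270, .ofNat 16, .ofNat 16, .negSucc 26⟩, ⟨.ofNat 1268, .ofNat 107, .ofNat 156, .ofNat 292, .negSucc 69, .ofNat 118⟩, ⟨.negSucc 3160, .negSucc 50, .negSucc 17, .negSucc 146, .negSucc 82, .ofNat 123⟩, ⟨.negSucc 158, .negSucc 11, .ofNat 6, .negSucc 115, .negSucc 3, .negSucc 8⟩, .ofNat 832, .ofNat 702, .ofNat 0, .ofNat 702, .ofNat 1646, .ofNat 0, .ofNat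 289, .negSucc 127, .negSucc 111, .ofNat 0, .ofNat 118, .ofNat 47, .ofNat 0, .ofNat 0, .ofNat 2122, .ofNat 17344, .ofNat 189633964445978794132801753696687924921237504, .ofNat 0, .ofNat 0, .ofNat 0, .ofNat 0, .ofNat 0, .ofNat 0, .ofNat 0, .ofNat 0, .ofNat 0, .ofNat 27748206522770726962904745256675398647808, .ofNat 0, .ofNat 0, .ofNat 0, .ofNat 1273476404732652685635117479256535376855040, .ofNat 0⟩)
    (by decide +kernel)
theorem L01740 : Good (Phi V5.P V5.D 1 (-1)) ⟨3, 2, 2, 2, 3, 3, 3, 4, 4, 6⟩ :=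
  leafYS_sound T5.ok_pm T5.Ypm.bz_eq (w := 223) (c := ⟨⟨.negSucc 1152, .negSucc 150, .ofNat 26, .negSucc 15, .negSucc 9, .ofNat 68⟩, ⟨.ofNat 571, .ofNat 0, .ofNat 273, .ofNat 8, .ofNat 6, .negSucc 40⟩, ⟨.ofNat 1270, .ofNat 119, .ofNat 237, .ofNat 343, .ofNat 128, .ofNat 447⟩, ⟨.negSucc 3297, .negSucc 74, .negSucc 15, .negSucc 112, .negSucc 41, .ofNat 162⟩, ⟨.negSucc 224, .negSucc 22, .negSucc 18, .negSucc 122, .negSucc 30, .negSucc 41⟩, .ofNat 438, .ofNat 203, .ofNat 0, .ofNat 203, .ofNat 672, .ofNat 0, .ofNat 182, .negSucc 87, .negSucc 59, .ofNat 0, .ofNat 128, .ofNat 4, .ofNat 0, .ofNat 0, .ofNat 1939, .ofNat 11787, .ofNat 472377251008060858231121483124728118516908032, .ofNat 0, .ofNat 50357269854256434312593006559323385495552, .ofNat 0, .ofNat 0, .ofNat 0, .ofNat 0, .ofNat 0, .ofNat 0, .ofNat 0, .ofNat 1248499358244996185707655155317836808716288, .ofNat 0, .ofNat 0, .ofNat 0, .ofNat 14802329039754493264722506419964487590215680,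 .ofNat 0⟩)
    (by decide +kernel)
theorem L01741 : Good (Phi V5.P V5.D 1 (-1)) ⟨3, 2, 2, 2, 3, 3, 3, 5, 5, 12⟩ :=
  leafYS_sound T5.ok_pm T5.Ypm.bz_eq (w := 228) (c := ⟨⟨.negSucc 1147, .negSucc 154, .ofNat 17, .negSucc 28, .negSucc 35, .ofNat 28⟩, ⟨.ofNat 572, .negSucc 3, .ofNat 285, .ofNat 13, .ofNat 19, .negSucc 18⟩, ⟨.ofNat 1300, .ofNat 268, .ofNat 181, .ofNat 502, .ofNat 225, .ofNat 175⟩, ⟨.negSucc 3289, .negSucc 95, .negSucc 44, .negSucc 174, .negSucc 139, .ofNat 70⟩, ⟨.negSucc 211, .negSucc 66, .negSucc 16, .negSucc 175, .negSucc 83, .negSucc 22⟩, .ofNat 856, .ofNat 737, .ofNat 0, .ofNat 737, .ofNat 1679, .ofNat 0, .ofNat 128, .negSucc 253, .negSucc 85, .ofNat 0, .ofNat 230, .ofNat 19, .ofNat 0, .ofNat 0, .ofNat 3540, .ofNat 10005, .ofNat 0, .ofNat 0, .ofNat 0, .ofNat 0, .ofNat 0, .ofNat 0, .ofNat 2293573651495751518372118108948928827228160, .ofNat 0, .ofNat 0, .ofNat 2681973155523274753781860146441400461551468544,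 .ofNat 111005045605329591610265996350864476151480320, .ofNat 0, .ofNat 0, .ofNat 30572873934900036572382256540883973842267013120, .ofNat 1246410518583922676461699405327783044635951104, .ofNat 0⟩)
    (by decide +kernel)
theorem L01742 : Good (Phi V5.P V5.D 1 (-1)) ⟨3, 2, 2, 2, 4, 6, 3, 5, 5, 13⟩ :=
  leafYS_sound T5.ok_pm T5.Ypm.bz_eq (w := 242) (c := ⟨⟨.negSucc 1130, .negSucc 149, .ofNat 27, .negSucc 7, .negSucc 37, .ofNat 37⟩, ⟨.ofNat 556, .ofNat 2, .ofNat 273, .ofNat 3, .ofNat 18, .negSucc 16⟩, ⟨.ofNat 1402, .ofNat 201, .ofNat 365, .ofNat 320, .ofNat 122, .ofNat 205⟩, ⟨.negSucc 3228, .negSucc 99, .negSucc 34, .negSucc 74, .negSucc 127, .ofNat 77⟩, ⟨.negSucc 224, .negSucc 50, .negSucc 46, .negSucc 95, .negSucc 54, .negSucc 19⟩, .ofNat 436, .ofNat 201, .ofNat 0, .ofNat 201, .ofNat 671, .ofNat 0, .ofNat 412, .negSucc 86, .negSucc 55, .ofNat 0, .ofNat 128, .negSucc 16, .ofNat 0, .ofNat 0, .ofNat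 2249, .ofNat 15999, .ofNat 0, .ofNat 0, .ofNat 0, .ofNat 0, .ofNat 0, .ofNat 0, .ofNat 0, .ofNat 0, .ofNat 0, .ofNat 0, .ofNat 703927173896359628087780253599050478793258958848, .ofNat 0, .ofNat 0, .ofNat 0, .ofNat 10440662063817894156615434262152102391382448013312, .ofNat 0⟩)
    (by decide +kernel)
theorem L01743 : Good (Phi V5.P V5.D 1 (-1)) ⟨3, 2, 3, 4, 4, 7, 3, 5, 5, 13⟩ :=
  leafYS_sound T5.ok_pm T5.Ypm.bz_eq (w := 244) (c := ⟨⟨.negSucc 1153, .negSucc 155, .ofNat 17, .ofNat 23, .negSucc 13, .ofNat 60⟩, ⟨.ofNat 570, .ofNat 2, .ofNat 136, .negSucc 15, .ofNat 3, .negSucc 32⟩, ⟨.ofNat 1479, .ofNat 183, .ofNat 231, .ofNat 591, .ofNat 479, .ofNat 559⟩, ⟨.negSucc 3315, .negSucc 94, .negSucc 29, .negSucc 26, .negSucc 129, .ofNat 108⟩, ⟨.negSucc 259, .negSucc 46, .negSucc 52, .negSucc 155, .negSucc 165, .negSucc 80⟩, .ofNat 827, .ofNat 694, .ofNat 0, .ofNat 694, .ofNat 1636, .ofNat 0, .ofNat 133,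 .negSucc 127, .ofNat 30, .ofNat 0, .ofNat 118, .negSucc 40, .ofNat 0, .ofNat 0, .ofNat 2508, .ofNat 5410, .ofNat 0, .ofNat 0, .ofNat 0, .ofNat 0, .ofNat 0, .ofNat 0, .ofNat 0, .ofNat 0, .ofNat 0, .ofNat 43186382288343944256246298832331969036906592731136, .ofNat 0, .ofNat 0, .ofNat 0, .ofNat 1131734925176108680314586867078074476219316402388992, .ofNat 0, .ofNat 0⟩)
    (by decide +kernel)
theorem L01744 : Good (Phi V5.P V5.D 1 (-1)) ⟨3, 2, 4, 10, 4, 7, 4, 10, 5, 13⟩ :=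
  leafYS_sound T5.ok_pm T5.Ypm.bz_eq (w := 252) (c := ⟨⟨.negSucc 1150, .negSucc 147, .ofNat 16, .ofNat 25, .ofNat 0, .ofNat 60⟩, ⟨.ofNat 710, .ofNat 2, .ofNat 62, .negSucc 16, .ofNat 1, .negSucc 35⟩, ⟨.ofNat 1581, .ofNat 206, .ofNat 182, .ofNat 639, .ofNat 284, .ofNat 558⟩, ⟨.negSucc 3342, .negSucc 88, .ofNat 1, .negSucc 38, .negSucc 56, .ofNat 105⟩, ⟨.negSucc 264, .negSucc 49, .negSucc 30, .negSucc 174, .negSucc 91, .negSucc 89⟩, .ofNat 938, .ofNat 851, .ofNat 0, .ofNat 851, .ofNat 1794, .ofNat 0, .ofNat 128, .negSucc 139, .ofNat 32, .ofNat 0, .ofNat 122, .negSucc 39, .ofNat 0, .ofNat 0, .ofNat 2726, .ofNat 16216, .ofNat 0, .ofNat 0, .ofNat 0, .ofNat 0, .ofNat 0, .ofNat 0, .ofNat 0, .ofNat 0, .ofNat 0, .ofNat 0, .ofNat 66584711714308302150175955279979484170948320428032, .ofNat 0, .ofNat 0, .ofNat 29415400464071378698244130015255099369022397211475968, .ofNat 888251573805013887924316158736328695271387826225152,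 .ofNat 0⟩)
    (by decide +kernel)
theorem L01745 : Good (Phi V5.P V5.D 1 (-1)) ⟨3, 2, 4, 10, 4, 7, 4, 11, 5, 13⟩ :=
  leafYS_sound T5.ok_pm T5.Ypm.bz_eq (w := 252) (c := ⟨⟨.negSucc 1158, .negSucc 143, .ofNat 30, .ofNat 32, .negSucc 15, .ofNat 62⟩, ⟨.ofNat 714, .ofNat 5, .ofNat 60, .negSucc 24, .ofNat 6, .negSucc 36⟩, ⟨.ofNat 1740, .ofNat 266, .ofNat 294, .ofNat 763, .ofNat 212, .ofNat 592⟩, ⟨.negSucc 3385, .negSucc 102, .ofNat 5, .negSucc 37, .negSucc 85, .ofNat 95⟩, ⟨.negSucc 300, .negSucc 77, .negSucc 59, .negSucc 216, .negSucc 83, .negSucc 111⟩, .ofNat 947, .ofNat 861, .ofNat 0, .ofNat 861, .ofNat 1801, .ofNat 0, .ofNat 128, .negSucc 168, .ofNat 64, .ofNat 0, .ofNat 148, .negSucc 64, .ofNat 0, .ofNat 0, .ofNat 2717, .ofNat 8654, .ofNat 0, .ofNat 219798269982380288191388554055568382886842489372672, .ofNat 6353283508987749992992814553498006986105921994752, .ofNat 0, .ofNat 0, .ofNat 0, .ofNat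 0, .ofNat 0, .ofNat 0, .ofNat 2911663984313131814114489318890540641380116245512192, .ofNat 37385499886927036666584816358965933198329658736640, .ofNat 0, .ofNat 0, .ofNat 59187179932353670019534920182064427368655590533365760, .ofNat 431522804890694870745019913958027830086772719616000, .ofNat 0⟩)
    (by decide +kernel)
theorem L01746 : Good (Phi V5.P V5.D 1 (-1)) ⟨3, 2, 4, 11, 4, 7, 3, 5, 5, 13⟩ :=
  out_sound (S := T5.ds_pm) T5.ok_pm (w := 47) (j := 3) (by decide +kernel)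
theorem L01747 : Good (Phi V5.P V5.D 1 (-1)) ⟨3, 3, 3, 4, 1, 0, 3, 4, 4, 6⟩ :=
  leafYS_sound T5.ok_pm T5.Ypm.bz_eq (w := 197) (c := ⟨⟨.negSucc 1169, .negSucc 209, .ofNat 4, .negSucc 153, .negSucc 23, .ofNat 81⟩, ⟨.ofNat 530, .negSucc 51, .ofNat 137, .ofNat 42, .ofNat 8, .negSucc 37⟩, ⟨.ofNat 1092, .ofNat 76, .ofNat 83, .ofNat 730, .negSucc 71, .ofNat 615⟩, ⟨.negSucc 2957, .negSucc 80, .negSucc 15, .negSucc 518, .negSucc 43, .ofNat 145⟩, ⟨.ofNat 49, .negSucc 5, .negSucc 5, .negSucc 411, .negSucc 11, .negSucc 96⟩, .ofNat 399, .ofNat 174, .ofNat 0, .ofNat 174, .ofNat 666, .ofNat 0, .ofNat 139, .negSucc 81, .negSucc 109, .ofNat 0, .ofNat 128, .ofNat 37, .ofNat 0, .ofNat 0, .ofNat 1397, .ofNat 7061, .ofNat 500496964042260854749711465644774391808, .ofNat 0, .ofNat 165957484539024614128498772017152, .ofNat 0, .ofNat 2432908013641817003853625721985651703808, .ofNat 0, .ofNat 2681233923225611322297523877445632,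 .ofNat 0, .ofNat 0, .ofNat 0, .ofNat 7754353771237738178227579488567296, .ofNat 0, .ofNat 0, .ofNat 0, .ofNat 0, .ofNat 0⟩)
    (by decide +kernel)
theorem L01748 : Good (Phi V5.P V5.D 1 (-1)) ⟨3, 3, 3, 4, 1, 0, 3, 5, 4, 6⟩ :=
  leafYS_sound T5.ok_pm T5.Ypm.bz_eq (w := 196) (c := ⟨⟨.negSucc 1164, .negSucc 211, .ofNat 13, .negSucc 189, .negSucc 31, .ofNat 68⟩, ⟨.ofNat 531, .negSucc 56, .ofNat 130, .ofNat 54, .ofNat 9, .negSucc 29⟩, ⟨.ofNat 914, .ofNat 233, .negSucc 49, .ofNat 1235, .negSucc 91, .ofNat 148⟩, ⟨.negSucc 2930, .negSucc 94, .ofNat 16, .negSucc 652, .negSucc 65, .ofNat 153⟩, ⟨.ofNat 53, .negSucc 44, .ofNat 21, .negSucc 497, .negSucc 4, .negSucc 34⟩, .ofNat 674, .ofNat 528, .ofNat 0, .ofNat 528, .ofNat 1529, .ofNat 0, .ofNat 128, .negSucc 140, .negSucc 105, .ofNat 0, .ofNat 136, .ofNat 34, .ofNat 0, .ofNat 0, .ofNat 1803, .ofNat 2397, .ofNat 0, .ofNat 0, .ofNat 0, .ofNat 0, .ofNat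 0, .ofNat 11998716764822308922914802783722930176, .ofNat 11865494020409811576546185722200064, .ofNat 0, .ofNat 0, .ofNat 49560132351128988066194973081485705216, .ofNat 4936397382455859148375600733880320, .ofNat 0, .ofNat 0, .ofNat 690178682322994398312979062338434891776, .ofNat 21003794869238690715334250734813184, .ofNat 0⟩)
    (by decide +kernel)
theorem L01749 : Good (Phi V5.P V5.D 1 (-1)) ⟨3, 3, 3, 5, 1, 0, 2, 2, 4, 6⟩ :=
  out_sound (S := T5.ds_pm) T5.ok_pm (w := 45) (j := 3) (by decide +kernel)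
theorem L01750 : Good (Phi V5.P V5.D 1 (-1)) ⟨2, 1, 2, 2, 2, 0, 3, 6, 4, 6⟩ :=
  leafYS_sound T5.ok_pm T5.Ypm.bz_eq (w := 203) (c := ⟨⟨.negSucc 989, .negSucc 324, .negSucc 18, .negSucc 125, .negSucc 14, .ofNat 15⟩, ⟨.ofNat 513, .negSucc 49, .ofNat 265, .ofNat 65, .ofNat 6, .negSucc 0⟩, ⟨.ofNat 675, .ofNat 349, .ofNat 96, .ofNat 519, .negSucc 169, .negSucc 30⟩, ⟨.negSucc 2768, .negSucc 153, .negSucc 58, .negSucc 416, .negSucc 16, .ofNat 29⟩, ⟨.ofNat 11, .negSucc 31, .ofNat 2, .negSucc 163, .ofNat 23, .ofNat 7⟩, .ofNat 416, .ofNat 184, .ofNat 0, .ofNat 184, .ofNat 667, .ofNat 0, .ofNat 151, .negSucc 81, .negSucc 40, .ofNat 0, .ofNat 128, .ofNat 12, .ofNat 0, .ofNat 0, .ofNat 348, .ofNat 3638, .ofNat 0, .ofNat 0, .ofNat 0, .ofNat 0, .ofNat 0, .ofNat 0, .ofNat 445754439806562413228042977028157210624, .ofNat 0, .ofNat 0, .ofNat 0, .ofNat 0, .ofNat 0, .ofNat 0, .ofNat 0, .ofNat 109605311326568216910179591603907198976,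 .ofNat 0⟩)
    (by decide +kernel)
theorem L01751 : Good (Phi V5.P V5.D 1 (-1)) ⟨2, 1, 2, 2, 2, 0, 3, 7, 4, 6⟩ :=
  leafYS_sound T5.ok_pm T5.Ypm.bz_eq (w := 203) (c := ⟨⟨.negSucc 939, .negSucc 362, .negSucc 6, .negSucc 236, .negSucc 62, .ofNat 4⟩, ⟨.ofNat 459, .negSucc 13, .ofNat 266, .ofNat 140, .ofNat 52, .ofNat 8⟩, ⟨.ofNat 451, .ofNat 370, .ofNat 89, .ofNat 613, .negSucc 155, .negSucc 57⟩, ⟨.negSucc 2596, .negSucc 276, .negSucc 36, .negSucc 711, .negSucc 146, .ofNat 1⟩, ⟨.ofNat 7, .negSucc 37, .negSucc 13, .negSucc 131, .ofNat 74, .ofNat 24⟩, .ofNat 419, .ofNat 189, .ofNat 0, .ofNat 189, .ofNat 671, .ofNat 0, .ofNat 347, .negSucc 82, .negSucc 70, .ofNat 0, .ofNat 128, .ofNat 19, .ofNat 0, .ofNat 0, .ofNat 453, .ofNat 2297, .ofNat 0, .ofNat 34691969802617158782427445887762432000, .ofNat 12736127406599042813956218519965138944, .ofNat 0, .ofNat 0, .ofNat 12756878681700171478442138383872644087808,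 .ofNat 0, .ofNat 0, .ofNat 0, .ofNat 1358195339686226095047961869161930424320, .ofNat 92244860129224159673482350231614914560, .ofNat 0, .ofNat 0, .ofNat 0, .ofNat 103547175896312649642423486922985832448, .ofNat 0⟩)
    (by decide +kernel)
theorem L01752 : Good (Phi V5.P V5.D 1 (-1)) ⟨3, 2, 2, 2, 3, 2, 3, 6, 4, 6⟩ :=
  leafYS_sound T5.ok_pm T5.Ypm.bz_eq (w := 222) (c := ⟨⟨.negSucc 1100, .negSucc 168, .ofNat 8, .negSucc 59, .negSucc 84, .ofNat 32⟩, ⟨.ofNat 548, .ofNat 7, .ofNat 280, .ofNat 31, .ofNat 46, .negSucc 17⟩, ⟨.ofNat 1067, .ofNat 179, .ofNat 224, .ofNat 498, .negSucc 85, .ofNat 76⟩, ⟨.negSucc 3105, .negSucc 143, .negSucc 41, .negSucc 258, .negSucc 220, .ofNat 87⟩, ⟨.negSucc 111, .negSucc 53, .negSucc 29, .negSucc 173, .ofNat 3, .ofNat 3⟩, .ofNat 437, .ofNat 202, .ofNat 0, .ofNat 202, .ofNat 672, .ofNat 0, .ofNat 277, .negSucc 85, .negSucc 55, .ofNat 0, .ofNat 128, .ofNat 3, .ofNat 0,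 .ofNat 0, .ofNat 919, .ofNat 5884, .ofNat 0, .ofNat 0, .ofNat 136730069125945645092406126342382431502336, .ofNat 0, .ofNat 0, .ofNat 0, .ofNat 0, .ofNat 0, .ofNat 0, .ofNat 0, .ofNat 0, .ofNat 0, .ofNat 0, .ofNat 149421002292088735867821255977753105733255168, .ofNat 4252399610702180107032404485029192542453760, .ofNat 0⟩)
    (by decide +kernel)
theorem L01753 : Good (Phi V5.P V5.D 1 (-1)) ⟨3, 2, 2, 2, 4, 6, 3, 6, 4, 6⟩ :=
  leafYS_sound T5.ok_pm T5.Ypm.bz_eq (w := 235) (c := ⟨⟨.negSucc 1199, .negSucc 155, .ofNat 36, .ofNat 0, .negSucc 70, .ofNat 63⟩, ⟨.ofNat 586, .ofNat 8, .ofNat 281, .ofNat 2, .ofNat 50, .negSucc 40⟩, ⟨.ofNat 1199, .ofNat 229, .ofNat 473, .ofNat 484, .ofNat 84, .ofNat 497⟩, ⟨.negSucc 3368, .negSucc 134, .negSucc 47, .negSucc 103, .negSucc 257, .ofNat 120⟩, ⟨.negSucc 154, .negSucc 94, .negSucc 103, .negSucc 168, .negSucc 87, .negSucc 92⟩, .ofNat 437, .ofNat 203, .ofNat 0, .ofNat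 203, .ofNat 672, .ofNat 0, .ofNat 179, .negSucc 86, .negSucc 22, .ofNat 0, .ofNat 128, .negSucc 22, .ofNat 0, .ofNat 0, .ofNat 1142, .ofNat 2296, .ofNat 0, .ofNat 27986255718781595719815480289839168468725792768, .ofNat 554794301318658844975242709972817357041565696, .ofNat 0, .ofNat 0, .ofNat 0, .ofNat 0, .ofNat 0, .ofNat 0, .ofNat 0, .ofNat 13641195481821554788024770531529685201770774528, .ofNat 0, .ofNat 0, .ofNat 3090807354759695546510459493837597098549601894400, .ofNat 41752187974824932610640755016788485771351818240, .ofNat 0⟩)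
    (by decide +kernel)
theorem L01754 : Good (Phi V5.P V5.D 1 (-1)) ⟨3, 2, 2, 2, 4, 7, 3, 6, 5, 12⟩ :=
  leafYS_sound T5.ok_pm T5.Ypm.bz_eq (w := 240) (c := ⟨⟨.negSucc 1212, .negSucc 171, .ofNat 43, .ofNat 0, .negSucc 81, .ofNat 46⟩, ⟨.ofNat 598, .ofNat 7, .ofNat 284, .negSucc 1, .ofNat 33, .negSucc 28⟩, ⟨.ofNat 1544, .ofNat 214, .ofNat 476, .ofNat 474, .ofNat 200, .ofNat 357⟩, ⟨.negSucc 3492, .negSucc 148, .negSucc 46, .negSucc 94, .negSucc 258, .ofNat 84⟩, ⟨.negSucc 286, .negSucc 91, .negSucc 105, .negSucc 164, .negSucc 115, .negSucc 72⟩, .ofNat 438, .ofNat 203, .ofNat 0, .ofNat 203, .ofNat 671, .ofNat 0, .ofNat 184, .negSucc 88, .negSucc 0, .ofNat 0, .ofNat 128, .negSucc 43, .ofNat 0, .ofNat 0, .ofNat 1406, .ofNat 3452, .ofNat 0, .ofNat 558281727384520741970815003333783673441425031168, .ofNat 0, .ofNat 0, .ofNat 0, .ofNat 0, .ofNat 0, .ofNat 0, .ofNat 0, .ofNat 8334784355797976351493370338152355642230555279360,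 .ofNat 0, .ofNat 0, .ofNat 0, .ofNat 83042663228041083650573958789462022221991145111552, .ofNat 0, .ofNat 0⟩)
    (by decide +kernel)
theorem L01755 : Good (Phi V5.P V5.D 1 (-1)) ⟨3, 2, 2, 2, 4, 7, 4, 12, 5, 13⟩ :=
  leafYS_sound T5.ok_pm T5.Ypm.bz_eq (w := 245) (c := ⟨⟨.negSucc 1183, .negSucc 165, .ofNat 52, .ofNat 21, .negSucc 25, .ofNat 58⟩, ⟨.ofNat 581, .ofNat 8, .ofNat 270, .negSucc 17, .ofNat 10, .negSucc 33⟩, ⟨.ofNat 1727, .ofNat 182, .ofNat 644, .ofNat 707, .ofNat 200, .ofNat 519⟩, ⟨.negSucc 3428, .negSucc 135, .negSucc 41, .negSucc 66, .negSucc 114, .ofNat 88⟩, ⟨.negSucc 324, .negSucc 79, .negSucc 135, .negSucc 217, .negSucc 89, .negSucc 103⟩, .ofNat 438, .ofNat 204, .ofNat 0, .ofNat 204, .ofNat 672, .ofNat 0, .ofNat 221, .negSucc 87, .ofNat 30, .ofNat 0, .ofNat 128, .negSucc 83, .ofNat 0, .ofNat 0, .ofNat 2213, .ofNat 4231, .ofNat 0, .ofNat 4875225489756639818168713059400618649752126357504,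 .ofNat 566328251496596179628232189445942559963082653696, .ofNat 0, .ofNat 0, .ofNat 0, .ofNat 0, .ofNat 0, .ofNat 0, .ofNat 71894324698270302113118729076947603354639359016960, .ofNat 0, .ofNat 0, .ofNat 0, .ofNat 1037662719394561878036235031126640103211695454814208, .ofNat 0, .ofNat 0⟩)
    (by decide +kernel)
theorem L01756 : Good (Phi V5.P V5.D 1 (-1)) ⟨3, 2, 2, 2, 4, 7, 4, 13, 5, 13⟩ :=
  out_sound (S := T5.ds_pm) T5.ok_pm (w := 40) (j := 2) (by decide +kernel)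
theorem L01757 : Good (Phi V5.P V5.D 1 (-1)) ⟨3, 3, 3, 4, 2, 1, 3, 6, 4, 6⟩ :=
  leafYS_sound T5.ok_pm T5.Ypm.bz_eq (w := 209) (c := ⟨⟨.negSucc 1269, .negSucc 223, .ofNat 19, .negSucc 114, .negSucc 104, .ofNat 37⟩, ⟨.ofNat 561, .negSucc 52, .ofNat 143, .ofNat 27, .ofNat 44, .negSucc 20⟩, ⟨.ofNat 1214, .ofNat 207, .ofNat 175, .ofNat 1209, .negSucc 74, .ofNat 159⟩, ⟨.negSucc 3247, .negSucc 115, .negSucc 11, .negSucc 475, .negSucc 257, .ofNat 87⟩, ⟨.negSucc 130, .negSucc 52, .negSucc 8, .negSucc 464, .negSucc 19, .negSucc 31⟩, .ofNat 678, .ofNat 533, .ofNat 0, .ofNat 533, .ofNat 1533, .ofNat 0, .ofNat 190, .negSucc 127, .negSucc 43, .ofNat 0, .ofNat 122, .ofNat 3, .ofNat 0, .ofNat 0, .ofNat 1262, .ofNat 1214, .ofNat 0, .ofNat 5173646171428029658905727901484569329664, .ofNat 2081282007005011199312683743785779200, .ofNat 0, .ofNat 0, .ofNat 0, .ofNat 0, .ofNat 0, .ofNat 0, .ofNat 248636825173315346862835412094059324375040,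 .ofNat 81581235303638039242258949205808644096, .ofNat 0, .ofNat 0, .ofNat 2079271646355014157404163815780203725062144, .ofNat 179979613964494482814306940718424260608, .ofNat 0⟩)
    (by decide +kernel)
theorem L01758 : Good (Phi V5.P V5.D 1 (-1)) ⟨3, 3, 3, 5, 2, 1, 3, 6, 4, 6⟩ :=
  out_sound (S := T5.ds_pm) T5.ok_pm (w := 45) (j := 3) (by decide +kernel)
theorem L01759 : Good (Phi V5.P V5.D 1 (-1)) ⟨3, 2, 2, 2, 2, 1, 3, 7, 4, 6⟩ :=
  leafYS_sound T5.ok_pm T5.Ypm.bz_eq (w := 206) (c := ⟨⟨.negSucc 1141, .negSucc 187, .ofNat 6, .negSucc 214, .negSucc 177, .ofNat 2⟩, ⟨.ofNat 573, .ofNat 8, .ofNat 295, .ofNat 106, .ofNat 88, .ofNat 4⟩, ⟨.ofNat 1014, .ofNat 221, .ofNat 221, .ofNat 966, .negSucc 165, .negSucc 37⟩, ⟨.negSucc 3216, .negSucc 189, .negSucc 49, .negSucc 770, .negSucc 405, .ofNat 14⟩, ⟨.negSucc 90, .negSucc 88, .negSucc 31, .negSucc 389, .ofNat 51, .ofNat 24⟩, .ofNat 436, .ofNat 201, .ofNat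 0, .ofNat 201, .ofNat 670, .ofNat 0, .ofNat 207, .negSucc 84, .negSucc 51, .ofNat 0, .ofNat 128, .negSucc 0, .ofNat 0, .ofNat 0, .ofNat 687, .ofNat 1105, .ofNat 0, .ofNat 1285939991287445209842689862646349430784, .ofNat 1032322196636660598950163051777622016, .ofNat 0, .ofNat 0, .ofNat 48527734111471524718902571009818935427072, .ofNat 0, .ofNat 0, .ofNat 0, .ofNat 33491497372568150908361404118322947031040, .ofNat 0, .ofNat 0, .ofNat 0, .ofNat 167495745841253804829940799265781118402560, .ofNat 12552515151322371337296358373748375552, .ofNat 0⟩)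
    (by decide +kernel)
theorem L01760 : Good (Phi V5.P V5.D 1 (-1)) ⟨3, 3, 2, 2, 2, 1, 3, 7, 4, 6⟩ :=
  leafYS_sound T5.ok_pm T5.Ypm.bz_eq (w := 206) (c := ⟨⟨.negSucc 1329, .negSucc 264, .negSucc 14, .negSucc 237, .negSucc 205, .ofNat 14⟩, ⟨.ofNat 586, .negSucc 52, .ofNat 293, .ofNat 98, .ofNat 100, .negSucc 4⟩, ⟨.ofNat 1216, .ofNat 301, .ofNat 253, .ofNat 972, .negSucc 127, .negSucc 43⟩, ⟨.negSucc 3403, .negSucc 203, .negSucc 78, .negSucc 801, .negSucc 503, .ofNat 43⟩, ⟨.negSucc 151, .negSucc 87, .negSucc 38, .negSucc 465, .ofNat 14, .ofNat 19⟩, .ofNat 396, .ofNat 164, .ofNat 0, .ofNat 164, .ofNat 665, .ofNat 0, .ofNat 538, .negSucc 78, .negSucc 78, .ofNat 0, .ofNat 128, .negSucc 4, .ofNat 0, .ofNat 0, .ofNat 967, .ofNat 960, .ofNat 0, .ofNat 1664347059205224717801615727006851268608, .ofNat 1054660813610490404568382641681727488, .ofNat 0, .ofNat 0, .ofNat 0, .ofNat 0, .ofNat 0, .ofNat 0,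 .ofNat 44033387352068235100236619633627437727744, .ofNat 0, .ofNat 0, .ofNat 0, .ofNat 301748248772779625527139751653953431928832, .ofNat 73045546358143838286485392311766220800, .ofNat 0⟩)
    (by decide +kernel)
theorem L01761 : Good (Phi V5.P V5.D 1 (-1)) ⟨2, 1, 2, 2, 2, 0, 2, 2, 4, 7⟩ :=
  leafYS_sound T5.ok_pm T5.Ypm.bz_eq (w := 202) (c := ⟨⟨.negSucc 871, .negSucc 321, .ofNat 4, .negSucc 107, .negSucc 110, .ofNat 64⟩, ⟨.ofNat 530, .negSucc 51, .ofNat 261, .ofNat 40, .negSucc 16, .ofNat 35⟩, ⟨.ofNat 689, .ofNat 349, .ofNat 141, .ofNat 690, .negSucc 196, .negSucc 42⟩, ⟨.negSucc 2559, .negSucc 159, .negSucc 23, .negSucc 384, .negSucc 147, .ofNat 64⟩, ⟨.ofNat 13, .negSucc 41, .negSucc 5, .negSucc 208, .ofNat 53, .negSucc 4⟩, .ofNat 189, .ofNat 33, .ofNat 0, .ofNat 33, .ofNat 230, .ofNat 0, .ofNat 164, .negSucc 33, .negSucc 41, .ofNat 0, .ofNat 128, .ofNat 1, .ofNat 0, .ofNat 0, .ofNat 316,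 .ofNat 38164, .ofNat 15081810059932862219579087804067144007680, .ofNat 0, .ofNat 0, .ofNat 0, .ofNat 47750029818481345201602510988666822721536, .ofNat 0, .ofNat 0, .ofNat 0, .ofNat 0, .ofNat 0, .ofNat 0, .ofNat 0, .ofNat 27591699625537164440139058852164876107776, .ofNat 0, .ofNat 0, .ofNat 0⟩)
    (by decide +kernel)
theorem L01762 : Good (Phi V5.P V5.D 1 (-1)) ⟨2, 1, 2, 2, 2, 0, 3, 6, 4, 7⟩ :=
  leafYS_sound T5.ok_pm T5.Ypm.bz_eq (w := 205) (c := ⟨⟨.negSucc 965, .negSucc 307, .ofNat 14, .negSucc 143, .negSucc 37, .ofNat 7⟩, ⟨.ofNat 494, .negSucc 51, .ofNat 247, .ofNat 77, .ofNat 26, .negSucc 0⟩, ⟨.ofNat 637, .ofNat 320, .ofNat 76, .ofNat 559, .negSucc 194, .negSucc 21⟩, ⟨.negSucc 2691, .negSucc 125, .ofNat 24, .negSucc 461, .negSucc 87, .ofNat 17⟩, ⟨.negSucc 0, .negSucc 27, .ofNat 6, .negSucc 147, .ofNat 43, .negSucc 2⟩, .ofNat 420, .ofNat 187, .ofNat 0, .ofNat 187, .ofNat 668, .ofNat 0, .ofNat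 214, .negSucc 81, .negSucc 49, .ofNat 0, .ofNat 128, .ofNat 12, .ofNat 0, .ofNat 0, .ofNat 491, .ofNat 10096, .ofNat 0, .ofNat 0, .ofNat 0, .ofNat 0, .ofNat 0, .ofNat 0, .ofNat 0, .ofNat 0, .ofNat 0, .ofNat 0, .ofNat 0, .ofNat 0, .ofNat 93370014197546175254915936352652215975936, .ofNat 0, .ofNat 237687910551607570176706580315455356928, .ofNat 0⟩)
    (by decide +kernel)

end Crest.Agent.R097C5.N5pm
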