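import Crest.Agent.R097.KS3
import Crest.Agent.R097.T5Ypm

/-!
# Row 97, box cover in dimension n = 5 (generated)
-/

set_option autoImplicit false
set_option Elab.async false
set_option maxHeartbeats 0
set_option maxRecDepth 100000

open Crest.Agent.R097 Crest.Agent.R097.KA


namespace Crest.Agent.R097C5.N5pm

theorem L02940 : Good (Phi V5.P V5.D 1 (-1)) ⟨4, 8, 2, 1, 3, 7, 3, 1, 4, 2⟩ :=
  leafYS_sound T5.ok_pm T5.Ypm.bz_eq (w := 224) (c := ⟨⟨.negSucc 1615, .negSucc 68, .negSucc 234, .ofNat 150, .negSucc 176, .negSucc 303⟩, ⟨.ofNat 461, .ofNat 16, .ofNat 493, .ofNat 118, .negSucc 80, .ofNat 11⟩, ⟨.negSucc 241, .ofNat 6, .negSucc 45, .ofNat 15, .ofNat 434, .ofNat 578⟩, ⟨.negSucc 3141, .ofNat 70, .ofNat 226, .ofNat 559, .negSucc 598, .negSucc 684⟩, ⟨.ofNat 2840, .ofNat 458, .ofNat 883, .ofNat 1391, .negSucc 1171, .negSucc 401⟩, .ofNat 640, .ofNat 519, .ofNat 0, .ofNat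 519, .ofNat 2884, .ofNat 0, .ofNat 214, .negSucc 127, .negSucc 138, .ofNat 0, .ofNat 128, .ofNat 25, .ofNat 0, .ofNat 0, .ofNat 415, .ofNat 2463, .ofNat 0, .ofNat 0, .ofNat 7614651051868037779672104546481219829760, .ofNat 0, .ofNat 0, .ofNat 0, .ofNat 0, .ofNat 0, .ofNat 0, .ofNat 0, .ofNat 232884424271576486528341648056154035585024, .ofNat 0, .ofNat 0, .ofNat 0, .ofNat 219227704925747447375517813577132829310976, .ofNat 0⟩)
    (by decide +kernel)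
theorem L02941 : Good (Phi V5.P V5.D 1 (-1)) ⟨4, 9, 2, 1, 3, 7, 3, 1, 4, 2⟩ :=
  leafYS_sound T5.ok_pm T5.Ypm.bz_eq (w := 224) (c := ⟨⟨.negSucc 1719, .negSucc 88, .negSucc 208, .ofNat 254, .negSucc 219, .negSucc 303⟩, ⟨.ofNat 474, .ofNat 17, .ofNat 540, .ofNat 124, .negSucc 103, .negSucc 7⟩, ⟨.negSucc 236, .ofNat 25, .negSucc 88, .ofNat 0, .ofNat 462, .ofNat 593⟩, ⟨.negSucc 3227, .negSucc 53, .ofNat 214, .ofNat 642, .negSucc 553, .negSucc 663⟩, ⟨.ofNat 3077, .ofNat 219, .ofNat 1018, .ofNat 1342, .negSucc 1128, .negSucc 389⟩, .ofNat 541, .ofNat 250, .ofNat 0, .ofNat 250, .ofNat 2359, .ofNat 0, .ofNat 261, .negSucc 88, .negSucc 94, .ofNat 0, .ofNat 128, .ofNat 10, .ofNat 0, .ofNat 0, .ofNat 278, .ofNat 2028, .ofNat 0, .ofNat 0, .ofNat 9071579516986915878426837670384984129536, .ofNat 0, .ofNat 0, .ofNat 0, .ofNat 0, .ofNat 0, .ofNat 0, .ofNat 0, .ofNat 347069165538813990435391943822379654840320,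 .ofNat 0, .ofNat 0, .ofNat 0, .ofNat 208295552252921221818374730281803904450560, .ofNat 0⟩)
    (by decide +kernel)
theorem L02942 : Good (Phi V5.P V5.D 1 (-1)) ⟨3, 5, 2, 1, 2, 3, 3, 1, 4, 2⟩ :=
  out_sound (S := T5.ds_pm) T5.ok_pm (w := 43) (j := 3) (by decide +kernel)
theorem L02943 : Good (Phi V5.P V5.D 1 (-1)) ⟨2, 3, 2, 1, 2, 3, 3, 1, 4, 2⟩ :=
  out_sound (S := T5.ds_pm) T5.ok_pm (w := 37) (j := 3) (by decide +kernel)
theorem L02944 : Good (Phi V5.P V5.D 1 (-1)) ⟨3, 4, 2, 1, 3, 6, 4, 0, 5, 6⟩ :=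
  leafYS_sound T5.ok_pm T5.Ypm.bz_eq (w := 232) (c := ⟨⟨.negSucc 1836, .negSucc 169, .negSucc 197, .ofNat 93, .negSucc 83, .ofNat 41⟩, ⟨.ofNat 336, .negSucc 49, .ofNat 492, .ofNat 163, .negSucc 18, .negSucc 48⟩, ⟨.negSucc 283, .negSucc 49, .negSucc 42, .ofNat 126, .ofNat 250, .ofNat 194⟩, ⟨.negSucc 4064, .ofNat 55, .ofNat 99, .ofNat 459, .negSucc 46, .negSucc 2⟩, ⟨.ofNat 661, .ofNat 444, .ofNat 935, .ofNat 1810, .negSucc 71, .negSucc 481⟩, .ofNat 459, .ofNat 154, .ofNat 0, .ofNat 154, .ofNat 1280, .ofNat 0, .ofNat 233, .negSucc 87, .negSucc 40, .ofNat 0, .ofNat 128, .ofNat 12, .ofNat 0, .ofNat 0, .ofNat 216, .ofNat 45312, .ofNat 0, .ofNat 0, .ofNat 0, .ofNat 0, .ofNat 0, .ofNat 0, .ofNat 0, .ofNat 0, .ofNat 687096659326384895230558127893675582432217137152, .ofNat 0, .ofNat 915108699468165651056775056574920190412718080, .ofNat 0, .ofNat 0, .ofNat 0, .ofNat 105991235648701193591867230272258886575587328,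 .ofNat 0⟩)
    (by decide +kernel)
theorem L02945 : Good (Phi V5.P V5.D 1 (-1)) ⟨3, 4, 2, 1, 3, 6, 4, 1, 5, 6⟩ :=
  leafYS_sound T5.ok_pm T5.Ypm.bz_eq (w := 231) (c := ⟨⟨.negSucc 1880, .negSucc 205, .negSucc 173, .ofNat 59, .negSucc 61, .ofNat 32⟩, ⟨.ofNat 355, .negSucc 83, .ofNat 456, .ofNat 142, .negSucc 13, .negSucc 44⟩, ⟨.negSucc 14, .negSucc 5, .negSucc 22, .ofNat 85, .ofNat 250, .ofNat 172⟩, ⟨.negSucc 4033, .negSucc 9, .ofNat 79, .ofNat 359, .negSucc 169, .ofNat 39⟩, ⟨.ofNat 815, .ofNat 316, .ofNat 718, .ofNat 1549, .negSucc 219, .negSucc 342⟩, .ofNat 461, .ofNat 161, .ofNat 0, .ofNat 161, .ofNat 1277, .ofNat 0, .ofNat 161, .negSucc 89, .negSucc 25, .ofNat 0, .ofNat 128, .ofNat 8, .ofNat 0, .ofNat 0, .ofNat 131, .ofNat 12584, .ofNat 0, .ofNat 0, .ofNat 31031463548273672171176731231362218169729024, .ofNat 0, .ofNat 0, .ofNat 0, .ofNat 206721957198018333816935560737969261969932288,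 .ofNat 0, .ofNat 0, .ofNat 0, .ofNat 834705521183418546741284921761666594638921728, .ofNat 0, .ofNat 33059721031014869938987927287631438090980032512, .ofNat 0, .ofNat 29579068756703916784522632617069882279723008, .ofNat 0⟩)
    (by decide +kernel)
theorem L02946 : Good (Phi V5.P V5.D 1 (-1)) ⟨4, 8, 2, 1, 3, 6, 3, 1, 5, 6⟩ :=
  leafYS_sound T5.ok_pm T5.Ypm.bz_eq (w := 229) (c := ⟨⟨.negSucc 1903, .negSucc 127, .negSucc 112, .negSucc 2, .negSucc 96, .ofNat 24⟩, ⟨.ofNat 344, .negSucc 36, .ofNat 459, .ofNat 128, .negSucc 18, .negSucc 37⟩, ⟨.ofNat 244, .ofNat 30, .negSucc 1, .ofNat 43, .ofNat 391, .ofNat 156⟩, ⟨.negSucc 4121, .negSucc 6, .ofNat 80, .ofNat 272, .negSucc 278, .negSucc 13⟩, ⟨.ofNat 699, .ofNat 218, .ofNat 594, .ofNat 1351, .negSucc 368, .negSucc 322⟩, .ofNat 583, .ofNat 384, .ofNat 0, .ofNat 384, .ofNat 2102, .ofNat 0, .ofNat 228, .negSucc 121, .negSucc 27,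 .ofNat 0, .ofNat 128, .ofNat 8, .ofNat 0, .ofNat 0, .ofNat 129, .ofNat 3805, .ofNat 0, .ofNat 0, .ofNat 238146964779699292311507469005344229818368, .ofNat 0, .ofNat 0, .ofNat 0, .ofNat 0, .ofNat 0, .ofNat 0, .ofNat 0, .ofNat 0, .ofNat 0, .ofNat 0, .ofNat 0, .ofNat 403323804144357588465521836936558565916672, .ofNat 0⟩)
    (by decide +kernel)
theorem L02947 : Good (Phi V5.P V5.D 1 (-1)) ⟨4, 9, 2, 1, 3, 6, 3, 1, 5, 6⟩ :=
  leafYS_sound T5.ok_pm T5.Ypm.bz_eq (w := 231) (c := ⟨⟨.negSucc 2047, .negSucc 150, .negSucc 132, .ofNat 46, .negSucc 136, .ofNat 61⟩, ⟨.ofNat 299, .negSucc 52, .ofNat 473, .ofNat 135, .negSucc 21, .negSucc 33⟩, ⟨.ofNat 251, .ofNat 31, .negSucc 10, .ofNat 60, .ofNat 433, .ofNat 154⟩, ⟨.negSucc 4129, .negSucc 65, .negSucc 7, .ofNat 225, .negSucc 304, .ofNat 81⟩, ⟨.ofNat 893, .ofNat 109, .ofNat 568, .ofNat 1277, .negSucc 309, .negSucc 267⟩, .ofNat 501,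 .ofNat 177, .ofNat 0, .ofNat 177, .ofNat 1827, .ofNat 0, .ofNat 237, .negSucc 80, .negSucc 33, .ofNat 0, .ofNat 128, .ofNat 8, .ofNat 0, .ofNat 0, .ofNat 151, .ofNat 10379, .ofNat 0, .ofNat 0, .ofNat 844224049979275520748589952866087155531776, .ofNat 0, .ofNat 0, .ofNat 0, .ofNat 7773676927262513570270304267092400575348736, .ofNat 0, .ofNat 0, .ofNat 0, .ofNat 28867070372326331294190245114666801526996992, .ofNat 0, .ofNat 0, .ofNat 0, .ofNat 1239921134216890608311444709653363048841216, .ofNat 0⟩)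
    (by decide +kernel)
theorem L02948 : Good (Phi V5.P V5.D 1 (-1)) ⟨3, 4, 2, 1, 3, 7, 2, 0, 5, 6⟩ :=
  leafYS_sound T5.ok_pm T5.Ypm.bz_eq (w := 220) (c := ⟨⟨.negSucc 1759, .negSucc 135, .negSucc 171, .ofNat 184, .negSucc 303, .ofNat 12⟩, ⟨.ofNat 494, .ofNat 19, .ofNat 541, .ofNat 141, .negSucc 130, .negSucc 51⟩, ⟨.negSucc 93, .negSucc 2, .negSucc 71, .ofNat 21, .ofNat 852, .ofNat 184⟩, ⟨.negSucc 3456, .ofNat 55, .ofNat 325, .ofNat 630, .negSucc 903, .ofNat 16⟩, ⟨.ofNat 2882, .ofNat 664, .ofNat 1210, .ofNat 1651, .negSucc 1761, .negSucc 398⟩, .ofNat 460, .ofNat 160, .ofNat 0, .ofNat 160, .ofNat 1267, .ofNat 0, .ofNat 128, .negSucc 109, .negSucc 104, .ofNat 0, .ofNat 175, .ofNat 9, .ofNat 0, .ofNat 0, .ofNat 523, .ofNat 1529, .ofNat 0, .ofNat 0, .ofNat 40243161276812210982538638481219500638208, .ofNat 0, .ofNat 0, .ofNat 0, .ofNat 867076827722075775671085761569333169881088,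 .ofNat 0, .ofNat 0, .ofNat 0, .ofNat 3992207742866500602118687655856018573754368, .ofNat 0, .ofNat 1487223260174874684933757784671804499003703296, .ofNat 0, .ofNat 4951360197293198277524550039948533602189312, .ofNat 0⟩)
    (by decide +kernel)
theorem L02949 : Good (Phi V5.P V5.D 1 (-1)) ⟨3, 4, 2, 1, 3, 6, 2, 0, 5, 7⟩ :=
  leafYS_sound T5.ok_pm T5.Ypm.bz_eq (w := 222) (c := ⟨⟨.negSucc 1801, .negSucc 192, .negSucc 96, .ofNat 60, .negSucc 236, .ofNat 99⟩, ⟨.ofNat 344, .negSucc 101, .ofNat 427, .ofNat 122, .negSucc 32, .negSucc 36⟩, ⟨.negSucc 11, .ofNat 36, .negSucc 6, .ofNat 34, .ofNat 803, .ofNat 132⟩, ⟨.negSucc 3892, .ofNat 71, .ofNat 76, .ofNat 294, .negSucc 510, .ofNat 119⟩, ⟨.ofNat 725, .ofNat 357, .ofNat 568, .ofNat 1213, .negSucc 516, .negSucc 289⟩, .ofNat 460, .ofNat 161, .ofNat 0, .ofNat 161, .ofNat 1267, .ofNat 0, .ofNat 277, .negSucc 80, .negSucc 54, .ofNat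 0, .ofNat 128, .ofNat 16, .ofNat 0, .ofNat 0, .ofNat 354, .ofNat 6310, .ofNat 0, .ofNat 0, .ofNat 96685376631139288559164882464239133917184, .ofNat 0, .ofNat 0, .ofNat 0, .ofNat 0, .ofNat 0, .ofNat 521038663762520091209908344748217768081358848, .ofNat 0, .ofNat 4627547425757215575038543495321966121844736, .ofNat 0, .ofNat 3420876967929480299478785401699834819835330560, .ofNat 0, .ofNat 296154331269650631964821953236645380620288, .ofNat 0⟩)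
    (by decide +kernel)
theorem L02950 : Good (Phi V5.P V5.D 1 (-1)) ⟨3, 4, 2, 1, 3, 7, 2, 0, 5, 7⟩ :=
  leafYS_sound T5.ok_pm T5.Ypm.bz_eq (w := 221) (c := ⟨⟨.negSucc 1729, .negSucc 150, .negSucc 176, .ofNat 172, .negSucc 284, .ofNat 93⟩, ⟨.ofNat 449, .negSucc 23, .ofNat 487, .ofNat 123, .negSucc 79, .negSucc 48⟩, ⟨.ofNat 63, .ofNat 69, .ofNat 6, .ofNat 76, .ofNat 769, .ofNat 115⟩, ⟨.negSucc 3453, .ofNat 47, .ofNat 272, .ofNat 542, .negSucc 772, .ofNat 123⟩, ⟨.ofNat 2341, .ofNat 488, .ofNat 1013, .ofNat 1415, .negSucc 1204, .negSucc 389⟩, .ofNat 455, .ofNat 150, .ofNat 0, .ofNat 150, .ofNat 1262, .ofNat 0, .ofNat 128, .negSucc 92, .negSucc 65, .ofNat 0, .ofNat 172, .ofNat 1, .ofNat 0, .ofNat 0, .ofNat 483, .ofNat 2556, .ofNat 0, .ofNat 0, .ofNat 68923239101739552540381369898355300237312, .ofNat 0, .ofNat 0, .ofNat 0, .ofNat 877122262342491957099668963455038690164736,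 .ofNat 0, .ofNat 0, .ofNat 0, .ofNat 6015351760202308729307695166702513370955776, .ofNat 0, .ofNat 0, .ofNat 0, .ofNat 4733345670856733263573460853614945696219136, .ofNat 0⟩)
    (by decide +kernel)
theorem L02951 : Good (Phi V5.P V5.D 1 (-1)) ⟨3, 5, 2, 1, 2, 3, 2, 0, 4, 3⟩ :=
  out_sound (S := T5.ds_pm) T5.ok_pm (w := 43) (j := 3) (by decide +kernel)
theorem L02952 : Good (Phi V5.P V5.D 1 (-1)) ⟨2, 3, 2, 1, 2, 3, 2, 0, 4, 3⟩ :=
  out_sound (S := T5.ds_pm) T5.ok_pm (w := 37) (j := 3) (by decide +kernel)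
theorem L02953 : Good (Phi V5.P V5.D 1 (-1)) ⟨3, 4, 2, 1, 2, 2, 2, 1, 4, 2⟩ :=
  leafYS_sound T5.ok_pm T5.Ypm.bz_eq (w := 201) (c := ⟨⟨.negSucc 1254, .negSucc 339, .ofNat 37, .negSucc 413, .negSucc 111, .negSucc 405⟩, ⟨.ofNat 163, .negSucc 155, .ofNat 333, .ofNat 174, .negSucc 26, .ofNat 74⟩, ⟨.ofNat 285, .ofNat 131, .negSucc 16, .negSucc 211, .ofNat 682, .ofNat 559⟩, ⟨.negSucc 2932, .negSucc 174, .ofNat 183, .negSucc 688, .negSucc 265, .negSucc 836⟩, ⟨.negSucc 367, .ofNat 102, .ofNat 278, .ofNat 947, .negSucc 225, .negSucc 80⟩, .ofNat 466, .ofNat 175, .ofNat 0, .ofNat 175, .ofNat 1278, .ofNat 0, .ofNat 226, .negSucc 97, .negSucc 113, .ofNat 0, .ofNat 128, .ofNat 31, .ofNat 0, .ofNat 0, .ofNat 318, .ofNat 1284, .ofNat 0, .ofNat 0, .ofNat 0, .ofNat 0, .ofNat 0, .ofNat 0, .ofNat 2662090079141978865957592195070427136, .ofNat 0, .ofNat 0, .ofNat 0, .ofNat 0, .ofNat 0, .ofNat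 0, .ofNat 0, .ofNat 0, .ofNat 0⟩)
    (by decide +kernel)
theorem L02954 : Good (Phi V5.P V5.D 1 (-1)) ⟨3, 4, 2, 1, 2, 2, 2, 1, 4, 3⟩ :=
  leafYS_sound T5.ok_pm T5.Ypm.bz_eq (w := 202) (c := ⟨⟨.negSucc 1708, .negSucc 365, .negSucc 16, .negSucc 291, .negSucc 95, .ofNat 71⟩, ⟨.ofNat 249, .negSucc 168, .ofNat 372, .ofNat 105, .negSucc 3, .negSucc 19⟩, ⟨.ofNat 816, .ofNat 168, .negSucc 11, .negSucc 145, .ofNat 598, .ofNat 229⟩, ⟨.negSucc 3885, .negSucc 139, .ofNat 18, .negSucc 486, .negSucc 204, .ofNat 112⟩, ⟨.negSucc 354, .ofNat 150, .ofNat 199, .ofNat 610, .negSucc 97, .negSucc 136⟩, .ofNat 546, .ofNat 296, .ofNat 0, .ofNat 296, .ofNat 1982, .ofNat 0, .ofNat 275, .negSucc 104, .negSucc 77, .ofNat 0, .ofNat 128, .ofNat 20, .ofNat 0, .ofNat 0, .ofNat 362, .ofNat 2427, .ofNat 0, .ofNat 0, .ofNat 93233343583933493810285401318883328, .ofNat 0, .ofNat 0, .ofNat 0, .ofNat 10878715574324618261657074394527170560,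 .ofNat 0, .ofNat 0, .ofNat 0, .ofNat 5860310653643664009367883040090488832, .ofNat 0, .ofNat 0, .ofNat 0, .ofNat 0, .ofNat 0⟩)
    (by decide +kernel)
theorem L02955 : Good (Phi V5.P V5.D 1 (-1)) ⟨3, 4, 2, 1, 2, 3, 3, 2, 4, 2⟩ :=
  leafYS_sound T5.ok_pm T5.Ypm.bz_eq (w := 205) (c := ⟨⟨.negSucc 1678, .negSucc 404, .negSucc 101, .negSucc 27, .negSucc 151, .negSucc 313⟩, ⟨.ofNat 313, .negSucc 68, .ofNat 441, .ofNat 171, .negSucc 39, .ofNat 47⟩, ⟨.ofNat 59, .ofNat 182, .ofNat 21, .ofNat 160, .ofNat 375, .ofNat 545⟩, ⟨.negSucc 3630, .negSucc 329, .ofNat 92, .ofNat 135, .negSucc 369, .negSucc 640⟩, ⟨.ofNat 831, .ofNat 351, .ofNat 394, .ofNat 1468, .negSucc 508, .negSucc 51⟩, .ofNat 561, .ofNat 345, .ofNat 0, .ofNat 345, .ofNat 1892, .ofNat 0, .ofNat 313, .negSucc 121, .negSucc 119, .ofNat 0, .ofNat 128, .ofNat 30, .ofNat 0, .ofNat 0, .ofNat 301, .ofNat 1284, .ofNat 0, .ofNat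 0, .ofNat 1431068744837287578328165166046248960, .ofNat 0, .ofNat 0, .ofNat 0, .ofNat 104973659292752694835388057876600717312, .ofNat 0, .ofNat 0, .ofNat 0, .ofNat 35054894825206170356848807509068087296, .ofNat 0, .ofNat 0, .ofNat 0, .ofNat 18711655904338261306141379003450130432, .ofNat 0⟩)
    (by decide +kernel)
theorem L02956 : Good (Phi V5.P V5.D 1 (-1)) ⟨3, 4, 2, 1, 2, 3, 3, 3, 4, 2⟩ :=
  leafYS_sound T5.ok_pm T5.Ypm.bz_eq (w := 205) (c := ⟨⟨.negSucc 1910, .negSucc 416, .negSucc 37, .negSucc 112, .negSucc 248, .negSucc 144⟩, ⟨.ofNat 338, .negSucc 134, .ofNat 422, .ofNat 114, .negSucc 20, .ofNat 35⟩, ⟨.ofNat 498, .ofNat 236, .ofNat 16, .ofNat 125, .ofNat 415, .ofNat 446⟩, ⟨.negSucc 4104, .negSucc 297, .ofNat 81, .negSucc 214, .negSucc 578, .negSucc 306⟩, ⟨.ofNat 657, .ofNat 198, .ofNat 25, .ofNat 702, .negSucc 546, .ofNat 72⟩, .ofNat 505, .ofNat 216, .ofNat 0, .ofNat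 216, .ofNat 1644, .ofNat 0, .ofNat 372, .negSucc 95, .negSucc 146, .ofNat 0, .ofNat 128, .ofNat 27, .ofNat 0, .ofNat 0, .ofNat 350, .ofNat 1071, .ofNat 0, .ofNat 0, .ofNat 1745123560358421910222029581910540288, .ofNat 0, .ofNat 0, .ofNat 0, .ofNat 75655911231323912269673992556625526784, .ofNat 0, .ofNat 0, .ofNat 0, .ofNat 55073383729306864664377014821769445376, .ofNat 0, .ofNat 0, .ofNat 0, .ofNat 29450779593930936860519700073673654272, .ofNat 0⟩)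
    (by decide +kernel)
theorem L02957 : Good (Phi V5.P V5.D 1 (-1)) ⟨3, 4, 2, 1, 3, 6, 2, 1, 4, 3⟩ :=
  leafYS_sound T5.ok_pm T5.Ypm.bz_eq (w := 217) (c := ⟨⟨.negSucc 2023, .negSucc 327, .negSucc 91, .negSucc 33, .negSucc 289, .ofNat 199⟩, ⟨.ofNat 368, .negSucc 133, .ofNat 434, .ofNat 90, .negSucc 28, .negSucc 64⟩, ⟨.ofNat 657, .ofNat 156, .ofNat 37, .ofNat 23, .ofNat 732, .ofNat 181⟩, ⟨.negSucc 4384, .negSucc 113, .negSucc 2, .ofNat 88, .negSucc 659, .ofNat 321⟩, ⟨.ofNat 547, .ofNat 266, .ofNat 400, .ofNat 918, .negSucc 551, .negSucc 415⟩, .ofNat 470, .ofNat 198, .ofNat 0, .ofNat 198, .ofNat 1235, .ofNat 0, .ofNat 493, .negSucc 92, .negSucc 89, .ofNat 0, .ofNat 128, .ofNat 24, .ofNat 0, .ofNat 0, .ofNat 411, .ofNat 3492, .ofNat 0, .ofNat 0, .ofNat 3006583779300392939126831356233170026496, .ofNat 0, .ofNat 0, .ofNat 0, .ofNat 0, .ofNat 0, .ofNat 0, .ofNat 0, .ofNat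 58609010317600562061460597770493364273152, .ofNat 0, .ofNat 0, .ofNat 0, .ofNat 11641326518403620735622819839542938304512, .ofNat 0⟩)
    (by decide +kernel)
theorem L02958 : Good (Phi V5.P V5.D 1 (-1)) ⟨3, 4, 3, 2, 3, 7, 2, 1, 4, 3⟩ :=
  leafYS_sound T5.ok_pm T5.Ypm.bz_eq (w := 219) (c := ⟨⟨.negSucc 2077, .negSucc 239, .negSucc 65, .ofNat 141, .negSucc 356, .ofNat 223⟩, ⟨.ofNat 450, .negSucc 90, .ofNat 222, .ofNat 83, .negSucc 60, .negSucc 62⟩, ⟨.ofNat 685, .ofNat 162, .ofNat 25, .ofNat 58, .ofNat 688, .ofNat 207⟩, ⟨.negSucc 4323, .ofNat 2, .ofNat 36, .ofNat 348, .negSucc 815, .ofNat 375⟩, ⟨.ofNat 1605, .ofNat 412, .ofNat 154, .ofNat 820, .negSucc 934, .negSucc 389⟩, .ofNat 502, .ofNat 206, .ofNat 0, .ofNat 206, .ofNat 1658, .ofNat 0, .ofNat 299, .negSucc 75, .negSucc 79, .ofNat 0, .ofNat 128, .ofNat 6, .ofNat 0, .ofNat 0, .ofNat 494, .ofNat 2246, .ofNat 0, .ofNat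 0, .ofNat 4972822262813291937320682656046180728832, .ofNat 0, .ofNat 0, .ofNat 0, .ofNat 140172291879384324037502519696888548032512, .ofNat 0, .ofNat 0, .ofNat 0, .ofNat 90951434305327450977423396823660039766016, .ofNat 0, .ofNat 0, .ofNat 0, .ofNat 134965392513710709155300580524089713623040, .ofNat 0⟩)
    (by decide +kernel)
theorem L02959 : Good (Phi V5.P V5.D 1 (-1)) ⟨3, 4, 3, 3, 3, 7, 2, 1, 4, 3⟩ :=
  leafYS_sound T5.ok_pm T5.Ypm.bz_eq (w := 219) (c := ⟨⟨.negSucc 2111, .negSucc 237, .negSucc 92, .ofNat 44, .negSucc 285, .ofNat 214⟩, ⟨.ofNat 676, .negSucc 57, .ofNat 220, .ofNat 66, .negSucc 43, .negSucc 67⟩, ⟨.ofNat 665, .ofNat 176, .ofNat 65, .ofNat 145, .ofNat 694, .ofNat 226⟩, ⟨.negSucc 4211, .ofNat 35, .negSucc 42, .ofNat 282, .negSucc 921, .ofNat 433⟩, ⟨.ofNat 1845, .ofNat 510, .ofNat 3, .ofNat 819, .negSucc 1272, .negSucc 157⟩, .ofNat 632, .ofNat 494, .ofNat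 0, .ofNat 494, .ofNat 2129, .ofNat 0, .ofNat 403, .negSucc 115, .negSucc 74, .ofNat 0, .ofNat 128, .ofNat 8, .ofNat 0, .ofNat 0, .ofNat 473, .ofNat 1790, .ofNat 0, .ofNat 0, .ofNat 4066888147301037447352569479069559685120, .ofNat 0, .ofNat 0, .ofNat 0, .ofNat 329555037607567136510360445210915300704256, .ofNat 0, .ofNat 0, .ofNat 0, .ofNat 175161870623804279835793604783314994987008, .ofNat 0, .ofNat 0, .ofNat 0, .ofNat 182512356747686228062277197489219680862208, .ofNat 0⟩)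
    (by decide +kernel)
theorem L02960 : Good (Phi V5.P V5.D 1 (-1)) ⟨3, 5, 2, 1, 1, 1, 2, 1, 3, 1⟩ :=
  out_sound (S := T5.ds_pm) T5.ok_pm (w := 43) (j := 3) (by decide +kernel)
theorem L02961 : Good (Phi V5.P V5.D 1 (-1)) ⟨2, 3, 2, 1, 1, 1, 2, 1, 3, 1⟩ :=
  out_sound (S := T5.ds_pm) T5.ok_pm (w := 37) (j := 3) (by decide +kernel)
theorem L02962 : Good (Phi V5.P V5.D 1 (-1)) ⟨3, 4, 2, 1, 3, 4, 2, 0, 3, 2⟩ :=
  leafYS_sound T5.ok_pm T5.Ypm.bz_eq (w := 214) (c := ⟨⟨.negSucc 1677, .negSucc 273, .negSucc 2, .negSucc 69, .negSucc 69, .ofNat 253⟩, ⟨.ofNat 253, .negSucc 177, .ofNat 312, .ofNat 24, .ofNat 14, .negSucc 53⟩, ⟨.ofNat 639, .ofNat 45, .negSucc 17, .negSucc 203, .ofNat 568, .ofNat 299⟩, ⟨.negSucc 3774, .negSucc 1, .negSucc 28, .negSucc 125, .negSucc 148, .ofNat 515⟩, ⟨.negSucc 274, .ofNat 57, .ofNat 45, .ofNat 135, .negSucc 29, .negSucc 104⟩, .ofNat 333, .ofNat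 58, .ofNat 0, .ofNat 58, .ofNat 634, .ofNat 0, .ofNat 212, .negSucc 46, .negSucc 63, .ofNat 0, .ofNat 128, .ofNat 26, .ofNat 0, .ofNat 0, .ofNat 460, .ofNat 29284, .ofNat 60214369282762103077079496466032997236211712, .ofNat 0, .ofNat 252309627657377677112395317666650259456, .ofNat 0, .ofNat 159645986637743636524179867594039322268925952, .ofNat 0, .ofNat 0, .ofNat 0, .ofNat 52827823205831739649092531513289038268203008, .ofNat 0, .ofNat 2322923571386529280031189810105261490176, .ofNat 0, .ofNat 318009506206293928199236440588397079150198784, .ofNat 0, .ofNat 514268600282883844630273898449138089984, .ofNat 0⟩)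
    (by decide +kernel)
theorem L02963 : Good (Phi V5.P V5.D 1 (-1)) ⟨3, 4, 2, 1, 3, 5, 2, 0, 3, 2⟩ :=
  leafYS_sound T5.ok_pm T5.Ypm.bz_eq (w := 212) (c := ⟨⟨.negSucc 1738, .negSucc 257, .negSucc 28, .negSucc 40, .negSucc 112, .ofNat 350⟩, ⟨.ofNat 268, .negSucc 157, .ofNat 345, .ofNat 48, .ofNat 16, .negSucc 88⟩, ⟨.ofNat 295, .ofNat 44, .ofNat 14, .negSucc 101, .ofNat 707, .ofNat 311⟩, ⟨.negSucc 3863, .ofNat 19, .negSucc 22, .negSucc 18, .negSucc 259, .ofNat 684⟩, ⟨.negSucc 72, .ofNat 123, .ofNat 141, .ofNat 430, .negSucc 117, .negSucc 293⟩, .ofNat 332, .ofNat 58, .ofNat 0, .ofNat 58, .ofNat 633, .ofNat 0, .ofNat 253, .negSucc 48, .negSucc 50, .ofNat 0, .ofNat 128, .ofNat 22, .ofNat 0, .ofNat 0, .ofNat 502, .ofNat 7998, .ofNat 5974435882817109740305835256223834732232704, .ofNat 0, .ofNat 131699100367520162260638234976964313088, .ofNat 0, .ofNat 0, .ofNat 0, .ofNat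 0, .ofNat 0, .ofNat 0, .ofNat 0, .ofNat 3037818884892261093527150181339822555136, .ofNat 0, .ofNat 132519942047374661512794939352799608808931328, .ofNat 0, .ofNat 1544816740243899224804954064750242693120, .ofNat 0⟩)
    (by decide +kernel)
theorem L02964 : Good (Phi V5.P V5.D 1 (-1)) ⟨4, 8, 2, 1, 3, 4, 3, 2, 3, 2⟩ :=
  leafYS_sound T5.ok_pm T5.Ypm.bz_eq (w := 222) (c := ⟨⟨.negSucc 1747, .negSucc 129, .ofNat 6, .negSucc 68, .negSucc 26, .ofNat 253⟩, ⟨.ofNat 260, .negSucc 73, .ofNat 308, .ofNat 19, .ofNat 4, .negSucc 53⟩, ⟨.ofNat 1125, .ofNat 63, .ofNat 26, .negSucc 109, .ofNat 223, .ofNat 296⟩, ⟨.negSucc 3904, .negSucc 5, .negSucc 31, .negSucc 129, .negSucc 60, .ofNat 519⟩, ⟨.negSucc 278, .ofNat 33, .ofNat 21, .ofNat 73, .negSucc 18, .negSucc 78⟩, .ofNat 495, .ofNat 242, .ofNat 0, .ofNat 242, .ofNat 1317, .ofNat 0, .ofNat 255, .negSucc 96, .negSucc 57, .ofNat 0, .ofNat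 128, .ofNat 21, .ofNat 0, .ofNat 0, .ofNat 594, .ofNat 13800, .ofNat 2651179858834142570327850732215080449386479616, .ofNat 0, .ofNat 0, .ofNat 0, .ofNat 0, .ofNat 0, .ofNat 0, .ofNat 0, .ofNat 0, .ofNat 0, .ofNat 31672392701553041606644845918929014489088, .ofNat 0, .ofNat 0, .ofNat 0, .ofNat 18597885003546218149226875954907765014528, .ofNat 0⟩)
    (by decide +kernel)
theorem L02965 : Good (Phi V5.P V5.D 1 (-1)) ⟨4, 9, 2, 1, 3, 4, 3, 2, 3, 2⟩ :=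
  leafYS_sound T5.ok_pm T5.Ypm.bz_eq (w := 222) (c := ⟨⟨.negSucc 1885, .negSucc 156, .ofNat 6, .negSucc 60, .negSucc 40, .ofNat 284⟩, ⟨.ofNat 183, .negSucc 98, .ofNat 309, .ofNat 13, .ofNat 1, .negSucc 37⟩, ⟨.ofNat 1176, .ofNat 62, .ofNat 31, .negSucc 123, .ofNat 266, .ofNat 259⟩, ⟨.negSucc 3918, .negSucc 33, .negSucc 45, .negSucc 112, .negSucc 82, .ofNat 557⟩, ⟨.negSucc 238, .ofNat 36, .negSucc 5, .ofNat 74, .negSucc 31, .negSucc 96⟩, .ofNat 550, .ofNat 309, .ofNat 0, .ofNat 309, .ofNat 1930, .ofNat 0, .ofNat 356, .negSucc 87, .negSucc 67, .ofNat 0, .ofNat 128, .ofNat 21, .ofNat 0, .ofNat 0, .ofNat 688, .ofNat 18940, .ofNat 4058969294959059820578036103349165263155101696, .ofNat 0, .ofNat 611544140336450687976833551725987102720, .ofNat 0, .ofNat 0, .ofNat 0, .ofNat 0, .ofNat 0, .ofNat 0, .ofNat 0, .ofNat 80793306302942247478728769028560686940160, .ofNat 0, .ofNat 0,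 .ofNat 0, .ofNat 36107678435387195160557408388470934601728, .ofNat 0⟩)
    (by decide +kernel)
theorem L02966 : Good (Phi V5.P V5.D 1 (-1)) ⟨3, 4, 2, 1, 3, 5, 3, 2, 3, 2⟩ :=
  leafYS_sound T5.ok_pm T5.Ypm.bz_eq (w := 216) (c := ⟨⟨.negSucc 1849, .negSucc 271, .negSucc 16, .negSucc 42, .negSucc 58, .ofNat 355⟩, ⟨.ofNat 290, .negSucc 160, .ofNat 334, .ofNat 36, .ofNat 1, .negSucc 82⟩, ⟨.ofNat 941, .ofNat 111, .ofNat 54, .negSucc 77, .ofNat 317, .ofNat 339⟩, ⟨.negSucc 4102, .negSucc 10, .negSucc 31, .negSucc 44, .negSucc 133, .ofNat 705⟩, ⟨.negSucc 148, .ofNat 125, .ofNat 120, .ofNat 309, .negSucc 83, .negSucc 228⟩, .ofNat 335, .ofNat 75, .ofNat 0, .ofNat 75, .ofNat 623, .ofNat 0, .ofNat 240, .negSucc 54, .negSucc 51, .ofNat 0, .ofNat 128, .ofNat 19, .ofNat 0, .ofNat 0, .ofNat 638, .ofNat 4726, .ofNat 0, .ofNat 0, .ofNat 769055587627978611915572904151419453440, .ofNat 0,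 .ofNat 0, .ofNat 0, .ofNat 0, .ofNat 0, .ofNat 0, .ofNat 0, .ofNat 28638455814711166572751718755279149465600, .ofNat 0, .ofNat 0, .ofNat 10167530217278109111137989896369824086360064, .ofNat 62760781717838617345968082762260186923008, .ofNat 0⟩)
    (by decide +kernel)
theorem L02967 : Good (Phi V5.P V5.D 1 (-1)) ⟨3, 4, 2, 1, 2, 2, 3, 3, 4, 4⟩ :=
  leafYS_sound T5.ok_pm T5.Ypm.bz_eq (w := 206) (c := ⟨⟨.negSucc 1744, .negSucc 320, .ofNat 5, .negSucc 211, .negSucc 59, .ofNat 148⟩, ⟨.ofNat 263, .negSucc 175, .ofNat 341, .ofNat 70, .negSucc 9, .negSucc 36⟩, ⟨.ofNat 1281, .ofNat 171, .ofNat 22, .negSucc 79, .ofNat 283, .ofNat 151⟩, ⟨.negSucc 3931, .negSucc 73, .negSucc 0, .negSucc 373, .negSucc 141, .ofNat 290⟩, ⟨.negSucc 318, .ofNat 72, .ofNat 84, .ofNat 380, .negSucc 121, .negSucc 99⟩, .ofNat 462, .ofNat 162, .ofNat 0, .ofNat 162, .ofNat 1280, .ofNat 0, .ofNat 261, .negSucc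 75, .negSucc 46, .ofNat 0, .ofNat 128, .ofNat 11, .ofNat 0, .ofNat 0, .ofNat 351, .ofNat 2211, .ofNat 0, .ofNat 0, .ofNat 0, .ofNat 0, .ofNat 0, .ofNat 0, .ofNat 0, .ofNat 0, .ofNat 0, .ofNat 0, .ofNat 0, .ofNat 0, .ofNat 0, .ofNat 0, .ofNat 40344492096321497610371212533276082176, .ofNat 0⟩)
    (by decide +kernel)
theorem L02968 : Good (Phi V5.P V5.D 1 (-1)) ⟨3, 4, 2, 1, 2, 2, 3, 3, 4, 5⟩ :=
  leafYS_sound T5.ok_pm T5.Ypm.bz_eq (w := 206) (c := ⟨⟨.negSucc 1658, .negSucc 278, .negSucc 1, .negSucc 101, .negSucc 48, .ofNat 149⟩, ⟨.ofNat 246, .negSucc 166, .ofNat 305, .ofNat 32, .negSucc 0, .negSucc 27⟩, ⟨.ofNat 1402, .ofNat 144, .ofNat 76, .negSucc 16, .ofNat 266, .ofNat 164⟩, ⟨.negSucc 3723, .negSucc 39, .negSucc 51, .negSucc 174, .negSucc 107, .ofNat 293⟩, ⟨.negSucc 327, .ofNat 32, .ofNat 20, .ofNat 183, .negSucc 55, .negSucc 37⟩, .ofNat 463, .ofNat 166, .ofNat 0, .ofNat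 166, .ofNat 1274, .ofNat 0, .ofNat 207, .negSucc 70, .negSucc 44, .ofNat 0, .ofNat 128, .ofNat 9, .ofNat 0, .ofNat 0, .ofNat 801, .ofNat 2268, .ofNat 23899082491924568921026601201566643912704, .ofNat 0, .ofNat 209111968388477284975747100584181760, .ofNat 0, .ofNat 0, .ofNat 0, .ofNat 0, .ofNat 0, .ofNat 0, .ofNat 0, .ofNat 0, .ofNat 0, .ofNat 0, .ofNat 66431913369845299773316743774463542165504, .ofNat 59330614930868964777054823008765476864, .ofNat 0⟩)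
    (by decide +kernel)
theorem L02969 : Good (Phi V5.P V5.D 1 (-1)) ⟨3, 4, 2, 1, 3, 4, 1, 0, 4, 6⟩ :=
  leafYS_sound T5.ok_pm T5.Ypm.bz_eq (w := 214) (c := ⟨⟨.negSucc 1413, .negSucc 264, .ofNat 15, .negSucc 31, .negSucc 163, .ofNat 138⟩, ⟨.ofNat 230, .negSucc 165, .ofNat 278, .ofNat 4, .negSucc 0, .negSucc 25⟩, ⟨.ofNat 478, .ofNat 190, .ofNat 213, .ofNat 134, .ofNat 1250, .ofNat 355⟩, ⟨.negSucc 3180, .negSucc 16, .negSucc 35, .negSucc 69, .negSucc 375, .ofNat 269⟩, ⟨.negSucc 99, .ofNat 41, .ofNat 0, .negSucc 27, .negSucc 281, .negSucc 73⟩, .ofNat 561, .ofNat 345, .ofNat 0, .ofNat 345, .ofNat 1892, .ofNat 0, .ofNat 279, .negSucc 96, .negSucc 42, .ofNat 0, .ofNat 128, .ofNat 17, .ofNat 0, .ofNat 0, .ofNat 2045, .ofNat 9569, .ofNat 31989519701745060488785742881572212392853504, .ofNat 0, .ofNat 308726691456895021679800387401609641984, .ofNat 0, .ofNat 0, .ofNat 0, .ofNat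 0, .ofNat 0, .ofNat 138005438441682147872908798911153863317782528, .ofNat 16031244231631564717192758588652973021200384, .ofNat 24444957082814081022198759318363333197824, .ofNat 0, .ofNat 1775935848743049589678788949419845340142501888, .ofNat 144087434355564845739101101766680084641480704, .ofNat 34636319081183538417398087025381888491520, .ofNat 0⟩)
    (by decide +kernel)
theorem L02970 : Good (Phi V5.P V5.D 1 (-1)) ⟨3, 4, 2, 1, 4, 10, 1, 0, 4, 6⟩ :=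
  leafYS_sound T5.ok_pm T5.Ypm.bz_eq (w := 227) (c := ⟨⟨.negSucc 1438, .negSucc 259, .ofNat 13, .negSucc 9, .negSucc 180, .ofNat 178⟩, ⟨.ofNat 252, .negSucc 161, .ofNat 277, .ofNat 10, .negSucc 24, .negSucc 41⟩, ⟨.ofNat 322, .ofNat 147, .ofNat 302, .negSucc 10, .ofNat 1564, .ofNat 575⟩, ⟨.negSucc 3225, .negSucc 14, .negSucc 24, .negSucc 9, .negSucc 417, .ofNat 340⟩, ⟨.negSucc 4, .ofNat 38, .ofNat 11, .ofNat 61, .negSucc 413, .negSucc 103⟩, .ofNat 470, .ofNat 198, .ofNat 0, .ofNat 198, .ofNat 1235, .ofNat 0, .ofNat 210, .negSucc 76, .ofNat 9, .ofNat 0, .ofNat 128, .negSucc 1, .ofNat 0, .ofNat 0, .ofNat 1713, .ofNat 5078, .ofNat 58688371561324952520694665468476444033457061888, .ofNat 0, .ofNat 8123884811572105415513687620856104896954368, .ofNat 0, .ofNat 0, .ofNat 0, .ofNat 0, .ofNat 0, .ofNat 411975781364469094554421004236943473459630964736, .ofNat 69626603582875744916604661662845233171376635904,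 .ofNat 52640750407269546098575099059610355910049792, .ofNat 0, .ofNat 5361655620811727049965111229872250658423543169024, .ofNat 678163463842104732635958081920880638926308507648, .ofNat 174750275536965703868133996747375582182899712, .ofNat 0⟩)
    (by decide +kernel)
theorem L02971 : Good (Phi V5.P V5.D 1 (-1)) ⟨3, 4, 2, 1, 4, 11, 1, 0, 4, 6⟩ :=
  leafYS_sound T5.ok_pm T5.Ypm.bz_eq (w := 225) (c := ⟨⟨.negSucc 1457, .negSucc 244, .ofNat 0, .ofNat 4, .negSucc 172, .ofNat 187⟩, ⟨.ofNat 244, .negSucc 149, .ofNat 295, .ofNat 13, .negSucc 17, .negSucc 46⟩, ⟨.ofNat 317, .ofNat 87, .ofNat 226, .ofNat 7, .ofNat 1690, .ofNat 434⟩, ⟨.negSucc 3230, .negSucc 5, .negSucc 33, .ofNat 31, .negSucc 431, .ofNat 375⟩, ⟨.ofNat 88, .ofNat 62, .ofNat 57, .ofNat 124, .negSucc 494, .negSucc 85⟩, .ofNat 334, .ofNat 61, .ofNat 0, .ofNat 61, .ofNat 635, .ofNat 0, .ofNat 222, .negSucc 41, .ofNat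 14, .ofNat 0, .ofNat 128, .negSucc 9, .ofNat 0, .ofNat 0, .ofNat 821, .ofNat 1555, .ofNat 8411255791276518097686840244600862158589263872, .ofNat 1096469818187949402693256206103520507030667264, .ofNat 546453557165096567635432238212297160392704, .ofNat 0, .ofNat 0, .ofNat 0, .ofNat 0, .ofNat 0, .ofNat 0, .ofNat 0, .ofNat 0, .ofNat 0, .ofNat 1374168759868221140254286465997796794664776368128, .ofNat 217252997823742154797067056347984648454740639744, .ofNat 32013980120032101800325012201427274056073216, .ofNat 0⟩)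
    (by decide +kernel)
theorem L02972 : Good (Phi V5.P V5.D 1 (-1)) ⟨3, 4, 2, 1, 2, 2, 2, 0, 4, 7⟩ :=
  out_sound (S := T5.ds_pm) T5.ok_pm (w := 24) (j := 1) (by decide +kernel)
theorem L02973 : Good (Phi V5.P V5.D 1 (-1)) ⟨3, 4, 2, 1, 3, 4, 3, 2, 4, 7⟩ :=
  out_sound (S := T5.ds_pm) T5.ok_pm (w := 27) (j := 1) (by decide +kernel)
theorem L02974 : Good (Phi V5.P V5.D 1 (-1)) ⟨3, 4, 2, 1, 4, 8, 3, 3, 5, 14⟩ :=
  out_sound (S := T5.ds_pm) T5.ok_pm (w := 31) (j := 1) (by decide +kernel)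
theorem L02975 : Good (Phi V5.P V5.D 1 (-1)) ⟨3, 4, 2, 1, 4, 9, 4, 6, 5, 14⟩ :=
  out_sound (S := T5.ds_pm) T5.ok_pm (w := 32) (j := 1) (by decide +kernel)
theorem L02976 : Good (Phi V5.P V5.D 1 (-1)) ⟨3, 4, 2, 1, 5, 18, 4, 7, 6, 28⟩ :=
  leafYS_sound T5.ok_pm T5.Ypm.bz_eq (w := 271) (c := ⟨⟨.negSucc 1442, .negSucc 258, .ofNat 55, .negSucc 0, .negSucc 12, .ofNat 1⟩, ⟨.ofNat 223, .negSucc 161, .ofNat 241, .ofNat 0, .negSucc 20, .ofNat 0⟩, ⟨.ofNat 2019, .ofNat 211, .ofNat 802, .ofNat 1, .ofNat 247, .negSucc 0⟩, ⟨.negSucc 3273, .negSucc 43, .ofNat 10, .negSucc 0, .negSucc 26, .ofNat 2⟩, ⟨.negSucc 360, .negSucc 26, .negSucc 100, .ofNat 0, .negSucc 101, .ofNat 0⟩, .ofNat 173, .ofNat 11, .ofNat 0, .ofNat 11, .ofNat 232, .ofNat 0, .ofNat 128, .negSucc 27, .ofNat 34, .ofNat 0, .ofNat 191, .negSucc 43, .ofNat 0, .ofNat 0, .ofNat 773, .ofNat 990346, .ofNat 0, .ofNat 0, .ofNat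 0, .ofNat 0, .ofNat 722417727268233407444421985998161441930550445862461374464, .ofNat 2531443133773788648124580415891993434860890173579722752, .ofNat 2378872842759438000151032360085715662889223490505801728, .ofNat 0, .ofNat 476186702797475149437183407930068976725089904947776978944, .ofNat 1642547857766324623608732966471250663586953359232335872, .ofNat 4893034950054078000899026823424871519166245360092839936, .ofNat 0, .ofNat 2813987576107104616017851213016950541283580546981073780736, .ofNat 5504240118493729646341769266307622822871070787936190464, .ofNat 17630136629964707261585716561052634282788280010201366528, .ofNat 0⟩)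
    (by decide +kernel)
theorem L02977 : Good (Phi V5.P V5.D 1 (-1)) ⟨3, 4, 2, 1, 5, 19, 6, 28, 7, 56⟩ :=
  out_sound (S := T5.ds_pm) T5.ok_pm (w := 40) (j := 1) (by decide +kernel)
theorem L02978 : Good (Phi V5.P V5.D 1 (-1)) ⟨3, 4, 2, 1, 6, 38, 6, 29, 7, 56⟩ :=
  out_sound (S := T5.ds_pm) T5.ok_pm (w := 42) (j := 1) (by decide +kernel)
theorem L02979 : Good (Phi V5.P V5.D 1 (-1)) ⟨3, 4, 2, 1, 6, 39, 6, 29, 7, 56⟩ :=
  out_sound (S := T5.ds_pm) T5.ok_pm (w := 52) (j := 2) (by decide +kernel)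
theorem L02980 : Good (Phi V5.P V5.D 1 (-1)) ⟨3, 4, 2, 1, 5, 19, 5, 14, 7, 57⟩ :=
  out_sound (S := T5.ds_pm) T5.ok_pm (w := 39) (j := 1) (by decide +kernel)
theorem L02981 : Good (Phi V5.P V5.D 1 (-1)) ⟨3, 4, 2, 1, 7, 76, 6, 30, 7, 56⟩ :=
  out_sound (S := T5.ds_pm) T5.ok_pm (w := 44) (j := 1) (by decide +kernel)
theorem L02982 : Good (Phi V5.P V5.D 1 (-1)) ⟨3, 4, 2, 1, 8, 152, 8, 124, 9, 224⟩ :=
  out_sound (S := T5.ds_pm) T5.ok_pm (w := 52) (j := 1) (by decide +kernel)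
theorem L02983 : Good (Phi V5.P V5.D 1 (-1)) ⟨3, 4, 2, 1, 8, 152, 9, 250, 10, 448⟩ :=
  out_sound (S := T5.ds_pm) T5.ok_pm (w := 55) (j := 1) (by decide +kernel)
theorem L02984 : Good (Phi V5.P V5.D 1 (-1)) ⟨3, 4, 2, 1, 9, 304, 9, 251, 10, 448⟩ :=
  out_sound (S := T5.ds_pm) T5.ok_pm (w := 57) (j := 1) (by decide +kernel)
theorem L02985 : Good (Phi V5.P V5.D 1 (-1)) ⟨3, 4, 2, 1, 9, 305, 9, 251, 10, 448⟩ :=
  out_sound (S := T5.ds_pm) T5.ok_pm (w := 70) (j := 2) (by decide +kernel)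
theorem L02986 : Good (Phi V5.P V5.D 1 (-1)) ⟨3, 4, 2, 1, 8, 152, 8, 125, 10, 449⟩ :=
  out_sound (S := T5.ds_pm) T5.ok_pm (w := 54) (j := 1) (by decide +kernel)
theorem L02987 : Good (Phi V5.P V5.D 1 (-1)) ⟨3, 4, 2, 1, 8, 152, 7, 62, 9, 225⟩ :=
  out_sound (S := T5.ds_pm) T5.ok_pm (w := 51) (j := 1) (by decide +kernel)
theorem L02988 : Good (Phi V5.P V5.D 1 (-1)) ⟨3, 4, 2, 1, 10, 608, 9, 252, 10, 448⟩ :=
  out_sound (S := T5.ds_pm) T5.ok_pm (w := 59) (j := 1) (by decide +kernel)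
theorem L02989 : Good (Phi V5.P V5.D 1 (-1)) ⟨3, 4, 2, 1, 11, 1216, 10, 506, 11, 896⟩ :=
  out_sound (S := T5.ds_pm) T5.ok_pm (w := 64) (j := 1) (by decide +kernel)
theorem L02990 : Good (Phi V5.P V5.D 1 (-1)) ⟨3, 4, 2, 1, 11, 1216, 10, 507, 11, 896⟩ :=
  out_sound (S := T5.ds_pm) T5.ok_pm (w := 78) (j := 2) (by decide +kernel)
theorem L02991 : Good (Phi V5.P V5.D 1 (-1)) ⟨3, 4, 2, 1, 11, 1217, 9, 253, 11, 896⟩ :=
  out_sound (S := T5.ds_pm) T5.ok_pm (w := 76) (j := 2) (by decide +kernel)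
theorem L02992 : Good (Phi V5.P V5.D 1 (-1)) ⟨3, 4, 2, 1, 10, 608, 9, 253, 11, 897⟩ :=
  out_sound (S := T5.ds_pm) T5.ok_pm (w := 74) (j := 2) (by decide +kernel)
theorem L02993 : Good (Phi V5.P V5.D 1 (-1)) ⟨3, 4, 2, 1, 10, 609, 8, 126, 10, 448⟩ :=
  out_sound (S := T5.ds_pm) T5.ok_pm (w := 70) (j := 2) (by decide +kernel)
theorem L02994 : Good (Phi V5.P V5.D 1 (-1)) ⟨3, 4, 2, 1, 9, 304, 8, 126, 10, 449⟩ :=
  out_sound (S := T5.ds_pm) T5.ok_pm (w := 56) (j := 1) (by decide +kernel)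
theorem L02995 : Good (Phi V5.P V5.D 1 (-1)) ⟨3, 4, 2, 1, 9, 304, 8, 127, 9, 224⟩ :=
  out_sound (S := T5.ds_pm) T5.ok_pm (w := 66) (j := 2) (by decide +kernel)
theorem L02996 : Good (Phi V5.P V5.D 1 (-1)) ⟨3, 4, 2, 1, 9, 305, 7, 63, 9, 224⟩ :=
  out_sound (S := T5.ds_pm) T5.ok_pm (w := 64) (j := 2) (by decide +kernel)
theorem L02997 : Good (Phi V5.P V5.D 1 (-1)) ⟨3, 4, 2, 1, 8, 152, 7, 63, 9, 225⟩ :=
  out_sound (S := T5.ds_pm) T5.ok_pm (w := 62) (j := 2) (by decide +kernel)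
theorem L02998 : Good (Phi V5.P V5.D 1 (-1)) ⟨3, 4, 2, 1, 8, 153, 6, 31, 8, 112⟩ :=
  out_sound (S := T5.ds_pm) T5.ok_pm (w := 58) (j := 2) (by decide +kernel)
theorem L02999 : Good (Phi V5.P V5.D 1 (-1)) ⟨3, 4, 2, 1, 7, 76, 6, 31, 8, 113⟩ :=
  out_sound (S := T5.ds_pm) T5.ok_pm (w := 56) (j := 2) (by decide +kernel)
theorem L03000 : Good (Phi V5.P V5.D 1 (-1)) ⟨3, 4, 2, 1, 8, 154, 6, 30, 8, 112⟩ :=
  out_sound (S := T5.ds_pm) T5.ok_pm (w := 48) (j := 1) (by decide +kernel)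
theorem L03001 : Good (Phi V5.P V5.D 1 (-1)) ⟨3, 4, 2, 1, 8, 155, 6, 30, 8, 112⟩ :=
  out_sound (S := T5.ds_pm) T5.ok_pm (w := 58) (j := 2) (by decide +kernel)
theorem L03002 : Good (Phi V5.P V5.D 1 (-1)) ⟨3, 4, 2, 1, 7, 77, 6, 30, 8, 113⟩ :=
  out_sound (S := T5.ds_pm) T5.ok_pm (w := 46) (j := 1) (by decide +kernel)
theorem L03003 : Good (Phi V5.P V5.D 1 (-1)) ⟨3, 4, 2, 1, 7, 77, 6, 31, 7, 56⟩ :=
  out_sound (S := T5.ds_pm) T5.ok_pm (w := 54) (j := 2) (by decide +kernel)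
theorem L03004 : Good (Phi V5.P V5.D 1 (-1)) ⟨3, 4, 2, 1, 6, 38, 5, 15, 7, 57⟩ :=
  out_sound (S := T5.ds_pm) T5.ok_pm (w := 50) (j := 2) (by decide +kernel)
theorem L03005 : Good (Phi V5.P V5.D 1 (-1)) ⟨3, 4, 2, 1, 6, 39, 5, 15, 6, 28⟩ :=
  out_sound (S := T5.ds_pm) T5.ok_pm (w := 48) (j := 2) (by decide +kernel)
theorem L03006 : Good (Phi V5.P V5.D 1 (-1)) ⟨3, 4, 2, 1, 4, 9, 4, 7, 6, 29⟩ :=
  out_sound (S := T5.ds_pm) T5.ok_pm (w := 34) (j := 1) (by decide +kernel)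
theorem L03007 : Good (Phi V5.P V5.D 1 (-1)) ⟨3, 4, 2, 1, 3, 4, 3, 3, 5, 15⟩ :=
  out_sound (S := T5.ds_pm) T5.ok_pm (w := 29) (j := 1) (by decide +kernel)
theorem L03008 : Good (Phi V5.P V5.D 1 (-1)) ⟨3, 4, 2, 1, 4, 10, 3, 2, 5, 14⟩ :=
  out_sound (S := T5.ds_pm) T5.ok_pm (w := 31) (j := 1) (by decide +kernel)
theorem L03009 : Good (Phi V5.P V5.D 1 (-1)) ⟨3, 4, 2, 1, 5, 20, 5, 12, 6, 28⟩ :=
  out_sound (S := T5.ds_pm) T5.ok_pm (w := 37) (j := 1) (by decide +kernel)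
theorem L03010 : Good (Phi V5.P V5.D 1 (-1)) ⟨3, 4, 2, 1, 5, 20, 5, 13, 6, 28⟩ :=
  out_sound (S := T5.ds_pm) T5.ok_pm (w := 46) (j := 2) (by decide +kernel)
theorem L03011 : Good (Phi V5.P V5.D 1 (-1)) ⟨3, 4, 2, 1, 5, 20, 4, 7, 6, 28⟩ :=
  out_sound (S := T5.ds_pm) T5.ok_pm (w := 44) (j := 2) (by decide +kernel)
theorem L03012 : Good (Phi V5.P V5.D 1 (-1)) ⟨3, 4, 2, 1, 5, 20, 3, 3, 6, 29⟩ :=
  out_sound (S := T5.ds_pm) T5.ok_pm (w := 42) (j := 2) (by decide +kernel)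
theorem L03013 : Good (Phi V5.P V5.D 1 (-1)) ⟨3, 4, 2, 1, 5, 21, 3, 3, 5, 14⟩ :=
  out_sound (S := T5.ds_pm) T5.ok_pm (w := 40) (j := 2) (by decide +kernel)
theorem L03014 : Good (Phi V5.P V5.D 1 (-1)) ⟨3, 4, 2, 1, 4, 10, 2, 1, 5, 15⟩ :=
  out_sound (S := T5.ds_pm) T5.ok_pm (w := 36) (j := 2) (by decide +kernel)
theorem L03015 : Good (Phi V5.P V5.D 1 (-1)) ⟨3, 4, 2, 1, 4, 11, 2, 1, 4, 7⟩ :=
  out_sound (S := T5.ds_pm) T5.ok_pm (w := 34) (j := 2) (by decide +kernel)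
theorem L03016 : Good (Phi V5.P V5.D 1 (-1)) ⟨3, 5, 2, 1, 2, 2, 1, 0, 2, 1⟩ :=
  out_sound (S := T5.ds_pm) T5.ok_pm (w := 43) (j := 3) (by decide +kernel)
theorem L03017 : Good (Phi V5.P V5.D 1 (-1)) ⟨2, 3, 2, 1, 2, 2, 1, 0, 2, 1⟩ :=
  out_sound (S := T5.ds_pm) T5.ok_pm (w := 37) (j := 3) (by decide +kernel)
theorem L03018 : Good (Phi V5.P V5.D 1 (-1)) ⟨3, 4, 2, 1, 3, 6, 2, 0, 4, 4⟩ :=
  leafYS_sound T5.ok_pm T5.Ypm.bz_eq (w := 216) (c := ⟨⟨.negSucc 1727, .negSucc 216, .negSucc 76, .ofNat 53, .negSucc 191, .ofNat 191⟩, ⟨.ofNat 328, .negSucc 121, .ofNat 375, .ofNat 80, .negSucc 12, .negSucc 56⟩, ⟨.ofNat 151, .ofNat 43, .ofNat 21, .ofNat 34, .ofNat 740, .ofNat 164⟩, ⟨.negSucc 3770, .ofNat 43, .ofNat 8, .ofNat 245, .negSucc 426, .ofNat 364⟩, ⟨.ofNat 590, .ofNat 230, .ofNat 287, .ofNat 880, .negSucc 375, .negSucc 286⟩, .ofNat 457, .ofNat 152, .ofNat 0, .ofNat 152, .ofNat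 1264, .ofNat 0, .ofNat 226, .negSucc 69, .negSucc 17, .ofNat 0, .ofNat 128, .ofNat 5, .ofNat 0, .ofNat 0, .ofNat 231, .ofNat 3548, .ofNat 0, .ofNat 0, .ofNat 1483379820354070275281573681432918753280, .ofNat 0, .ofNat 0, .ofNat 0, .ofNat 0, .ofNat 0, .ofNat 0, .ofNat 0, .ofNat 113706674941153893897037555677118783815680, .ofNat 0, .ofNat 57411774127150235881277649917246320607756288, .ofNat 0, .ofNat 7522155620736478005172596587448238080000, .ofNat 0⟩)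
    (by decide +kernel)
theorem L03019 : Good (Phi V5.P V5.D 1 (-1)) ⟨3, 4, 2, 1, 3, 7, 2, 0, 4, 4⟩ :=
  leafYS_sound T5.ok_pm T5.Ypm.bz_eq (w := 216) (c := ⟨⟨.negSucc 1672, .negSucc 135, .negSucc 104, .ofNat 130, .negSucc 239, .ofNat 199⟩, ⟨.ofNat 417, .negSucc 52, .ofNat 416, .ofNat 108, .negSucc 61, .negSucc 84⟩, ⟨.ofNat 158, .ofNat 60, .ofNat 23, .ofNat 146, .ofNat 758, .ofNat 199⟩, ⟨.negSucc 3393, .ofNat 70, .ofNat 230, .ofNat 440, .negSucc 584, .ofNat 260⟩, ⟨.ofNat 1877, .ofNat 382, .ofNat 691, .ofNat 1184, .negSucc 783, .negSucc 668⟩, .ofNat 562, .ofNat 327, .ofNat 0, .ofNat 327, .ofNat 2174, .ofNat 0, .ofNat 201, .negSucc 78, .negSucc 24, .ofNat 0, .ofNat 128, .negSucc 2, .ofNat 0, .ofNat 0, .ofNat 430, .ofNat 1979, .ofNat 0, .ofNat 0, .ofNat 1871853605358667609739422439527180926976, .ofNat 0, .ofNat 0, .ofNat 0, .ofNat 0, .ofNat 0, .ofNat 0, .ofNat 0, .ofNat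 165155267187437481422213498713367944101888, .ofNat 0, .ofNat 0, .ofNat 5181929522090757433094476799262452076249088, .ofNat 49879684098239094462516797737298273763328, .ofNat 0⟩)
    (by decide +kernel)
theorem L03020 : Good (Phi V5.P V5.D 1 (-1)) ⟨3, 4, 2, 1, 3, 6, 2, 1, 5, 8⟩ :=
  leafYS_sound T5.ok_pm T5.Ypm.bz_eq (w := 220) (c := ⟨⟨.negSucc 1884, .negSucc 269, .negSucc 73, .ofNat 18, .negSucc 219, .ofNat 111⟩, ⟨.ofNat 323, .negSucc 134, .ofNat 398, .ofNat 77, .negSucc 15, .negSucc 38⟩, ⟨.ofNat 848, .ofNat 137, .ofNat 51, .ofNat 27, .ofNat 699, .ofNat 84⟩, ⟨.negSucc 4140, .negSucc 36, .negSucc 20, .ofNat 151, .negSucc 490, .ofNat 220⟩, ⟨.ofNat 258, .ofNat 235, .ofNat 301, .ofNat 787, .negSucc 429, .negSucc 164⟩, .ofNat 332, .ofNat 57, .ofNat 0, .ofNat 57, .ofNat 634, .ofNat 0, .ofNat 386, .negSucc 48, .negSucc 30, .ofNat 0, .ofNat 128, .ofNat 6, .ofNat 0, .ofNat 0,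 .ofNat 268, .ofNat 862, .ofNat 0, .ofNat 0, .ofNat 23799677258917388434644519066597272322048, .ofNat 0, .ofNat 0, .ofNat 0, .ofNat 0, .ofNat 0, .ofNat 0, .ofNat 0, .ofNat 0, .ofNat 0, .ofNat 0, .ofNat 0, .ofNat 548228758790923949059165050265681608572928, .ofNat 0⟩)
    (by decide +kernel)
theorem L03021 : Good (Phi V5.P V5.D 1 (-1)) ⟨3, 4, 2, 1, 3, 7, 2, 1, 5, 8⟩ :=
  leafYS_sound T5.ok_pm T5.Ypm.bz_eq (w := 219) (c := ⟨⟨.negSucc 1873, .negSucc 217, .negSucc 125, .ofNat 124, .negSucc 283, .ofNat 134⟩, ⟨.ofNat 381, .negSucc 90, .ofNat 417, .ofNat 88, .negSucc 41, .negSucc 34⟩, ⟨.ofNat 844, .ofNat 144, .ofNat 115, .ofNat 171, .ofNat 701, .ofNat 89⟩, ⟨.negSucc 3975, .ofNat 33, .ofNat 54, .ofNat 355, .negSucc 666, .ofNat 249⟩, ⟨.ofNat 1123, .ofNat 380, .ofNat 349, .ofNat 914, .negSucc 758, .negSucc 169⟩, .ofNat 461, .ofNat 160, .ofNat 0, .ofNat 160, .ofNat 1280, .ofNat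 0, .ofNat 219, .negSucc 62, .negSucc 17, .ofNat 0, .ofNat 128, .negSucc 7, .ofNat 0, .ofNat 0, .ofNat 367, .ofNat 363, .ofNat 0, .ofNat 0, .ofNat 24116106663254285274604086560490029842432, .ofNat 0, .ofNat 0, .ofNat 0, .ofNat 0, .ofNat 0, .ofNat 0, .ofNat 0, .ofNat 0, .ofNat 0, .ofNat 0, .ofNat 105801089599156533398194396831094116251074560, .ofNat 332559198425165322585959476585651165462528, .ofNat 0⟩)
    (by decide +kernel)
theorem L03022 : Good (Phi V5.P V5.D 1 (-1)) ⟨3, 4, 2, 1, 3, 6, 2, 1, 5, 9⟩ :=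
  leafYS_sound T5.ok_pm T5.Ypm.bz_eq (w := 222) (c := ⟨⟨.negSucc 1809, .negSucc 265, .negSucc 63, .ofNat 34, .negSucc 177, .ofNat 117⟩, ⟨.ofNat 293, .negSucc 143, .ofNat 376, .ofNat 66, .negSucc 6, .negSucc 25⟩, ⟨.ofNat 923, .ofNat 116, .ofNat 67, .ofNat 41, .ofNat 715, .ofNat 90⟩, ⟨.negSucc 3976, .ofNat 6, .ofNat 1, .ofNat 169, .negSucc 412, .ofNat 192⟩, ⟨.ofNat 151, .ofNat 199, .ofNat 257, .ofNat 669, .negSucc 339, .negSucc 145⟩, .ofNat 462, .ofNat 162, .ofNat 0, .ofNat 162, .ofNat 1280, .ofNat 0, .ofNat 301, .negSucc 70, .negSucc 31, .ofNat 0, .ofNat 128, .ofNat 3, .ofNat 0, .ofNat 0, .ofNat 667, .ofNat 3660, .ofNat 0, .ofNat 0, .ofNat 0, .ofNat 0, .ofNat 0, .ofNat 0, .ofNat 0, .ofNat 0, .ofNat 0, .ofNat 0, .ofNat 3096971929599594801227662329668821558755328, .ofNat 0, .ofNat 0, .ofNat 207016893209530801480185643033365446563725312, .ofNat 6801115011920730553129121663537049623330816,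 .ofNat 0⟩)
    (by decide +kernel)
theorem L03023 : Good (Phi V5.P V5.D 1 (-1)) ⟨3, 4, 2, 1, 3, 7, 2, 1, 5, 9⟩ :=
  leafYS_sound T5.ok_pm T5.Ypm.bz_eq (w := 219) (c := ⟨⟨.negSucc 1779, .negSucc 208, .negSucc 84, .ofNat 126, .negSucc 210, .ofNat 122⟩, ⟨.ofNat 348, .negSucc 99, .ofNat 392, .ofNat 89, .negSucc 25, .negSucc 38⟩, ⟨.ofNat 928, .ofNat 147, .ofNat 136, .ofNat 192, .ofNat 736, .ofNat 99⟩, ⟨.negSucc 3792, .ofNat 27, .ofNat 101, .ofNat 404, .negSucc 539, .ofNat 207⟩, ⟨.ofNat 884, .ofNat 288, .ofNat 406, .ofNat 1008, .negSucc 615, .negSucc 203⟩, .ofNat 332, .ofNat 58, .ofNat 0, .ofNat 58, .ofNat 632, .ofNat 0, .ofNat 234, .negSucc 42, .negSucc 4, .ofNat 0, .ofNat 128, .negSucc 20, .ofNat 0, .ofNat 0, .ofNat 475, .ofNat 576, .ofNat 0, .ofNat 0, .ofNat 64101306211923830329572059217409922301952, .ofNat 0, .ofNat 0, .ofNat 0, .ofNat 0, .ofNat 0, .ofNat 0, .ofNat 136052989462575386680131311219423434581737472,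 .ofNat 0, .ofNat 0, .ofNat 0, .ofNat 331904556936456591985749212990615785540943872, .ofNat 546925385591421890916161006921512193622016, .ofNat 0⟩)
    (by decide +kernel)
theorem L03024 : Good (Phi V5.P V5.D 1 (-1)) ⟨4, 8, 2, 1, 3, 6, 2, 0, 5, 10⟩ :=
  leafYS_sound T5.ok_pm T5.Ypm.bz_eq (w := 226) (c := ⟨⟨.negSucc 1599, .negSucc 101, .negSucc 53, .ofNat 46, .negSucc 126, .ofNat 100⟩, ⟨.ofNat 268, .negSucc 56, .ofNat 343, .ofNat 57, .ofNat 2, .negSucc 24⟩, ⟨.ofNat 323, .ofNat 31, .ofNat 63, .ofNat 35, .ofNat 711, .ofNat 90⟩, ⟨.negSucc 3455, .ofNat 23, .ofNat 0, .ofNat 229, .negSucc 355, .ofNat 178⟩, ⟨.ofNat 292, .ofNat 100, .ofNat 264, .ofNat 700, .negSucc 286, .negSucc 105⟩, .ofNat 495, .ofNat 242, .ofNat 0, .ofNat 242, .ofNat 1317, .ofNat 0, .ofNat 164, .negSucc 84, .negSucc 6, .ofNat 0, .ofNat 128, .ofNat 2, .ofNat 0, .ofNat 0, .ofNat 300, .ofNat 6105, .ofNat 0, .ofNat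 0, .ofNat 0, .ofNat 0, .ofNat 0, .ofNat 0, .ofNat 0, .ofNat 0, .ofNat 0, .ofNat 0, .ofNat 0, .ofNat 0, .ofNat 0, .ofNat 113634070015592329334119008641895369642344448, .ofNat 241533957023599926136503523563895886184448, .ofNat 0⟩)
    (by decide +kernel)
theorem L03025 : Good (Phi V5.P V5.D 1 (-1)) ⟨4, 8, 2, 1, 3, 7, 2, 0, 5, 10⟩ :=
  leafYS_sound T5.ok_pm T5.Ypm.bz_eq (w := 226) (c := ⟨⟨.negSucc 1534, .negSucc 73, .negSucc 79, .ofNat 117, .negSucc 148, .ofNat 100⟩, ⟨.ofNat 321, .negSucc 31, .ofNat 368, .ofNat 79, .negSucc 12, .negSucc 36⟩, ⟨.ofNat 336, .ofNat 25, .ofNat 65, .ofNat 192, .ofNat 752, .ofNat 107⟩, ⟨.negSucc 3199, .ofNat 53, .ofNat 144, .ofNat 446, .negSucc 432, .ofNat 152⟩, ⟨.ofNat 1101, .ofNat 195, .ofNat 522, .ofNat 1040, .negSucc 490, .negSucc 209⟩, .ofNat 626, .ofNat 483, .ofNat 0, .ofNat 483, .ofNat 2584, .ofNat 0, .ofNat 203, .negSucc 93, .negSucc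 3, .ofNat 0, .ofNat 128, .negSucc 3, .ofNat 0, .ofNat 0, .ofNat 533, .ofNat 5331, .ofNat 0, .ofNat 0, .ofNat 0, .ofNat 0, .ofNat 0, .ofNat 0, .ofNat 0, .ofNat 0, .ofNat 108607382321868779074559321026415096831588433920, .ofNat 13176860341342430078090514071149667338671882240, .ofNat 1836387935475312453143161267214761764847616, .ofNat 0, .ofNat 0, .ofNat 8084364825686226565211788220486322903521951744, .ofNat 168956113183107615644931766875214139359232, .ofNat 0⟩)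
    (by decide +kernel)
theorem L03026 : Good (Phi V5.P V5.D 1 (-1)) ⟨4, 9, 2, 1, 3, 6, 2, 0, 5, 10⟩ :=
  leafYS_sound T5.ok_pm T5.Ypm.bz_eq (w := 226) (c := ⟨⟨.negSucc 1670, .negSucc 104, .negSucc 65, .ofNat 75, .negSucc 172, .ofNat 101⟩, ⟨.ofNat 217, .negSucc 65, .ofNat 349, .ofNat 70, .negSucc 13, .negSucc 19⟩, ⟨.ofNat 307, .ofNat 14, .ofNat 57, .ofNat 44, .ofNat 758, .ofNat 85⟩, ⟨.negSucc 3425, .ofNat 28, .negSucc 23, .ofNat 220, .negSucc 367, .ofNat 192⟩, ⟨.ofNat 373, .ofNat 103, .ofNat 248, .ofNat 700, .negSucc 279, .negSucc 82⟩, .ofNat 505, .ofNat 188, .ofNat 0, .ofNat 188, .ofNat 1857, .ofNat 0, .ofNat 279, .negSucc 61, .negSucc 7, .ofNat 0, .ofNat 128, .ofNat 1, .ofNat 0, .ofNat 0, .ofNat 337, .ofNat 8264, .ofNat 0, .ofNat 0, .ofNat 0, .ofNat 0, .ofNat 0, .ofNat 0, .ofNat 0, .ofNat 0, .ofNat 0, .ofNat 0, .ofNat 2483508817412006534292411771786364691939328, .ofNat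 0, .ofNat 10153757119925698190371125218639096685925498880, .ofNat 0, .ofNat 454579985299223893906849772147092421083136, .ofNat 0⟩)
    (by decide +kernel)
theorem L03027 : Good (Phi V5.P V5.D 1 (-1)) ⟨4, 9, 2, 1, 3, 7, 2, 0, 5, 10⟩ :=
  leafYS_sound T5.ok_pm T5.Ypm.bz_eq (w := 223) (c := ⟨⟨.negSucc 1578, .negSucc 75, .negSucc 81, .ofNat 145, .negSucc 198, .ofNat 97⟩, ⟨.ofNat 293, .negSucc 33, .ofNat 379, .ofNat 108, .negSucc 33, .negSucc 30⟩, ⟨.ofNat 328, .ofNat 20, .ofNat 70, .ofNat 216, .ofNat 789, .ofNat 99⟩, ⟨.negSucc 3132, .ofNat 34, .ofNat 107, .ofNat 386, .negSucc 443, .ofNat 163⟩, ⟨.ofNat 1273, .ofNat 169, .ofNat 511, .ofNat 1079, .negSucc 483, .negSucc 207⟩, .ofNat 436, .ofNat 101, .ofNat 0, .ofNat 101, .ofNat 1215, .ofNat 0, .ofNat 190, .negSucc 47, .negSucc 2, .ofNat 0, .ofNat 128, .negSucc 1, .ofNat 0, .ofNat 0, .ofNat 236, .ofNat 672, .ofNat 0, .ofNat 0,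 .ofNat 0, .ofNat 0, .ofNat 0, .ofNat 0, .ofNat 0, .ofNat 0, .ofNat 0, .ofNat 0, .ofNat 0, .ofNat 0, .ofNat 0, .ofNat 1454089660717650875161907199496501128845066240, .ofNat 40925061824094741010990032278516469334016, .ofNat 0⟩)
    (by decide +kernel)
theorem L03028 : Good (Phi V5.P V5.D 1 (-1)) ⟨3, 4, 2, 1, 3, 6, 2, 0, 5, 11⟩ :=
  leafYS_sound T5.ok_pm T5.Ypm.bz_eq (w := 220) (c := ⟨⟨.negSucc 1507, .negSucc 203, .negSucc 34, .ofNat 50, .negSucc 128, .ofNat 92⟩, ⟨.ofNat 252, .negSucc 129, .ofNat 321, .ofNat 55, .ofNat 2, .negSucc 19⟩, ⟨.ofNat 338, .ofNat 35, .ofNat 99, .ofNat 41, .ofNat 788, .ofNat 100⟩, ⟨.negSucc 3314, .ofNat 52, .negSucc 9, .ofNat 191, .negSucc 296, .ofNat 169⟩, ⟨.ofNat 199, .ofNat 168, .ofNat 203, .ofNat 583, .negSucc 236, .negSucc 83⟩, .ofNat 334, .ofNat 59, .ofNat 0, .ofNat 59, .ofNat 636, .ofNat 0, .ofNat 206, .negSucc 42, .ofNat 0, .ofNat 0, .ofNat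 128, .negSucc 0, .ofNat 0, .ofNat 0, .ofNat 302, .ofNat 1898, .ofNat 0, .ofNat 0, .ofNat 0, .ofNat 0, .ofNat 0, .ofNat 0, .ofNat 0, .ofNat 0, .ofNat 0, .ofNat 0, .ofNat 0, .ofNat 0, .ofNat 2114374350179498764171332063242627167905906688, .ofNat 146504337139563041152529437145084891727134720, .ofNat 159466407318037951717379565332348322971648, .ofNat 0⟩)
    (by decide +kernel)
theorem L03029 : Good (Phi V5.P V5.D 1 (-1)) ⟨3, 4, 2, 1, 3, 7, 2, 0, 5, 11⟩ :=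
  out_sound (S := T5.ds_pm) T5.ok_pm (w := 34) (j := 2) (by decide +kernel)
theorem L03030 : Good (Phi V5.P V5.D 1 (-1)) ⟨3, 4, 2, 1, 3, 6, 2, 1, 5, 10⟩ :=
  leafYS_sound T5.ok_pm T5.Ypm.bz_eq (w := 221) (c := ⟨⟨.negSucc 1719, .negSucc 234, .negSucc 56, .ofNat 50, .negSucc 147, .ofNat 115⟩, ⟨.ofNat 277, .negSucc 137, .ofNat 342, .ofNat 58, .negSucc 9, .negSucc 23⟩, ⟨.ofNat 983, .ofNat 118, .ofNat 112, .ofNat 50, .ofNat 739, .ofNat 114⟩, ⟨.negSucc 3787, .ofNat 12, .negSucc 22, .ofNat 189, .negSucc 357, .ofNat 210⟩, ⟨.ofNat 54, .ofNat 169, .ofNat 210, .ofNat 638, .negSucc 338, .negSucc 110⟩, .ofNat 331, .ofNat 55, .ofNat 0, .ofNat 55, .ofNat 634, .ofNat 0, .ofNat 239, .negSucc 42, .negSucc 3, .ofNat 0, .ofNat 128, .negSucc 9, .ofNat 0, .ofNat 0, .ofNat 654, .ofNat 1707, .ofNat 0, .ofNat 0, .ofNat 56539618515356743194962374202833655300096, .ofNat 0, .ofNat 0, .ofNat 0,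 .ofNat 0, .ofNat 0, .ofNat 0, .ofNat 188167218062896428384439761415749472423510016, .ofNat 0, .ofNat 0, .ofNat 0, .ofNat 514792682893611947648661011708700087296196608, .ofNat 2002926663155311977424911661890033667801088, .ofNat 0⟩)
    (by decide +kernel)
theorem L03031 : Good (Phi V5.P V5.D 1 (-1)) ⟨3, 4, 2, 1, 3, 7, 2, 1, 5, 10⟩ :=
  leafYS_sound T5.ok_pm T5.Ypm.bz_eq (w := 220) (c := ⟨⟨.negSucc 1678, .negSucc 197, .negSucc 65, .ofNat 137, .negSucc 168, .ofNat 117⟩, ⟨.ofNat 317, .negSucc 102, .ofNat 365, .ofNat 89, .negSucc 16, .negSucc 28⟩, ⟨.ofNat 1030, .ofNat 126, .ofNat 144, .ofNat 199, .ofNat 754, .ofNat 116⟩, ⟨.negSucc 3598, .ofNat 44, .ofNat 72, .ofNat 349, .negSucc 428, .ofNat 206⟩, ⟨.ofNat 697, .ofNat 255, .ofNat 341, .ofNat 906, .negSucc 472, .negSucc 162⟩, .ofNat 332, .ofNat 56, .ofNat 0, .ofNat 56, .ofNat 634, .ofNat 0, .ofNat 151, .negSucc 41, .ofNat 1,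 .ofNat 0, .ofNat 128, .negSucc 9, .ofNat 0, .ofNat 0, .ofNat 310, .ofNat 1169, .ofNat 0, .ofNat 10824720674263365783988737241204821919268864, .ofNat 0, .ofNat 0, .ofNat 0, .ofNat 0, .ofNat 0, .ofNat 0, .ofNat 0, .ofNat 212013712044658198302992020506559267855138816, .ofNat 0, .ofNat 0, .ofNat 0, .ofNat 396649293332319242725481261953096076815761408, .ofNat 0, .ofNat 0⟩)
    (by decide +kernel)
theorem L03032 : Good (Phi V5.P V5.D 1 (-1)) ⟨3, 4, 2, 1, 3, 6, 2, 1, 5, 11⟩ :=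
  leafYS_sound T5.ok_pm T5.Ypm.bz_eq (w := 220) (c := ⟨⟨.negSucc 1615, .negSucc 234, .negSucc 34, .ofNat 27, .negSucc 132, .ofNat 89⟩, ⟨.ofNat 270, .negSucc 143, .ofNat 317, .ofNat 33, .negSucc 21, .negSucc 28⟩, ⟨.ofNat 1048, .ofNat 103, .ofNat 165, .ofNat 58, .ofNat 826, .ofNat 144⟩, ⟨.negSucc 3597, .ofNat 28, .negSucc 26, .ofNat 130, .negSucc 287, .ofNat 183⟩, ⟨.ofNat 0, .ofNat 138, .ofNat 147, .ofNat 462, .negSucc 285, .negSucc 76⟩, .ofNat 459, .ofNat 157, .ofNat 0, .ofNat 157, .ofNat 1265, .ofNat 0, .ofNat 239, .negSucc 64, .ofNat 4, .ofNat 0, .ofNat 128, .negSucc 3, .ofNat 0, .ofNat 0, .ofNat 474, .ofNat 762, .ofNat 0, .ofNat 4550262349424374507514357414263656504360960, .ofNat 6119524803178483379129645781839012429824, .ofNat 0, .ofNat 0, .ofNat 0, .ofNat 0, .ofNat 0, .ofNat 0, .ofNat 0, .ofNat 0, .ofNat 0, .ofNat 0, .ofNat 489013850254376804341621546517989195807457280,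 .ofNat 0, .ofNat 0⟩)
    (by decide +kernel)
theorem L03033 : Good (Phi V5.P V5.D 1 (-1)) ⟨3, 4, 2, 1, 3, 7, 2, 1, 5, 11⟩ :=
  out_sound (S := T5.ds_pm) T5.ok_pm (w := 34) (j := 2) (by decide +kernel)
theorem L03034 : Good (Phi V5.P V5.D 1 (-1)) ⟨3, 5, 2, 1, 2, 3, 1, 0, 3, 2⟩ :=
  out_sound (S := T5.ds_pm) T5.ok_pm (w := 43) (j := 3) (by decide +kernel)
theorem L03035 : Good (Phi V5.P V5.D 1 (-1)) ⟨2, 2, 2, 1, 2, 3, 1, 0, 3, 3⟩ :=
  leafYS_sound T5.ok_pm T5.Ypm.bz_eq (w := 188) (c := ⟨⟨.negSucc 1445, .negSucc 447, .negSucc 20, .ofNat 59, .negSucc 186, .ofNat 1⟩, ⟨.ofNat 252, .negSucc 278, .ofNat 304, .ofNat 67, .negSucc 20, .ofNat 0⟩, ⟨.ofNat 388, .ofNat 104, .ofNat 187, .ofNat 2, .ofNat 1652, .negSucc 0⟩, ⟨.negSucc 3190, .ofNat 48, .negSucc 22, .ofNat 263, .negSucc 457, .ofNat 2⟩, ⟨.ofNat 188, .ofNat 230, .ofNat 124, .ofNat 758, .negSucc 493, .ofNat 0⟩, .ofNat 335,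 .ofNat 63, .ofNat 0, .ofNat 63, .ofNat 637, .ofNat 0, .ofNat 275, .negSucc 42, .ofNat 10, .ofNat 0, .ofNat 128, .negSucc 5, .ofNat 0, .ofNat 0, .ofNat 607, .ofNat 1525, .ofNat 3791747980368595039940800829821288448, .ofNat 1259456961213792865274901017275662336, .ofNat 710405193262622544099713646329856, .ofNat 0, .ofNat 130845473619189265955536582925942259712, .ofNat 47601670475645721320241320743971848192, .ofNat 95797782356353360909804111157788672, .ofNat 0, .ofNat 202524643760096092722726568081290690560, .ofNat 45048883429466454590269138184821538816, .ofNat 44187529421779500491437196164726784, .ofNat 0, .ofNat 358746638766261582174463717075966754816, .ofNat 91626214555870378169475497728399114240, .ofNat 19580666463039754555456813120094208, .ofNat 0⟩)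
    (by decide +kernel)
theorem L03036 : Good (Phi V5.P V5.D 1 (-1)) ⟨2, 3, 2, 1, 2, 3, 1, 0, 2, 1⟩ :=
  out_sound (S := T5.ds_pm) T5.ok_pm (w := 37) (j := 3) (by decide +kernel)
theorem L03037 : Good (Phi V5.P V5.D 1 (-1)) ⟨2, 2, 2, 1, 3, 4, 1, 0, 3, 4⟩ :=
  out_sound (S := T5.ds_pm) T5.ok_pm (w := 23) (j := 1) (by decide +kernel)
theorem L03038 : Good (Phi V5.P V5.D 1 (-1)) ⟨2, 2, 2, 1, 3, 5, 1, 0, 3, 4⟩ :=
  out_sound (S := T5.ds_pm) T5.ok_pm (w := 28) (j := 2) (by decide +kernel)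
theorem L03039 : Good (Phi V5.P V5.D 1 (-1)) ⟨2, 2, 2, 1, 2, 2, 1, 0, 3, 5⟩ :=
  out_sound (S := T5.ds_pm) T5.ok_pm (w := 21) (j := 1) (by decide +kernel)
theorem L03040 : Good (Phi V5.P V5.D 1 (-1)) ⟨2, 3, 2, 1, 2, 2, 1, 0, 2, 2⟩ :=
  out_sound (S := T5.ds_pm) T5.ok_pm (w := 37) (j := 3) (by decide +kernel)
theorem L03041 : Good (Phi V5.P V5.D 1 (-1)) ⟨1, 1, 2, 1, 2, 2, 1, 0, 2, 3⟩ :=
  out_sound (S := T5.ds_pm) T5.ok_pm (w := 19) (j := 1) (by decide +kernel)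
theorem L03042 : Good (Phi V5.P V5.D 1 (-1)) ⟨1, 1, 2, 1, 2, 3, 1, 0, 1, 1⟩ :=
  out_sound (S := T5.ds_pm) T5.ok_pm (w := 22) (j := 2) (by decide +kernel)
theorem L03043 : Good (Phi V5.P V5.D 1 (-1)) ⟨3, 4, 2, 0, 2, 2, 2, 2, 3, 0⟩ :=
  leafYS_sound T5.ok_pm T5.Ypm.bz_eq (w := 196) (c := ⟨⟨.ofNat 1536, .ofNat 2, .negSucc 40, .negSucc 397, .negSucc 735, .negSucc 2871⟩, ⟨.negSucc 51, .ofNat 48, .ofNat 87, .ofNat 13, .negSucc 7, .ofNat 29⟩, ⟨.negSucc 1283, .ofNat 11, .ofNat 105, .ofNat 141, .ofNat 935, .ofNat 1986⟩, ⟨.ofNat 2922, .ofNat 3, .ofNat 107, .negSucc 637, .negSucc 1417, .negSucc 5930⟩, ⟨.ofNat 542, .negSucc 115, .ofNat 182, .ofNat 800, .ofNat 184, .negSucc 1250⟩, .ofNat 439, .ofNat 26, .ofNat 0, .ofNat 26, .ofNat 1460, .ofNat 0, .ofNat 338, .ofNat 3, .negSucc 286, .ofNat 0, .ofNat 128, .ofNat 22, .ofNat 0, .ofNat 0, .ofNat 443, .ofNat 331, .ofNat 0, .ofNat 0,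 .ofNat 0, .ofNat 0, .ofNat 0, .ofNat 0, .ofNat 0, .ofNat 0, .ofNat 0, .ofNat 0, .ofNat 0, .ofNat 0, .ofNat 0, .ofNat 0, .ofNat 0, .ofNat 0⟩)
    (by decide +kernel)
theorem L03044 : Good (Phi V5.P V5.D 1 (-1)) ⟨3, 5, 2, 0, 2, 2, 2, 2, 3, 0⟩ :=
  leafYS_sound T5.ok_pm T5.Ypm.bz_eq (w := 196) (c := ⟨⟨.ofNat 1958, .negSucc 440, .ofNat 13, .negSucc 502, .negSucc 774, .negSucc 3801⟩, ⟨.ofNat 227, .ofNat 14, .ofNat 92, .ofNat 0, .negSucc 77, .negSucc 507⟩, ⟨.negSucc 1489, .ofNat 308, .ofNat 51, .ofNat 133, .ofNat 1045, .ofNat 2550⟩, ⟨.ofNat 3498, .negSucc 672, .ofNat 228, .negSucc 973, .negSucc 1525, .negSucc 6941⟩, ⟨.ofNat 296, .ofNat 65, .ofNat 420, .ofNat 1080, .ofNat 171, .negSucc 1156⟩, .ofNat 408, .negSucc 109, .ofNat 0, .negSucc 109, .ofNat 1218, .ofNat 0, .ofNat 281, .ofNat 97, .negSucc 267, .ofNat 0, .ofNat 128, .negSucc 9, .ofNat 0, .ofNat 0, .ofNat 373, .ofNat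 160, .ofNat 0, .ofNat 0, .ofNat 2322650120996237099964396807913472, .ofNat 0, .ofNat 0, .ofNat 0, .ofNat 32701775747407765638303984096641024, .ofNat 0, .ofNat 0, .ofNat 0, .ofNat 157299653567084498263986356084539392, .ofNat 0, .ofNat 0, .ofNat 0, .ofNat 71833230727471082738923331504832512, .ofNat 0⟩)
    (by decide +kernel)
theorem L03045 : Good (Phi V5.P V5.D 1 (-1)) ⟨3, 4, 2, 0, 2, 2, 2, 3, 4, 0⟩ :=
  leafYS_sound T5.ok_pm T5.Ypm.bz_eq (w := 200) (c := ⟨⟨.ofNat 235, .negSucc 394, .negSucc 54, .negSucc 427, .negSucc 1373, .negSucc 806⟩, ⟨.negSucc 87, .ofNat 14, .ofNat 237, .ofNat 98, .ofNat 145, .negSucc 62⟩, ⟨.negSucc 42, .ofNat 383, .ofNat 86, .ofNat 299, .ofNat 1849, .ofNat 490⟩, ⟨.ofNat 312, .negSucc 605, .ofNat 89, .negSucc 852, .negSucc 2789, .negSucc 1668⟩, ⟨.ofNat 461, .ofNat 203, .ofNat 104, .ofNat 1110, .ofNat 639, .negSucc 726⟩, .ofNat 439, .ofNat 20, .ofNat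 0, .ofNat 20, .ofNat 1449, .ofNat 0, .ofNat 313, .ofNat 32, .negSucc 423, .ofNat 0, .ofNat 128, .ofNat 24, .ofNat 0, .ofNat 0, .ofNat 571, .ofNat 161, .ofNat 0, .ofNat 0, .ofNat 0, .ofNat 0, .ofNat 0, .ofNat 787496007687661946672869224676373561344, .ofNat 743368188129023531012878967488118784, .ofNat 0, .ofNat 0, .ofNat 0, .ofNat 0, .ofNat 0, .ofNat 0, .ofNat 0, .ofNat 0, .ofNat 0⟩)
    (by decide +kernel)
theorem L03046 : Good (Phi V5.P V5.D 1 (-1)) ⟨3, 5, 2, 0, 2, 2, 2, 3, 4, 0⟩ :=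
  leafYS_sound T5.ok_pm T5.Ypm.bz_eq (w := 201) (c := ⟨⟨.ofNat 544, .negSucc 785, .ofNat 104, .negSucc 867, .negSucc 2017, .negSucc 1429⟩, ⟨.ofNat 19, .negSucc 102, .ofNat 422, .ofNat 55, .negSucc 26, .negSucc 302⟩, ⟨.negSucc 201, .ofNat 646, .ofNat 38, .ofNat 580, .ofNat 2349, .ofNat 890⟩, ⟨.ofNat 799, .negSucc 1128, .ofNat 438, .negSucc 1729, .negSucc 3801, .negSucc 2577⟩, ⟨.ofNat 188, .ofNat 1070, .negSucc 107, .ofNat 1644, .ofNat 1164, .negSucc 1194⟩, .ofNat 441, .negSucc 151, .ofNat 0, .negSucc 151, .ofNat 1525, .ofNat 0, .ofNat 242, .ofNat 128, .negSucc 407, .ofNat 0, .ofNat 127, .negSucc 28, .ofNat 0, .ofNat 0, .ofNat 465, .ofNat 76, .ofNat 0, .ofNat 0, .ofNat 25209605691473992598872840504082432, .ofNat 0, .ofNat 0, .ofNat 358163427156541856490759359837964861440, .ofNat 1913223132219562539357996466527272960, .ofNat 0, .ofNat 0, .ofNat 0, .ofNat 4680778660087115123322444211160088576,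 .ofNat 0, .ofNat 0, .ofNat 1092455154035223042996822524096275283968, .ofNat 2929791403229533470271579965542629376, .ofNat 0⟩)
    (by decide +kernel)
theorem L03047 : Good (Phi V5.P V5.D 1 (-1)) ⟨3, 4, 2, 0, 2, 2, 2, 3, 4, 1⟩ :=
  leafYS_sound T5.ok_pm T5.Ypm.bz_eq (w := 201) (c := ⟨⟨.negSucc 564, .negSucc 715, .ofNat 106, .negSucc 854, .negSucc 1147, .negSucc 882⟩, ⟨.negSucc 110, .negSucc 193, .ofNat 352, .ofNat 64, .ofNat 82, .ofNat 29⟩, ⟨.ofNat 543, .ofNat 531, .negSucc 46, .ofNat 527, .ofNat 1630, .ofNat 752⟩, ⟨.negSucc 1438, .negSucc 883, .ofNat 241, .negSucc 1728, .negSucc 2340, .negSucc 1876⟩, ⟨.ofNat 96, .ofNat 364, .negSucc 335, .ofNat 864, .ofNat 425, .negSucc 791⟩, .ofNat 477, .ofNat 45, .ofNat 0, .ofNat 45, .ofNat 1920, .ofNat 0, .ofNat 443, .ofNat 4, .negSucc 424, .ofNat 0, .ofNat 128, .ofNat 28, .ofNat 0, .ofNat 0, .ofNat 645, .ofNat 222, .ofNat 0, .ofNat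 0, .ofNat 0, .ofNat 0, .ofNat 0, .ofNat 2062895033303408658988780445689930842112, .ofNat 718824114352513827292327398896304128, .ofNat 0, .ofNat 0, .ofNat 0, .ofNat 0, .ofNat 0, .ofNat 0, .ofNat 0, .ofNat 0, .ofNat 0⟩)
    (by decide +kernel)
theorem L03048 : Good (Phi V5.P V5.D 1 (-1)) ⟨4, 10, 2, 0, 2, 2, 2, 3, 4, 1⟩ :=
  leafYS_sound T5.ok_pm T5.Ypm.bz_eq (w := 205) (c := ⟨⟨.negSucc 595, .negSucc 846, .ofNat 35, .negSucc 1894, .negSucc 1647, .negSucc 1165⟩, ⟨.negSucc 105, .negSucc 247, .ofNat 466, .negSucc 87, .negSucc 91, .negSucc 140⟩, ⟨.ofNat 680, .ofNat 598, .ofNat 14, .ofNat 1070, .ofNat 2054, .ofNat 890⟩, ⟨.negSucc 1252, .negSucc 1178, .ofNat 146, .negSucc 3601, .negSucc 3218, .negSucc 2134⟩, ⟨.ofNat 5, .ofNat 94, .negSucc 76, .ofNat 860, .ofNat 319, .negSucc 609⟩, .ofNat 404, .negSucc 54, .ofNat 0, .negSucc 54, .ofNat 1154, .ofNat 0, .ofNat 396, .ofNat 73, .negSucc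 611, .ofNat 0, .ofNat 128, .negSucc 3, .ofNat 0, .ofNat 0, .ofNat 762, .ofNat 132, .ofNat 0, .ofNat 0, .ofNat 30192605196446992824220725194784768, .ofNat 0, .ofNat 0, .ofNat 27331557068618330410924561106229939666944, .ofNat 826012741872862095017156892503834624, .ofNat 0, .ofNat 0, .ofNat 0, .ofNat 0, .ofNat 0, .ofNat 0, .ofNat 0, .ofNat 0, .ofNat 0⟩)
    (by decide +kernel)
theorem L03049 : Good (Phi V5.P V5.D 1 (-1)) ⟨4, 11, 2, 0, 2, 2, 2, 3, 4, 1⟩ :=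
  leafYS_sound T5.ok_pm T5.Ypm.bz_eq (w := 206) (c := ⟨⟨.negSucc 1163, .negSucc 1197, .ofNat 179, .negSucc 2321, .negSucc 2587, .negSucc 788⟩, ⟨.negSucc 199, .negSucc 334, .ofNat 592, .negSucc 262, .negSucc 332, .negSucc 194⟩, ⟨.ofNat 1148, .ofNat 886, .negSucc 87, .ofNat 1223, .ofNat 2744, .ofNat 607⟩, ⟨.negSucc 2055, .negSucc 1785, .ofNat 334, .negSucc 4282, .negSucc 4747, .negSucc 1326⟩, ⟨.negSucc 298, .ofNat 462, .negSucc 779, .ofNat 1129, .ofNat 920, .negSucc 519⟩, .ofNat 452, .negSucc 152, .ofNat 0, .negSucc 152, .ofNat 1356, .ofNat 0, .ofNat 352, .ofNat 109, .negSucc 594, .ofNat 0, .ofNat 128, .negSucc 41, .ofNat 0, .ofNat 0, .ofNat 681, .ofNat 129, .ofNat 0, .ofNat 0, .ofNat 54170383870294071352484273007362048, .ofNat 0, .ofNat 0, .ofNat 0, .ofNat 1205485912959639011057591711438995456, .ofNat 0, .ofNat 0, .ofNat 5206314363594697106913824510847943180288, .ofNat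 962037014333414897329532044773949440, .ofNat 0, .ofNat 0, .ofNat 0, .ofNat 1502619894332109434912615793875222528, .ofNat 0⟩)
    (by decide +kernel)
theorem L03050 : Good (Phi V5.P V5.D 1 (-1)) ⟨2, 3, 2, 0, 2, 2, 1, 1, 3, 0⟩ :=
  out_sound (S := T5.ds_pm) T5.ok_pm (w := 37) (j := 3) (by decide +kernel)
theorem L03051 : Good (Phi V5.P V5.D 1 (-1)) ⟨3, 4, 2, 0, 3, 6, 2, 2, 4, 0⟩ :=
  leafYS_sound T5.ok_pm T5.Ypm.bz_eq (w := 215) (c := ⟨⟨.ofNat 1236, .ofNat 281, .ofNat 156, .negSucc 453, .negSucc 1349, .negSucc 1539⟩, ⟨.ofNat 64, .ofNat 149, .ofNat 29, .negSucc 32, .negSucc 12, .negSucc 76⟩, ⟨.negSucc 1063, .negSucc 174, .ofNat 45, .ofNat 371, .ofNat 1351, .ofNat 604⟩, ⟨.ofNat 2580, .ofNat 252, .ofNat 591, .negSucc 882, .negSucc 2759, .negSucc 3226⟩, ⟨.ofNat 1544, .ofNat 230, .negSucc 164, .ofNat 500, .ofNat 203, .negSucc 1264⟩, .ofNat 438, .ofNat 36, .ofNat 0, .ofNat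 36, .ofNat 1409, .ofNat 0, .ofNat 385, .ofNat 51, .negSucc 382, .ofNat 0, .ofNat 128, .ofNat 27, .ofNat 0, .ofNat 0, .ofNat 460, .ofNat 381, .ofNat 0, .ofNat 0, .ofNat 0, .ofNat 0, .ofNat 0, .ofNat 0, .ofNat 33299907464457029127634174649805416955904, .ofNat 0, .ofNat 0, .ofNat 0, .ofNat 0, .ofNat 0, .ofNat 0, .ofNat 0, .ofNat 0, .ofNat 0⟩)
    (by decide +kernel)
theorem L03052 : Good (Phi V5.P V5.D 1 (-1)) ⟨4, 10, 2, 0, 3, 6, 2, 2, 4, 0⟩ :=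
  leafYS_sound T5.ok_pm T5.Ypm.bz_eq (w := 220) (c := ⟨⟨.ofNat 2151, .ofNat 69, .ofNat 538, .negSucc 787, .negSucc 2139, .negSucc 2785⟩, ⟨.ofNat 332, .ofNat 95, .ofNat 157, .negSucc 67, .negSucc 214, .negSucc 389⟩, ⟨.negSucc 1476, .negSucc 42, .negSucc 118, .ofNat 426, .ofNat 1833, .ofNat 1259⟩, ⟨.ofNat 3839, .ofNat 20, .ofNat 1290, .negSucc 1487, .negSucc 4014, .negSucc 5123⟩, ⟨.ofNat 1915, .ofNat 213, .negSucc 80, .ofNat 409, .ofNat 104, .negSucc 1744⟩, .ofNat 408, .negSucc 94, .ofNat 0, .negSucc 94, .ofNat 1231, .ofNat 0, .ofNat 356, .ofNat 128, .negSucc 338, .ofNat 0, .ofNat 96, .negSucc 19, .ofNat 0, .ofNat 0, .ofNat 318, .ofNat 243, .ofNat 0, .ofNat 0, .ofNat 353876707852016709339230044576578273280, .ofNat 0, .ofNat 0, .ofNat 0, .ofNat 17020862855613390259991975129066619535360, .ofNat 0, .ofNat 0, .ofNat 0, .ofNat 2764455870939619408547799968581626626048, .ofNat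 0, .ofNat 0, .ofNat 0, .ofNat 4924860955002363615589744433883244396544, .ofNat 0⟩)
    (by decide +kernel)
theorem L03053 : Good (Phi V5.P V5.D 1 (-1)) ⟨4, 11, 2, 0, 3, 6, 2, 2, 4, 0⟩ :=
  leafYS_sound T5.ok_pm T5.Ypm.bz_eq (w := 220) (c := ⟨⟨.ofNat 3000, .ofNat 101, .ofNat 1277, .negSucc 1148, .negSucc 2835, .negSucc 3976⟩, ⟨.ofNat 738, .ofNat 130, .ofNat 323, .negSucc 177, .negSucc 428, .negSucc 874⟩, ⟨.negSucc 1923, .negSucc 51, .negSucc 560, .ofNat 583, .ofNat 2211, .ofNat 1977⟩, ⟨.ofNat 4974, .negSucc 43, .ofNat 2429, .negSucc 2059, .negSucc 5069, .negSucc 6721⟩, ⟨.ofNat 2046, .ofNat 371, .negSucc 276, .ofNat 386, .ofNat 89, .negSucc 1728⟩, .ofNat 470, .negSucc 258, .ofNat 0, .negSucc 258, .ofNat 1679, .ofNat 0, .ofNat 164, .ofNat 128, .negSucc 302, .ofNat 0, .ofNat 75, .negSucc 40, .ofNat 0, .ofNat 0, .ofNat 268, .ofNat 201, .ofNat 0, .ofNat 0, .ofNat 389449061831173444929164601191208845312,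 .ofNat 0, .ofNat 0, .ofNat 0, .ofNat 12195032333985740980295386010076529557504, .ofNat 0, .ofNat 0, .ofNat 0, .ofNat 10284226040181002677014757676545705246720, .ofNat 0, .ofNat 0, .ofNat 0, .ofNat 9314739059401362656630269275275716984832, .ofNat 0⟩)
    (by decide +kernel)
theorem L03054 : Good (Phi V5.P V5.D 1 (-1)) ⟨3, 4, 2, 0, 3, 6, 2, 3, 4, 0⟩ :=
  leafYS_sound T5.ok_pm T5.Ypm.bz_eq (w := 215) (c := ⟨⟨.ofNat 81, .negSucc 621, .ofNat 92, .negSucc 578, .negSucc 1738, .negSucc 1090⟩, ⟨.negSucc 99, .negSucc 29, .ofNat 397, .ofNat 18, .ofNat 219, .negSucc 74⟩, ⟨.ofNat 218, .ofNat 384, .ofNat 22, .ofNat 239, .ofNat 2051, .ofNat 532⟩, ⟨.negSucc 106, .negSucc 1090, .ofNat 569, .negSucc 1147, .negSucc 3499, .negSucc 2264⟩, ⟨.ofNat 1622, .ofNat 470, .negSucc 437, .ofNat 343, .ofNat 1651, .negSucc 1140⟩, .ofNat 436, .ofNat 19, .ofNat 0, .ofNat 19, .ofNat 1424, .ofNat 0, .ofNat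 474, .ofNat 87, .negSucc 402, .ofNat 0, .ofNat 128, .ofNat 20, .ofNat 0, .ofNat 0, .ofNat 439, .ofNat 233, .ofNat 0, .ofNat 0, .ofNat 0, .ofNat 0, .ofNat 0, .ofNat 0, .ofNat 0, .ofNat 0, .ofNat 0, .ofNat 0, .ofNat 0, .ofNat 0, .ofNat 0, .ofNat 4381297854388767625840205397963605022867456, .ofNat 0, .ofNat 0⟩)
    (by decide +kernel)
theorem L03055 : Good (Phi V5.P V5.D 1 (-1)) ⟨4, 10, 2, 0, 3, 6, 2, 3, 4, 0⟩ :=
  leafYS_sound T5.ok_pm T5.Ypm.bz_eq (w := 219) (c := ⟨⟨.ofNat 154, .negSucc 1240, .negSucc 78, .negSucc 893, .negSucc 2146, .negSucc 2092⟩, ⟨.ofNat 19, .negSucc 187, .ofNat 447, .negSucc 56, .ofNat 79, .negSucc 283⟩, ⟨.ofNat 341, .ofNat 672, .ofNat 14, .ofNat 265, .ofNat 2290, .ofNat 1092⟩, ⟨.negSucc 113, .negSucc 2006, .ofNat 295, .negSucc 1660, .negSucc 4154, .negSucc 3809⟩, ⟨.ofNat 2058, .negSucc 268, .negSucc 989, .ofNat 713, .ofNat 1902, .negSucc 1277⟩,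 .ofNat 442, .negSucc 128, .ofNat 0, .negSucc 128, .ofNat 1568, .ofNat 0, .ofNat 215, .ofNat 128, .negSucc 319, .ofNat 0, .ofNat 85, .negSucc 21, .ofNat 0, .ofNat 0, .ofNat 283, .ofNat 61, .ofNat 0, .ofNat 0, .ofNat 99680618124402871677699186900974174208, .ofNat 0, .ofNat 0, .ofNat 0, .ofNat 9424888514560261258723135800332152471552, .ofNat 0, .ofNat 0, .ofNat 0, .ofNat 1862973339692381699104063517535349243904, .ofNat 0, .ofNat 0, .ofNat 18777791010254065648214145547836204672614400, .ofNat 2973818877257345413726485103048432549888, .ofNat 0⟩)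
    (by decide +kernel)
theorem L03056 : Good (Phi V5.P V5.D 1 (-1)) ⟨4, 11, 2, 0, 3, 6, 2, 3, 4, 0⟩ :=
  leafYS_sound T5.ok_pm T5.Ypm.bz_eq (w := 219) (c := ⟨⟨.ofNat 378, .negSucc 2639, .negSucc 350, .negSucc 1785, .negSucc 2789, .negSucc 3355⟩, ⟨.ofNat 288, .negSucc 486, .ofNat 589, .negSucc 275, .negSucc 165, .negSucc 724⟩, ⟨.ofNat 271, .ofNat 1370, .ofNat 156, .ofNat 655, .ofNat 2741, .ofNat 1733⟩, ⟨.ofNat 238, .negSucc 4271, .negSucc 66, .negSucc 3178, .negSucc 5271, .negSucc 5708⟩, ⟨.ofNat 2191, .ofNat 8, .negSucc 1054, .ofNat 244, .ofNat 2195, .negSucc 1701⟩, .ofNat 469, .negSucc 252, .ofNat 0, .negSucc 252, .ofNat 1690, .ofNat 0, .ofNat 132, .ofNat 128, .negSucc 351, .ofNat 0, .ofNat 71, .negSucc 50, .ofNat 0, .ofNat 0, .ofNat 278, .ofNat 66, .ofNat 0, .ofNat 0, .ofNat 585239719038166043159056220495074557952, .ofNat 0, .ofNat 0, .ofNat 0, .ofNat 6641103704016648131965371951542563766272,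 .ofNat 0, .ofNat 0, .ofNat 4441260675457644792034652595073826909323264, .ofNat 7357592168290917232617618121064437514240, .ofNat 0, .ofNat 0, .ofNat 0, .ofNat 7125478858247113986610482382213581111296, .ofNat 0⟩)
    (by decide +kernel)
theorem L03057 : Good (Phi V5.P V5.D 1 (-1)) ⟨3, 4, 2, 0, 3, 6, 2, 2, 4, 1⟩ :=
  leafYS_sound T5.ok_pm T5.Ypm.bz_eq (w := 214) (c := ⟨⟨.negSucc 226, .negSucc 870, .ofNat 189, .negSucc 368, .negSucc 839, .negSucc 1521⟩, ⟨.negSucc 80, .negSucc 127, .ofNat 334, .ofNat 5, .ofNat 0, .ofNat 40⟩, ⟨.negSucc 298, .ofNat 484, .negSucc 107, .ofNat 131, .ofNat 1171, .ofNat 1083⟩, ⟨.negSucc 767, .negSucc 1247, .ofNat 478, .negSucc 752, .negSucc 1718, .negSucc 3125⟩, ⟨.ofNat 419, .ofNat 32, .negSucc 85, .ofNat 427, .ofNat 97, .negSucc 384⟩, .ofNat 435, .ofNat 14, .ofNat 0, .ofNat 14, .ofNat 1417, .ofNat 0, .ofNat 337, .ofNat 21, .negSucc 260, .ofNat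 0, .ofNat 128, .ofNat 18, .ofNat 0, .ofNat 0, .ofNat 358, .ofNat 350, .ofNat 0, .ofNat 0, .ofNat 0, .ofNat 0, .ofNat 0, .ofNat 0, .ofNat 18708227238076446343934167083389563174912, .ofNat 0, .ofNat 0, .ofNat 0, .ofNat 0, .ofNat 0, .ofNat 0, .ofNat 0, .ofNat 0, .ofNat 0⟩)
    (by decide +kernel)
theorem L03058 : Good (Phi V5.P V5.D 1 (-1)) ⟨3, 5, 2, 0, 3, 6, 2, 2, 4, 1⟩ :=
  leafYS_sound T5.ok_pm T5.Ypm.bz_eq (w := 215) (c := ⟨⟨.negSucc 883, .negSucc 1441, .ofNat 21, .negSucc 669, .negSucc 1601, .negSucc 1297⟩, ⟨.negSucc 80, .negSucc 467, .ofNat 409, .ofNat 19, .negSucc 166, .negSucc 147⟩, ⟨.ofNat 69, .ofNat 837, .negSucc 71, .ofNat 211, .ofNat 1555, .ofNat 1035⟩, ⟨.negSucc 1851, .negSucc 1950, .ofNat 136, .negSucc 1345, .negSucc 2944, .negSucc 2390⟩, ⟨.ofNat 440, .ofNat 522, .negSucc 214, .ofNat 644, .ofNat 82, .negSucc 374⟩, .ofNat 442, .negSucc 150, .ofNat 0, .negSucc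 150, .ofNat 1548, .ofNat 0, .ofNat 281, .ofNat 128, .negSucc 331, .ofNat 0, .ofNat 123, .negSucc 14, .ofNat 0, .ofNat 0, .ofNat 398, .ofNat 226, .ofNat 0, .ofNat 0, .ofNat 1379307408998030082780654302255822929920, .ofNat 0, .ofNat 0, .ofNat 0, .ofNat 48678768253420946932453573270860690620416, .ofNat 0, .ofNat 0, .ofNat 0, .ofNat 98809144250895552540940856825973944877056, .ofNat 0, .ofNat 0, .ofNat 0, .ofNat 25309654374247723167876670858996427522048, .ofNat 0⟩)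
    (by decide +kernel)
theorem L03059 : Good (Phi V5.P V5.D 1 (-1)) ⟨3, 4, 2, 0, 3, 6, 2, 3, 4, 1⟩ :=
  leafYS_sound T5.ok_pm T5.Ypm.bz_eq (w := 215) (c := ⟨⟨.negSucc 1030, .negSucc 1450, .negSucc 31, .negSucc 458, .negSucc 1668, .negSucc 913⟩, ⟨.negSucc 81, .negSucc 250, .ofNat 555, .ofNat 40, .ofNat 157, .negSucc 46⟩, ⟨.ofNat 869, .ofNat 885, .ofNat 39, .ofNat 29, .ofNat 1997, .ofNat 720⟩, ⟨.negSucc 2488, .negSucc 2217, .ofNat 71, .negSucc 1020, .negSucc 3334, .negSucc 1944⟩, ⟨.ofNat 792, .negSucc 66, .negSucc 420, .ofNat 454, .ofNat 988, .negSucc 412⟩, .ofNat 437, .ofNat 20, .ofNat 0, .ofNat 20, .ofNat 1427, .ofNat 0, .ofNat 402, .ofNat 39, .negSucc 324, .ofNat 0, .ofNat 128, .ofNat 19, .ofNat 0, .ofNat 0, .ofNat 410, .ofNat 177, .ofNat 0, .ofNat 0, .ofNat 0, .ofNat 0, .ofNat 0, .ofNat 0, .ofNat 0, .ofNat 0, .ofNat 0, .ofNat 0, .ofNat 0, .ofNat 0, .ofNat 0, .ofNat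 4395741808840798323887374969468280572477440, .ofNat 0, .ofNat 0⟩)
    (by decide +kernel)
theorem L03060 : Good (Phi V5.P V5.D 1 (-1)) ⟨4, 10, 2, 0, 3, 6, 2, 3, 4, 1⟩ :=
  leafYS_sound T5.ok_pm T5.Ypm.bz_eq (w := 219) (c := ⟨⟨.negSucc 2350, .negSucc 1562, .negSucc 244, .negSucc 640, .negSucc 2229, .negSucc 537⟩, ⟨.negSucc 299, .negSucc 330, .ofNat 643, .ofNat 44, .negSucc 42, .negSucc 82⟩, ⟨.ofNat 1773, .ofNat 905, .ofNat 72, .negSucc 19, .ofNat 2328, .ofNat 464⟩, ⟨.negSucc 4651, .negSucc 2365, .negSucc 207, .negSucc 1294, .negSucc 4323, .negSucc 1044⟩, ⟨.ofNat 755, .ofNat 114, .negSucc 494, .ofNat 555, .ofNat 1357, .negSucc 660⟩, .ofNat 409, .negSucc 93, .ofNat 0, .negSucc 93, .ofNat 1236, .ofNat 0, .ofNat 390, .ofNat 128, .negSucc 523, .ofNat 0, .ofNat 119, .negSucc 21, .ofNat 0, .ofNat 0, .ofNat 544, .ofNat 128, .ofNat 0, .ofNat 0, .ofNat 426877796052585387476184342127406219264,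 .ofNat 0, .ofNat 0, .ofNat 36671753861671100903926201120356979557007360, .ofNat 21740097811339828956143054969926756335616, .ofNat 0, .ofNat 0, .ofNat 37003031947121138046077828476087144942665728, .ofNat 1355970118655071908388826485959535099904, .ofNat 0, .ofNat 0, .ofNat 115280699393028742498045274835541400481693696, .ofNat 8154672260079752160184478936918552215552, .ofNat 0⟩)
    (by decide +kernel)
theorem L03061 : Good (Phi V5.P V5.D 1 (-1)) ⟨5, 22, 3, 0, 3, 6, 2, 3, 5, 2⟩ :=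
  leafYS_sound T5.ok_pm T5.Ypm.bz_eq (w := 232) (c := ⟨⟨.negSucc 3038, .negSucc 1670, .negSucc 1196, .negSucc 1120, .negSucc 3337, .negSucc 414⟩, ⟨.negSucc 414, .negSucc 379, .ofNat 240, .negSucc 121, .negSucc 352, .negSucc 95⟩, ⟨.ofNat 2180, .ofNat 1011, .ofNat 747, .ofNat 96, .ofNat 3028, .ofNat 298⟩, ⟨.negSucc 5627, .negSucc 2624, .negSucc 1933, .negSucc 2050, .negSucc 6124, .negSucc 702⟩, ⟨.ofNat 661, .ofNat 310, .negSucc 380, .ofNat 429, .ofNat 1481, .negSucc 211⟩, .ofNat 502, .negSucc 323, .ofNat 0, .negSucc 323, .ofNat 2055, .ofNat 0, .ofNat 170, .ofNat 128, .negSucc 500, .ofNat 0, .ofNat 80, .negSucc 63, .ofNat 0, .ofNat 0, .ofNat 457, .ofNat 116, .ofNat 0, .ofNat 0, .ofNat 16439746933694694693574917099265915355136, .ofNat 0, .ofNat 0, .ofNat 6098556881245738668301427072684802420814905344, .ofNat 222376690378771053659837332244144760815616, .ofNat 0, .ofNat 0,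 .ofNat 20742549744212160738513314721484064246382723072, .ofNat 197581887961391711033005166324409360711680, .ofNat 0, .ofNat 0, .ofNat 0, .ofNat 390517346749096478739029611588746567745536, .ofNat 0⟩)
    (by decide +kernel)
theorem L03062 : Good (Phi V5.P V5.D 1 (-1)) ⟨5, 22, 3, 0, 3, 6, 2, 3, 5, 3⟩ :=
  leafYS_sound T5.ok_pm T5.Ypm.bz_eq (w := 232) (c := ⟨⟨.negSucc 4525, .negSucc 766, .negSucc 497, .negSucc 489, .negSucc 2214, .ofNat 408⟩, ⟨.negSucc 670, .negSucc 251, .ofNat 345, .ofNat 19, .negSucc 219, .ofNat 45⟩, ⟨.ofNat 3192, .ofNat 431, .ofNat 274, .negSucc 214, .ofNat 2218, .negSucc 188⟩, ⟨.negSucc 8202, .negSucc 1042, .negSucc 737, .negSucc 996, .negSucc 4100, .ofNat 753⟩, ⟨.ofNat 546, .ofNat 43, .negSucc 537, .ofNat 781, .ofNat 1122, .negSucc 206⟩, .ofNat 494, .negSucc 309, .ofNat 0, .negSucc 309, .ofNat 1945, .ofNat 0, .ofNat 225, .ofNat 128, .negSucc 616,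 .ofNat 0, .ofNat 92, .negSucc 67, .ofNat 0, .ofNat 0, .ofNat 696, .ofNat 191, .ofNat 0, .ofNat 0, .ofNat 17491788485900417700191471215444496482304, .ofNat 0, .ofNat 0, .ofNat 42988741325553230030155563632820999212069027840, .ofNat 294010541506706051571313370517746462228480, .ofNat 0, .ofNat 0, .ofNat 42921376174511207601187089355173023837564436480, .ofNat 274266318772488675585290432833970226855936, .ofNat 0, .ofNat 0, .ofNat 0, .ofNat 0, .ofNat 0⟩)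
    (by decide +kernel)
theorem L03063 : Good (Phi V5.P V5.D 1 (-1)) ⟨5, 23, 3, 0, 3, 6, 2, 3, 4, 1⟩ :=
  out_sound (S := T5.ds_pm) T5.ok_pm (w := 57) (j := 3) (by decide +kernel)
theorem L03064 : Good (Phi V5.P V5.D 1 (-1)) ⟨4, 11, 3, 1, 3, 6, 2, 3, 4, 1⟩ :=
  out_sound (S := T5.ds_pm) T5.ok_pm (w := 51) (j := 3) (by decide +kernel)
theorem L03065 : Good (Phi V5.P V5.D 1 (-1)) ⟨3, 4, 3, 0, 3, 7, 1, 1, 4, 0⟩ :=
  leafYS_sound T5.ok_pm T5.Ypm.bz_eq (w := 214) (c := ⟨⟨.ofNat 816, .negSucc 114, .ofNat 185, .negSucc 260, .negSucc 2823, .negSucc 1392⟩, ⟨.ofNat 55, .ofNat 39, .ofNat 113, .negSucc 1, .ofNat 30, .negSucc 133⟩, ⟨.negSucc 587, .ofNat 150, .negSucc 159, .ofNat 179, .ofNat 2521, .ofNat 397⟩, ⟨.ofNat 1441, .negSucc 223, .ofNat 530, .negSucc 473, .negSucc 5796, .negSucc 2742⟩, ⟨.ofNat 1645, .ofNat 387, .negSucc 67, .negSucc 687, .ofNat 1644, .negSucc 924⟩, .ofNat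 439, .negSucc 27, .ofNat 0, .negSucc 27, .ofNat 1564, .ofNat 0, .ofNat 378, .ofNat 128, .negSucc 413, .ofNat 0, .ofNat 113, .ofNat 8, .ofNat 0, .ofNat 0, .ofNat 437, .ofNat 184, .ofNat 0, .ofNat 0, .ofNat 0, .ofNat 0, .ofNat 0, .ofNat 4687839593916664063695606243061128482521088, .ofNat 0, .ofNat 0, .ofNat 0, .ofNat 0, .ofNat 0, .ofNat 0, .ofNat 0, .ofNat 0, .ofNat 0, .ofNat 0⟩)
    (by decide +kernel)
theorem L03066 : Good (Phi V5.P V5.D 1 (-1)) ⟨3, 4, 3, 0, 3, 7, 2, 2, 4, 1⟩ :=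
  leafYS_sound T5.ok_pm T5.Ypm.bz_eq (w := 219) (c := ⟨⟨.negSucc 708, .negSucc 873, .ofNat 52, .ofNat 92, .negSucc 1037, .negSucc 1289⟩, ⟨.ofNat 7, .negSucc 172, .ofNat 177, .negSucc 8, .negSucc 42, .negSucc 9⟩, ⟨.ofNat 21, .ofNat 391, .negSucc 26, .negSucc 155, .ofNat 1084, .ofNat 940⟩, ⟨.negSucc 1793, .negSucc 1245, .ofNat 214, .ofNat 182, .negSucc 2113, .negSucc 2674⟩, ⟨.ofNat 802, .ofNat 197, .negSucc 204, .negSucc 142, .negSucc 70, .ofNat 101⟩, .ofNat 438, .negSucc 28, .ofNat 0, .negSucc 28, .ofNat 1526, .ofNat 0, .ofNat 662, .ofNat 60, .negSucc 445, .ofNat 0, .ofNat 128, .ofNat 13, .ofNat 0, .ofNat 0, .ofNat 613, .ofNat 930, .ofNat 0, .ofNat 0, .ofNat 0, .ofNat 0, .ofNat 0, .ofNat 0, .ofNat 0, .ofNat 0, .ofNat 0, .ofNat 0, .ofNat 0, .ofNat 0, .ofNat 0, .ofNat 0, .ofNat 0, .ofNat 0⟩)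
    (by decide +kernel)
theorem L03067 : Good (Phi V5.P V5.D 1 (-1)) ⟨3, 4, 3, 0, 3, 7, 2, 3, 4, 1⟩ :=
  leafYS_sound T5.ok_pm T5.Ypm.bz_eq (w := 219) (c := ⟨⟨.negSucc 1650, .negSucc 1366, .negSucc 97, .ofNat 50, .negSucc 1371, .negSucc 904⟩, ⟨.ofNat 23, .negSucc 321, .ofNat 268, .ofNat 19, .ofNat 54, .negSucc 34⟩, ⟨.ofNat 1349, .ofNat 614, .ofNat 2, .negSucc 551, .ofNat 1416, .ofNat 650⟩, ⟨.negSucc 3899, .negSucc 1966, .negSucc 46, .ofNat 72, .negSucc 2839, .negSucc 1875⟩, ⟨.ofNat 1007, .ofNat 100, .negSucc 603, .ofNat 60, .ofNat 2001, .ofNat 40⟩, .ofNat 440, .negSucc 34, .ofNat 0, .negSucc 34, .ofNat 1564, .ofNat 0, .ofNat 529, .ofNat 94, .negSucc 463, .ofNat 0, .ofNat 128, .ofNat 11, .ofNat 0, .ofNat 0, .ofNat 607, .ofNat 289, .ofNat 0, .ofNat 0, .ofNat 0, .ofNat 0, .ofNat 0, .ofNat 66248242865069294109633142323631250829475840, .ofNat 0, .ofNat 0, .ofNat 0, .ofNat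 0, .ofNat 0, .ofNat 0, .ofNat 0, .ofNat 0, .ofNat 0, .ofNat 0⟩)
    (by decide +kernel)
theorem L03068 : Good (Phi V5.P V5.D 1 (-1)) ⟨5, 20, 3, 0, 3, 7, 2, 2, 4, 0⟩ :=
  leafYS_sound T5.ok_pm T5.Ypm.bz_eq (w := 226) (c := ⟨⟨.ofNat 1023, .negSucc 88, .ofNat 65, .ofNat 169, .negSucc 2232, .negSucc 2128⟩, ⟨.ofNat 272, .negSucc 20, .ofNat 63, .negSucc 26, .negSucc 208, .negSucc 313⟩, ⟨.negSucc 607, .ofNat 80, .negSucc 3, .negSucc 20, .ofNat 1432, .ofNat 678⟩, ⟨.ofNat 1704, .negSucc 149, .ofNat 240, .ofNat 314, .negSucc 4217, .negSucc 3899⟩, ⟨.ofNat 2706, .ofNat 81, .negSucc 439, .negSucc 648, .negSucc 469, .negSucc 1608⟩, .ofNat 447, .negSucc 121, .ofNat 0, .negSucc 121, .ofNat 1677, .ofNat 0, .ofNat 269, .ofNat 128, .negSucc 273, .ofNat 0, .ofNat 75, .negSucc 17, .ofNat 0, .ofNat 0, .ofNat 242, .ofNat 386, .ofNat 0, .ofNat 0, .ofNat 0, .ofNat 0, .ofNat 0, .ofNat 0, .ofNat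 0, .ofNat 0, .ofNat 0, .ofNat 0, .ofNat 0, .ofNat 0, .ofNat 0, .ofNat 0, .ofNat 0, .ofNat 0⟩)
    (by decide +kernel)
theorem L03069 : Good (Phi V5.P V5.D 1 (-1)) ⟨5, 21, 3, 0, 3, 7, 2, 2, 4, 0⟩ :=
  leafYS_sound T5.ok_pm T5.Ypm.bz_eq (w := 226) (c := ⟨⟨.ofNat 1222, .ofNat 210, .ofNat 448, .ofNat 49, .negSucc 2588, .negSucc 2934⟩, ⟨.ofNat 387, .ofNat 94, .ofNat 83, .negSucc 32, .negSucc 350, .negSucc 542⟩, ⟨.negSucc 743, .ofNat 12, .negSucc 183, .ofNat 217, .ofNat 1549, .ofNat 916⟩, ⟨.ofNat 1899, .ofNat 316, .ofNat 966, .ofNat 106, .negSucc 4684, .negSucc 5121⟩, ⟨.ofNat 2755, .ofNat 132, .negSucc 362, .negSucc 532, .negSucc 448, .negSucc 1855⟩, .ofNat 461, .negSucc 179, .ofNat 0, .negSucc 179, .ofNat 1750, .ofNat 0, .ofNat 190, .ofNat 128, .negSucc 255, .ofNat 0, .ofNat 65, .negSucc 27, .ofNat 0, .ofNat 0, .ofNat 194, .ofNat 152, .ofNat 0, .ofNat 0, .ofNat 0, .ofNat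 0, .ofNat 0, .ofNat 0, .ofNat 1433960017464437894348371538321011113984, .ofNat 0, .ofNat 0, .ofNat 0, .ofNat 1590640553703978440235635883344075423744, .ofNat 0, .ofNat 0, .ofNat 0, .ofNat 1253643333384332927547412239843665641472, .ofNat 0⟩)
    (by decide +kernel)
theorem L03070 : Good (Phi V5.P V5.D 1 (-1)) ⟨4, 11, 3, 0, 3, 7, 2, 2, 4, 0⟩ :=
  leafYS_sound T5.ok_pm T5.Ypm.bz_eq (w := 222) (c := ⟨⟨.ofNat 1160, .negSucc 353, .negSucc 281, .ofNat 990, .negSucc 3104, .negSucc 3167⟩, ⟨.ofNat 492, .negSucc 10, .negSucc 18, .ofNat 116, .negSucc 529, .negSucc 706⟩, ⟨.negSucc 529, .ofNat 30, .ofNat 80, .negSucc 407, .ofNat 1814, .ofNat 1128⟩, ⟨.ofNat 1590, .negSucc 555, .negSucc 238, .ofNat 1806, .negSucc 5462, .negSucc 5330⟩, ⟨.ofNat 2763, .ofNat 78, .negSucc 370, .negSucc 511, .negSucc 223, .negSucc 1729⟩, .ofNat 493, .negSucc 304, .ofNat 0, .negSucc 304, .ofNat 1945, .ofNat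 0, .ofNat 142, .ofNat 128, .negSucc 210, .ofNat 0, .ofNat 62, .negSucc 32, .ofNat 0, .ofNat 0, .ofNat 155, .ofNat 112, .ofNat 0, .ofNat 0, .ofNat 581965572529425934573093476301342244864, .ofNat 0, .ofNat 0, .ofNat 0, .ofNat 15401098052857842554657757825515013537792, .ofNat 0, .ofNat 0, .ofNat 0, .ofNat 15261200510554797391578038065372747268096, .ofNat 0, .ofNat 0, .ofNat 0, .ofNat 8967469690881319988399430186666211409920, .ofNat 0⟩)
    (by decide +kernel)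
theorem L03071 : Good (Phi V5.P V5.D 1 (-1)) ⟨3, 5, 3, 0, 3, 7, 2, 2, 4, 1⟩ :=
  leafYS_sound T5.ok_pm T5.Ypm.bz_eq (w := 218) (c := ⟨⟨.negSucc 1980, .negSucc 1228, .negSucc 116, .ofNat 686, .negSucc 1728, .negSucc 881⟩, ⟨.negSucc 169, .negSucc 376, .ofNat 211, .ofNat 102, .negSucc 235, .negSucc 43⟩, ⟨.ofNat 772, .ofNat 560, .negSucc 25, .negSucc 590, .ofNat 1302, .ofNat 740⟩, ⟨.negSucc 3831, .negSucc 1708, .negSucc 155, .ofNat 1239, .negSucc 3194, .negSucc 1756⟩, ⟨.ofNat 1003, .ofNat 551, .negSucc 504, .negSucc 326, .ofNat 9, .ofNat 316⟩, .ofNat 407, .negSucc 111, .ofNat 0, .negSucc 111, .ofNat 1206, .ofNat 0, .ofNat 392, .ofNat 128, .negSucc 366, .ofNat 0, .ofNat 116, .negSucc 20, .ofNat 0, .ofNat 0, .ofNat 401, .ofNat 311, .ofNat 0, .ofNat 0, .ofNat 3712897044300580367753498948312896634880, .ofNat 0, .ofNat 0, .ofNat 0, .ofNat 122290660540589624388765283199965091332096,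 .ofNat 0, .ofNat 0, .ofNat 0, .ofNat 115676406181910039801244330902110689296384, .ofNat 0, .ofNat 0, .ofNat 0, .ofNat 139940660420288494319543461099944460419072, .ofNat 0⟩)
    (by decide +kernel)
theorem L03072 : Good (Phi V5.P V5.D 1 (-1)) ⟨4, 10, 3, 0, 3, 7, 3, 6, 5, 0⟩ :=
  leafYS_sound T5.ok_pm T5.Ypm.bz_eq (w := 230) (c := ⟨⟨.negSucc 1130, .negSucc 971, .negSucc 224, .ofNat 291, .negSucc 1096, .negSucc 771⟩, ⟨.ofNat 62, .negSucc 158, .ofNat 127, .negSucc 38, .negSucc 33, .negSucc 155⟩, ⟨.ofNat 1052, .ofNat 429, .ofNat 95, .negSucc 495, .ofNat 819, .ofNat 190⟩, ⟨.negSucc 2470, .negSucc 1577, .negSucc 229, .ofNat 565, .negSucc 2132, .negSucc 1367⟩, ⟨.ofNat 2774, .negSucc 163, .negSucc 808, .negSucc 1105, .ofNat 856, .negSucc 717⟩, .ofNat 444, .negSucc 143, .ofNat 0, .negSucc 143, .ofNat 1603, .ofNat 0, .ofNat 129, .ofNat 128, .negSucc 223, .ofNat 0, .ofNat 61, .negSucc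 20, .ofNat 0, .ofNat 0, .ofNat 166, .ofNat 121, .ofNat 0, .ofNat 0, .ofNat 0, .ofNat 0, .ofNat 0, .ofNat 0, .ofNat 2049474136509581522417280828648292094050304, .ofNat 0, .ofNat 0, .ofNat 0, .ofNat 4467775239971575125832941794963342521008128, .ofNat 0, .ofNat 0, .ofNat 0, .ofNat 2270834974566420758902963545408783352070144, .ofNat 0⟩)
    (by decide +kernel)
theorem L03073 : Good (Phi V5.P V5.D 1 (-1)) ⟨4, 10, 3, 0, 3, 7, 3, 6, 5, 1⟩ :=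
  leafYS_sound T5.ok_pm T5.Ypm.bz_eq (w := 231) (c := ⟨⟨.negSucc 1830, .negSucc 1486, .negSucc 523, .ofNat 397, .negSucc 1249, .negSucc 1003⟩, ⟨.negSucc 64, .negSucc 315, .ofNat 152, .negSucc 18, .negSucc 57, .negSucc 146⟩, ⟨.ofNat 1383, .ofNat 579, .ofNat 180, .negSucc 763, .ofNat 934, .ofNat 532⟩, ⟨.negSucc 3811, .negSucc 2304, .negSucc 797, .ofNat 756, .negSucc 2349, .negSucc 1810⟩, ⟨.ofNat 1894, .negSucc 184, .negSucc 944, .negSucc 794, .ofNat 667, .negSucc 217⟩, .ofNat 467, .negSucc 179, .ofNat 0, .negSucc 179, .ofNat 1907, .ofNat 0, .ofNat 170, .ofNat 128, .negSucc 266, .ofNat 0, .ofNat 67, .negSucc 22, .ofNat 0, .ofNat 0, .ofNat 219, .ofNat 146, .ofNat 0, .ofNat 0, .ofNat 0, .ofNat 0, .ofNat 0, .ofNat 0, .ofNat 3171171054343393731763335074953668109271040, .ofNat 0, .ofNat 0, .ofNat 0, .ofNat 4582687774163649168789567622727740132687872, .ofNat 0, .ofNat 0, .ofNat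 0, .ofNat 0, .ofNat 0⟩)
    (by decide +kernel)
theorem L03074 : Good (Phi V5.P V5.D 1 (-1)) ⟨5, 22, 4, 0, 3, 7, 3, 6, 4, 0⟩ :=
  leafYS_sound T5.ok_pm T5.Ypm.bz_eq (w := 233) (c := ⟨⟨.negSucc 2633, .negSucc 778, .negSucc 501, .ofNat 1223, .negSucc 1346, .negSucc 2269⟩, ⟨.negSucc 179, .negSucc 205, .ofNat 13, .ofNat 157, .negSucc 133, .negSucc 488⟩, ⟨.ofNat 1956, .ofNat 216, .ofNat 4, .negSucc 1141, .ofNat 935, .ofNat 858⟩, ⟨.negSucc 5032, .negSucc 1179, .negSucc 760, .ofNat 2199, .negSucc 2521, .negSucc 3878⟩, ⟨.ofNat 2103, .negSucc 257, .negSucc 765, .negSucc 383, .ofNat 808, .negSucc 882⟩, .ofNat 469, .negSucc 254, .ofNat 0, .negSucc 254, .ofNat 1684, .ofNat 0, .ofNat 128, .ofNat 132, .negSucc 354, .ofNat 0, .ofNat 61, .negSucc 55, .ofNat 0, .ofNat 0, .ofNat 238, .ofNat 86, .ofNat 0, .ofNat 0, .ofNat 3527767540745201749790109383082591125504, .ofNat 0, .ofNat 0, .ofNat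 0, .ofNat 38816540350532184551966953811471581052928, .ofNat 0, .ofNat 0, .ofNat 0, .ofNat 100821635537848371767411693687508849131520, .ofNat 0, .ofNat 0, .ofNat 0, .ofNat 123163615154726658755663051021770461020160, .ofNat 0⟩)
    (by decide +kernel)
theorem L03075 : Good (Phi V5.P V5.D 1 (-1)) ⟨5, 22, 4, 1, 3, 7, 3, 6, 4, 0⟩ :=
  out_sound (S := T5.ds_pm) T5.ok_pm (w := 59) (j := 3) (by decide +kernel)
theorem L03076 : Good (Phi V5.P V5.D 1 (-1)) ⟨5, 23, 3, 0, 3, 7, 3, 6, 4, 0⟩ :=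
  out_sound (S := T5.ds_pm) T5.ok_pm (w := 57) (j := 3) (by decide +kernel)
theorem L03077 : Good (Phi V5.P V5.D 1 (-1)) ⟨4, 10, 3, 0, 4, 14, 3, 7, 4, 0⟩ :=
  leafYS_sound T5.ok_pm T5.Ypm.bz_eq (w := 240) (c := ⟨⟨.negSucc 1883, .negSucc 1718, .negSucc 143, .ofNat 162, .negSucc 777, .negSucc 2326⟩, ⟨.negSucc 7, .negSucc 306, .ofNat 304, .ofNat 10, .ofNat 96, .negSucc 365⟩, ⟨.ofNat 1798, .ofNat 834, .ofNat 46, .negSucc 414, .ofNat 970, .ofNat 1107⟩, ⟨.negSucc 4075, .negSucc 2755, .ofNat 39, .ofNat 263, .negSucc 1564, .negSucc 4183⟩, ⟨.ofNat 3258, .negSucc 399, .negSucc 605, .negSucc 223, .ofNat 1483, .negSucc 1221⟩, .ofNat 445, .negSucc 154, .ofNat 0, .negSucc 154, .ofNat 1616, .ofNat 0, .ofNat 128, .ofNat 139, .negSucc 245, .ofNat 0, .ofNat 71, .negSucc 24, .ofNat 0, .ofNat 0, .ofNat 186, .ofNat 48, .ofNat 0, .ofNat 0, .ofNat 0, .ofNat 0, .ofNat 0, .ofNat 0, .ofNat 683666510030522592976791726452919211778899968,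 .ofNat 0, .ofNat 0, .ofNat 0, .ofNat 1371101398806414933754700111706171790248116224, .ofNat 0, .ofNat 0, .ofNat 0, .ofNat 1495991909221127046803897532218661928842559488, .ofNat 0⟩)
    (by decide +kernel)
theorem L03078 : Good (Phi V5.P V5.D 1 (-1)) ⟨5, 22, 3, 0, 4, 14, 3, 7, 4, 0⟩ :=
  leafYS_sound T5.ok_pm T5.Ypm.bz_eq (w := 245) (c := ⟨⟨.negSucc 3057, .negSucc 1698, .negSucc 838, .ofNat 103, .negSucc 654, .negSucc 3159⟩, ⟨.negSucc 117, .negSucc 403, .ofNat 178, .negSucc 7, .ofNat 97, .negSucc 701⟩, ⟨.ofNat 2564, .ofNat 651, .ofNat 120, .negSucc 505, .ofNat 977, .ofNat 1393⟩, ⟨.negSucc 6054, .negSucc 2685, .negSucc 1020, .ofNat 226, .negSucc 1422, .negSucc 5331⟩, ⟨.ofNat 3354, .negSucc 556, .negSucc 947, .negSucc 262, .ofNat 1704, .negSucc 1596⟩, .ofNat 507, .negSucc 337, .ofNat 0, .negSucc 337, .ofNat 2115, .ofNat 0, .ofNat 128, .ofNat 224, .negSucc 429, .ofNat 0,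 .ofNat 104, .negSucc 72, .ofNat 0, .ofNat 0, .ofNat 277, .ofNat 62, .ofNat 0, .ofNat 0, .ofNat 78345197401689955058571748157733460577878016, .ofNat 0, .ofNat 0, .ofNat 0, .ofNat 1125431771760070037005556113196593866275291136, .ofNat 0, .ofNat 0, .ofNat 0, .ofNat 2449848619289306184675788903174431929960235008, .ofNat 0, .ofNat 0, .ofNat 0, .ofNat 1692553126109234400256320228917173140464861184, .ofNat 0⟩)
    (by decide +kernel)
theorem L03079 : Good (Phi V5.P V5.D 1 (-1)) ⟨5, 23, 3, 0, 4, 14, 3, 7, 4, 0⟩ :=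
  out_sound (S := T5.ds_pm) T5.ok_pm (w := 57) (j := 3) (by decide +kernel)
theorem L03080 : Good (Phi V5.P V5.D 1 (-1)) ⟨5, 20, 3, 0, 4, 15, 3, 7, 4, 0⟩ :=
  leafYS_sound T5.ok_pm T5.Ypm.bz_eq (w := 244) (c := ⟨⟨.negSucc 1868, .negSucc 777, .negSucc 462, .ofNat 237, .negSucc 592, .negSucc 2002⟩, ⟨.negSucc 5, .negSucc 115, .ofNat 215, .negSucc 29, .ofNat 100, .negSucc 265⟩, ⟨.ofNat 1604, .ofNat 330, .ofNat 183, .negSucc 413, .ofNat 749, .ofNat 816⟩, ⟨.negSucc 3991, .negSucc 1266, .negSucc 569, .ofNat 447, .negSucc 1244, .negSucc 3683⟩, ⟨.ofNat 3427, .negSucc 375, .negSucc 1044, .negSucc 476, .ofNat 1499, .negSucc 1347⟩, .ofNat 473, .negSucc 167, .ofNat 0, .negSucc 167, .ofNat 2088, .ofNat 0, .ofNat 209, .ofNat 128, .negSucc 189, .ofNat 0, .ofNat 61, .negSucc 14, .ofNat 0, .ofNat 0, .ofNat 156, .ofNat 126, .ofNat 0, .ofNat 0, .ofNat 0, .ofNat 0, .ofNat 0, .ofNat 0, .ofNat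 0, .ofNat 0, .ofNat 0, .ofNat 36491012227403642129178728256726900525016677351424, .ofNat 0, .ofNat 0, .ofNat 0, .ofNat 0, .ofNat 0, .ofNat 0⟩)
    (by decide +kernel)
theorem L03081 : Good (Phi V5.P V5.D 1 (-1)) ⟨5, 21, 4, 0, 4, 15, 3, 7, 5, 0⟩ :=
  leafYS_sound T5.ok_pm T5.Ypm.bz_eq (w := 252) (c := ⟨⟨.negSucc 2356, .negSucc 796, .negSucc 401, .ofNat 540, .negSucc 458, .negSucc 1334⟩, ⟨.negSucc 32, .negSucc 150, .ofNat 58, .ofNat 37, .ofNat 142, .negSucc 279⟩, ⟨.ofNat 1879, .ofNat 325, .ofNat 141, .negSucc 616, .ofNat 770, .ofNat 421⟩, ⟨.negSucc 4837, .negSucc 1302, .negSucc 526, .ofNat 1022, .negSucc 1063, .negSucc 2297⟩, ⟨.ofNat 3236, .negSucc 169, .negSucc 688, .negSucc 309, .ofNat 1834, .negSucc 989⟩, .ofNat 493, .negSucc 274, .ofNat 0, .negSucc 274, .ofNat 2195, .ofNat 0, .ofNat 128, .ofNat 252, .negSucc 268, .ofNat 0, .ofNat 104, .negSucc 36, .ofNat 0, .ofNat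 0, .ofNat 177, .ofNat 129, .ofNat 0, .ofNat 0, .ofNat 0, .ofNat 0, .ofNat 0, .ofNat 0, .ofNat 0, .ofNat 0, .ofNat 0, .ofNat 5211681580998921296758110380809327164892214703685632, .ofNat 65000850550537647275761148178330658873469304832, .ofNat 0, .ofNat 0, .ofNat 0, .ofNat 0, .ofNat 0⟩)
    (by decide +kernel)
theorem L03082 : Good (Phi V5.P V5.D 1 (-1)) ⟨6, 42, 4, 1, 4, 15, 3, 7, 5, 0⟩ :=
  leafYS_sound T5.ok_pm T5.Ypm.bz_eq (w := 256) (c := ⟨⟨.negSucc 2246, .negSucc 477, .negSucc 349, .negSucc 219, .negSucc 692, .negSucc 1406⟩, ⟨.ofNat 102, .negSucc 87, .ofNat 79, .negSucc 134, .ofNat 135, .negSucc 245⟩, ⟨.ofNat 1844, .ofNat 187, .ofNat 121, .negSucc 377, .ofNat 849, .ofNat 449⟩, ⟨.negSucc 4472, .negSucc 764, .negSucc 485, .negSucc 343, .negSucc 1410, .negSucc 2491⟩, ⟨.ofNat 3014, .negSucc 223, .negSucc 608, .negSucc 1018, .ofNat 1746, .negSucc 1039⟩, .ofNat 476, .negSucc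 162, .ofNat 0, .negSucc 162, .ofNat 1995, .ofNat 0, .ofNat 128, .ofNat 224, .negSucc 303, .ofNat 0, .ofNat 89, .negSucc 35, .ofNat 0, .ofNat 0, .ofNat 184, .ofNat 93, .ofNat 0, .ofNat 0, .ofNat 0, .ofNat 0, .ofNat 0, .ofNat 908749700093366228211040894663720198397589264007168, .ofNat 7981787378486891502207304942461742076255010816, .ofNat 0, .ofNat 0, .ofNat 73415558789261473793596634593243453055177440442187776, .ofNat 13767689293348801627999622946961968799592480768, .ofNat 0, .ofNat 0, .ofNat 0, .ofNat 15578313414897254702847528255615228294180372480, .ofNat 0⟩)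
    (by decide +kernel)

end Crest.Agent.R097C5.N5pm
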