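import Crest.Agent.R097C5.N5pm_000
import Crest.Agent.R097C5.N5pm_001
import Crest.Agent.R097C5.N5pm_002
import Crest.Agent.R097C5.N5pm_003
import Crest.Agent.R097C5.N5pm_004
import Crest.Agent.R097C5.N5pm_005
import Crest.Agent.R097C5.N5pm_006
import Crest.Agent.R097C5.N5pm_007
import Crest.Agent.R097C5.N5pm_008
import Crest.Agent.R097C5.N5pm_009
import Crest.Agent.R097C5.N5pm_010
import Crest.Agent.R097C5.N5pm_011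
import Crest.Agent.R097C5.N5pm_012
import Crest.Agent.R097C5.N5pm_013

/-!
# Row 97, box cover in dimension n = 5 (generated)
-/

set_option autoImplicit false
set_option Elab.async false
set_option maxHeartbeats 0
set_option maxRecDepth 100000

open Crest.Agent.R097 Crest.Agent.R097.KA


namespace Crest.Agent.R097C5.N5pm

theorem g00000 : Good (Phi V5.P V5.D 1 (-1)) ⟨2, 0, 2, 0, 1, 0, 1, 0, 4, 5⟩ :=
  Good.n3 L00006 (Good.n2 (Good.n4 L00007 L00008) (Good.n3 (Good.n0 L00009 L00010) (Good.n4 L00011 L00012)))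
theorem g00001 : Good (Phi V5.P V5.D 1 (-1)) ⟨2, 0, 2, 0, 1, 0, 1, 0, 1, 0⟩ :=
  Good.n4 (Good.n4 (Good.n4 (Good.n3 L00000 L00001) L00002) L00003) (Good.n4 (Good.n4 (Good.n3 L00004 L00005) g00000) L00013)
theorem g00002 : Good (Phi V5.P V5.D 1 (-1)) ⟨2, 0, 2, 0, 1, 0, 1, 1, 2, 0⟩ :=
  Good.n4 (Good.n3 L00015 (Good.n3 L00016 (Good.n4 L00017 L00018))) (Good.n3 L00019 (Good.n2 L00020 L00021))
theorem g00003 : Good (Phi V5.P V5.D 1 (-1)) ⟨2, 0, 2, 0, 1, 0, 1, 1, 2, 1⟩ :=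
  Good.n2 (Good.n4 (Good.n3 L00022 (Good.n3 L00023 L00024)) (Good.n3 L00025 L00026)) (Good.n4 (Good.n3 L00027 L00028) (Good.n3 L00029 L00030))
theorem g00004 : Good (Phi V5.P V5.D 1 (-1)) ⟨2, 0, 2, 0, 1, 1, 2, 0, 3, 0⟩ :=
  Good.n3 (Good.n2 (Good.n4 L00032 L00033) (Good.n4 L00034 (Good.n2 (Good.n3 L00035 L00036) L00037))) L00038
theorem g00005 : Good (Phi V5.P V5.D 1 (-1)) ⟨2, 0, 2, 0, 1, 1, 2, 0, 3, 1⟩ :=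
  Good.n3 (Good.n2 (Good.n4 L00039 L00040) (Good.n4 (Good.n2 (Good.n3 L00041 L00042) L00043) L00044)) (Good.n2 L00045 L00046)
theorem g00006 : Good (Phi V5.P V5.D 1 (-1)) ⟨2, 0, 2, 0, 1, 1, 2, 0, 4, 6⟩ :=
  Good.n4 (Good.n3 (Good.n2 L00052 (Good.n2 L00053 L00054)) (Good.n2 L00055 L00056)) (Good.n2 L00057 L00058)
theorem g00007 : Good (Phi V5.P V5.D 1 (-1)) ⟨2, 0, 2, 0, 1, 1, 2, 0, 2, 1⟩ :=
  Good.n4 (Good.n4 (Good.n2 L00047 L00048) (Good.n2 L00049 (Good.n4 L00050 L00051))) (Good.n4 g00006 (Good.n2 L00059 L00060))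
theorem g00008 : Good (Phi V5.P V5.D 1 (-1)) ⟨2, 0, 2, 0, 1, 1, 2, 1, 3, 2⟩ :=
  Good.n4 (Good.n2 L00065 (Good.n2 L00066 L00067)) (Good.n2 (Good.n2 (Good.n0 L00068 L00069) L00070) L00071)
theorem g00009 : Good (Phi V5.P V5.D 1 (-1)) ⟨2, 0, 2, 0, 1, 1, 2, 1, 0, 0⟩ :=
  Good.n4 (Good.n4 (Good.n4 L00063 L00064) (Good.n4 g00008 (Good.n2 L00072 L00073))) (Good.n2 (Good.n4 (Good.n4 (Good.n2 L00074 L00075) L00076) L00077) L00078)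
theorem g00010 : Good (Phi V5.P V5.D 1 (-1)) ⟨2, 0, 2, 0, 1, 1, 1, 1, 2, 0⟩ :=
  Good.n4 (Good.n3 L00079 L00080) (Good.n3 (Good.n4 L00081 (Good.n4 L00082 L00083)) (Good.n4 L00084 (Good.n2 L00085 L00086)))
theorem g00011 : Good (Phi V5.P V5.D 1 (-1)) ⟨2, 0, 2, 0, 1, 1, 2, 2, 3, 2⟩ :=
  Good.n4 (Good.n2 L00087 (Good.n4 L00088 (Good.n2 L00089 L00090))) (Good.n2 L00091 (Good.n2 L00092 L00093))
theorem g00012 : Good (Phi V5.P V5.D 1 (-1)) ⟨2, 0, 2, 0, 1, 1, 1, 1, 2, 1⟩ :=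
  Good.n4 (Good.n3 g00011 (Good.n4 (Good.n2 L00094 L00095) (Good.n2 L00096 L00097))) (Good.n2 (Good.n2 (Good.n3 L00098 L00099) (Good.n4 L00100 L00101)) L00102)
theorem g00013 : Good (Phi V5.P V5.D 1 (-1)) ⟨2, 0, 2, 0, 2, 2, 1, 1, 2, 2⟩ :=
  Good.n2 (Good.n4 (Good.n3 (Good.n2 (Good.n4 (Good.n3 L00103 L00104) L00105) L00106) L00107) L00108) L00109
theorem g00014 : Good (Phi V5.P V5.D 1 (-1)) ⟨2, 0, 2, 0, 1, 1, 0, 0, 0, 0⟩ :=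
  Good.n3 (Good.n3 (Good.n4 (Good.n4 (Good.n4 g00004 g00005) g00007) (Good.n2 L00061 L00062)) g00009) (Good.n4 (Good.n4 g00010 g00012) (Good.n2 (Good.n4 g00013 L00110) L00111))
theorem g00015 : Good (Phi V5.P V5.D 1 (-1)) ⟨4, 0, 2, 1, 1, 0, 2, 0, 0, 0⟩ :=
  Good.n3 (Good.n4 (Good.n4 (Good.n4 (Good.n4 L00112 L00113) L00114) L00115) L00116) (Good.n4 (Good.n4 (Good.n4 L00117 L00118) L00119) L00120)
theorem g00016 : Good (Phi V5.P V5.D 1 (-1)) ⟨4, 0, 2, 1, 1, 0, 1, 0, 0, 0⟩ :=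
  Good.n3 g00015 (Good.n4 (Good.n4 (Good.n4 L00121 L00122) (Good.n4 (Good.n3 L00123 L00124) L00125)) L00126)
theorem g00017 : Good (Phi V5.P V5.D 1 (-1)) ⟨5, 0, 3, 2, 2, 1, 2, 2, 3, 4⟩ :=
  Good.n4 (Good.n2 L00133 (Good.n3 L00134 (Good.n4 (Good.n2 L00135 (Good.n3 L00136 L00137)) L00138))) L00139
theorem g00018 : Good (Phi V5.P V5.D 1 (-1)) ⟨5, 0, 3, 2, 1, 0, 2, 2, 0, 0⟩ :=
  Good.n4 (Good.n4 (Good.n4 L00127 L00128) (Good.n4 L00129 (Good.n2 L00130 L00131))) (Good.n4 (Good.n4 (Good.n2 L00132 g00017) L00140) L00141)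
theorem g00019 : Good (Phi V5.P V5.D 1 (-1)) ⟨5, 0, 3, 2, 1, 0, 2, 3, 1, 0⟩ :=
  Good.n4 (Good.n4 (Good.n2 L00142 L00143) (Good.n3 L00144 L00145)) (Good.n4 (Good.n2 L00146 L00147) (Good.n2 L00148 (Good.n3 L00149 L00150)))
theorem g00020 : Good (Phi V5.P V5.D 1 (-1)) ⟨5, 1, 3, 2, 1, 0, 1, 1, 2, 0⟩ :=
  Good.n2 (Good.n4 (Good.n3 L00152 (Good.n3 L00153 L00154)) (Good.n3 L00155 L00156)) (Good.n4 L00157 L00158)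
theorem g00021 : Good (Phi V5.P V5.D 1 (-1)) ⟨5, 1, 3, 2, 1, 0, 1, 1, 2, 1⟩ :=
  Good.n4 (Good.n3 L00159 (Good.n2 L00160 L00161)) (Good.n3 (Good.n4 L00162 L00163) (Good.n2 L00164 (Good.n4 L00165 L00166)))
theorem g00022 : Good (Phi V5.P V5.D 1 (-1)) ⟨4, 0, 5, 12, 2, 1, 2, 2, 3, 4⟩ :=
  Good.n4 (Good.n2 L00174 (Good.n3 L00175 (Good.n4 (Good.n2 L00176 (Good.n3 L00177 L00178)) L00179))) L00180
theorem g00023 : Good (Phi V5.P V5.D 1 (-1)) ⟨4, 0, 5, 12, 1, 0, 2, 2, 0, 0⟩ :=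
  Good.n4 (Good.n4 (Good.n4 L00168 L00169) (Good.n4 L00170 (Good.n3 L00171 L00172))) (Good.n4 (Good.n4 (Good.n2 L00173 g00022) L00181) L00182)
theorem g00024 : Good (Phi V5.P V5.D 1 (-1)) ⟨4, 0, 5, 12, 1, 0, 2, 3, 1, 0⟩ :=
  Good.n4 (Good.n4 (Good.n3 L00183 (Good.n2 L00184 L00185)) (Good.n3 L00186 L00187)) (Good.n4 (Good.n2 (Good.n4 L00188 L00189) L00190) (Good.n2 L00191 (Good.n3 L00192 L00193)))
theorem g00025 : Good (Phi V5.P V5.D 1 (-1)) ⟨5, 0, 5, 13, 2, 1, 2, 3, 2, 1⟩ :=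
  Good.n4 (Good.n3 L00207 L00208) (Good.n2 (Good.n3 L00209 L00210) (Good.n4 (Good.n3 L00211 L00212) L00213))
theorem g00026 : Good (Phi V5.P V5.D 1 (-1)) ⟨5, 0, 5, 13, 1, 0, 1, 1, 2, 1⟩ :=
  Good.n2 (Good.n4 (Good.n3 L00201 L00202) L00203) (Good.n3 (Good.n4 L00204 (Good.n4 L00205 L00206)) g00025)
theorem g00027 : Good (Phi V5.P V5.D 1 (-1)) ⟨5, 0, 5, 13, 1, 0, 1, 1, 1, 0⟩ :=
  Good.n4 (Good.n4 (Good.n4 (Good.n2 L00195 L00196) L00197) (Good.n3 L00198 (Good.n3 L00199 L00200))) g00026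
theorem g00028 : Good (Phi V5.P V5.D 1 (-1)) ⟨6, 2, 5, 13, 1, 0, 2, 3, 2, 1⟩ :=
  Good.n3 (Good.n4 L00223 (Good.n4 L00224 L00225)) (Good.n4 (Good.n2 L00226 L00227) (Good.n2 L00228 L00229))
theorem g00029 : Good (Phi V5.P V5.D 1 (-1)) ⟨6, 2, 5, 13, 1, 0, 1, 1, 1, 0⟩ :=
  Good.n4 (Good.n4 (Good.n3 L00215 (Good.n3 L00216 L00217)) (Good.n3 L00218 L00219)) (Good.n3 (Good.n4 L00220 (Good.n4 L00221 L00222)) g00028)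
theorem g00030 : Good (Phi V5.P V5.D 1 (-1)) ⟨6, 3, 5, 13, 1, 0, 2, 2, 2, 1⟩ :=
  Good.n2 (Good.n4 L00237 L00238) (Good.n2 (Good.n4 L00239 L00240) (Good.n4 L00241 (Good.n4 L00242 L00243)))
theorem g00031 : Good (Phi V5.P V5.D 1 (-1)) ⟨6, 3, 5, 13, 1, 0, 2, 3, 2, 1⟩ :=
  Good.n3 (Good.n4 L00244 (Good.n4 L00245 L00246)) (Good.n4 (Good.n2 L00247 L00248) (Good.n4 L00249 L00250))
theorem g00032 : Good (Phi V5.P V5.D 1 (-1)) ⟨6, 3, 5, 13, 1, 0, 1, 1, 1, 0⟩ :=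
  Good.n4 (Good.n4 (Good.n3 L00231 (Good.n2 L00232 L00233)) (Good.n3 L00234 (Good.n3 L00235 L00236))) (Good.n3 g00030 g00031)
theorem g00033 : Good (Phi V5.P V5.D 1 (-1)) ⟨4, 0, 4, 6, 1, 0, 1, 1, 0, 0⟩ :=
  Good.n1 (Good.n3 g00023 (Good.n4 g00024 L00194)) (Good.n0 (Good.n4 g00027 L00214) (Good.n0 (Good.n4 g00029 L00230) (Good.n4 g00032 L00251)))
theorem g00034 : Good (Phi V5.P V5.D 1 (-1)) ⟨4, 0, 4, 7, 1, 0, 1, 1, 2, 0⟩ :=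
  Good.n3 (Good.n4 L00252 L00253) (Good.n4 (Good.n3 L00254 (Good.n2 L00255 L00256)) (Good.n3 L00257 L00258))
theorem g00035 : Good (Phi V5.P V5.D 1 (-1)) ⟨4, 0, 5, 14, 1, 0, 2, 2, 2, 1⟩ :=
  Good.n2 (Good.n4 L00259 L00260) (Good.n1 (Good.n4 L00261 (Good.n4 L00262 L00263)) (Good.n4 L00264 (Good.n4 L00265 L00266)))
theorem g00036 : Good (Phi V5.P V5.D 1 (-1)) ⟨4, 0, 5, 14, 1, 0, 2, 3, 3, 3⟩ :=
  Good.n4 (Good.n2 L00270 (Good.n3 L00271 L00272)) (Good.n2 L00273 (Good.n2 L00274 (Good.n3 L00275 L00276)))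
theorem g00037 : Good (Phi V5.P V5.D 1 (-1)) ⟨4, 0, 5, 15, 1, 0, 3, 6, 2, 1⟩ :=
  Good.n4 (Good.n2 L00282 L00283) (Good.n2 L00284 (Good.n2 L00285 (Good.n4 L00286 (Good.n2 L00287 L00288))))
theorem g00038 : Good (Phi V5.P V5.D 1 (-1)) ⟨4, 0, 5, 15, 1, 0, 2, 3, 2, 1⟩ :=
  Good.n3 g00037 (Good.n4 (Good.n2 L00289 L00290) (Good.n2 L00291 (Good.n4 (Good.n3 L00292 L00293) L00294)))
theorem g00039 : Good (Phi V5.P V5.D 1 (-1)) ⟨4, 0, 4, 7, 1, 0, 1, 1, 2, 1⟩ :=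
  Good.n1 (Good.n3 g00035 (Good.n4 (Good.n3 L00267 (Good.n2 L00268 L00269)) g00036)) (Good.n3 (Good.n4 L00277 (Good.n2 L00278 (Good.n4 L00279 (Good.n4 L00280 L00281)))) g00038)
theorem g00040 : Good (Phi V5.P V5.D 1 (-1)) ⟨4, 0, 2, 1, 1, 0, 1, 1, 0, 0⟩ :=
  Good.n1 (Good.n0 (Good.n3 g00018 (Good.n4 g00019 L00151)) (Good.n4 (Good.n4 g00020 g00021) L00167)) (Good.n1 g00033 (Good.n4 (Good.n4 g00034 g00039) L00295))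
theorem g00041 : Good (Phi V5.P V5.D 1 (-1)) ⟨4, 1, 3, 2, 2, 0, 0, 0, 2, 1⟩ :=
  Good.n3 (Good.n4 (Good.n3 L00302 L00303) L00304) (Good.n4 (Good.n3 L00305 (Good.n4 L00306 L00307)) L00308)
theorem g00042 : Good (Phi V5.P V5.D 1 (-1)) ⟨4, 1, 3, 2, 2, 0, 0, 0, 1, 0⟩ :=
  Good.n4 (Good.n3 (Good.n4 (Good.n4 L00296 L00297) L00298) (Good.n3 L00299 (Good.n4 L00300 L00301))) g00041
theorem g00043 : Good (Phi V5.P V5.D 1 (-1)) ⟨5, 2, 3, 3, 4, 1, 0, 0, 2, 0⟩ :=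
  Good.n1 (Good.n4 (Good.n4 (Good.n3 L00316 L00317) L00318) (Good.n3 L00319 L00320)) (Good.n3 (Good.n4 (Good.n4 L00321 L00322) L00323) (Good.n3 L00324 L00325))
theorem g00044 : Good (Phi V5.P V5.D 1 (-1)) ⟨5, 2, 3, 3, 3, 0, 0, 0, 2, 0⟩ :=
  Good.n2 (Good.n4 (Good.n3 (Good.n4 L00310 L00311) (Good.n3 L00312 L00313)) (Good.n3 L00314 L00315)) g00043
theorem g00045 : Good (Phi V5.P V5.D 1 (-1)) ⟨5, 2, 3, 3, 3, 1, 0, 0, 2, 1⟩ :=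
  Good.n3 (Good.n4 (Good.n3 L00336 L00337) L00338) (Good.n4 (Good.n3 L00339 L00340) (Good.n3 L00341 L00342))
theorem g00046 : Good (Phi V5.P V5.D 1 (-1)) ⟨5, 2, 3, 3, 2, 0, 0, 0, 1, 0⟩ :=
  Good.n2 (Good.n4 g00044 (Good.n3 (Good.n4 L00326 L00327) (Good.n4 (Good.n3 L00328 L00329) L00330))) (Good.n4 (Good.n3 (Good.n4 (Good.n4 L00331 L00332) L00333) (Good.n4 L00334 L00335)) g00045)
theorem g00047 : Good (Phi V5.P V5.D 1 (-1)) ⟨5, 3, 3, 3, 2, 0, 1, 1, 1, 0⟩ :=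
  Good.n4 (Good.n4 (Good.n3 L00349 L00350) (Good.n3 L00351 L00352)) (Good.n4 (Good.n3 L00353 L00354) (Good.n3 L00355 L00356))
theorem g00048 : Good (Phi V5.P V5.D 1 (-1)) ⟨5, 3, 3, 3, 2, 0, 0, 0, 1, 0⟩ :=
  Good.n3 (Good.n4 (Good.n4 (Good.n4 L00343 L00344) L00345) (Good.n4 (Good.n3 L00346 L00347) L00348)) g00047
theorem g00049 : Good (Phi V5.P V5.D 1 (-1)) ⟨4, 1, 2, 1, 3, 2, 2, 0, 0, 0⟩ :=
  Good.n3 (Good.n4 (Good.n4 (Good.n4 L00358 L00359) L00360) L00361) (Good.n4 (Good.n4 (Good.n4 L00362 L00363) L00364) L00365)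
theorem g00050 : Good (Phi V5.P V5.D 1 (-1)) ⟨4, 1, 2, 1, 3, 2, 1, 0, 0, 0⟩ :=
  Good.n3 g00049 (Good.n4 (Good.n4 (Good.n4 L00366 L00367) (Good.n4 (Good.n4 L00368 L00369) L00370)) L00371)
theorem g00051 : Good (Phi V5.P V5.D 1 (-1)) ⟨4, 1, 2, 1, 4, 4, 4, 14, 6, 32⟩ :=
  Good.n3 (Good.n4 (Good.n2 L00380 (Good.n3 L00381 L00382)) L00383) (Good.n2 (Good.n3 (Good.n4 (Good.n4 (Good.n2 L00384 L00385) L00386) L00387) L00388) L00389)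
theorem g00052 : Good (Phi V5.P V5.D 1 (-1)) ⟨4, 1, 2, 1, 4, 4, 1, 1, 3, 4⟩ :=
  Good.n4 (Good.n3 L00378 (Good.n4 (Good.n3 L00379 (Good.n3 (Good.n4 g00051 L00390) L00391)) L00392)) L00393
theorem g00053 : Good (Phi V5.P V5.D 1 (-1)) ⟨4, 1, 2, 1, 4, 4, 1, 1, 0, 0⟩ :=
  Good.n4 (Good.n4 (Good.n4 L00372 L00373) (Good.n4 L00374 (Good.n3 L00375 (Good.n3 L00376 L00377)))) (Good.n4 (Good.n4 g00052 L00394) L00395)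
theorem g00054 : Good (Phi V5.P V5.D 1 (-1)) ⟨4, 1, 3, 2, 4, 5, 3, 4, 0, 0⟩ :=
  Good.n0 (Good.n4 (Good.n4 L00396 (Good.n4 L00397 L00398)) L00399) (Good.n4 (Good.n4 L00400 (Good.n4 L00401 L00402)) L00403)
theorem g00055 : Good (Phi V5.P V5.D 1 (-1)) ⟨4, 1, 2, 1, 4, 5, 2, 2, 0, 0⟩ :=
  Good.n1 (Good.n3 g00054 (Good.n4 (Good.n4 L00404 L00405) L00406)) (Good.n4 (Good.n4 L00407 (Good.n4 L00408 L00409)) L00410)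
theorem g00056 : Good (Phi V5.P V5.D 1 (-1)) ⟨4, 1, 4, 4, 4, 5, 2, 3, 4, 8⟩ :=
  Good.n3 (Good.n4 (Good.n3 L00414 (Good.n4 (Good.n3 L00415 (Good.n2 L00416 L00417)) L00418)) L00419) L00420
theorem g00057 : Good (Phi V5.P V5.D 1 (-1)) ⟨4, 1, 4, 4, 4, 5, 2, 3, 0, 0⟩ :=
  Good.n4 (Good.n4 L00411 (Good.n4 L00412 L00413)) (Good.n4 (Good.n4 (Good.n4 g00056 L00421) L00422) L00423)
theorem g00058 : Good (Phi V5.P V5.D 1 (-1)) ⟨4, 1, 4, 5, 4, 5, 2, 3, 4, 8⟩ :=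
  Good.n3 (Good.n4 (Good.n3 L00427 (Good.n4 (Good.n3 L00428 (Good.n2 L00429 L00430)) L00431)) L00432) L00433
theorem g00059 : Good (Phi V5.P V5.D 1 (-1)) ⟨4, 1, 4, 5, 4, 5, 2, 3, 0, 0⟩ :=
  Good.n4 (Good.n4 L00424 (Good.n4 L00425 L00426)) (Good.n4 (Good.n4 (Good.n4 g00058 L00434) L00435) L00436)
theorem g00060 : Good (Phi V5.P V5.D 1 (-1)) ⟨4, 1, 4, 6, 4, 5, 2, 3, 4, 8⟩ :=
  Good.n3 (Good.n4 (Good.n3 L00440 (Good.n4 (Good.n3 L00441 (Good.n2 L00442 L00443)) L00444)) L00445) L00446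
theorem g00061 : Good (Phi V5.P V5.D 1 (-1)) ⟨4, 1, 4, 6, 4, 5, 2, 3, 0, 0⟩ :=
  Good.n4 (Good.n4 L00437 (Good.n3 L00438 L00439)) (Good.n4 (Good.n4 (Good.n4 g00060 L00447) L00448) L00449)
theorem g00062 : Good (Phi V5.P V5.D 1 (-1)) ⟨4, 1, 4, 7, 4, 5, 3, 6, 3, 4⟩ :=
  Good.n4 (Good.n4 (Good.n3 L00452 (Good.n4 (Good.n3 L00453 (Good.n2 L00454 L00455)) L00456)) L00457) L00458
theorem g00063 : Good (Phi V5.P V5.D 1 (-1)) ⟨4, 1, 4, 7, 4, 5, 2, 3, 0, 0⟩ :=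
  Good.n3 (Good.n4 (Good.n4 L00450 L00451) (Good.n4 (Good.n4 g00062 L00459) L00460)) (Good.n4 (Good.n4 L00461 (Good.n4 L00462 L00463)) L00464)
theorem g00064 : Good (Phi V5.P V5.D 1 (-1)) ⟨4, 1, 2, 1, 3, 2, 0, 0, 0, 0⟩ :=
  Good.n3 g00050 (Good.n2 g00053 (Good.n3 g00055 (Good.n1 (Good.n1 g00057 g00059) (Good.n1 g00061 g00063))))
theorem g00065 : Good (Phi V5.P V5.D 1 (-1)) ⟨5, 2, 3, 2, 3, 3, 1, 0, 0, 0⟩ :=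
  Good.n4 (Good.n4 (Good.n4 (Good.n4 L00465 L00466) L00467) (Good.n4 (Good.n3 L00468 L00469) L00470)) L00471
theorem g00066 : Good (Phi V5.P V5.D 1 (-1)) ⟨6, 4, 4, 4, 3, 3, 2, 3, 4, 8⟩ :=
  Good.n3 (Good.n2 (Good.n3 (Good.n4 (Good.n4 (Good.n3 L00482 L00483) L00484) L00485) L00486) L00487) L00488
theorem g00067 : Good (Phi V5.P V5.D 1 (-1)) ⟨6, 4, 4, 4, 3, 3, 1, 1, 3, 4⟩ :=
  Good.n4 (Good.n3 (Good.n3 L00477 (Good.n4 (Good.n2 L00478 (Good.n3 L00479 L00480)) L00481)) g00066) (Good.n3 L00489 L00490)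
theorem g00068 : Good (Phi V5.P V5.D 1 (-1)) ⟨6, 4, 4, 4, 3, 3, 1, 1, 0, 0⟩ :=
  Good.n4 (Good.n4 (Good.n4 L00472 L00473) (Good.n4 L00474 (Good.n3 L00475 L00476))) (Good.n4 (Good.n4 g00067 L00491) L00492)
theorem g00069 : Good (Phi V5.P V5.D 1 (-1)) ⟨6, 4, 5, 10, 3, 3, 1, 1, 1, 0⟩ :=
  Good.n4 (Good.n4 L00493 L00494) (Good.n4 L00495 (Good.n3 (Good.n4 L00496 L00497) (Good.n4 L00498 L00499)))
theorem g00070 : Good (Phi V5.P V5.D 1 (-1)) ⟨6, 4, 5, 10, 3, 3, 2, 3, 4, 8⟩ :=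
  Good.n3 (Good.n2 (Good.n3 (Good.n4 (Good.n4 (Good.n3 L00505 L00506) L00507) L00508) L00509) L00510) L00511
theorem g00071 : Good (Phi V5.P V5.D 1 (-1)) ⟨6, 4, 5, 10, 3, 3, 1, 1, 3, 4⟩ :=
  Good.n4 (Good.n3 (Good.n3 L00500 (Good.n4 (Good.n2 L00501 (Good.n3 L00502 L00503)) L00504)) g00070) (Good.n3 L00512 L00513)
theorem g00072 : Good (Phi V5.P V5.D 1 (-1)) ⟨6, 4, 5, 11, 3, 3, 2, 3, 4, 8⟩ :=
  Good.n3 (Good.n2 (Good.n3 (Good.n4 (Good.n4 (Good.n3 L00527 L00528) L00529) L00530) L00531) L00532) L00533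
theorem g00073 : Good (Phi V5.P V5.D 1 (-1)) ⟨6, 4, 5, 11, 3, 3, 1, 1, 3, 4⟩ :=
  Good.n4 (Good.n3 (Good.n3 L00522 (Good.n4 (Good.n2 L00523 (Good.n3 L00524 L00525)) L00526)) g00072) (Good.n3 L00534 L00535)
theorem g00074 : Good (Phi V5.P V5.D 1 (-1)) ⟨6, 4, 5, 11, 3, 3, 1, 1, 0, 0⟩ :=
  Good.n4 (Good.n4 (Good.n4 L00516 L00517) (Good.n4 L00518 (Good.n3 (Good.n4 L00519 L00520) L00521))) (Good.n4 (Good.n4 g00073 L00536) L00537)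
theorem g00075 : Good (Phi V5.P V5.D 1 (-1)) ⟨6, 5, 3, 2, 3, 3, 2, 3, 4, 8⟩ :=
  Good.n3 (Good.n2 (Good.n3 (Good.n4 (Good.n4 (Good.n3 L00548 L00549) L00550) L00551) L00552) L00553) L00554
theorem g00076 : Good (Phi V5.P V5.D 1 (-1)) ⟨6, 5, 3, 2, 3, 3, 1, 1, 3, 4⟩ :=
  Good.n4 (Good.n3 (Good.n3 L00543 (Good.n4 (Good.n2 L00544 (Good.n3 L00545 L00546)) L00547)) g00075) (Good.n3 L00555 L00556)
theorem g00077 : Good (Phi V5.P V5.D 1 (-1)) ⟨6, 5, 3, 2, 3, 3, 1, 1, 0, 0⟩ :=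
  Good.n4 (Good.n4 (Good.n4 L00538 L00539) (Good.n4 L00540 (Good.n3 L00541 L00542))) (Good.n4 (Good.n4 g00076 L00557) L00558)
theorem g00078 : Good (Phi V5.P V5.D 1 (-1)) ⟨5, 2, 3, 2, 3, 3, 1, 1, 0, 0⟩ :=
  Good.n0 (Good.n1 g00068 (Good.n1 (Good.n4 g00069 (Good.n4 (Good.n4 g00071 L00514) L00515)) g00074)) g00077
theorem g00079 : Good (Phi V5.P V5.D 1 (-1)) ⟨5, 3, 3, 2, 3, 3, 1, 0, 0, 0⟩ :=
  Good.n4 (Good.n4 (Good.n4 (Good.n0 L00559 L00560) L00561) (Good.n4 (Good.n3 L00562 L00563) L00564)) L00565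
theorem g00080 : Good (Phi V5.P V5.D 1 (-1)) ⟨5, 3, 4, 4, 3, 3, 3, 5, 1, 1⟩ :=
  Good.n4 (Good.n4 (Good.n4 (Good.n4 (Good.n2 L00571 (Good.n3 L00572 L00573)) L00574) L00575) L00576) L00577
theorem g00081 : Good (Phi V5.P V5.D 1 (-1)) ⟨6, 6, 4, 5, 3, 3, 3, 5, 1, 1⟩ :=
  Good.n4 (Good.n4 (Good.n4 (Good.n4 (Good.n2 L00586 (Good.n3 L00587 L00588)) L00589) L00590) L00591) L00592
theorem g00082 : Good (Phi V5.P V5.D 1 (-1)) ⟨6, 7, 5, 10, 3, 3, 3, 5, 1, 1⟩ :=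
  Good.n4 (Good.n4 (Good.n4 (Good.n4 (Good.n2 L00596 (Good.n3 L00597 L00598)) L00599) L00600) L00601) L00602
theorem g00083 : Good (Phi V5.P V5.D 1 (-1)) ⟨6, 7, 5, 11, 3, 3, 3, 5, 1, 1⟩ :=
  Good.n4 (Good.n4 (Good.n4 (Good.n4 (Good.n2 L00607 (Good.n3 L00608 L00609)) L00610) L00611) L00612) L00613
theorem g00084 : Good (Phi V5.P V5.D 1 (-1)) ⟨6, 7, 4, 5, 3, 3, 3, 5, 0, 0⟩ :=
  Good.n1 (Good.n4 (Good.n4 L00593 (Good.n1 L00594 L00595)) g00082) (Good.n4 (Good.n4 L00603 (Good.n4 L00604 (Good.n4 L00605 L00606))) g00083)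
theorem g00085 : Good (Phi V5.P V5.D 1 (-1)) ⟨5, 3, 4, 5, 3, 3, 3, 5, 0, 0⟩ :=
  Good.n0 (Good.n4 (Good.n4 (Good.n4 L00581 L00582) (Good.n4 L00583 (Good.n4 L00584 L00585))) g00081) g00084
theorem g00086 : Good (Phi V5.P V5.D 1 (-1)) ⟨5, 3, 3, 2, 3, 3, 2, 2, 0, 0⟩ :=
  Good.n1 (Good.n3 (Good.n4 (Good.n4 L00566 L00567) L00568) (Good.n4 (Good.n4 L00569 L00570) g00080)) (Good.n3 (Good.n4 (Good.n4 L00578 L00579) L00580) g00085)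
theorem g00087 : Good (Phi V5.P V5.D 1 (-1)) ⟨5, 3, 3, 2, 3, 3, 3, 6, 3, 4⟩ :=
  Good.n2 (Good.n4 (Good.n3 (Good.n4 (Good.n4 (Good.n3 L00617 L00618) L00619) L00620) L00621) L00622) L00623
theorem g00088 : Good (Phi V5.P V5.D 1 (-1)) ⟨5, 3, 3, 2, 3, 3, 2, 3, 0, 0⟩ :=
  Good.n4 (Good.n4 L00614 (Good.n4 L00615 L00616)) (Good.n4 (Good.n4 (Good.n3 g00087 L00624) L00625) L00626)
theorem g00089 : Good (Phi V5.P V5.D 1 (-1)) ⟨4, 1, 3, 3, 3, 3, 1, 0, 0, 0⟩ :=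
  Good.n3 (Good.n4 (Good.n4 (Good.n4 L00627 L00628) L00629) L00630) (Good.n4 (Good.n4 (Good.n4 L00631 L00632) (Good.n4 (Good.n4 L00633 L00634) L00635)) L00636)
theorem g00090 : Good (Phi V5.P V5.D 1 (-1)) ⟨4, 1, 3, 3, 3, 3, 1, 1, 3, 3⟩ :=
  Good.n3 (Good.n4 L00641 (Good.n2 L00642 (Good.n3 L00643 L00644))) (Good.n3 (Good.n2 L00645 L00646) L00647)
theorem g00091 : Good (Phi V5.P V5.D 1 (-1)) ⟨4, 1, 3, 3, 3, 3, 2, 3, 4, 8⟩ :=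
  Good.n3 (Good.n2 (Good.n3 (Good.n4 (Good.n4 (Good.n3 L00653 L00654) L00655) L00656) L00657) L00658) L00659
theorem g00092 : Good (Phi V5.P V5.D 1 (-1)) ⟨4, 1, 3, 3, 3, 3, 1, 1, 3, 4⟩ :=
  Good.n4 (Good.n3 (Good.n3 L00648 (Good.n4 (Good.n2 L00649 (Good.n3 L00650 L00651)) L00652)) g00091) (Good.n3 L00660 L00661)
theorem g00093 : Good (Phi V5.P V5.D 1 (-1)) ⟨4, 1, 3, 3, 3, 3, 1, 1, 0, 0⟩ :=
  Good.n4 (Good.n4 (Good.n4 L00637 L00638) (Good.n4 (Good.n3 L00639 L00640) g00090)) (Good.n4 (Good.n4 g00092 L00662) L00663)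
theorem g00094 : Good (Phi V5.P V5.D 1 (-1)) ⟨4, 1, 2, 1, 3, 3, 0, 0, 0, 0⟩ :=
  Good.n1 (Good.n0 (Good.n3 g00065 g00078) (Good.n3 g00079 (Good.n3 g00086 g00088))) (Good.n3 g00089 g00093)
theorem g00095 : Good (Phi V5.P V5.D 1 (-1)) ⟨4, 1, 2, 1, 1, 0, 0, 0, 0, 0⟩ :=
  Good.n2 (Good.n1 (Good.n4 g00042 L00309) (Good.n4 (Good.n0 g00046 g00048) L00357)) (Good.n2 g00064 g00094)
theorem g00096 : Good (Phi V5.P V5.D 1 (-1)) ⟨3, 1, 3, 2, 1, 0, 0, 0, 2, 0⟩ :=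
  Good.n4 (Good.n4 (Good.n3 (Good.n3 L00664 L00665) (Good.n3 L00666 L00667)) (Good.n3 L00668 L00669)) (Good.n3 L00670 (Good.n2 L00671 L00672))
theorem g00097 : Good (Phi V5.P V5.D 1 (-1)) ⟨3, 1, 3, 2, 2, 1, 0, 0, 2, 1⟩ :=
  Good.n3 (Good.n4 (Good.n3 L00679 (Good.n4 L00680 (Good.n3 L00681 L00682))) L00683) (Good.n4 (Good.n3 L00684 L00685) (Good.n3 (Good.n4 L00686 L00687) (Good.n3 L00688 L00689)))
theorem g00098 : Good (Phi V5.P V5.D 1 (-1)) ⟨3, 1, 3, 2, 1, 0, 0, 0, 2, 1⟩ :=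
  Good.n2 (Good.n3 (Good.n4 (Good.n4 L00673 L00674) L00675) (Good.n4 (Good.n3 L00676 L00677) L00678)) g00097
theorem g00099 : Good (Phi V5.P V5.D 1 (-1)) ⟨3, 1, 3, 3, 1, 0, 1, 0, 1, 0⟩ :=
  Good.n4 (Good.n4 (Good.n4 (Good.n3 L00691 L00692) L00693) L00694) (Good.n4 (Good.n4 L00695 (Good.n3 L00696 (Good.n4 L00697 L00698))) L00699)
theorem g00100 : Good (Phi V5.P V5.D 1 (-1)) ⟨4, 2, 4, 6, 3, 3, 2, 2, 2, 2⟩ :=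
  Good.n4 (Good.n4 (Good.n3 L00713 (Good.n4 (Good.n2 L00714 (Good.n3 L00715 L00716)) L00717)) L00718) L00719
theorem g00101 : Good (Phi V5.P V5.D 1 (-1)) ⟨4, 2, 4, 6, 2, 1, 2, 2, 0, 0⟩ :=
  Good.n2 (Good.n4 (Good.n4 L00705 (Good.n4 L00706 L00707)) L00708) (Good.n4 (Good.n4 L00709 (Good.n4 L00710 (Good.n4 L00711 L00712))) (Good.n4 g00100 L00720))
theorem g00102 : Good (Phi V5.P V5.D 1 (-1)) ⟨4, 2, 4, 7, 4, 4, 3, 4, 0, 0⟩ :=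
  Good.n3 (Good.n4 (Good.n4 L00721 (Good.n4 L00722 L00723)) L00724) (Good.n4 (Good.n4 L00725 L00726) L00727)
theorem g00103 : Good (Phi V5.P V5.D 1 (-1)) ⟨4, 2, 6, 29, 4, 5, 4, 8, 0, 0⟩ :=
  Good.n3 (Good.n4 (Good.n4 L00732 (Good.n4 L00733 L00734)) L00735) (Good.n4 (Good.n4 L00736 L00737) L00738)
theorem g00104 : Good (Phi V5.P V5.D 1 (-1)) ⟨4, 2, 4, 7, 4, 5, 4, 8, 0, 0⟩ :=
  Good.n1 (Good.n1 (Good.n4 (Good.n4 L00728 (Good.n4 L00729 L00730)) L00731) g00103) (Good.n4 (Good.n4 L00739 (Good.n4 L00740 L00741)) L00742)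
theorem g00105 : Good (Phi V5.P V5.D 1 (-1)) ⟨4, 2, 4, 7, 2, 1, 3, 4, 0, 0⟩ :=
  Good.n2 (Good.n2 g00102 (Good.n3 g00104 (Good.n4 (Good.n4 L00743 L00744) L00745))) (Good.n4 (Good.n4 L00746 (Good.n4 L00747 L00748)) L00749)
theorem g00106 : Good (Phi V5.P V5.D 1 (-1)) ⟨4, 2, 5, 14, 2, 1, 3, 5, 2, 2⟩ :=
  Good.n4 (Good.n4 (Good.n2 L00754 (Good.n4 (Good.n2 L00755 (Good.n3 L00756 L00757)) L00758)) L00759) L00760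
theorem g00107 : Good (Phi V5.P V5.D 1 (-1)) ⟨6, 10, 6, 30, 4, 7, 5, 20, 0, 0⟩ :=
  Good.n3 (Good.n4 (Good.n4 L00773 (Good.n4 L00774 L00775)) L00776) (Good.n4 (Good.n4 L00777 (Good.n4 L00778 L00779)) L00780)
theorem g00108 : Good (Phi V5.P V5.D 1 (-1)) ⟨6, 10, 6, 31, 4, 7, 5, 20, 0, 0⟩ :=
  Good.n2 (Good.n4 (Good.n4 L00784 (Good.n4 L00785 L00786)) L00787) (Good.n4 (Good.n4 L00788 (Good.n4 L00789 L00790)) L00791)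
theorem g00109 : Good (Phi V5.P V5.D 1 (-1)) ⟨6, 10, 5, 15, 3, 3, 5, 20, 0, 0⟩ :=
  Good.n1 (Good.n2 (Good.n4 (Good.n4 L00770 L00771) L00772) g00107) (Good.n2 (Good.n4 (Good.n4 L00781 L00782) L00783) g00108)
theorem g00110 : Good (Phi V5.P V5.D 1 (-1)) ⟨6, 10, 5, 15, 2, 1, 4, 10, 0, 0⟩ :=
  Good.n3 (Good.n2 (Good.n4 (Good.n4 L00767 L00768) L00769) g00109) (Good.n4 (Good.n4 L00792 (Good.n4 L00793 (Good.n4 L00794 L00795))) L00796)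
theorem g00111 : Good (Phi V5.P V5.D 1 (-1)) ⟨6, 11, 5, 15, 2, 1, 4, 10, 0, 0⟩ :=
  Good.n3 (Good.n4 (Good.n4 L00797 (Good.n4 L00798 L00799)) L00800) (Good.n4 (Good.n4 L00801 (Good.n4 L00802 (Good.n4 L00803 L00804))) L00805)
theorem g00112 : Good (Phi V5.P V5.D 1 (-1)) ⟨4, 2, 5, 15, 2, 1, 4, 10, 0, 0⟩ :=
  Good.n0 (Good.n4 (Good.n4 L00762 (Good.n4 L00763 (Good.n4 L00764 L00765))) L00766) (Good.n0 g00110 g00111)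
theorem g00113 : Good (Phi V5.P V5.D 1 (-1)) ⟨5, 4, 5, 15, 2, 1, 4, 11, 1, 1⟩ :=
  Good.n4 (Good.n4 (Good.n4 (Good.n2 L00810 (Good.n4 (Good.n2 L00811 L00812) L00813)) L00814) L00815) L00816
theorem g00114 : Good (Phi V5.P V5.D 1 (-1)) ⟨5, 5, 5, 15, 3, 3, 4, 11, 0, 0⟩ :=
  Good.n4 (Good.n4 L00820 (Good.n4 L00821 (Good.n4 L00822 L00823))) (Good.n4 (Good.n4 (Good.n4 (Good.n4 (Good.n2 L00824 L00825) L00826) L00827) L00828) L00829)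
theorem g00115 : Good (Phi V5.P V5.D 1 (-1)) ⟨4, 2, 5, 15, 2, 1, 4, 11, 0, 0⟩ :=
  Good.n0 (Good.n4 (Good.n4 L00806 (Good.n4 L00807 (Good.n4 L00808 L00809))) g00113) (Good.n2 (Good.n4 (Good.n4 L00817 L00818) L00819) g00114)
theorem g00116 : Good (Phi V5.P V5.D 1 (-1)) ⟨4, 2, 4, 7, 2, 1, 3, 5, 0, 0⟩ :=
  Good.n1 (Good.n4 (Good.n4 L00750 (Good.n4 L00751 (Good.n4 L00752 L00753))) (Good.n4 g00106 L00761)) (Good.n3 g00112 g00115)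
theorem g00117 : Good (Phi V5.P V5.D 1 (-1)) ⟨4, 2, 3, 3, 1, 0, 2, 2, 0, 0⟩ :=
  Good.n2 (Good.n4 (Good.n4 L00701 (Good.n4 L00702 L00703)) L00704) (Good.n1 g00101 (Good.n3 g00105 g00116))
theorem g00118 : Good (Phi V5.P V5.D 1 (-1)) ⟨4, 2, 3, 3, 1, 0, 3, 6, 1, 0⟩ :=
  Good.n4 L00830 (Good.n4 (Good.n2 L00831 L00832) (Good.n2 L00833 (Good.n2 L00834 (Good.n4 L00835 L00836))))
theorem g00119 : Good (Phi V5.P V5.D 1 (-1)) ⟨4, 2, 3, 3, 3, 2, 3, 6, 4, 8⟩ :=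
  Good.n4 (Good.n3 L00838 (Good.n4 (Good.n2 L00839 (Good.n3 L00840 (Good.n2 L00841 L00842))) L00843)) L00844
theorem g00120 : Good (Phi V5.P V5.D 1 (-1)) ⟨4, 2, 3, 3, 2, 1, 3, 6, 4, 8⟩ :=
  Good.n2 g00119 (Good.n2 (Good.n3 (Good.n4 (Good.n4 (Good.n3 L00845 L00846) L00847) L00848) L00849) L00850)
theorem g00121 : Good (Phi V5.P V5.D 1 (-1)) ⟨4, 2, 3, 3, 1, 0, 2, 3, 0, 0⟩ :=
  Good.n3 (Good.n4 g00118 (Good.n4 (Good.n4 (Good.n2 L00837 (Good.n4 g00120 L00851)) L00852) L00853)) (Good.n4 (Good.n4 (Good.n4 L00854 L00855) (Good.n4 L00856 (Good.n2 L00857 L00858))) L00859)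
theorem g00122 : Good (Phi V5.P V5.D 1 (-1)) ⟨4, 3, 3, 3, 1, 0, 2, 3, 2, 1⟩ :=
  Good.n3 (Good.n4 L00870 (Good.n2 L00871 (Good.n2 L00872 L00873))) (Good.n4 L00874 (Good.n4 L00875 L00876))
theorem g00123 : Good (Phi V5.P V5.D 1 (-1)) ⟨4, 3, 3, 3, 1, 0, 1, 1, 2, 1⟩ :=
  Good.n3 (Good.n4 L00864 (Good.n2 L00865 (Good.n4 L00866 (Good.n1 L00867 (Good.n4 L00868 L00869))))) g00122
theorem g00124 : Good (Phi V5.P V5.D 1 (-1)) ⟨3, 1, 3, 3, 1, 0, 1, 1, 0, 0⟩ :=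
  Good.n0 (Good.n3 g00117 g00121) (Good.n4 (Good.n4 (Good.n4 (Good.n3 L00860 L00861) (Good.n2 L00862 L00863)) g00123) L00877)
theorem g00125 : Good (Phi V5.P V5.D 1 (-1)) ⟨2, 0, 2, 1, 1, 0, 0, 0, 0, 0⟩ :=
  Good.n0 (Good.n0 (Good.n3 g00016 g00040) g00095) (Good.n1 (Good.n4 (Good.n4 g00096 g00098) L00690) (Good.n3 (Good.n4 g00099 L00700) g00124))
theorem g00126 : Good (Phi V5.P V5.D 1 (-1)) ⟨2, 0, 2, 1, 2, 3, 2, 0, 3, 0⟩ :=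
  Good.n3 (Good.n2 (Good.n3 (Good.n3 L00881 L00882) L00883) (Good.n4 L00884 (Good.n2 L00885 L00886))) (Good.n4 L00887 L00888)
theorem g00127 : Good (Phi V5.P V5.D 1 (-1)) ⟨2, 0, 2, 1, 2, 3, 2, 0, 4, 2⟩ :=
  Good.n4 (Good.n3 (Good.n2 (Good.n3 (Good.n3 L00892 L00893) L00894) L00895) L00896) (Good.n2 (Good.n3 (Good.n3 L00897 L00898) L00899) (Good.n3 L00900 L00901))
theorem g00128 : Good (Phi V5.P V5.D 1 (-1)) ⟨2, 0, 2, 1, 1, 1, 2, 0, 3, 1⟩ :=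
  Good.n4 (Good.n2 (Good.n3 (Good.n3 L00889 L00890) L00891) g00127) (Good.n2 (Good.n3 L00902 L00903) (Good.n2 L00904 L00905))
theorem g00129 : Good (Phi V5.P V5.D 1 (-1)) ⟨2, 0, 2, 1, 1, 1, 1, 0, 2, 0⟩ :=
  Good.n3 (Good.n4 (Good.n2 (Good.n4 L00878 (Good.n3 L00879 L00880)) g00126) g00128) (Good.n4 L00906 (Good.n4 L00907 L00908))
theorem g00130 : Good (Phi V5.P V5.D 1 (-1)) ⟨2, 0, 2, 1, 1, 1, 1, 0, 3, 2⟩ :=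
  Good.n4 (Good.n2 (Good.n3 L00909 L00910) (Good.n2 L00911 L00912)) (Good.n2 (Good.n3 L00913 (Good.n0 L00914 L00915)) (Good.n3 (Good.n4 L00916 L00917) L00918))
theorem g00131 : Good (Phi V5.P V5.D 1 (-1)) ⟨2, 0, 2, 1, 9, 304, 8, 126, 9, 224⟩ :=
  Good.n4 (Good.n2 (Good.n3 L00939 (Good.n4 (Good.n2 (Good.n3 L00940 L00941) L00942) L00943)) L00944) L00945
theorem g00132 : Good (Phi V5.P V5.D 1 (-1)) ⟨2, 0, 2, 1, 8, 152, 6, 31, 8, 112⟩ :=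
  Good.n3 (Good.n4 (Good.n3 L00933 (Good.n4 (Good.n3 L00934 (Good.n2 L00935 L00936)) L00937)) L00938) (Good.n4 (Good.n2 (Good.n3 g00131 L00946) L00947) L00948)
theorem g00133 : Good (Phi V5.P V5.D 1 (-1)) ⟨2, 0, 2, 1, 6, 38, 5, 15, 7, 56⟩ :=
  Good.n2 (Good.n3 L00932 (Good.n4 (Good.n2 g00132 L00949) L00950)) (Good.n3 (Good.n4 (Good.n2 L00951 L00952) L00953) L00954)
theorem g00134 : Good (Phi V5.P V5.D 1 (-1)) ⟨2, 0, 2, 1, 5, 19, 4, 7, 6, 28⟩ :=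
  Good.n3 (Good.n4 (Good.n3 L00928 (Good.n2 L00929 L00930)) L00931) (Good.n2 (Good.n4 g00133 L00955) L00956)
theorem g00135 : Good (Phi V5.P V5.D 1 (-1)) ⟨2, 0, 2, 1, 3, 4, 2, 1, 4, 7⟩ :=
  Good.n3 L00924 (Good.n4 (Good.n2 L00925 (Good.n3 L00926 (Good.n4 (Good.n2 L00927 g00134) L00957))) L00958)
theorem g00136 : Good (Phi V5.P V5.D 1 (-1)) ⟨2, 0, 2, 1, 4, 10, 2, 1, 4, 7⟩ :=
  Good.n4 (Good.n3 L00959 (Good.n2 (Good.n4 (Good.n3 (Good.n3 L00960 L00961) L00962) L00963) L00964)) L00965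
theorem g00137 : Good (Phi V5.P V5.D 1 (-1)) ⟨2, 0, 2, 1, 1, 1, 1, 0, 3, 3⟩ :=
  Good.n4 (Good.n2 (Good.n3 L00919 (Good.n2 L00920 L00921)) L00922) (Good.n2 (Good.n3 L00923 (Good.n2 g00135 (Good.n2 g00136 L00966))) L00967)
theorem g00138 : Good (Phi V5.P V5.D 1 (-1)) ⟨2, 0, 2, 1, 1, 1, 1, 0, 0, 0⟩ :=
  Good.n4 (Good.n4 g00129 (Good.n4 g00130 g00137)) (Good.n2 (Good.n4 (Good.n4 (Good.n2 L00968 L00969) L00970) L00971) L00972)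
theorem g00139 : Good (Phi V5.P V5.D 1 (-1)) ⟨2, 0, 3, 2, 1, 1, 1, 1, 2, 0⟩ :=
  Good.n4 (Good.n3 L00973 L00974) (Good.n3 (Good.n4 L00975 (Good.n4 L00976 L00977)) (Good.n4 L00978 (Good.n2 L00979 L00980)))
theorem g00140 : Good (Phi V5.P V5.D 1 (-1)) ⟨2, 0, 3, 2, 1, 1, 2, 2, 3, 2⟩ :=
  Good.n4 (Good.n2 L00981 (Good.n4 (Good.n2 L00982 L00983) L00984)) (Good.n2 (Good.n0 L00985 L00986) L00987)
theorem g00141 : Good (Phi V5.P V5.D 1 (-1)) ⟨2, 0, 3, 2, 1, 1, 1, 1, 3, 2⟩ :=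
  Good.n3 g00140 (Good.n4 (Good.n2 (Good.n2 L00988 L00989) L00990) (Good.n2 (Good.n3 L00991 L00992) L00993))
theorem g00142 : Good (Phi V5.P V5.D 1 (-1)) ⟨2, 0, 3, 2, 3, 4, 2, 2, 4, 7⟩ :=
  Good.n4 (Good.n2 L00997 L00998) (Good.n2 (Good.n3 (Good.n3 L00999 (Good.n4 (Good.n2 L01000 L01001) L01002)) L01003) L01004)
theorem g00143 : Good (Phi V5.P V5.D 1 (-1)) ⟨2, 0, 3, 2, 1, 1, 1, 1, 3, 3⟩ :=
  Good.n2 (Good.n3 (Good.n4 (Good.n2 (Good.n3 L00994 L00995) L00996) (Good.n2 g00142 L01005)) L01006) L01007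
theorem g00144 : Good (Phi V5.P V5.D 1 (-1)) ⟨2, 0, 3, 2, 2, 2, 1, 1, 2, 2⟩ :=
  Good.n2 (Good.n4 (Good.n3 (Good.n2 (Good.n4 (Good.n3 L01008 L01009) L01010) L01011) L01012) L01013) L01014
theorem g00145 : Good (Phi V5.P V5.D 1 (-1)) ⟨2, 0, 3, 3, 1, 1, 2, 3, 3, 1⟩ :=
  Good.n4 (Good.n2 L01022 L01023) (Good.n2 L01024 (Good.n3 (Good.n4 L01025 (Good.n0 L01026 L01027)) L01028))
theorem g00146 : Good (Phi V5.P V5.D 1 (-1)) ⟨2, 0, 3, 3, 1, 1, 2, 2, 3, 2⟩ :=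
  Good.n4 (Good.n2 L01029 (Good.n2 L01030 L01031)) (Good.n2 (Good.n2 L01032 (Good.n0 L01033 L01034)) (Good.n2 L01035 L01036))
theorem g00147 : Good (Phi V5.P V5.D 1 (-1)) ⟨2, 0, 3, 3, 1, 1, 2, 3, 3, 2⟩ :=
  Good.n4 (Good.n2 (Good.n4 L01037 L01038) L01039) (Good.n2 (Good.n3 (Good.n2 L01040 L01041) L01042) L01043)
theorem g00148 : Good (Phi V5.P V5.D 1 (-1)) ⟨2, 0, 3, 3, 3, 4, 2, 2, 4, 7⟩ :=
  Good.n4 (Good.n3 (Good.n2 L01050 L01051) (Good.n2 L01052 L01053)) (Good.n2 (Good.n3 (Good.n3 L01054 (Good.n4 (Good.n2 L01055 L01056) L01057)) L01058) L01059)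
theorem g00149 : Good (Phi V5.P V5.D 1 (-1)) ⟨2, 0, 3, 3, 2, 2, 2, 2, 3, 3⟩ :=
  Good.n4 (Good.n2 (Good.n3 (Good.n2 L01044 L01045) (Good.n2 L01046 L01047)) (Good.n3 L01048 L01049)) (Good.n2 g00148 L01060)
theorem g00150 : Good (Phi V5.P V5.D 1 (-1)) ⟨2, 0, 3, 3, 1, 1, 1, 1, 2, 1⟩ :=
  Good.n4 (Good.n3 g00146 g00147) (Good.n2 (Good.n3 g00149 (Good.n2 (Good.n4 L01061 L01062) L01063)) L01064)
theorem g00151 : Good (Phi V5.P V5.D 1 (-1)) ⟨2, 0, 3, 3, 1, 1, 1, 1, 1, 0⟩ :=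
  Good.n4 (Good.n4 (Good.n4 L01017 L01018) (Good.n3 (Good.n4 L01019 (Good.n2 L01020 L01021)) g00145)) g00150
theorem g00152 : Good (Phi V5.P V5.D 1 (-1)) ⟨2, 0, 3, 3, 2, 2, 1, 1, 2, 2⟩ :=
  Good.n2 (Good.n4 (Good.n3 (Good.n2 (Good.n4 (Good.n3 L01065 L01066) L01067) L01068) L01069) L01070) L01071
theorem g00153 : Good (Phi V5.P V5.D 1 (-1)) ⟨2, 0, 2, 1, 1, 1, 1, 1, 0, 0⟩ :=
  Good.n1 (Good.n4 (Good.n4 g00139 (Good.n4 g00141 g00143)) (Good.n2 (Good.n4 g00144 L01015) L01016)) (Good.n4 g00151 (Good.n2 (Good.n4 g00152 L01072) L01073))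
theorem g00154 : Good (Phi V5.P V5.D 1 (-1)) ⟨2, 0, 1, 0, 0, 0, 0, 0, 0, 0⟩ :=
  Good.n1 (Good.n2 (Good.n3 (Good.n4 g00001 L00014) (Good.n4 (Good.n4 g00002 g00003) L00031)) g00014) (Good.n2 g00125 (Good.n3 g00138 g00153))
theorem g00155 : Good (Phi V5.P V5.D 1 (-1)) ⟨2, 1, 2, 0, 1, 0, 1, 0, 2, 1⟩ :=
  Good.n4 (Good.n4 (Good.n3 L01079 L01080) (Good.n3 L01081 (Good.n3 L01082 (Good.n2 L01083 L01084)))) L01085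
theorem g00156 : Good (Phi V5.P V5.D 1 (-1)) ⟨2, 1, 2, 0, 1, 0, 1, 0, 0, 0⟩ :=
  Good.n4 (Good.n4 (Good.n4 (Good.n4 (Good.n3 (Good.n4 L01074 L01075) L01076) L01077) L01078) g00155) L01086
theorem g00157 : Good (Phi V5.P V5.D 1 (-1)) ⟨2, 1, 2, 0, 1, 0, 1, 1, 2, 1⟩ :=
  Good.n3 (Good.n4 (Good.n0 L01092 L01093) (Good.n0 L01094 L01095)) (Good.n4 (Good.n2 L01096 L01097) (Good.n3 L01098 L01099))
theorem g00158 : Good (Phi V5.P V5.D 1 (-1)) ⟨2, 1, 2, 0, 1, 0, 1, 1, 0, 0⟩ :=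
  Good.n4 (Good.n4 (Good.n4 (Good.n3 L01087 L01088) (Good.n3 L01089 (Good.n3 L01090 L01091))) g00157) L01100
theorem g00159 : Good (Phi V5.P V5.D 1 (-1)) ⟨2, 1, 2, 0, 1, 1, 3, 0, 3, 0⟩ :=
  Good.n2 (Good.n4 L01101 L01102) (Good.n4 (Good.n2 L01103 L01104) (Good.n2 (Good.n3 (Good.n0 L01105 L01106) L01107) L01108))
theorem g00160 : Good (Phi V5.P V5.D 1 (-1)) ⟨2, 1, 2, 0, 1, 1, 2, 0, 3, 1⟩ :=
  Good.n2 (Good.n4 (Good.n3 L01113 L01114) L01115) (Good.n3 (Good.n4 (Good.n2 (Good.n3 (Good.n3 L01116 L01117) L01118) L01119) L01120) L01121)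
theorem g00161 : Good (Phi V5.P V5.D 1 (-1)) ⟨2, 1, 2, 0, 1, 1, 1, 0, 2, 0⟩ :=
  Good.n4 (Good.n3 (Good.n3 g00159 (Good.n2 L01109 L01110)) (Good.n2 L01111 L01112)) (Good.n3 g00160 (Good.n2 L01122 L01123))
theorem g00162 : Good (Phi V5.P V5.D 1 (-1)) ⟨2, 1, 2, 0, 2, 3, 1, 0, 4, 4⟩ :=
  Good.n3 (Good.n2 L01128 L01129) (Good.n4 (Good.n0 L01130 L01131) (Good.n2 L01132 (Good.n0 L01133 L01134)))
theorem g00163 : Good (Phi V5.P V5.D 1 (-1)) ⟨2, 1, 2, 0, 1, 1, 1, 0, 3, 2⟩ :=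
  Good.n2 (Good.n4 (Good.n3 L01124 L01125) (Good.n3 L01126 L01127)) (Good.n4 g00162 (Good.n3 L01135 (Good.n4 L01136 L01137)))
theorem g00164 : Good (Phi V5.P V5.D 1 (-1)) ⟨2, 1, 2, 0, 9, 304, 8, 126, 9, 224⟩ :=
  Good.n4 (Good.n2 (Good.n3 L01156 (Good.n4 (Good.n2 (Good.n3 L01157 L01158) L01159) L01160)) L01161) L01162
theorem g00165 : Good (Phi V5.P V5.D 1 (-1)) ⟨2, 1, 2, 0, 8, 152, 6, 31, 8, 112⟩ :=
  Good.n3 (Good.n4 (Good.n3 L01150 (Good.n4 (Good.n3 L01151 (Good.n2 L01152 L01153)) L01154)) L01155) (Good.n4 (Good.n2 (Good.n3 g00164 L01163) L01164) L01165)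
theorem g00166 : Good (Phi V5.P V5.D 1 (-1)) ⟨2, 1, 2, 0, 6, 38, 5, 15, 7, 56⟩ :=
  Good.n2 (Good.n3 L01149 (Good.n4 (Good.n2 g00165 L01166) L01167)) (Good.n3 (Good.n4 (Good.n2 L01168 L01169) L01170) L01171)
theorem g00167 : Good (Phi V5.P V5.D 1 (-1)) ⟨2, 1, 2, 0, 5, 19, 4, 7, 6, 28⟩ :=
  Good.n3 (Good.n4 (Good.n3 L01145 (Good.n2 L01146 L01147)) L01148) (Good.n2 (Good.n4 g00166 L01172) L01173)
theorem g00168 : Good (Phi V5.P V5.D 1 (-1)) ⟨2, 1, 2, 0, 3, 4, 2, 1, 4, 7⟩ :=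
  Good.n3 L01141 (Good.n4 (Good.n2 L01142 (Good.n3 L01143 (Good.n4 (Good.n2 L01144 g00167) L01174))) L01175)
theorem g00169 : Good (Phi V5.P V5.D 1 (-1)) ⟨2, 1, 2, 0, 4, 10, 2, 1, 4, 7⟩ :=
  Good.n4 (Good.n3 L01176 (Good.n2 (Good.n4 (Good.n3 (Good.n3 L01177 L01178) L01179) L01180) L01181)) L01182
theorem g00170 : Good (Phi V5.P V5.D 1 (-1)) ⟨2, 1, 2, 0, 1, 1, 1, 0, 3, 3⟩ :=
  Good.n4 (Good.n2 L01138 L01139) (Good.n2 (Good.n3 L01140 (Good.n2 g00168 (Good.n2 g00169 L01183))) L01184)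
theorem g00171 : Good (Phi V5.P V5.D 1 (-1)) ⟨2, 1, 2, 0, 1, 1, 1, 0, 0, 0⟩ :=
  Good.n4 (Good.n4 g00161 (Good.n4 g00163 g00170)) (Good.n2 (Good.n4 (Good.n4 (Good.n2 L01185 L01186) L01187) L01188) L01189)
theorem g00172 : Good (Phi V5.P V5.D 1 (-1)) ⟨2, 1, 2, 0, 1, 1, 1, 1, 2, 0⟩ :=
  Good.n4 (Good.n3 L01190 L01191) (Good.n4 (Good.n3 L01192 L01193) (Good.n3 (Good.n4 L01194 L01195) L01196))
theorem g00173 : Good (Phi V5.P V5.D 1 (-1)) ⟨2, 1, 2, 0, 1, 1, 2, 2, 3, 2⟩ :=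
  Good.n4 (Good.n2 L01197 (Good.n4 (Good.n0 L01198 L01199) (Good.n0 L01200 L01201))) (Good.n2 L01202 L01203)
theorem g00174 : Good (Phi V5.P V5.D 1 (-1)) ⟨2, 1, 2, 0, 1, 1, 1, 1, 2, 1⟩ :=
  Good.n4 (Good.n3 g00173 (Good.n4 (Good.n2 (Good.n3 L01204 L01205) L01206) (Good.n2 L01207 L01208))) (Good.n2 (Good.n3 (Good.n4 (Good.n0 L01209 L01210) (Good.n2 L01211 L01212)) L01213) L01214)
theorem g00175 : Good (Phi V5.P V5.D 1 (-1)) ⟨2, 1, 2, 0, 2, 2, 1, 1, 2, 2⟩ :=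
  Good.n2 (Good.n4 (Good.n3 (Good.n2 (Good.n4 (Good.n3 L01215 L01216) L01217) L01218) L01219) L01220) L01221
theorem g00176 : Good (Phi V5.P V5.D 1 (-1)) ⟨2, 1, 2, 0, 0, 0, 0, 0, 0, 0⟩ :=
  Good.n2 (Good.n3 g00156 g00158) (Good.n3 g00171 (Good.n4 (Good.n4 g00172 g00174) (Good.n2 (Good.n4 g00175 L01222) L01223)))
theorem g00177 : Good (Phi V5.P V5.D 1 (-1)) ⟨2, 1, 2, 1, 1, 0, 3, 0, 0, 0⟩ :=
  Good.n3 (Good.n4 (Good.n4 (Good.n4 (Good.n4 L01224 L01225) L01226) L01227) L01228) (Good.n4 (Good.n4 (Good.n4 L01229 L01230) L01231) L01232)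
theorem g00178 : Good (Phi V5.P V5.D 1 (-1)) ⟨2, 1, 2, 1, 3, 3, 3, 2, 0, 0⟩ :=
  Good.n3 (Good.n4 (Good.n4 (Good.n4 L01248 L01249) (Good.n4 L01250 L01251)) L01252) (Good.n4 (Good.n4 (Good.n4 L01253 L01254) (Good.n4 L01255 L01256)) L01257)
theorem g00179 : Good (Phi V5.P V5.D 1 (-1)) ⟨2, 1, 2, 1, 2, 1, 2, 1, 0, 0⟩ :=
  Good.n3 (Good.n2 (Good.n4 (Good.n4 (Good.n4 L01243 L01244) (Good.n4 L01245 L01246)) L01247) g00178) (Good.n4 (Good.n4 (Good.n4 L01258 L01259) (Good.n4 (Good.n4 L01260 L01261) L01262)) L01263)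
theorem g00180 : Good (Phi V5.P V5.D 1 (-1)) ⟨2, 1, 2, 1, 1, 0, 2, 1, 0, 0⟩ :=
  Good.n2 (Good.n4 (Good.n4 (Good.n4 L01237 L01238) (Good.n4 (Good.n4 L01239 L01240) L01241)) L01242) g00179
theorem g00181 : Good (Phi V5.P V5.D 1 (-1)) ⟨2, 1, 2, 1, 2, 1, 2, 2, 4, 7⟩ :=
  Good.n2 L01275 (Good.n0 (Good.n3 L01276 (Good.n2 L01277 L01278)) (Good.n3 L01279 (Good.n2 L01280 L01281)))
theorem g00182 : Good (Phi V5.P V5.D 1 (-1)) ⟨2, 1, 2, 1, 1, 0, 2, 2, 2, 1⟩ :=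
  Good.n4 (Good.n2 L01269 (Good.n0 L01270 L01271)) (Good.n2 L01272 (Good.n4 (Good.n0 L01273 L01274) g00181))
theorem g00183 : Good (Phi V5.P V5.D 1 (-1)) ⟨2, 1, 2, 1, 1, 0, 2, 3, 2, 1⟩ :=
  Good.n3 (Good.n4 (Good.n0 L01282 L01283) (Good.n2 L01284 (Good.n4 L01285 (Good.n2 L01286 L01287)))) (Good.n4 (Good.n4 L01288 L01289) (Good.n2 L01290 (Good.n4 L01291 L01292)))
theorem g00184 : Good (Phi V5.P V5.D 1 (-1)) ⟨2, 1, 2, 1, 1, 0, 1, 1, 1, 0⟩ :=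
  Good.n4 (Good.n4 (Good.n3 L01264 (Good.n3 L01265 L01266)) (Good.n3 L01267 L01268)) (Good.n3 g00182 g00183)
theorem g00185 : Good (Phi V5.P V5.D 1 (-1)) ⟨2, 1, 2, 1, 1, 0, 0, 0, 0, 0⟩ :=
  Good.n3 (Good.n3 (Good.n3 g00177 (Good.n4 (Good.n4 (Good.n4 L01233 L01234) L01235) L01236)) g00180) (Good.n4 g00184 L01293)
theorem g00186 : Good (Phi V5.P V5.D 1 (-1)) ⟨2, 1, 2, 1, 2, 3, 4, 0, 3, 0⟩ :=
  Good.n4 (Good.n0 L01296 L01297) (Good.n0 (Good.n2 (Good.n3 L01298 L01299) L01300) (Good.n2 (Good.n3 L01301 L01302) L01303))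
theorem g00187 : Good (Phi V5.P V5.D 1 (-1)) ⟨2, 1, 2, 1, 1, 1, 3, 0, 3, 0⟩ :=
  Good.n3 (Good.n2 (Good.n4 L01294 L01295) g00186) (Good.n2 L01304 (Good.n4 L01305 (Good.n0 L01306 L01307)))
theorem g00188 : Good (Phi V5.P V5.D 1 (-1)) ⟨2, 1, 2, 1, 3, 6, 2, 0, 4, 2⟩ :=
  Good.n3 (Good.n3 (Good.n4 (Good.n3 L01318 L01319) (Good.n3 L01320 L01321)) (Good.n4 L01322 L01323)) L01324
theorem g00189 : Good (Phi V5.P V5.D 1 (-1)) ⟨2, 1, 2, 1, 2, 3, 2, 0, 3, 1⟩ :=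
  Good.n2 (Good.n4 g00188 (Good.n3 (Good.n0 L01325 L01326) L01327)) (Good.n4 (Good.n4 (Good.n3 (Good.n0 L01328 L01329) L01330) (Good.n3 L01331 L01332)) L01333)
theorem g00190 : Good (Phi V5.P V5.D 1 (-1)) ⟨2, 1, 2, 1, 1, 1, 2, 0, 3, 1⟩ :=
  Good.n2 (Good.n4 (Good.n3 (Good.n3 (Good.n3 L01312 L01313) L01314) L01315) (Good.n3 L01316 L01317)) g00189
theorem g00191 : Good (Phi V5.P V5.D 1 (-1)) ⟨2, 1, 2, 1, 1, 1, 2, 1, 2, 0⟩ :=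
  Good.n4 (Good.n4 (Good.n2 L01334 L01335) (Good.n2 L01336 L01337)) (Good.n4 (Good.n2 L01338 L01339) (Good.n2 L01340 L01341))
theorem g00192 : Good (Phi V5.P V5.D 1 (-1)) ⟨2, 1, 2, 1, 1, 1, 1, 0, 2, 0⟩ :=
  Good.n3 (Good.n4 (Good.n3 g00187 (Good.n2 L01308 (Good.n4 L01309 (Good.n3 L01310 L01311)))) g00190) g00191
theorem g00193 : Good (Phi V5.P V5.D 1 (-1)) ⟨2, 1, 2, 1, 1, 1, 1, 0, 4, 4⟩ :=
  Good.n2 (Good.n3 (Good.n2 L01342 L01343) (Good.n3 L01344 L01345)) (Good.n3 (Good.n2 L01346 L01347) (Good.n4 L01348 L01349))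
theorem g00194 : Good (Phi V5.P V5.D 1 (-1)) ⟨2, 1, 2, 1, 1, 1, 1, 0, 4, 5⟩ :=
  Good.n0 (Good.n2 (Good.n3 L01350 L01351) (Good.n2 L01352 L01353)) (Good.n2 (Good.n3 L01354 (Good.n3 L01355 L01356)) (Good.n2 (Good.n2 L01357 L01358) L01359))
theorem g00195 : Good (Phi V5.P V5.D 1 (-1)) ⟨2, 1, 2, 1, 9, 304, 8, 126, 9, 224⟩ :=
  Good.n4 (Good.n2 (Good.n3 L01380 (Good.n4 (Good.n2 (Good.n3 L01381 L01382) L01383) L01384)) L01385) L01386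
theorem g00196 : Good (Phi V5.P V5.D 1 (-1)) ⟨2, 1, 2, 1, 8, 152, 6, 31, 8, 112⟩ :=
  Good.n3 (Good.n4 (Good.n3 L01374 (Good.n4 (Good.n3 L01375 (Good.n2 L01376 L01377)) L01378)) L01379) (Good.n4 (Good.n2 (Good.n3 g00195 L01387) L01388) L01389)
theorem g00197 : Good (Phi V5.P V5.D 1 (-1)) ⟨2, 1, 2, 1, 6, 38, 5, 15, 7, 56⟩ :=
  Good.n2 (Good.n3 L01373 (Good.n4 (Good.n2 g00196 L01390) L01391)) (Good.n3 (Good.n4 (Good.n2 L01392 L01393) L01394) L01395)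
theorem g00198 : Good (Phi V5.P V5.D 1 (-1)) ⟨2, 1, 2, 1, 5, 19, 4, 7, 6, 28⟩ :=
  Good.n3 (Good.n4 (Good.n3 L01369 (Good.n2 L01370 L01371)) L01372) (Good.n2 (Good.n4 g00197 L01396) L01397)
theorem g00199 : Good (Phi V5.P V5.D 1 (-1)) ⟨2, 1, 2, 1, 3, 4, 2, 1, 4, 7⟩ :=
  Good.n3 L01365 (Good.n4 (Good.n2 L01366 (Good.n3 L01367 (Good.n4 (Good.n2 L01368 g00198) L01398))) L01399)
theorem g00200 : Good (Phi V5.P V5.D 1 (-1)) ⟨2, 1, 2, 1, 4, 10, 2, 1, 4, 7⟩ :=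
  Good.n4 (Good.n3 L01400 (Good.n2 (Good.n4 (Good.n3 (Good.n3 L01401 L01402) L01403) L01404) L01405)) L01406
theorem g00201 : Good (Phi V5.P V5.D 1 (-1)) ⟨2, 1, 2, 1, 1, 1, 1, 0, 3, 3⟩ :=
  Good.n4 (Good.n2 (Good.n2 L01360 (Good.n2 L01361 L01362)) L01363) (Good.n2 (Good.n3 L01364 (Good.n2 g00199 (Good.n2 g00200 L01407))) L01408)
theorem g00202 : Good (Phi V5.P V5.D 1 (-1)) ⟨2, 1, 2, 1, 1, 1, 1, 0, 0, 0⟩ :=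
  Good.n4 (Good.n4 g00192 (Good.n4 (Good.n4 g00193 g00194) g00201)) (Good.n2 (Good.n4 (Good.n4 (Good.n2 L01409 L01410) L01411) L01412) L01413)
theorem g00203 : Good (Phi V5.P V5.D 1 (-1)) ⟨2, 1, 2, 1, 1, 1, 1, 1, 3, 0⟩ :=
  Good.n3 (Good.n2 L01414 (Good.n4 L01415 L01416)) (Good.n2 L01417 (Good.n0 L01418 (Good.n4 L01419 L01420)))
theorem g00204 : Good (Phi V5.P V5.D 1 (-1)) ⟨2, 1, 2, 1, 1, 1, 1, 1, 4, 3⟩ :=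
  Good.n3 (Good.n2 L01424 (Good.n4 L01425 L01426)) (Good.n2 (Good.n3 L01427 L01428) (Good.n3 (Good.n4 L01429 L01430) L01431))
theorem g00205 : Good (Phi V5.P V5.D 1 (-1)) ⟨2, 1, 2, 1, 1, 1, 2, 2, 3, 2⟩ :=
  Good.n4 (Good.n2 L01432 (Good.n4 (Good.n2 L01433 L01434) (Good.n2 L01435 L01436))) (Good.n2 (Good.n2 L01437 (Good.n3 L01438 L01439)) (Good.n2 (Good.n4 L01440 L01441) L01442))
theorem g00206 : Good (Phi V5.P V5.D 1 (-1)) ⟨2, 1, 2, 1, 1, 1, 2, 3, 3, 2⟩ :=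
  Good.n2 (Good.n4 (Good.n3 (Good.n4 L01443 L01444) L01445) (Good.n3 (Good.n0 L01446 L01447) L01448)) L01449
theorem g00207 : Good (Phi V5.P V5.D 1 (-1)) ⟨2, 1, 2, 1, 2, 2, 2, 2, 4, 6⟩ :=
  Good.n2 (Good.n0 (Good.n3 L01450 (Good.n2 L01451 L01452)) (Good.n3 L01453 (Good.n4 L01454 L01455))) (Good.n3 (Good.n4 L01456 L01457) L01458)
theorem g00208 : Good (Phi V5.P V5.D 1 (-1)) ⟨2, 1, 2, 1, 3, 4, 2, 2, 4, 7⟩ :=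
  Good.n4 (Good.n3 (Good.n2 L01459 L01460) (Good.n2 L01461 L01462)) (Good.n2 (Good.n3 (Good.n3 L01463 (Good.n4 (Good.n2 L01464 L01465) L01466)) L01467) L01468)
theorem g00209 : Good (Phi V5.P V5.D 1 (-1)) ⟨2, 1, 2, 1, 1, 1, 1, 1, 2, 1⟩ :=
  Good.n4 (Good.n3 g00205 g00206) (Good.n2 (Good.n3 (Good.n4 g00207 (Good.n2 g00208 L01469)) L01470) L01471)
theorem g00210 : Good (Phi V5.P V5.D 1 (-1)) ⟨2, 1, 2, 1, 2, 2, 1, 1, 2, 2⟩ :=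
  Good.n2 (Good.n4 (Good.n3 (Good.n2 (Good.n4 (Good.n3 L01472 L01473) L01474) L01475) L01476) L01477) L01478
theorem g00211 : Good (Phi V5.P V5.D 1 (-1)) ⟨2, 1, 2, 1, 1, 1, 1, 1, 0, 0⟩ :=
  Good.n4 (Good.n4 (Good.n4 g00203 (Good.n4 (Good.n3 L01421 (Good.n3 L01422 L01423)) g00204)) g00209) (Good.n2 (Good.n4 g00210 L01479) L01480)
theorem g00212 : Good (Phi V5.P V5.D 1 (-1)) ⟨1, 0, 1, 1, 1, 0, 2, 0, 3, 0⟩ :=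
  Good.n0 (Good.n4 (Good.n2 L01481 L01482) L01483) (Good.n4 (Good.n1 (Good.n3 (Good.n2 L01484 L01485) L01486) L01487) L01488)
theorem g00213 : Good (Phi V5.P V5.D 1 (-1)) ⟨1, 0, 2, 2, 1, 0, 2, 1, 3, 2⟩ :=
  Good.n0 (Good.n4 L01495 (Good.n3 L01496 (Good.n0 L01497 L01498))) (Good.n4 L01499 (Good.n0 L01500 L01501))
theorem g00214 : Good (Phi V5.P V5.D 1 (-1)) ⟨1, 0, 1, 1, 1, 0, 1, 0, 0, 0⟩ :=
  Good.n3 (Good.n4 (Good.n4 (Good.n4 g00212 L01489) (Good.n4 L01490 L01491)) L01492) (Good.n1 (Good.n4 (Good.n4 (Good.n4 L01493 L01494) (Good.n4 g00213 L01502)) L01503) L01504)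
theorem g00215 : Good (Phi V5.P V5.D 1 (-1)) ⟨2, 0, 2, 2, 1, 0, 1, 1, 2, 0⟩ :=
  Good.n2 (Good.n3 (Good.n4 L01505 L01506) (Good.n3 L01507 (Good.n4 (Good.n4 L01508 L01509) L01510))) (Good.n4 L01511 L01512)
theorem g00216 : Good (Phi V5.P V5.D 1 (-1)) ⟨2, 0, 2, 2, 1, 0, 2, 3, 3, 2⟩ :=
  Good.n2 (Good.n4 L01516 (Good.n2 L01517 L01518)) (Good.n3 (Good.n0 (Good.n4 L01519 L01520) L01521) (Good.n2 (Good.n2 L01522 L01523) L01524))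
theorem g00217 : Good (Phi V5.P V5.D 1 (-1)) ⟨2, 0, 2, 2, 2, 0, 2, 3, 3, 3⟩ :=
  Good.n4 (Good.n3 L01526 (Good.n0 (Good.n3 L01527 (Good.n4 L01528 L01529)) (Good.n3 L01530 L01531))) (Good.n3 L01532 (Good.n3 L01533 L01534))
theorem g00218 : Good (Phi V5.P V5.D 1 (-1)) ⟨3, 0, 2, 2, 3, 2, 3, 6, 4, 6⟩ :=
  Good.n1 (Good.n4 L01537 (Good.n3 L01538 (Good.n4 L01539 L01540))) (Good.n0 L01541 (Good.n1 (Good.n4 L01542 L01543) L01544))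
theorem g00219 : Good (Phi V5.P V5.D 1 (-1)) ⟨4, 0, 3, 4, 3, 2, 4, 14, 4, 6⟩ :=
  Good.n4 (Good.n1 L01547 (Good.n2 L01548 L01549)) (Good.n2 (Good.n3 L01550 L01551) (Good.n1 L01552 (Good.n3 L01553 L01554)))
theorem g00220 : Good (Phi V5.P V5.D 1 (-1)) ⟨3, 0, 2, 2, 3, 2, 3, 7, 4, 6⟩ :=
  Good.n3 (Good.n1 (Good.n0 g00219 (Good.n2 L01555 L01556)) (Good.n0 L01557 (Good.n4 L01558 L01559))) L01560
theorem g00221 : Good (Phi V5.P V5.D 1 (-1)) ⟨2, 0, 2, 2, 3, 2, 2, 3, 4, 6⟩ :=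
  Good.n3 (Good.n0 g00218 (Good.n1 L01545 L01546)) (Good.n0 g00220 (Good.n3 (Good.n4 L01561 L01562) L01563))
theorem g00222 : Good (Phi V5.P V5.D 1 (-1)) ⟨2, 0, 2, 2, 4, 5, 3, 6, 4, 7⟩ :=
  Good.n1 (Good.n3 L01565 L01566) (Good.n1 (Good.n3 L01567 (Good.n4 (Good.n3 L01568 L01569) L01570)) L01571)
theorem g00223 : Good (Phi V5.P V5.D 1 (-1)) ⟨2, 0, 2, 2, 3, 2, 3, 7, 4, 7⟩ :=
  Good.n3 (Good.n1 (Good.n2 L01572 L01573) (Good.n2 (Good.n1 L01574 L01575) (Good.n4 L01576 L01577))) L01578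
theorem g00224 : Good (Phi V5.P V5.D 1 (-1)) ⟨2, 0, 2, 2, 4, 7, 4, 11, 5, 13⟩ :=
  Good.n1 (Good.n0 (Good.n2 L01583 L01584) L01585) (Good.n1 (Good.n2 L01586 (Good.n3 L01587 L01588)) L01589)
theorem g00225 : Good (Phi V5.P V5.D 1 (-1)) ⟨2, 0, 2, 2, 4, 6, 3, 5, 4, 7⟩ :=
  Good.n4 (Good.n1 L01591 (Good.n1 (Good.n3 L01592 (Good.n4 L01593 L01594)) L01595)) (Good.n4 (Good.n3 L01596 (Good.n1 L01597 L01598)) L01599)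
theorem g00226 : Good (Phi V5.P V5.D 1 (-1)) ⟨2, 0, 2, 2, 5, 15, 4, 10, 5, 14⟩ :=
  Good.n4 (Good.n1 L01601 (Good.n1 (Good.n3 L01602 (Good.n0 L01603 L01604)) L01605)) (Good.n1 L01606 (Good.n1 (Good.n3 L01607 (Good.n2 L01608 L01609)) L01610))
theorem g00227 : Good (Phi V5.P V5.D 1 (-1)) ⟨2, 0, 2, 2, 5, 14, 4, 11, 5, 14⟩ :=
  Good.n4 (Good.n1 L01611 (Good.n1 (Good.n2 L01612 (Good.n3 L01613 L01614)) L01615)) (Good.n1 L01616 (Good.n1 (Good.n3 (Good.n2 L01617 L01618) (Good.n2 L01619 L01620)) L01621))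
theorem g00228 : Good (Phi V5.P V5.D 1 (-1)) ⟨2, 0, 2, 2, 5, 15, 4, 11, 5, 14⟩ :=
  Good.n4 (Good.n1 L01622 (Good.n1 (Good.n3 (Good.n2 L01623 L01624) L01625) L01626)) (Good.n1 L01627 (Good.n3 (Good.n1 (Good.n2 L01628 L01629) L01630) L01631))
theorem g00229 : Good (Phi V5.P V5.D 1 (-1)) ⟨2, 0, 2, 2, 7, 59, 7, 87, 8, 120⟩ :=
  Good.n4 (Good.n3 L01637 (Good.n2 L01638 (Good.n2 (Good.n4 (Good.n3 L01639 L01640) L01641) L01642))) L01643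
theorem g00230 : Good (Phi V5.P V5.D 1 (-1)) ⟨2, 0, 2, 2, 5, 14, 5, 21, 6, 30⟩ :=
  Good.n4 (Good.n3 L01633 (Good.n2 L01634 (Good.n4 (Good.n3 L01635 (Good.n2 L01636 g00229)) L01644))) L01645
theorem g00231 : Good (Phi V5.P V5.D 1 (-1)) ⟨2, 0, 2, 2, 6, 30, 6, 43, 7, 60⟩ :=
  Good.n2 (Good.n3 (Good.n4 (Good.n4 (Good.n3 L01647 (Good.n2 L01648 L01649)) L01650) L01651) L01652) L01653
theorem g00232 : Good (Phi V5.P V5.D 1 (-1)) ⟨2, 0, 2, 2, 4, 7, 4, 10, 5, 15⟩ :=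
  Good.n4 (Good.n3 L01632 (Good.n2 g00230 (Good.n2 (Good.n4 (Good.n3 L01646 g00231) L01654) L01655))) L01656
theorem g00233 : Good (Phi V5.P V5.D 1 (-1)) ⟨2, 0, 2, 2, 4, 7, 4, 11, 5, 15⟩ :=
  Good.n2 (Good.n4 (Good.n1 L01657 (Good.n1 (Good.n3 L01658 L01659) L01660)) (Good.n3 L01661 L01662)) L01663
theorem g00234 : Good (Phi V5.P V5.D 1 (-1)) ⟨2, 0, 2, 2, 3, 3, 3, 5, 4, 7⟩ :=
  Good.n2 g00225 (Good.n4 (Good.n3 (Good.n2 L01600 g00226) (Good.n2 g00227 g00228)) (Good.n3 g00232 g00233))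
theorem g00235 : Good (Phi V5.P V5.D 1 (-1)) ⟨2, 0, 2, 2, 3, 3, 2, 2, 3, 3⟩ :=
  Good.n4 (Good.n3 L01579 (Good.n4 L01580 (Good.n2 L01581 (Good.n3 L01582 g00224)))) (Good.n3 L01590 g00234)
theorem g00236 : Good (Phi V5.P V5.D 1 (-1)) ⟨2, 0, 2, 2, 3, 3, 3, 6, 5, 13⟩ :=
  Good.n2 (Good.n3 (Good.n1 L01669 L01670) (Good.n1 (Good.n2 L01671 L01672) L01673)) (Good.n3 (Good.n2 (Good.n1 L01674 L01675) L01676) L01677)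
theorem g00237 : Good (Phi V5.P V5.D 1 (-1)) ⟨2, 0, 2, 2, 3, 3, 2, 3, 4, 6⟩ :=
  Good.n3 (Good.n4 (Good.n0 (Good.n1 (Good.n3 L01664 L01665) L01666) (Good.n2 L01667 L01668)) g00236) L01678
theorem g00238 : Good (Phi V5.P V5.D 1 (-1)) ⟨2, 0, 4, 10, 4, 6, 4, 12, 5, 14⟩ :=
  Good.n2 (Good.n0 L01681 (Good.n3 L01682 L01683)) (Good.n0 (Good.n1 (Good.n3 L01684 L01685) L01686) (Good.n4 L01687 (Good.n3 L01688 L01689)))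
theorem g00239 : Good (Phi V5.P V5.D 1 (-1)) ⟨2, 0, 2, 2, 4, 6, 3, 6, 5, 14⟩ :=
  Good.n3 (Good.n1 (Good.n2 L01679 L01680) (Good.n1 g00238 L01690)) (Good.n1 L01691 (Good.n1 (Good.n2 L01692 L01693) L01694))
theorem g00240 : Good (Phi V5.P V5.D 1 (-1)) ⟨2, 0, 4, 10, 6, 24, 5, 25, 6, 31⟩ :=
  Good.n4 (Good.n3 (Good.n4 (Good.n3 L01701 (Good.n4 (Good.n2 L01702 L01703) L01704)) L01705) L01706) L01707
theorem g00241 : Good (Phi V5.P V5.D 1 (-1)) ⟨2, 0, 3, 5, 5, 12, 3, 6, 5, 15⟩ :=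
  Good.n4 (Good.n3 (Good.n1 L01697 L01698) L01699) (Good.n1 (Good.n3 (Good.n3 L01700 (Good.n2 g00240 L01708)) L01709) L01710)
theorem g00242 : Good (Phi V5.P V5.D 1 (-1)) ⟨2, 0, 3, 5, 5, 13, 3, 6, 5, 15⟩ :=
  Good.n3 (Good.n3 (Good.n4 (Good.n1 L01711 L01712) (Good.n2 (Good.n3 L01713 L01714) L01715)) L01716) L01717
theorem g00243 : Good (Phi V5.P V5.D 1 (-1)) ⟨2, 0, 2, 2, 4, 7, 3, 6, 4, 7⟩ :=
  Good.n4 (Good.n3 (Good.n2 (Good.n1 L01718 (Good.n1 (Good.n3 L01719 L01720) L01721)) L01722) L01723) L01724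
theorem g00244 : Good (Phi V5.P V5.D 1 (-1)) ⟨2, 0, 2, 2, 3, 3, 2, 3, 4, 7⟩ :=
  Good.n3 (Good.n2 (Good.n4 g00239 (Good.n1 (Good.n3 L01695 L01696) (Good.n2 g00241 g00242))) g00243) L01725
theorem g00245 : Good (Phi V5.P V5.D 1 (-1)) ⟨2, 0, 2, 2, 2, 1, 1, 1, 3, 3⟩ :=
  Good.n2 (Good.n3 (Good.n4 L01535 L01536) (Good.n4 g00221 (Good.n3 (Good.n2 L01564 g00222) g00223))) (Good.n3 g00235 (Good.n4 g00237 g00244))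
theorem g00246 : Good (Phi V5.P V5.D 1 (-1)) ⟨2, 0, 2, 2, 1, 0, 1, 1, 2, 1⟩ :=
  Good.n4 (Good.n3 (Good.n4 L01513 (Good.n2 L01514 L01515)) g00216) (Good.n2 (Good.n3 L01525 g00217) g00245)
theorem g00247 : Good (Phi V5.P V5.D 1 (-1)) ⟨2, 1, 2, 2, 1, 0, 1, 1, 3, 2⟩ :=
  Good.n2 (Good.n3 L01731 L01732) (Good.n3 (Good.n3 L01733 L01734) (Good.n2 L01735 (Good.n0 L01736 L01737)))
theorem g00248 : Good (Phi V5.P V5.D 1 (-1)) ⟨3, 2, 2, 2, 3, 3, 2, 2, 4, 6⟩ :=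
  Good.n3 L01740 (Good.n4 L01741 (Good.n2 L01742 (Good.n1 L01743 (Good.n1 (Good.n3 L01744 L01745) L01746))))
theorem g00249 : Good (Phi V5.P V5.D 1 (-1)) ⟨2, 1, 2, 2, 2, 1, 3, 6, 4, 6⟩ :=
  Good.n0 (Good.n2 L01752 (Good.n2 L01753 (Good.n4 L01754 (Good.n3 L01755 L01756)))) (Good.n1 L01757 L01758)

end Crest.Agent.R097C5.N5pm
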