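import Crest.Agent.R097.KP7
import Crest.Agent.R097.T5Ypp

/-!
# Row 97, box cover in dimension n = 5 (generated)
-/

set_option autoImplicit false
set_option Elab.async false
set_option maxHeartbeats 0
set_option maxRecDepth 100000

open Crest.Agent.R097 Crest.Agent.R097.KA


namespace Crest.Agent.R097C5.N5pp

theorem L05639 : Good (Phi V5.P V5.D 1 1) ⟨3, 7, 2, 2, 2, 2, 2, 2, 4, 1⟩ :=
  leafX_sound T5.ok_pp T5.Ypp.bz_eq (w := 203) (c := ⟨⟨.negSucc 1653, .ofNat 185, .negSucc 1102, .negSucc 2200, .negSucc 2205, .negSucc 823⟩, ⟨.negSucc 717, .negSucc 585, .negSucc 1274, .negSucc 1409, .negSucc 1436, .negSucc 520⟩, ⟨.ofNat 1148, .ofNat 520, .ofNat 587, .ofNat 1017, .ofNat 2124, .ofNat 779⟩, ⟨.negSucc 2168, .negSucc 94, .negSucc 1271, .negSucc 4519, .negSucc 3768, .negSucc 989⟩, ⟨.negSucc 777, .negSucc 311, .ofNat 752, .ofNat 2147, .ofNat 870, .negSucc 264⟩, .ofNat 977, .negSucc 992, .ofNat 0,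 .negSucc 992, .ofNat 1518, .ofNat 0, .ofNat 128, .ofNat 287, .negSucc 496, .ofNat 0, .ofNat 230, .negSucc 300, .ofNat 0, .ofNat 0, .ofNat 552, .ofNat 151, .ofNat 0, .ofNat 0, .ofNat 189303917649800639401449276890415104, .ofNat 176657359817072742332895052134163832373248, .ofNat 0, .ofNat 0, .ofNat 11421377309036423913372040977436377088, .ofNat 0, .ofNat 0, .ofNat 0, .ofNat 1385200332935204096207398627448979456, .ofNat 3095249736666710929855387878183322519601152, .ofNat 0, .ofNat 0, .ofNat 0, .ofNat 6044311688799099203917700830689357163659264⟩)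
    (by decide +kernel)
theorem L05640 : Good (Phi V5.P V5.D 1 1) ⟨2, 2, 2, 3, 2, 2, 2, 2, 3, 0⟩ :=
  out_sound (S := T5.ds_pp) T5.ok_pp (w := 37) (j := 3) (by decide +kernel)
theorem L05641 : Good (Phi V5.P V5.D 1 1) ⟨3, 6, 2, 3, 2, 2, 2, 2, 3, 0⟩ :=
  out_sound (S := T5.ds_pp) T5.ok_pp (w := 43) (j := 3) (by decide +kernel)
theorem L05642 : Good (Phi V5.P V5.D 1 1) ⟨5, 28, 3, 6, 2, 2, 2, 2, 3, 0⟩ :=
  out_sound (S := T5.ds_pp) T5.ok_pp (w := 57) (j := 3) (by decide +kernel)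
theorem L05643 : Good (Phi V5.P V5.D 1 1) ⟨5, 29, 3, 6, 2, 2, 2, 2, 3, 0⟩ :=
  out_sound (S := T5.ds_pp) T5.ok_pp (w := 17) (j := 4) (by decide +kernel)
theorem L05644 : Good (Phi V5.P V5.D 1 1) ⟨4, 14, 3, 7, 2, 2, 2, 2, 3, 0⟩ :=
  out_sound (S := T5.ds_pp) T5.ok_pp (w := 51) (j := 3) (by decide +kernel)
theorem L05645 : Good (Phi V5.P V5.D 1 1) ⟨4, 15, 2, 3, 2, 2, 2, 2, 3, 0⟩ :=
  out_sound (S := T5.ds_pp) T5.ok_pp (w := 15) (j := 4) (by decide +kernel)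
theorem L05646 : Good (Phi V5.P V5.D 1 1) ⟨2, 2, 1, 1, 2, 2, 2, 2, 3, 1⟩ :=
  out_sound (S := T5.ds_pp) T5.ok_pp (w := 35) (j := 3) (by decide +kernel)
theorem L05647 : Good (Phi V5.P V5.D 1 1) ⟨3, 6, 2, 2, 2, 2, 2, 2, 4, 2⟩ :=
  leafX_sound T5.ok_pp T5.Ypp.bz_eq (w := 203) (c := ⟨⟨.negSucc 2777, .negSucc 937, .negSucc 19, .negSucc 1070, .negSucc 1252, .ofNat 466⟩, ⟨.negSucc 1074, .negSucc 1087, .negSucc 549, .negSucc 596, .negSucc 731, .ofNat 265⟩, ⟨.ofNat 2273, .ofNat 283, .ofNat 341, .ofNat 386, .ofNat 1355, .negSucc 202⟩, ⟨.negSucc 4966, .negSucc 396, .negSucc 286, .negSucc 2006, .negSucc 1869, .ofNat 1004⟩, ⟨.ofNat 52, .ofNat 62, .ofNat 420, .ofNat 738, .ofNat 75, .negSucc 539⟩, .ofNat 1548, .negSucc 2121, .ofNat 0, .negSucc 2121, .ofNat 3784, .ofNat 0, .ofNat 128, .ofNat 473, .negSucc 293, .ofNat 0, .ofNat 304, .negSucc 158, .ofNat 0, .ofNat 0, .ofNat 594, .ofNat 394, .ofNat 0, .ofNat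 0, .ofNat 172093699015611625304119516764045312, .ofNat 0, .ofNat 0, .ofNat 0, .ofNat 25267956790972417771244017531821752320, .ofNat 0, .ofNat 0, .ofNat 0, .ofNat 19561088219139953517448408141934886912, .ofNat 0, .ofNat 0, .ofNat 0, .ofNat 19021549403636840512474544632714231808, .ofNat 0⟩)
    (by decide +kernel)
theorem L05648 : Good (Phi V5.P V5.D 1 1) ⟨3, 6, 2, 3, 2, 2, 2, 2, 4, 2⟩ :=
  out_sound (S := T5.ds_pp) T5.ok_pp (w := 43) (j := 3) (by decide +kernel)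
theorem L05649 : Good (Phi V5.P V5.D 1 1) ⟨3, 6, 2, 2, 2, 2, 2, 2, 4, 3⟩ :=
  leafX_sound T5.ok_pp T5.Ypp.bz_eq (w := 203) (c := ⟨⟨.negSucc 2807, .negSucc 924, .ofNat 100, .negSucc 435, .negSucc 757, .ofNat 522⟩, ⟨.negSucc 1273, .negSucc 881, .negSucc 390, .negSucc 253, .negSucc 454, .ofNat 304⟩, ⟨.ofNat 2192, .ofNat 598, .ofNat 76, .negSucc 6, .ofNat 882, .negSucc 341⟩, ⟨.negSucc 4913, .negSucc 418, .negSucc 10, .negSucc 715, .negSucc 954, .ofNat 1005⟩, ⟨.ofNat 275, .negSucc 334, .ofNat 428, .ofNat 137, .negSucc 253, .negSucc 438⟩, .ofNat 1556, .negSucc 2141, .ofNat 0, .negSucc 2141, .ofNat 3832, .ofNat 0, .ofNat 128, .ofNat 495, .negSucc 152, .ofNat 0, .ofNat 323, .negSucc 80, .ofNat 0, .ofNat 0, .ofNat 513, .ofNat 901, .ofNat 0, .ofNat 0, .ofNat 609088307528123385822732978822840320, .ofNat 0, .ofNat 0, .ofNat 0, .ofNat 32451963012775698797485476323321184256, .ofNat 0, .ofNat 0, .ofNat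 0, .ofNat 0, .ofNat 0, .ofNat 0, .ofNat 0, .ofNat 31530724135534546286384093878678454272, .ofNat 0⟩)
    (by decide +kernel)
theorem L05650 : Good (Phi V5.P V5.D 1 1) ⟨3, 6, 2, 3, 2, 2, 2, 2, 4, 3⟩ :=
  out_sound (S := T5.ds_pp) T5.ok_pp (w := 43) (j := 3) (by decide +kernel)
theorem L05651 : Good (Phi V5.P V5.D 1 1) ⟨6, 56, 3, 4, 2, 2, 2, 2, 4, 2⟩ :=
  leafX_sound T5.ok_pp T5.Ypp.bz_eq (w := 219) (c := ⟨⟨.negSucc 3588, .ofNat 312, .negSucc 472, .negSucc 1097, .negSucc 1215, .ofNat 578⟩, ⟨.negSucc 1984, .ofNat 139, .negSucc 597, .negSucc 680, .negSucc 774, .ofNat 362⟩, ⟨.ofNat 2541, .negSucc 185, .ofNat 400, .ofNat 421, .ofNat 1337, .negSucc 297⟩, ⟨.negSucc 4998, .ofNat 932, .negSucc 1064, .negSucc 2213, .negSucc 1900, .ofNat 1250⟩, ⟨.negSucc 263, .negSucc 626, .ofNat 668, .ofNat 1007, .ofNat 240, .negSucc 659⟩, .ofNat 1332, .negSucc 1689, .ofNat 0, .negSucc 1689, .ofNat 2877, .ofNat 0,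 .ofNat 128, .ofNat 475, .negSucc 373, .ofNat 0, .ofNat 322, .negSucc 213, .ofNat 0, .ofNat 0, .ofNat 702, .ofNat 579, .ofNat 0, .ofNat 0, .ofNat 46689919435399173034181077309063168, .ofNat 0, .ofNat 0, .ofNat 0, .ofNat 5993018140146755654969903480316100608, .ofNat 0, .ofNat 0, .ofNat 0, .ofNat 914504932463592925146104086677946368, .ofNat 0, .ofNat 0, .ofNat 0, .ofNat 0, .ofNat 0⟩)
    (by decide +kernel)
theorem L05652 : Good (Phi V5.P V5.D 1 1) ⟨6, 57, 3, 4, 2, 2, 2, 2, 4, 2⟩ :=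
  out_sound (S := T5.ds_pp) T5.ok_pp (w := 63) (j := 3) (by decide +kernel)
theorem L05653 : Good (Phi V5.P V5.D 1 1) ⟨5, 28, 4, 10, 2, 2, 2, 2, 4, 2⟩ :=
  leafX_sound T5.ok_pp T5.Ypp.bz_eq (w := 222) (c := ⟨⟨.negSucc 4143, .ofNat 8, .ofNat 48, .negSucc 1057, .negSucc 1266, .ofNat 721⟩, ⟨.negSucc 2616, .negSucc 91, .negSucc 121, .negSucc 684, .negSucc 832, .ofNat 465⟩, ⟨.ofNat 2922, .ofNat 169, .negSucc 44, .ofNat 442, .ofNat 1358, .negSucc 385⟩, ⟨.negSucc 6070, .ofNat 36, .negSucc 54, .negSucc 1896, .negSucc 1958, .ofNat 1416⟩, ⟨.ofNat 212, .ofNat 238, .ofNat 223, .ofNat 615, .ofNat 268, .negSucc 612⟩, .ofNat 3862, .negSucc 5481, .ofNat 0, .negSucc 5481, .ofNat 8564, .ofNat 0, .ofNat 128, .ofNat 1165, .negSucc 584, .ofNat 0, .ofNat 782, .negSucc 370, .ofNat 0, .ofNat 0, .ofNat 1183, .ofNat 1294, .ofNat 0, .ofNat 0, .ofNat 0, .ofNat 0, .ofNat 0, .ofNat 0, .ofNat 154386327054846503724535289622864855040,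 .ofNat 0, .ofNat 0, .ofNat 0, .ofNat 65293157006541489388364113145906593792, .ofNat 0, .ofNat 0, .ofNat 0, .ofNat 0, .ofNat 7105096232757182781132072743188910375260127232⟩)
    (by decide +kernel)
theorem L05654 : Good (Phi V5.P V5.D 1 1) ⟨6, 56, 4, 11, 2, 2, 2, 2, 4, 2⟩ :=
  out_sound (S := T5.ds_pp) T5.ok_pp (w := 65) (j := 3) (by decide +kernel)
theorem L05655 : Good (Phi V5.P V5.D 1 1) ⟨7, 114, 5, 22, 2, 2, 2, 2, 4, 2⟩ :=
  out_sound (S := T5.ds_pp) T5.ok_pp (w := 73) (j := 3) (by decide +kernel)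
theorem L05656 : Good (Phi V5.P V5.D 1 1) ⟨7, 115, 5, 22, 2, 2, 2, 2, 4, 2⟩ :=
  out_sound (S := T5.ds_pp) T5.ok_pp (w := 21) (j := 4) (by decide +kernel)
theorem L05657 : Good (Phi V5.P V5.D 1 1) ⟨6, 57, 5, 23, 2, 2, 2, 2, 4, 2⟩ :=
  out_sound (S := T5.ds_pp) T5.ok_pp (w := 67) (j := 3) (by decide +kernel)
theorem L05658 : Good (Phi V5.P V5.D 1 1) ⟨5, 29, 2, 2, 2, 2, 2, 2, 4, 2⟩ :=
  out_sound (S := T5.ds_pp) T5.ok_pp (w := 17) (j := 4) (by decide +kernel)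
theorem L05659 : Good (Phi V5.P V5.D 1 1) ⟨5, 28, 3, 6, 2, 2, 2, 2, 4, 2⟩ :=
  out_sound (S := T5.ds_pp) T5.ok_pp (w := 57) (j := 3) (by decide +kernel)
theorem L05660 : Good (Phi V5.P V5.D 1 1) ⟨5, 29, 3, 6, 2, 2, 2, 2, 4, 2⟩ :=
  out_sound (S := T5.ds_pp) T5.ok_pp (w := 17) (j := 4) (by decide +kernel)
theorem L05661 : Good (Phi V5.P V5.D 1 1) ⟨4, 14, 3, 7, 2, 2, 2, 2, 4, 2⟩ :=
  out_sound (S := T5.ds_pp) T5.ok_pp (w := 51) (j := 3) (by decide +kernel)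
theorem L05662 : Good (Phi V5.P V5.D 1 1) ⟨4, 15, 1, 1, 2, 2, 2, 2, 4, 2⟩ :=
  out_sound (S := T5.ds_pp) T5.ok_pp (w := 15) (j := 4) (by decide +kernel)
theorem L05663 : Good (Phi V5.P V5.D 1 1) ⟨5, 28, 2, 2, 2, 2, 3, 4, 4, 3⟩ :=
  leafX_sound T5.ok_pp T5.Ypp.bz_eq (w := 215) (c := ⟨⟨.negSucc 3519, .ofNat 60, .negSucc 600, .negSucc 470, .negSucc 383, .ofNat 580⟩, ⟨.negSucc 1996, .negSucc 44, .negSucc 880, .negSucc 296, .negSucc 246, .ofNat 375⟩, ⟨.ofNat 2704, .ofNat 40, .ofNat 400, .ofNat 25, .ofNat 462, .negSucc 404⟩, ⟨.negSucc 5180, .ofNat 144, .negSucc 594, .negSucc 888, .negSucc 470, .ofNat 1177⟩, ⟨.ofNat 103, .ofNat 118, .negSucc 126, .ofNat 328, .negSucc 119, .negSucc 548⟩, .ofNat 820, .negSucc 888, .ofNat 0, .negSucc 888, .ofNat 1567, .ofNat 0, .ofNat 128, .ofNat 459, .negSucc 198, .ofNat 0, .ofNat 344, .negSucc 102, .ofNat 0, .ofNat 0, .ofNat 606, .ofNat 1511, .ofNat 0, .ofNat 0,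 .ofNat 615181195612074831567789464255201280, .ofNat 57621495274339865148843648984284082475106304, .ofNat 0, .ofNat 0, .ofNat 14653915467264335737811794787001434112, .ofNat 0, .ofNat 0, .ofNat 0, .ofNat 48486475688414269902311456986607124480, .ofNat 0, .ofNat 0, .ofNat 0, .ofNat 22414096809885558774298653943580852224, .ofNat 6411137599591409469545568169500482993488134144⟩)
    (by decide +kernel)
theorem L05664 : Good (Phi V5.P V5.D 1 1) ⟨5, 28, 2, 2, 2, 2, 3, 5, 4, 3⟩ :=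
  leafX_sound T5.ok_pp T5.Ypp.bz_eq (w := 215) (c := ⟨⟨.negSucc 4572, .negSucc 718, .ofNat 992, .negSucc 493, .negSucc 420, .ofNat 691⟩, ⟨.negSucc 2591, .negSucc 476, .negSucc 35, .negSucc 318, .negSucc 277, .ofNat 446⟩, ⟨.ofNat 3469, .ofNat 291, .negSucc 150, .ofNat 43, .ofNat 412, .negSucc 577⟩, ⟨.negSucc 6261, .negSucc 469, .ofNat 759, .negSucc 945, .negSucc 490, .ofNat 1321⟩, ⟨.negSucc 138, .negSucc 130, .ofNat 248, .ofNat 365, .negSucc 170, .negSucc 527⟩, .ofNat 820, .negSucc 888, .ofNat 0, .negSucc 888, .ofNat 1567, .ofNat 0, .ofNat 128, .ofNat 354, .negSucc 180, .ofNat 0, .ofNat 265, .negSucc 93, .ofNat 0, .ofNat 0, .ofNat 517, .ofNat 889, .ofNat 0, .ofNat 0, .ofNat 1443371551034099415226711322212171776, .ofNat 0, .ofNat 0, .ofNat 0, .ofNat 32033603035111431015671127518493016064, .ofNat 0, .ofNat 0, .ofNat 0, .ofNat 31557143682091071791114719465545138176, .ofNat 0, .ofNat 0, .ofNat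 0, .ofNat 23313013607126539240749633871282176000, .ofNat 5272191374733835321442291363671827021974994944⟩)
    (by decide +kernel)
theorem L05665 : Good (Phi V5.P V5.D 1 1) ⟨5, 29, 2, 2, 2, 2, 2, 2, 4, 3⟩ :=
  out_sound (S := T5.ds_pp) T5.ok_pp (w := 17) (j := 4) (by decide +kernel)
theorem L05666 : Good (Phi V5.P V5.D 1 1) ⟨4, 15, 2, 2, 2, 2, 2, 2, 4, 3⟩ :=
  out_sound (S := T5.ds_pp) T5.ok_pp (w := 49) (j := 3) (by decide +kernel)
theorem L05667 : Good (Phi V5.P V5.D 1 1) ⟨5, 28, 3, 6, 2, 2, 2, 2, 4, 3⟩ :=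
  out_sound (S := T5.ds_pp) T5.ok_pp (w := 57) (j := 3) (by decide +kernel)
theorem L05668 : Good (Phi V5.P V5.D 1 1) ⟨5, 29, 3, 6, 2, 2, 2, 2, 4, 3⟩ :=
  out_sound (S := T5.ds_pp) T5.ok_pp (w := 17) (j := 4) (by decide +kernel)
theorem L05669 : Good (Phi V5.P V5.D 1 1) ⟨4, 14, 3, 7, 2, 2, 2, 2, 4, 3⟩ :=
  out_sound (S := T5.ds_pp) T5.ok_pp (w := 51) (j := 3) (by decide +kernel)
theorem L05670 : Good (Phi V5.P V5.D 1 1) ⟨4, 15, 2, 3, 2, 2, 2, 2, 4, 3⟩ :=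
  out_sound (S := T5.ds_pp) T5.ok_pp (w := 15) (j := 4) (by decide +kernel)
theorem L05671 : Good (Phi V5.P V5.D 1 1) ⟨2, 2, 3, 4, 3, 4, 3, 6, 3, 0⟩ :=
  out_sound (S := T5.ds_pp) T5.ok_pp (w := 39) (j := 3) (by decide +kernel)
theorem L05672 : Good (Phi V5.P V5.D 1 1) ⟨4, 12, 3, 4, 3, 4, 3, 6, 3, 0⟩ :=
  out_sound (S := T5.ds_pp) T5.ok_pp (w := 51) (j := 3) (by decide +kernel)
theorem L05673 : Good (Phi V5.P V5.D 1 1) ⟨4, 13, 3, 4, 3, 4, 3, 6, 4, 0⟩ :=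
  leafX_sound T5.ok_pp T5.Ypp.bz_eq (w := 229) (c := ⟨⟨.ofNat 1141, .ofNat 738, .negSucc 1155, .negSucc 1021, .negSucc 1791, .negSucc 4988⟩, ⟨.ofNat 814, .ofNat 561, .negSucc 1022, .negSucc 597, .negSucc 1078, .negSucc 3030⟩, ⟨.negSucc 307, .negSucc 449, .ofNat 796, .ofNat 552, .ofNat 1542, .ofNat 3441⟩, ⟨.ofNat 2027, .ofNat 446, .negSucc 1356, .negSucc 1801, .negSucc 3259, .negSucc 7547⟩, ⟨.negSucc 862, .ofNat 1233, .negSucc 399, .ofNat 574, .ofNat 1080, .ofNat 486⟩, .ofNat 1103, .negSucc 1397, .ofNat 0, .negSucc 1397, .ofNat 2583, .ofNat 0, .ofNat 128, .ofNat 555, .negSucc 1412, .ofNat 0, .ofNat 364, .negSucc 775, .ofNat 0, .ofNat 0, .ofNat 1280, .ofNat 278, .ofNat 0, .ofNat 0, .ofNat 0, .ofNat 0, .ofNat 0, .ofNat 0, .ofNat 1876126188082997932305382015934791721943040, .ofNat 0, .ofNat 0, .ofNat 0, .ofNat 1491034133281663710122518475597549557252096, .ofNat 0, .ofNat 0, .ofNat 0, .ofNat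 9780537436427256796656962709766371591323648, .ofNat 0⟩)
    (by decide +kernel)
theorem L05674 : Good (Phi V5.P V5.D 1 1) ⟨4, 13, 3, 4, 3, 4, 3, 6, 4, 1⟩ :=
  leafX_sound T5.ok_pp T5.Ypp.bz_eq (w := 229) (c := ⟨⟨.negSucc 2902, .negSucc 1392, .ofNat 136, .negSucc 1490, .negSucc 1456, .negSucc 347⟩, ⟨.negSucc 1476, .negSucc 906, .negSucc 358, .negSucc 856, .negSucc 852, .negSucc 210⟩, ⟨.ofNat 2581, .ofNat 950, .negSucc 28, .ofNat 777, .ofNat 1293, .ofNat 288⟩, ⟨.negSucc 4708, .negSucc 1440, .negSucc 216, .negSucc 2541, .negSucc 2556, .negSucc 134⟩, ⟨.ofNat 161, .negSucc 162, .ofNat 729, .ofNat 650, .ofNat 758, .negSucc 671⟩, .ofNat 1545, .negSucc 2123, .ofNat 0, .negSucc 2123, .ofNat 3807, .ofNat 0, .ofNat 128, .ofNat 453, .negSucc 558, .ofNat 0, .ofNat 290, .negSucc 307, .ofNat 0, .ofNat 0, .ofNat 675, .ofNat 640, .ofNat 0, .ofNat 0, .ofNat 0, .ofNat 0, .ofNat 0, .ofNat 0, .ofNat 5066342312456564872726381036514836966539264,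 .ofNat 0, .ofNat 0, .ofNat 0, .ofNat 3928971804594183619804130439882266231439360, .ofNat 0, .ofNat 0, .ofNat 0, .ofNat 4291228239299788724348762741189657036324864, .ofNat 0⟩)
    (by decide +kernel)
theorem L05675 : Good (Phi V5.P V5.D 1 1) ⟨4, 14, 3, 4, 3, 4, 3, 6, 4, 0⟩ :=
  leafX_sound T5.ok_pp T5.Ypp.bz_eq (w := 230) (c := ⟨⟨.ofNat 3434, .ofNat 1729, .negSucc 2848, .negSucc 745, .negSucc 1825, .negSucc 5319⟩, ⟨.ofNat 2451, .ofNat 1186, .negSucc 2101, .negSucc 459, .negSucc 1152, .negSucc 3383⟩, ⟨.negSucc 1435, .negSucc 147, .ofNat 1424, .ofNat 390, .ofNat 1580, .ofNat 3751⟩, ⟨.ofNat 4590, .ofNat 1551, .negSucc 3847, .negSucc 1602, .negSucc 3204, .negSucc 7562⟩, ⟨.ofNat 160, .ofNat 630, .ofNat 313, .ofNat 937, .ofNat 745, .negSucc 311⟩, .ofNat 987, .negSucc 1072, .ofNat 0, .negSucc 1072, .ofNat 1777, .ofNat 0, .ofNat 128, .ofNat 521, .negSucc 1724, .ofNat 0, .ofNat 400, .negSucc 1033,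 .ofNat 0, .ofNat 0, .ofNat 1408, .ofNat 259, .ofNat 0, .ofNat 0, .ofNat 0, .ofNat 0, .ofNat 0, .ofNat 0, .ofNat 8190886628173971124078565901345421015384064, .ofNat 0, .ofNat 0, .ofNat 0, .ofNat 8948598359836648414701282813259764308377600, .ofNat 0, .ofNat 0, .ofNat 0, .ofNat 4655088418087052373786165803331942011109376, .ofNat 0⟩)
    (by decide +kernel)
theorem L05676 : Good (Phi V5.P V5.D 1 1) ⟨4, 14, 3, 4, 3, 4, 3, 6, 4, 1⟩ :=
  leafX_sound T5.ok_pp T5.Ypp.bz_eq (w := 231) (c := ⟨⟨.negSucc 4090, .negSucc 246, .negSucc 209, .negSucc 1682, .negSucc 1524, .negSucc 193⟩, ⟨.negSucc 2240, .negSucc 419, .negSucc 496, .negSucc 1051, .negSucc 960, .negSucc 130⟩, ⟨.ofNat 3435, .ofNat 343, .ofNat 150, .ofNat 898, .ofNat 1331, .ofNat 172⟩, ⟨.negSucc 5968, .ofNat 11, .negSucc 363, .negSucc 3039, .negSucc 2508, .ofNat 49⟩, ⟨.ofNat 135, .ofNat 165, .ofNat 158, .ofNat 1005, .ofNat 510, .negSucc 531⟩,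 .ofNat 2051, .negSucc 2802, .ofNat 0, .negSucc 2802, .ofNat 4621, .ofNat 0, .ofNat 128, .ofNat 659, .negSucc 1212, .ofNat 0, .ofNat 439, .negSucc 733, .ofNat 0, .ofNat 0, .ofNat 1435, .ofNat 270, .ofNat 0, .ofNat 0, .ofNat 46226305805262260647159740675026600329216, .ofNat 0, .ofNat 0, .ofNat 0, .ofNat 13472352000811158414750458769833966820130816, .ofNat 0, .ofNat 0, .ofNat 0, .ofNat 6365885132453184803007623753833695538053120, .ofNat 288955133661336443877289990955910228277562074726400, .ofNat 0, .ofNat 0, .ofNat 0, .ofNat 0⟩)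
    (by decide +kernel)
theorem L05677 : Good (Phi V5.P V5.D 1 1) ⟨4, 15, 3, 4, 3, 4, 3, 6, 3, 0⟩ :=
  out_sound (S := T5.ds_pp) T5.ok_pp (w := 51) (j := 3) (by decide +kernel)
theorem L05678 : Good (Phi V5.P V5.D 1 1) ⟨2, 2, 4, 8, 3, 4, 3, 7, 3, 0⟩ :=
  out_sound (S := T5.ds_pp) T5.ok_pp (w := 41) (j := 3) (by decide +kernel)
theorem L05679 : Good (Phi V5.P V5.D 1 1) ⟨4, 12, 4, 8, 3, 4, 3, 7, 3, 0⟩ :=
  out_sound (S := T5.ds_pp) T5.ok_pp (w := 53) (j := 3) (by decide +kernel)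
theorem L05680 : Good (Phi V5.P V5.D 1 1) ⟨4, 13, 4, 8, 3, 4, 4, 14, 4, 0⟩ :=
  leafX_sound T5.ok_pp T5.Ypp.bz_eq (w := 238) (c := ⟨⟨.ofNat 543, .negSucc 3238, .ofNat 400, .negSucc 1248, .negSucc 1140, .negSucc 3941⟩, ⟨.ofNat 430, .negSucc 1874, .ofNat 25, .negSucc 667, .negSucc 645, .negSucc 2283⟩, ⟨.ofNat 453, .ofNat 2247, .negSucc 252, .ofNat 694, .ofNat 1005, .ofNat 2736⟩, ⟨.ofNat 182, .negSucc 4156, .ofNat 401, .negSucc 2594, .negSucc 1937, .negSucc 5953⟩, ⟨.ofNat 659, .negSucc 310, .ofNat 242, .ofNat 1396, .ofNat 451, .ofNat 188⟩, .ofNat 1491, .negSucc 2053, .ofNat 0, .negSucc 2053, .ofNat 3734, .ofNat 0, .ofNat 128, .ofNat 631, .negSucc 1853, .ofNat 0, .ofNat 404, .negSucc 1026, .ofNat 0, .ofNat 0, .ofNat 1617, .ofNat 223, .ofNat 0, .ofNat 0, .ofNat 0, .ofNat 0, .ofNat 0, .ofNat 0, .ofNat 155846008129755387455830168535984163331768320, .ofNat 0, .ofNat 0, .ofNat 0, .ofNat 316935049570536915498632738352027731996180480,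 .ofNat 0, .ofNat 0, .ofNat 0, .ofNat 417057056183867379069954994521478968184406016, .ofNat 0⟩)
    (by decide +kernel)
theorem L05681 : Good (Phi V5.P V5.D 1 1) ⟨5, 26, 4, 8, 3, 4, 4, 15, 4, 0⟩ :=
  leafX_sound T5.ok_pp T5.Ypp.bz_eq (w := 245) (c := ⟨⟨.ofNat 4794, .negSucc 6193, .ofNat 890, .negSucc 1167, .negSucc 2321, .negSucc 5565⟩, ⟨.ofNat 2688, .negSucc 3397, .ofNat 184, .negSucc 604, .negSucc 1269, .negSucc 3105⟩, ⟨.negSucc 2028, .ofNat 3982, .negSucc 639, .ofNat 663, .ofNat 1856, .ofNat 3885⟩, ⟨.ofNat 5718, .negSucc 8138, .negSucc 395, .negSucc 2885, .negSucc 3819, .negSucc 8303⟩, ⟨.ofNat 1910, .negSucc 1209, .ofNat 2853, .ofNat 2087, .ofNat 662, .negSucc 73⟩, .ofNat 2260, .negSucc 3450, .ofNat 0, .negSucc 3450, .ofNat 6324, .ofNat 0, .ofNat 128, .ofNat 822, .negSucc 3232, .ofNat 0, .ofNat 502, .negSucc 1760, .ofNat 0, .ofNat 0, .ofNat 2718, .ofNat 422, .ofNat 0, .ofNat 0, .ofNat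 0, .ofNat 0, .ofNat 0, .ofNat 313090312952671037332502957681721276186023165952, .ofNat 49278048266302371246928775285569011717242880, .ofNat 0, .ofNat 0, .ofNat 0, .ofNat 190342854072703707092913372663611554889990144, .ofNat 0, .ofNat 0, .ofNat 0, .ofNat 202100145646180148751020220680126919023263744, .ofNat 0⟩)
    (by decide +kernel)
theorem L05682 : Good (Phi V5.P V5.D 1 1) ⟨6, 54, 4, 8, 3, 4, 4, 15, 4, 0⟩ :=
  leafX_sound T5.ok_pp T5.Ypp.bz_eq (w := 248) (c := ⟨⟨.negSucc 536, .negSucc 2122, .ofNat 1563, .negSucc 1351, .negSucc 1662, .negSucc 5915⟩, ⟨.negSucc 196, .negSucc 1208, .ofNat 639, .negSucc 705, .negSucc 913, .negSucc 3367⟩, ⟨.ofNat 1416, .ofNat 1475, .negSucc 1062, .ofNat 763, .ofNat 1401, .ofNat 4123⟩, ⟨.negSucc 1413, .negSucc 2747, .ofNat 2062, .negSucc 2928, .negSucc 2858, .negSucc 8842⟩, ⟨.ofNat 1039, .negSucc 465, .ofNat 310, .ofNat 1703, .ofNat 745, .ofNat 136⟩, .ofNat 2155,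 .negSucc 3182, .ofNat 0, .negSucc 3182, .ofNat 5684, .ofNat 0, .ofNat 128, .ofNat 704, .negSucc 2488, .ofNat 0, .ofNat 444, .negSucc 1389, .ofNat 0, .ofNat 0, .ofNat 2059, .ofNat 92, .ofNat 0, .ofNat 0, .ofNat 0, .ofNat 0, .ofNat 0, .ofNat 38547524507670200315487754742791303215844476059648, .ofNat 20158391942408094621714261740716350649663488, .ofNat 0, .ofNat 0, .ofNat 0, .ofNat 0, .ofNat 0, .ofNat 0, .ofNat 0, .ofNat 0, .ofNat 0⟩)
    (by decide +kernel)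
theorem L05683 : Good (Phi V5.P V5.D 1 1) ⟨6, 55, 4, 8, 3, 4, 4, 15, 4, 0⟩ :=
  leafX_sound T5.ok_pp T5.Ypp.bz_eq (w := 246) (c := ⟨⟨.ofNat 480, .ofNat 466, .negSucc 1689, .negSucc 1323, .negSucc 2823, .negSucc 6700⟩, ⟨.ofNat 679, .ofNat 294, .negSucc 1386, .negSucc 709, .negSucc 1676, .negSucc 4042⟩, ⟨.ofNat 882, .negSucc 309, .ofNat 1066, .ofNat 682, .ofNat 2163, .ofNat 4582⟩, ⟨.ofNat 1491, .ofNat 911, .negSucc 3338, .negSucc 2843, .negSucc 4972, .negSucc 10836⟩, ⟨.negSucc 996, .negSucc 206, .ofNat 1371, .ofNat 1633, .ofNat 1419, .ofNat 1362⟩, .ofNat 1244, .negSucc 1583, .ofNat 0, .negSucc 1583, .ofNat 2822, .ofNat 0, .ofNat 128, .ofNat 554, .negSucc 3060, .ofNat 0, .ofNat 379, .negSucc 1729, .ofNat 0, .ofNat 0, .ofNat 2378, .ofNat 83, .ofNat 0, .ofNat 0, .ofNat 2054100378945790914498766992216262547865600, .ofNat 0, .ofNat 0, .ofNat 20950925826970002375683895074013565853289282535424, .ofNat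 21017232495164586083126563454480545927397376, .ofNat 0, .ofNat 0, .ofNat 0, .ofNat 2331033611537402849287729180548666541211648, .ofNat 0, .ofNat 0, .ofNat 0, .ofNat 53682856939885308257298421780621806113128448, .ofNat 0⟩)
    (by decide +kernel)
theorem L05684 : Good (Phi V5.P V5.D 1 1) ⟨4, 13, 4, 8, 3, 4, 4, 14, 4, 1⟩ :=
  leafX_sound T5.ok_pp T5.Ypp.bz_eq (w := 237) (c := ⟨⟨.negSucc 3539, .negSucc 2960, .ofNat 603, .negSucc 1923, .negSucc 1587, .negSucc 153⟩, ⟨.negSucc 1803, .negSucc 1833, .ofNat 52, .negSucc 1062, .negSucc 901, .negSucc 108⟩, ⟨.ofNat 3505, .ofNat 1906, .negSucc 373, .ofNat 1062, .ofNat 1202, .negSucc 1⟩, ⟨.negSucc 5821, .negSucc 3680, .ofNat 637, .negSucc 3685, .negSucc 2742, .ofNat 354⟩, ⟨.ofNat 273, .ofNat 118, .ofNat 374, .ofNat 1479, .ofNat 730, .negSucc 1021⟩, .ofNat 1467, .negSucc 2016, .ofNat 0, .negSucc 2016, .ofNat 3677, .ofNat 0, .ofNat 128, .ofNat 561, .negSucc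 953, .ofNat 0, .ofNat 357, .negSucc 516, .ofNat 0, .ofNat 0, .ofNat 1018, .ofNat 627, .ofNat 0, .ofNat 0, .ofNat 0, .ofNat 0, .ofNat 0, .ofNat 0, .ofNat 165289441303202979950037164784712465430609920, .ofNat 0, .ofNat 0, .ofNat 0, .ofNat 520880793970378333453236684363038421482995712, .ofNat 0, .ofNat 0, .ofNat 0, .ofNat 105590636978303827449594100225544973941997568, .ofNat 0⟩)
    (by decide +kernel)
theorem L05685 : Good (Phi V5.P V5.D 1 1) ⟨4, 13, 4, 8, 3, 4, 5, 30, 4, 1⟩ :=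
  leafX_sound T5.ok_pp T5.Ypp.bz_eq (w := 240) (c := ⟨⟨.negSucc 4774, .negSucc 4269, .ofNat 692, .negSucc 1814, .negSucc 1598, .ofNat 275⟩, ⟨.negSucc 2465, .negSucc 2556, .ofNat 21, .negSucc 1012, .negSucc 918, .ofNat 134⟩, ⟨.ofNat 4562, .ofNat 2965, .negSucc 522, .ofNat 845, .ofNat 1107, .negSucc 411⟩, ⟨.negSucc 7618, .negSucc 5928, .ofNat 945, .negSucc 3747, .negSucc 2799, .ofNat 966⟩, ⟨.ofNat 268, .ofNat 672, .ofNat 108, .ofNat 1840, .ofNat 788, .negSucc 1033⟩, .ofNat 1061, .negSucc 1338, .ofNat 0, .negSucc 1338, .ofNat 2515, .ofNat 0, .ofNat 128, .ofNat 431, .negSucc 1489, .ofNat 0, .ofNat 283, .negSucc 789, .ofNat 0, .ofNat 0, .ofNat 1417, .ofNat 78, .ofNat 0, .ofNat 0, .ofNat 62257604039090179694875555835667642128007168, .ofNat 0, .ofNat 0, .ofNat 0, .ofNat 0, .ofNat 0, .ofNat 0, .ofNat 0, .ofNat 2617003049214547438277593598854237209845825536, .ofNat 0, .ofNat 0, .ofNat 0, .ofNat 0,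 .ofNat 0⟩)
    (by decide +kernel)
theorem L05686 : Good (Phi V5.P V5.D 1 1) ⟨4, 13, 4, 8, 3, 4, 5, 31, 4, 1⟩ :=
  leafX_sound T5.ok_pp T5.Ypp.bz_eq (w := 241) (c := ⟨⟨.negSucc 6366, .negSucc 4492, .ofNat 719, .negSucc 2228, .negSucc 3949, .ofNat 428⟩, ⟨.negSucc 3291, .negSucc 2778, .negSucc 16, .negSucc 1236, .negSucc 2244, .ofNat 222⟩, ⟨.ofNat 5822, .ofNat 3050, .negSucc 563, .ofNat 1016, .ofNat 2745, .negSucc 585⟩, ⟨.negSucc 10501, .negSucc 5889, .ofNat 714, .negSucc 4463, .negSucc 6492, .ofNat 1324⟩, ⟨.ofNat 917, .ofNat 569, .ofNat 497, .ofNat 2015, .ofNat 1170, .negSucc 1278⟩, .ofNat 1479, .negSucc 2030, .ofNat 0, .negSucc 2030, .ofNat 3687, .ofNat 0, .ofNat 128, .ofNat 475, .negSucc 1368, .ofNat 0, .ofNat 304, .negSucc 748, .ofNat 0, .ofNat 0, .ofNat 1229, .ofNat 110, .ofNat 0, .ofNat 212763737299891242922228858325000748023949557760, .ofNat 73260826221870498869188473342975377485594624,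 .ofNat 0, .ofNat 0, .ofNat 1176159480141043427474591204653796974945869234176, .ofNat 1623460012401851973695311277024937472625213440, .ofNat 0, .ofNat 0, .ofNat 1717727994263676153125521672084904025549170540544, .ofNat 3332895383654403274060240824904851459401580544, .ofNat 0, .ofNat 0, .ofNat 4010045684749645565754040636482110416960708673536, .ofNat 6078220382956097361007521001108414309494423552, .ofNat 0⟩)
    (by decide +kernel)
theorem L05687 : Good (Phi V5.P V5.D 1 1) ⟨3, 7, 4, 8, 3, 4, 3, 7, 3, 0⟩ :=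
  out_sound (S := T5.ds_pp) T5.ok_pp (w := 47) (j := 3) (by decide +kernel)
theorem L05688 : Good (Phi V5.P V5.D 1 1) ⟨2, 2, 4, 9, 3, 4, 3, 7, 4, 0⟩ :=
  out_sound (S := T5.ds_pp) T5.ok_pp (w := 41) (j := 3) (by decide +kernel)
theorem L05689 : Good (Phi V5.P V5.D 1 1) ⟨4, 12, 4, 9, 3, 4, 3, 7, 4, 0⟩ :=
  out_sound (S := T5.ds_pp) T5.ok_pp (w := 53) (j := 3) (by decide +kernel)
theorem L05690 : Good (Phi V5.P V5.D 1 1) ⟨5, 26, 4, 9, 3, 4, 3, 7, 4, 0⟩ :=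
  out_sound (S := T5.ds_pp) T5.ok_pp (w := 59) (j := 3) (by decide +kernel)
theorem L05691 : Good (Phi V5.P V5.D 1 1) ⟨5, 27, 4, 9, 3, 4, 3, 7, 5, 0⟩ :=
  leafX_sound T5.ok_pp T5.Ypp.bz_eq (w := 246) (c := ⟨⟨.ofNat 70, .negSucc 1864, .ofNat 193, .ofNat 611, .negSucc 639, .negSucc 4013⟩, ⟨.ofNat 82, .negSucc 1101, .negSucc 65, .ofNat 414, .negSucc 365, .negSucc 2458⟩, ⟨.ofNat 770, .ofNat 1314, .negSucc 149, .negSucc 473, .ofNat 870, .ofNat 2787⟩, ⟨.negSucc 828, .negSucc 2304, .ofNat 119, .ofNat 579, .negSucc 1477, .negSucc 6059⟩, ⟨.ofNat 1333, .negSucc 345, .ofNat 87, .ofNat 551, .ofNat 950, .ofNat 353⟩, .ofNat 2426, .negSucc 3477, .ofNat 0, .negSucc 3477, .ofNat 5859, .ofNat 0, .ofNat 128, .ofNat 985, .negSucc 3823, .ofNat 0, .ofNat 642, .negSucc 2284, .ofNat 0, .ofNat 0, .ofNat 3077, .ofNat 283, .ofNat 0, .ofNat 0, .ofNat 0, .ofNat 0, .ofNat 0, .ofNat 2552631413297310256231381106574951233922929786880,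 .ofNat 109487405181112367219005372767649452336873472, .ofNat 0, .ofNat 0, .ofNat 0, .ofNat 0, .ofNat 0, .ofNat 0, .ofNat 0, .ofNat 0, .ofNat 0⟩)
    (by decide +kernel)
theorem L05692 : Good (Phi V5.P V5.D 1 1) ⟨5, 27, 4, 9, 3, 4, 3, 7, 5, 1⟩ :=
  leafX_sound T5.ok_pp T5.Ypp.bz_eq (w := 246) (c := ⟨⟨.negSucc 2828, .negSucc 1210, .negSucc 37, .negSucc 1484, .negSucc 5746, .negSucc 1408⟩, ⟨.negSucc 1636, .negSucc 705, .negSucc 445, .negSucc 871, .negSucc 3469, .negSucc 864⟩, ⟨.ofNat 2936, .ofNat 823, .negSucc 28, .ofNat 644, .ofNat 4271, .ofNat 1016⟩, ⟨.negSucc 3935, .negSucc 1437, .negSucc 384, .negSucc 3441, .negSucc 10032, .negSucc 2582⟩, ⟨.negSucc 655, .ofNat 7, .ofNat 450, .ofNat 2179, .ofNat 2884, .ofNat 863⟩, .ofNat 3073, .negSucc 4510, .ofNat 0, .negSucc 4510, .ofNat 7516, .ofNat 0, .ofNat 128, .ofNat 909, .negSucc 2989, .ofNat 0, .ofNat 587, .negSucc 1790, .ofNat 0, .ofNat 0, .ofNat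 2528, .ofNat 145, .ofNat 0, .ofNat 0, .ofNat 0, .ofNat 0, .ofNat 0, .ofNat 5600427055546748304603740121672877127165523525632, .ofNat 230373364747719075694760082578592315731869696, .ofNat 0, .ofNat 0, .ofNat 0, .ofNat 0, .ofNat 0, .ofNat 0, .ofNat 0, .ofNat 0, .ofNat 0⟩)
    (by decide +kernel)
theorem L05693 : Good (Phi V5.P V5.D 1 1) ⟨6, 56, 5, 18, 3, 4, 3, 7, 5, 0⟩ :=
  out_sound (S := T5.ds_pp) T5.ok_pp (w := 67) (j := 3) (by decide +kernel)
theorem L05694 : Good (Phi V5.P V5.D 1 1) ⟨6, 56, 5, 19, 3, 4, 4, 14, 5, 0⟩ :=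
  leafX_sound T5.ok_pp T5.Ypp.bz_eq (w := 259) (c := ⟨⟨.negSucc 1528, .negSucc 1149, .ofNat 582, .ofNat 405, .negSucc 965, .negSucc 3841⟩, ⟨.negSucc 903, .negSucc 718, .ofNat 278, .ofNat 278, .negSucc 594, .negSucc 2440⟩, ⟨.ofNat 1908, .ofNat 814, .negSucc 378, .negSucc 390, .ofNat 866, .ofNat 2659⟩, ⟨.negSucc 2854, .negSucc 1535, .ofNat 699, .negSucc 281, .negSucc 1371, .negSucc 5510⟩, ⟨.ofNat 1078, .ofNat 68, .ofNat 90, .ofNat 1375, .negSucc 7, .ofNat 46⟩, .ofNat 3970, .negSucc 5783, .ofNat 0, .negSucc 5783, .ofNat 9268, .ofNat 0, .ofNat 128, .ofNat 1040, .negSucc 3768, .ofNat 0, .ofNat 685, .negSucc 2360, .ofNat 0, .ofNat 0, .ofNat 3035, .ofNat 959, .ofNat 0, .ofNat 0, .ofNat 0, .ofNat 0, .ofNat 0, .ofNat 0, .ofNat 46153339880636786059513661602389414956404572160, .ofNat 0, .ofNat 0, .ofNat 0, .ofNat 11389902166197080280947406341271638696884436992, .ofNat 0, .ofNat 0, .ofNat 0, .ofNat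 21401820361453629195653497616042587617379745792, .ofNat 0⟩)
    (by decide +kernel)
theorem L05695 : Good (Phi V5.P V5.D 1 1) ⟨6, 56, 5, 19, 3, 4, 4, 15, 5, 0⟩ :=
  leafX_sound T5.ok_pp T5.Ypp.bz_eq (w := 260) (c := ⟨⟨.negSucc 1674, .ofNat 3689, .negSucc 2111, .ofNat 2699, .ofNat 901, .negSucc 5681⟩, ⟨.negSucc 983, .ofNat 2415, .negSucc 1458, .ofNat 1731, .ofNat 586, .negSucc 3597⟩, ⟨.ofNat 2254, .negSucc 1919, .ofNat 1104, .negSucc 1802, .negSucc 374, .ofNat 3910⟩, ⟨.negSucc 3653, .ofNat 4732, .negSucc 2723, .ofNat 3283, .ofNat 1338, .negSucc 8166⟩, ⟨.ofNat 2005, .ofNat 652, .negSucc 367, .ofNat 917, .negSucc 89, .ofNat 48⟩, .ofNat 3912, .negSucc 5694, .ofNat 0, .negSucc 5694, .ofNat 9133, .ofNat 0, .ofNat 128, .ofNat 1312, .negSucc 5560, .ofNat 0, .ofNat 867, .negSucc 3480, .ofNat 0, .ofNat 0, .ofNat 4276, .ofNat 255, .ofNat 0, .ofNat 0, .ofNat 0, .ofNat 0, .ofNat 0, .ofNat 15605624033639711073967628731900309234773145944064,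 .ofNat 33422840367415502367187911948424482064085024768, .ofNat 0, .ofNat 0, .ofNat 0, .ofNat 10453449538334842749942356350856894473664724992, .ofNat 0, .ofNat 0, .ofNat 0, .ofNat 77329458267675836739241176187745961664070025216, .ofNat 0⟩)
    (by decide +kernel)
theorem L05696 : Good (Phi V5.P V5.D 1 1) ⟨6, 56, 4, 9, 3, 4, 3, 7, 5, 1⟩ :=
  leafX_sound T5.ok_pp T5.Ypp.bz_eq (w := 249) (c := ⟨⟨.negSucc 3650, .negSucc 587, .negSucc 261, .negSucc 1237, .negSucc 6145, .negSucc 1868⟩, ⟨.negSucc 2004, .negSucc 442, .negSucc 495, .negSucc 749, .negSucc 3884, .negSucc 1203⟩, ⟨.ofNat 3560, .ofNat 355, .ofNat 191, .ofNat 435, .ofNat 4514, .ofNat 1238⟩, ⟨.negSucc 4913, .negSucc 1057, .negSucc 725, .negSucc 2654, .negSucc 10388, .negSucc 3116⟩, ⟨.negSucc 552, .ofNat 462, .ofNat 662, .ofNat 1436, .ofNat 2540, .ofNat 649⟩, .ofNat 2365, .negSucc 3246, .ofNat 0, .negSucc 3246, .ofNat 5255, .ofNat 0, .ofNat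 128, .ofNat 749, .negSucc 3161, .ofNat 0, .ofNat 510, .negSucc 1941, .ofNat 0, .ofNat 0, .ofNat 2587, .ofNat 154, .ofNat 0, .ofNat 0, .ofNat 2362223479755180317819567640585905922637824, .ofNat 0, .ofNat 0, .ofNat 77824171849661511065545435009729879157131379212288, .ofNat 207008810285073778757944455542471240825438208, .ofNat 0, .ofNat 0, .ofNat 0, .ofNat 70675681136516506814740475219592466833342464, .ofNat 0, .ofNat 0, .ofNat 0, .ofNat 328083779225826397908509791682968669091004416, .ofNat 0⟩)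
    (by decide +kernel)
theorem L05697 : Good (Phi V5.P V5.D 1 1) ⟨6, 57, 4, 9, 3, 4, 3, 7, 4, 0⟩ :=
  out_sound (S := T5.ds_pp) T5.ok_pp (w := 65) (j := 3) (by decide +kernel)
theorem L05698 : Good (Phi V5.P V5.D 1 1) ⟨5, 29, 4, 9, 3, 4, 3, 7, 4, 0⟩ :=
  out_sound (S := T5.ds_pp) T5.ok_pp (w := 59) (j := 3) (by decide +kernel)
theorem L05699 : Good (Phi V5.P V5.D 1 1) ⟨4, 15, 4, 9, 3, 4, 3, 7, 4, 0⟩ :=
  out_sound (S := T5.ds_pp) T5.ok_pp (w := 53) (j := 3) (by decide +kernel)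
theorem L05700 : Good (Phi V5.P V5.D 1 1) ⟨2, 2, 4, 9, 3, 4, 3, 7, 4, 1⟩ :=
  out_sound (S := T5.ds_pp) T5.ok_pp (w := 41) (j := 3) (by decide +kernel)
theorem L05701 : Good (Phi V5.P V5.D 1 1) ⟨4, 12, 4, 9, 3, 4, 3, 7, 4, 1⟩ :=
  out_sound (S := T5.ds_pp) T5.ok_pp (w := 53) (j := 3) (by decide +kernel)
theorem L05702 : Good (Phi V5.P V5.D 1 1) ⟨5, 26, 4, 9, 3, 4, 3, 7, 4, 1⟩ :=
  out_sound (S := T5.ds_pp) T5.ok_pp (w := 59) (j := 3) (by decide +kernel)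
theorem L05703 : Good (Phi V5.P V5.D 1 1) ⟨6, 54, 4, 9, 3, 4, 3, 7, 4, 1⟩ :=
  out_sound (S := T5.ds_pp) T5.ok_pp (w := 65) (j := 3) (by decide +kernel)
theorem L05704 : Good (Phi V5.P V5.D 1 1) ⟨6, 55, 4, 9, 3, 4, 4, 14, 4, 1⟩ :=
  leafX_sound T5.ok_pp T5.Ypp.bz_eq (w := 247) (c := ⟨⟨.negSucc 5598, .negSucc 634, .ofNat 290, .negSucc 1742, .negSucc 1700, .ofNat 228⟩, ⟨.negSucc 3306, .negSucc 437, .negSucc 77, .negSucc 1037, .negSucc 1022, .ofNat 127⟩, ⟨.ofNat 4858, .ofNat 434, .negSucc 186, .ofNat 905, .ofNat 1280, .negSucc 260⟩, ⟨.negSucc 8663, .negSucc 749, .ofNat 328, .negSucc 3222, .negSucc 2616, .ofNat 779⟩, ⟨.ofNat 792, .ofNat 38, .ofNat 96, .ofNat 1160, .ofNat 260, .negSucc 749⟩, .ofNat 3107, .negSucc 4565, .ofNat 0, .negSucc 4565, .ofNat 7601, .ofNat 0, .ofNat 128, .ofNat 759, .negSucc 1356, .ofNat 0, .ofNat 489, .negSucc 806, .ofNat 0, .ofNat 0, .ofNat 1473, .ofNat 899, .ofNat 0,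 .ofNat 0, .ofNat 0, .ofNat 0, .ofNat 0, .ofNat 0, .ofNat 117984013877473291800684672261407810091220992, .ofNat 0, .ofNat 0, .ofNat 0, .ofNat 0, .ofNat 0, .ofNat 0, .ofNat 0, .ofNat 0, .ofNat 0⟩)
    (by decide +kernel)
theorem L05705 : Good (Phi V5.P V5.D 1 1) ⟨6, 55, 4, 9, 3, 4, 4, 15, 4, 1⟩ :=
  leafX_sound T5.ok_pp T5.Ypp.bz_eq (w := 248) (c := ⟨⟨.negSucc 7816, .negSucc 579, .ofNat 117, .negSucc 1479, .negSucc 4828, .ofNat 965⟩, ⟨.negSucc 4615, .negSucc 406, .negSucc 310, .negSucc 862, .negSucc 2914, .ofNat 570⟩, ⟨.ofNat 6738, .ofNat 308, .negSucc 18, .ofNat 546, .ofNat 3296, .negSucc 952⟩, ⟨.negSucc 12598, .negSucc 562, .negSucc 506, .negSucc 3136, .negSucc 7385, .ofNat 2582⟩, ⟨.ofNat 1971, .negSucc 123, .ofNat 1101, .ofNat 1646, .ofNat 686, .negSucc 1973⟩, .ofNat 3109, .negSucc 4556, .ofNat 0, .negSucc 4556, .ofNat 7566, .ofNat 0, .ofNat 128, .ofNat 827, .negSucc 2012, .ofNat 0, .ofNat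 534, .negSucc 1201, .ofNat 0, .ofNat 0, .ofNat 1893, .ofNat 331, .ofNat 0, .ofNat 16817926911640050665175169219265425773010765217792, .ofNat 1293967106104742246969890308885068170395648, .ofNat 0, .ofNat 0, .ofNat 123914469101197024044826497612288821486911439765504, .ofNat 79078407755986764653731352319391526052429824, .ofNat 0, .ofNat 0, .ofNat 318755980651621965703065245188335930163123403620352, .ofNat 9837398730537696941653886261410186596974592, .ofNat 0, .ofNat 0, .ofNat 564506055835158818172156089636170556553735268466688, .ofNat 70506770728856402520625140294150707663077376, .ofNat 0⟩)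
    (by decide +kernel)
theorem L05706 : Good (Phi V5.P V5.D 1 1) ⟨6, 56, 4, 9, 3, 4, 4, 14, 4, 1⟩ :=
  leafX_sound T5.ok_pp T5.Ypp.bz_eq (w := 246) (c := ⟨⟨.negSucc 6524, .negSucc 703, .ofNat 503, .negSucc 1591, .negSucc 1780, .ofNat 368⟩, ⟨.negSucc 3889, .negSucc 514, .ofNat 58, .negSucc 993, .negSucc 1122, .ofNat 221⟩, ⟨.ofNat 5522, .ofNat 455, .negSucc 332, .ofNat 777, .ofNat 1313, .negSucc 370⟩, ⟨.negSucc 9702, .negSucc 807, .ofNat 578, .negSucc 3128, .negSucc 2951, .ofNat 1046⟩, ⟨.ofNat 639, .ofNat 17, .ofNat 134, .ofNat 1337, .ofNat 637, .negSucc 830⟩, .ofNat 1563, .negSucc 2020, .ofNat 0, .negSucc 2020, .ofNat 3362, .ofNat 0, .ofNat 128, .ofNat 710, .negSucc 1456, .ofNat 0, .ofNat 488, .negSucc 864, .ofNat 0, .ofNat 0, .ofNat 1473, .ofNat 752, .ofNat 0, .ofNat 0, .ofNat 0, .ofNat 0, .ofNat 0, .ofNat 0, .ofNat 82475185281486360893080227608390074498023424, .ofNat 0, .ofNat 0, .ofNat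 0, .ofNat 0, .ofNat 0, .ofNat 0, .ofNat 0, .ofNat 0, .ofNat 0⟩)
    (by decide +kernel)
theorem L05707 : Good (Phi V5.P V5.D 1 1) ⟨6, 56, 4, 9, 3, 4, 5, 30, 4, 1⟩ :=
  leafX_sound T5.ok_pp T5.Ypp.bz_eq (w := 250) (c := ⟨⟨.negSucc 7918, .ofNat 0, .negSucc 552, .negSucc 1378, .negSucc 2114, .ofNat 684⟩, ⟨.negSucc 4699, .negSucc 82, .negSucc 685, .negSucc 849, .negSucc 1335, .ofNat 417⟩, ⟨.ofNat 6770, .negSucc 19, .ofNat 334, .ofNat 505, .ofNat 1422, .negSucc 736⟩, ⟨.negSucc 11907, .negSucc 128, .negSucc 872, .negSucc 3228, .negSucc 3470, .ofNat 1637⟩, ⟨.ofNat 940, .ofNat 541, .ofNat 111, .ofNat 1961, .ofNat 702, .negSucc 1065⟩, .ofNat 1563, .negSucc 2020, .ofNat 0, .negSucc 2020, .ofNat 3362, .ofNat 0, .ofNat 128, .ofNat 608, .negSucc 2199, .ofNat 0, .ofNat 419, .negSucc 1309, .ofNat 0, .ofNat 0, .ofNat 2003, .ofNat 563, .ofNat 0, .ofNat 0, .ofNat 0, .ofNat 0, .ofNat 0, .ofNat 0, .ofNat 1128953246854356414946543479703368091438153728,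 .ofNat 0, .ofNat 0, .ofNat 0, .ofNat 243852488239155065391562321369662706193268736, .ofNat 0, .ofNat 0, .ofNat 0, .ofNat 0, .ofNat 0⟩)
    (by decide +kernel)
theorem L05708 : Good (Phi V5.P V5.D 1 1) ⟨6, 56, 4, 9, 3, 4, 5, 31, 4, 1⟩ :=
  leafX_sound T5.ok_pp T5.Ypp.bz_eq (w := 253) (c := ⟨⟨.negSucc 10986, .negSucc 213, .negSucc 312, .negSucc 1513, .negSucc 4366, .ofNat 1862⟩, ⟨.negSucc 6542, .negSucc 190, .negSucc 656, .negSucc 920, .negSucc 2748, .ofNat 1154⟩, ⟨.ofNat 8918, .ofNat 60, .ofNat 245, .ofNat 424, .ofNat 2922, .negSucc 1600⟩, ⟨.negSucc 16850, .negSucc 328, .negSucc 588, .negSucc 3362, .negSucc 6936, .ofNat 3446⟩, ⟨.ofNat 1805, .ofNat 431, .ofNat 180, .ofNat 1911, .ofNat 1135, .negSucc 1263⟩, .ofNat 2917, .negSucc 4094, .ofNat 0, .negSucc 4094, .ofNat 6562, .ofNat 0, .ofNat 128, .ofNat 710, .negSucc 2416, .ofNat 0, .ofNat 481, .negSucc 1479, .ofNat 0, .ofNat 0, .ofNat 1996, .ofNat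 422, .ofNat 0, .ofNat 176581128071095828103393523077647074065783996809216, .ofNat 18982968030720878433514528158960642735210496, .ofNat 0, .ofNat 0, .ofNat 763081837961813544306850238904825057277516015730688, .ofNat 2864575105651264444601321631183837798315589632, .ofNat 0, .ofNat 0, .ofNat 1087330684434767007734401080727779830452212656504832, .ofNat 1111044940501877136129738345872520265424961536, .ofNat 0, .ofNat 0, .ofNat 4242678053534922423272488597668400832958865678008320, .ofNat 2663655184382728104272403413598715289324748800, .ofNat 0⟩)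
    (by decide +kernel)
theorem L05709 : Good (Phi V5.P V5.D 1 1) ⟨6, 57, 4, 9, 3, 4, 3, 7, 4, 1⟩ :=
  out_sound (S := T5.ds_pp) T5.ok_pp (w := 65) (j := 3) (by decide +kernel)
theorem L05710 : Good (Phi V5.P V5.D 1 1) ⟨5, 29, 4, 9, 3, 4, 3, 7, 4, 1⟩ :=
  out_sound (S := T5.ds_pp) T5.ok_pp (w := 59) (j := 3) (by decide +kernel)
theorem L05711 : Good (Phi V5.P V5.D 1 1) ⟨4, 15, 4, 9, 3, 4, 3, 7, 4, 1⟩ :=
  out_sound (S := T5.ds_pp) T5.ok_pp (w := 53) (j := 3) (by decide +kernel)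
theorem L05712 : Good (Phi V5.P V5.D 1 1) ⟨2, 2, 4, 8, 3, 5, 2, 3, 4, 0⟩ :=
  out_sound (S := T5.ds_pp) T5.ok_pp (w := 41) (j := 3) (by decide +kernel)
theorem L05713 : Good (Phi V5.P V5.D 1 1) ⟨3, 6, 4, 8, 3, 5, 3, 6, 4, 0⟩ :=
  leafX_sound T5.ok_pp T5.Ypp.bz_eq (w := 230) (c := ⟨⟨.ofNat 4936, .negSucc 4781, .ofNat 338, .negSucc 2223, .negSucc 1987, .negSucc 6288⟩, ⟨.ofNat 2965, .negSucc 2718, .negSucc 28, .negSucc 1228, .negSucc 1098, .negSucc 3644⟩, ⟨.negSucc 2666, .ofNat 2989, .negSucc 165, .ofNat 1266, .ofNat 1748, .ofNat 4018⟩, ⟨.ofNat 6054, .negSucc 5417, .ofNat 113, .negSucc 4762, .negSucc 3767, .negSucc 9693⟩, ⟨.ofNat 1002, .negSucc 1422, .ofNat 553, .ofNat 2658, .ofNat 1454, .ofNat 720⟩, .ofNat 1459, .negSucc 1998, .ofNat 0, .negSucc 1998, .ofNat 3637, .ofNat 0, .ofNat 128, .ofNat 524, .negSucc 1648, .ofNat 0, .ofNat 331, .negSucc 902, .ofNat 0, .ofNat 0, .ofNat 1309, .ofNat 111,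 .ofNat 0, .ofNat 0, .ofNat 474175200241672114443445685625029128093696, .ofNat 0, .ofNat 0, .ofNat 0, .ofNat 6553973785002686146749047199212325235064832, .ofNat 0, .ofNat 0, .ofNat 0, .ofNat 42601801584811075049978126466081718785802240, .ofNat 0, .ofNat 0, .ofNat 0, .ofNat 62367959211273050392669030060739889245192192, .ofNat 0⟩)
    (by decide +kernel)
theorem L05714 : Good (Phi V5.P V5.D 1 1) ⟨3, 7, 4, 8, 3, 5, 3, 6, 4, 0⟩ :=
  out_sound (S := T5.ds_pp) T5.ok_pp (w := 47) (j := 3) (by decide +kernel)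
theorem L05715 : Good (Phi V5.P V5.D 1 1) ⟨4, 12, 4, 8, 3, 5, 3, 7, 4, 0⟩ :=
  out_sound (S := T5.ds_pp) T5.ok_pp (w := 53) (j := 3) (by decide +kernel)
theorem L05716 : Good (Phi V5.P V5.D 1 1) ⟨5, 26, 4, 8, 3, 5, 3, 7, 4, 0⟩ :=
  leafX_sound T5.ok_pp T5.Ypp.bz_eq (w := 241) (c := ⟨⟨.ofNat 4838, .negSucc 4916, .ofNat 83, .negSucc 1173, .negSucc 1775, .negSucc 8698⟩, ⟨.ofNat 2703, .negSucc 2682, .negSucc 194, .negSucc 572, .negSucc 922, .negSucc 4816⟩, ⟨.negSucc 2305, .ofNat 3184, .negSucc 128, .ofNat 723, .ofNat 1791, .ofNat 5619⟩, ⟨.ofNat 4774, .negSucc 5895, .negSucc 174, .negSucc 2797, .negSucc 3862, .negSucc 13061⟩, ⟨.ofNat 3621, .negSucc 1711, .negSucc 2, .ofNat 1898, .ofNat 2228, .ofNat 138⟩, .ofNat 2851, .negSucc 4482, .ofNat 0, .negSucc 4482, .ofNat 8134, .ofNat 0, .ofNat 128, .ofNat 594, .negSucc 2721, .ofNat 0, .ofNat 358, .negSucc 1475, .ofNat 0, .ofNat 0, .ofNat 2095, .ofNat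 241, .ofNat 0, .ofNat 0, .ofNat 0, .ofNat 0, .ofNat 0, .ofNat 281745887561618332097059434884872557960414363648, .ofNat 4449119417523539317797406110315955192070144, .ofNat 0, .ofNat 0, .ofNat 0, .ofNat 2946434685213362361636183059031666513149952, .ofNat 0, .ofNat 0, .ofNat 0, .ofNat 0, .ofNat 0⟩)
    (by decide +kernel)
theorem L05717 : Good (Phi V5.P V5.D 1 1) ⟨5, 27, 4, 8, 3, 5, 3, 7, 5, 0⟩ :=
  leafX_sound T5.ok_pp T5.Ypp.bz_eq (w := 244) (c := ⟨⟨.negSucc 1175, .negSucc 412, .ofNat 763, .negSucc 343, .ofNat 2229, .negSucc 5536⟩, ⟨.negSucc 541, .negSucc 116, .ofNat 201, .negSucc 113, .ofNat 1360, .negSucc 3224⟩, ⟨.ofNat 1539, .ofNat 214, .negSucc 422, .ofNat 343, .negSucc 691, .ofNat 3472⟩, ⟨.negSucc 2571, .negSucc 16, .ofNat 497, .negSucc 2106, .ofNat 2296, .negSucc 8611⟩, ⟨.ofNat 1500, .negSucc 727, .ofNat 796, .ofNat 2819, .ofNat 1723, .ofNat 785⟩, .ofNat 1508, .negSucc 2066, .ofNat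 0, .negSucc 2066, .ofNat 3721, .ofNat 0, .ofNat 128, .ofNat 441, .negSucc 2651, .ofNat 0, .ofNat 286, .negSucc 1474, .ofNat 0, .ofNat 0, .ofNat 1928, .ofNat 69, .ofNat 0, .ofNat 0, .ofNat 0, .ofNat 0, .ofNat 0, .ofNat 815471422052462894900990805561130874514228379648, .ofNat 68090373650638985067098852685830610097274880, .ofNat 0, .ofNat 0, .ofNat 0, .ofNat 64296745445350293036799429329168531177078784, .ofNat 0, .ofNat 0, .ofNat 0, .ofNat 1226558109948070221172868914459577768170487808, .ofNat 0⟩)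
    (by decide +kernel)
theorem L05718 : Good (Phi V5.P V5.D 1 1) ⟨5, 27, 4, 8, 3, 5, 3, 7, 5, 1⟩ :=
  leafX_sound T5.ok_pp T5.Ypp.bz_eq (w := 243) (c := ⟨⟨.negSucc 4282, .negSucc 3141, .ofNat 1428, .negSucc 1010, .negSucc 3953, .negSucc 3136⟩, ⟨.negSucc 2245, .negSucc 1697, .ofNat 338, .negSucc 458, .negSucc 2160, .negSucc 1816⟩, ⟨.ofNat 3631, .ofNat 2140, .negSucc 961, .ofNat 626, .ofNat 3164, .ofNat 2001⟩, ⟨.negSucc 7355, .negSucc 3995, .ofNat 1407, .negSucc 3084, .negSucc 6870, .negSucc 4940⟩, ⟨.ofNat 1707, .negSucc 672, .ofNat 1102, .ofNat 2817, .ofNat 1933, .ofNat 565⟩, .ofNat 2007, .negSucc 2864, .ofNat 0, .negSucc 2864, .ofNat 5010, .ofNat 0, .ofNat 128, .ofNat 540, .negSucc 1677, .ofNat 0, .ofNat 348, .negSucc 939, .ofNat 0, .ofNat 0, .ofNat 1282, .ofNat 121, .ofNat 0, .ofNat 0, .ofNat 0, .ofNat 0, .ofNat 0, .ofNat 2603377907462847327315108981122700733350305333248, .ofNat 163521974243856986736939371272019126870081536,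 .ofNat 0, .ofNat 0, .ofNat 0, .ofNat 127420870468248750862711768176496160781893632, .ofNat 0, .ofNat 0, .ofNat 14023547104708425351757002059448305817080611995648, .ofNat 188670638452914029967473126895367061967470592, .ofNat 0⟩)
    (by decide +kernel)
theorem L05719 : Good (Phi V5.P V5.D 1 1) ⟨3, 7, 4, 8, 3, 5, 3, 7, 4, 0⟩ :=
  out_sound (S := T5.ds_pp) T5.ok_pp (w := 47) (j := 3) (by decide +kernel)
theorem L05720 : Good (Phi V5.P V5.D 1 1) ⟨2, 2, 4, 9, 3, 5, 2, 3, 4, 0⟩ :=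
  out_sound (S := T5.ds_pp) T5.ok_pp (w := 41) (j := 3) (by decide +kernel)
theorem L05721 : Good (Phi V5.P V5.D 1 1) ⟨4, 12, 4, 9, 3, 5, 2, 3, 4, 0⟩ :=
  out_sound (S := T5.ds_pp) T5.ok_pp (w := 53) (j := 3) (by decide +kernel)
theorem L05722 : Good (Phi V5.P V5.D 1 1) ⟨5, 26, 4, 9, 3, 5, 2, 3, 4, 0⟩ :=
  out_sound (S := T5.ds_pp) T5.ok_pp (w := 59) (j := 3) (by decide +kernel)
theorem L05723 : Good (Phi V5.P V5.D 1 1) ⟨6, 54, 4, 9, 3, 5, 2, 3, 4, 0⟩ :=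
  out_sound (S := T5.ds_pp) T5.ok_pp (w := 65) (j := 3) (by decide +kernel)
theorem L05724 : Good (Phi V5.P V5.D 1 1) ⟨6, 55, 4, 9, 3, 5, 3, 6, 4, 0⟩ :=
  leafX_sound T5.ok_pp T5.Ypp.bz_eq (w := 243) (c := ⟨⟨.ofNat 1989, .negSucc 2181, .ofNat 2195, .negSucc 2045, .negSucc 1760, .negSucc 7223⟩, ⟨.ofNat 1260, .negSucc 1267, .ofNat 1079, .negSucc 1176, .negSucc 1036, .negSucc 4415⟩, ⟨.negSucc 811, .ofNat 1315, .negSucc 1233, .ofNat 1188, .ofNat 1611, .ofNat 4619⟩, ⟨.ofNat 2532, .negSucc 3301, .ofNat 3485, .negSucc 4129, .negSucc 3414, .negSucc 10970⟩, ⟨.ofNat 597, .ofNat 404, .negSucc 655, .ofNat 1859, .ofNat 1400, .ofNat 820⟩, .ofNat 1790, .negSucc 2458, .ofNat 0, .negSucc 2458, .ofNat 4214, .ofNat 0, .ofNat 128, .ofNat 678, .negSucc 2397, .ofNat 0, .ofNat 439, .negSucc 1399, .ofNat 0, .ofNat 0, .ofNat 1867, .ofNat 445, .ofNat 0, .ofNat 0, .ofNat 0, .ofNat 0, .ofNat 0, .ofNat 0, .ofNat 4107628288356064059265477096607139825188864,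 .ofNat 0, .ofNat 0, .ofNat 0, .ofNat 2962195033890442228948101920883568988389376, .ofNat 0, .ofNat 0, .ofNat 0, .ofNat 0, .ofNat 0⟩)
    (by decide +kernel)
theorem L05725 : Good (Phi V5.P V5.D 1 1) ⟨6, 55, 4, 9, 3, 5, 3, 7, 4, 0⟩ :=
  leafX_sound T5.ok_pp T5.Ypp.bz_eq (w := 245) (c := ⟨⟨.ofNat 751, .ofNat 372, .negSucc 166, .negSucc 1045, .negSucc 442, .negSucc 9536⟩, ⟨.ofNat 526, .ofNat 325, .negSucc 450, .negSucc 569, .negSucc 208, .negSucc 5826⟩, ⟨.ofNat 359, .negSucc 4, .negSucc 142, .ofNat 727, .ofNat 945, .ofNat 6078⟩, ⟨.ofNat 22, .ofNat 1527, .negSucc 963, .negSucc 3889, .negSucc 1845, .negSucc 14564⟩, ⟨.ofNat 1710, .negSucc 1534, .ofNat 925, .ofNat 3983, .ofNat 2023, .ofNat 1295⟩, .ofNat 3104, .negSucc 4555, .ofNat 0, .negSucc 4555, .ofNat 7577, .ofNat 0, .ofNat 128, .ofNat 771, .negSucc 3181, .ofNat 0, .ofNat 498, .negSucc 1899, .ofNat 0, .ofNat 0, .ofNat 2375, .ofNat 119, .ofNat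 0, .ofNat 0, .ofNat 50838145179981596058418817208030045667328, .ofNat 0, .ofNat 0, .ofNat 8317583794924709547902305110700947307391187156992, .ofNat 3726213624294719991916500784316232088158208, .ofNat 0, .ofNat 0, .ofNat 0, .ofNat 0, .ofNat 0, .ofNat 0, .ofNat 0, .ofNat 0, .ofNat 0⟩)
    (by decide +kernel)
theorem L05726 : Good (Phi V5.P V5.D 1 1) ⟨6, 56, 4, 9, 3, 5, 2, 3, 5, 0⟩ :=
  leafX_sound T5.ok_pp T5.Ypp.bz_eq (w := 247) (c := ⟨⟨.ofNat 2034, .ofNat 459, .ofNat 117, .negSucc 1148, .negSucc 589, .negSucc 6281⟩, ⟨.ofNat 1366, .ofNat 297, .negSucc 13, .negSucc 697, .negSucc 309, .negSucc 3975⟩, ⟨.negSucc 996, .negSucc 410, .ofNat 110, .ofNat 800, .ofNat 1513, .ofNat 3927⟩, ⟨.ofNat 1728, .ofNat 304, .ofNat 634, .negSucc 2831, .negSucc 1964, .negSucc 9261⟩, ⟨.ofNat 1962, .ofNat 628, .negSucc 944, .ofNat 1908, .ofNat 1818, .ofNat 495⟩, .ofNat 3212, .negSucc 4547, .ofNat 0, .negSucc 4547,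 .ofNat 7261, .ofNat 0, .ofNat 128, .ofNat 750, .negSucc 3672, .ofNat 0, .ofNat 507, .negSucc 2261, .ofNat 0, .ofNat 0, .ofNat 2639, .ofNat 135, .ofNat 0, .ofNat 0, .ofNat 0, .ofNat 0, .ofNat 0, .ofNat 0, .ofNat 19984362616747016938391801289476067255386112, .ofNat 0, .ofNat 0, .ofNat 0, .ofNat 2287990011405530607218090302926900674166784, .ofNat 0, .ofNat 0, .ofNat 0, .ofNat 5994032029465635845487960172858421897330688, .ofNat 0⟩)
    (by decide +kernel)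
theorem L05727 : Good (Phi V5.P V5.D 1 1) ⟨6, 56, 4, 9, 3, 5, 2, 3, 5, 1⟩ :=
  leafX_sound T5.ok_pp T5.Ypp.bz_eq (w := 246) (c := ⟨⟨.negSucc 5864, .negSucc 3571, .ofNat 4253, .negSucc 1092, .negSucc 4053, .negSucc 3105⟩, ⟨.negSucc 3448, .negSucc 2257, .ofNat 2367, .negSucc 653, .negSucc 2481, .negSucc 1962⟩, ⟨.ofNat 3678, .ofNat 1632, .negSucc 1883, .ofNat 642, .ofNat 3700, .ofNat 1984⟩, ⟨.negSucc 8289, .negSucc 3619, .ofNat 4738, .negSucc 3445, .negSucc 7982, .negSucc 4481⟩, ⟨.ofNat 297, .negSucc 1459, .ofNat 1294, .ofNat 3022, .ofNat 3478, .ofNat 76⟩, .ofNat 3212, .negSucc 4547, .ofNat 0, .negSucc 4547, .ofNat 7261, .ofNat 0, .ofNat 128, .ofNat 755, .negSucc 2840, .ofNat 0, .ofNat 509, .negSucc 1733, .ofNat 0, .ofNat 0, .ofNat 2234, .ofNat 173, .ofNat 0, .ofNat 0, .ofNat 497100191622038855099679411994623094030336, .ofNat 0, .ofNat 0, .ofNat 3628993948314956690184404868746649442425937854464,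 .ofNat 24376610800177099963185294150503244442370048, .ofNat 0, .ofNat 0, .ofNat 0, .ofNat 10196978481343738762277329677476562900877312, .ofNat 0, .ofNat 0, .ofNat 0, .ofNat 21556685761898313316806529088165161463709696, .ofNat 0⟩)
    (by decide +kernel)
theorem L05728 : Good (Phi V5.P V5.D 1 1) ⟨6, 57, 4, 9, 3, 5, 2, 3, 4, 0⟩ :=
  out_sound (S := T5.ds_pp) T5.ok_pp (w := 65) (j := 3) (by decide +kernel)
theorem L05729 : Good (Phi V5.P V5.D 1 1) ⟨5, 29, 4, 9, 3, 5, 2, 3, 4, 0⟩ :=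
  out_sound (S := T5.ds_pp) T5.ok_pp (w := 59) (j := 3) (by decide +kernel)
theorem L05730 : Good (Phi V5.P V5.D 1 1) ⟨4, 15, 4, 9, 3, 5, 2, 3, 4, 0⟩ :=
  out_sound (S := T5.ds_pp) T5.ok_pp (w := 53) (j := 3) (by decide +kernel)
theorem L05731 : Good (Phi V5.P V5.D 1 1) ⟨2, 2, 3, 4, 3, 5, 2, 3, 4, 1⟩ :=
  out_sound (S := T5.ds_pp) T5.ok_pp (w := 39) (j := 3) (by decide +kernel)
theorem L05732 : Good (Phi V5.P V5.D 1 1) ⟨4, 12, 3, 4, 3, 5, 2, 3, 4, 1⟩ :=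
  out_sound (S := T5.ds_pp) T5.ok_pp (w := 51) (j := 3) (by decide +kernel)
theorem L05733 : Good (Phi V5.P V5.D 1 1) ⟨4, 13, 3, 4, 3, 5, 3, 6, 4, 1⟩ :=
  leafX_sound T5.ok_pp T5.Ypp.bz_eq (w := 230) (c := ⟨⟨.negSucc 4844, .negSucc 1940, .ofNat 456, .negSucc 1452, .negSucc 1216, .ofNat 461⟩, ⟨.negSucc 2589, .negSucc 1137, .negSucc 421, .negSucc 783, .negSucc 682, .ofNat 251⟩, ⟨.ofNat 3708, .ofNat 1060, .negSucc 98, .ofNat 790, .ofNat 1204, .negSucc 167⟩, ⟨.negSucc 8115, .negSucc 2178, .negSucc 249, .negSucc 3431, .negSucc 2318, .ofNat 1531⟩, ⟨.ofNat 1046, .ofNat 25, .ofNat 1358, .ofNat 2191, .ofNat 910, .negSucc 1503⟩, .ofNat 1554, .negSucc 2137, .ofNat 0, .negSucc 2137, .ofNat 3825, .ofNat 0, .ofNat 128, .ofNat 410, .negSucc 835, .ofNat 0, .ofNat 260, .negSucc 455, .ofNat 0, .ofNat 0, .ofNat 877, .ofNat 339, .ofNat 0, .ofNat 0, .ofNat 0, .ofNat 0, .ofNat 0, .ofNat 0, .ofNat 4020583292106995247537589325403495572963328,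 .ofNat 0, .ofNat 0, .ofNat 0, .ofNat 2432361733221421768805151148341003963858944, .ofNat 0, .ofNat 0, .ofNat 0, .ofNat 0, .ofNat 0⟩)
    (by decide +kernel)
theorem L05734 : Good (Phi V5.P V5.D 1 1) ⟨4, 13, 3, 4, 3, 5, 4, 14, 4, 1⟩ :=
  leafX_sound T5.ok_pp T5.Ypp.bz_eq (w := 234) (c := ⟨⟨.negSucc 6975, .negSucc 2650, .ofNat 950, .negSucc 680, .negSucc 1054, .ofNat 1290⟩, ⟨.negSucc 3737, .negSucc 1533, .negSucc 272, .negSucc 322, .negSucc 590, .ofNat 697⟩, ⟨.ofNat 5504, .ofNat 1673, .negSucc 545, .ofNat 390, .ofNat 877, .negSucc 888⟩, ⟨.negSucc 11324, .negSucc 3091, .ofNat 329, .negSucc 2871, .negSucc 2359, .ofNat 2623⟩, ⟨.ofNat 1113, .negSucc 42, .ofNat 1548, .ofNat 3162, .ofNat 1398, .negSucc 1289⟩, .ofNat 1568, .negSucc 2153, .ofNat 0, .negSucc 2153, .ofNat 3833, .ofNat 0, .ofNat 128, .ofNat 351, .negSucc 968, .ofNat 0, .ofNat 225, .negSucc 528, .ofNat 0, .ofNat 0, .ofNat 931, .ofNat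 235, .ofNat 0, .ofNat 0, .ofNat 0, .ofNat 0, .ofNat 0, .ofNat 0, .ofNat 68650255722163697592375618354229463891312640, .ofNat 0, .ofNat 0, .ofNat 0, .ofNat 17099088259201918027537811828394370801860608, .ofNat 0, .ofNat 0, .ofNat 0, .ofNat 0, .ofNat 0⟩)
    (by decide +kernel)
theorem L05735 : Good (Phi V5.P V5.D 1 1) ⟨4, 13, 4, 8, 3, 5, 4, 15, 4, 1⟩ :=
  leafX_sound T5.ok_pp T5.Ypp.bz_eq (w := 238) (c := ⟨⟨.negSucc 8516, .negSucc 3690, .ofNat 1075, .ofNat 67, .negSucc 2672, .ofNat 1902⟩, ⟨.negSucc 4596, .negSucc 2090, .ofNat 122, .ofNat 160, .negSucc 1475, .ofNat 1016⟩, ⟨.ofNat 6749, .ofNat 2385, .negSucc 708, .ofNat 18, .ofNat 1890, .negSucc 1421⟩, ⟨.negSucc 14468, .negSucc 4803, .ofNat 1045, .negSucc 1784, .negSucc 5463, .ofNat 4002⟩, ⟨.ofNat 2716, .ofNat 182, .ofNat 793, .ofNat 3212, .ofNat 2627, .negSucc 2195⟩, .ofNat 1471, .negSucc 2019, .ofNat 0, .negSucc 2019, .ofNat 3674, .ofNat 0,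 .ofNat 128, .ofNat 511, .negSucc 1162, .ofNat 0, .ofNat 327, .negSucc 617, .ofNat 0, .ofNat 0, .ofNat 1076, .ofNat 129, .ofNat 0, .ofNat 23401907989680201055370621251054180123596029952, .ofNat 5460448692517188915717230755960677038292992, .ofNat 0, .ofNat 0, .ofNat 151631621915736099867814512270304665763464609792, .ofNat 101280626927151099964319571234796136095023104, .ofNat 0, .ofNat 0, .ofNat 291821869585488987750362755430370460596642512896, .ofNat 190010344503110432015214455043673460656046080, .ofNat 0, .ofNat 0, .ofNat 450381736047609862719270074985093828343832248320, .ofNat 219549786857074512050965139819315975686193152, .ofNat 0⟩)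
    (by decide +kernel)
theorem L05736 : Good (Phi V5.P V5.D 1 1) ⟨4, 13, 4, 9, 3, 5, 4, 15, 4, 1⟩ :=
  leafX_sound T5.ok_pp T5.Ypp.bz_eq (w := 239) (c := ⟨⟨.negSucc 8765, .negSucc 2454, .ofNat 711, .ofNat 410, .negSucc 2858, .ofNat 1869⟩, ⟨.negSucc 5162, .negSucc 1472, .negSucc 46, .ofNat 319, .negSucc 1691, .ofNat 1084⟩, ⟨.ofNat 6962, .ofNat 1475, .negSucc 426, .negSucc 133, .ofNat 1960, .negSucc 1389⟩, ⟨.negSucc 15870, .negSucc 2255, .ofNat 267, .negSucc 1393, .negSucc 5292, .ofNat 4022⟩, ⟨.ofNat 3789, .negSucc 348, .ofNat 931, .ofNat 3272, .ofNat 1881, .negSucc 2203⟩, .ofNat 2443, .negSucc 3504, .ofNat 0, .negSucc 3504, .ofNat 5901, .ofNat 0, .ofNat 128, .ofNat 781, .negSucc 1543, .ofNat 0, .ofNat 506, .negSucc 895, .ofNat 0, .ofNat 0, .ofNat 1436, .ofNat 275, .ofNat 0, .ofNat 0, .ofNat 0, .ofNat 0, .ofNat 0, .ofNat 272844191747872292626415416141144498826280697856, .ofNat 429127099910144292038099906898347101974953984,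 .ofNat 0, .ofNat 0, .ofNat 0, .ofNat 0, .ofNat 0, .ofNat 0, .ofNat 723227164881725579450136314209619140646273024000, .ofNat 503010531355659885723418765812682385080188928, .ofNat 0⟩)
    (by decide +kernel)
theorem L05737 : Good (Phi V5.P V5.D 1 1) ⟨5, 28, 4, 8, 3, 5, 2, 3, 4, 1⟩ :=
  out_sound (S := T5.ds_pp) T5.ok_pp (w := 59) (j := 3) (by decide +kernel)
theorem L05738 : Good (Phi V5.P V5.D 1 1) ⟨5, 28, 4, 9, 3, 5, 2, 3, 4, 1⟩ :=
  leafX_sound T5.ok_pp T5.Ypp.bz_eq (w := 234) (c := ⟨⟨.negSucc 7823, .negSucc 2956, .ofNat 795, .negSucc 660, .negSucc 3802, .ofNat 1427⟩, ⟨.negSucc 4638, .negSucc 1944, .ofNat 148, .negSucc 373, .negSucc 2362, .ofNat 879⟩, ⟨.ofNat 5598, .ofNat 1672, .negSucc 425, .ofNat 404, .ofNat 3121, .negSucc 865⟩, ⟨.negSucc 11747, .negSucc 3129, .ofNat 545, .negSucc 2518, .negSucc 7547, .ofNat 2936⟩, ⟨.ofNat 1092, .negSucc 671, .ofNat 596, .ofNat 2509, .ofNat 3308, .negSucc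 1453⟩, .ofNat 1929, .negSucc 2523, .ofNat 0, .negSucc 2523, .ofNat 4050, .ofNat 0, .ofNat 128, .ofNat 743, .negSucc 1452, .ofNat 0, .ofNat 518, .negSucc 862, .ofNat 0, .ofNat 0, .ofNat 1394, .ofNat 199, .ofNat 0, .ofNat 914785045642222193149452569837467850892115968, .ofNat 14427194795492235264493893263104797573120, .ofNat 0, .ofNat 0, .ofNat 50735870973234762542921139028255052440568594432, .ofNat 1041249456603343244284762464781156086710272, .ofNat 0, .ofNat 0, .ofNat 0, .ofNat 332061811600183709839130799214230222405632, .ofNat 0, .ofNat 0, .ofNat 558002547255894063613954183603617390069712683008, .ofNat 352041006736409103100658444064993914650624, .ofNat 0⟩)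
    (by decide +kernel)
theorem L05739 : Good (Phi V5.P V5.D 1 1) ⟨5, 29, 3, 4, 3, 5, 2, 3, 4, 1⟩ :=
  out_sound (S := T5.ds_pp) T5.ok_pp (w := 57) (j := 3) (by decide +kernel)
theorem L05740 : Good (Phi V5.P V5.D 1 1) ⟨4, 15, 3, 4, 3, 5, 2, 3, 4, 1⟩ :=
  out_sound (S := T5.ds_pp) T5.ok_pp (w := 51) (j := 3) (by decide +kernel)
theorem L05741 : Good (Phi V5.P V5.D 1 1) ⟨2, 2, 3, 4, 2, 2, 2, 3, 3, 1⟩ :=
  out_sound (S := T5.ds_pp) T5.ok_pp (w := 39) (j := 3) (by decide +kernel)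
theorem L05742 : Good (Phi V5.P V5.D 1 1) ⟨4, 12, 3, 4, 2, 2, 2, 3, 3, 1⟩ :=
  out_sound (S := T5.ds_pp) T5.ok_pp (w := 51) (j := 3) (by decide +kernel)
theorem L05743 : Good (Phi V5.P V5.D 1 1) ⟨4, 13, 3, 4, 2, 2, 3, 6, 4, 2⟩ :=
  leafX_sound T5.ok_pp T5.Ypp.bz_eq (w := 215) (c := ⟨⟨.negSucc 4841, .negSucc 198, .negSucc 207, .negSucc 1229, .negSucc 902, .ofNat 1027⟩, ⟨.negSucc 2501, .negSucc 391, .negSucc 453, .negSucc 698, .negSucc 536, .ofNat 571⟩, ⟨.ofNat 4045, .ofNat 42, .ofNat 240, .ofNat 500, .ofNat 806, .negSucc 757⟩, ⟨.negSucc 7662, .ofNat 446, .negSucc 766, .negSucc 2623, .negSucc 1391, .ofNat 2263⟩, ⟨.ofNat 433, .negSucc 525, .ofNat 916, .ofNat 1384, .ofNat 137, .negSucc 1330⟩, .ofNat 1566, .negSucc 2157, .ofNat 0, .negSucc 2157, .ofNat 3857, .ofNat 0, .ofNat 128, .ofNat 392, .negSucc 342, .ofNat 0, .ofNat 252, .negSucc 184, .ofNat 0, .ofNat 0, .ofNat 583, .ofNat 339, .ofNat 0,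 .ofNat 0, .ofNat 0, .ofNat 0, .ofNat 0, .ofNat 0, .ofNat 333467379001053412922091813871753887744, .ofNat 0, .ofNat 0, .ofNat 0, .ofNat 0, .ofNat 0, .ofNat 0, .ofNat 0, .ofNat 0, .ofNat 0⟩)
    (by decide +kernel)
theorem L05744 : Good (Phi V5.P V5.D 1 1) ⟨4, 13, 3, 4, 2, 2, 4, 14, 4, 2⟩ :=
  leafX_sound T5.ok_pp T5.Ypp.bz_eq (w := 219) (c := ⟨⟨.negSucc 5520, .negSucc 971, .ofNat 58, .negSucc 813, .negSucc 1091, .ofNat 1063⟩, ⟨.negSucc 2930, .negSucc 761, .negSucc 420, .negSucc 423, .negSucc 627, .ofNat 580⟩, ⟨.ofNat 4827, .ofNat 581, .negSucc 8, .ofNat 254, .ofNat 720, .negSucc 982⟩, ⟨.negSucc 8461, .negSucc 1100, .negSucc 90, .negSucc 2207, .negSucc 1654, .ofNat 2329⟩, ⟨.negSucc 152, .ofNat 608, .ofNat 260, .ofNat 1721, .ofNat 130, .negSucc 1345⟩, .ofNat 2022, .negSucc 2912, .ofNat 0, .negSucc 2912, .ofNat 5121, .ofNat 0, .ofNat 128, .ofNat 370, .negSucc 260, .ofNat 0, .ofNat 236, .negSucc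 141, .ofNat 0, .ofNat 0, .ofNat 424, .ofNat 254, .ofNat 0, .ofNat 0, .ofNat 0, .ofNat 0, .ofNat 0, .ofNat 0, .ofNat 6676174603483074240623287934469743312896, .ofNat 0, .ofNat 0, .ofNat 1220520213047255300569012885115453812244480, .ofNat 4189285406870413002457717373001875324928, .ofNat 0, .ofNat 0, .ofNat 0, .ofNat 264381211193085692746145951743221956608, .ofNat 0⟩)
    (by decide +kernel)
theorem L05745 : Good (Phi V5.P V5.D 1 1) ⟨4, 13, 3, 4, 2, 2, 4, 15, 4, 2⟩ :=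
  leafX_sound T5.ok_pp T5.Ypp.bz_eq (w := 219) (c := ⟨⟨.negSucc 6189, .negSucc 1732, .ofNat 166, .negSucc 1322, .negSucc 2683, .ofNat 1287⟩, ⟨.negSucc 3256, .negSucc 1237, .negSucc 440, .negSucc 709, .negSucc 1667, .ofNat 719⟩, ⟨.ofNat 5413, .ofNat 1043, .negSucc 142, .ofNat 463, .ofNat 1641, .negSucc 1213⟩, ⟨.negSucc 9725, .negSucc 1641, .negSucc 35, .negSucc 3563, .negSucc 4702, .ofNat 2654⟩, ⟨.ofNat 336, .negSucc 427, .ofNat 558, .ofNat 2780, .ofNat 1266, .negSucc 1323⟩, .ofNat 749, .negSucc 829, .ofNat 0, .negSucc 829, .ofNat 1634, .ofNat 0, .ofNat 128, .ofNat 318, .negSucc 411, .ofNat 0, .ofNat 221, .negSucc 197, .ofNat 0, .ofNat 0, .ofNat 533, .ofNat 169, .ofNat 0, .ofNat 865971484808985531748833250131844007985152, .ofNat 93006569847124019548078738691955097600, .ofNat 0, .ofNat 0, .ofNat 5857352288043043527283289287139595223302144, .ofNat 2292091137959072676356602988131308797952, .ofNat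 0, .ofNat 0, .ofNat 13297340254088432514309809884036312042831872, .ofNat 1502209060358417607809237037013673181184, .ofNat 0, .ofNat 0, .ofNat 14695153427830471089339680121546476030525440, .ofNat 2437969754981819200321859792166679740416, .ofNat 0⟩)
    (by decide +kernel)
theorem L05746 : Good (Phi V5.P V5.D 1 1) ⟨4, 13, 3, 4, 3, 4, 3, 6, 4, 3⟩ :=
  leafX_sound T5.ok_pp T5.Ypp.bz_eq (w := 229) (c := ⟨⟨.negSucc 3968, .negSucc 469, .negSucc 41, .negSucc 390, .negSucc 755, .ofNat 596⟩, ⟨.negSucc 2096, .negSucc 486, .negSucc 271, .negSucc 217, .negSucc 450, .ofNat 333⟩, ⟨.ofNat 3461, .ofNat 284, .negSucc 3, .ofNat 126, .ofNat 506, .negSucc 598⟩, ⟨.negSucc 6086, .negSucc 139, .negSucc 35, .negSucc 569, .negSucc 961, .ofNat 1149⟩, ⟨.negSucc 105, .negSucc 144, .ofNat 82, .negSucc 34, .negSucc 248, .negSucc 471⟩, .ofNat 748, .negSucc 826, .ofNat 0, .negSucc 826, .ofNat 1623, .ofNat 0, .ofNat 128,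 .ofNat 292, .negSucc 165, .ofNat 0, .ofNat 209, .negSucc 78, .ofNat 0, .ofNat 0, .ofNat 461, .ofNat 1231, .ofNat 0, .ofNat 0, .ofNat 0, .ofNat 0, .ofNat 0, .ofNat 0, .ofNat 1345838371454792567939966193251013846106112, .ofNat 0, .ofNat 0, .ofNat 0, .ofNat 1592298371084929430306050233889487266512896, .ofNat 0, .ofNat 0, .ofNat 0, .ofNat 7355094242007641819441517206268775273332736, .ofNat 0⟩)
    (by decide +kernel)
theorem L05747 : Good (Phi V5.P V5.D 1 1) ⟨4, 13, 3, 4, 3, 4, 3, 7, 4, 3⟩ :=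
  leafX_sound T5.ok_pp T5.Ypp.bz_eq (w := 228) (c := ⟨⟨.negSucc 4609, .negSucc 786, .ofNat 24, .negSucc 431, .negSucc 1768, .ofNat 758⟩, ⟨.negSucc 2438, .negSucc 694, .negSucc 278, .negSucc 269, .negSucc 1066, .ofNat 449⟩, ⟨.ofNat 4063, .ofNat 392, .negSucc 16, .ofNat 76, .ofNat 995, .negSucc 837⟩, ⟨.negSucc 6938, .negSucc 557, .negSucc 5, .negSucc 581, .negSucc 2445, .ofNat 1487⟩, ⟨.negSucc 422, .negSucc 16, .ofNat 170, .negSucc 82, .negSucc 214, .negSucc 650⟩, .ofNat 746, .negSucc 825, .ofNat 0, .negSucc 825, .ofNat 1628, .ofNat 0, .ofNat 128, .ofNat 292, .negSucc 162, .ofNat 0, .ofNat 209, .negSucc 77, .ofNat 0, .ofNat 0, .ofNat 392, .ofNat 478, .ofNat 0, .ofNat 1123184586766341205194019138947124861845110784, .ofNat 151841064738233329165379156005096915992576, .ofNat 0, .ofNat 0, .ofNat 10851528115623866769883641783384949495697506304, .ofNat 219022529614829163455606688906856347205632,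 .ofNat 0, .ofNat 0, .ofNat 22502078912173758837881936130699327920807084032, .ofNat 1142138412773255542893074066959187929202688, .ofNat 0, .ofNat 0, .ofNat 9731516003601638844874524711991894162855165952, .ofNat 398063430515704517710049249501688084037632, .ofNat 0⟩)
    (by decide +kernel)
theorem L05748 : Good (Phi V5.P V5.D 1 1) ⟨4, 13, 3, 4, 3, 5, 2, 3, 4, 3⟩ :=
  leafX_sound T5.ok_pp T5.Ypp.bz_eq (w := 224) (c := ⟨⟨.negSucc 4593, .negSucc 523, .negSucc 32, .negSucc 72, .negSucc 1286, .ofNat 951⟩, ⟨.negSucc 2458, .negSucc 480, .negSucc 322, .negSucc 37, .negSucc 771, .ofNat 539⟩, ⟨.ofNat 3840, .ofNat 30, .ofNat 226, .negSucc 53, .ofNat 961, .negSucc 807⟩, ⟨.negSucc 7104, .negSucc 233, .negSucc 145, .negSucc 247, .negSucc 1609, .ofNat 1906⟩, ⟨.negSucc 6, .ofNat 14, .ofNat 191, .ofNat 234, .negSucc 455, .negSucc 897⟩, .ofNat 1544, .negSucc 2116, .ofNat 0, .negSucc 2116, .ofNat 3782, .ofNat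 0, .ofNat 128, .ofNat 425, .negSucc 130, .ofNat 0, .ofNat 279, .negSucc 65, .ofNat 0, .ofNat 0, .ofNat 435, .ofNat 401, .ofNat 0, .ofNat 0, .ofNat 0, .ofNat 0, .ofNat 0, .ofNat 2810813039818208680774906455064813970984534016, .ofNat 530193808232036684876046401949828688904192, .ofNat 0, .ofNat 0, .ofNat 5179897674255257285395366016880519334085001216, .ofNat 161048505989983594043479875134477750501376, .ofNat 0, .ofNat 0, .ofNat 1547490691894427558590405203908580615733116928, .ofNat 190224328850734690227125351759184025092096, .ofNat 0⟩)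
    (by decide +kernel)
theorem L05749 : Good (Phi V5.P V5.D 1 1) ⟨5, 28, 3, 4, 2, 2, 3, 6, 4, 2⟩ :=
  leafX_sound T5.ok_pp T5.Ypp.bz_eq (w := 219) (c := ⟨⟨.negSucc 6997, .negSucc 1996, .ofNat 2090, .negSucc 1203, .negSucc 1000, .ofNat 1058⟩, ⟨.negSucc 4041, .negSucc 1333, .ofNat 906, .negSucc 747, .negSucc 631, .ofNat 661⟩, ⟨.ofNat 5293, .ofNat 1221, .negSucc 1158, .ofNat 540, .ofNat 825, .negSucc 801⟩, ⟨.negSucc 9463, .negSucc 2236, .ofNat 2196, .negSucc 2718, .negSucc 1582, .ofNat 2154⟩, ⟨.negSucc 265, .ofNat 56, .ofNat 506, .ofNat 1561, .ofNat 246, .negSucc 1022⟩, .ofNat 1144, .negSucc 1347, .ofNat 0, .negSucc 1347, .ofNat 2275, .ofNat 0, .ofNat 128, .ofNat 366, .negSucc 329, .ofNat 0, .ofNat 266, .negSucc 179, .ofNat 0, .ofNat 0, .ofNat 535, .ofNat 370, .ofNat 0, .ofNat 0, .ofNat 2103730253559882698649541150911758336, .ofNat 0, .ofNat 0, .ofNat 0, .ofNat 94549373916437465512604606139574779904,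 .ofNat 0, .ofNat 0, .ofNat 0, .ofNat 314511606986942263182470509517441335296, .ofNat 0, .ofNat 0, .ofNat 0, .ofNat 90615726578155092715954007497460678656, .ofNat 0⟩)
    (by decide +kernel)
theorem L05750 : Good (Phi V5.P V5.D 1 1) ⟨5, 28, 3, 4, 2, 2, 4, 14, 4, 2⟩ :=
  leafX_sound T5.ok_pp T5.Ypp.bz_eq (w := 223) (c := ⟨⟨.negSucc 6199, .negSucc 292, .negSucc 565, .negSucc 763, .negSucc 996, .ofNat 1327⟩, ⟨.negSucc 3562, .negSucc 356, .negSucc 724, .negSucc 463, .negSucc 630, .ofNat 822⟩, ⟨.ofNat 5035, .negSucc 93, .ofNat 614, .ofNat 257, .ofNat 654, .negSucc 1143⟩, ⟨.negSucc 8632, .ofNat 382, .negSucc 1600, .negSucc 2350, .negSucc 1549, .ofNat 2950⟩, ⟨.negSucc 561, .negSucc 944, .ofNat 1469, .ofNat 1965, .ofNat 199, .negSucc 1662⟩, .ofNat 1144, .negSucc 1347, .ofNat 0, .negSucc 1347, .ofNat 2275, .ofNat 0, .ofNat 128, .ofNat 358, .negSucc 339, .ofNat 0, .ofNat 261, .negSucc 182, .ofNat 0,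 .ofNat 0, .ofNat 505, .ofNat 335, .ofNat 0, .ofNat 0, .ofNat 18945534096307609455336227908330979328, .ofNat 0, .ofNat 0, .ofNat 0, .ofNat 3469483368819964169489592831513240535040, .ofNat 0, .ofNat 0, .ofNat 70624183295187155642098710996874543272820736, .ofNat 355990195607253388872106071653907169280, .ofNat 0, .ofNat 0, .ofNat 25388488473207889958574463981380395669127168, .ofNat 278735435876173062423193470177994866688, .ofNat 0⟩)
    (by decide +kernel)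
theorem L05751 : Good (Phi V5.P V5.D 1 1) ⟨5, 28, 4, 8, 2, 2, 4, 15, 4, 2⟩ :=
  out_sound (S := T5.ds_pp) T5.ok_pp (w := 59) (j := 3) (by decide +kernel)
theorem L05752 : Good (Phi V5.P V5.D 1 1) ⟨6, 56, 4, 9, 2, 2, 4, 15, 4, 2⟩ :=
  leafX_sound T5.ok_pp T5.Ypp.bz_eq (w := 232) (c := ⟨⟨.negSucc 8237, .negSucc 766, .ofNat 563, .negSucc 1051, .negSucc 2918, .ofNat 1543⟩, ⟨.negSucc 5003, .negSucc 551, .ofNat 116, .negSucc 620, .negSucc 1846, .ofNat 965⟩, ⟨.ofNat 6613, .ofNat 401, .negSucc 323, .ofNat 375, .ofNat 1820, .negSucc 1382⟩, ⟨.negSucc 12041, .negSucc 1070, .ofNat 778, .negSucc 3309, .negSucc 4781, .ofNat 3063⟩, ⟨.ofNat 440, .ofNat 330, .negSucc 52, .ofNat 2866, .ofNat 961, .negSucc 1354⟩, .ofNat 2070, .negSucc 2830, .ofNat 0, .negSucc 2830, .ofNat 4659, .ofNat 0, .ofNat 128, .ofNat 1152, .negSucc 821, .ofNat 0, .ofNat 773, .negSucc 490, .ofNat 0, .ofNat 0, .ofNat 1146, .ofNat 416,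 .ofNat 0, .ofNat 4952450785412490318180050244374209827866411008, .ofNat 118085824863611855110071601065583706112, .ofNat 0, .ofNat 0, .ofNat 27123717313103224791135639968278696758282813440, .ofNat 6021878431259255110300394767702814621696, .ofNat 0, .ofNat 0, .ofNat 245594699094048109981663002246339125683473612800, .ofNat 2624348474912879927203374284548383703040, .ofNat 0, .ofNat 0, .ofNat 175101073106465281991898226021906057872453664768, .ofNat 2725825764772812295077235458129369497600, .ofNat 0⟩)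
    (by decide +kernel)
theorem L05753 : Good (Phi V5.P V5.D 1 1) ⟨6, 57, 4, 9, 2, 2, 4, 15, 4, 2⟩ :=
  out_sound (S := T5.ds_pp) T5.ok_pp (w := 65) (j := 3) (by decide +kernel)
theorem L05754 : Good (Phi V5.P V5.D 1 1) ⟨5, 29, 3, 4, 2, 2, 2, 3, 4, 2⟩ :=
  out_sound (S := T5.ds_pp) T5.ok_pp (w := 57) (j := 3) (by decide +kernel)
theorem L05755 : Good (Phi V5.P V5.D 1 1) ⟨5, 28, 3, 4, 2, 2, 3, 6, 4, 3⟩ :=
  leafX_sound T5.ok_pp T5.Ypp.bz_eq (w := 219) (c := ⟨⟨.negSucc 4530, .negSucc 200, .negSucc 72, .negSucc 547, .negSucc 722, .ofNat 704⟩, ⟨.negSucc 2657, .negSucc 266, .negSucc 260, .negSucc 345, .negSucc 462, .ofNat 439⟩, ⟨.ofNat 3704, .ofNat 70, .ofNat 203, .ofNat 100, .ofNat 443, .negSucc 708⟩, ⟨.negSucc 6311, .negSucc 107, .negSucc 172, .negSucc 1034, .negSucc 910, .ofNat 1425⟩, ⟨.negSucc 327, .ofNat 131, .ofNat 161, .ofNat 373, .negSucc 194, .negSucc 658⟩, .ofNat 848, .negSucc 953,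 .ofNat 0, .negSucc 953, .ofNat 1722, .ofNat 0, .ofNat 128, .ofNat 381, .negSucc 198, .ofNat 0, .ofNat 277, .negSucc 100, .ofNat 0, .ofNat 0, .ofNat 570, .ofNat 875, .ofNat 0, .ofNat 0, .ofNat 1340708512075898472444322601420980224, .ofNat 0, .ofNat 0, .ofNat 3049252989813304401951888365452829017505792, .ofNat 84975185484176182250653823209473835008, .ofNat 0, .ofNat 0, .ofNat 29944990882900710489553747381229988840734720, .ofNat 121207930504300383695684912424190738432, .ofNat 0, .ofNat 0, .ofNat 35024460099062940430461628746153697554202624, .ofNat 25447923797641661688131349914568359936, .ofNat 0⟩)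
    (by decide +kernel)
theorem L05756 : Good (Phi V5.P V5.D 1 1) ⟨6, 56, 4, 8, 2, 2, 3, 7, 4, 3⟩ :=
  out_sound (S := T5.ds_pp) T5.ok_pp (w := 65) (j := 3) (by decide +kernel)
theorem L05757 : Good (Phi V5.P V5.D 1 1) ⟨6, 56, 4, 9, 2, 2, 4, 14, 4, 3⟩ :=
  leafX_sound T5.ok_pp T5.Ypp.bz_eq (w := 230) (c := ⟨⟨.negSucc 5580, .negSucc 415, .ofNat 252, .negSucc 707, .negSucc 890, .ofNat 819⟩, ⟨.negSucc 3421, .negSucc 347, .ofNat 42, .negSucc 443, .negSucc 568, .ofNat 510⟩, ⟨.ofNat 4533, .ofNat 168, .negSucc 63, .ofNat 139, .ofNat 470, .negSucc 909⟩, ⟨.negSucc 7760, .negSucc 452, .ofNat 332, .negSucc 1246, .negSucc 1151, .ofNat 1616⟩, ⟨.negSucc 379, .ofNat 44, .ofNat 45, .ofNat 374, .negSucc 189, .negSucc 706⟩, .ofNat 1563, .negSucc 2020, .ofNat 0, .negSucc 2020, .ofNat 3362, .ofNat 0, .ofNat 128, .ofNat 858, .negSucc 259, .ofNat 0, .ofNat 604, .negSucc 142, .ofNat 0, .ofNat 0, .ofNat 767, .ofNat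 517, .ofNat 0, .ofNat 0, .ofNat 76137270288851961681495760663161602048, .ofNat 0, .ofNat 0, .ofNat 26515441936164356257962176463224223158388129792, .ofNat 938040519581604546263974961630960156672, .ofNat 0, .ofNat 0, .ofNat 0, .ofNat 10083036676014154054448214013811865157632, .ofNat 0, .ofNat 0, .ofNat 69981171234596465394129918895389951677326950400, .ofNat 1770502426079666335253725681498141491200, .ofNat 0⟩)
    (by decide +kernel)
theorem L05758 : Good (Phi V5.P V5.D 1 1) ⟨6, 56, 4, 9, 2, 2, 4, 15, 4, 3⟩ :=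
  leafX_sound T5.ok_pp T5.Ypp.bz_eq (w := 231) (c := ⟨⟨.negSucc 6447, .negSucc 298, .ofNat 32, .negSucc 1595, .negSucc 1750, .ofNat 1151⟩, ⟨.negSucc 3934, .negSucc 277, .negSucc 143, .negSucc 1004, .negSucc 1114, .ofNat 714⟩, ⟨.ofNat 5110, .ofNat 171, .negSucc 31, .ofNat 367, .ofNat 1046, .negSucc 1187⟩, ⟨.negSucc 8906, .negSucc 244, .ofNat 29, .negSucc 2279, .negSucc 2381, .ofNat 2211⟩, ⟨.negSucc 547, .ofNat 2, .ofNat 47, .ofNat 41, .negSucc 148, .negSucc 884⟩, .ofNat 849, .negSucc 953, .ofNat 0, .negSucc 953, .ofNat 1721, .ofNat 0, .ofNat 128, .ofNat 320, .negSucc 319, .ofNat 0, .ofNat 232, .negSucc 173, .ofNat 0, .ofNat 0, .ofNat 557, .ofNat 1237, .ofNat 0, .ofNat 9034086231789580561945765403288372498774622208, .ofNat 50832286398569915761760318379408752640, .ofNat 0, .ofNat 0, .ofNat 88832062183545883235736705106216403567919497216, .ofNat 322567287408921236967612658993311252480, .ofNat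 0, .ofNat 0, .ofNat 275031331105186870640587455013591696290439233536, .ofNat 786154789218820139402993532256408043520, .ofNat 0, .ofNat 0, .ofNat 328730184695141687097797999881987349481491791872, .ofNat 471279568873813686304478936266512007168, .ofNat 0⟩)
    (by decide +kernel)
theorem L05759 : Good (Phi V5.P V5.D 1 1) ⟨6, 57, 3, 4, 2, 2, 3, 7, 4, 3⟩ :=
  out_sound (S := T5.ds_pp) T5.ok_pp (w := 63) (j := 3) (by decide +kernel)
theorem L05760 : Good (Phi V5.P V5.D 1 1) ⟨5, 29, 3, 4, 2, 2, 2, 3, 4, 3⟩ :=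
  out_sound (S := T5.ds_pp) T5.ok_pp (w := 57) (j := 3) (by decide +kernel)
theorem L05761 : Good (Phi V5.P V5.D 1 1) ⟨4, 15, 3, 4, 2, 2, 2, 3, 3, 1⟩ :=
  out_sound (S := T5.ds_pp) T5.ok_pp (w := 51) (j := 3) (by decide +kernel)
theorem L05762 : Good (Phi V5.P V5.D 1 1) ⟨2, 2, 3, 5, 2, 2, 2, 3, 3, 0⟩ :=
  out_sound (S := T5.ds_pp) T5.ok_pp (w := 39) (j := 3) (by decide +kernel)
theorem L05763 : Good (Phi V5.P V5.D 1 1) ⟨3, 6, 4, 10, 2, 2, 3, 6, 4, 0⟩ :=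
  out_sound (S := T5.ds_pp) T5.ok_pp (w := 47) (j := 3) (by decide +kernel)
theorem L05764 : Good (Phi V5.P V5.D 1 1) ⟨5, 28, 4, 10, 2, 2, 3, 6, 4, 0⟩ :=
  leafX_sound T5.ok_pp T5.Ypp.bz_eq (w := 226) (c := ⟨⟨.ofNat 1549, .negSucc 687, .negSucc 348, .negSucc 2771, .negSucc 1934, .negSucc 5615⟩, ⟨.ofNat 1078, .negSucc 379, .negSucc 415, .negSucc 1805, .negSucc 1268, .negSucc 3720⟩, ⟨.negSucc 432, .ofNat 109, .ofNat 470, .ofNat 1504, .ofNat 1672, .ofNat 3868⟩, ⟨.ofNat 2550, .negSucc 629, .negSucc 567, .negSucc 5965, .negSucc 3556, .negSucc 8719⟩, ⟨.negSucc 603, .negSucc 65, .negSucc 73, .ofNat 3153, .ofNat 1187, .ofNat 1138⟩, .ofNat 2502, .negSucc 3414, .ofNat 0, .negSucc 3414, .ofNat 5411, .ofNat 0, .ofNat 128, .ofNat 868, .negSucc 2364, .ofNat 0, .ofNat 589, .negSucc 1504, .ofNat 0, .ofNat 0, .ofNat 1954, .ofNat 267, .ofNat 0, .ofNat 0, .ofNat 0, .ofNat 0, .ofNat 0, .ofNat 0, .ofNat 466660304492189834898959961190282821632,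 .ofNat 0, .ofNat 0, .ofNat 0, .ofNat 297150410773452218247680263560382906368, .ofNat 653719375013599362863111545494658264162453422080, .ofNat 0, .ofNat 0, .ofNat 77879016720670852065009278605571653632, .ofNat 1116215559886804125349264194499025211932400418816⟩)
    (by decide +kernel)
theorem L05765 : Good (Phi V5.P V5.D 1 1) ⟨5, 29, 4, 10, 2, 2, 3, 6, 4, 0⟩ :=
  out_sound (S := T5.ds_pp) T5.ok_pp (w := 59) (j := 3) (by decide +kernel)
theorem L05766 : Good (Phi V5.P V5.D 1 1) ⟨4, 15, 4, 10, 2, 2, 3, 6, 4, 0⟩ :=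
  out_sound (S := T5.ds_pp) T5.ok_pp (w := 53) (j := 3) (by decide +kernel)
theorem L05767 : Good (Phi V5.P V5.D 1 1) ⟨3, 6, 4, 10, 3, 4, 3, 7, 5, 0⟩ :=
  out_sound (S := T5.ds_pp) T5.ok_pp (w := 47) (j := 3) (by decide +kernel)
theorem L05768 : Good (Phi V5.P V5.D 1 1) ⟨4, 14, 4, 10, 3, 4, 4, 14, 5, 0⟩ :=
  leafX_sound T5.ok_pp T5.Ypp.bz_eq (w := 245) (c := ⟨⟨.negSucc 1297, .negSucc 424, .negSucc 167, .ofNat 833, .negSucc 866, .negSucc 4322⟩, ⟨.negSucc 778, .negSucc 192, .negSucc 307, .ofNat 560, .negSucc 577, .negSucc 2851⟩, ⟨.ofNat 1798, .ofNat 18, .ofNat 190, .negSucc 649, .ofNat 778, .ofNat 3011⟩, ⟨.negSucc 2436, .negSucc 485, .negSucc 453, .ofNat 267, .negSucc 1703, .negSucc 5990⟩, ⟨.ofNat 905, .negSucc 356, .ofNat 413, .ofNat 1446, .ofNat 765, .negSucc 199⟩, .ofNat 2685, .negSucc 3523, .ofNat 0, .negSucc 3523, .ofNat 5316, .ofNat 0, .ofNat 128, .ofNat 599, .negSucc 2395, .ofNat 0,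 .ofNat 432, .negSucc 1589, .ofNat 0, .ofNat 0, .ofNat 1806, .ofNat 116, .ofNat 0, .ofNat 0, .ofNat 0, .ofNat 0, .ofNat 0, .ofNat 0, .ofNat 5278062681440994769158266969473479906147958784, .ofNat 0, .ofNat 0, .ofNat 0, .ofNat 11554473392146237713504106819228018134090776576, .ofNat 0, .ofNat 0, .ofNat 0, .ofNat 7226215768584441393619894069736201820540239872, .ofNat 577376742705190473337317651351043398718184469951414272⟩)
    (by decide +kernel)
theorem L05769 : Good (Phi V5.P V5.D 1 1) ⟨4, 15, 4, 10, 3, 4, 4, 14, 5, 0⟩ :=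
  out_sound (S := T5.ds_pp) T5.ok_pp (w := 53) (j := 3) (by decide +kernel)
theorem L05770 : Good (Phi V5.P V5.D 1 1) ⟨6, 56, 4, 10, 3, 4, 4, 15, 6, 0⟩ :=
  leafX_sound T5.ok_pp T5.Ypp.bz_eq (w := 263) (c := ⟨⟨.negSucc 2080, .negSucc 1475, .ofNat 2019, .ofNat 4222, .ofNat 2513, .negSucc 3730⟩, ⟨.negSucc 1288, .negSucc 1043, .ofNat 1326, .ofNat 2784, .ofNat 1641, .negSucc 2446⟩, ⟨.ofNat 2824, .ofNat 152, .negSucc 410, .negSucc 2677, .negSucc 1508, .ofNat 2559⟩, ⟨.negSucc 4761, .negSucc 1214, .ofNat 1993, .ofNat 6500, .ofNat 3543, .negSucc 6007⟩, ⟨.ofNat 2623, .negSucc 920, .ofNat 789, .negSucc 814, .ofNat 29, .ofNat 1122⟩, .ofNat 5105, .negSucc 7417, .ofNat 0, .negSucc 7417, .ofNat 11592, .ofNat 0, .ofNat 128, .ofNat 1142, .negSucc 6163, .ofNat 0, .ofNat 762, .negSucc 3964, .ofNat 0, .ofNat 0, .ofNat 4639, .ofNat 385, .ofNat 0, .ofNat 0, .ofNat 0, .ofNat 0, .ofNat 0, .ofNat 0, .ofNat 237584460983861611623641508879794931638292447232,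 .ofNat 0, .ofNat 0, .ofNat 0, .ofNat 319751164609391879836123318131667775798883909632, .ofNat 0, .ofNat 0, .ofNat 0, .ofNat 0, .ofNat 0⟩)
    (by decide +kernel)
theorem L05771 : Good (Phi V5.P V5.D 1 1) ⟨7, 114, 4, 10, 3, 4, 5, 30, 6, 0⟩ :=
  leafX_sound T5.ok_pp T5.Ypp.bz_eq (w := 271) (c := ⟨⟨.negSucc 2560, .negSucc 161, .negSucc 241, .ofNat 4186, .ofNat 458, .negSucc 3339⟩, ⟨.negSucc 1177, .ofNat 301, .negSucc 1178, .ofNat 2799, .ofNat 312, .negSucc 2228⟩, ⟨.ofNat 3240, .ofNat 516, .negSucc 650, .negSucc 2788, .negSucc 239, .ofNat 2332⟩, ⟨.negSucc 4844, .negSucc 305, .negSucc 232, .ofNat 5092, .ofNat 667, .negSucc 4774⟩, ⟨.ofNat 1785, .ofNat 31, .ofNat 16, .ofNat 1189, .negSucc 20, .ofNat 115⟩, .ofNat 4681, .negSucc 6607, .ofNat 0, .negSucc 6607, .ofNat 10090, .ofNat 0, .ofNat 128, .ofNat 1631, .negSucc 7112, .ofNat 0, .ofNat 1119, .negSucc 4681, .ofNat 0, .ofNat 0, .ofNat 5262, .ofNat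 119, .ofNat 0, .ofNat 0, .ofNat 18270487912599281974410011703978015395229466624, .ofNat 0, .ofNat 0, .ofNat 0, .ofNat 2599112347440489513958435403280665993754133397504, .ofNat 0, .ofNat 0, .ofNat 0, .ofNat 0, .ofNat 0, .ofNat 0, .ofNat 0, .ofNat 0, .ofNat 0⟩)
    (by decide +kernel)
theorem L05772 : Good (Phi V5.P V5.D 1 1) ⟨8, 228, 4, 10, 3, 4, 5, 31, 6, 0⟩ :=
  leafX_sound T5.ok_pp T5.Ypp.bz_eq (w := 273) (c := ⟨⟨.negSucc 2144, .ofNat 551, .negSucc 484, .ofNat 6434, .ofNat 2164, .negSucc 4655⟩, ⟨.negSucc 1107, .ofNat 516, .negSucc 953, .ofNat 4305, .ofNat 1447, .negSucc 3128⟩, ⟨.ofNat 3752, .ofNat 110, .negSucc 1878, .negSucc 4038, .negSucc 1412, .ofNat 3178⟩, ⟨.negSucc 4671, .ofNat 922, .negSucc 251, .ofNat 8513, .ofNat 3015, .negSucc 6945⟩, ⟨.ofNat 2214, .negSucc 345, .negSucc 144, .ofNat 861, .ofNat 52, .ofNat 579⟩, .ofNat 2415, .negSucc 3254, .ofNat 0, .negSucc 3254, .ofNat 5118, .ofNat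 0, .ofNat 128, .ofNat 1030, .negSucc 8576, .ofNat 0, .ofNat 714, .negSucc 5542, .ofNat 0, .ofNat 0, .ofNat 6189, .ofNat 221, .ofNat 0, .ofNat 0, .ofNat 0, .ofNat 0, .ofNat 0, .ofNat 835208644461705464693758610047572259104766086483017728, .ofNat 237423835691783074769032220887575119168450592768, .ofNat 0, .ofNat 0, .ofNat 0, .ofNat 104377733735418363294794664136282943310499151872, .ofNat 0, .ofNat 0, .ofNat 0, .ofNat 0, .ofNat 0⟩)
    (by decide +kernel)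
theorem L05773 : Good (Phi V5.P V5.D 1 1) ⟨8, 229, 4, 10, 3, 4, 5, 31, 6, 0⟩ :=
  out_sound (S := T5.ds_pp) T5.ok_pp (w := 23) (j := 4) (by decide +kernel)
theorem L05774 : Good (Phi V5.P V5.D 1 1) ⟨7, 115, 4, 10, 3, 4, 4, 15, 6, 0⟩ :=
  out_sound (S := T5.ds_pp) T5.ok_pp (w := 21) (j := 4) (by decide +kernel)
theorem L05775 : Good (Phi V5.P V5.D 1 1) ⟨5, 29, 4, 10, 3, 4, 4, 15, 6, 0⟩ :=
  out_sound (S := T5.ds_pp) T5.ok_pp (w := 59) (j := 3) (by decide +kernel)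
theorem L05776 : Good (Phi V5.P V5.D 1 1) ⟨5, 28, 5, 20, 3, 4, 4, 15, 6, 1⟩ :=
  leafX_sound T5.ok_pp T5.Ypp.bz_eq (w := 260) (c := ⟨⟨.negSucc 4358, .negSucc 288, .negSucc 191, .ofNat 2410, .negSucc 198, .negSucc 3307⟩, ⟨.negSucc 2779, .negSucc 144, .negSucc 274, .ofNat 1602, .negSucc 115, .negSucc 2160⟩, ⟨.ofNat 4224, .negSucc 150, .ofNat 210, .negSucc 1743, .ofNat 302, .ofNat 2257⟩, ⟨.negSucc 7336, .negSucc 118, .negSucc 593, .ofNat 3230, .negSucc 525, .negSucc 5019⟩, ⟨.ofNat 1665, .negSucc 11, .ofNat 457, .ofNat 338, .ofNat 363, .ofNat 480⟩, .ofNat 3968, .negSucc 5600, .ofNat 0, .negSucc 5600, .ofNat 8683, .ofNat 0, .ofNat 128, .ofNat 1056, .negSucc 5072, .ofNat 0, .ofNat 720, .negSucc 3283, .ofNat 0, .ofNat 0, .ofNat 3785, .ofNat 329, .ofNat 0, .ofNat 0, .ofNat 0, .ofNat 0, .ofNat 0, .ofNat 0, .ofNat 655820510720613618061849947555136568719401025536, .ofNat 0, .ofNat 0, .ofNat 2710052787914767473413920681411810760006135300751360,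 .ofNat 372826937006192600641220238037153531365152522240, .ofNat 0, .ofNat 0, .ofNat 35547933395119235098908621976938209655811127948345344, .ofNat 1569627155319219695111679501094473238787437625344, .ofNat 5427150672270464156571970634925556593553107723209769222144⟩)
    (by decide +kernel)
theorem L05777 : Good (Phi V5.P V5.D 1 1) ⟨6, 56, 5, 21, 3, 4, 4, 15, 6, 1⟩ :=
  leafX_sound T5.ok_pp T5.Ypp.bz_eq (w := 267) (c := ⟨⟨.negSucc 4776, .negSucc 2, .negSucc 870, .ofNat 1721, .negSucc 205, .negSucc 2276⟩, ⟨.negSucc 3151, .negSucc 1, .negSucc 1148, .ofNat 1186, .negSucc 135, .negSucc 1537⟩, ⟨.ofNat 4438, .ofNat 2, .negSucc 400, .negSucc 1250, .ofNat 285, .ofNat 1543⟩, ⟨.negSucc 7853, .negSucc 4, .negSucc 1702, .ofNat 3933, .negSucc 912, .negSucc 5134⟩, ⟨.ofNat 1720, .ofNat 1, .ofNat 116, .negSucc 2199, .ofNat 935, .ofNat 2854⟩, .ofNat 5306, .negSucc 7788, .ofNat 0, .negSucc 7788, .ofNat 12236,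 .ofNat 0, .ofNat 128, .ofNat 1811, .negSucc 8440, .ofNat 0, .ofNat 1189, .negSucc 5432, .ofNat 0, .ofNat 0, .ofNat 6423, .ofNat 406, .ofNat 0, .ofNat 0, .ofNat 6720186167518096897467495141415782562867970048, .ofNat 0, .ofNat 0, .ofNat 0, .ofNat 1169439580564240433463441343509911184350036099072, .ofNat 0, .ofNat 0, .ofNat 250038519587852080132850486184881852701864207130296320, .ofNat 919300741913930070236223437897067683353800474624, .ofNat 0, .ofNat 0, .ofNat 0, .ofNat 8656430368620593918024429822470288676751224602624, .ofNat 0⟩)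
    (by decide +kernel)
theorem L05778 : Good (Phi V5.P V5.D 1 1) ⟨6, 57, 5, 21, 3, 4, 4, 15, 6, 1⟩ :=
  leafX_sound T5.ok_pp T5.Ypp.bz_eq (w := 266) (c := ⟨⟨.negSucc 4547, .ofNat 812, .negSucc 1382, .ofNat 2516, .negSucc 28, .negSucc 2959⟩, ⟨.negSucc 2996, .ofNat 1747, .negSucc 1687, .ofNat 1682, .negSucc 14, .negSucc 1972⟩, ⟨.ofNat 4304, .ofNat 1948, .negSucc 436, .negSucc 1812, .ofNat 129, .ofNat 2042⟩, ⟨.negSucc 7539, .ofNat 322, .negSucc 1477, .ofNat 2413, .negSucc 404, .negSucc 3944⟩, ⟨.ofNat 1709, .ofNat 682, .negSucc 328, .ofNat 1777, .ofNat 549, .negSucc 391⟩, .ofNat 5676, .negSucc 8009, .ofNat 0, .negSucc 8009, .ofNat 12050, .ofNat 0, .ofNat 128, .ofNat 1323, .negSucc 6067, .ofNat 0, .ofNat 912, .negSucc 4051, .ofNat 0, .ofNat 0, .ofNat 4469, .ofNat 249, .ofNat 0, .ofNat 0, .ofNat 16887155224406588301629418019279793500056453120, .ofNat 0, .ofNat 0, .ofNat 17462533457575850432925746934713023919689130452189184,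 .ofNat 2192976756866583499582805491889360978919896907776, .ofNat 0, .ofNat 0, .ofNat 0, .ofNat 900405668512130804098067925575798417234740641792, .ofNat 0, .ofNat 0, .ofNat 969930808297038614216500308877139408054265918217256960, .ofNat 1084245700099494995649590474897500055828076429312, .ofNat 29948088427517429746650279531229100702657371261782382870528⟩)
    (by decide +kernel)
theorem L05779 : Good (Phi V5.P V5.D 1 1) ⟨5, 29, 4, 10, 3, 4, 4, 15, 6, 1⟩ :=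
  out_sound (S := T5.ds_pp) T5.ok_pp (w := 59) (j := 3) (by decide +kernel)
theorem L05780 : Good (Phi V5.P V5.D 1 1) ⟨4, 15, 4, 10, 3, 4, 4, 15, 5, 0⟩ :=
  out_sound (S := T5.ds_pp) T5.ok_pp (w := 53) (j := 3) (by decide +kernel)
theorem L05781 : Good (Phi V5.P V5.D 1 1) ⟨3, 6, 4, 10, 3, 4, 4, 14, 5, 1⟩ :=
  out_sound (S := T5.ds_pp) T5.ok_pp (w := 47) (j := 3) (by decide +kernel)
theorem L05782 : Good (Phi V5.P V5.D 1 1) ⟨3, 7, 4, 10, 3, 4, 4, 14, 5, 1⟩ :=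
  leafX_sound T5.ok_pp T5.Ypp.bz_eq (w := 238) (c := ⟨⟨.negSucc 4187, .negSucc 787, .negSucc 493, .negSucc 1608, .negSucc 1693, .negSucc 1746⟩, ⟨.negSucc 2609, .negSucc 750, .negSucc 622, .negSucc 1047, .negSucc 1106, .negSucc 1147⟩, ⟨.ofNat 3870, .ofNat 417, .ofNat 356, .ofNat 762, .ofNat 1305, .ofNat 1228⟩, ⟨.negSucc 6422, .negSucc 1116, .negSucc 726, .negSucc 3399, .negSucc 2840, .negSucc 2328⟩, ⟨.ofNat 796, .negSucc 1517, .ofNat 441, .ofNat 1779, .ofNat 704, .negSucc 245⟩, .ofNat 1553, .negSucc 1746, .ofNat 0, .negSucc 1746, .ofNat 2519, .ofNat 0, .ofNat 128, .ofNat 504, .negSucc 1657, .ofNat 0, .ofNat 409, .negSucc 1108, .ofNat 0, .ofNat 0, .ofNat 1271, .ofNat 292, .ofNat 0, .ofNat 0, .ofNat 141969654526001678761769779137613121292599296, .ofNat 2350331319201110508641105578032022832510144845185024, .ofNat 0, .ofNat 0, .ofNat 1146468100316865132645931920034006302485118976, .ofNat 58089670746204088010613938101434126786930807243014144,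 .ofNat 0, .ofNat 0, .ofNat 10088473256768358056321328408565433513338208256, .ofNat 0, .ofNat 0, .ofNat 0, .ofNat 8170802798399178017146880466234511417568919552, .ofNat 104169710539355079260711956476509863820666105571049472⟩)
    (by decide +kernel)
theorem L05783 : Good (Phi V5.P V5.D 1 1) ⟨3, 6, 4, 10, 3, 4, 4, 15, 5, 1⟩ :=
  out_sound (S := T5.ds_pp) T5.ok_pp (w := 47) (j := 3) (by decide +kernel)
theorem L05784 : Good (Phi V5.P V5.D 1 1) ⟨5, 28, 4, 10, 3, 4, 5, 30, 5, 1⟩ :=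
  leafX_sound T5.ok_pp T5.Ypp.bz_eq (w := 253) (c := ⟨⟨.negSucc 5413, .negSucc 1020, .negSucc 282, .negSucc 988, .negSucc 1801, .negSucc 2518⟩, ⟨.negSucc 3416, .negSucc 598, .negSucc 622, .negSucc 619, .negSucc 1178, .negSucc 1670⟩, ⟨.ofNat 4940, .ofNat 730, .ofNat 145, .ofNat 285, .ofNat 1266, .ofNat 1688⟩, ⟨.negSucc 8263, .negSucc 1187, .negSucc 796, .negSucc 2507, .negSucc 2841, .negSucc 4040⟩, ⟨.ofNat 800, .negSucc 99, .ofNat 720, .ofNat 1748, .ofNat 465, .ofNat 698⟩, .ofNat 2570, .negSucc 3503, .ofNat 0, .negSucc 3503, .ofNat 5521, .ofNat 0, .ofNat 128, .ofNat 712, .negSucc 2830, .ofNat 0, .ofNat 487, .negSucc 1814, .ofNat 0, .ofNat 0, .ofNat 2234, .ofNat 570, .ofNat 0, .ofNat 0, .ofNat 0, .ofNat 0, .ofNat 0, .ofNat 0, .ofNat 186314189688310109071970452613650729264392175616, .ofNat 0, .ofNat 0, .ofNat 0, .ofNat 30449987448457612814836994464530402277819678720, .ofNat 0, .ofNat 0, .ofNat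 0, .ofNat 33624329036186092063916521157037696395784486912, .ofNat 83662910028583931010117660603305893046327716364396003328⟩)
    (by decide +kernel)
theorem L05785 : Good (Phi V5.P V5.D 1 1) ⟨5, 28, 4, 10, 3, 4, 5, 31, 6, 2⟩ :=
  leafX_sound T5.ok_pp T5.Ypp.bz_eq (w := 260) (c := ⟨⟨.negSucc 6563, .negSucc 996, .negSucc 915, .ofNat 1063, .negSucc 3080, .negSucc 2564⟩, ⟨.negSucc 4104, .negSucc 808, .negSucc 998, .ofNat 745, .negSucc 2014, .negSucc 1696⟩, ⟨.ofNat 6025, .ofNat 259, .ofNat 698, .negSucc 1180, .ofNat 2066, .ofNat 1735⟩, ⟨.negSucc 9767, .negSucc 2713, .negSucc 1413, .ofNat 1043, .negSucc 5170, .negSucc 4300⟩, ⟨.ofNat 1140, .negSucc 210, .ofNat 1688, .ofNat 827, .ofNat 1224, .ofNat 984⟩, .ofNat 2570, .negSucc 3503, .ofNat 0, .negSucc 3503, .ofNat 5521, .ofNat 0, .ofNat 128, .ofNat 727, .negSucc 4329, .ofNat 0, .ofNat 498, .negSucc 2781, .ofNat 0, .ofNat 0, .ofNat 3182, .ofNat 208,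 .ofNat 0, .ofNat 0, .ofNat 0, .ofNat 0, .ofNat 0, .ofNat 0, .ofNat 2676096437803575431114990052169440187940845125632, .ofNat 0, .ofNat 0, .ofNat 0, .ofNat 2971224224360839707084923872595691398746957938688, .ofNat 0, .ofNat 0, .ofNat 18017504147627108045760773569070746912592297241608192, .ofNat 4404212517437638951196565305074476947586997551104, .ofNat 11528435609719877144543825720912326447478591549875228246016⟩)
    (by decide +kernel)
theorem L05786 : Good (Phi V5.P V5.D 1 1) ⟨5, 28, 4, 10, 3, 4, 5, 31, 6, 3⟩ :=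
  leafX_sound T5.ok_pp T5.Ypp.bz_eq (w := 259) (c := ⟨⟨.negSucc 8551, .negSucc 1016, .negSucc 629, .negSucc 162, .negSucc 5051, .negSucc 2050⟩, ⟨.negSucc 5372, .negSucc 781, .negSucc 943, .negSucc 59, .negSucc 3314, .negSucc 1352⟩, ⟨.ofNat 7308, .ofNat 1083, .ofNat 44, .negSucc 616, .ofNat 3377, .ofNat 1323⟩, ⟨.negSucc 12951, .negSucc 1513, .negSucc 1280, .negSucc 1054, .negSucc 8545, .negSucc 3261⟩, ⟨.ofNat 1253, .ofNat 108, .ofNat 932, .ofNat 1301, .ofNat 2145, .ofNat 504⟩, .ofNat 2570, .negSucc 3503, .ofNat 0, .negSucc 3503, .ofNat 5521, .ofNat 0, .ofNat 128, .ofNat 701, .negSucc 3721, .ofNat 0, .ofNat 480, .negSucc 2385, .ofNat 0, .ofNat 0, .ofNat 2776, .ofNat 224, .ofNat 0, .ofNat 320770221022529503714589007083873895464832451215360, .ofNat 85938514008088721122098433905250259340175081472, .ofNat 0, .ofNat 0, .ofNat 0, .ofNat 2668630127722429106175484955110109198414329675776, .ofNat 0,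 .ofNat 0, .ofNat 0, .ofNat 4225585633663703887293187295745003598523058356224, .ofNat 109958711236968524567982180887899594990271565193854058496, .ofNat 0, .ofNat 20267551404654089288339602105290732002022499358343168, .ofNat 3984369723867624330933456431833557972480191102976, .ofNat 9072713968393408317799773317646342902877120300330480828416⟩)
    (by decide +kernel)
theorem L05787 : Good (Phi V5.P V5.D 1 1) ⟨5, 29, 4, 10, 3, 4, 4, 15, 5, 1⟩ :=
  out_sound (S := T5.ds_pp) T5.ok_pp (w := 59) (j := 3) (by decide +kernel)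
theorem L05788 : Good (Phi V5.P V5.D 1 1) ⟨4, 15, 4, 10, 3, 4, 4, 15, 5, 1⟩ :=
  out_sound (S := T5.ds_pp) T5.ok_pp (w := 53) (j := 3) (by decide +kernel)
theorem L05789 : Good (Phi V5.P V5.D 1 1) ⟨3, 6, 4, 10, 3, 5, 3, 7, 4, 0⟩ :=
  out_sound (S := T5.ds_pp) T5.ok_pp (w := 47) (j := 3) (by decide +kernel)
theorem L05790 : Good (Phi V5.P V5.D 1 1) ⟨5, 28, 4, 10, 3, 5, 4, 14, 4, 0⟩ :=
  leafX_sound T5.ok_pp T5.Ypp.bz_eq (w := 245) (c := ⟨⟨.negSucc 672, .negSucc 1282, .ofNat 589, .negSucc 354, .negSucc 319, .negSucc 7672⟩, ⟨.negSucc 97, .negSucc 1708, .ofNat 625, .negSucc 235, .negSucc 219, .negSucc 5086⟩, ⟨.ofNat 1405, .ofNat 586, .negSucc 206, .ofNat 240, .ofNat 482, .ofNat 4919⟩, ⟨.negSucc 1756, .negSucc 1195, .ofNat 490, .negSucc 2409, .negSucc 1055, .negSucc 12209⟩, ⟨.ofNat 1055, .negSucc 168, .ofNat 145, .ofNat 2956, .ofNat 963, .ofNat 2028⟩, .ofNat 2570, .negSucc 3503, .ofNat 0, .negSucc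 3503, .ofNat 5521, .ofNat 0, .ofNat 128, .ofNat 624, .negSucc 3323, .ofNat 0, .ofNat 426, .negSucc 2116, .ofNat 0, .ofNat 0, .ofNat 2499, .ofNat 136, .ofNat 0, .ofNat 0, .ofNat 4626931815820424572654618257628357013274624, .ofNat 0, .ofNat 0, .ofNat 0, .ofNat 234220829359085086918226991817094000042573824, .ofNat 0, .ofNat 0, .ofNat 0, .ofNat 82660654853330600068651698475280348489973760, .ofNat 0, .ofNat 0, .ofNat 0, .ofNat 160194208850123189569814931599818337049116672, .ofNat 461050000786516705762363857858244447647805207922868224⟩)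
    (by decide +kernel)
theorem L05791 : Good (Phi V5.P V5.D 1 1) ⟨5, 28, 4, 10, 3, 5, 4, 15, 4, 0⟩ :=
  leafX_sound T5.ok_pp T5.Ypp.bz_eq (w := 244) (c := ⟨⟨.ofNat 1623, .negSucc 953, .ofNat 945, .ofNat 962, .negSucc 186, .negSucc 12242⟩, ⟨.ofNat 1145, .negSucc 551, .ofNat 338, .ofNat 683, .negSucc 117, .negSucc 8033⟩, ⟨.ofNat 312, .negSucc 188, .negSucc 114, .negSucc 320, .ofNat 461, .ofNat 7687⟩, ⟨.ofNat 746, .negSucc 1128, .ofNat 1184, .negSucc 68, .negSucc 866, .negSucc 19008⟩, ⟨.ofNat 2540, .negSucc 480, .ofNat 163, .ofNat 2161, .ofNat 989, .ofNat 2409⟩, .ofNat 2570, .negSucc 3503, .ofNat 0, .negSucc 3503, .ofNat 5521, .ofNat 0, .ofNat 128, .ofNat 483, .negSucc 2683, .ofNat 0, .ofNat 332, .negSucc 1706, .ofNat 0, .ofNat 0, .ofNat 1959, .ofNat 104, .ofNat 0, .ofNat 0, .ofNat 0, .ofNat 0, .ofNat 0, .ofNat 0, .ofNat 79131029958533828222574749140081298280284160, .ofNat 0, .ofNat 0, .ofNat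 0, .ofNat 94253911847702444799722163534718210723020800, .ofNat 0, .ofNat 0, .ofNat 0, .ofNat 10185838081673992369970081132600029341548544, .ofNat 256013181040152136295120695783073840705369801895182336⟩)
    (by decide +kernel)
theorem L05792 : Good (Phi V5.P V5.D 1 1) ⟨5, 29, 4, 10, 3, 5, 3, 7, 4, 0⟩ :=
  out_sound (S := T5.ds_pp) T5.ok_pp (w := 59) (j := 3) (by decide +kernel)
theorem L05793 : Good (Phi V5.P V5.D 1 1) ⟨4, 15, 4, 10, 3, 5, 3, 7, 4, 0⟩ :=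
  out_sound (S := T5.ds_pp) T5.ok_pp (w := 53) (j := 3) (by decide +kernel)
theorem L05794 : Good (Phi V5.P V5.D 1 1) ⟨3, 6, 4, 10, 2, 2, 2, 3, 4, 1⟩ :=
  out_sound (S := T5.ds_pp) T5.ok_pp (w := 47) (j := 3) (by decide +kernel)
theorem L05795 : Good (Phi V5.P V5.D 1 1) ⟨5, 28, 4, 10, 2, 2, 3, 6, 4, 1⟩ :=
  leafX_sound T5.ok_pp T5.Ypp.bz_eq (w := 224) (c := ⟨⟨.negSucc 4488, .negSucc 1591, .ofNat 355, .negSucc 2821, .negSucc 1407, .ofNat 307⟩, ⟨.negSucc 2828, .negSucc 1099, .negSucc 46, .negSucc 1826, .negSucc 919, .ofNat 208⟩, ⟨.ofNat 3848, .ofNat 451, .ofNat 110, .ofNat 1520, .ofNat 1245, .negSucc 135⟩, ⟨.negSucc 6467, .negSucc 1471, .negSucc 104, .negSucc 6304, .negSucc 2601, .ofNat 1012⟩, ⟨.negSucc 94, .negSucc 181, .ofNat 565, .ofNat 3553, .ofNat 933, .negSucc 870⟩, .ofNat 2424, .negSucc 3309, .ofNat 0, .negSucc 3309, .ofNat 5274, .ofNat 0, .ofNat 128, .ofNat 590, .negSucc 978, .ofNat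 0, .ofNat 398, .negSucc 611, .ofNat 0, .ofNat 0, .ofNat 1101, .ofNat 565, .ofNat 0, .ofNat 0, .ofNat 0, .ofNat 0, .ofNat 0, .ofNat 0, .ofNat 569994439976271228381126512607852756992, .ofNat 0, .ofNat 0, .ofNat 0, .ofNat 234766924365533114890532948322363113472, .ofNat 293127715121630841199759442573874860679103512576, .ofNat 0, .ofNat 0, .ofNat 482708906185698433623831413734546341888, .ofNat 416421276734885613094194203169746334957413859328⟩)
    (by decide +kernel)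
theorem L05796 : Good (Phi V5.P V5.D 1 1) ⟨5, 28, 4, 10, 2, 2, 4, 14, 5, 2⟩ :=
  leafX_sound T5.ok_pp T5.Ypp.bz_eq (w := 234) (c := ⟨⟨.negSucc 5939, .negSucc 1784, .ofNat 898, .negSucc 2823, .negSucc 1709, .negSucc 151⟩, ⟨.negSucc 3638, .negSucc 1702, .ofNat 462, .negSucc 1816, .negSucc 1107, .negSucc 83⟩, ⟨.ofNat 5321, .negSucc 370, .ofNat 337, .ofNat 1572, .ofNat 1283, .ofNat 125⟩, ⟨.negSucc 8778, .negSucc 1547, .ofNat 507, .negSucc 7263, .negSucc 2956, .negSucc 78⟩, ⟨.ofNat 323, .negSucc 604, .ofNat 849, .ofNat 5056, .ofNat 822, .negSucc 195⟩, .ofNat 2441, .negSucc 3333, .ofNat 0, .negSucc 3333, .ofNat 5305, .ofNat 0, .ofNat 128, .ofNat 1173, .negSucc 1773, .ofNat 0, .ofNat 795, .negSucc 1111, .ofNat 0, .ofNat 0, .ofNat 1607, .ofNat 282, .ofNat 0, .ofNat 0, .ofNat 0, .ofNat 0, .ofNat 0, .ofNat 0, .ofNat 617594736463716974643803903115755262050304, .ofNat 0, .ofNat 0, .ofNat 0, .ofNat 384007320139828514996033254469617741463552,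 .ofNat 0, .ofNat 0, .ofNat 0, .ofNat 0, .ofNat 0⟩)
    (by decide +kernel)
theorem L05797 : Good (Phi V5.P V5.D 1 1) ⟨6, 56, 4, 10, 3, 4, 4, 15, 5, 2⟩ :=
  leafX_sound T5.ok_pp T5.Ypp.bz_eq (w := 255) (c := ⟨⟨.negSucc 7942, .negSucc 552, .negSucc 263, .negSucc 1718, .negSucc 6643, .ofNat 359⟩, ⟨.negSucc 5093, .negSucc 239, .negSucc 849, .negSucc 1091, .negSucc 4322, .ofNat 249⟩, ⟨.ofNat 6992, .negSucc 15, .ofNat 561, .ofNat 549, .ofNat 4457, .negSucc 385⟩, ⟨.negSucc 12005, .negSucc 678, .negSucc 573, .negSucc 3702, .negSucc 11048, .ofNat 785⟩, ⟨.ofNat 897, .ofNat 277, .ofNat 174, .ofNat 1997, .ofNat 2541, .negSucc 439⟩, .ofNat 3647, .negSucc 5181, .ofNat 0, .negSucc 5181, .ofNat 8155, .ofNat 0, .ofNat 128, .ofNat 927, .negSucc 2924, .ofNat 0, .ofNat 621, .negSucc 1860, .ofNat 0, .ofNat 0, .ofNat 2500, .ofNat 374, .ofNat 0, .ofNat 145822386449660156376127962943859052326008179916800, .ofNat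 111217221807501895426605450020754322968543232, .ofNat 0, .ofNat 0, .ofNat 0, .ofNat 0, .ofNat 0, .ofNat 0, .ofNat 0, .ofNat 0, .ofNat 0, .ofNat 0, .ofNat 6544882808984513302894820588166349141143182458748928, .ofNat 2716983636227157867942907723568036427786616832, .ofNat 0⟩)
    (by decide +kernel)
theorem L05798 : Good (Phi V5.P V5.D 1 1) ⟨6, 56, 4, 10, 3, 5, 4, 15, 5, 2⟩ :=
  leafX_sound T5.ok_pp T5.Ypp.bz_eq (w := 254) (c := ⟨⟨.negSucc 10687, .ofNat 412, .ofNat 164, .ofNat 1416, .negSucc 2525, .negSucc 497⟩, ⟨.negSucc 6851, .ofNat 370, .negSucc 532, .ofNat 963, .negSucc 1622, .negSucc 335⟩, ⟨.ofNat 7801, .ofNat 183, .negSucc 567, .negSucc 614, .ofNat 1806, .ofNat 224⟩, ⟨.negSucc 17246, .ofNat 559, .ofNat 60, .negSucc 696, .negSucc 5242, .negSucc 363⟩, ⟨.ofNat 3173, .ofNat 212, .ofNat 206, .ofNat 4150, .ofNat 2541, .negSucc 532⟩, .ofNat 2386, .negSucc 3258, .ofNat 0, .negSucc 3258, .ofNat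 5209, .ofNat 0, .ofNat 128, .ofNat 1428, .negSucc 3491, .ofNat 0, .ofNat 970, .negSucc 2161, .ofNat 0, .ofNat 0, .ofNat 2919, .ofNat 481, .ofNat 0, .ofNat 0, .ofNat 0, .ofNat 0, .ofNat 0, .ofNat 934655377271906546393442632161199110708767471173632, .ofNat 4032593770476438010697098340547957324467142656, .ofNat 0, .ofNat 0, .ofNat 0, .ofNat 0, .ofNat 0, .ofNat 0, .ofNat 7532145910019227663657743668151797049779701103460352, .ofNat 3147321157187036501497766980441648654406647808, .ofNat 0⟩)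
    (by decide +kernel)
theorem L05799 : Good (Phi V5.P V5.D 1 1) ⟨6, 57, 4, 10, 2, 2, 5, 30, 5, 2⟩ :=
  leafX_sound T5.ok_pp T5.Ypp.bz_eq (w := 242) (c := ⟨⟨.negSucc 9382, .ofNat 249, .ofNat 771, .negSucc 927, .negSucc 1965, .negSucc 195⟩, ⟨.negSucc 5563, .ofNat 888, .negSucc 741, .negSucc 597, .negSucc 1302, .negSucc 136⟩, ⟨.ofNat 7443, .negSucc 251, .negSucc 305, .ofNat 221, .ofNat 1295, .ofNat 71⟩, ⟨.negSucc 13218, .ofNat 633, .ofNat 110, .negSucc 5290, .negSucc 3297, .negSucc 144⟩, ⟨.ofNat 544, .ofNat 667, .ofNat 462, .ofNat 6033, .ofNat 817, .negSucc 219⟩, .ofNat 1567, .negSucc 1994, .ofNat 0, .negSucc 1994, .ofNat 3225, .ofNat 0, .ofNat 128, .ofNat 1012, .negSucc 2326, .ofNat 0, .ofNat 707, .negSucc 1438, .ofNat 0, .ofNat 0, .ofNat 1967, .ofNat 218, .ofNat 0, .ofNat 0, .ofNat 51272570999913041089554541747260748726272, .ofNat 0, .ofNat 0, .ofNat 0, .ofNat 2111111525235769454669748937326657347256320,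 .ofNat 0, .ofNat 0, .ofNat 0, .ofNat 0, .ofNat 0, .ofNat 0, .ofNat 0, .ofNat 6045508767495419477865243379907958142926848, .ofNat 9272835602880322751278015698953194190701424115974144⟩)
    (by decide +kernel)
theorem L05800 : Good (Phi V5.P V5.D 1 1) ⟨7, 114, 5, 20, 2, 2, 5, 31, 5, 2⟩ :=
  leafX_sound T5.ok_pp T5.Ypp.bz_eq (w := 262) (c := ⟨⟨.negSucc 11674, .ofNat 7, .ofNat 222, .ofNat 1436, .negSucc 4765, .negSucc 201⟩, ⟨.negSucc 8322, .ofNat 5, .ofNat 745, .ofNat 993, .negSucc 3136, .negSucc 135⟩, ⟨.ofNat 8530, .negSucc 4, .ofNat 529, .negSucc 1403, .ofNat 3110, .ofNat 34⟩, ⟨.negSucc 19039, .ofNat 11, .negSucc 0, .ofNat 352, .negSucc 5574, .ofNat 173⟩, ⟨.ofNat 4395, .negSucc 1, .ofNat 3, .ofNat 2550, .negSucc 1647, .negSucc 674⟩, .ofNat 14064, .negSucc 20807, .ofNat 0, .negSucc 20807, .ofNat 31592, .ofNat 0, .ofNat 128, .ofNat 10409, .negSucc 22884, .ofNat 0, .ofNat 6957, .negSucc 15043,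 .ofNat 0, .ofNat 0, .ofNat 18750, .ofNat 1532, .ofNat 0, .ofNat 143088358817496851438396215866708102350760182808576, .ofNat 63024668317615263580147226381773469057548288, .ofNat 0, .ofNat 0, .ofNat 1069331991314719344819116150695939887802009947996160, .ofNat 9247786196100041333317523400131817039888121856, .ofNat 0, .ofNat 0, .ofNat 0, .ofNat 0, .ofNat 0, .ofNat 0, .ofNat 0, .ofNat 240624387629567179100982007071782800260595712, .ofNat 0⟩)
    (by decide +kernel)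

end Crest.Agent.R097C5.N5pp
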