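import Crest.Agent.R097.KP7
import Crest.Agent.R097.T5Ypp

/-!
# Row 97, box cover in dimension n = 5 (generated)
-/

set_option autoImplicit false
set_option Elab.async false
set_option maxHeartbeats 0
set_option maxRecDepth 100000

open Crest.Agent.R097 Crest.Agent.R097.KA


namespace Crest.Agent.R097C5.N5pp

theorem L05801 : Good (Phi V5.P V5.D 1 1) ⟨7, 114, 5, 21, 3, 4, 5, 31, 5, 2⟩ :=
  leafX_sound T5.ok_pp T5.Ypp.bz_eq (w := 271) (c := ⟨⟨.negSucc 11911, .negSucc 15, .ofNat 491, .negSucc 568, .negSucc 5170, .ofNat 466⟩, ⟨.negSucc 7867, .negSucc 177, .ofNat 200, .negSucc 366, .negSucc 3427, .ofNat 307⟩, ⟨.ofNat 9583, .ofNat 23, .negSucc 433, .negSucc 389, .ofNat 3369, .negSucc 470⟩, ⟨.negSucc 18535, .ofNat 109, .ofNat 412, .negSucc 2011, .negSucc 7144, .ofNat 816⟩, ⟨.ofNat 2674, .ofNat 131, .ofNat 266, .ofNat 1851, .negSucc 160, .negSucc 245⟩, .ofNat 8455, .negSucc 12235, .ofNat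 0, .negSucc 12235, .ofNat 18480, .ofNat 0, .ofNat 128, .ofNat 2505, .negSucc 8925, .ofNat 0, .ofNat 1694, .negSucc 5926, .ofNat 0, .ofNat 0, .ofNat 6973, .ofNat 681, .ofNat 0, .ofNat 351117904035346604335077287550092837888361854853447680, .ofNat 2161948986841141216410238984950840101177393152, .ofNat 0, .ofNat 0, .ofNat 1220915836851602867402749293671994004882122885428150272, .ofNat 412243407150828624618573374293258321670229196800, .ofNat 1888579139613298866545500550473270616879905429127746813952, .ofNat 0, .ofNat 0, .ofNat 0, .ofNat 0, .ofNat 0, .ofNat 0, .ofNat 0, .ofNat 0⟩)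
    (by decide +kernel)
theorem L05802 : Good (Phi V5.P V5.D 1 1) ⟨7, 114, 5, 21, 3, 5, 5, 31, 5, 2⟩ :=
  leafX_sound T5.ok_pp T5.Ypp.bz_eq (w := 271) (c := ⟨⟨.negSucc 11934, .ofNat 149, .ofNat 792, .ofNat 2638, .negSucc 1645, .negSucc 706⟩, ⟨.negSucc 7882, .negSucc 35, .ofNat 393, .ofNat 1776, .negSucc 1073, .negSucc 479⟩, ⟨.ofNat 8869, .ofNat 438, .negSucc 1102, .negSucc 1239, .ofNat 1118, .ofNat 319⟩, ⟨.negSucc 20178, .ofNat 609, .ofNat 985, .ofNat 1276, .negSucc 2314, .negSucc 970⟩, ⟨.ofNat 5137, .negSucc 237, .negSucc 163, .ofNat 3668, .ofNat 3, .negSucc 39⟩, .ofNat 7150, .negSucc 10346, .ofNat 0, .negSucc 10346, .ofNat 15753, .ofNat 0, .ofNat 128, .ofNat 2276, .negSucc 10001, .ofNat 0, .ofNat 1536, .negSucc 6548, .ofNat 0, .ofNat 0, .ofNat 8190, .ofNat 321, .ofNat 0, .ofNat 0, .ofNat 0, .ofNat 0, .ofNat 0, .ofNat 892702967431076722363492216023657120581505015189864448, .ofNat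 191391748168450644916145044649294918323382779904, .ofNat 43683916622760758379107471178892354972156534269146264764416, .ofNat 0, .ofNat 0, .ofNat 499915714409607160599039487498616429878989291520, .ofNat 0, .ofNat 0, .ofNat 0, .ofNat 0, .ofNat 0⟩)
    (by decide +kernel)
theorem L05803 : Good (Phi V5.P V5.D 1 1) ⟨7, 115, 4, 10, 2, 2, 5, 31, 5, 2⟩ :=
  out_sound (S := T5.ds_pp) T5.ok_pp (w := 21) (j := 4) (by decide +kernel)
theorem L05804 : Good (Phi V5.P V5.D 1 1) ⟨6, 56, 4, 10, 2, 2, 4, 14, 5, 3⟩ :=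
  leafX_sound T5.ok_pp T5.Ypp.bz_eq (w := 241) (c := ⟨⟨.negSucc 6003, .negSucc 2635, .ofNat 2755, .negSucc 1403, .negSucc 1330, .ofNat 554⟩, ⟨.negSucc 3784, .negSucc 1823, .ofNat 1547, .negSucc 870, .negSucc 844, .ofNat 355⟩, ⟨.ofNat 5492, .ofNat 728, .negSucc 550, .ofNat 741, .ofNat 985, .negSucc 448⟩, ⟨.negSucc 9503, .negSucc 1976, .ofNat 1796, .negSucc 4937, .negSucc 2113, .ofNat 1218⟩, ⟨.ofNat 781, .negSucc 1048, .ofNat 1584, .ofNat 4562, .ofNat 349, .negSucc 661⟩, .ofNat 5265, .negSucc 7647, .ofNat 0, .negSucc 7647, .ofNat 11919, .ofNat 0, .ofNat 128, .ofNat 1842, .negSucc 1598, .ofNat 0, .ofNat 1225, .negSucc 1017, .ofNat 0, .ofNat 0, .ofNat 1716, .ofNat 828, .ofNat 0, .ofNat 0, .ofNat 0, .ofNat 0, .ofNat 0, .ofNat 0, .ofNat 1405582237914743324672433581302700325208064, .ofNat 0, .ofNat 0, .ofNat 0, .ofNat 740882836213383076411827271284272123609088, .ofNat 0, .ofNat 0, .ofNat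 0, .ofNat 226380919555415341895147366375206990905344, .ofNat 0⟩)
    (by decide +kernel)
theorem L05805 : Good (Phi V5.P V5.D 1 1) ⟨6, 56, 4, 10, 3, 4, 4, 15, 5, 3⟩ :=
  leafX_sound T5.ok_pp T5.Ypp.bz_eq (w := 256) (c := ⟨⟨.negSucc 8097, .negSucc 1179, .ofNat 670, .negSucc 1366, .negSucc 4881, .ofNat 1052⟩, ⟨.negSucc 5139, .negSucc 809, .negSucc 10, .negSucc 868, .negSucc 3150, .ofNat 680⟩, ⟨.ofNat 6850, .ofNat 642, .negSucc 341, .ofNat 392, .ofNat 3204, .negSucc 853⟩, ⟨.negSucc 12334, .negSucc 1418, .negSucc 51, .negSucc 2990, .negSucc 7577, .ofNat 2072⟩, ⟨.ofNat 954, .ofNat 292, .ofNat 1177, .ofNat 1643, .ofNat 1043, .negSucc 902⟩, .ofNat 5186, .negSucc 7533, .ofNat 0, .negSucc 7533, .ofNat 11753, .ofNat 0, .ofNat 128, .ofNat 1525, .negSucc 2961, .ofNat 0, .ofNat 1015, .negSucc 1892, .ofNat 0, .ofNat 0, .ofNat 2949, .ofNat 830, .ofNat 0, .ofNat 361307416102936968775811308169133327820189165682688,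 .ofNat 113660192336959271277569922574370498074902528, .ofNat 0, .ofNat 0, .ofNat 2136460009098313082698937639465726420348317772808192, .ofNat 5377902495698194170362012416350232495381282816, .ofNat 0, .ofNat 0, .ofNat 13476272937001040549388338898085985553276011817205760, .ofNat 1064293330632885919868426138356137216383647744, .ofNat 0, .ofNat 0, .ofNat 23612772964708432467258007806310465736745270860840960, .ofNat 3109571754799956695045427101826669296887005184, .ofNat 0⟩)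
    (by decide +kernel)
theorem L05806 : Good (Phi V5.P V5.D 1 1) ⟨6, 56, 4, 10, 3, 5, 4, 15, 5, 3⟩ :=
  leafX_sound T5.ok_pp T5.Ypp.bz_eq (w := 256) (c := ⟨⟨.negSucc 10478, .negSucc 219, .ofNat 77, .ofNat 935, .negSucc 2424, .ofNat 1284⟩, ⟨.negSucc 6700, .negSucc 102, .negSucc 472, .ofNat 645, .negSucc 1561, .ofNat 817⟩, ⟨.ofNat 7828, .ofNat 251, .negSucc 197, .negSucc 306, .ofNat 1597, .negSucc 955⟩, ⟨.negSucc 16949, .negSucc 144, .negSucc 106, .negSucc 657, .negSucc 4569, .ofNat 2456⟩, ⟨.ofNat 3068, .ofNat 90, .ofNat 155, .ofNat 3060, .ofNat 1770, .negSucc 993⟩, .ofNat 5224, .negSucc 7588, .ofNat 0, .negSucc 7588, .ofNat 11833, .ofNat 0, .ofNat 128, .ofNat 1764, .negSucc 2238, .ofNat 0, .ofNat 1175, .negSucc 1419, .ofNat 0, .ofNat 0, .ofNat 2255, .ofNat 1023, .ofNat 0, .ofNat 0, .ofNat 0, .ofNat 0, .ofNat 0, .ofNat 2402866566429479511415183547484366499445053077848064, .ofNat 15043208039022384348114492930363059602666291200,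 .ofNat 0, .ofNat 0, .ofNat 13665965556661201509327946336885102298127365107089408, .ofNat 6157866553922510325737446199502381089768341504, .ofNat 0, .ofNat 0, .ofNat 9566826544373707999241157011223050573134454451077120, .ofNat 7066237520570841431304726488640647876881416192, .ofNat 0⟩)
    (by decide +kernel)
theorem L05807 : Good (Phi V5.P V5.D 1 1) ⟨6, 57, 4, 10, 2, 2, 4, 14, 5, 3⟩ :=
  leafX_sound T5.ok_pp T5.Ypp.bz_eq (w := 237) (c := ⟨⟨.negSucc 6931, .negSucc 116, .negSucc 306, .negSucc 1658, .negSucc 1398, .ofNat 574⟩, ⟨.negSucc 4408, .negSucc 100, .negSucc 539, .negSucc 1097, .negSucc 931, .ofNat 383⟩, ⟨.ofNat 5799, .ofNat 295, .ofNat 44, .ofNat 893, .ofNat 981, .negSucc 473⟩, ⟨.negSucc 9994, .negSucc 327, .negSucc 277, .negSucc 5313, .negSucc 2527, .ofNat 1303⟩, ⟨.ofNat 192, .ofNat 181, .ofNat 119, .ofNat 4473, .ofNat 837, .negSucc 742⟩, .ofNat 2055, .negSucc 2675, .ofNat 0, .negSucc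 2675, .ofNat 4181, .ofNat 0, .ofNat 128, .ofNat 1251, .negSucc 1090, .ofNat 0, .ofNat 878, .negSucc 686, .ofNat 0, .ofNat 0, .ofNat 1146, .ofNat 656, .ofNat 0, .ofNat 0, .ofNat 0, .ofNat 0, .ofNat 0, .ofNat 0, .ofNat 277962470177891516412871843122459644526592, .ofNat 0, .ofNat 0, .ofNat 0, .ofNat 0, .ofNat 0, .ofNat 0, .ofNat 0, .ofNat 0, .ofNat 0⟩)
    (by decide +kernel)
theorem L05808 : Good (Phi V5.P V5.D 1 1) ⟨7, 114, 4, 10, 3, 4, 5, 30, 5, 3⟩ :=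
  leafX_sound T5.ok_pp T5.Ypp.bz_eq (w := 265) (c := ⟨⟨.negSucc 8837, .negSucc 202, .negSucc 29, .negSucc 1381, .negSucc 1937, .ofNat 904⟩, ⟨.negSucc 5726, .negSucc 226, .negSucc 243, .negSucc 910, .negSucc 1287, .ofNat 599⟩, ⟨.ofNat 7238, .ofNat 116, .negSucc 2, .ofNat 484, .ofNat 1254, .negSucc 769⟩, ⟨.negSucc 13269, .negSucc 182, .negSucc 91, .negSucc 2711, .negSucc 3060, .ofNat 1603⟩, ⟨.ofNat 1296, .ofNat 23, .ofNat 14, .ofNat 1172, .ofNat 512, .negSucc 504⟩, .ofNat 7121, .negSucc 10306, .ofNat 0, .negSucc 10306, .ofNat 15699, .ofNat 0, .ofNat 128, .ofNat 1599, .negSucc 2617, .ofNat 0, .ofNat 1077, .negSucc 1718, .ofNat 0, .ofNat 0, .ofNat 2634, .ofNat 516, .ofNat 0, .ofNat 0, .ofNat 0, .ofNat 0, .ofNat 0, .ofNat 0, .ofNat 145030110885071290678585734979390683817554477056, .ofNat 0, .ofNat 0, .ofNat 0, .ofNat 0, .ofNat 0, .ofNat 0, .ofNat 0, .ofNat 0, .ofNat 0⟩)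
    (by decide +kernel)
theorem L05809 : Good (Phi V5.P V5.D 1 1) ⟨7, 114, 4, 10, 3, 4, 5, 31, 5, 3⟩ :=
  leafX_sound T5.ok_pp T5.Ypp.bz_eq (w := 259) (c := ⟨⟨.negSucc 11424, .negSucc 77, .ofNat 7, .negSucc 940, .negSucc 3977, .ofNat 1356⟩, ⟨.negSucc 7356, .negSucc 115, .negSucc 371, .negSucc 623, .negSucc 2663, .ofNat 901⟩, ⟨.ofNat 9060, .ofNat 64, .negSucc 83, .negSucc 0, .ofNat 2585, .negSucc 1104⟩, ⟨.negSucc 16968, .ofNat 16, .negSucc 288, .negSucc 2764, .negSucc 6629, .ofNat 2539⟩, ⟨.ofNat 1631, .ofNat 176, .negSucc 1, .ofNat 2128, .ofNat 1420, .negSucc 949⟩, .ofNat 895, .negSucc 995, .ofNat 0, .negSucc 995, .ofNat 1710, .ofNat 0, .ofNat 128, .ofNat 734, .negSucc 2048, .ofNat 0, .ofNat 537, .negSucc 1195, .ofNat 0, .ofNat 0, .ofNat 1724, .ofNat 361, .ofNat 0, .ofNat 18690645745290494580240739381755784655816498499026944, .ofNat 137690248833594852209968560260545261628030976, .ofNat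 0, .ofNat 0, .ofNat 72259133322650013019745634305100031534384358457606144, .ofNat 2338143975069524555482095684816721076971110400, .ofNat 428783528144025561657873228984802853307011139591829716992, .ofNat 0, .ofNat 0, .ofNat 0, .ofNat 0, .ofNat 0, .ofNat 611405195695696491669439371715016702260344022940778496, .ofNat 3947613815578819619094500041976017567854100480, .ofNat 2244896998881473927240277480506003503705857573724042035200⟩)
    (by decide +kernel)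
theorem L05810 : Good (Phi V5.P V5.D 1 1) ⟨7, 115, 4, 10, 3, 4, 4, 15, 5, 3⟩ :=
  out_sound (S := T5.ds_pp) T5.ok_pp (w := 21) (j := 4) (by decide +kernel)
theorem L05811 : Good (Phi V5.P V5.D 1 1) ⟨6, 57, 4, 10, 3, 5, 4, 15, 5, 3⟩ :=
  leafX_sound T5.ok_pp T5.Ypp.bz_eq (w := 257) (c := ⟨⟨.negSucc 10416, .ofNat 7, .negSucc 20, .ofNat 868, .negSucc 2189, .ofNat 1031⟩, ⟨.negSucc 6497, .ofNat 292, .negSucc 778, .ofNat 592, .negSucc 1447, .ofNat 681⟩, ⟨.ofNat 7939, .ofNat 160, .negSucc 202, .negSucc 233, .ofNat 1422, .negSucc 783⟩, ⟨.negSucc 17017, .ofNat 0, .negSucc 22, .negSucc 709, .negSucc 3556, .ofNat 2167⟩, ⟨.ofNat 3555, .ofNat 71, .ofNat 48, .ofNat 2902, .ofNat 762, .negSucc 1084⟩, .ofNat 7318, .negSucc 10588, .ofNat 0, .negSucc 10588, .ofNat 16102, .ofNat 0, .ofNat 128, .ofNat 2765, .negSucc 2488, .ofNat 0, .ofNat 1865, .negSucc 1625, .ofNat 0, .ofNat 0, .ofNat 2606, .ofNat 377,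 .ofNat 0, .ofNat 121189808312006888448175852381018334898474943774720, .ofNat 249357601638865632805894596558787926426648576, .ofNat 0, .ofNat 0, .ofNat 982033928737884421135139624729248759821336007671808, .ofNat 21666692448523392326878183018664852959394791424, .ofNat 0, .ofNat 0, .ofNat 0, .ofNat 0, .ofNat 0, .ofNat 0, .ofNat 14239989306816689233254288779206963679098808819515392, .ofNat 5987935045419937073600546625035067814253166592, .ofNat 54517315754220255237566633909727025799181078817245495296⟩)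
    (by decide +kernel)
theorem L05812 : Good (Phi V5.P V5.D 1 1) ⟨5, 29, 4, 10, 2, 2, 2, 3, 4, 1⟩ :=
  out_sound (S := T5.ds_pp) T5.ok_pp (w := 59) (j := 3) (by decide +kernel)
theorem L05813 : Good (Phi V5.P V5.D 1 1) ⟨4, 15, 4, 10, 2, 2, 2, 3, 4, 1⟩ :=
  out_sound (S := T5.ds_pp) T5.ok_pp (w := 53) (j := 3) (by decide +kernel)
theorem L05814 : Good (Phi V5.P V5.D 1 1) ⟨3, 6, 4, 11, 2, 2, 2, 3, 3, 0⟩ :=
  out_sound (S := T5.ds_pp) T5.ok_pp (w := 47) (j := 3) (by decide +kernel)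
theorem L05815 : Good (Phi V5.P V5.D 1 1) ⟨6, 56, 4, 11, 2, 2, 2, 3, 3, 0⟩ :=
  out_sound (S := T5.ds_pp) T5.ok_pp (w := 65) (j := 3) (by decide +kernel)
theorem L05816 : Good (Phi V5.P V5.D 1 1) ⟨7, 114, 5, 22, 2, 2, 2, 3, 3, 0⟩ :=
  out_sound (S := T5.ds_pp) T5.ok_pp (w := 73) (j := 3) (by decide +kernel)
theorem L05817 : Good (Phi V5.P V5.D 1 1) ⟨7, 115, 5, 22, 2, 2, 2, 3, 3, 0⟩ :=
  out_sound (S := T5.ds_pp) T5.ok_pp (w := 21) (j := 4) (by decide +kernel)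
theorem L05818 : Good (Phi V5.P V5.D 1 1) ⟨6, 57, 5, 23, 2, 2, 2, 3, 3, 0⟩ :=
  out_sound (S := T5.ds_pp) T5.ok_pp (w := 67) (j := 3) (by decide +kernel)
theorem L05819 : Good (Phi V5.P V5.D 1 1) ⟨5, 29, 4, 11, 2, 2, 2, 3, 3, 0⟩ :=
  out_sound (S := T5.ds_pp) T5.ok_pp (w := 17) (j := 4) (by decide +kernel)
theorem L05820 : Good (Phi V5.P V5.D 1 1) ⟨4, 15, 4, 11, 2, 2, 2, 3, 3, 0⟩ :=
  out_sound (S := T5.ds_pp) T5.ok_pp (w := 53) (j := 3) (by decide +kernel)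
theorem L05821 : Good (Phi V5.P V5.D 1 1) ⟨2, 2, 3, 5, 2, 2, 2, 3, 3, 1⟩ :=
  out_sound (S := T5.ds_pp) T5.ok_pp (w := 39) (j := 3) (by decide +kernel)
theorem L05822 : Good (Phi V5.P V5.D 1 1) ⟨3, 6, 3, 5, 2, 2, 2, 3, 3, 1⟩ :=
  out_sound (S := T5.ds_pp) T5.ok_pp (w := 45) (j := 3) (by decide +kernel)
theorem L05823 : Good (Phi V5.P V5.D 1 1) ⟨5, 28, 4, 10, 2, 2, 3, 6, 4, 2⟩ :=
  leafX_sound T5.ok_pp T5.Ypp.bz_eq (w := 226) (c := ⟨⟨.negSucc 5316, .negSucc 910, .ofNat 282, .negSucc 1289, .negSucc 846, .ofNat 1139⟩, ⟨.negSucc 3381, .negSucc 698, .ofNat 8, .negSucc 833, .negSucc 551, .ofNat 741⟩, ⟨.ofNat 4467, .ofNat 239, .ofNat 45, .ofNat 604, .ofNat 693, .negSucc 859⟩, ⟨.negSucc 7918, .negSucc 466, .negSucc 222, .negSucc 2495, .negSucc 1246, .ofNat 2080⟩, ⟨.ofNat 273, .ofNat 8, .ofNat 495, .ofNat 1043, .ofNat 92, .negSucc 742⟩, .ofNat 5676, .negSucc 8234, .ofNat 0, .negSucc 8234, .ofNat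 12748, .ofNat 0, .ofNat 128, .ofNat 787, .negSucc 523, .ofNat 0, .ofNat 526, .negSucc 335, .ofNat 0, .ofNat 0, .ofNat 949, .ofNat 723, .ofNat 0, .ofNat 0, .ofNat 0, .ofNat 0, .ofNat 0, .ofNat 0, .ofNat 4476372608731494379289392209164828147712, .ofNat 0, .ofNat 0, .ofNat 0, .ofNat 704370261446775486154072854202343751680, .ofNat 0, .ofNat 0, .ofNat 0, .ofNat 0, .ofNat 0⟩)
    (by decide +kernel)
theorem L05824 : Good (Phi V5.P V5.D 1 1) ⟨5, 28, 4, 10, 2, 2, 4, 14, 4, 2⟩ :=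
  leafX_sound T5.ok_pp T5.Ypp.bz_eq (w := 228) (c := ⟨⟨.negSucc 6980, .ofNat 1215, .negSucc 1014, .negSucc 671, .negSucc 1115, .ofNat 1238⟩, ⟨.negSucc 4473, .ofNat 777, .negSucc 937, .negSucc 426, .negSucc 731, .ofNat 807⟩, ⟨.ofNat 5645, .negSucc 447, .ofNat 465, .ofNat 282, .ofNat 669, .negSucc 1089⟩, ⟨.negSucc 10193, .ofNat 680, .negSucc 735, .negSucc 2254, .negSucc 1689, .ofNat 2933⟩, ⟨.ofNat 666, .ofNat 617, .negSucc 291, .ofNat 1966, .ofNat 166, .negSucc 1810⟩, .ofNat 2453, .negSucc 3349, .ofNat 0, .negSucc 3349, .ofNat 5327, .ofNat 0, .ofNat 128, .ofNat 873, .negSucc 573, .ofNat 0, .ofNat 594, .negSucc 352, .ofNat 0, .ofNat 0, .ofNat 919, .ofNat 570, .ofNat 0, .ofNat 0, .ofNat 209187521909579659183589880730186940416, .ofNat 0, .ofNat 0, .ofNat 0, .ofNat 10098111881019852367923057450152684945408, .ofNat 0, .ofNat 0, .ofNat 2045396587433166316473000259979845735595114496, .ofNat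 18836887373255397303913078698311409467392, .ofNat 2052780564289419328458530335256278674434269642752, .ofNat 0, .ofNat 1278653238668820251938141332339565280901464064, .ofNat 10838026634155936104457853382291080871936, .ofNat 2194541152158520561886775773804545604717155188736⟩)
    (by decide +kernel)
theorem L05825 : Good (Phi V5.P V5.D 1 1) ⟨5, 28, 4, 10, 2, 2, 5, 30, 4, 2⟩ :=
  leafX_sound T5.ok_pp T5.Ypp.bz_eq (w := 231) (c := ⟨⟨.negSucc 8388, .ofNat 1039, .negSucc 935, .negSucc 793, .negSucc 1219, .ofNat 1624⟩, ⟨.negSucc 5389, .ofNat 711, .negSucc 947, .negSucc 519, .negSucc 806, .ofNat 1062⟩, ⟨.ofNat 6703, .negSucc 517, .ofNat 482, .ofNat 202, .ofNat 697, .negSucc 1453⟩, ⟨.negSucc 12196, .ofNat 1000, .negSucc 980, .negSucc 3066, .negSucc 1952, .ofNat 3322⟩, ⟨.ofNat 449, .ofNat 686, .negSucc 186, .ofNat 2918, .ofNat 297, .negSucc 1550⟩, .ofNat 921, .negSucc 1044, .ofNat 0, .negSucc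 1044, .ofNat 1801, .ofNat 0, .ofNat 128, .ofNat 566, .negSucc 603, .ofNat 0, .ofNat 411, .negSucc 326, .ofNat 0, .ofNat 0, .ofNat 816, .ofNat 318, .ofNat 0, .ofNat 342340226716631075066772249533369756048949248, .ofNat 4080322224392073744008783828377317408768, .ofNat 0, .ofNat 0, .ofNat 4790775941108084143088101594565012615036141568, .ofNat 31286656832254260956443637217687238606848, .ofNat 0, .ofNat 0, .ofNat 15601567826476721301604928561256318478256701440, .ofNat 92602829612792994781560304290108287221760, .ofNat 13375004707297743039059284652628475833347385327616, .ofNat 0, .ofNat 12503031959026635162779402674826172097460436992, .ofNat 108728803390845754819517016153467549384704, .ofNat 27177315255621971441354765420467273189655041802240⟩)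
    (by decide +kernel)
theorem L05826 : Good (Phi V5.P V5.D 1 1) ⟨5, 28, 4, 10, 2, 2, 5, 31, 4, 2⟩ :=
  leafX_sound T5.ok_pp T5.Ypp.bz_eq (w := 232) (c := ⟨⟨.negSucc 9408, .negSucc 1313, .ofNat 170, .negSucc 2840, .negSucc 2980, .ofNat 2347⟩, ⟨.negSucc 5946, .negSucc 1166, .negSucc 144, .negSucc 1841, .negSucc 1947, .ofNat 1550⟩, ⟨.ofNat 7583, .ofNat 406, .ofNat 77, .ofNat 734, .ofNat 1925, .negSucc 2001⟩, ⟨.negSucc 14007, .negSucc 1557, .ofNat 165, .negSucc 5811, .negSucc 4604, .ofNat 4449⟩, ⟨.ofNat 925, .negSucc 146, .ofNat 322, .ofNat 2727, .ofNat 553, .negSucc 1734⟩, .ofNat 908, .negSucc 1028, .ofNat 0, .negSucc 1028, .ofNat 1789, .ofNat 0, .ofNat 128, .ofNat 680, .negSucc 1033, .ofNat 0, .ofNat 490, .negSucc 594, .ofNat 0, .ofNat 0, .ofNat 1063, .ofNat 560, .ofNat 0, .ofNat 3481646753606828779503873485062480020457390080, .ofNat 0, .ofNat 3190296121208842350291904661429494133740772786176,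 .ofNat 0, .ofNat 17082917386337123129135452608595906293256945664, .ofNat 29046015645518632517562284972470674915328, .ofNat 0, .ofNat 0, .ofNat 148140515679689064037223946517316728375379755008, .ofNat 24999189444208651723088772770362080362496, .ofNat 0, .ofNat 0, .ofNat 122241080876212738695761702386653642565244420096, .ofNat 78217730207884948020776677439007388336128, .ofNat 57005576082883790043298190703930476630951604518912⟩)
    (by decide +kernel)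
theorem L05827 : Good (Phi V5.P V5.D 1 1) ⟨6, 56, 4, 11, 2, 2, 2, 3, 4, 2⟩ :=
  out_sound (S := T5.ds_pp) T5.ok_pp (w := 65) (j := 3) (by decide +kernel)
theorem L05828 : Good (Phi V5.P V5.D 1 1) ⟨7, 114, 5, 22, 2, 2, 2, 3, 4, 2⟩ :=
  out_sound (S := T5.ds_pp) T5.ok_pp (w := 73) (j := 3) (by decide +kernel)
theorem L05829 : Good (Phi V5.P V5.D 1 1) ⟨7, 115, 5, 22, 2, 2, 2, 3, 4, 2⟩ :=
  out_sound (S := T5.ds_pp) T5.ok_pp (w := 21) (j := 4) (by decide +kernel)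
theorem L05830 : Good (Phi V5.P V5.D 1 1) ⟨6, 57, 5, 23, 2, 2, 2, 3, 4, 2⟩ :=
  out_sound (S := T5.ds_pp) T5.ok_pp (w := 67) (j := 3) (by decide +kernel)
theorem L05831 : Good (Phi V5.P V5.D 1 1) ⟨5, 28, 3, 5, 2, 2, 3, 6, 4, 3⟩ :=
  leafX_sound T5.ok_pp T5.Ypp.bz_eq (w := 221) (c := ⟨⟨.negSucc 4810, .ofNat 593, .negSucc 916, .negSucc 539, .negSucc 705, .ofNat 723⟩, ⟨.negSucc 3076, .ofNat 340, .negSucc 920, .negSucc 356, .negSucc 461, .ofNat 470⟩, ⟨.ofNat 4040, .negSucc 349, .ofNat 603, .ofNat 101, .ofNat 410, .negSucc 753⟩, ⟨.negSucc 6606, .ofNat 262, .negSucc 637, .negSucc 1038, .negSucc 732, .ofNat 1460⟩, ⟨.negSucc 236, .ofNat 394, .negSucc 10, .ofNat 413, .negSucc 402, .negSucc 691⟩, .ofNat 2438, .negSucc 3328, .ofNat 0, .negSucc 3328, .ofNat 5299, .ofNat 0, .ofNat 128, .ofNat 1102, .negSucc 513, .ofNat 0, .ofNat 754, .negSucc 313, .ofNat 0, .ofNat 0, .ofNat 1613, .ofNat 1386, .ofNat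 0, .ofNat 0, .ofNat 7928432056247659797129547478017769472, .ofNat 2671997428282524692131603986952384870422151168, .ofNat 0, .ofNat 27492109252700156689200170906080329093611520, .ofNat 340769546014215587418498196577510752256, .ofNat 7311285417975103747716941074851426075907457024, .ofNat 0, .ofNat 98407448145453211703287952519768452483776512, .ofNat 2046504427733161635945943545785666764800, .ofNat 178821460343229348148747539881928138126071431168, .ofNat 0, .ofNat 0, .ofNat 847105058887496578451768678694390857728, .ofNat 0⟩)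
    (by decide +kernel)
theorem L05832 : Good (Phi V5.P V5.D 1 1) ⟨5, 28, 4, 10, 2, 2, 4, 14, 4, 3⟩ :=
  leafX_sound T5.ok_pp T5.Ypp.bz_eq (w := 224) (c := ⟨⟨.negSucc 5492, .negSucc 368, .ofNat 13, .negSucc 569, .negSucc 862, .ofNat 863⟩, ⟨.negSucc 3495, .negSucc 361, .negSucc 143, .negSucc 378, .negSucc 568, .ofNat 563⟩, ⟨.ofNat 4539, .ofNat 317, .negSucc 91, .ofNat 35, .ofNat 423, .negSucc 964⟩, ⟨.negSucc 7631, .negSucc 493, .ofNat 217, .negSucc 1025, .negSucc 1072, .ofNat 1692⟩, ⟨.negSucc 313, .ofNat 101, .negSucc 92, .ofNat 321, .negSucc 244, .negSucc 708⟩, .ofNat 393, .negSucc 300, .ofNat 0, .negSucc 300, .ofNat 646, .ofNat 0, .ofNat 128, .ofNat 196, .negSucc 139, .ofNat 0, .ofNat 174, .negSucc 42, .ofNat 0, .ofNat 0, .ofNat 322, .ofNat 174, .ofNat 0, .ofNat 17145984200277405148295082150531308648923136, .ofNat 26598656035669036084575918316450742272, .ofNat 58282076849453196026183145684356079868627124224,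 .ofNat 0, .ofNat 441588914028147505751770686278286883116023808, .ofNat 277392285512149297469208727744491290624, .ofNat 0, .ofNat 0, .ofNat 573067254998807896748755771057129615398010880, .ofNat 0, .ofNat 341905523209457884131342583675585565536821444608, .ofNat 0, .ofNat 577368388031523466324514514715250301593452544, .ofNat 345437587431349822558040875231560597504, .ofNat 146923231445175586894341650393885751408790077440⟩)
    (by decide +kernel)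
theorem L05833 : Good (Phi V5.P V5.D 1 1) ⟨5, 28, 4, 10, 2, 2, 4, 15, 4, 3⟩ :=
  leafX_sound T5.ok_pp T5.Ypp.bz_eq (w := 227) (c := ⟨⟨.negSucc 6463, .negSucc 415, .negSucc 73, .negSucc 1513, .negSucc 1797, .ofNat 1213⟩, ⟨.negSucc 4117, .negSucc 399, .negSucc 242, .negSucc 984, .negSucc 1194, .ofNat 791⟩, ⟨.ofNat 5125, .ofNat 174, .ofNat 62, .ofNat 260, .ofNat 1049, .negSucc 1243⟩, ⟨.negSucc 8945, .negSucc 254, .negSucc 105, .negSucc 2140, .negSucc 2433, .ofNat 2328⟩, ⟨.negSucc 499, .ofNat 10, .ofNat 47, .ofNat 47, .negSucc 112, .negSucc 922⟩, .ofNat 906, .negSucc 1025, .ofNat 0, .negSucc 1025, .ofNat 1787, .ofNat 0, .ofNat 128, .ofNat 328, .negSucc 265, .ofNat 0, .ofNat 240, .negSucc 149, .ofNat 0, .ofNat 0, .ofNat 461, .ofNat 891, .ofNat 0, .ofNat 601993708664662857898276396498161093899714560, .ofNat 151968673329733601076187661776726261760, .ofNat 0, .ofNat 0, .ofNat 4206076875437612611895136411103119404831866880,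 .ofNat 1433274549344045201731464851976641052672, .ofNat 0, .ofNat 0, .ofNat 13004795067937360595941334794169608354519842816, .ofNat 830841180376226992405763150532248076288, .ofNat 0, .ofNat 0, .ofNat 11825880733084751802470377054267493963488296960, .ofNat 2611439059667817660072923579824186851328, .ofNat 0⟩)
    (by decide +kernel)
theorem L05834 : Good (Phi V5.P V5.D 1 1) ⟨6, 56, 4, 11, 2, 2, 3, 7, 4, 3⟩ :=
  out_sound (S := T5.ds_pp) T5.ok_pp (w := 65) (j := 3) (by decide +kernel)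
theorem L05835 : Good (Phi V5.P V5.D 1 1) ⟨7, 114, 5, 22, 2, 2, 3, 7, 4, 3⟩ :=
  out_sound (S := T5.ds_pp) T5.ok_pp (w := 73) (j := 3) (by decide +kernel)
theorem L05836 : Good (Phi V5.P V5.D 1 1) ⟨7, 115, 5, 22, 2, 2, 3, 7, 4, 3⟩ :=
  out_sound (S := T5.ds_pp) T5.ok_pp (w := 21) (j := 4) (by decide +kernel)
theorem L05837 : Good (Phi V5.P V5.D 1 1) ⟨6, 57, 5, 23, 2, 2, 3, 7, 4, 3⟩ :=
  out_sound (S := T5.ds_pp) T5.ok_pp (w := 67) (j := 3) (by decide +kernel)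
theorem L05838 : Good (Phi V5.P V5.D 1 1) ⟨5, 29, 3, 5, 2, 2, 2, 3, 3, 1⟩ :=
  out_sound (S := T5.ds_pp) T5.ok_pp (w := 17) (j := 4) (by decide +kernel)
theorem L05839 : Good (Phi V5.P V5.D 1 1) ⟨4, 15, 3, 5, 2, 2, 2, 3, 3, 1⟩ :=
  out_sound (S := T5.ds_pp) T5.ok_pp (w := 51) (j := 3) (by decide +kernel)
theorem L05840 : Good (Phi V5.P V5.D 1 1) ⟨2, 2, 2, 3, 2, 2, 2, 3, 2, 0⟩ :=
  out_sound (S := T5.ds_pp) T5.ok_pp (w := 37) (j := 3) (by decide +kernel)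
theorem L05841 : Good (Phi V5.P V5.D 1 1) ⟨3, 6, 2, 3, 2, 2, 2, 3, 2, 0⟩ :=
  out_sound (S := T5.ds_pp) T5.ok_pp (w := 43) (j := 3) (by decide +kernel)
theorem L05842 : Good (Phi V5.P V5.D 1 1) ⟨5, 28, 3, 6, 2, 2, 2, 3, 2, 0⟩ :=
  out_sound (S := T5.ds_pp) T5.ok_pp (w := 57) (j := 3) (by decide +kernel)
theorem L05843 : Good (Phi V5.P V5.D 1 1) ⟨5, 29, 3, 6, 2, 2, 2, 3, 2, 0⟩ :=
  out_sound (S := T5.ds_pp) T5.ok_pp (w := 17) (j := 4) (by decide +kernel)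
theorem L05844 : Good (Phi V5.P V5.D 1 1) ⟨4, 14, 3, 7, 2, 2, 2, 3, 2, 0⟩ :=
  out_sound (S := T5.ds_pp) T5.ok_pp (w := 51) (j := 3) (by decide +kernel)
theorem L05845 : Good (Phi V5.P V5.D 1 1) ⟨4, 15, 2, 3, 2, 2, 2, 3, 2, 0⟩ :=
  out_sound (S := T5.ds_pp) T5.ok_pp (w := 15) (j := 4) (by decide +kernel)
theorem L05846 : Good (Phi V5.P V5.D 1 1) ⟨2, 2, 4, 8, 2, 3, 2, 2, 3, 0⟩ :=
  out_sound (S := T5.ds_pp) T5.ok_pp (w := 41) (j := 3) (by decide +kernel)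
theorem L05847 : Good (Phi V5.P V5.D 1 1) ⟨4, 12, 4, 8, 3, 6, 2, 2, 4, 0⟩ :=
  out_sound (S := T5.ds_pp) T5.ok_pp (w := 53) (j := 3) (by decide +kernel)
theorem L05848 : Good (Phi V5.P V5.D 1 1) ⟨4, 13, 4, 8, 4, 12, 2, 2, 4, 0⟩ :=
  leafX_sound T5.ok_pp T5.Ypp.bz_eq (w := 244) (c := ⟨⟨.ofNat 4977, .negSucc 509, .ofNat 17, .negSucc 1249, .negSucc 3855, .negSucc 8089⟩, ⟨.ofNat 2749, .ofNat 125, .negSucc 173, .negSucc 688, .negSucc 2194, .negSucc 4664⟩, ⟨.negSucc 3151, .ofNat 278, .ofNat 53, .ofNat 691, .ofNat 2957, .ofNat 4699⟩, ⟨.ofNat 7965, .negSucc 653, .negSucc 249, .negSucc 3076, .negSucc 7765, .negSucc 12947⟩, ⟨.negSucc 875, .negSucc 645, .ofNat 534, .ofNat 2170, .ofNat 3628, .ofNat 1850⟩, .ofNat 1503, .negSucc 2073, .ofNat 0, .negSucc 2073, .ofNat 3765, .ofNat 0, .ofNat 128, .ofNat 536, .negSucc 1456, .ofNat 0, .ofNat 328, .negSucc 794, .ofNat 0, .ofNat 0, .ofNat 1122, .ofNat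 221, .ofNat 0, .ofNat 0, .ofNat 0, .ofNat 0, .ofNat 0, .ofNat 0, .ofNat 7902260676653128222926428736718313622173908992, .ofNat 0, .ofNat 0, .ofNat 0, .ofNat 12136245479685220901668133189371455310865104896, .ofNat 0, .ofNat 0, .ofNat 0, .ofNat 24682093669240031506973798687330451041074282496, .ofNat 0⟩)
    (by decide +kernel)
theorem L05849 : Good (Phi V5.P V5.D 1 1) ⟨4, 13, 4, 8, 4, 13, 2, 2, 4, 0⟩ :=
  leafX_sound T5.ok_pp T5.Ypp.bz_eq (w := 244) (c := ⟨⟨.ofNat 3502, .negSucc 3524, .ofNat 684, .negSucc 1124, .negSucc 4477, .negSucc 5330⟩, ⟨.ofNat 1911, .negSucc 1529, .ofNat 35, .negSucc 567, .negSucc 2442, .negSucc 3104⟩, ⟨.negSucc 2460, .ofNat 2190, .negSucc 375, .ofNat 607, .ofNat 3256, .ofNat 3142⟩, ⟨.ofNat 4780, .negSucc 5362, .ofNat 810, .negSucc 2741, .negSucc 8839, .negSucc 8419⟩, ⟨.ofNat 522, .ofNat 649, .ofNat 100, .ofNat 1862, .ofNat 3938, .ofNat 1066⟩, .ofNat 1882, .negSucc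 2700, .ofNat 0, .negSucc 2700, .ofNat 4818, .ofNat 0, .ofNat 128, .ofNat 610, .negSucc 1496, .ofNat 0, .ofNat 371, .negSucc 817, .ofNat 0, .ofNat 0, .ofNat 1120, .ofNat 226, .ofNat 0, .ofNat 0, .ofNat 172341723849010421506894993839547814384762880, .ofNat 0, .ofNat 0, .ofNat 0, .ofNat 13416981114742179777125302404260994118882164736, .ofNat 0, .ofNat 0, .ofNat 0, .ofNat 16747380636787489385782367510785275608667521024, .ofNat 0, .ofNat 0, .ofNat 0, .ofNat 20787565683993700483947367188415823141259968512, .ofNat 0⟩)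
    (by decide +kernel)
theorem L05850 : Good (Phi V5.P V5.D 1 1) ⟨3, 7, 4, 8, 3, 6, 2, 2, 4, 0⟩ :=
  out_sound (S := T5.ds_pp) T5.ok_pp (w := 47) (j := 3) (by decide +kernel)
theorem L05851 : Good (Phi V5.P V5.D 1 1) ⟨4, 12, 4, 8, 3, 6, 2, 2, 4, 1⟩ :=
  out_sound (S := T5.ds_pp) T5.ok_pp (w := 53) (j := 3) (by decide +kernel)
theorem L05852 : Good (Phi V5.P V5.D 1 1) ⟨5, 26, 4, 8, 3, 6, 2, 2, 4, 1⟩ :=
  leafX_sound T5.ok_pp T5.Ypp.bz_eq (w := 235) (c := ⟨⟨.negSucc 4464, .negSucc 320, .negSucc 29, .negSucc 194, .negSucc 2334, .ofNat 287⟩, ⟨.negSucc 2444, .negSucc 141, .negSucc 298, .negSucc 40, .negSucc 1245, .ofNat 129⟩, ⟨.ofNat 2534, .ofNat 102, .ofNat 68, .negSucc 90, .ofNat 2061, .ofNat 115⟩, ⟨.negSucc 7842, .negSucc 256, .negSucc 219, .negSucc 1479, .negSucc 4304, .ofNat 947⟩, ⟨.ofNat 1730, .ofNat 34, .ofNat 177, .ofNat 2160, .ofNat 1491, .negSucc 937⟩, .ofNat 3212, .negSucc 5113,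 .ofNat 0, .negSucc 5113, .ofNat 9242, .ofNat 0, .ofNat 128, .ofNat 657, .negSucc 951, .ofNat 0, .ofNat 386, .negSucc 504, .ofNat 0, .ofNat 0, .ofNat 1064, .ofNat 803, .ofNat 0, .ofNat 0, .ofNat 0, .ofNat 0, .ofNat 0, .ofNat 0, .ofNat 0, .ofNat 0, .ofNat 0, .ofNat 0, .ofNat 316019183707241810473700393082757278859264, .ofNat 0, .ofNat 0, .ofNat 0, .ofNat 160334540367815760578792232803218367709184, .ofNat 0⟩)
    (by decide +kernel)
theorem L05853 : Good (Phi V5.P V5.D 1 1) ⟨5, 27, 4, 8, 3, 6, 2, 2, 4, 1⟩ :=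
  leafX_sound T5.ok_pp T5.Ypp.bz_eq (w := 233) (c := ⟨⟨.negSucc 4939, .negSucc 1227, .ofNat 519, .negSucc 274, .negSucc 2667, .ofNat 662⟩, ⟨.negSucc 2636, .negSucc 605, .negSucc 70, .negSucc 75, .negSucc 1468, .ofNat 313⟩, ⟨.ofNat 2739, .ofNat 765, .negSucc 252, .negSucc 55, .ofNat 2307, .negSucc 118⟩, ⟨.negSucc 8024, .negSucc 2234, .ofNat 606, .negSucc 1991, .negSucc 4965, .ofNat 1629⟩, ⟨.ofNat 1296, .ofNat 1167, .ofNat 78, .ofNat 2772, .ofNat 1825, .negSucc 1174⟩, .ofNat 2007, .negSucc 2864, .ofNat 0, .negSucc 2864, .ofNat 5010, .ofNat 0, .ofNat 128, .ofNat 472, .negSucc 844, .ofNat 0, .ofNat 293, .negSucc 459, .ofNat 0, .ofNat 0, .ofNat 857, .ofNat 420, .ofNat 0, .ofNat 0, .ofNat 9959741151430434528491269824123737473024, .ofNat 0, .ofNat 0, .ofNat 0, .ofNat 445944832525882275088057283145661824368640, .ofNat 0, .ofNat 0, .ofNat 0, .ofNat 87990591628353087779107971947336581513216,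 .ofNat 0, .ofNat 0, .ofNat 0, .ofNat 0, .ofNat 0⟩)
    (by decide +kernel)
theorem L05854 : Good (Phi V5.P V5.D 1 1) ⟨3, 7, 4, 8, 3, 6, 2, 2, 4, 1⟩ :=
  out_sound (S := T5.ds_pp) T5.ok_pp (w := 47) (j := 3) (by decide +kernel)
theorem L05855 : Good (Phi V5.P V5.D 1 1) ⟨4, 12, 4, 8, 4, 14, 2, 2, 4, 0⟩ :=
  out_sound (S := T5.ds_pp) T5.ok_pp (w := 53) (j := 3) (by decide +kernel)
theorem L05856 : Good (Phi V5.P V5.D 1 1) ⟨5, 26, 4, 8, 4, 14, 2, 2, 4, 0⟩ :=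
  leafX_sound T5.ok_pp T5.Ypp.bz_eq (w := 249) (c := ⟨⟨.negSucc 292, .negSucc 590, .negSucc 103, .ofNat 636, .negSucc 4373, .negSucc 3012⟩, ⟨.negSucc 279, .negSucc 70, .negSucc 374, .ofNat 386, .negSucc 2313, .negSucc 1671⟩, ⟨.ofNat 231, .negSucc 68, .ofNat 159, .negSucc 478, .ofNat 2949, .ofNat 1723⟩, ⟨.negSucc 2124, .negSucc 997, .negSucc 322, .ofNat 76, .negSucc 8706, .negSucc 4443⟩, ⟨.ofNat 2795, .ofNat 544, .negSucc 102, .ofNat 1543, .ofNat 3914, .negSucc 95⟩, .ofNat 1891, .negSucc 2810, .ofNat 0, .negSucc 2810, .ofNat 5202, .ofNat 0, .ofNat 128, .ofNat 897, .negSucc 2262, .ofNat 0, .ofNat 525, .negSucc 1180, .ofNat 0, .ofNat 0, .ofNat 1669, .ofNat 1034, .ofNat 0, .ofNat 0, .ofNat 0, .ofNat 0, .ofNat 0, .ofNat 0, .ofNat 17365358842292090378902096164060818519086858240, .ofNat 0, .ofNat 0, .ofNat 0, .ofNat 8503778026178833980388000496738038166253993984, .ofNat 0, .ofNat 0, .ofNat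 0, .ofNat 15463816468856904505442964346193126768454402048, .ofNat 0⟩)
    (by decide +kernel)
theorem L05857 : Good (Phi V5.P V5.D 1 1) ⟨5, 27, 4, 8, 4, 14, 2, 2, 4, 0⟩ :=
  leafX_sound T5.ok_pp T5.Ypp.bz_eq (w := 248) (c := ⟨⟨.negSucc 1459, .negSucc 836, .ofNat 451, .ofNat 640, .negSucc 4654, .negSucc 2585⟩, ⟨.negSucc 608, .negSucc 256, .negSucc 123, .ofNat 428, .negSucc 2574, .negSucc 1513⟩, ⟨.ofNat 480, .ofNat 456, .negSucc 209, .negSucc 506, .ofNat 3174, .ofNat 1571⟩, ⟨.negSucc 4039, .negSucc 1515, .ofNat 153, .ofNat 129, .negSucc 9342, .negSucc 3613⟩, ⟨.ofNat 3394, .ofNat 604, .ofNat 571, .ofNat 1375, .ofNat 4387, .negSucc 284⟩, .ofNat 2007, .negSucc 2864, .ofNat 0, .negSucc 2864, .ofNat 5010, .ofNat 0, .ofNat 128, .ofNat 476, .negSucc 1206, .ofNat 0, .ofNat 293, .negSucc 656, .ofNat 0, .ofNat 0, .ofNat 867, .ofNat 232, .ofNat 0, .ofNat 0, .ofNat 84471863710192002600150389448714865898160128,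 .ofNat 0, .ofNat 0, .ofNat 0, .ofNat 4602416568641179657531336422254770711601086464, .ofNat 0, .ofNat 0, .ofNat 0, .ofNat 5503475841449847065549961904627824555087364096, .ofNat 0, .ofNat 0, .ofNat 0, .ofNat 1184500981402944920420629567354676468152008704, .ofNat 0⟩)
    (by decide +kernel)
theorem L05858 : Good (Phi V5.P V5.D 1 1) ⟨4, 12, 4, 8, 4, 15, 2, 2, 4, 0⟩ :=
  out_sound (S := T5.ds_pp) T5.ok_pp (w := 53) (j := 3) (by decide +kernel)
theorem L05859 : Good (Phi V5.P V5.D 1 1) ⟨5, 26, 4, 8, 4, 15, 2, 2, 4, 0⟩ :=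
  leafX_sound T5.ok_pp T5.Ypp.bz_eq (w := 249) (c := ⟨⟨.negSucc 893, .negSucc 244, .ofNat 425, .ofNat 3042, .negSucc 3714, .negSucc 2161⟩, ⟨.negSucc 625, .ofNat 187, .negSucc 140, .ofNat 1678, .negSucc 1963, .negSucc 1210⟩, ⟨.ofNat 529, .ofNat 68, .negSucc 304, .negSucc 1683, .ofNat 2162, .ofNat 964⟩, ⟨.negSucc 4134, .negSucc 526, .ofNat 390, .ofNat 4839, .negSucc 7548, .negSucc 2839⟩, ⟨.ofNat 5181, .ofNat 188, .ofNat 71, .negSucc 539, .ofNat 3614, .negSucc 696⟩, .ofNat 2280, .negSucc 3486, .ofNat 0, .negSucc 3486, .ofNat 6385, .ofNat 0, .ofNat 128, .ofNat 1103, .negSucc 1578, .ofNat 0, .ofNat 645, .negSucc 814, .ofNat 0, .ofNat 0, .ofNat 1217, .ofNat 1485, .ofNat 0, .ofNat 0, .ofNat 0, .ofNat 0, .ofNat 0, .ofNat 0, .ofNat 16329101004619297119583608312773364522325901312, .ofNat 0, .ofNat 0, .ofNat 0, .ofNat 6812197310849886740816676955422275186074845184, .ofNat 0, .ofNat 0, .ofNat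 0, .ofNat 15985087030190544245305173760071065786298400768, .ofNat 0⟩)
    (by decide +kernel)
theorem L05860 : Good (Phi V5.P V5.D 1 1) ⟨6, 54, 4, 8, 5, 30, 2, 2, 4, 0⟩ :=
  leafX_sound T5.ok_pp T5.Ypp.bz_eq (w := 265) (c := ⟨⟨.negSucc 1093, .negSucc 819, .ofNat 742, .ofNat 1227, .negSucc 4219, .negSucc 1912⟩, ⟨.negSucc 391, .negSucc 274, .negSucc 2, .ofNat 679, .negSucc 2254, .negSucc 1111⟩, ⟨.ofNat 353, .ofNat 447, .negSucc 475, .negSucc 711, .ofNat 2693, .ofNat 1078⟩, ⟨.negSucc 4206, .negSucc 1592, .ofNat 828, .ofNat 1709, .negSucc 8952, .negSucc 2537⟩, ⟨.ofNat 4690, .ofNat 698, .ofNat 93, .ofNat 170, .ofNat 4764, .negSucc 484⟩, .ofNat 1559, .negSucc 2175, .ofNat 0, .negSucc 2175, .ofNat 3953, .ofNat 0, .ofNat 128, .ofNat 668, .negSucc 1206, .ofNat 0, .ofNat 402, .negSucc 629, .ofNat 0, .ofNat 0, .ofNat 864, .ofNat 237, .ofNat 0, .ofNat 0, .ofNat 0, .ofNat 0, .ofNat 0, .ofNat 0,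 .ofNat 0, .ofNat 0, .ofNat 0, .ofNat 0, .ofNat 0, .ofNat 0, .ofNat 0, .ofNat 0, .ofNat 63650938975045373897662557095385657783038150443008, .ofNat 0⟩)
    (by decide +kernel)
theorem L05861 : Good (Phi V5.P V5.D 1 1) ⟨6, 54, 5, 16, 5, 31, 2, 2, 4, 0⟩ :=
  leafX_sound T5.ok_pp T5.Ypp.bz_eq (w := 269) (c := ⟨⟨.ofNat 164, .negSucc 207, .ofNat 126, .ofNat 1946, .negSucc 4214, .negSucc 2163⟩, ⟨.ofNat 282, .ofNat 53, .negSucc 79, .ofNat 1097, .negSucc 2251, .negSucc 1253⟩, ⟨.negSucc 176, .ofNat 365, .negSucc 186, .negSucc 917, .ofNat 2389, .ofNat 900⟩, ⟨.negSucc 2606, .negSucc 884, .ofNat 75, .ofNat 3305, .negSucc 8694, .negSucc 2762⟩, ⟨.ofNat 5142, .ofNat 904, .ofNat 49, .negSucc 770, .ofNat 4373, .negSucc 721⟩, .ofNat 1777, .negSucc 2537, .ofNat 0, .negSucc 2537, .ofNat 4571, .ofNat 0, .ofNat 128, .ofNat 693, .negSucc 1154, .ofNat 0, .ofNat 420, .negSucc 592, .ofNat 0, .ofNat 0, .ofNat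 872, .ofNat 1037, .ofNat 0, .ofNat 0, .ofNat 3305447220530640612868681860481515735780364910592, .ofNat 0, .ofNat 0, .ofNat 0, .ofNat 114060531871896661595582697692793590635008368836608, .ofNat 0, .ofNat 0, .ofNat 0, .ofNat 78641839924227451562511309616007144322453773221888, .ofNat 0, .ofNat 0, .ofNat 0, .ofNat 0, .ofNat 0⟩)
    (by decide +kernel)
theorem L05862 : Good (Phi V5.P V5.D 1 1) ⟨6, 54, 5, 17, 5, 31, 2, 2, 4, 0⟩ :=
  leafX_sound T5.ok_pp T5.Ypp.bz_eq (w := 270) (c := ⟨⟨.ofNat 420, .negSucc 532, .ofNat 296, .ofNat 1973, .negSucc 4136, .negSucc 2165⟩, ⟨.ofNat 310, .negSucc 138, .ofNat 6, .ofNat 1120, .negSucc 2286, .negSucc 1274⟩, ⟨.negSucc 397, .ofNat 460, .negSucc 205, .negSucc 1056, .ofNat 2359, .ofNat 987⟩, ⟨.negSucc 2346, .negSucc 1267, .ofNat 370, .ofNat 3429, .negSucc 8613, .negSucc 2827⟩, ⟨.ofNat 5184, .ofNat 773, .negSucc 51, .negSucc 927, .ofNat 4385, .negSucc 589⟩,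 .ofNat 2466, .negSucc 3665, .ofNat 0, .negSucc 3665, .ofNat 6414, .ofNat 0, .ofNat 128, .ofNat 932, .negSucc 1355, .ofNat 0, .ofNat 566, .negSucc 727, .ofNat 0, .ofNat 0, .ofNat 1051, .ofNat 1141, .ofNat 0, .ofNat 0, .ofNat 0, .ofNat 0, .ofNat 0, .ofNat 0, .ofNat 46625920740503846596577231575154310328301077397504, .ofNat 0, .ofNat 0, .ofNat 0, .ofNat 173223215213038424251157398208953339440721389682688, .ofNat 0, .ofNat 0, .ofNat 0, .ofNat 0, .ofNat 0⟩)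
    (by decide +kernel)
theorem L05863 : Good (Phi V5.P V5.D 1 1) ⟨7, 110, 4, 8, 4, 15, 3, 4, 5, 0⟩ :=
  leafX_sound T5.ok_pp T5.Ypp.bz_eq (w := 265) (c := ⟨⟨.negSucc 1693, .negSucc 377, .ofNat 330, .ofNat 3844, .negSucc 2393, .negSucc 996⟩, ⟨.negSucc 649, .negSucc 131, .negSucc 65, .ofNat 2261, .negSucc 1363, .negSucc 614⟩, ⟨.ofNat 1130, .ofNat 313, .negSucc 602, .negSucc 1807, .ofNat 1224, .ofNat 304⟩, ⟨.negSucc 6257, .negSucc 873, .ofNat 721, .ofNat 6104, .negSucc 4894, .negSucc 791⟩, ⟨.ofNat 6714, .ofNat 511, .negSucc 762, .negSucc 873, .ofNat 2379, .negSucc 1094⟩, .ofNat 1834, .negSucc 2553, .ofNat 0, .negSucc 2553, .ofNat 4445, .ofNat 0, .ofNat 128, .ofNat 720, .negSucc 1697, .ofNat 0, .ofNat 449, .negSucc 905, .ofNat 0, .ofNat 0, .ofNat 1182, .ofNat 1563, .ofNat 0, .ofNat 0, .ofNat 15215217475837803517380549484317645184820051968, .ofNat 0, .ofNat 0, .ofNat 0, .ofNat 864736255204194030926584980087785609630406672384,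 .ofNat 0, .ofNat 0, .ofNat 0, .ofNat 94226586927936609946808743757864088188781330432, .ofNat 0, .ofNat 0, .ofNat 0, .ofNat 388212989978824490231892921918246666392748163072, .ofNat 0⟩)
    (by decide +kernel)
theorem L05864 : Good (Phi V5.P V5.D 1 1) ⟨7, 110, 4, 8, 4, 15, 3, 5, 5, 0⟩ :=
  leafX_sound T5.ok_pp T5.Ypp.bz_eq (w := 266) (c := ⟨⟨.negSucc 5423, .negSucc 790, .ofNat 1403, .ofNat 3973, .negSucc 2277, .negSucc 303⟩, ⟨.negSucc 2616, .negSucc 339, .ofNat 350, .ofNat 2328, .negSucc 1279, .negSucc 201⟩, ⟨.ofNat 3158, .ofNat 574, .negSucc 1222, .negSucc 2110, .ofNat 1386, .ofNat 106⟩, ⟨.negSucc 13384, .negSucc 1877, .ofNat 2624, .ofNat 6607, .negSucc 4965, .ofNat 202⟩, ⟨.ofNat 9650, .ofNat 1208, .negSucc 1430, .negSucc 1405, .ofNat 2780, .negSucc 1058⟩, .ofNat 1567, .negSucc 2124, .ofNat 0, .negSucc 2124, .ofNat 3730, .ofNat 0, .ofNat 128, .ofNat 618, .negSucc 1720, .ofNat 0, .ofNat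 386, .negSucc 920, .ofNat 0, .ofNat 0, .ofNat 1141, .ofNat 1044, .ofNat 0, .ofNat 0, .ofNat 16093885300953538004962963704735391791232057344, .ofNat 0, .ofNat 0, .ofNat 0, .ofNat 610585457231875003032426265003979467128311906304, .ofNat 0, .ofNat 0, .ofNat 0, .ofNat 105756365839653481943049169871778350564204609536, .ofNat 0, .ofNat 0, .ofNat 0, .ofNat 0, .ofNat 0⟩)
    (by decide +kernel)
theorem L05865 : Good (Phi V5.P V5.D 1 1) ⟨7, 110, 4, 8, 4, 15, 2, 2, 5, 1⟩ :=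
  leafX_sound T5.ok_pp T5.Ypp.bz_eq (w := 261) (c := ⟨⟨.negSucc 2675, .negSucc 213, .ofNat 372, .ofNat 3449, .negSucc 4188, .negSucc 1284⟩, ⟨.negSucc 1230, .negSucc 59, .negSucc 88, .ofNat 2035, .negSucc 2321, .negSucc 745⟩, ⟨.ofNat 1540, .ofNat 187, .negSucc 528, .negSucc 1920, .ofNat 2537, .ofNat 688⟩, ⟨.negSucc 6764, .negSucc 567, .ofNat 425, .ofNat 5507, .negSucc 9199, .negSucc 2035⟩, ⟨.ofNat 5119, .ofNat 404, .negSucc 130, .negSucc 813, .ofNat 5235, .ofNat 288⟩, .ofNat 1554, .negSucc 2106, .ofNat 0, .negSucc 2106, .ofNat 3708, .ofNat 0, .ofNat 128, .ofNat 408, .negSucc 980, .ofNat 0, .ofNat 254, .negSucc 516, .ofNat 0, .ofNat 0, .ofNat 747, .ofNat 968, .ofNat 0, .ofNat 0, .ofNat 308681703048536420386653447348726152174764032, .ofNat 0, .ofNat 0, .ofNat 0, .ofNat 41895797162898488713753953265490181624954880000, .ofNat 0, .ofNat 0, .ofNat 0, .ofNat 0, .ofNat 0, .ofNat 0, .ofNat 0,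 .ofNat 0, .ofNat 0⟩)
    (by decide +kernel)
theorem L05866 : Good (Phi V5.P V5.D 1 1) ⟨7, 111, 4, 8, 4, 15, 2, 2, 4, 0⟩ :=
  out_sound (S := T5.ds_pp) T5.ok_pp (w := 71) (j := 3) (by decide +kernel)
theorem L05867 : Good (Phi V5.P V5.D 1 1) ⟨3, 7, 4, 8, 3, 7, 2, 2, 4, 0⟩ :=
  out_sound (S := T5.ds_pp) T5.ok_pp (w := 47) (j := 3) (by decide +kernel)
theorem L05868 : Good (Phi V5.P V5.D 1 1) ⟨4, 12, 4, 8, 3, 7, 2, 2, 4, 1⟩ :=
  out_sound (S := T5.ds_pp) T5.ok_pp (w := 53) (j := 3) (by decide +kernel)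
theorem L05869 : Good (Phi V5.P V5.D 1 1) ⟨5, 26, 4, 8, 3, 7, 2, 2, 4, 1⟩ :=
  leafX_sound T5.ok_pp T5.Ypp.bz_eq (w := 235) (c := ⟨⟨.negSucc 1108, .negSucc 3145, .ofNat 623, .ofNat 2771, .negSucc 2633, .negSucc 1105⟩, ⟨.negSucc 741, .negSucc 1493, .negSucc 10, .ofNat 1593, .negSucc 1377, .negSucc 618⟩, ⟨.ofNat 1011, .ofNat 1252, .negSucc 110, .negSucc 1889, .ofNat 1905, .ofNat 838⟩, ⟨.negSucc 3761, .negSucc 4185, .ofNat 191, .ofNat 3057, .negSucc 5444, .negSucc 1525⟩, ⟨.ofNat 3226, .negSucc 227, .ofNat 776, .ofNat 1955, .ofNat 2736, .negSucc 256⟩, .ofNat 2860, .negSucc 4499, .ofNat 0, .negSucc 4499, .ofNat 8166, .ofNat 0, .ofNat 128, .ofNat 847, .negSucc 986, .ofNat 0, .ofNat 498, .negSucc 506, .ofNat 0, .ofNat 0, .ofNat 1082, .ofNat 869, .ofNat 0, .ofNat 0, .ofNat 13603234540215489034569141741235105431552, .ofNat 0, .ofNat 0, .ofNat 0, .ofNat 402045087826532979578371895741931438735360,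 .ofNat 0, .ofNat 0, .ofNat 0, .ofNat 1583565038657877755799457064389348658511872, .ofNat 0, .ofNat 0, .ofNat 0, .ofNat 627823453775724384517699275160893628874752, .ofNat 0⟩)
    (by decide +kernel)
theorem L05870 : Good (Phi V5.P V5.D 1 1) ⟨5, 27, 4, 8, 4, 14, 2, 2, 4, 1⟩ :=
  leafX_sound T5.ok_pp T5.Ypp.bz_eq (w := 247) (c := ⟨⟨.negSucc 5397, .negSucc 1279, .ofNat 574, .ofNat 877, .negSucc 2615, .ofNat 887⟩, ⟨.negSucc 2818, .negSucc 569, .negSucc 65, .ofNat 545, .negSucc 1433, .ofNat 436⟩, ⟨.ofNat 2864, .ofNat 901, .negSucc 347, .negSucc 725, .ofNat 2091, .negSucc 246⟩, ⟨.negSucc 10229, .negSucc 2448, .ofNat 656, .ofNat 371, .negSucc 5629, .ofNat 2439⟩, ⟨.ofNat 4063, .ofNat 1275, .ofNat 52, .ofNat 1595, .ofNat 3048, .negSucc 1995⟩, .ofNat 1379, .negSucc 1836, .ofNat 0, .negSucc 1836, .ofNat 3305, .ofNat 0, .ofNat 128, .ofNat 460, .negSucc 875, .ofNat 0, .ofNat 287, .negSucc 450, .ofNat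 0, .ofNat 0, .ofNat 838, .ofNat 530, .ofNat 0, .ofNat 0, .ofNat 179829240213261189505452452992398374301859840, .ofNat 0, .ofNat 0, .ofNat 0, .ofNat 6551962716470877576373794196167879897210945536, .ofNat 0, .ofNat 0, .ofNat 0, .ofNat 2374066218267738010078788694936876009559949312, .ofNat 0, .ofNat 0, .ofNat 0, .ofNat 0, .ofNat 0⟩)
    (by decide +kernel)
theorem L05871 : Good (Phi V5.P V5.D 1 1) ⟨5, 27, 4, 8, 4, 15, 3, 4, 4, 1⟩ :=
  leafX_sound T5.ok_pp T5.Ypp.bz_eq (w := 251) (c := ⟨⟨.negSucc 3164, .negSucc 605, .ofNat 403, .ofNat 1751, .negSucc 1475, .negSucc 749⟩, ⟨.negSucc 1572, .negSucc 143, .negSucc 118, .ofNat 1054, .negSucc 802, .negSucc 466⟩, ⟨.ofNat 1425, .ofNat 494, .negSucc 285, .negSucc 1015, .ofNat 1021, .ofNat 741⟩, ⟨.negSucc 7043, .negSucc 1792, .ofNat 539, .ofNat 2146, .negSucc 3258, .negSucc 734⟩, ⟨.ofNat 4236, .ofNat 1684, .negSucc 193, .ofNat 746, .ofNat 1889, .negSucc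 620⟩, .ofNat 1910, .negSucc 2737, .ofNat 0, .negSucc 2737, .ofNat 4858, .ofNat 0, .ofNat 128, .ofNat 514, .negSucc 547, .ofNat 0, .ofNat 316, .negSucc 282, .ofNat 0, .ofNat 0, .ofNat 597, .ofNat 732, .ofNat 0, .ofNat 0, .ofNat 2820297278927337648436873278884079703190142976, .ofNat 0, .ofNat 0, .ofNat 0, .ofNat 53334083634262831019635135976897325750684745728, .ofNat 0, .ofNat 0, .ofNat 0, .ofNat 32479423883168412166208355212550353971455197184, .ofNat 0, .ofNat 0, .ofNat 0, .ofNat 27303758222717059480431437377505878177401012224, .ofNat 0⟩)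
    (by decide +kernel)
theorem L05872 : Good (Phi V5.P V5.D 1 1) ⟨5, 27, 4, 8, 4, 15, 3, 5, 4, 1⟩ :=
  leafX_sound T5.ok_pp T5.Ypp.bz_eq (w := 252) (c := ⟨⟨.negSucc 5211, .negSucc 843, .ofNat 365, .ofNat 1620, .negSucc 1454, .ofNat 228⟩, ⟨.negSucc 2657, .negSucc 171, .negSucc 279, .ofNat 998, .negSucc 795, .ofNat 69⟩, ⟨.ofNat 2804, .ofNat 821, .negSucc 362, .negSucc 1071, .ofNat 1061, .ofNat 188⟩, ⟨.negSucc 11289, .negSucc 1862, .negSucc 87, .ofNat 1653, .negSucc 3246, .ofNat 1428⟩, ⟨.ofNat 6429, .ofNat 1302, .ofNat 662, .ofNat 1251, .ofNat 1937, .negSucc 1911⟩, .ofNat 2007, .negSucc 2864, .ofNat 0, .negSucc 2864, .ofNat 5010, .ofNat 0, .ofNat 128, .ofNat 462, .negSucc 740, .ofNat 0, .ofNat 288, .negSucc 381, .ofNat 0, .ofNat 0, .ofNat 732, .ofNat 588, .ofNat 0, .ofNat 0, .ofNat 3374197216466036660003593583661878035785711616, .ofNat 0, .ofNat 0, .ofNat 0, .ofNat 66010635322194416911897276976562475527395344384,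 .ofNat 0, .ofNat 0, .ofNat 0, .ofNat 77922259098945557245965369337115236556305596416, .ofNat 0, .ofNat 0, .ofNat 0, .ofNat 48715190137744559513544965103942881466258554880, .ofNat 0⟩)
    (by decide +kernel)
theorem L05873 : Good (Phi V5.P V5.D 1 1) ⟨3, 7, 4, 8, 3, 7, 2, 2, 4, 1⟩ :=
  out_sound (S := T5.ds_pp) T5.ok_pp (w := 47) (j := 3) (by decide +kernel)
theorem L05874 : Good (Phi V5.P V5.D 1 1) ⟨2, 2, 4, 9, 3, 6, 2, 2, 4, 0⟩ :=
  out_sound (S := T5.ds_pp) T5.ok_pp (w := 41) (j := 3) (by decide +kernel)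
theorem L05875 : Good (Phi V5.P V5.D 1 1) ⟨4, 12, 4, 9, 3, 6, 2, 2, 4, 0⟩ :=
  out_sound (S := T5.ds_pp) T5.ok_pp (w := 53) (j := 3) (by decide +kernel)
theorem L05876 : Good (Phi V5.P V5.D 1 1) ⟨4, 13, 4, 9, 3, 6, 2, 2, 4, 0⟩ :=
  leafX_sound T5.ok_pp T5.Ypp.bz_eq (w := 231) (c := ⟨⟨.ofNat 9612, .negSucc 7470, .ofNat 2514, .negSucc 1723, .negSucc 4700, .negSucc 6741⟩, ⟨.ofNat 5974, .negSucc 4634, .ofNat 1463, .negSucc 998, .negSucc 2813, .negSucc 4096⟩, ⟨.negSucc 5276, .ofNat 3642, .negSucc 1117, .ofNat 841, .ofNat 3409, .ofNat 3986⟩, ⟨.ofNat 12998, .negSucc 8351, .ofNat 2558, .negSucc 5411, .negSucc 9222, .negSucc 10792⟩, ⟨.ofNat 712, .negSucc 2950, .ofNat 1241, .ofNat 4695, .ofNat 4002, .ofNat 1743⟩, .ofNat 2435, .negSucc 3488, .ofNat 0, .negSucc 3488, .ofNat 5870, .ofNat 0, .ofNat 128, .ofNat 748, .negSucc 1935, .ofNat 0, .ofNat 472, .negSucc 1135, .ofNat 0, .ofNat 0, .ofNat 1465,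 .ofNat 306, .ofNat 0, .ofNat 0, .ofNat 55671355797123668012878641608631468949504, .ofNat 0, .ofNat 0, .ofNat 0, .ofNat 2114081404171959886992489394004706990227456, .ofNat 0, .ofNat 0, .ofNat 0, .ofNat 1981956595557190395394511564042684942254080, .ofNat 0, .ofNat 0, .ofNat 0, .ofNat 475805497275012466262888510981582830436352, .ofNat 0⟩)
    (by decide +kernel)
theorem L05877 : Good (Phi V5.P V5.D 1 1) ⟨4, 14, 4, 9, 3, 6, 2, 2, 4, 0⟩ :=
  leafX_sound T5.ok_pp T5.Ypp.bz_eq (w := 230) (c := ⟨⟨.ofNat 4020, .negSucc 4046, .ofNat 103, .negSucc 2009, .negSucc 3810, .negSucc 7510⟩, ⟨.ofNat 2803, .negSucc 1508, .negSucc 366, .negSucc 1194, .negSucc 2360, .negSucc 4711⟩, ⟨.negSucc 2572, .ofNat 2867, .negSucc 61, .ofNat 1052, .ofNat 2908, .ofNat 4412⟩, ⟨.ofNat 6025, .negSucc 3636, .negSucc 86, .negSucc 5240, .negSucc 7957, .negSucc 11482⟩, ⟨.negSucc 30, .negSucc 1745, .negSucc 149, .ofNat 3655,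 .ofNat 3946, .ofNat 1174⟩, .ofNat 1600, .negSucc 1946, .ofNat 0, .negSucc 1946, .ofNat 3040, .ofNat 0, .ofNat 128, .ofNat 538, .negSucc 1519, .ofNat 0, .ofNat 379, .negSucc 909, .ofNat 0, .ofNat 0, .ofNat 1058, .ofNat 265, .ofNat 0, .ofNat 0, .ofNat 27806121171614556001306945028299255971840, .ofNat 0, .ofNat 0, .ofNat 0, .ofNat 786943335798947005237059573469245117300736, .ofNat 0, .ofNat 0, .ofNat 0, .ofNat 214429915657131541087503474968885123350528, .ofNat 0, .ofNat 0, .ofNat 0, .ofNat 1853723242675215701559791124261517966442496, .ofNat 36958074428311660603915720512728421526764739624960⟩)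
    (by decide +kernel)
theorem L05878 : Good (Phi V5.P V5.D 1 1) ⟨4, 15, 4, 9, 3, 6, 2, 2, 4, 0⟩ :=
  out_sound (S := T5.ds_pp) T5.ok_pp (w := 53) (j := 3) (by decide +kernel)
theorem L05879 : Good (Phi V5.P V5.D 1 1) ⟨2, 2, 4, 9, 3, 7, 2, 2, 4, 0⟩ :=
  out_sound (S := T5.ds_pp) T5.ok_pp (w := 41) (j := 3) (by decide +kernel)
theorem L05880 : Good (Phi V5.P V5.D 1 1) ⟨4, 12, 4, 9, 3, 7, 2, 2, 4, 0⟩ :=
  out_sound (S := T5.ds_pp) T5.ok_pp (w := 53) (j := 3) (by decide +kernel)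
theorem L05881 : Good (Phi V5.P V5.D 1 1) ⟨5, 26, 4, 9, 3, 7, 2, 2, 4, 0⟩ :=
  out_sound (S := T5.ds_pp) T5.ok_pp (w := 59) (j := 3) (by decide +kernel)
theorem L05882 : Good (Phi V5.P V5.D 1 1) ⟨6, 54, 4, 9, 3, 7, 2, 2, 4, 0⟩ :=
  out_sound (S := T5.ds_pp) T5.ok_pp (w := 65) (j := 3) (by decide +kernel)
theorem L05883 : Good (Phi V5.P V5.D 1 1) ⟨6, 55, 5, 18, 4, 14, 2, 2, 5, 0⟩ :=
  leafX_sound T5.ok_pp T5.Ypp.bz_eq (w := 262) (c := ⟨⟨.negSucc 555, .negSucc 1664, .ofNat 722, .negSucc 133, .negSucc 4645, .negSucc 1242⟩, ⟨.negSucc 274, .negSucc 817, .ofNat 208, .negSucc 25, .negSucc 2724, .negSucc 749⟩, ⟨.ofNat 91, .ofNat 881, .negSucc 371, .negSucc 64, .ofNat 3000, .ofNat 664⟩, ⟨.negSucc 2868, .negSucc 2488, .ofNat 290, .negSucc 1611, .negSucc 9510, .negSucc 1383⟩, ⟨.ofNat 3440, .ofNat 212, .ofNat 1020, .ofNat 2325, .ofNat 4622, .negSucc 666⟩, .ofNat 3629, .negSucc 5404, .ofNat 0,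 .negSucc 5404, .ofNat 8955, .ofNat 0, .ofNat 128, .ofNat 748, .negSucc 1752, .ofNat 0, .ofNat 468, .negSucc 1031, .ofNat 0, .ofNat 0, .ofNat 1188, .ofNat 462, .ofNat 0, .ofNat 0, .ofNat 0, .ofNat 0, .ofNat 0, .ofNat 0, .ofNat 485419943054225649581059058308162101554549096448, .ofNat 0, .ofNat 0, .ofNat 0, .ofNat 0, .ofNat 0, .ofNat 0, .ofNat 0, .ofNat 388537497202143480888053177306771540563090997248, .ofNat 0⟩)
    (by decide +kernel)
theorem L05884 : Good (Phi V5.P V5.D 1 1) ⟨6, 55, 5, 18, 4, 15, 3, 4, 5, 0⟩ :=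
  leafX_sound T5.ok_pp T5.Ypp.bz_eq (w := 266) (c := ⟨⟨.negSucc 1460, .negSucc 827, .ofNat 603, .ofNat 4005, .negSucc 2435, .negSucc 1022⟩, ⟨.negSucc 776, .negSucc 306, .ofNat 205, .ofNat 2421, .negSucc 1447, .negSucc 652⟩, ⟨.ofNat 639, .ofNat 605, .negSucc 421, .negSucc 1939, .ofNat 1222, .ofNat 302⟩, ⟨.negSucc 5802, .negSucc 1502, .ofNat 716, .ofNat 6605, .negSucc 5054, .negSucc 1018⟩, ⟨.ofNat 6192, .ofNat 443, .ofNat 83, .negSucc 1367, .ofNat 2519, .negSucc 741⟩, .ofNat 3015, .negSucc 4422, .ofNat 0, .negSucc 4422, .ofNat 7381, .ofNat 0, .ofNat 128, .ofNat 791, .negSucc 1793, .ofNat 0, .ofNat 495, .negSucc 1035, .ofNat 0, .ofNat 0, .ofNat 1250, .ofNat 1291, .ofNat 0, .ofNat 0, .ofNat 109102283152367708507437817833876119995795111936, .ofNat 0, .ofNat 0, .ofNat 0, .ofNat 6146439184923228120788574228293669178685324787712, .ofNat 0, .ofNat 0, .ofNat 0, .ofNat 8609555287714033025974620190826179528206248312832,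 .ofNat 0, .ofNat 0, .ofNat 0, .ofNat 0, .ofNat 0⟩)
    (by decide +kernel)
theorem L05885 : Good (Phi V5.P V5.D 1 1) ⟨6, 55, 5, 18, 4, 15, 3, 5, 5, 0⟩ :=
  leafX_sound T5.ok_pp T5.Ypp.bz_eq (w := 265) (c := ⟨⟨.negSucc 4046, .negSucc 1674, .ofNat 1056, .ofNat 3932, .negSucc 2387, .negSucc 228⟩, ⟨.negSucc 2297, .negSucc 789, .ofNat 420, .ofNat 2373, .negSucc 1400, .negSucc 169⟩, ⟨.ofNat 2016, .ofNat 1079, .negSucc 695, .negSucc 2125, .ofNat 1404, .ofNat 101⟩, ⟨.negSucc 10959, .negSucc 3323, .ofNat 1692, .ofNat 6654, .negSucc 5239, .ofNat 202⟩, ⟨.ofNat 8528, .ofNat 1466, .negSucc 497, .negSucc 1614, .ofNat 2942, .negSucc 871⟩, .ofNat 3008, .negSucc 4405, .ofNat 0, .negSucc 4405, .ofNat 7342, .ofNat 0, .ofNat 128, .ofNat 546, .negSucc 1289, .ofNat 0, .ofNat 343, .negSucc 741, .ofNat 0, .ofNat 0, .ofNat 879, .ofNat 802, .ofNat 0, .ofNat 0, .ofNat 122856744295754853178062024758853081591082647552,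 .ofNat 0, .ofNat 0, .ofNat 0, .ofNat 7474629990419524459806674675963768152264869412864, .ofNat 0, .ofNat 0, .ofNat 0, .ofNat 0, .ofNat 0, .ofNat 0, .ofNat 0, .ofNat 8417947999539960797980759918547799499895623122944, .ofNat 0⟩)
    (by decide +kernel)
theorem L05886 : Good (Phi V5.P V5.D 1 1) ⟨6, 55, 5, 19, 4, 14, 2, 2, 5, 0⟩ :=
  leafX_sound T5.ok_pp T5.Ypp.bz_eq (w := 266) (c := ⟨⟨.negSucc 942, .negSucc 574, .ofNat 387, .negSucc 139, .negSucc 4842, .negSucc 851⟩, ⟨.negSucc 640, .negSucc 198, .ofNat 32, .negSucc 50, .negSucc 2936, .negSucc 537⟩, ⟨.ofNat 421, .ofNat 124, .negSucc 84, .negSucc 90, .ofNat 3092, .ofNat 530⟩, ⟨.negSucc 4789, .negSucc 619, .ofNat 171, .negSucc 1325, .negSucc 8987, .negSucc 575⟩, ⟨.ofNat 5396, .negSucc 181, .ofNat 368, .ofNat 1818, .ofNat 3313, .negSucc 1033⟩, .ofNat 6447, .negSucc 9784, .ofNat 0, .negSucc 9784, .ofNat 15749, .ofNat 0, .ofNat 128, .ofNat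 1744, .negSucc 2717, .ofNat 0, .ofNat 1105, .negSucc 1652, .ofNat 0, .ofNat 0, .ofNat 1878, .ofNat 826, .ofNat 0, .ofNat 0, .ofNat 0, .ofNat 0, .ofNat 0, .ofNat 0, .ofNat 0, .ofNat 0, .ofNat 0, .ofNat 0, .ofNat 0, .ofNat 0, .ofNat 0, .ofNat 0, .ofNat 1837854226464385326999479517625789220807707197440, .ofNat 0⟩)
    (by decide +kernel)
theorem L05887 : Good (Phi V5.P V5.D 1 1) ⟨6, 55, 5, 19, 4, 15, 2, 2, 5, 0⟩ :=
  leafX_sound T5.ok_pp T5.Ypp.bz_eq (w := 265) (c := ⟨⟨.negSucc 1362, .negSucc 700, .negSucc 172, .ofNat 3963, .negSucc 4822, .negSucc 551⟩, ⟨.negSucc 910, .negSucc 221, .negSucc 306, .ofNat 2442, .negSucc 2915, .negSucc 355⟩, ⟨.ofNat 340, .ofNat 655, .negSucc 212, .negSucc 2089, .ofNat 2684, .ofNat 213⟩, ⟨.negSucc 6291, .negSucc 886, .negSucc 407, .ofNat 5888, .negSucc 9157, .negSucc 196⟩, ⟨.ofNat 6967, .negSucc 156, .ofNat 45, .negSucc 355, .ofNat 3633, .negSucc 951⟩, .ofNat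 6109, .negSucc 9246, .ofNat 0, .negSucc 9246, .ofNat 14893, .ofNat 0, .ofNat 128, .ofNat 1402, .negSucc 2911, .ofNat 0, .ofNat 889, .negSucc 1753, .ofNat 0, .ofNat 0, .ofNat 1999, .ofNat 1434, .ofNat 0, .ofNat 0, .ofNat 8915911925095152495284019589182091740500197376, .ofNat 0, .ofNat 0, .ofNat 0, .ofNat 4155105537551761624527982206012086913971085377536, .ofNat 0, .ofNat 0, .ofNat 0, .ofNat 278418578948532275416053223794871173401555238912, .ofNat 0, .ofNat 0, .ofNat 0, .ofNat 432932482298116769351007443960030320202627416064, .ofNat 0⟩)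
    (by decide +kernel)
theorem L05888 : Good (Phi V5.P V5.D 1 1) ⟨6, 55, 4, 9, 4, 14, 3, 4, 5, 1⟩ :=
  leafX_sound T5.ok_pp T5.Ypp.bz_eq (w := 262) (c := ⟨⟨.negSucc 3069, .negSucc 598, .ofNat 593, .ofNat 1031, .negSucc 2285, .negSucc 1217⟩, ⟨.negSucc 1762, .negSucc 213, .negSucc 75, .ofNat 660, .negSucc 1354, .negSucc 747⟩, ⟨.ofNat 1364, .ofNat 445, .negSucc 426, .negSucc 728, .ofNat 1508, .ofNat 822⟩, ⟨.negSucc 6646, .negSucc 1048, .ofNat 553, .ofNat 662, .negSucc 4824, .negSucc 1885⟩, ⟨.ofNat 3667, .ofNat 385, .ofNat 196, .ofNat 1349, .ofNat 2495, .ofNat 207⟩, .ofNat 1787, .negSucc 2452, .ofNat 0, .negSucc 2452, .ofNat 4200, .ofNat 0, .ofNat 128, .ofNat 609, .negSucc 1927, .ofNat 0, .ofNat 380, .negSucc 1086, .ofNat 0, .ofNat 0, .ofNat 1484, .ofNat 2166, .ofNat 0, .ofNat 0, .ofNat 0, .ofNat 0, .ofNat 0, .ofNat 0, .ofNat 1700907707189949352091704336489942536027044315136, .ofNat 0,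 .ofNat 0, .ofNat 0, .ofNat 3195649587110739634497935322129999612272011378688, .ofNat 0, .ofNat 0, .ofNat 0, .ofNat 6808962358497150845836432090998203467970820177920, .ofNat 0⟩)
    (by decide +kernel)
theorem L05889 : Good (Phi V5.P V5.D 1 1) ⟨6, 55, 4, 9, 4, 15, 3, 4, 5, 1⟩ :=
  leafX_sound T5.ok_pp T5.Ypp.bz_eq (w := 261) (c := ⟨⟨.negSucc 2350, .negSucc 484, .ofNat 653, .ofNat 3500, .negSucc 1959, .negSucc 1262⟩, ⟨.negSucc 1330, .negSucc 156, .ofNat 116, .ofNat 2125, .negSucc 1156, .negSucc 774⟩, ⟨.ofNat 953, .ofNat 477, .negSucc 645, .negSucc 1867, .ofNat 1132, .ofNat 677⟩, ⟨.negSucc 6330, .negSucc 1416, .ofNat 1243, .ofNat 5780, .negSucc 4500, .negSucc 2064⟩, ⟨.ofNat 4926, .ofNat 1116, .negSucc 781, .negSucc 1189, .ofNat 2734, .ofNat 398⟩, .ofNat 1782, .negSucc 2447, .ofNat 0, .negSucc 2447, .ofNat 4197, .ofNat 0, .ofNat 128, .ofNat 497, .negSucc 1588, .ofNat 0, .ofNat 311, .negSucc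 873, .ofNat 0, .ofNat 0, .ofNat 1223, .ofNat 1016, .ofNat 0, .ofNat 0, .ofNat 35990115150015725109002607170902034806898425856, .ofNat 0, .ofNat 0, .ofNat 0, .ofNat 1724922484184839160681977114616356680478899568640, .ofNat 0, .ofNat 0, .ofNat 0, .ofNat 622766778584819788875863686777982734373243322368, .ofNat 0, .ofNat 0, .ofNat 0, .ofNat 6428134587887832237422556044090359439179548459008, .ofNat 0⟩)
    (by decide +kernel)
theorem L05890 : Good (Phi V5.P V5.D 1 1) ⟨6, 55, 4, 9, 3, 7, 3, 5, 5, 1⟩ :=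
  leafX_sound T5.ok_pp T5.Ypp.bz_eq (w := 247) (c := ⟨⟨.negSucc 6009, .negSucc 1081, .ofNat 1544, .ofNat 5196, .negSucc 2263, .negSucc 1537⟩, ⟨.negSucc 3541, .negSucc 514, .ofNat 506, .ofNat 3212, .negSucc 1331, .negSucc 892⟩, ⟨.ofNat 3402, .ofNat 737, .negSucc 1017, .negSucc 3245, .ofNat 1428, .ofNat 922⟩, ⟨.negSucc 12334, .negSucc 2668, .ofNat 3161, .ofNat 7354, .negSucc 5203, .negSucc 2719⟩, ⟨.ofNat 6073, .ofNat 1903, .negSucc 2035, .ofNat 247, .ofNat 3171, .ofNat 825⟩, .ofNat 2188, .negSucc 3105, .ofNat 0, .negSucc 3105, .ofNat 5262, .ofNat 0, .ofNat 128, .ofNat 497, .negSucc 1182, .ofNat 0, .ofNat 311, .negSucc 676, .ofNat 0, .ofNat 0, .ofNat 853, .ofNat 417, .ofNat 0, .ofNat 0, .ofNat 1964099195538040880332907225288193223950336, .ofNat 0, .ofNat 0, .ofNat 0, .ofNat 94963562414131717710771051905632522442113024, .ofNat 0, .ofNat 0, .ofNat 0, .ofNat 0, .ofNat 0, .ofNat 0, .ofNat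 0, .ofNat 126770347048269880640352532671087406408007680, .ofNat 0⟩)
    (by decide +kernel)
theorem L05891 : Good (Phi V5.P V5.D 1 1) ⟨6, 56, 5, 18, 3, 7, 2, 2, 5, 0⟩ :=
  out_sound (S := T5.ds_pp) T5.ok_pp (w := 67) (j := 3) (by decide +kernel)
theorem L05892 : Good (Phi V5.P V5.D 1 1) ⟨7, 112, 5, 19, 4, 14, 2, 2, 5, 0⟩ :=
  leafX_sound T5.ok_pp T5.Ypp.bz_eq (w := 268) (c := ⟨⟨.negSucc 969, .negSucc 357, .ofNat 548, .negSucc 308, .negSucc 5226, .negSucc 1385⟩, ⟨.negSucc 434, .negSucc 102, .ofNat 80, .negSucc 187, .negSucc 3232, .negSucc 891⟩, ⟨.ofNat 366, .ofNat 343, .negSucc 497, .negSucc 4, .ofNat 3303, .ofNat 772⟩, ⟨.negSucc 3038, .negSucc 166, .negSucc 114, .negSucc 2478, .negSucc 10945, .negSucc 1866⟩, ⟨.ofNat 2747, .negSucc 474, .ofNat 1190, .ofNat 3188, .ofNat 5507, .negSucc 176⟩, .ofNat 3595, .negSucc 5196, .ofNat 0, .negSucc 5196, .ofNat 8349, .ofNat 0, .ofNat 128, .ofNat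 973, .negSucc 3356, .ofNat 0, .ofNat 626, .negSucc 2048, .ofNat 0, .ofNat 0, .ofNat 2232, .ofNat 696, .ofNat 0, .ofNat 0, .ofNat 0, .ofNat 0, .ofNat 0, .ofNat 0, .ofNat 857455960359294517377489708196264560771452633088, .ofNat 0, .ofNat 0, .ofNat 0, .ofNat 0, .ofNat 0, .ofNat 0, .ofNat 0, .ofNat 0, .ofNat 0⟩)
    (by decide +kernel)
theorem L05893 : Good (Phi V5.P V5.D 1 1) ⟨7, 112, 5, 19, 4, 15, 3, 4, 5, 0⟩ :=
  leafX_sound T5.ok_pp T5.Ypp.bz_eq (w := 271) (c := ⟨⟨.negSucc 2148, .negSucc 185, .ofNat 369, .ofNat 4283, .negSucc 2426, .negSucc 918⟩, ⟨.negSucc 1211, .negSucc 65, .ofNat 103, .ofNat 2692, .negSucc 1500, .negSucc 589⟩, ⟨.ofNat 1013, .ofNat 179, .negSucc 347, .negSucc 2181, .ofNat 1266, .ofNat 369⟩, ⟨.negSucc 7770, .negSucc 1278, .ofNat 1401, .ofNat 7327, .negSucc 5285, .negSucc 413⟩, ⟨.ofNat 7545, .ofNat 1542, .negSucc 1530, .negSucc 1925, .ofNat 2878, .negSucc 1394⟩, .ofNat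 3595, .negSucc 5196, .ofNat 0, .negSucc 5196, .ofNat 8349, .ofNat 0, .ofNat 128, .ofNat 882, .negSucc 2553, .ofNat 0, .ofNat 567, .negSucc 1543, .ofNat 0, .ofNat 0, .ofNat 1710, .ofNat 1627, .ofNat 0, .ofNat 0, .ofNat 47421028936220162641123861714440304308814610432, .ofNat 0, .ofNat 0, .ofNat 0, .ofNat 4725844162852843469880680775298119769749121400832, .ofNat 0, .ofNat 0, .ofNat 0, .ofNat 1070505442340109288956753855419281585647514550272, .ofNat 0, .ofNat 0, .ofNat 0, .ofNat 9366527322503099729622557419656749512227901407232, .ofNat 0⟩)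
    (by decide +kernel)
theorem L05894 : Good (Phi V5.P V5.D 1 1) ⟨7, 112, 5, 19, 4, 15, 3, 5, 5, 0⟩ :=
  leafX_sound T5.ok_pp T5.Ypp.bz_eq (w := 271) (c := ⟨⟨.negSucc 5065, .negSucc 1181, .ofNat 1213, .ofNat 4227, .negSucc 2564, .negSucc 88⟩, ⟨.negSucc 2989, .negSucc 646, .ofNat 544, .ofNat 2653, .negSucc 1581, .negSucc 57⟩, ⟨.ofNat 2631, .ofNat 705, .negSucc 812, .negSucc 2369, .ofNat 1514, .ofNat 102⟩, ⟨.negSucc 13384, .negSucc 2480, .ofNat 2112, .ofNat 7091, .negSucc 5801, .ofNat 832⟩, ⟨.ofNat 9872, .ofNat 1298, .negSucc 880, .negSucc 1680, .ofNat 3389, .negSucc 1500⟩, .ofNat 3595, .negSucc 5196, .ofNat 0, .negSucc 5196, .ofNat 8349, .ofNat 0, .ofNat 128, .ofNat 720, .negSucc 2126, .ofNat 0, .ofNat 464, .negSucc 1278, .ofNat 0, .ofNat 0, .ofNat 1405, .ofNat 1220, .ofNat 0, .ofNat 0, .ofNat 58111905433366576664432387120000513216601915392, .ofNat 0, .ofNat 0, .ofNat 0, .ofNat 13175423683504743083502369425762866500737356005376,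 .ofNat 0, .ofNat 0, .ofNat 0, .ofNat 1036241786120217272025283709340580338603030216704, .ofNat 0, .ofNat 0, .ofNat 0, .ofNat 8316123682941781371211194090726829812279068852224, .ofNat 0⟩)
    (by decide +kernel)
theorem L05895 : Good (Phi V5.P V5.D 1 1) ⟨7, 113, 5, 19, 3, 7, 2, 2, 5, 0⟩ :=
  out_sound (S := T5.ds_pp) T5.ok_pp (w := 73) (j := 3) (by decide +kernel)
theorem L05896 : Good (Phi V5.P V5.D 1 1) ⟨6, 57, 4, 9, 3, 7, 2, 2, 5, 0⟩ :=
  out_sound (S := T5.ds_pp) T5.ok_pp (w := 65) (j := 3) (by decide +kernel)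
theorem L05897 : Good (Phi V5.P V5.D 1 1) ⟨6, 56, 5, 18, 3, 7, 2, 2, 5, 1⟩ :=
  out_sound (S := T5.ds_pp) T5.ok_pp (w := 67) (j := 3) (by decide +kernel)
theorem L05898 : Good (Phi V5.P V5.D 1 1) ⟨6, 56, 5, 19, 4, 14, 3, 4, 5, 1⟩ :=
  leafX_sound T5.ok_pp T5.Ypp.bz_eq (w := 265) (c := ⟨⟨.negSucc 3368, .negSucc 877, .ofNat 474, .ofNat 996, .negSucc 2337, .negSucc 1329⟩, ⟨.negSucc 1969, .negSucc 446, .ofNat 91, .ofNat 643, .negSucc 1443, .negSucc 831⟩, ⟨.ofNat 1623, .ofNat 636, .negSucc 368, .negSucc 710, .ofNat 1537, .ofNat 880⟩, ⟨.negSucc 7293, .negSucc 1711, .ofNat 664, .ofNat 457, .negSucc 5011, .negSucc 2048⟩, ⟨.ofNat 4016, .ofNat 811, .negSucc 137, .ofNat 1515, .ofNat 2639, .ofNat 240⟩, .ofNat 1800, .negSucc 2385, .ofNat 0, .negSucc 2385, .ofNat 3924, .ofNat 0, .ofNat 128, .ofNat 558, .negSucc 2136, .ofNat 0, .ofNat 361, .negSucc 1249, .ofNat 0, .ofNat 0, .ofNat 1578, .ofNat 2594,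 .ofNat 0, .ofNat 0, .ofNat 0, .ofNat 0, .ofNat 0, .ofNat 0, .ofNat 5473652814780933372795646420591546692847552954368, .ofNat 0, .ofNat 0, .ofNat 0, .ofNat 2747758923304205726260892709739152472258620948480, .ofNat 0, .ofNat 0, .ofNat 0, .ofNat 0, .ofNat 0⟩)
    (by decide +kernel)
theorem L05899 : Good (Phi V5.P V5.D 1 1) ⟨6, 56, 5, 19, 4, 15, 3, 4, 5, 1⟩ :=
  leafX_sound T5.ok_pp T5.Ypp.bz_eq (w := 265) (c := ⟨⟨.negSucc 2652, .negSucc 1302, .ofNat 720, .ofNat 3695, .negSucc 2156, .negSucc 1276⟩, ⟨.negSucc 1517, .negSucc 597, .ofNat 241, .ofNat 2321, .negSucc 1328, .negSucc 811⟩, ⟨.ofNat 1199, .ofNat 846, .negSucc 494, .negSucc 2025, .ofNat 1246, .ofNat 724⟩, ⟨.negSucc 7165, .negSucc 1993, .ofNat 691, .ofNat 6102, .negSucc 4869, .negSucc 2043⟩, ⟨.ofNat 5460, .ofNat 287, .ofNat 313, .negSucc 1319, .ofNat 2838, .ofNat 353⟩, .ofNat 3017, .negSucc 4251, .ofNat 0, .negSucc 4251, .ofNat 6801,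 .ofNat 0, .ofNat 128, .ofNat 668, .negSucc 1367, .ofNat 0, .ofNat 433, .negSucc 812, .ofNat 0, .ofNat 0, .ofNat 1057, .ofNat 2530, .ofNat 0, .ofNat 0, .ofNat 251642741291899716374359693955391907700613840896, .ofNat 0, .ofNat 0, .ofNat 0, .ofNat 17743393417913773250781512267081342854330992033792, .ofNat 0, .ofNat 0, .ofNat 0, .ofNat 2492389948097082627996401109137385874074193887232, .ofNat 0, .ofNat 0, .ofNat 0, .ofNat 10285072387751343472640157760002531182245150982144, .ofNat 0⟩)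
    (by decide +kernel)
theorem L05900 : Good (Phi V5.P V5.D 1 1) ⟨6, 56, 5, 19, 3, 7, 3, 5, 5, 1⟩ :=
  leafX_sound T5.ok_pp T5.Ypp.bz_eq (w := 253) (c := ⟨⟨.negSucc 6955, .negSucc 895, .ofNat 657, .ofNat 5516, .negSucc 2310, .negSucc 1216⟩, ⟨.negSucc 4208, .negSucc 430, .ofNat 204, .ofNat 3517, .negSucc 1435, .negSucc 777⟩, ⟨.ofNat 3983, .ofNat 543, .negSucc 393, .negSucc 3503, .ofNat 1510, .ofNat 792⟩, ⟨.negSucc 14377, .negSucc 1945, .ofNat 1173, .ofNat 7700, .negSucc 5551, .negSucc 2241⟩, ⟨.ofNat 7174, .ofNat 1193, .negSucc 644, .ofNat 265, .ofNat 3557, .ofNat 798⟩, .ofNat 3017, .negSucc 4251, .ofNat 0, .negSucc 4251, .ofNat 6801, .ofNat 0, .ofNat 128, .ofNat 847, .negSucc 2235, .ofNat 0, .ofNat 551, .negSucc 1337, .ofNat 0, .ofNat 0, .ofNat 1637, .ofNat 869, .ofNat 0, .ofNat 0, .ofNat 7361358506827072215124112875541636266852352, .ofNat 0, .ofNat 0, .ofNat 0, .ofNat 467594836239111153621679960530014618838368256,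 .ofNat 0, .ofNat 0, .ofNat 0, .ofNat 113791948840545768896269395672830970970505216, .ofNat 0, .ofNat 0, .ofNat 0, .ofNat 0, .ofNat 0⟩)
    (by decide +kernel)
theorem L05901 : Good (Phi V5.P V5.D 1 1) ⟨6, 57, 4, 9, 3, 7, 2, 2, 5, 1⟩ :=
  out_sound (S := T5.ds_pp) T5.ok_pp (w := 65) (j := 3) (by decide +kernel)
theorem L05902 : Good (Phi V5.P V5.D 1 1) ⟨5, 29, 4, 9, 3, 7, 2, 2, 4, 0⟩ :=
  out_sound (S := T5.ds_pp) T5.ok_pp (w := 59) (j := 3) (by decide +kernel)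
theorem L05903 : Good (Phi V5.P V5.D 1 1) ⟨4, 15, 4, 9, 3, 7, 2, 2, 4, 0⟩ :=
  out_sound (S := T5.ds_pp) T5.ok_pp (w := 53) (j := 3) (by decide +kernel)
theorem L05904 : Good (Phi V5.P V5.D 1 1) ⟨2, 2, 4, 9, 2, 3, 2, 2, 4, 1⟩ :=
  out_sound (S := T5.ds_pp) T5.ok_pp (w := 41) (j := 3) (by decide +kernel)
theorem L05905 : Good (Phi V5.P V5.D 1 1) ⟨4, 12, 4, 9, 2, 3, 2, 2, 4, 1⟩ :=
  out_sound (S := T5.ds_pp) T5.ok_pp (w := 53) (j := 3) (by decide +kernel)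
theorem L05906 : Good (Phi V5.P V5.D 1 1) ⟨5, 26, 4, 9, 2, 3, 2, 2, 4, 1⟩ :=
  out_sound (S := T5.ds_pp) T5.ok_pp (w := 59) (j := 3) (by decide +kernel)
theorem L05907 : Good (Phi V5.P V5.D 1 1) ⟨6, 54, 4, 9, 2, 3, 2, 2, 5, 2⟩ :=
  out_sound (S := T5.ds_pp) T5.ok_pp (w := 65) (j := 3) (by decide +kernel)
theorem L05908 : Good (Phi V5.P V5.D 1 1) ⟨6, 55, 4, 9, 3, 6, 2, 2, 5, 2⟩ :=
  leafX_sound T5.ok_pp T5.Ypp.bz_eq (w := 243) (c := ⟨⟨.negSucc 3750, .negSucc 715, .ofNat 716, .negSucc 833, .negSucc 3638, .negSucc 420⟩, ⟨.negSucc 2199, .negSucc 375, .ofNat 51, .negSucc 442, .negSucc 2167, .negSucc 253⟩, ⟨.ofNat 2025, .ofNat 404, .negSucc 328, .ofNat 277, .ofNat 2949, .ofNat 460⟩, ⟨.negSucc 5958, .negSucc 1343, .ofNat 808, .negSucc 3256, .negSucc 7102, .negSucc 266⟩, ⟨.ofNat 825, .ofNat 719, .ofNat 145, .ofNat 3353, .ofNat 3038, .negSucc 553⟩, .ofNat 2447, .negSucc 3506, .ofNat 0, .negSucc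 3506, .ofNat 5896, .ofNat 0, .ofNat 128, .ofNat 481, .negSucc 1022, .ofNat 0, .ofNat 304, .negSucc 593, .ofNat 0, .ofNat 0, .ofNat 957, .ofNat 918, .ofNat 0, .ofNat 0, .ofNat 0, .ofNat 0, .ofNat 0, .ofNat 0, .ofNat 12409850169113497403240157887585565555032064, .ofNat 0, .ofNat 0, .ofNat 0, .ofNat 963063910596699561872880340802485222375424, .ofNat 0, .ofNat 0, .ofNat 0, .ofNat 0, .ofNat 0⟩)
    (by decide +kernel)
theorem L05909 : Good (Phi V5.P V5.D 1 1) ⟨6, 55, 4, 9, 3, 7, 3, 4, 5, 2⟩ :=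
  leafX_sound T5.ok_pp T5.Ypp.bz_eq (w := 248) (c := ⟨⟨.negSucc 4623, .negSucc 311, .ofNat 240, .ofNat 4001, .negSucc 1812, .negSucc 997⟩, ⟨.negSucc 2723, .negSucc 41, .negSucc 276, .ofNat 2473, .negSucc 1055, .negSucc 597⟩, ⟨.ofNat 2438, .ofNat 297, .negSucc 280, .negSucc 2501, .ofNat 1210, .ofNat 714⟩, ⟨.negSucc 8830, .negSucc 744, .ofNat 246, .ofNat 4762, .negSucc 3863, .negSucc 1801⟩, ⟨.ofNat 3587, .ofNat 574, .negSucc 188, .ofNat 1641, .ofNat 2061, .ofNat 574⟩, .ofNat 3092, .negSucc 4546, .ofNat 0, .negSucc 4546, .ofNat 7581, .ofNat 0, .ofNat 128, .ofNat 676, .negSucc 1026, .ofNat 0, .ofNat 423, .negSucc 590, .ofNat 0, .ofNat 0, .ofNat 970, .ofNat 1353, .ofNat 0, .ofNat 0, .ofNat 0, .ofNat 0, .ofNat 0, .ofNat 0, .ofNat 185823681685818582456387383442085073886642176, .ofNat 0, .ofNat 0, .ofNat 0, .ofNat 21157181780040187258828841494769200086908928, .ofNat 0, .ofNat 0, .ofNat 0,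 .ofNat 131150855888894776143966637995080884131201024, .ofNat 0⟩)
    (by decide +kernel)
theorem L05910 : Good (Phi V5.P V5.D 1 1) ⟨6, 55, 4, 9, 3, 7, 3, 5, 5, 2⟩ :=
  leafX_sound T5.ok_pp T5.Ypp.bz_eq (w := 249) (c := ⟨⟨.negSucc 6489, .negSucc 756, .ofNat 719, .ofNat 4124, .negSucc 2184, .negSucc 914⟩, ⟨.negSucc 3784, .negSucc 323, .negSucc 15, .ofNat 2556, .negSucc 1276, .negSucc 565⟩, ⟨.ofNat 3815, .ofNat 635, .negSucc 659, .negSucc 2773, .ofNat 1503, .ofNat 673⟩, ⟨.negSucc 12688, .negSucc 1906, .ofNat 1138, .ofNat 4954, .negSucc 4528, .negSucc 1721⟩, ⟨.ofNat 5466, .ofNat 1560, .negSucc 730, .ofNat 1616, .ofNat 2277, .ofNat 650⟩, .ofNat 3739, .negSucc 5573, .ofNat 0, .negSucc 5573, .ofNat 9212, .ofNat 0, .ofNat 128, .ofNat 763, .negSucc 1215, .ofNat 0, .ofNat 480, .negSucc 703, .ofNat 0, .ofNat 0, .ofNat 1068, .ofNat 597, .ofNat 0, .ofNat 0, .ofNat 4796445005624824353222053761509124189716480,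 .ofNat 0, .ofNat 0, .ofNat 0, .ofNat 272712890641828969430546293540536808376369152, .ofNat 0, .ofNat 0, .ofNat 0, .ofNat 0, .ofNat 0, .ofNat 0, .ofNat 0, .ofNat 327148717220327037716496378697769113951928320, .ofNat 0⟩)
    (by decide +kernel)
theorem L05911 : Good (Phi V5.P V5.D 1 1) ⟨6, 54, 4, 9, 2, 3, 2, 2, 5, 3⟩ :=
  out_sound (S := T5.ds_pp) T5.ok_pp (w := 65) (j := 3) (by decide +kernel)
theorem L05912 : Good (Phi V5.P V5.D 1 1) ⟨6, 55, 4, 9, 3, 6, 2, 2, 5, 3⟩ :=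
  leafX_sound T5.ok_pp T5.Ypp.bz_eq (w := 242) (c := ⟨⟨.negSucc 5182, .negSucc 76, .negSucc 26, .negSucc 90, .negSucc 2678, .ofNat 485⟩, ⟨.negSucc 3062, .negSucc 11, .negSucc 368, .ofNat 4, .negSucc 1587, .ofNat 278⟩, ⟨.ofNat 3100, .ofNat 59, .ofNat 99, .negSucc 163, .ofNat 2302, .negSucc 136⟩, ⟨.negSucc 8300, .negSucc 225, .negSucc 295, .negSucc 1779, .negSucc 5216, .ofNat 1309⟩, ⟨.ofNat 1272, .ofNat 377, .ofNat 256, .ofNat 2701, .ofNat 2210, .negSucc 995⟩, .ofNat 1793, .negSucc 2455, .ofNat 0, .negSucc 2455, .ofNat 4191, .ofNat 0, .ofNat 128, .ofNat 370, .negSucc 525, .ofNat 0, .ofNat 236, .negSucc 297, .ofNat 0, .ofNat 0, .ofNat 598, .ofNat 1013, .ofNat 0, .ofNat 0, .ofNat 0, .ofNat 0, .ofNat 0, .ofNat 0, .ofNat 9835879858766932346078251279718821797036032, .ofNat 0, .ofNat 0, .ofNat 0, .ofNat 1163564041427352278906474067283753333424128, .ofNat 0, .ofNat 0, .ofNat 0, .ofNat 2417972130439902601100803044545265420730368,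 .ofNat 0⟩)
    (by decide +kernel)
theorem L05913 : Good (Phi V5.P V5.D 1 1) ⟨6, 55, 4, 9, 3, 7, 2, 2, 5, 3⟩ :=
  leafX_sound T5.ok_pp T5.Ypp.bz_eq (w := 243) (c := ⟨⟨.negSucc 4923, .ofNat 0, .ofNat 6, .ofNat 2632, .negSucc 2926, .negSucc 85⟩, ⟨.negSucc 2895, .ofNat 136, .negSucc 434, .ofNat 1664, .negSucc 1712, .negSucc 69⟩, ⟨.ofNat 2800, .ofNat 120, .negSucc 93, .negSucc 1815, .ofNat 2151, .ofNat 184⟩, ⟨.negSucc 9668, .ofNat 31, .negSucc 535, .ofNat 2406, .negSucc 6143, .ofNat 651⟩, ⟨.ofNat 4198, .ofNat 36, .ofNat 588, .ofNat 2296, .ofNat 3172, .negSucc 1249⟩, .ofNat 3071, .negSucc 4510, .ofNat 0, .negSucc 4510, .ofNat 7519, .ofNat 0, .ofNat 128, .ofNat 709, .negSucc 761, .ofNat 0, .ofNat 448, .negSucc 432, .ofNat 0, .ofNat 0, .ofNat 885, .ofNat 974, .ofNat 0, .ofNat 0, .ofNat 185322646561552581059586915483427287334912, .ofNat 0, .ofNat 0, .ofNat 0, .ofNat 21142511510273481432289011577289567780208640,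 .ofNat 0, .ofNat 0, .ofNat 0, .ofNat 0, .ofNat 0, .ofNat 0, .ofNat 0, .ofNat 3129445854579845760946992955513727493341184, .ofNat 0⟩)
    (by decide +kernel)
theorem L05914 : Good (Phi V5.P V5.D 1 1) ⟨5, 28, 4, 9, 3, 6, 2, 2, 4, 1⟩ :=
  leafX_sound T5.ok_pp T5.Ypp.bz_eq (w := 234) (c := ⟨⟨.negSucc 5828, .negSucc 1197, .ofNat 567, .negSucc 127, .negSucc 2708, .ofNat 665⟩, ⟨.negSucc 3352, .negSucc 647, .negSucc 31, .negSucc 40, .negSucc 1690, .ofNat 399⟩, ⟨.ofNat 3422, .ofNat 990, .negSucc 405, .negSucc 193, .ofNat 2379, .negSucc 100⟩, ⟨.negSucc 9158, .negSucc 1172, .negSucc 107, .negSucc 2072, .negSucc 5540, .ofNat 2258⟩, ⟨.ofNat 1569, .negSucc 84, .ofNat 1061, .ofNat 2978, .ofNat 2638, .negSucc 2073⟩, .ofNat 2373, .negSucc 3188, .ofNat 0, .negSucc 3188, .ofNat 5052, .ofNat 0, .ofNat 128, .ofNat 579, .negSucc 1168, .ofNat 0, .ofNat 391, .negSucc 688, .ofNat 0, .ofNat 0, .ofNat 1163,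 .ofNat 652, .ofNat 0, .ofNat 0, .ofNat 12582658036923295153511487745217043365888, .ofNat 0, .ofNat 0, .ofNat 0, .ofNat 2763445687071088761260344092706627997663232, .ofNat 0, .ofNat 0, .ofNat 0, .ofNat 89488113282907676253084548956213166997504, .ofNat 0, .ofNat 0, .ofNat 0, .ofNat 207745731816416660608466803285751175839744, .ofNat 0⟩)
    (by decide +kernel)
theorem L05915 : Good (Phi V5.P V5.D 1 1) ⟨5, 29, 4, 9, 3, 6, 2, 2, 4, 1⟩ :=
  out_sound (S := T5.ds_pp) T5.ok_pp (w := 59) (j := 3) (by decide +kernel)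
theorem L05916 : Good (Phi V5.P V5.D 1 1) ⟨6, 56, 5, 18, 3, 7, 2, 2, 5, 2⟩ :=
  out_sound (S := T5.ds_pp) T5.ok_pp (w := 67) (j := 3) (by decide +kernel)
theorem L05917 : Good (Phi V5.P V5.D 1 1) ⟨6, 56, 5, 19, 4, 14, 2, 2, 5, 2⟩ :=
  leafX_sound T5.ok_pp T5.Ypp.bz_eq (w := 260) (c := ⟨⟨.negSucc 4890, .negSucc 605, .ofNat 94, .ofNat 986, .negSucc 3897, .negSucc 53⟩, ⟨.negSucc 2901, .negSucc 254, .negSucc 191, .ofNat 636, .negSucc 2405, .negSucc 39⟩, ⟨.ofNat 2614, .ofNat 466, .negSucc 146, .negSucc 810, .ofNat 2914, .ofNat 272⟩, ⟨.negSucc 9542, .negSucc 1249, .negSucc 146, .ofNat 228, .negSucc 8601, .ofNat 443⟩, ⟨.ofNat 4136, .ofNat 745, .ofNat 274, .ofNat 1851, .ofNat 4791, .negSucc 818⟩, .ofNat 2068, .negSucc 2826, .ofNat 0, .negSucc 2826, .ofNat 4653, .ofNat 0, .ofNat 128, .ofNat 438, .negSucc 932, .ofNat 0, .ofNat 283, .negSucc 546, .ofNat 0, .ofNat 0, .ofNat 795, .ofNat 1200, .ofNat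 0, .ofNat 0, .ofNat 9504525414814105508866960759437912806541754368, .ofNat 0, .ofNat 0, .ofNat 0, .ofNat 296873779670025125628103001524665189963485151232, .ofNat 0, .ofNat 0, .ofNat 0, .ofNat 35901621206102190955997945888630024043545755648, .ofNat 0, .ofNat 0, .ofNat 0, .ofNat 359408312060111058579602088111647470924389679104, .ofNat 0⟩)
    (by decide +kernel)
theorem L05918 : Good (Phi V5.P V5.D 1 1) ⟨6, 56, 5, 19, 4, 15, 2, 2, 5, 2⟩ :=
  leafX_sound T5.ok_pp T5.Ypp.bz_eq (w := 261) (c := ⟨⟨.negSucc 3213, .negSucc 201, .ofNat 37, .ofNat 2831, .negSucc 4234, .negSucc 1094⟩, ⟨.negSucc 1878, .negSucc 43, .negSucc 144, .ofNat 1790, .negSucc 2602, .negSucc 684⟩, ⟨.ofNat 1561, .ofNat 366, .negSucc 152, .negSucc 1674, .ofNat 2797, .ofNat 768⟩, ⟨.negSucc 7643, .negSucc 809, .negSucc 133, .ofNat 4034, .negSucc 9864, .negSucc 1770⟩, ⟨.ofNat 4926, .ofNat 825, .ofNat 131, .ofNat 12, .ofNat 6043,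 .ofNat 333⟩, .ofNat 3017, .negSucc 4251, .ofNat 0, .negSucc 4251, .ofNat 6801, .ofNat 0, .ofNat 128, .ofNat 644, .negSucc 1095, .ofNat 0, .ofNat 420, .negSucc 645, .ofNat 0, .ofNat 0, .ofNat 957, .ofNat 1192, .ofNat 0, .ofNat 0, .ofNat 9118991620584512549015459689598803491548037120, .ofNat 0, .ofNat 0, .ofNat 0, .ofNat 1061901560789561950570191435776277269104753115136, .ofNat 0, .ofNat 0, .ofNat 0, .ofNat 0, .ofNat 0, .ofNat 0, .ofNat 0, .ofNat 750863853444732876110487465729431291523361669120, .ofNat 0⟩)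
    (by decide +kernel)
theorem L05919 : Good (Phi V5.P V5.D 1 1) ⟨6, 56, 4, 9, 4, 14, 2, 2, 5, 3⟩ :=
  leafX_sound T5.ok_pp T5.Ypp.bz_eq (w := 258) (c := ⟨⟨.negSucc 5329, .negSucc 357, .ofNat 45, .ofNat 855, .negSucc 2861, .ofNat 572⟩, ⟨.negSucc 2972, .negSucc 86, .negSucc 436, .ofNat 567, .negSucc 1758, .ofNat 341⟩, ⟨.ofNat 3081, .ofNat 239, .negSucc 24, .negSucc 733, .ofNat 2264, .negSucc 197⟩, ⟨.negSucc 10036, .negSucc 638, .negSucc 303, .ofNat 193, .negSucc 6135, .ofNat 1622⟩, ⟨.ofNat 4033, .ofNat 349, .ofNat 308, .ofNat 1624, .ofNat 3260, .negSucc 1287⟩, .ofNat 3212, .negSucc 4547, .ofNat 0, .negSucc 4547, .ofNat 7261, .ofNat 0, .ofNat 128, .ofNat 841, .negSucc 1253, .ofNat 0, .ofNat 554, .negSucc 729, .ofNat 0, .ofNat 0, .ofNat 1374, .ofNat 1118, .ofNat 0, .ofNat 0, .ofNat 2498083853180202887020692055778029006359625728, .ofNat 0, .ofNat 0, .ofNat 0, .ofNat 653468398029203500168455788460257302804346961920,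 .ofNat 0, .ofNat 0, .ofNat 0, .ofNat 0, .ofNat 0, .ofNat 0, .ofNat 0, .ofNat 115725841967171161478769335106478481296746086400, .ofNat 0⟩)
    (by decide +kernel)
theorem L05920 : Good (Phi V5.P V5.D 1 1) ⟨6, 56, 4, 9, 4, 15, 2, 2, 5, 3⟩ :=
  leafX_sound T5.ok_pp T5.Ypp.bz_eq (w := 257) (c := ⟨⟨.negSucc 4071, .negSucc 199, .ofNat 84, .ofNat 1811, .negSucc 3093, .ofNat 23⟩, ⟨.negSucc 2135, .ofNat 40, .negSucc 449, .ofNat 1176, .negSucc 1911, .ofNat 2⟩, ⟨.ofNat 2408, .ofNat 507, .negSucc 444, .negSucc 1121, .ofNat 2170, .ofNat 169⟩, ⟨.negSucc 8697, .negSucc 420, .negSucc 531, .ofNat 1726, .negSucc 7296, .ofNat 852⟩, ⟨.ofNat 4850, .ofNat 297, .ofNat 637, .ofNat 1358, .ofNat 4536, .negSucc 1269⟩, .ofNat 1563, .negSucc 2020, .ofNat 0, .negSucc 2020, .ofNat 3362, .ofNat 0, .ofNat 128, .ofNat 724, .negSucc 1032, .ofNat 0, .ofNat 482, .negSucc 551, .ofNat 0, .ofNat 0, .ofNat 1122, .ofNat 1074,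 .ofNat 0, .ofNat 0, .ofNat 6573817852252253073722645236325373185894645760, .ofNat 0, .ofNat 0, .ofNat 0, .ofNat 154202118226563806521042283458227629991141572608, .ofNat 0, .ofNat 0, .ofNat 0, .ofNat 49539849974613819044923292681826976151661182976, .ofNat 0, .ofNat 0, .ofNat 0, .ofNat 0, .ofNat 0⟩)
    (by decide +kernel)
theorem L05921 : Good (Phi V5.P V5.D 1 1) ⟨6, 57, 4, 9, 3, 7, 2, 2, 4, 1⟩ :=
  out_sound (S := T5.ds_pp) T5.ok_pp (w := 65) (j := 3) (by decide +kernel)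
theorem L05922 : Good (Phi V5.P V5.D 1 1) ⟨5, 29, 4, 9, 3, 7, 2, 2, 4, 1⟩ :=
  out_sound (S := T5.ds_pp) T5.ok_pp (w := 59) (j := 3) (by decide +kernel)
theorem L05923 : Good (Phi V5.P V5.D 1 1) ⟨4, 15, 4, 9, 2, 3, 2, 2, 4, 1⟩ :=
  out_sound (S := T5.ds_pp) T5.ok_pp (w := 53) (j := 3) (by decide +kernel)
theorem L05924 : Good (Phi V5.P V5.D 1 1) ⟨2, 2, 3, 4, 2, 3, 2, 2, 5, 4⟩ :=
  out_sound (S := T5.ds_pp) T5.ok_pp (w := 39) (j := 3) (by decide +kernel)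
theorem L05925 : Good (Phi V5.P V5.D 1 1) ⟨4, 12, 3, 4, 2, 3, 2, 2, 5, 4⟩ :=
  out_sound (S := T5.ds_pp) T5.ok_pp (w := 51) (j := 3) (by decide +kernel)
theorem L05926 : Good (Phi V5.P V5.D 1 1) ⟨4, 13, 3, 4, 3, 6, 2, 2, 5, 4⟩ :=
  leafX_sound T5.ok_pp T5.Ypp.bz_eq (w := 230) (c := ⟨⟨.negSucc 4330, .negSucc 1324, .ofNat 459, .ofNat 151, .negSucc 1640, .ofNat 677⟩, ⟨.negSucc 2338, .negSucc 741, .negSucc 253, .ofNat 135, .negSucc 930, .ofNat 360⟩, ⟨.ofNat 2737, .ofNat 694, .negSucc 38, .negSucc 293, .ofNat 1575, .negSucc 329⟩, ⟨.negSucc 7123, .negSucc 1422, .ofNat 30, .negSucc 935, .negSucc 3074, .ofNat 1370⟩, ⟨.ofNat 921, .negSucc 225, .ofNat 946, .ofNat 1981, .ofNat 1174, .negSucc 653⟩, .ofNat 1564, .negSucc 2149, .ofNat 0, .negSucc 2149, .ofNat 3837, .ofNat 0, .ofNat 128, .ofNat 469, .negSucc 433, .ofNat 0, .ofNat 296, .negSucc 229, .ofNat 0, .ofNat 0, .ofNat 663, .ofNat 586, .ofNat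 0, .ofNat 0, .ofNat 183476028261851348488457415631271536623616, .ofNat 0, .ofNat 0, .ofNat 0, .ofNat 12500581348116400758327115341884044884312064, .ofNat 0, .ofNat 0, .ofNat 0, .ofNat 3512442774453005350813728531240339051118592, .ofNat 0, .ofNat 0, .ofNat 0, .ofNat 0, .ofNat 0⟩)
    (by decide +kernel)
theorem L05927 : Good (Phi V5.P V5.D 1 1) ⟨5, 26, 3, 4, 3, 7, 2, 2, 5, 4⟩ :=
  leafX_sound T5.ok_pp T5.Ypp.bz_eq (w := 234) (c := ⟨⟨.negSucc 4311, .negSucc 265, .ofNat 73, .ofNat 1763, .negSucc 1851, .ofNat 262⟩, ⟨.negSucc 2410, .negSucc 27, .negSucc 558, .ofNat 1061, .negSucc 977, .ofNat 122⟩, ⟨.ofNat 2412, .ofNat 279, .ofNat 51, .negSucc 1235, .ofNat 1462, .negSucc 42⟩, ⟨.negSucc 7597, .negSucc 708, .negSucc 233, .ofNat 1074, .negSucc 3753, .ofNat 927⟩, ⟨.ofNat 1900, .ofNat 793, .ofNat 118, .ofNat 2816, .ofNat 1782, .negSucc 955⟩, .ofNat 1035, .negSucc 1331, .ofNat 0, .negSucc 1331,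 .ofNat 2602, .ofNat 0, .ofNat 128, .ofNat 387, .negSucc 341, .ofNat 0, .ofNat 245, .negSucc 148, .ofNat 0, .ofNat 0, .ofNat 548, .ofNat 1175, .ofNat 0, .ofNat 0, .ofNat 0, .ofNat 0, .ofNat 0, .ofNat 0, .ofNat 2373440469233852623051925770733374352130048, .ofNat 0, .ofNat 0, .ofNat 0, .ofNat 6214965226289695918910574147615766324707328, .ofNat 0, .ofNat 0, .ofNat 0, .ofNat 2360711889759899818063909511618737389699072, .ofNat 0⟩)
    (by decide +kernel)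
theorem L05928 : Good (Phi V5.P V5.D 1 1) ⟨5, 27, 4, 8, 3, 7, 2, 2, 5, 4⟩ :=
  leafX_sound T5.ok_pp T5.Ypp.bz_eq (w := 237) (c := ⟨⟨.negSucc 4706, .negSucc 255, .ofNat 105, .ofNat 1752, .negSucc 1911, .ofNat 418⟩, ⟨.negSucc 2515, .negSucc 1, .negSucc 258, .ofNat 1108, .negSucc 1053, .ofNat 204⟩, ⟨.ofNat 2732, .ofNat 272, .negSucc 48, .negSucc 1217, .ofNat 1511, .negSucc 122⟩, ⟨.negSucc 8372, .negSucc 469, .negSucc 223, .ofNat 867, .negSucc 3913, .ofNat 1236⟩, ⟨.ofNat 2591, .ofNat 425, .ofNat 382, .ofNat 2917, .ofNat 1927, .negSucc 1065⟩, .ofNat 1492, .negSucc 2043, .ofNat 0, .negSucc 2043, .ofNat 3690, .ofNat 0, .ofNat 128, .ofNat 380, .negSucc 293, .ofNat 0, .ofNat 242, .negSucc 143, .ofNat 0, .ofNat 0, .ofNat 479, .ofNat 857, .ofNat 0, .ofNat 0, .ofNat 413918521281035115206178759750917656936448, .ofNat 0, .ofNat 0, .ofNat 0, .ofNat 11407414707228806934569861007880884297138176, .ofNat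 0, .ofNat 0, .ofNat 0, .ofNat 15331671384500312672146238265841205723004928, .ofNat 0, .ofNat 0, .ofNat 0, .ofNat 4867286260175705216603257812868590230044672, .ofNat 0⟩)
    (by decide +kernel)
theorem L05929 : Good (Phi V5.P V5.D 1 1) ⟨5, 27, 4, 9, 3, 7, 2, 2, 5, 4⟩ :=
  leafX_sound T5.ok_pp T5.Ypp.bz_eq (w := 237) (c := ⟨⟨.negSucc 4700, .negSucc 7, .negSucc 77, .ofNat 1748, .negSucc 2049, .ofNat 357⟩, ⟨.negSucc 2872, .ofNat 205, .negSucc 418, .ofNat 1143, .negSucc 1228, .ofNat 199⟩, ⟨.ofNat 2529, .ofNat 436, .negSucc 149, .negSucc 1234, .ofNat 1591, .negSucc 78⟩, ⟨.negSucc 8589, .ofNat 82, .negSucc 577, .ofNat 461, .negSucc 4521, .ofNat 1411⟩, ⟨.ofNat 2780, .ofNat 126, .ofNat 468, .ofNat 3403, .ofNat 2511, .negSucc 1401⟩, .ofNat 802, .negSucc 896, .ofNat 0, .negSucc 896, .ofNat 1680, .ofNat 0, .ofNat 128, .ofNat 297, .negSucc 357, .ofNat 0, .ofNat 203, .negSucc 153, .ofNat 0, .ofNat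 0, .ofNat 507, .ofNat 628, .ofNat 0, .ofNat 0, .ofNat 347281396387296834793121578749857164689408, .ofNat 0, .ofNat 0, .ofNat 0, .ofNat 10008310363982412409365543065015249706942464, .ofNat 0, .ofNat 0, .ofNat 0, .ofNat 5767920712071821368753600167583407478407168, .ofNat 0, .ofNat 0, .ofNat 0, .ofNat 14730142979972450917723434572848650273161216, .ofNat 0⟩)
    (by decide +kernel)
theorem L05930 : Good (Phi V5.P V5.D 1 1) ⟨5, 28, 4, 8, 2, 3, 2, 2, 5, 4⟩ :=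
  out_sound (S := T5.ds_pp) T5.ok_pp (w := 59) (j := 3) (by decide +kernel)
theorem L05931 : Good (Phi V5.P V5.D 1 1) ⟨6, 56, 5, 18, 2, 3, 2, 2, 5, 4⟩ :=
  out_sound (S := T5.ds_pp) T5.ok_pp (w := 67) (j := 3) (by decide +kernel)
theorem L05932 : Good (Phi V5.P V5.D 1 1) ⟨6, 56, 5, 19, 3, 6, 2, 2, 5, 4⟩ :=
  leafX_sound T5.ok_pp T5.Ypp.bz_eq (w := 246) (c := ⟨⟨.negSucc 5345, .negSucc 265, .ofNat 39, .ofNat 186, .negSucc 1800, .ofNat 757⟩, ⟨.negSucc 3276, .negSucc 158, .negSucc 120, .ofNat 149, .negSucc 1123, .ofNat 463⟩, ⟨.ofNat 3432, .ofNat 134, .ofNat 25, .negSucc 354, .ofNat 1723, .negSucc 400⟩, ⟨.negSucc 8384, .negSucc 274, .negSucc 115, .negSucc 1135, .negSucc 3456, .ofNat 1722⟩, ⟨.ofNat 1195, .ofNat 23, .ofNat 206, .ofNat 2210, .ofNat 1396, .negSucc 1013⟩, .ofNat 2050, .negSucc 2798, .ofNat 0, .negSucc 2798, .ofNat 4611, .ofNat 0, .ofNat 128, .ofNat 735, .negSucc 733, .ofNat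 0, .ofNat 484, .negSucc 428, .ofNat 0, .ofNat 0, .ofNat 1086, .ofNat 1767, .ofNat 0, .ofNat 0, .ofNat 0, .ofNat 0, .ofNat 0, .ofNat 0, .ofNat 54557089776842520913633405311553748372291584, .ofNat 0, .ofNat 0, .ofNat 0, .ofNat 0, .ofNat 0, .ofNat 0, .ofNat 0, .ofNat 0, .ofNat 0⟩)
    (by decide +kernel)
theorem L05933 : Good (Phi V5.P V5.D 1 1) ⟨6, 56, 5, 19, 3, 7, 2, 2, 5, 4⟩ :=
  leafX_sound T5.ok_pp T5.Ypp.bz_eq (w := 245) (c := ⟨⟨.negSucc 4723, .negSucc 318, .negSucc 56, .ofNat 1954, .negSucc 2297, .ofNat 361⟩, ⟨.negSucc 2866, .negSucc 117, .negSucc 209, .ofNat 1294, .negSucc 1420, .ofNat 218⟩, ⟨.ofNat 2863, .ofNat 152, .ofNat 40, .negSucc 1339, .ofNat 1769, .negSucc 102⟩, ⟨.negSucc 8585, .negSucc 577, .negSucc 449, .ofNat 656, .negSucc 4913, .ofNat 1404⟩, ⟨.ofNat 2970, .ofNat 357, .ofNat 411, .ofNat 3380, .ofNat 2577, .negSucc 1383⟩, .ofNat 2064, .negSucc 2820, .ofNat 0, .negSucc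 2820, .ofNat 4643, .ofNat 0, .ofNat 128, .ofNat 550, .negSucc 375, .ofNat 0, .ofNat 363, .negSucc 211, .ofNat 0, .ofNat 0, .ofNat 586, .ofNat 1051, .ofNat 0, .ofNat 0, .ofNat 607652068230205576404209555541733897404416, .ofNat 0, .ofNat 0, .ofNat 0, .ofNat 15667608909939925934508431989980053156921344, .ofNat 0, .ofNat 0, .ofNat 0, .ofNat 19343441162049818080286061240253222888669184, .ofNat 0, .ofNat 0, .ofNat 0, .ofNat 3850931831036675094838285563532523052466176, .ofNat 0⟩)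
    (by decide +kernel)
theorem L05934 : Good (Phi V5.P V5.D 1 1) ⟨6, 57, 4, 9, 2, 3, 2, 2, 5, 4⟩ :=
  out_sound (S := T5.ds_pp) T5.ok_pp (w := 65) (j := 3) (by decide +kernel)
theorem L05935 : Good (Phi V5.P V5.D 1 1) ⟨5, 29, 3, 4, 2, 3, 2, 2, 5, 4⟩ :=
  out_sound (S := T5.ds_pp) T5.ok_pp (w := 57) (j := 3) (by decide +kernel)
theorem L05936 : Good (Phi V5.P V5.D 1 1) ⟨4, 15, 3, 4, 2, 3, 2, 2, 5, 4⟩ :=
  out_sound (S := T5.ds_pp) T5.ok_pp (w := 51) (j := 3) (by decide +kernel)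
theorem L05937 : Good (Phi V5.P V5.D 1 1) ⟨2, 2, 3, 4, 2, 3, 2, 2, 5, 5⟩ :=
  out_sound (S := T5.ds_pp) T5.ok_pp (w := 39) (j := 3) (by decide +kernel)
theorem L05938 : Good (Phi V5.P V5.D 1 1) ⟨4, 12, 3, 4, 2, 3, 2, 2, 5, 5⟩ :=
  out_sound (S := T5.ds_pp) T5.ok_pp (w := 51) (j := 3) (by decide +kernel)
theorem L05939 : Good (Phi V5.P V5.D 1 1) ⟨4, 13, 3, 4, 3, 6, 2, 2, 5, 5⟩ :=
  leafX_sound T5.ok_pp T5.Ypp.bz_eq (w := 229) (c := ⟨⟨.negSucc 4207, .negSucc 662, .ofNat 114, .ofNat 289, .negSucc 1272, .ofNat 555⟩, ⟨.negSucc 2286, .negSucc 408, .negSucc 345, .ofNat 203, .negSucc 733, .ofNat 315⟩, ⟨.ofNat 2757, .ofNat 318, .ofNat 116, .negSucc 352, .ofNat 1285, .negSucc 295⟩, ⟨.negSucc 6837, .negSucc 529, .negSucc 106, .negSucc 366, .negSucc 2190, .ofNat 1185⟩, ⟨.ofNat 680, .ofNat 11, .ofNat 305, .ofNat 1342, .ofNat 559, .negSucc 630⟩, .ofNat 743, .negSucc 820, .ofNat 0, .negSucc 820,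 .ofNat 1621, .ofNat 0, .ofNat 128, .ofNat 218, .negSucc 206, .ofNat 0, .ofNat 150, .negSucc 89, .ofNat 0, .ofNat 0, .ofNat 402, .ofNat 862, .ofNat 0, .ofNat 0, .ofNat 143472328987663448150990601340238912552960, .ofNat 0, .ofNat 0, .ofNat 0, .ofNat 3161946792606197705728971033809469703192576, .ofNat 0, .ofNat 0, .ofNat 0, .ofNat 2555276913786535835436194968616815086796800, .ofNat 0, .ofNat 0, .ofNat 0, .ofNat 14093082010970314850296576018972821870870528, .ofNat 0⟩)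
    (by decide +kernel)
theorem L05940 : Good (Phi V5.P V5.D 1 1) ⟨4, 13, 3, 4, 4, 14, 2, 2, 5, 5⟩ :=
  leafX_sound T5.ok_pp T5.Ypp.bz_eq (w := 244) (c := ⟨⟨.negSucc 3926, .negSucc 590, .ofNat 95, .ofNat 502, .negSucc 1349, .ofNat 548⟩, ⟨.negSucc 2114, .negSucc 286, .negSucc 406, .ofNat 322, .negSucc 771, .ofNat 297⟩, ⟨.ofNat 2329, .ofNat 467, .negSucc 19, .negSucc 410, .ofNat 1243, .negSucc 275⟩, ⟨.negSucc 6917, .negSucc 892, .negSucc 172, .negSucc 4, .negSucc 2559, .ofNat 1404⟩, ⟨.ofNat 1629, .ofNat 719, .ofNat 202, .ofNat 1260, .ofNat 1004, .negSucc 1022⟩, .ofNat 1580, .negSucc 2178, .ofNat 0, .negSucc 2178, .ofNat 3890, .ofNat 0, .ofNat 128, .ofNat 374, .negSucc 160, .ofNat 0, .ofNat 242, .negSucc 79, .ofNat 0, .ofNat 0, .ofNat 372, .ofNat 973, .ofNat 0, .ofNat 0, .ofNat 3482205599276753933811708419163605356706267136, .ofNat 0, .ofNat 0, .ofNat 0, .ofNat 309668864451824065470328397722365797988864884736,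 .ofNat 0, .ofNat 0, .ofNat 0, .ofNat 0, .ofNat 0, .ofNat 0, .ofNat 0, .ofNat 0, .ofNat 0⟩)
    (by decide +kernel)
theorem L05941 : Good (Phi V5.P V5.D 1 1) ⟨4, 13, 4, 8, 4, 15, 2, 2, 5, 5⟩ :=
  leafX_sound T5.ok_pp T5.Ypp.bz_eq (w := 247) (c := ⟨⟨.negSucc 3345, .negSucc 455, .ofNat 41, .ofNat 744, .negSucc 1462, .ofNat 299⟩, ⟨.negSucc 1879, .ofNat 16, .negSucc 259, .ofNat 489, .negSucc 797, .ofNat 142⟩, ⟨.ofNat 1821, .ofNat 560, .negSucc 74, .negSucc 399, .ofNat 1113, .negSucc 82⟩, ⟨.negSucc 6440, .negSucc 1081, .negSucc 133, .negSucc 50, .negSucc 2956, .ofNat 1049⟩, ⟨.ofNat 2508, .ofNat 1066, .ofNat 129, .ofNat 1998, .ofNat 1394, .negSucc 1058⟩, .ofNat 1051, .negSucc 1326, .ofNat 0, .negSucc 1326, .ofNat 2508, .ofNat 0, .ofNat 128, .ofNat 390, .negSucc 138, .ofNat 0, .ofNat 266, .negSucc 52, .ofNat 0, .ofNat 0, .ofNat 386, .ofNat 1039, .ofNat 0, .ofNat 0, .ofNat 20422152892084536904419217702164523367333363712,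 .ofNat 0, .ofNat 0, .ofNat 0, .ofNat 208023041731037138898123147441828167736488886272, .ofNat 0, .ofNat 0, .ofNat 0, .ofNat 0, .ofNat 0, .ofNat 0, .ofNat 0, .ofNat 106890916478262100676702955868998439733620113408, .ofNat 0⟩)
    (by decide +kernel)
theorem L05942 : Good (Phi V5.P V5.D 1 1) ⟨4, 13, 4, 9, 4, 15, 2, 2, 5, 5⟩ :=
  leafX_sound T5.ok_pp T5.Ypp.bz_eq (w := 248) (c := ⟨⟨.negSucc 3917, .ofNat 334, .negSucc 181, .ofNat 763, .negSucc 1576, .ofNat 305⟩, ⟨.negSucc 2606, .ofNat 629, .negSucc 458, .ofNat 514, .negSucc 932, .ofNat 157⟩, ⟨.ofNat 1892, .ofNat 371, .negSucc 25, .negSucc 413, .ofNat 1189, .negSucc 100⟩, ⟨.negSucc 7659, .ofNat 501, .negSucc 678, .negSucc 236, .negSucc 3284, .ofNat 1155⟩, ⟨.ofNat 3083, .ofNat 262, .ofNat 449, .ofNat 2192, .ofNat 1647, .negSucc 1172⟩, .ofNat 1212, .negSucc 1538, .ofNat 0, .negSucc 1538, .ofNat 2726, .ofNat 0, .ofNat 128, .ofNat 468, .negSucc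 225, .ofNat 0, .ofNat 323, .negSucc 96, .ofNat 0, .ofNat 0, .ofNat 594, .ofNat 1456, .ofNat 0, .ofNat 0, .ofNat 35549533053832588545161252726910214504664006656, .ofNat 0, .ofNat 0, .ofNat 0, .ofNat 849733394567166438991007977718408812712125530112, .ofNat 0, .ofNat 0, .ofNat 0, .ofNat 1353855041735359605582554566209039419781201002496, .ofNat 0, .ofNat 0, .ofNat 0, .ofNat 261579116305793928585232598921622360667012988928, .ofNat 0⟩)
    (by decide +kernel)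
theorem L05943 : Good (Phi V5.P V5.D 1 1) ⟨5, 28, 4, 8, 2, 3, 2, 2, 5, 5⟩ :=
  out_sound (S := T5.ds_pp) T5.ok_pp (w := 59) (j := 3) (by decide +kernel)
theorem L05944 : Good (Phi V5.P V5.D 1 1) ⟨6, 56, 5, 18, 2, 3, 2, 2, 5, 5⟩ :=
  out_sound (S := T5.ds_pp) T5.ok_pp (w := 67) (j := 3) (by decide +kernel)

end Crest.Agent.R097C5.N5pp
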