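import Crest.Agent.R097.KP7
import Crest.Agent.R097.T5Ypp

/-!
# Row 97, box cover in dimension n = 5 (generated)
-/

set_option autoImplicit false
set_option Elab.async false
set_option maxHeartbeats 0
set_option maxRecDepth 100000

open Crest.Agent.R097 Crest.Agent.R097.KA


namespace Crest.Agent.R097C5.N5pp

theorem L05945 : Good (Phi V5.P V5.D 1 1) ⟨6, 56, 5, 19, 3, 6, 2, 2, 5, 5⟩ :=
  leafX_sound T5.ok_pp T5.Ypp.bz_eq (w := 248) (c := ⟨⟨.negSucc 4836, .negSucc 380, .ofNat 135, .ofNat 294, .negSucc 1355, .ofNat 608⟩, ⟨.negSucc 2982, .negSucc 248, .negSucc 16, .ofNat 205, .negSucc 849, .ofNat 374⟩, ⟨.ofNat 3199, .ofNat 226, .negSucc 36, .negSucc 381, .ofNat 1372, .negSucc 344⟩, ⟨.negSucc 7558, .negSucc 367, .negSucc 17, .negSucc 186, .negSucc 1912, .ofNat 1123⟩, ⟨.ofNat 1021, .negSucc 52, .ofNat 272, .ofNat 961, .negSucc 13, .negSucc 410⟩, .ofNat 7273, .negSucc 10923, .ofNat 0,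 .negSucc 10923, .ofNat 17274, .ofNat 0, .ofNat 128, .ofNat 780, .negSucc 429, .ofNat 0, .ofNat 508, .negSucc 263, .ofNat 0, .ofNat 0, .ofNat 928, .ofNat 1133, .ofNat 0, .ofNat 0, .ofNat 437372282730674252587843343694890256039936, .ofNat 0, .ofNat 0, .ofNat 0, .ofNat 335917300092378530328550134257366607983542272, .ofNat 0, .ofNat 0, .ofNat 0, .ofNat 0, .ofNat 0, .ofNat 0, .ofNat 0, .ofNat 0, .ofNat 0⟩)
    (by decide +kernel)
theorem L05946 : Good (Phi V5.P V5.D 1 1) ⟨6, 56, 5, 19, 3, 7, 2, 2, 5, 5⟩ :=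
  leafX_sound T5.ok_pp T5.Ypp.bz_eq (w := 245) (c := ⟨⟨.negSucc 4441, .negSucc 431, .ofNat 222, .ofNat 1282, .negSucc 1599, .ofNat 441⟩, ⟨.negSucc 2697, .negSucc 190, .negSucc 22, .ofNat 857, .negSucc 995, .ofNat 266⟩, ⟨.ofNat 2778, .ofNat 377, .negSucc 173, .negSucc 895, .ofNat 1321, .negSucc 188⟩, ⟨.negSucc 7448, .negSucc 812, .negSucc 44, .negSucc 396, .negSucc 3284, .ofNat 1376⟩, ⟨.ofNat 1816, .ofNat 500, .ofNat 427, .ofNat 3496, .ofNat 1575, .negSucc 1178⟩, .ofNat 2082, .negSucc 2846, .ofNat 0, .negSucc 2846, .ofNat 4682, .ofNat 0, .ofNat 128, .ofNat 538, .negSucc 294, .ofNat 0, .ofNat 362, .negSucc 160, .ofNat 0, .ofNat 0, .ofNat 714, .ofNat 1411, .ofNat 0, .ofNat 0, .ofNat 661175977445443697745318184759550780899328, .ofNat 0, .ofNat 0, .ofNat 0, .ofNat 45133587894308115389201632196358191422898176, .ofNat 0, .ofNat 0, .ofNat 0, .ofNat 37618159354110649817133351708873487477112832,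 .ofNat 0, .ofNat 0, .ofNat 0, .ofNat 0, .ofNat 0⟩)
    (by decide +kernel)
theorem L05947 : Good (Phi V5.P V5.D 1 1) ⟨6, 57, 4, 9, 2, 3, 2, 2, 5, 5⟩ :=
  out_sound (S := T5.ds_pp) T5.ok_pp (w := 65) (j := 3) (by decide +kernel)
theorem L05948 : Good (Phi V5.P V5.D 1 1) ⟨5, 29, 3, 4, 2, 3, 2, 2, 5, 5⟩ :=
  out_sound (S := T5.ds_pp) T5.ok_pp (w := 57) (j := 3) (by decide +kernel)
theorem L05949 : Good (Phi V5.P V5.D 1 1) ⟨4, 15, 3, 4, 2, 3, 2, 2, 5, 5⟩ :=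
  out_sound (S := T5.ds_pp) T5.ok_pp (w := 51) (j := 3) (by decide +kernel)
theorem L05950 : Good (Phi V5.P V5.D 1 1) ⟨2, 2, 3, 4, 2, 3, 2, 2, 4, 3⟩ :=
  out_sound (S := T5.ds_pp) T5.ok_pp (w := 39) (j := 3) (by decide +kernel)
theorem L05951 : Good (Phi V5.P V5.D 1 1) ⟨4, 12, 3, 4, 2, 3, 2, 2, 4, 3⟩ :=
  out_sound (S := T5.ds_pp) T5.ok_pp (w := 51) (j := 3) (by decide +kernel)
theorem L05952 : Good (Phi V5.P V5.D 1 1) ⟨4, 13, 3, 4, 3, 6, 2, 2, 4, 3⟩ :=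
  leafX_sound T5.ok_pp T5.Ypp.bz_eq (w := 224) (c := ⟨⟨.negSucc 3893, .negSucc 322, .negSucc 0, .ofNat 272, .negSucc 926, .ofNat 724⟩, ⟨.negSucc 2080, .negSucc 315, .negSucc 265, .ofNat 179, .negSucc 556, .ofNat 400⟩, ⟨.ofNat 2622, .ofNat 146, .ofNat 128, .negSucc 315, .ofNat 988, .negSucc 442⟩, ⟨.negSucc 6298, .ofNat 48, .negSucc 215, .negSucc 97, .negSucc 1339, .ofNat 1577⟩, ⟨.ofNat 587, .negSucc 242, .ofNat 332, .ofNat 841, .negSucc 41, .negSucc 894⟩, .ofNat 750, .negSucc 829, .ofNat 0, .negSucc 829, .ofNat 1627, .ofNat 0, .ofNat 128, .ofNat 282, .negSucc 143, .ofNat 0, .ofNat 205, .negSucc 55, .ofNat 0, .ofNat 0, .ofNat 536, .ofNat 795, .ofNat 0, .ofNat 0, .ofNat 3436462703809180939954253007635047514112, .ofNat 0, .ofNat 0, .ofNat 0, .ofNat 137954228263961803186583430635168127254528, .ofNat 0, .ofNat 0, .ofNat 0, .ofNat 0, .ofNat 0, .ofNat 0, .ofNat 0, .ofNat 0, .ofNat 0⟩)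
    (by decide +kernel)
theorem L05953 : Good (Phi V5.P V5.D 1 1) ⟨4, 13, 4, 8, 3, 7, 2, 2, 4, 3⟩ :=
  leafX_sound T5.ok_pp T5.Ypp.bz_eq (w := 227) (c := ⟨⟨.negSucc 3467, .negSucc 324, .ofNat 21, .ofNat 724, .negSucc 997, .ofNat 511⟩, ⟨.negSucc 1912, .negSucc 113, .negSucc 183, .ofNat 499, .negSucc 560, .ofNat 254⟩, ⟨.ofNat 2124, .ofNat 224, .ofNat 26, .negSucc 382, .ofNat 848, .negSucc 181⟩, ⟨.negSucc 6107, .ofNat 111, .negSucc 226, .negSucc 574, .negSucc 1826, .ofNat 1608⟩, ⟨.ofNat 1516, .negSucc 574, .ofNat 335, .ofNat 2848, .ofNat 621, .negSucc 1481⟩, .ofNat 776, .negSucc 895, .ofNat 0, .negSucc 895, .ofNat 1809, .ofNat 0, .ofNat 128, .ofNat 228, .negSucc 68, .ofNat 0, .ofNat 167, .negSucc 14, .ofNat 0, .ofNat 0, .ofNat 405, .ofNat 645, .ofNat 0, .ofNat 0, .ofNat 15170463867106297265165452446754469314560, .ofNat 0, .ofNat 0, .ofNat 0, .ofNat 387756854270527143916326116242491994800128,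 .ofNat 0, .ofNat 0, .ofNat 0, .ofNat 290850795390498583023719051736374612852736, .ofNat 0, .ofNat 0, .ofNat 7381627182915625980257603930726047159678926848, .ofNat 38148263930603879165965401656394029989888, .ofNat 0⟩)
    (by decide +kernel)
theorem L05954 : Good (Phi V5.P V5.D 1 1) ⟨4, 13, 4, 9, 3, 7, 2, 2, 4, 3⟩ :=
  leafX_sound T5.ok_pp T5.Ypp.bz_eq (w := 227) (c := ⟨⟨.negSucc 3653, .negSucc 39, .negSucc 85, .ofNat 773, .negSucc 1068, .ofNat 475⟩, ⟨.negSucc 2222, .ofNat 57, .negSucc 244, .ofNat 538, .negSucc 644, .ofNat 259⟩, ⟨.ofNat 2039, .ofNat 327, .ofNat 46, .negSucc 375, .ofNat 896, .negSucc 190⟩, ⟨.negSucc 6067, .negSucc 150, .negSucc 264, .negSucc 735, .negSucc 1832, .ofNat 1702⟩, ⟨.ofNat 984, .ofNat 525, .ofNat 145, .ofNat 3039, .ofNat 473, .negSucc 1661⟩, .ofNat 1210, .negSucc 1535, .ofNat 0, .negSucc 1535, .ofNat 2719, .ofNat 0, .ofNat 128, .ofNat 300, .negSucc 73, .ofNat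 0, .ofNat 215, .negSucc 23, .ofNat 0, .ofNat 0, .ofNat 479, .ofNat 833, .ofNat 0, .ofNat 0, .ofNat 22415717365497865349851861279272561803264, .ofNat 0, .ofNat 0, .ofNat 0, .ofNat 1352975592827706960013622085960449025638400, .ofNat 0, .ofNat 0, .ofNat 0, .ofNat 1485874918181683882175225274991190057418752, .ofNat 0, .ofNat 0, .ofNat 10879944545473506274500207156963623723220336640, .ofNat 641950742433003835358633056623975525777408, .ofNat 0⟩)
    (by decide +kernel)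
theorem L05955 : Good (Phi V5.P V5.D 1 1) ⟨5, 28, 4, 8, 2, 3, 2, 2, 4, 3⟩ :=
  out_sound (S := T5.ds_pp) T5.ok_pp (w := 59) (j := 3) (by decide +kernel)
theorem L05956 : Good (Phi V5.P V5.D 1 1) ⟨6, 56, 5, 18, 2, 3, 2, 2, 4, 3⟩ :=
  out_sound (S := T5.ds_pp) T5.ok_pp (w := 67) (j := 3) (by decide +kernel)
theorem L05957 : Good (Phi V5.P V5.D 1 1) ⟨6, 56, 5, 19, 3, 6, 2, 2, 4, 3⟩ :=
  leafX_sound T5.ok_pp T5.Ypp.bz_eq (w := 241) (c := ⟨⟨.negSucc 4320, .negSucc 329, .ofNat 141, .ofNat 278, .negSucc 919, .ofNat 810⟩, ⟨.negSucc 2679, .negSucc 254, .ofNat 29, .ofNat 187, .negSucc 581, .ofNat 502⟩, ⟨.ofNat 2948, .ofNat 202, .negSucc 56, .negSucc 333, .ofNat 998, .negSucc 539⟩, ⟨.negSucc 6459, .negSucc 257, .ofNat 90, .negSucc 100, .negSucc 1360, .ofNat 1655⟩, ⟨.ofNat 442, .negSucc 148, .ofNat 150, .ofNat 786, .ofNat 76, .negSucc 793⟩, .ofNat 4010, .negSucc 5841, .ofNat 0, .negSucc 5841,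 .ofNat 9348, .ofNat 0, .ofNat 128, .ofNat 588, .negSucc 203, .ofNat 0, .ofNat 390, .negSucc 120, .ofNat 0, .ofNat 0, .ofNat 878, .ofNat 2535, .ofNat 0, .ofNat 0, .ofNat 6201884110241919512846338271816240332800, .ofNat 0, .ofNat 0, .ofNat 0, .ofNat 5708071427119903766143827419104399341912064, .ofNat 0, .ofNat 0, .ofNat 0, .ofNat 2604332228945243309007511987133816999247872, .ofNat 0, .ofNat 0, .ofNat 62864138685147745763294238023621232404421639405568, .ofNat 3007980890379148289486250615733247197315072, .ofNat 0⟩)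
    (by decide +kernel)
theorem L05958 : Good (Phi V5.P V5.D 1 1) ⟨6, 56, 5, 19, 3, 7, 2, 2, 4, 3⟩ :=
  leafX_sound T5.ok_pp T5.Ypp.bz_eq (w := 239) (c := ⟨⟨.negSucc 3792, .ofNat 47, .negSucc 54, .ofNat 791, .negSucc 1147, .ofNat 584⟩, ⟨.negSucc 2321, .ofNat 65, .negSucc 141, .ofNat 542, .negSucc 718, .ofNat 352⟩, ⟨.ofNat 2421, .ofNat 236, .negSucc 115, .negSucc 380, .ofNat 916, .negSucc 245⟩, ⟨.negSucc 6261, .negSucc 51, .negSucc 240, .negSucc 826, .negSucc 2100, .ofNat 1859⟩, ⟨.ofNat 1363, .ofNat 328, .ofNat 174, .ofNat 3081, .ofNat 726, .negSucc 1606⟩, .ofNat 1331, .negSucc 1688, .ofNat 0, .negSucc 1688, .ofNat 2872, .ofNat 0, .ofNat 128, .ofNat 300, .negSucc 91, .ofNat 0, .ofNat 216, .negSucc 33, .ofNat 0, .ofNat 0, .ofNat 601, .ofNat 991, .ofNat 0, .ofNat 0, .ofNat 9438437825443455479559343246506599645184, .ofNat 0, .ofNat 0, .ofNat 0, .ofNat 779681763230085696618365028666006124363776,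 .ofNat 0, .ofNat 0, .ofNat 0, .ofNat 397353170187436603251115350076274941886464, .ofNat 0, .ofNat 0, .ofNat 32137570370732685654916431979213069539582167482368, .ofNat 1039154095232206591999560052011438497071104, .ofNat 0⟩)
    (by decide +kernel)
theorem L05959 : Good (Phi V5.P V5.D 1 1) ⟨6, 57, 4, 9, 2, 3, 2, 2, 4, 3⟩ :=
  out_sound (S := T5.ds_pp) T5.ok_pp (w := 65) (j := 3) (by decide +kernel)
theorem L05960 : Good (Phi V5.P V5.D 1 1) ⟨5, 29, 3, 4, 2, 3, 2, 2, 4, 3⟩ :=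
  out_sound (S := T5.ds_pp) T5.ok_pp (w := 57) (j := 3) (by decide +kernel)
theorem L05961 : Good (Phi V5.P V5.D 1 1) ⟨4, 15, 3, 4, 2, 3, 2, 2, 4, 3⟩ :=
  out_sound (S := T5.ds_pp) T5.ok_pp (w := 51) (j := 3) (by decide +kernel)
theorem L05962 : Good (Phi V5.P V5.D 1 1) ⟨2, 2, 3, 5, 2, 3, 2, 2, 3, 0⟩ :=
  out_sound (S := T5.ds_pp) T5.ok_pp (w := 39) (j := 3) (by decide +kernel)
theorem L05963 : Good (Phi V5.P V5.D 1 1) ⟨3, 6, 4, 10, 2, 3, 2, 2, 4, 0⟩ :=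
  out_sound (S := T5.ds_pp) T5.ok_pp (w := 47) (j := 3) (by decide +kernel)
theorem L05964 : Good (Phi V5.P V5.D 1 1) ⟨3, 7, 4, 10, 3, 6, 2, 2, 5, 0⟩ :=
  leafX_sound T5.ok_pp T5.Ypp.bz_eq (w := 231) (c := ⟨⟨.ofNat 6168, .negSucc 77, .ofNat 524, .negSucc 4042, .negSucc 4711, .negSucc 6110⟩, ⟨.ofNat 4092, .negSucc 164, .ofNat 234, .negSucc 2625, .negSucc 3079, .negSucc 3982⟩, ⟨.negSucc 3715, .ofNat 360, .negSucc 279, .ofNat 2225, .ofNat 3317, .ofNat 3404⟩, ⟨.ofNat 8812, .negSucc 502, .ofNat 383, .negSucc 7976, .negSucc 9201, .negSucc 8942⟩, ⟨.ofNat 0, .negSucc 759, .ofNat 564, .ofNat 3331, .ofNat 3794, .ofNat 635⟩, .ofNat 1553, .negSucc 1746, .ofNat 0, .negSucc 1746, .ofNat 2519, .ofNat 0, .ofNat 128, .ofNat 534, .negSucc 1369, .ofNat 0, .ofNat 404, .negSucc 880, .ofNat 0, .ofNat 0, .ofNat 861, .ofNat 198, .ofNat 0, .ofNat 0, .ofNat 666689651049640641745585812306036120354816, .ofNat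 4755735193018510348070657147948484134334288101376, .ofNat 0, .ofNat 0, .ofNat 17029540011082524893053716603233056210288640, .ofNat 274379378158628550529340910880279299046987649777664, .ofNat 0, .ofNat 0, .ofNat 16826863512209499741592389537763124179894272, .ofNat 0, .ofNat 0, .ofNat 0, .ofNat 10682726153106790614985259455971507063226368, .ofNat 368627365502252156509363463768695133851162347831296⟩)
    (by decide +kernel)
theorem L05965 : Good (Phi V5.P V5.D 1 1) ⟨3, 7, 4, 10, 3, 6, 2, 2, 5, 1⟩ :=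
  leafX_sound T5.ok_pp T5.Ypp.bz_eq (w := 229) (c := ⟨⟨.negSucc 1142, .ofNat 592, .negSucc 77, .negSucc 1445, .negSucc 4209, .negSucc 2519⟩, ⟨.negSucc 660, .ofNat 610, .negSucc 351, .negSucc 941, .negSucc 2725, .negSucc 1634⟩, ⟨.ofNat 390, .ofNat 614, .negSucc 3, .ofNat 586, .ofNat 3198, .ofNat 1636⟩, ⟨.negSucc 1842, .ofNat 411, .negSucc 427, .negSucc 4621, .negSucc 8439, .negSucc 3744⟩, ⟨.ofNat 371, .ofNat 710, .ofNat 420, .ofNat 3929, .ofNat 3808, .ofNat 303⟩, .ofNat 1538, .negSucc 1727, .ofNat 0, .negSucc 1727, .ofNat 2493, .ofNat 0, .ofNat 128, .ofNat 345, .negSucc 625, .ofNat 0, .ofNat 261, .negSucc 392, .ofNat 0, .ofNat 0, .ofNat 453, .ofNat 136, .ofNat 0, .ofNat 0, .ofNat 1579911016212447508622585646669801002631168, .ofNat 9035413829335115118851714783623863989047167811584, .ofNat 0, .ofNat 0, .ofNat 10822157027888427981885034607911716429758464, .ofNat 104476077177479097926231055720646724488642846261248,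 .ofNat 0, .ofNat 0, .ofNat 3214889980805261684431112380055879306706944, .ofNat 3777344904422710727451683539897105695252785659904, .ofNat 0, .ofNat 0, .ofNat 14567389515316942906536757473216925804789760, .ofNat 68633797857100108901123294663022473265566355292160⟩)
    (by decide +kernel)
theorem L05966 : Good (Phi V5.P V5.D 1 1) ⟨6, 56, 5, 20, 4, 14, 3, 4, 4, 0⟩ :=
  leafX_sound T5.ok_pp T5.Ypp.bz_eq (w := 264) (c := ⟨⟨.negSucc 1677, .negSucc 917, .ofNat 555, .ofNat 887, .negSucc 2381, .negSucc 2408⟩, ⟨.negSucc 1041, .negSucc 448, .ofNat 150, .ofNat 573, .negSucc 1542, .negSucc 1572⟩, ⟨.ofNat 651, .ofNat 470, .negSucc 301, .negSucc 610, .ofNat 1507, .ofNat 1478⟩, ⟨.negSucc 4773, .negSucc 1013, .ofNat 337, .negSucc 432, .negSucc 5101, .negSucc 3483⟩, ⟨.ofNat 3591, .negSucc 69, .ofNat 375, .ofNat 2576, .ofNat 2667, .ofNat 121⟩, .ofNat 5378, .negSucc 7808, .ofNat 0, .negSucc 7808, .ofNat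 12145, .ofNat 0, .ofNat 128, .ofNat 1323, .negSucc 3303, .ofNat 0, .ofNat 867, .negSucc 2101, .ofNat 0, .ofNat 0, .ofNat 2382, .ofNat 728, .ofNat 0, .ofNat 0, .ofNat 0, .ofNat 0, .ofNat 0, .ofNat 0, .ofNat 780869865617676481518910423720552413592773722112, .ofNat 0, .ofNat 0, .ofNat 0, .ofNat 0, .ofNat 0, .ofNat 0, .ofNat 0, .ofNat 0, .ofNat 0⟩)
    (by decide +kernel)
theorem L05967 : Good (Phi V5.P V5.D 1 1) ⟨6, 57, 5, 20, 4, 14, 3, 4, 4, 0⟩ :=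
  leafX_sound T5.ok_pp T5.Ypp.bz_eq (w := 276) (c := ⟨⟨.negSucc 1740, .ofNat 2, .ofNat 42, .ofNat 536, .negSucc 2413, .negSucc 2620⟩, ⟨.negSucc 1110, .ofNat 1, .ofNat 4, .ofNat 362, .negSucc 1585, .negSucc 1733⟩, ⟨.ofNat 611, .negSucc 0, .ofNat 73, .negSucc 436, .ofNat 1493, .ofNat 1591⟩, ⟨.negSucc 7474, .ofNat 5, .negSucc 3, .ofNat 375, .negSucc 2693, .negSucc 2774⟩, ⟨.ofNat 7668, .negSucc 2, .ofNat 4, .ofNat 574, .negSucc 1032, .negSucc 1358⟩, .ofNat 26817, .negSucc 40015, .ofNat 0, .negSucc 40015, .ofNat 60524, .ofNat 0, .ofNat 128, .ofNat 15644, .negSucc 36433, .ofNat 0, .ofNat 10377, .negSucc 23961, .ofNat 0, .ofNat 0, .ofNat 26400, .ofNat 21531, .ofNat 0, .ofNat 0, .ofNat 0, .ofNat 0, .ofNat 0, .ofNat 0, .ofNat 7312709923357479328270806205481196939218572156076032, .ofNat 0, .ofNat 0, .ofNat 0, .ofNat 35786590728167373574733181595896559578494676238336, .ofNat 0, .ofNat 0, .ofNat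 0, .ofNat 59355540808845810500201497240952205347300218765312, .ofNat 0⟩)
    (by decide +kernel)
theorem L05968 : Good (Phi V5.P V5.D 1 1) ⟨7, 112, 5, 20, 4, 15, 3, 4, 5, 0⟩ :=
  leafX_sound T5.ok_pp T5.Ypp.bz_eq (w := 276) (c := ⟨⟨.negSucc 1860, .negSucc 75, .ofNat 672, .ofNat 4436, .negSucc 2522, .negSucc 1082⟩, ⟨.negSucc 1196, .ofNat 33, .ofNat 292, .ofNat 2840, .negSucc 1599, .negSucc 700⟩, ⟨.ofNat 766, .ofNat 129, .negSucc 597, .negSucc 2258, .ofNat 1276, .ofNat 411⟩, ⟨.negSucc 6143, .negSucc 147, .ofNat 555, .ofNat 5811, .negSucc 4470, .negSucc 1109⟩, ⟨.ofNat 5500, .ofNat 36, .ofNat 412, .ofNat 756, .ofNat 1369, .negSucc 664⟩, .ofNat 12754, .negSucc 19452, .ofNat 0, .negSucc 19452, .ofNat 30530, .ofNat 0, .ofNat 128, .ofNat 1399, .negSucc 3025, .ofNat 0, .ofNat 899, .negSucc 1926, .ofNat 0, .ofNat 0, .ofNat 1989, .ofNat 1923, .ofNat 0, .ofNat 0, .ofNat 0, .ofNat 0, .ofNat 0,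 .ofNat 0, .ofNat 107123203222298710475901024626559880959737538281472, .ofNat 0, .ofNat 0, .ofNat 0, .ofNat 0, .ofNat 0, .ofNat 0, .ofNat 0, .ofNat 24775274350640308390227671853053220396828060549120, .ofNat 0⟩)
    (by decide +kernel)
theorem L05969 : Good (Phi V5.P V5.D 1 1) ⟨7, 113, 6, 40, 4, 15, 3, 4, 5, 0⟩ :=
  leafX_sound T5.ok_pp T5.Ypp.bz_eq (w := 278) (c := ⟨⟨.negSucc 2007, .negSucc 652, .ofNat 654, .ofNat 4494, .negSucc 2800, .negSucc 1146⟩, ⟨.negSucc 1202, .negSucc 296, .ofNat 338, .ofNat 2880, .negSucc 1793, .negSucc 750⟩, ⟨.ofNat 963, .ofNat 313, .negSucc 345, .negSucc 2331, .ofNat 1386, .ofNat 452⟩, ⟨.negSucc 7127, .negSucc 652, .ofNat 800, .ofNat 7118, .negSucc 5862, .negSucc 909⟩, ⟨.ofNat 6714, .negSucc 387, .ofNat 74, .negSucc 1199, .ofNat 2930, .negSucc 1102⟩, .ofNat 7397, .negSucc 10876, .ofNat 0, .negSucc 10876, .ofNat 16813, .ofNat 0, .ofNat 128, .ofNat 1626, .negSucc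 4228, .ofNat 0, .ofNat 1067, .negSucc 2669, .ofNat 0, .ofNat 0, .ofNat 2809, .ofNat 2860, .ofNat 0, .ofNat 0, .ofNat 274747445180471184724769877262739773079542562816, .ofNat 0, .ofNat 0, .ofNat 0, .ofNat 66275713361703787705108321508783245603325006053376, .ofNat 0, .ofNat 0, .ofNat 0, .ofNat 4482869578489503029729582431195730999970986196992, .ofNat 0, .ofNat 0, .ofNat 0, .ofNat 57376684255368704484325106454934951505312197115904, .ofNat 0⟩)
    (by decide +kernel)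
theorem L05970 : Good (Phi V5.P V5.D 1 1) ⟨7, 113, 6, 41, 4, 15, 3, 4, 6, 0⟩ :=
  leafX_sound T5.ok_pp T5.Ypp.bz_eq (w := 283) (c := ⟨⟨.negSucc 1900, .ofNat 44, .negSucc 15, .ofNat 4944, .negSucc 3197, .negSucc 738⟩, ⟨.negSucc 1257, .ofNat 147, .negSucc 111, .ofNat 3239, .negSucc 2083, .negSucc 468⟩, ⟨.ofNat 810, .ofNat 68, .negSucc 100, .negSucc 2521, .ofNat 1573, .ofNat 294⟩, ⟨.negSucc 7546, .negSucc 194, .negSucc 375, .ofNat 8697, .negSucc 6801, .negSucc 180⟩, ⟨.ofNat 7494, .ofNat 328, .ofNat 454, .negSucc 2627, .ofNat 3484, .negSucc 1297⟩, .ofNat 5794, .negSucc 8405, .ofNat 0, .negSucc 8405, .ofNat 12994, .ofNat 0, .ofNat 128, .ofNat 1582, .negSucc 5854, .ofNat 0, .ofNat 1043, .negSucc 3744, .ofNat 0, .ofNat 0, .ofNat 3637, .ofNat 3326, .ofNat 0, .ofNat 0, .ofNat 15417413666575643972077256316033845464161199325184, .ofNat 0, .ofNat 0, .ofNat 0, .ofNat 1535926528720301209678729184146146547045610901471232,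 .ofNat 0, .ofNat 0, .ofNat 0, .ofNat 1115096730836239143179704729334343201797372144254976, .ofNat 0, .ofNat 0, .ofNat 0, .ofNat 961216666898997466349037106970773871835456827555840, .ofNat 0⟩)
    (by decide +kernel)
theorem L05971 : Good (Phi V5.P V5.D 1 1) ⟨7, 113, 6, 41, 4, 15, 3, 4, 6, 1⟩ :=
  leafX_sound T5.ok_pp T5.Ypp.bz_eq (w := 281) (c := ⟨⟨.negSucc 2532, .negSucc 106, .ofNat 228, .ofNat 4460, .negSucc 2412, .negSucc 473⟩, ⟨.negSucc 1647, .ofNat 19, .ofNat 61, .ofNat 2917, .negSucc 1566, .negSucc 310⟩, ⟨.ofNat 1001, .ofNat 254, .negSucc 253, .negSucc 2371, .ofNat 1283, .ofNat 228⟩, ⟨.negSucc 8123, .negSucc 222, .ofNat 113, .ofNat 7731, .negSucc 5184, .negSucc 173⟩, ⟨.ofNat 6974, .ofNat 131, .ofNat 205, .negSucc 2205, .ofNat 2721, .negSucc 743⟩, .ofNat 5777, .negSucc 8379, .ofNat 0, .negSucc 8379, .ofNat 12954, .ofNat 0, .ofNat 128, .ofNat 928, .negSucc 2886, .ofNat 0, .ofNat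 611, .negSucc 1839, .ofNat 0, .ofNat 0, .ofNat 1968, .ofNat 2906, .ofNat 0, .ofNat 0, .ofNat 8739623871002456512470100326781875828476872753152, .ofNat 0, .ofNat 0, .ofNat 0, .ofNat 0, .ofNat 0, .ofNat 0, .ofNat 0, .ofNat 730455689422714291619530864444611393623560432910336, .ofNat 0, .ofNat 0, .ofNat 0, .ofNat 0, .ofNat 0⟩)
    (by decide +kernel)
theorem L05972 : Good (Phi V5.P V5.D 1 1) ⟨6, 56, 6, 40, 4, 15, 3, 4, 5, 1⟩ :=
  leafX_sound T5.ok_pp T5.Ypp.bz_eq (w := 271) (c := ⟨⟨.negSucc 2481, .negSucc 585, .ofNat 190, .ofNat 3994, .negSucc 2149, .negSucc 1345⟩, ⟨.negSucc 1618, .negSucc 184, .ofNat 27, .ofNat 2564, .negSucc 1356, .negSucc 861⟩, ⟨.ofNat 928, .ofNat 595, .negSucc 205, .negSucc 2225, .ofNat 1258, .ofNat 823⟩, ⟨.negSucc 7389, .negSucc 672, .ofNat 20, .ofNat 6626, .negSucc 4833, .negSucc 2135⟩, ⟨.ofNat 6009, .negSucc 180, .ofNat 279, .negSucc 1502, .ofNat 2772, .ofNat 362⟩,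 .ofNat 4812, .negSucc 6995, .ofNat 0, .negSucc 6995, .ofNat 10986, .ofNat 0, .ofNat 128, .ofNat 1020, .negSucc 2358, .ofNat 0, .ofNat 664, .negSucc 1467, .ofNat 0, .ofNat 0, .ofNat 1819, .ofNat 3793, .ofNat 0, .ofNat 0, .ofNat 656546852481525942517927325447366240825199558656, .ofNat 0, .ofNat 0, .ofNat 0, .ofNat 44855328695043088508451324922832285872991860948992, .ofNat 0, .ofNat 0, .ofNat 0, .ofNat 40714368299406189023843423054866324969475046113280, .ofNat 0, .ofNat 0, .ofNat 0, .ofNat 0, .ofNat 0⟩)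
    (by decide +kernel)
theorem L05973 : Good (Phi V5.P V5.D 1 1) ⟨6, 56, 6, 41, 4, 15, 3, 4, 5, 1⟩ :=
  leafX_sound T5.ok_pp T5.Ypp.bz_eq (w := 270) (c := ⟨⟨.negSucc 2965, .ofNat 395, .negSucc 31, .ofNat 3929, .negSucc 2191, .negSucc 1329⟩, ⟨.negSucc 1894, .ofNat 245, .negSucc 52, .ofNat 2580, .negSucc 1424, .negSucc 864⟩, ⟨.ofNat 817, .ofNat 529, .negSucc 218, .negSucc 2207, .ofNat 1259, .ofNat 768⟩, ⟨.negSucc 8068, .ofNat 258, .negSucc 56, .ofNat 6810, .negSucc 5166, .negSucc 2031⟩, ⟨.ofNat 6171, .ofNat 163, .ofNat 11, .negSucc 1927, .ofNat 3162, .ofNat 244⟩, .ofNat 3901, .negSucc 5536, .ofNat 0, .negSucc 5536, .ofNat 8641, .ofNat 0, .ofNat 128, .ofNat 1050, .negSucc 2279, .ofNat 0, .ofNat 690, .negSucc 1427, .ofNat 0, .ofNat 0, .ofNat 1716, .ofNat 2505, .ofNat 0, .ofNat 0, .ofNat 739899106354724467784365328110494591361463877632, .ofNat 0, .ofNat 0, .ofNat 0, .ofNat 96341963790960974573392420552007116423926514712576,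 .ofNat 0, .ofNat 0, .ofNat 0, .ofNat 54611564924572876400384321819658481061512741912576, .ofNat 0, .ofNat 0, .ofNat 0, .ofNat 0, .ofNat 0⟩)
    (by decide +kernel)
theorem L05974 : Good (Phi V5.P V5.D 1 1) ⟨6, 57, 5, 20, 5, 30, 3, 4, 4, 0⟩ :=
  leafX_sound T5.ok_pp T5.Ypp.bz_eq (w := 290) (c := ⟨⟨.negSucc 2253, .ofNat 2, .ofNat 84, .ofNat 1587, .negSucc 2645, .negSucc 1198⟩, ⟨.negSucc 1341, .ofNat 1, .negSucc 66, .ofNat 1049, .negSucc 1737, .negSucc 796⟩, ⟨.ofNat 808, .negSucc 0, .ofNat 7, .negSucc 919, .ofNat 1534, .ofNat 797⟩, ⟨.negSucc 8460, .ofNat 5, .negSucc 1, .ofNat 1618, .negSucc 2926, .negSucc 1100⟩, ⟨.ofNat 8168, .negSucc 3, .ofNat 5, .ofNat 912, .negSucc 1167, .negSucc 874⟩, .ofNat 28769, .negSucc 42955, .ofNat 0, .negSucc 42955, .ofNat 64952, .ofNat 0, .ofNat 128, .ofNat 18476, .negSucc 32977, .ofNat 0, .ofNat 12256, .negSucc 21657, .ofNat 0, .ofNat 0, .ofNat 23554, .ofNat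 33373, .ofNat 0, .ofNat 0, .ofNat 1173779400673440805321777384135186553517956449435648, .ofNat 0, .ofNat 0, .ofNat 0, .ofNat 109687824851830795994958892616605872429799683102332682240, .ofNat 0, .ofNat 0, .ofNat 0, .ofNat 56675883414684671742584126447331557952184120714087890944, .ofNat 0, .ofNat 0, .ofNat 0, .ofNat 126335798876222828612346137055705495866574047375003746304, .ofNat 0⟩)
    (by decide +kernel)
theorem L05975 : Good (Phi V5.P V5.D 1 1) ⟨6, 57, 5, 20, 5, 31, 3, 4, 4, 0⟩ :=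
  leafX_sound T5.ok_pp T5.Ypp.bz_eq (w := 285) (c := ⟨⟨.ofNat 130, .ofNat 1, .ofNat 22, .ofNat 2558, .negSucc 2379, .negSucc 2483⟩, ⟨.ofNat 515, .ofNat 0, .negSucc 392, .ofNat 1685, .negSucc 1562, .negSucc 1639⟩, ⟨.ofNat 57, .ofNat 0, .negSucc 385, .negSucc 1375, .ofNat 1300, .ofNat 1296⟩, ⟨.negSucc 3838, .ofNat 3, .negSucc 8, .ofNat 4254, .negSucc 5153, .negSucc 3235⟩, ⟨.ofNat 6138, .negSucc 2, .negSucc 0, .negSucc 997, .ofNat 2730, .negSucc 378⟩, .ofNat 9798, .negSucc 14383, .ofNat 0, .negSucc 14383, .ofNat 21914, .ofNat 0, .ofNat 128, .ofNat 11002, .negSucc 19988, .ofNat 0, .ofNat 7300, .negSucc 12973, .ofNat 0, .ofNat 0, .ofNat 14592, .ofNat 17698, .ofNat 0, .ofNat 0, .ofNat 45904901244889329456827250353470956554194619031617536, .ofNat 0, .ofNat 0, .ofNat 0, .ofNat 32332104729928170708981429848185685161710501072098820096, .ofNat 0, .ofNat 0, .ofNat 0, .ofNat 19152793642109919324912087605829079708601531434037936128,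 .ofNat 0, .ofNat 0, .ofNat 0, .ofNat 22271598156089397327812032210997515735016882765744308224, .ofNat 0⟩)
    (by decide +kernel)
theorem L05976 : Good (Phi V5.P V5.D 1 1) ⟨5, 29, 5, 20, 3, 7, 3, 4, 4, 0⟩ :=
  out_sound (S := T5.ds_pp) T5.ok_pp (w := 61) (j := 3) (by decide +kernel)
theorem L05977 : Good (Phi V5.P V5.D 1 1) ⟨6, 56, 5, 21, 4, 14, 3, 4, 4, 0⟩ :=
  leafX_sound T5.ok_pp T5.Ypp.bz_eq (w := 267) (c := ⟨⟨.negSucc 1733, .negSucc 1, .negSucc 301, .ofNat 914, .negSucc 2488, .negSucc 2797⟩, ⟨.negSucc 1116, .negSucc 0, .negSucc 307, .ofNat 589, .negSucc 1647, .negSucc 1845⟩, ⟨.ofNat 663, .ofNat 1, .negSucc 779, .negSucc 683, .ofNat 1577, .ofNat 1740⟩, ⟨.negSucc 4943, .negSucc 4, .ofNat 33, .negSucc 651, .negSucc 5709, .negSucc 3690⟩, ⟨.ofNat 3822, .ofNat 3, .negSucc 226, .ofNat 2871, .ofNat 3312, .negSucc 360⟩, .ofNat 4203, .negSucc 5960, .ofNat 0, .negSucc 5960, .ofNat 9224,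 .ofNat 0, .ofNat 128, .ofNat 4574, .negSucc 11829, .ofNat 0, .ofNat 3026, .negSucc 7571, .ofNat 0, .ofNat 0, .ofNat 8324, .ofNat 1651, .ofNat 0, .ofNat 0, .ofNat 0, .ofNat 0, .ofNat 0, .ofNat 0, .ofNat 3358153124046179070321044104158874941438000365568, .ofNat 0, .ofNat 0, .ofNat 0, .ofNat 29638835223349526133490907348463281068212800716800, .ofNat 0, .ofNat 0, .ofNat 0, .ofNat 55158917157571630580994659235473385650083193683968, .ofNat 0⟩)
    (by decide +kernel)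
theorem L05978 : Good (Phi V5.P V5.D 1 1) ⟨6, 57, 5, 21, 4, 14, 3, 4, 4, 0⟩ :=
  leafX_sound T5.ok_pp T5.Ypp.bz_eq (w := 268) (c := ⟨⟨.negSucc 1945, .negSucc 69, .negSucc 56, .ofNat 726, .negSucc 2298, .negSucc 2472⟩, ⟨.negSucc 1266, .ofNat 125, .negSucc 259, .ofNat 490, .negSucc 1513, .negSucc 1641⟩, ⟨.ofNat 780, .negSucc 575, .ofNat 299, .negSucc 565, .ofNat 1469, .ofNat 1548⟩, ⟨.negSucc 6707, .negSucc 21, .negSucc 93, .ofNat 89, .negSucc 3814, .negSucc 3047⟩, ⟨.ofNat 5980, .negSucc 53, .negSucc 123, .ofNat 1395, .ofNat 910, .negSucc 622⟩, .ofNat 10725, .negSucc 15449, .ofNat 0, .negSucc 15449, .ofNat 23019, .ofNat 0, .ofNat 128, .ofNat 2884, .negSucc 5505, .ofNat 0, .ofNat 1951, .negSucc 3662, .ofNat 0, .ofNat 0, .ofNat 3908, .ofNat 732, .ofNat 0, .ofNat 0, .ofNat 6800994933482591371611949331453219633828462592, .ofNat 0, .ofNat 0, .ofNat 0, .ofNat 6770525547034897632889522020962275438020670783488,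 .ofNat 0, .ofNat 0, .ofNat 0, .ofNat 3151127695527730150258259593731566730792224686080, .ofNat 0, .ofNat 0, .ofNat 0, .ofNat 2656313407908019011258857270874600458715352006656, .ofNat 121142943850279353346579005971947784596557831288534134161408⟩)
    (by decide +kernel)
theorem L05979 : Good (Phi V5.P V5.D 1 1) ⟨6, 56, 6, 42, 4, 15, 3, 4, 6, 0⟩ :=
  leafX_sound T5.ok_pp T5.Ypp.bz_eq (w := 285) (c := ⟨⟨.negSucc 2192, .negSucc 0, .negSucc 109, .ofNat 5518, .negSucc 3675, .negSucc 450⟩, ⟨.negSucc 1417, .negSucc 0, .negSucc 168, .ofNat 3632, .negSucc 2413, .negSucc 301⟩, ⟨.ofNat 999, .ofNat 0, .negSucc 512, .negSucc 2853, .ofNat 1815, .ofNat 145⟩, ⟨.negSucc 6907, .negSucc 2, .ofNat 15, .ofNat 7418, .negSucc 6186, .negSucc 595⟩, ⟨.ofNat 5823, .ofNat 3, .negSucc 85, .ofNat 457, .ofNat 1547, .negSucc 72⟩, .ofNat 14617, .negSucc 21640, .ofNat 0, .negSucc 21640, .ofNat 32846, .ofNat 0, .ofNat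 128, .ofNat 6594, .negSucc 15802, .ofNat 0, .ofNat 4376, .negSucc 10349, .ofNat 0, .ofNat 0, .ofNat 9857, .ofNat 5499, .ofNat 0, .ofNat 0, .ofNat 76817691377447940935936299721993232295920387751936, .ofNat 0, .ofNat 0, .ofNat 0, .ofNat 14019836578712320920608175122513867449454942926929920, .ofNat 0, .ofNat 0, .ofNat 0, .ofNat 0, .ofNat 0, .ofNat 0, .ofNat 0, .ofNat 146022327975859742601856633095507602990174267649294336, .ofNat 0⟩)
    (by decide +kernel)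
theorem L05980 : Good (Phi V5.P V5.D 1 1) ⟨6, 56, 6, 42, 4, 15, 3, 4, 6, 1⟩ :=
  leafX_sound T5.ok_pp T5.Ypp.bz_eq (w := 286) (c := ⟨⟨.negSucc 2544, .negSucc 0, .ofNat 381, .ofNat 4516, .negSucc 2467, .negSucc 370⟩, ⟨.negSucc 1656, .negSucc 0, .ofNat 172, .ofNat 2976, .negSucc 1618, .negSucc 246⟩, ⟨.ofNat 1090, .ofNat 0, .negSucc 252, .negSucc 2434, .ofNat 1316, .ofNat 174⟩, ⟨.negSucc 7323, .negSucc 2, .ofNat 193, .ofNat 4862, .negSucc 2880, .negSucc 377⟩, ⟨.ofNat 5690, .ofNat 3, .ofNat 110, .ofNat 2198, .negSucc 853, .negSucc 218⟩, .ofNat 23226, .negSucc 34606, .ofNat 0, .negSucc 34606, .ofNat 52376, .ofNat 0, .ofNat 128, .ofNat 6598, .negSucc 14908, .ofNat 0, .ofNat 4378, .negSucc 9787, .ofNat 0, .ofNat 0, .ofNat 10380, .ofNat 5205, .ofNat 0, .ofNat 0, .ofNat 67902561201050921397702353956361163915395961192448, .ofNat 0, .ofNat 0, .ofNat 0, .ofNat 30476536726724653813490391923273053253516670682529792,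 .ofNat 0, .ofNat 0, .ofNat 0, .ofNat 0, .ofNat 0, .ofNat 0, .ofNat 0, .ofNat 0, .ofNat 0⟩)
    (by decide +kernel)
theorem L05981 : Good (Phi V5.P V5.D 1 1) ⟨6, 56, 6, 43, 4, 15, 3, 4, 5, 0⟩ :=
  out_sound (S := T5.ds_pp) T5.ok_pp (w := 69) (j := 3) (by decide +kernel)
theorem L05982 : Good (Phi V5.P V5.D 1 1) ⟨6, 56, 5, 21, 4, 15, 3, 4, 5, 1⟩ :=
  leafX_sound T5.ok_pp T5.Ypp.bz_eq (w := 270) (c := ⟨⟨.negSucc 2570, .negSucc 0, .negSucc 293, .ofNat 3978, .negSucc 2209, .negSucc 1433⟩, ⟨.negSucc 1681, .negSucc 0, .negSucc 415, .ofNat 2631, .negSucc 1451, .negSucc 943⟩, ⟨.ofNat 1096, .ofNat 0, .negSucc 263, .negSucc 2247, .ofNat 1296, .ofNat 851⟩, ⟨.negSucc 7688, .negSucc 3, .negSucc 453, .ofNat 6847, .negSucc 5147, .negSucc 2384⟩, ⟨.ofNat 6151, .ofNat 4, .ofNat 75, .negSucc 1883, .ofNat 3079, .ofNat 560⟩, .ofNat 4203, .negSucc 5960, .ofNat 0, .negSucc 5960, .ofNat 9224, .ofNat 0, .ofNat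 128, .ofNat 2301, .negSucc 4389, .ofNat 0, .ofNat 1523, .negSucc 2780, .ofNat 0, .ofNat 0, .ofNat 3321, .ofNat 4173, .ofNat 0, .ofNat 0, .ofNat 372889332506896149713334465626719763014048808960, .ofNat 0, .ofNat 0, .ofNat 0, .ofNat 100585442853629919070182595383955924587474705186816, .ofNat 0, .ofNat 0, .ofNat 0, .ofNat 104716826408814863099853136336127139733430016671744, .ofNat 0, .ofNat 0, .ofNat 0, .ofNat 234975418059289395180942275241067404667145590669312, .ofNat 0⟩)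
    (by decide +kernel)
theorem L05983 : Good (Phi V5.P V5.D 1 1) ⟨7, 114, 6, 42, 5, 30, 3, 4, 5, 0⟩ :=
  leafX_sound T5.ok_pp T5.Ypp.bz_eq (w := 294) (c := ⟨⟨.negSucc 2083, .ofNat 373, .negSucc 140, .ofNat 1493, .negSucc 2784, .negSucc 274⟩, ⟨.negSucc 1360, .ofNat 290, .negSucc 164, .ofNat 1003, .negSucc 1853, .negSucc 176⟩, ⟨.ofNat 803, .ofNat 592, .negSucc 344, .negSucc 799, .ofNat 1497, .ofNat 163⟩, ⟨.negSucc 8206, .ofNat 202, .negSucc 33, .ofNat 2594, .negSucc 6256, .ofNat 992⟩, ⟨.ofNat 7963, .negSucc 34, .negSucc 67, .negSucc 743, .ofNat 3514, .negSucc 2053⟩, .ofNat 7165, .negSucc 10368, .ofNat 0, .negSucc 10368, .ofNat 15786, .ofNat 0, .ofNat 128, .ofNat 2802, .negSucc 9223, .ofNat 0, .ofNat 1865, .negSucc 6017, .ofNat 0, .ofNat 0, .ofNat 5902, .ofNat 2818, .ofNat 0, .ofNat 0, .ofNat 0, .ofNat 0, .ofNat 0, .ofNat 0, .ofNat 2510707489166261833155583410224270309130417368995987456,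 .ofNat 0, .ofNat 0, .ofNat 0, .ofNat 2252478818993999252465196090012538096303237040240066560, .ofNat 511978918603580998639049571797348494735704975339298498947628138496, .ofNat 0, .ofNat 0, .ofNat 3825773017329437474136853959930651828480027390239571968, .ofNat 5763943373047907953111362690360054637887217496405287507405511327744⟩)
    (by decide +kernel)
theorem L05984 : Good (Phi V5.P V5.D 1 1) ⟨8, 228, 6, 42, 5, 31, 3, 4, 6, 0⟩ :=
  leafX_sound T5.ok_pp T5.Ypp.bz_eq (w := 304) (c := ⟨⟨.negSucc 268, .negSucc 102, .ofNat 275, .ofNat 3346, .negSucc 3100, .negSucc 561⟩, ⟨.negSucc 157, .negSucc 97, .ofNat 194, .ofNat 2220, .negSucc 2061, .negSucc 370⟩, ⟨.negSucc 7, .negSucc 66, .negSucc 72, .negSucc 1739, .ofNat 1498, .ofNat 223⟩, ⟨.negSucc 5245, .ofNat 118, .ofNat 267, .ofNat 6168, .negSucc 6592, .negSucc 178⟩, ⟨.ofNat 7360, .negSucc 217, .negSucc 111, .negSucc 2221, .ofNat 3363, .negSucc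 904⟩, .ofNat 12061, .negSucc 17695, .ofNat 0, .negSucc 17695, .ofNat 26753, .ofNat 0, .ofNat 128, .ofNat 2361, .negSucc 9069, .ofNat 0, .ofNat 1576, .negSucc 5964, .ofNat 0, .ofNat 0, .ofNat 5665, .ofNat 2682, .ofNat 0, .ofNat 0, .ofNat 142869193605966074464115636466264439333308171793989632, .ofNat 0, .ofNat 0, .ofNat 0, .ofNat 84755770101482733810911651402974181099273615093130067968, .ofNat 0, .ofNat 0, .ofNat 0, .ofNat 0, .ofNat 0, .ofNat 0, .ofNat 0, .ofNat 0, .ofNat 0⟩)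
    (by decide +kernel)
theorem L05985 : Good (Phi V5.P V5.D 1 1) ⟨8, 228, 6, 42, 5, 31, 3, 4, 6, 1⟩ :=
  leafX_sound T5.ok_pp T5.Ypp.bz_eq (w := 302) (c := ⟨⟨.negSucc 660, .ofNat 220, .negSucc 83, .ofNat 2879, .negSucc 2456, .negSucc 635⟩, ⟨.negSucc 417, .ofNat 205, .negSucc 142, .ofNat 1908, .negSucc 1627, .negSucc 417⟩, ⟨.ofNat 112, .ofNat 290, .negSucc 434, .negSucc 1539, .ofNat 1274, .ofNat 296⟩, ⟨.negSucc 5018, .negSucc 2, .negSucc 141, .ofNat 4806, .negSucc 5046, .negSucc 393⟩, ⟨.ofNat 6188, .ofNat 258, .ofNat 156, .negSucc 1165, .ofNat 2413, .negSucc 745⟩, .ofNat 11684, .negSucc 17144, .ofNat 0, .negSucc 17144, .ofNat 25952, .ofNat 0, .ofNat 128, .ofNat 1321, .negSucc 3935, .ofNat 0, .ofNat 881, .negSucc 2579, .ofNat 0, .ofNat 0, .ofNat 2727, .ofNat 4365, .ofNat 0, .ofNat 0, .ofNat 76404840933757319847460755797291000799560683076190208, .ofNat 0, .ofNat 0, .ofNat 0, .ofNat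 19293476612529955244982370535580388653784552684436586496, .ofNat 0, .ofNat 0, .ofNat 0, .ofNat 18714553982668672497528366566950065940585341524635549696, .ofNat 0, .ofNat 0, .ofNat 0, .ofNat 0, .ofNat 0⟩)
    (by decide +kernel)
theorem L05986 : Good (Phi V5.P V5.D 1 1) ⟨8, 229, 6, 42, 5, 31, 3, 4, 5, 0⟩ :=
  out_sound (S := T5.ds_pp) T5.ok_pp (w := 23) (j := 4) (by decide +kernel)
theorem L05987 : Good (Phi V5.P V5.D 1 1) ⟨8, 228, 6, 43, 4, 15, 3, 4, 5, 0⟩ :=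
  out_sound (S := T5.ds_pp) T5.ok_pp (w := 81) (j := 3) (by decide +kernel)
theorem L05988 : Good (Phi V5.P V5.D 1 1) ⟨8, 229, 6, 43, 4, 15, 3, 4, 5, 0⟩ :=
  out_sound (S := T5.ds_pp) T5.ok_pp (w := 23) (j := 4) (by decide +kernel)
theorem L05989 : Good (Phi V5.P V5.D 1 1) ⟨7, 114, 6, 42, 5, 30, 3, 4, 5, 1⟩ :=
  leafX_sound T5.ok_pp T5.Ypp.bz_eq (w := 290) (c := ⟨⟨.negSucc 2516, .negSucc 92, .ofNat 43, .ofNat 1498, .negSucc 2435, .negSucc 1033⟩, ⟨.negSucc 1634, .ofNat 77, .negSucc 104, .ofNat 995, .negSucc 1612, .negSucc 690⟩, ⟨.ofNat 1030, .ofNat 47, .negSucc 25, .negSucc 892, .ofNat 1476, .ofNat 680⟩, ⟨.negSucc 7522, .negSucc 90, .negSucc 74, .ofNat 2137, .negSucc 5344, .negSucc 1559⟩, ⟨.ofNat 6028, .ofNat 28, .ofNat 79, .negSucc 54, .ofNat 2898, .ofNat 161⟩, .ofNat 7147, .negSucc 10343, .ofNat 0, .negSucc 10343, .ofNat 15752, .ofNat 0, .ofNat 128, .ofNat 1473, .negSucc 1699, .ofNat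 0, .ofNat 980, .negSucc 1104, .ofNat 0, .ofNat 0, .ofNat 1278, .ofNat 4126, .ofNat 0, .ofNat 0, .ofNat 0, .ofNat 0, .ofNat 0, .ofNat 0, .ofNat 728966489761101754118704305120801586718320040523857920, .ofNat 0, .ofNat 0, .ofNat 0, .ofNat 0, .ofNat 0, .ofNat 0, .ofNat 0, .ofNat 702735715946499954996573690534409805778070234722205696, .ofNat 233972210441666891388805020463062893192517866772649167946055155712⟩)
    (by decide +kernel)
theorem L05990 : Good (Phi V5.P V5.D 1 1) ⟨8, 228, 6, 42, 5, 31, 3, 4, 5, 1⟩ :=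
  leafX_sound T5.ok_pp T5.Ypp.bz_eq (w := 296) (c := ⟨⟨.negSucc 839, .ofNat 348, .negSucc 285, .ofNat 2301, .negSucc 2237, .negSucc 1437⟩, ⟨.negSucc 536, .ofNat 247, .negSucc 236, .ofNat 1533, .negSucc 1486, .negSucc 956⟩, ⟨.ofNat 102, .negSucc 375, .ofNat 348, .negSucc 1267, .ofNat 1272, .ofNat 838⟩, ⟨.negSucc 5038, .ofNat 271, .negSucc 215, .ofNat 4231, .negSucc 5188, .negSucc 2257⟩, ⟨.ofNat 5822, .ofNat 20, .negSucc 37, .negSucc 1502, .ofNat 3078, .ofNat 365⟩, .ofNat 7159, .negSucc 10360, .ofNat 0, .negSucc 10360, .ofNat 15776, .ofNat 0, .ofNat 128, .ofNat 1668, .negSucc 3820, .ofNat 0, .ofNat 1111, .negSucc 2475, .ofNat 0, .ofNat 0, .ofNat 2931, .ofNat 7675, .ofNat 0, .ofNat 0, .ofNat 3788879689901062954320363748150215677648852861583360, .ofNat 0, .ofNat 0, .ofNat 0, .ofNat 1983053845897570154113516704539091693702137485797097472, .ofNat 0, .ofNat 0, .ofNat 0, .ofNat 1318539661431156438687972234064126524862317473919139840,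 .ofNat 0, .ofNat 0, .ofNat 0, .ofNat 978030894501617479525810305474650307477642668723404800, .ofNat 0⟩)
    (by decide +kernel)
theorem L05991 : Good (Phi V5.P V5.D 1 1) ⟨8, 229, 6, 42, 5, 31, 3, 4, 5, 1⟩ :=
  out_sound (S := T5.ds_pp) T5.ok_pp (w := 23) (j := 4) (by decide +kernel)
theorem L05992 : Good (Phi V5.P V5.D 1 1) ⟨8, 228, 6, 43, 4, 15, 3, 4, 5, 1⟩ :=
  out_sound (S := T5.ds_pp) T5.ok_pp (w := 81) (j := 3) (by decide +kernel)
theorem L05993 : Good (Phi V5.P V5.D 1 1) ⟨8, 229, 6, 43, 4, 15, 3, 4, 5, 1⟩ :=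
  out_sound (S := T5.ds_pp) T5.ok_pp (w := 23) (j := 4) (by decide +kernel)
theorem L05994 : Good (Phi V5.P V5.D 1 1) ⟨7, 115, 5, 21, 4, 15, 3, 4, 4, 0⟩ :=
  out_sound (S := T5.ds_pp) T5.ok_pp (w := 21) (j := 4) (by decide +kernel)
theorem L05995 : Good (Phi V5.P V5.D 1 1) ⟨5, 29, 5, 21, 3, 7, 3, 4, 4, 0⟩ :=
  out_sound (S := T5.ds_pp) T5.ok_pp (w := 61) (j := 3) (by decide +kernel)
theorem L05996 : Good (Phi V5.P V5.D 1 1) ⟨7, 112, 5, 20, 3, 7, 3, 5, 5, 0⟩ :=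
  leafX_sound T5.ok_pp T5.Ypp.bz_eq (w := 263) (c := ⟨⟨.negSucc 5863, .negSucc 526, .ofNat 133, .ofNat 5621, .negSucc 2453, .negSucc 395⟩, ⟨.negSucc 3769, .negSucc 225, .negSucc 161, .ofNat 3608, .negSucc 1545, .negSucc 260⟩, ⟨.ofNat 3069, .ofNat 499, .negSucc 250, .negSucc 3379, .ofNat 1442, .ofNat 190⟩, ⟨.negSucc 12855, .negSucc 522, .negSucc 71, .ofNat 6375, .negSucc 3870, .negSucc 382⟩, ⟨.ofNat 7023, .negSucc 241, .ofNat 81, .ofNat 2440, .ofNat 628, .negSucc 289⟩, .ofNat 10417, .negSucc 15676, .ofNat 0, .negSucc 15676, .ofNat 24446, .ofNat 0, .ofNat 128, .ofNat 2655, .negSucc 6055, .ofNat 0, .ofNat 1723, .negSucc 3814, .ofNat 0, .ofNat 0, .ofNat 4060, .ofNat 1401, .ofNat 0, .ofNat 0, .ofNat 2381820314218245600836683515316685292699648, .ofNat 0, .ofNat 0, .ofNat 0, .ofNat 1502670808286218736776113077085854325440249856, .ofNat 0, .ofNat 0, .ofNat 0, .ofNat 0, .ofNat 0, .ofNat 0,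 .ofNat 0, .ofNat 378245854983850670988082866342325606894534656, .ofNat 0⟩)
    (by decide +kernel)
theorem L05997 : Good (Phi V5.P V5.D 1 1) ⟨7, 113, 5, 20, 3, 7, 3, 5, 5, 0⟩ :=
  leafX_sound T5.ok_pp T5.Ypp.bz_eq (w := 260) (c := ⟨⟨.negSucc 6427, .negSucc 416, .ofNat 1123, .ofNat 5565, .negSucc 2596, .negSucc 488⟩, ⟨.negSucc 4071, .negSucc 187, .ofNat 502, .ofNat 3639, .negSucc 1674, .negSucc 304⟩, ⟨.ofNat 3554, .negSucc 205, .negSucc 269, .negSucc 3373, .ofNat 1529, .ofNat 293⟩, ⟨.negSucc 14651, .negSucc 1193, .ofNat 966, .ofNat 8285, .negSucc 5889, .ofNat 499⟩, ⟨.ofNat 8659, .ofNat 889, .ofNat 732, .negSucc 634, .ofNat 3384, .negSucc 1813⟩, .ofNat 5094, .negSucc 7374, .ofNat 0, .negSucc 7374, .ofNat 11480, .ofNat 0, .ofNat 128, .ofNat 1436, .negSucc 3938, .ofNat 0, .ofNat 943, .negSucc 2491, .ofNat 0, .ofNat 0, .ofNat 2561, .ofNat 661, .ofNat 0, .ofNat 0, .ofNat 5862867473925884405056097738719328754204672,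 .ofNat 0, .ofNat 0, .ofNat 0, .ofNat 371703582368109774920100650098601388461260800, .ofNat 0, .ofNat 0, .ofNat 0, .ofNat 0, .ofNat 0, .ofNat 0, .ofNat 0, .ofNat 0, .ofNat 0⟩)
    (by decide +kernel)
theorem L05998 : Good (Phi V5.P V5.D 1 1) ⟨6, 56, 5, 21, 4, 14, 3, 5, 5, 0⟩ :=
  leafX_sound T5.ok_pp T5.Ypp.bz_eq (w := 277) (c := ⟨⟨.negSucc 4215, .negSucc 2, .ofNat 186, .negSucc 451, .negSucc 1717, .negSucc 409⟩, ⟨.negSucc 2767, .negSucc 1, .negSucc 193, .negSucc 283, .negSucc 1121, .negSucc 270⟩, ⟨.ofNat 2226, .ofNat 2, .ofNat 210, .negSucc 47, .ofNat 1286, .ofNat 337⟩, ⟨.negSucc 12094, .negSucc 6, .ofNat 28, .negSucc 1554, .negSucc 2636, .ofNat 395⟩, ⟨.ofNat 9305, .ofNat 5, .ofNat 20, .ofNat 1398, .ofNat 351, .negSucc 1456⟩, .ofNat 14727, .negSucc 21806, .ofNat 0, .negSucc 21806, .ofNat 33095, .ofNat 0, .ofNat 128, .ofNat 6684, .negSucc 19890, .ofNat 0, .ofNat 4438, .negSucc 13042,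 .ofNat 0, .ofNat 0, .ofNat 13350, .ofNat 3247, .ofNat 0, .ofNat 0, .ofNat 0, .ofNat 0, .ofNat 0, .ofNat 0, .ofNat 428757559598851338413241628323360581403203560538112, .ofNat 0, .ofNat 0, .ofNat 0, .ofNat 0, .ofNat 0, .ofNat 0, .ofNat 0, .ofNat 1528866240015217758792591695427524302382316400934912, .ofNat 0⟩)
    (by decide +kernel)
theorem L05999 : Good (Phi V5.P V5.D 1 1) ⟨6, 56, 6, 42, 4, 15, 3, 5, 5, 0⟩ :=
  leafX_sound T5.ok_pp T5.Ypp.bz_eq (w := 280) (c := ⟨⟨.negSucc 5203, .negSucc 1, .ofNat 752, .ofNat 4697, .negSucc 3170, .ofNat 160⟩, ⟨.negSucc 3399, .negSucc 0, .ofNat 380, .ofNat 3093, .negSucc 2078, .ofNat 99⟩, ⟨.ofNat 2571, .ofNat 1, .ofNat 138, .negSucc 2657, .ofNat 1798, .negSucc 35⟩, ⟨.negSucc 13337, .negSucc 5, .ofNat 565, .ofNat 6596, .negSucc 5732, .ofNat 666⟩, ⟨.ofNat 9140, .ofNat 5, .ofNat 214, .negSucc 21, .ofNat 1932, .negSucc 673⟩, .ofNat 14676, .negSucc 21729,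 .ofNat 0, .negSucc 21729, .ofNat 32980, .ofNat 0, .ofNat 128, .ofNat 6940, .negSucc 15880, .ofNat 0, .ofNat 4608, .negSucc 10381, .ofNat 0, .ofNat 0, .ofNat 10230, .ofNat 3357, .ofNat 0, .ofNat 0, .ofNat 5546585738524912378637477654428396554882931228672, .ofNat 0, .ofNat 0, .ofNat 0, .ofNat 846212613543033991441972532631446442734200779964416, .ofNat 0, .ofNat 0, .ofNat 0, .ofNat 0, .ofNat 0, .ofNat 0, .ofNat 0, .ofNat 0, .ofNat 0⟩)
    (by decide +kernel)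
theorem L06000 : Good (Phi V5.P V5.D 1 1) ⟨6, 56, 6, 43, 4, 15, 3, 5, 5, 0⟩ :=
  out_sound (S := T5.ds_pp) T5.ok_pp (w := 69) (j := 3) (by decide +kernel)
theorem L06001 : Good (Phi V5.P V5.D 1 1) ⟨7, 114, 5, 20, 3, 7, 3, 5, 5, 0⟩ :=
  leafX_sound T5.ok_pp T5.Ypp.bz_eq (w := 269) (c := ⟨⟨.negSucc 7073, .ofNat 3, .ofNat 194, .ofNat 5855, .negSucc 2627, .ofNat 229⟩, ⟨.negSucc 4619, .ofNat 2, .ofNat 105, .ofNat 3869, .negSucc 1721, .ofNat 145⟩, ⟨.ofNat 3673, .negSucc 0, .ofNat 108, .negSucc 3648, .ofNat 1594, .negSucc 39⟩, ⟨.negSucc 14140, .ofNat 6, .ofNat 15, .ofNat 6204, .negSucc 3250, .ofNat 651⟩, ⟨.ofNat 6787, .negSucc 3, .ofNat 11, .ofNat 2970, .negSucc 652, .negSucc 483⟩, .ofNat 21705, .negSucc 32316, .ofNat 0, .negSucc 32316, .ofNat 48926, .ofNat 0, .ofNat 128, .ofNat 8913, .negSucc 25040, .ofNat 0, .ofNat 5918, .negSucc 16434, .ofNat 0, .ofNat 0, .ofNat 16623, .ofNat 8835, .ofNat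 0, .ofNat 0, .ofNat 53136110965164755100940121529237218896379904, .ofNat 0, .ofNat 0, .ofNat 0, .ofNat 1341328630702939765633209508460914033225013133312, .ofNat 0, .ofNat 0, .ofNat 0, .ofNat 732314062181330173776208827124508402706649448448, .ofNat 0, .ofNat 0, .ofNat 0, .ofNat 69034963977063117324714722893401594789418237952, .ofNat 0⟩)
    (by decide +kernel)
theorem L06002 : Good (Phi V5.P V5.D 1 1) ⟨8, 228, 6, 42, 3, 7, 3, 5, 5, 0⟩ :=
  leafX_sound T5.ok_pp T5.Ypp.bz_eq (w := 272) (c := ⟨⟨.negSucc 6224, .negSucc 573, .ofNat 742, .ofNat 5627, .negSucc 2729, .negSucc 303⟩, ⟨.negSucc 4116, .negSucc 300, .ofNat 360, .ofNat 3760, .negSucc 1820, .negSucc 206⟩, ⟨.ofNat 3457, .negSucc 304, .ofNat 259, .negSucc 3537, .ofNat 1582, .ofNat 197⟩, ⟨.negSucc 15155, .ofNat 52, .ofNat 489, .ofNat 8383, .negSucc 6182, .ofNat 269⟩, ⟨.ofNat 9727, .negSucc 379, .negSucc 265, .negSucc 746, .ofNat 3528,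 .negSucc 1021⟩, .ofNat 12044, .negSucc 17671, .ofNat 0, .negSucc 17671, .ofNat 26722, .ofNat 0, .ofNat 128, .ofNat 3576, .negSucc 9521, .ofNat 0, .ofNat 2387, .negSucc 6262, .ofNat 0, .ofNat 0, .ofNat 6185, .ofNat 1848, .ofNat 0, .ofNat 0, .ofNat 18430012942074686241309613844047581644062720, .ofNat 0, .ofNat 0, .ofNat 0, .ofNat 7069465869067171715121146323520085660192997376, .ofNat 0, .ofNat 0, .ofNat 0, .ofNat 3771002400240853552389957914971744605577412608, .ofNat 0, .ofNat 0, .ofNat 0, .ofNat 0, .ofNat 0⟩)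
    (by decide +kernel)
theorem L06003 : Good (Phi V5.P V5.D 1 1) ⟨8, 229, 6, 42, 3, 7, 3, 5, 5, 0⟩ :=
  out_sound (S := T5.ds_pp) T5.ok_pp (w := 23) (j := 4) (by decide +kernel)
theorem L06004 : Good (Phi V5.P V5.D 1 1) ⟨8, 228, 6, 43, 3, 7, 3, 5, 5, 0⟩ :=
  out_sound (S := T5.ds_pp) T5.ok_pp (w := 81) (j := 3) (by decide +kernel)
theorem L06005 : Good (Phi V5.P V5.D 1 1) ⟨8, 229, 6, 43, 3, 7, 3, 5, 5, 0⟩ :=
  out_sound (S := T5.ds_pp) T5.ok_pp (w := 23) (j := 4) (by decide +kernel)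
theorem L06006 : Good (Phi V5.P V5.D 1 1) ⟨7, 115, 4, 10, 3, 7, 3, 5, 5, 0⟩ :=
  out_sound (S := T5.ds_pp) T5.ok_pp (w := 21) (j := 4) (by decide +kernel)
theorem L06007 : Good (Phi V5.P V5.D 1 1) ⟨6, 56, 5, 20, 3, 7, 3, 5, 5, 1⟩ :=
  leafX_sound T5.ok_pp T5.Ypp.bz_eq (w := 255) (c := ⟨⟨.negSucc 6035, .negSucc 1132, .ofNat 470, .ofNat 5492, .negSucc 2672, .negSucc 1300⟩, ⟨.negSucc 3950, .negSucc 430, .negSucc 0, .ofNat 3586, .negSucc 1696, .negSucc 852⟩, ⟨.ofNat 3542, .ofNat 449, .negSucc 224, .negSucc 3521, .ofNat 1737, .ofNat 877⟩, ⟨.negSucc 13400, .negSucc 1216, .negSucc 98, .ofNat 7697, .negSucc 5692, .negSucc 2339⟩, ⟨.ofNat 7268, .ofNat 101, .ofNat 565, .ofNat 102, .ofNat 2948, .ofNat 789⟩, .ofNat 5223, .negSucc 7585, .ofNat 0, .negSucc 7585, .ofNat 11827, .ofNat 0, .ofNat 128, .ofNat 1047, .negSucc 2547, .ofNat 0, .ofNat 686, .negSucc 1604, .ofNat 0, .ofNat 0, .ofNat 1899, .ofNat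 1016, .ofNat 0, .ofNat 0, .ofNat 16284699093735529019158036162180434504974336, .ofNat 0, .ofNat 0, .ofNat 0, .ofNat 1740184829010653797313298517500061154296201216, .ofNat 0, .ofNat 0, .ofNat 0, .ofNat 0, .ofNat 0, .ofNat 0, .ofNat 0, .ofNat 2803209230132566484710735890025669392724918272, .ofNat 0⟩)
    (by decide +kernel)
theorem L06008 : Good (Phi V5.P V5.D 1 1) ⟨6, 56, 5, 21, 3, 7, 3, 5, 5, 1⟩ :=
  leafX_sound T5.ok_pp T5.Ypp.bz_eq (w := 256) (c := ⟨⟨.negSucc 6430, .negSucc 2, .ofNat 5, .ofNat 5498, .negSucc 2497, .negSucc 1659⟩, ⟨.negSucc 4246, .negSucc 1, .negSucc 301, .ofNat 3661, .negSucc 1649, .negSucc 1086⟩, ⟨.ofNat 3662, .ofNat 1, .negSucc 561, .negSucc 3527, .ofNat 1616, .ofNat 1067⟩, ⟨.negSucc 14437, .negSucc 7, .negSucc 326, .ofNat 8156, .negSucc 6107, .negSucc 2852⟩, ⟨.ofNat 8136, .ofNat 5, .ofNat 154, .negSucc 623, .ofNat 3901, .ofNat 796⟩, .ofNat 4208, .negSucc 5967,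 .ofNat 0, .negSucc 5967, .ofNat 9235, .ofNat 0, .ofNat 128, .ofNat 2134, .negSucc 6145, .ofNat 0, .ofNat 1416, .negSucc 3902, .ofNat 0, .ofNat 0, .ofNat 4419, .ofNat 879, .ofNat 0, .ofNat 0, .ofNat 110464409728893918722054354356967566674493440, .ofNat 0, .ofNat 0, .ofNat 0, .ofNat 3297949005321096925418264898799506015005966336, .ofNat 0, .ofNat 0, .ofNat 0, .ofNat 0, .ofNat 0, .ofNat 0, .ofNat 0, .ofNat 16126725306034887512563724583249546547854049280, .ofNat 0⟩)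
    (by decide +kernel)
theorem L06009 : Good (Phi V5.P V5.D 1 1) ⟨6, 57, 5, 20, 3, 7, 3, 5, 5, 1⟩ :=
  leafX_sound T5.ok_pp T5.Ypp.bz_eq (w := 265) (c := ⟨⟨.negSucc 6354, .ofNat 3, .negSucc 32, .ofNat 5416, .negSucc 2690, .negSucc 1534⟩, ⟨.negSucc 4232, .ofNat 2, .ofNat 34, .ofNat 3585, .negSucc 1764, .negSucc 1010⟩, ⟨.ofNat 3693, .negSucc 1, .negSucc 26, .negSucc 3520, .ofNat 1725, .ofNat 993⟩, ⟨.negSucc 13526, .ofNat 7, .negSucc 7, .ofNat 5461, .negSucc 2887, .negSucc 1604⟩, ⟨.ofNat 6949, .negSucc 3, .ofNat 3, .ofNat 3164, .negSucc 1335, .negSucc 826⟩, .ofNat 26835, .negSucc 40042, .ofNat 0, .negSucc 40042, .ofNat 60563, .ofNat 0, .ofNat 128, .ofNat 10482, .negSucc 19254, .ofNat 0, .ofNat 6958, .negSucc 12634, .ofNat 0, .ofNat 0, .ofNat 14507, .ofNat 10017, .ofNat 0, .ofNat 0, .ofNat 668348932968088963262440168142895958619848704, .ofNat 0, .ofNat 0, .ofNat 0, .ofNat 10616686116181699750950454170879747807993476939776,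 .ofNat 0, .ofNat 0, .ofNat 0, .ofNat 8567044921205365012886552400130704226056667136, .ofNat 0, .ofNat 0, .ofNat 0, .ofNat 33495431871549616378851053632898856918565519360, .ofNat 0⟩)
    (by decide +kernel)
theorem L06010 : Good (Phi V5.P V5.D 1 1) ⟨7, 114, 6, 42, 3, 7, 3, 5, 5, 1⟩ :=
  leafX_sound T5.ok_pp T5.Ypp.bz_eq (w := 266) (c := ⟨⟨.negSucc 6422, .ofNat 290, .negSucc 89, .ofNat 5602, .negSucc 2883, .negSucc 1623⟩, ⟨.negSucc 4237, .ofNat 344, .negSucc 213, .ofNat 3730, .negSucc 1900, .negSucc 1073⟩, ⟨.ofNat 3672, .ofNat 260, .negSucc 208, .negSucc 3644, .ofNat 1882, .ofNat 1090⟩, ⟨.negSucc 13734, .negSucc 103, .negSucc 454, .ofNat 6745, .negSucc 5089, .negSucc 2101⟩, ⟨.ofNat 7139, .ofNat 326, .ofNat 623, .ofNat 1648, .ofNat 1584, .negSucc 245⟩, .ofNat 12106, .negSucc 17761, .ofNat 0, .negSucc 17761, .ofNat 26850, .ofNat 0, .ofNat 128, .ofNat 2767, .negSucc 5782, .ofNat 0, .ofNat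 1847, .negSucc 3801, .ofNat 0, .ofNat 0, .ofNat 4270, .ofNat 2134, .ofNat 0, .ofNat 0, .ofNat 19280118664786495111382368707288511044124672, .ofNat 0, .ofNat 0, .ofNat 0, .ofNat 7587124137118662252089297315199204993705967616, .ofNat 2275274362816223029787164062690039100577069559058723241984, .ofNat 0, .ofNat 0, .ofNat 0, .ofNat 0, .ofNat 0, .ofNat 0, .ofNat 0, .ofNat 0⟩)
    (by decide +kernel)
theorem L06011 : Good (Phi V5.P V5.D 1 1) ⟨8, 228, 6, 43, 3, 7, 3, 5, 5, 1⟩ :=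
  out_sound (S := T5.ds_pp) T5.ok_pp (w := 81) (j := 3) (by decide +kernel)
theorem L06012 : Good (Phi V5.P V5.D 1 1) ⟨8, 229, 6, 43, 3, 7, 3, 5, 5, 1⟩ :=
  out_sound (S := T5.ds_pp) T5.ok_pp (w := 23) (j := 4) (by decide +kernel)
theorem L06013 : Good (Phi V5.P V5.D 1 1) ⟨7, 115, 5, 21, 3, 7, 3, 5, 5, 1⟩ :=
  out_sound (S := T5.ds_pp) T5.ok_pp (w := 21) (j := 4) (by decide +kernel)
theorem L06014 : Good (Phi V5.P V5.D 1 1) ⟨5, 29, 4, 10, 3, 7, 3, 5, 4, 0⟩ :=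
  out_sound (S := T5.ds_pp) T5.ok_pp (w := 59) (j := 3) (by decide +kernel)
theorem L06015 : Good (Phi V5.P V5.D 1 1) ⟨4, 15, 4, 10, 3, 7, 2, 2, 4, 0⟩ :=
  out_sound (S := T5.ds_pp) T5.ok_pp (w := 53) (j := 3) (by decide +kernel)
theorem L06016 : Good (Phi V5.P V5.D 1 1) ⟨3, 6, 4, 10, 2, 3, 2, 2, 4, 1⟩ :=
  out_sound (S := T5.ds_pp) T5.ok_pp (w := 47) (j := 3) (by decide +kernel)
theorem L06017 : Good (Phi V5.P V5.D 1 1) ⟨5, 28, 5, 20, 3, 6, 2, 2, 4, 1⟩ :=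
  leafX_sound T5.ok_pp T5.Ypp.bz_eq (w := 238) (c := ⟨⟨.negSucc 5620, .ofNat 10, .negSucc 93, .ofNat 17, .negSucc 2627, .ofNat 660⟩, ⟨.negSucc 3585, .ofNat 119, .negSucc 252, .ofNat 36, .negSucc 1703, .ofNat 419⟩, ⟨.ofNat 3216, .ofNat 382, .ofNat 4, .negSucc 314, .ofNat 2318, .negSucc 104⟩, ⟨.negSucc 9253, .ofNat 107, .negSucc 323, .negSucc 1968, .negSucc 5662, .ofNat 2027⟩, ⟨.ofNat 1904, .ofNat 309, .ofNat 186, .ofNat 3059, .ofNat 2961, .negSucc 1670⟩, .ofNat 2097, .negSucc 2790, .ofNat 0, .negSucc 2790, .ofNat 4446, .ofNat 0, .ofNat 128, .ofNat 851, .negSucc 1675, .ofNat 0, .ofNat 570, .negSucc 1026, .ofNat 0, .ofNat 0, .ofNat 1646, .ofNat 546, .ofNat 0, .ofNat 0, .ofNat 51151417652814766926727146186178058780672, .ofNat 0, .ofNat 0, .ofNat 0, .ofNat 1380262651488535433825484463262864502685696, .ofNat 0, .ofNat 0, .ofNat 0, .ofNat 1143085342448761159897656847368947041828864, .ofNat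 0, .ofNat 0, .ofNat 0, .ofNat 0, .ofNat 0⟩)
    (by decide +kernel)
theorem L06018 : Good (Phi V5.P V5.D 1 1) ⟨5, 28, 5, 21, 3, 6, 2, 2, 4, 1⟩ :=
  leafX_sound T5.ok_pp T5.Ypp.bz_eq (w := 240) (c := ⟨⟨.negSucc 5315, .negSucc 551, .ofNat 228, .negSucc 88, .negSucc 2552, .ofNat 510⟩, ⟨.negSucc 3680, .ofNat 9, .negSucc 113, .negSucc 56, .negSucc 1710, .ofNat 344⟩, ⟨.ofNat 3355, .negSucc 148, .ofNat 28, .negSucc 229, .ofNat 2265, .ofNat 47⟩, ⟨.negSucc 8928, .negSucc 164, .negSucc 131, .negSucc 2581, .negSucc 5593, .ofNat 1882⟩, ⟨.ofNat 1733, .ofNat 105, .ofNat 410, .ofNat 3650, .ofNat 2996, .negSucc 1746⟩, .ofNat 3351, .negSucc 4682, .ofNat 0, .negSucc 4682, .ofNat 7298, .ofNat 0, .ofNat 128, .ofNat 1206, .negSucc 2271, .ofNat 0, .ofNat 803, .negSucc 1451, .ofNat 0, .ofNat 0, .ofNat 2244, .ofNat 888, .ofNat 0, .ofNat 0, .ofNat 50397209343403349130733751178042804273152, .ofNat 16000397693441123603998248366456601168781730906112,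 .ofNat 0, .ofNat 0, .ofNat 5452469722264839354321230598023483066679296, .ofNat 0, .ofNat 0, .ofNat 0, .ofNat 0, .ofNat 0, .ofNat 0, .ofNat 0, .ofNat 2251569990068624900969158124427687214710784, .ofNat 0⟩)
    (by decide +kernel)
theorem L06019 : Good (Phi V5.P V5.D 1 1) ⟨5, 29, 4, 10, 3, 6, 2, 2, 4, 1⟩ :=
  out_sound (S := T5.ds_pp) T5.ok_pp (w := 59) (j := 3) (by decide +kernel)
theorem L06020 : Good (Phi V5.P V5.D 1 1) ⟨6, 56, 4, 10, 4, 14, 2, 2, 4, 1⟩ :=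
  leafX_sound T5.ok_pp T5.Ypp.bz_eq (w := 255) (c := ⟨⟨.negSucc 5219, .negSucc 811, .ofNat 952, .ofNat 830, .negSucc 2994, .ofNat 687⟩, ⟨.negSucc 3308, .negSucc 434, .ofNat 170, .ofNat 559, .negSucc 1925, .ofNat 420⟩, ⟨.ofNat 2824, .ofNat 454, .negSucc 488, .negSucc 719, .ofNat 2388, .negSucc 68⟩, ⟨.negSucc 10753, .negSucc 735, .ofNat 478, .ofNat 95, .negSucc 6566, .ofNat 1991⟩, ⟨.ofNat 4974, .negSucc 62, .ofNat 538, .ofNat 1663, .ofNat 3588, .negSucc 1580⟩, .ofNat 5334, .negSucc 7744, .ofNat 0, .negSucc 7744, .ofNat 12053, .ofNat 0, .ofNat 128, .ofNat 1155, .negSucc 1472, .ofNat 0, .ofNat 760, .negSucc 929, .ofNat 0, .ofNat 0, .ofNat 1473, .ofNat 1022, .ofNat 0, .ofNat 0, .ofNat 233082215285522456953778797452472155484717056, .ofNat 0, .ofNat 0, .ofNat 0, .ofNat 40431321576390393719942026629093468035352625152, .ofNat 0, .ofNat 0, .ofNat 0, .ofNat 3394074535815874230878964713666656772131127296,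 .ofNat 0, .ofNat 0, .ofNat 0, .ofNat 19452711268789127231919089620165766574105427968, .ofNat 0⟩)
    (by decide +kernel)
theorem L06021 : Good (Phi V5.P V5.D 1 1) ⟨6, 57, 5, 20, 4, 14, 2, 2, 4, 1⟩ :=
  leafX_sound T5.ok_pp T5.Ypp.bz_eq (w := 268) (c := ⟨⟨.negSucc 5611, .ofNat 3, .negSucc 9, .ofNat 840, .negSucc 3020, .ofNat 716⟩, ⟨.negSucc 3636, .ofNat 2, .negSucc 59, .ofNat 563, .negSucc 1983, .ofNat 464⟩, ⟨.ofNat 3101, .negSucc 1, .negSucc 11, .negSucc 781, .ofNat 2412, .negSucc 80⟩, ⟨.negSucc 12926, .ofNat 7, .negSucc 6, .ofNat 766, .negSucc 3139, .ofNat 708⟩, ⟨.ofNat 7596, .negSucc 3, .ofNat 3, .ofNat 619, .negSucc 1620, .ofNat 415⟩, .ofNat 28783, .negSucc 42977, .ofNat 0, .negSucc 42977, .ofNat 64984, .ofNat 0, .ofNat 128, .ofNat 6897, .negSucc 9070, .ofNat 0, .ofNat 4580, .negSucc 5953, .ofNat 0, .ofNat 0, .ofNat 9271, .ofNat 13693, .ofNat 0, .ofNat 0, .ofNat 8507070718926294036139169643917672719958671360,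 .ofNat 0, .ofNat 0, .ofNat 0, .ofNat 467305535078531424757828397591159853174490547617792, .ofNat 0, .ofNat 0, .ofNat 0, .ofNat 35474094574406159565942857578151668270062171586560, .ofNat 0, .ofNat 0, .ofNat 0, .ofNat 2892920999441585746982749676789396816369570283520, .ofNat 0⟩)
    (by decide +kernel)
theorem L06022 : Good (Phi V5.P V5.D 1 1) ⟨6, 57, 5, 21, 4, 14, 2, 2, 4, 1⟩ :=
  leafX_sound T5.ok_pp T5.Ypp.bz_eq (w := 262) (c := ⟨⟨.negSucc 5406, .negSucc 510, .ofNat 453, .ofNat 670, .negSucc 2974, .ofNat 523⟩, ⟨.negSucc 3548, .negSucc 246, .ofNat 80, .ofNat 461, .negSucc 1961, .ofNat 324⟩, ⟨.ofNat 2915, .negSucc 189, .ofNat 24, .negSucc 614, .ofNat 2398, .ofNat 50⟩, ⟨.negSucc 11229, .ofNat 125, .ofNat 298, .ofNat 424, .negSucc 5543, .ofNat 810⟩, ⟨.ofNat 5493, .negSucc 124, .negSucc 172, .ofNat 788, .ofNat 2086, .negSucc 147⟩, .ofNat 10725, .negSucc 15449, .ofNat 0, .negSucc 15449,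 .ofNat 23019, .ofNat 0, .ofNat 128, .ofNat 1959, .negSucc 2538, .ofNat 0, .ofNat 1328, .negSucc 1682, .ofNat 0, .ofNat 0, .ofNat 2434, .ofNat 1831, .ofNat 0, .ofNat 0, .ofNat 592048212729921449984611573094949357363396608, .ofNat 0, .ofNat 0, .ofNat 0, .ofNat 487097347378331453559168400633928200130178056192, .ofNat 0, .ofNat 0, .ofNat 0, .ofNat 0, .ofNat 0, .ofNat 0, .ofNat 0, .ofNat 115110380402530951899062327065289457618684739584, .ofNat 6835971688614910020472671616038046013520771481036587532288⟩)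
    (by decide +kernel)
theorem L06023 : Good (Phi V5.P V5.D 1 1) ⟨5, 29, 4, 10, 4, 14, 2, 2, 4, 1⟩ :=
  out_sound (S := T5.ds_pp) T5.ok_pp (w := 59) (j := 3) (by decide +kernel)
theorem L06024 : Good (Phi V5.P V5.D 1 1) ⟨6, 56, 5, 20, 4, 15, 3, 4, 5, 2⟩ :=
  leafX_sound T5.ok_pp T5.Ypp.bz_eq (w := 266) (c := ⟨⟨.negSucc 3127, .negSucc 41, .negSucc 44, .ofNat 2782, .negSucc 2110, .negSucc 1108⟩, ⟨.negSucc 1986, .ofNat 28, .negSucc 161, .ofNat 1826, .negSucc 1353, .negSucc 709⟩, ⟨.ofNat 1334, .ofNat 376, .negSucc 194, .negSucc 1637, .ofNat 1345, .ofNat 790⟩, ⟨.negSucc 8145, .negSucc 9, .negSucc 316, .ofNat 4263, .negSucc 4945, .negSucc 1635⟩, ⟨.ofNat 5756, .negSucc 14, .ofNat 207, .negSucc 502, .ofNat 3009, .ofNat 114⟩, .ofNat 3650, .negSucc 5183, .ofNat 0, .negSucc 5183, .ofNat 8153, .ofNat 0, .ofNat 128, .ofNat 886, .negSucc 1600, .ofNat 0, .ofNat 581, .negSucc 986, .ofNat 0, .ofNat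 0, .ofNat 1438, .ofNat 2143, .ofNat 0, .ofNat 0, .ofNat 132399524495398861293066002815871784301595983872, .ofNat 0, .ofNat 0, .ofNat 0, .ofNat 47084873323876628459750441564390526851671283204096, .ofNat 0, .ofNat 0, .ofNat 0, .ofNat 0, .ofNat 0, .ofNat 0, .ofNat 0, .ofNat 0, .ofNat 0⟩)
    (by decide +kernel)
theorem L06025 : Good (Phi V5.P V5.D 1 1) ⟨6, 56, 5, 20, 4, 15, 3, 5, 5, 2⟩ :=
  leafX_sound T5.ok_pp T5.Ypp.bz_eq (w := 267) (c := ⟨⟨.negSucc 4329, .negSucc 2065, .ofNat 928, .ofNat 2504, .negSucc 2205, .negSucc 786⟩, ⟨.negSucc 2725, .negSucc 1238, .ofNat 375, .ofNat 1640, .negSucc 1409, .negSucc 508⟩, ⟨.ofNat 2539, .ofNat 855, .negSucc 381, .negSucc 1615, .ofNat 1503, .ofNat 635⟩, ⟨.negSucc 11878, .negSucc 1992, .ofNat 299, .ofNat 3409, .negSucc 5257, .negSucc 1086⟩, ⟨.ofNat 8508, .negSucc 485, .ofNat 842, .ofNat 201, .ofNat 3289, .negSucc 17⟩, .ofNat 5165, .negSucc 7501, .ofNat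 0, .negSucc 7501, .ofNat 11706, .ofNat 0, .ofNat 128, .ofNat 787, .negSucc 1572, .ofNat 0, .ofNat 516, .negSucc 982, .ofNat 0, .ofNat 0, .ofNat 1343, .ofNat 1365, .ofNat 0, .ofNat 0, .ofNat 355670267783339330253577741471402982332994420736, .ofNat 0, .ofNat 0, .ofNat 0, .ofNat 38915703303125279428201747638232126009528081711104, .ofNat 0, .ofNat 0, .ofNat 0, .ofNat 16842960224245437003069106785934963992265620455424, .ofNat 0, .ofNat 0, .ofNat 0, .ofNat 0, .ofNat 0⟩)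
    (by decide +kernel)
theorem L06026 : Good (Phi V5.P V5.D 1 1) ⟨6, 57, 5, 20, 4, 15, 2, 2, 5, 2⟩ :=
  leafX_sound T5.ok_pp T5.Ypp.bz_eq (w := 274) (c := ⟨⟨.negSucc 3292, .ofNat 2, .ofNat 2, .ofNat 2871, .negSucc 4457, .negSucc 1006⟩, ⟨.negSucc 2095, .ofNat 1, .negSucc 60, .ofNat 1900, .negSucc 2922, .negSucc 664⟩, ⟨.ofNat 1572, .negSucc 0, .ofNat 0, .negSucc 1769, .ofNat 2930, .ofNat 781⟩, ⟨.negSucc 10182, .ofNat 6, .negSucc 5, .ofNat 3040, .negSucc 4993, .negSucc 1030⟩, ⟨.ofNat 8390, .negSucc 3, .ofNat 4, .ofNat 1488, .negSucc 1870, .negSucc 575⟩, .ofNat 26851, .negSucc 40067, .ofNat 0, .negSucc 40067, .ofNat 60601, .ofNat 0, .ofNat 128, .ofNat 6577, .negSucc 10306, .ofNat 0, .ofNat 4366, .negSucc 6751, .ofNat 0, .ofNat 0, .ofNat 9380, .ofNat 19223, .ofNat 0, .ofNat 0, .ofNat 11392179718490227476593731235292725442123596300288, .ofNat 0, .ofNat 0, .ofNat 0, .ofNat 12917025297922096739471791109472975397843691938775040,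 .ofNat 0, .ofNat 0, .ofNat 0, .ofNat 3866448252581280294282029531143226155005357420707840, .ofNat 0, .ofNat 0, .ofNat 0, .ofNat 4060737122048529277401099979158741330244641369358336, .ofNat 0⟩)
    (by decide +kernel)
theorem L06027 : Good (Phi V5.P V5.D 1 1) ⟨6, 56, 5, 21, 4, 15, 2, 2, 5, 2⟩ :=
  leafX_sound T5.ok_pp T5.Ypp.bz_eq (w := 270) (c := ⟨⟨.negSucc 2997, .negSucc 1, .ofNat 298, .ofNat 2722, .negSucc 4617, .negSucc 1150⟩, ⟨.negSucc 1972, .negSucc 0, .ofNat 18, .ofNat 1805, .negSucc 3017, .negSucc 758⟩, ⟨.ofNat 1470, .ofNat 1, .negSucc 786, .negSucc 1714, .ofNat 3016, .ofNat 822⟩, ⟨.negSucc 9138, .negSucc 5, .ofNat 91, .ofNat 3910, .negSucc 7846, .negSucc 1856⟩, ⟨.ofNat 7426, .ofNat 4, .ofNat 48, .negSucc 122, .ofNat 2082, .ofNat 363⟩, .ofNat 14641, .negSucc 21677, .ofNat 0, .negSucc 21677, .ofNat 32901, .ofNat 0, .ofNat 128, .ofNat 3968, .negSucc 6279, .ofNat 0, .ofNat 2634,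 .negSucc 4097, .ofNat 0, .ofNat 0, .ofNat 5529, .ofNat 3569, .ofNat 0, .ofNat 0, .ofNat 25983428081794383825950680147494664348553445376, .ofNat 0, .ofNat 0, .ofNat 0, .ofNat 30153460554791425466032195633644561650031301492736, .ofNat 0, .ofNat 0, .ofNat 0, .ofNat 0, .ofNat 0, .ofNat 0, .ofNat 0, .ofNat 38608120852859075432005861820632550554457211928576, .ofNat 0⟩)
    (by decide +kernel)
theorem L06028 : Good (Phi V5.P V5.D 1 1) ⟨7, 114, 6, 42, 4, 15, 3, 4, 5, 2⟩ :=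
  leafX_sound T5.ok_pp T5.Ypp.bz_eq (w := 277) (c := ⟨⟨.negSucc 3271, .ofNat 128, .negSucc 74, .ofNat 2900, .negSucc 2203, .negSucc 1068⟩, ⟨.negSucc 2144, .ofNat 160, .negSucc 153, .ofNat 1939, .negSucc 1461, .negSucc 710⟩, ⟨.ofNat 1554, .ofNat 107, .negSucc 49, .negSucc 1725, .ofNat 1386, .ofNat 781⟩, ⟨.negSucc 8344, .negSucc 2, .negSucc 256, .ofNat 4273, .negSucc 5157, .negSucc 1742⟩, ⟨.ofNat 5666, .ofNat 124, .ofNat 223, .negSucc 300, .ofNat 3107, .ofNat 365⟩, .ofNat 6011, .negSucc 8591, .ofNat 0, .negSucc 8591, .ofNat 13047, .ofNat 0, .ofNat 128, .ofNat 2224, .negSucc 3933, .ofNat 0, .ofNat 1489, .negSucc 2541, .ofNat 0, .ofNat 0, .ofNat 3478, .ofNat 6017, .ofNat 0, .ofNat 0, .ofNat 283049047756470865970055640093628844358403883008, .ofNat 0, .ofNat 0, .ofNat 0, .ofNat 34746171056737667510098829823291001799957844852736, .ofNat 624099746815235036377827732397650983700718857227558717489152,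 .ofNat 0, .ofNat 0, .ofNat 0, .ofNat 0, .ofNat 0, .ofNat 0, .ofNat 0, .ofNat 0⟩)
    (by decide +kernel)
theorem L06029 : Good (Phi V5.P V5.D 1 1) ⟨8, 228, 6, 43, 4, 15, 3, 4, 5, 2⟩ :=
  out_sound (S := T5.ds_pp) T5.ok_pp (w := 81) (j := 3) (by decide +kernel)
theorem L06030 : Good (Phi V5.P V5.D 1 1) ⟨8, 229, 6, 43, 4, 15, 3, 4, 5, 2⟩ :=
  out_sound (S := T5.ds_pp) T5.ok_pp (w := 23) (j := 4) (by decide +kernel)
theorem L06031 : Good (Phi V5.P V5.D 1 1) ⟨7, 114, 5, 21, 4, 15, 3, 5, 5, 2⟩ :=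
  leafX_sound T5.ok_pp T5.Ypp.bz_eq (w := 275) (c := ⟨⟨.negSucc 5483, .ofNat 422, .negSucc 710, .ofNat 2784, .negSucc 2511, .negSucc 725⟩, ⟨.negSucc 3605, .ofNat 383, .negSucc 755, .ofNat 1859, .negSucc 1659, .negSucc 474⟩, ⟨.ofNat 3016, .ofNat 257, .negSucc 154, .negSucc 1772, .ofNat 1678, .ofNat 634⟩, ⟨.negSucc 14064, .negSucc 326, .negSucc 566, .ofNat 3904, .negSucc 4870, .negSucc 873⟩, ⟨.ofNat 9599, .ofNat 361, .ofNat 229, .ofNat 5, .ofNat 2043, .negSucc 227⟩, .ofNat 11903, .negSucc 17464, .ofNat 0, .negSucc 17464, .ofNat 26417, .ofNat 0, .ofNat 128, .ofNat 1603, .negSucc 2887, .ofNat 0, .ofNat 1070, .negSucc 1891, .ofNat 0, .ofNat 0, .ofNat 2450, .ofNat 2873, .ofNat 0, .ofNat 0, .ofNat 289372821465381644550949322441264654816850739200, .ofNat 0, .ofNat 0, .ofNat 0, .ofNat 62477431547353322888059404949490946667287089774592, .ofNat 8234418790899975044560208127510046835825818578595597437108224,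 .ofNat 0, .ofNat 0, .ofNat 36358259589510623618106621661670902049286440091648, .ofNat 2901686926294538885517059888064953437635701349140502551724032, .ofNat 0, .ofNat 0, .ofNat 54184101885683321139652728773524386536614201917440, .ofNat 21494596390049721884156919775877028809775689171211170856566784⟩)
    (by decide +kernel)
theorem L06032 : Good (Phi V5.P V5.D 1 1) ⟨7, 115, 5, 21, 4, 15, 2, 2, 5, 2⟩ :=
  out_sound (S := T5.ds_pp) T5.ok_pp (w := 21) (j := 4) (by decide +kernel)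
theorem L06033 : Good (Phi V5.P V5.D 1 1) ⟨6, 56, 4, 10, 4, 15, 2, 2, 5, 3⟩ :=
  leafX_sound T5.ok_pp T5.Ypp.bz_eq (w := 259) (c := ⟨⟨.negSucc 3819, .negSucc 9, .ofNat 3, .ofNat 1800, .negSucc 3361, .negSucc 191⟩, ⟨.negSucc 2463, .ofNat 189, .negSucc 494, .ofNat 1187, .negSucc 2160, .negSucc 133⟩, ⟨.ofNat 2086, .negSucc 20, .ofNat 49, .negSucc 1136, .ofNat 2315, .ofNat 237⟩, ⟨.negSucc 8538, .negSucc 257, .negSucc 331, .ofNat 1766, .negSucc 8143, .ofNat 240⟩, ⟨.ofNat 4910, .ofNat 325, .ofNat 282, .ofNat 1195, .ofNat 5202, .negSucc 781⟩, .ofNat 3612, .negSucc 5134, .ofNat 0, .negSucc 5134, .ofNat 8092, .ofNat 0, .ofNat 128, .ofNat 1206, .negSucc 1403, .ofNat 0, .ofNat 795, .negSucc 856, .ofNat 0, .ofNat 0, .ofNat 1596, .ofNat 1569, .ofNat 0, .ofNat 0, .ofNat 7977140768143623135702325910056439897932169216, .ofNat 0, .ofNat 0, .ofNat 0, .ofNat 396008696280227332442545215353996253067281956864,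 .ofNat 0, .ofNat 0, .ofNat 0, .ofNat 761541869921881065245515386859055423677393797120, .ofNat 0, .ofNat 0, .ofNat 0, .ofNat 879634149814129542200812079662712974672966713344, .ofNat 0⟩)
    (by decide +kernel)
theorem L06034 : Good (Phi V5.P V5.D 1 1) ⟨7, 114, 5, 20, 4, 15, 2, 2, 5, 3⟩ :=
  leafX_sound T5.ok_pp T5.Ypp.bz_eq (w := 277) (c := ⟨⟨.negSucc 4354, .ofNat 3, .ofNat 329, .ofNat 1548, .negSucc 3289, .ofNat 99⟩, ⟨.negSucc 2500, .ofNat 2, .negSucc 142, .ofNat 1033, .negSucc 2156, .ofNat 61⟩, ⟨.ofNat 2139, .negSucc 0, .ofNat 44, .negSucc 1055, .ofNat 2337, .ofNat 122⟩, ⟨.negSucc 11202, .ofNat 6, .negSucc 6, .ofNat 1588, .negSucc 3762, .ofNat 135⟩, ⟨.ofNat 8373, .negSucc 3, .ofNat 4, .ofNat 884, .negSucc 1266, .negSucc 4⟩, .ofNat 26833, .negSucc 40039, .ofNat 0, .negSucc 40039, .ofNat 60559, .ofNat 0, .ofNat 128, .ofNat 7317, .negSucc 8026, .ofNat 0, .ofNat 4863, .negSucc 5250,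 .ofNat 0, .ofNat 0, .ofNat 9151, .ofNat 18434, .ofNat 0, .ofNat 0, .ofNat 83685632104878848523338865601674671030372663296, .ofNat 0, .ofNat 0, .ofNat 0, .ofNat 2254046575668633080582629403211582753653111214047232, .ofNat 0, .ofNat 0, .ofNat 0, .ofNat 727786116287118324391793439663444796002973291380736, .ofNat 0, .ofNat 0, .ofNat 0, .ofNat 57184106753365699598944666520149730065720075616256, .ofNat 0⟩)
    (by decide +kernel)
theorem L06035 : Good (Phi V5.P V5.D 1 1) ⟨7, 114, 5, 21, 4, 15, 2, 2, 5, 3⟩ :=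
  leafX_sound T5.ok_pp T5.Ypp.bz_eq (w := 271) (c := ⟨⟨.negSucc 4052, .negSucc 286, .ofNat 79, .ofNat 1787, .negSucc 3353, .ofNat 71⟩, ⟨.negSucc 2655, .negSucc 98, .negSucc 215, .ofNat 1202, .negSucc 2220, .ofNat 42⟩, ⟨.ofNat 2196, .negSucc 13, .ofNat 155, .negSucc 1167, .ofNat 2348, .ofNat 129⟩, ⟨.negSucc 9840, .negSucc 348, .negSucc 295, .ofNat 1967, .negSucc 7540, .ofNat 697⟩, ⟨.ofNat 6260, .ofNat 167, .ofNat 198, .ofNat 823, .ofNat 4264, .negSucc 895⟩, .ofNat 8455, .negSucc 12235, .ofNat 0, .negSucc 12235, .ofNat 18480, .ofNat 0, .ofNat 128, .ofNat 2352, .negSucc 2762, .ofNat 0, .ofNat 1580, .negSucc 1807, .ofNat 0, .ofNat 0, .ofNat 2987, .ofNat 3333, .ofNat 0, .ofNat 0, .ofNat 7277175247305888939058759889443918831276785664, .ofNat 3276769610605702692749947736407413374005945966971748089856, .ofNat 0, .ofNat 0, .ofNat 3149448845626308248316913618519152654943038472192, .ofNat 0,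 .ofNat 0, .ofNat 0, .ofNat 1383169230004550613757115809949552797300744519680, .ofNat 0, .ofNat 0, .ofNat 0, .ofNat 2105673671038725830069863811879007946317431308288, .ofNat 0⟩)
    (by decide +kernel)
theorem L06036 : Good (Phi V5.P V5.D 1 1) ⟨7, 115, 4, 10, 4, 15, 2, 2, 5, 3⟩ :=
  out_sound (S := T5.ds_pp) T5.ok_pp (w := 21) (j := 4) (by decide +kernel)
theorem L06037 : Good (Phi V5.P V5.D 1 1) ⟨5, 29, 4, 10, 4, 15, 2, 2, 4, 1⟩ :=
  out_sound (S := T5.ds_pp) T5.ok_pp (w := 59) (j := 3) (by decide +kernel)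
theorem L06038 : Good (Phi V5.P V5.D 1 1) ⟨4, 15, 4, 10, 2, 3, 2, 2, 4, 1⟩ :=
  out_sound (S := T5.ds_pp) T5.ok_pp (w := 53) (j := 3) (by decide +kernel)
theorem L06039 : Good (Phi V5.P V5.D 1 1) ⟨3, 6, 4, 11, 2, 3, 2, 2, 3, 0⟩ :=
  out_sound (S := T5.ds_pp) T5.ok_pp (w := 47) (j := 3) (by decide +kernel)
theorem L06040 : Good (Phi V5.P V5.D 1 1) ⟨6, 56, 4, 11, 2, 3, 2, 2, 3, 0⟩ :=
  out_sound (S := T5.ds_pp) T5.ok_pp (w := 65) (j := 3) (by decide +kernel)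
theorem L06041 : Good (Phi V5.P V5.D 1 1) ⟨7, 114, 5, 22, 2, 3, 2, 2, 3, 0⟩ :=
  out_sound (S := T5.ds_pp) T5.ok_pp (w := 73) (j := 3) (by decide +kernel)
theorem L06042 : Good (Phi V5.P V5.D 1 1) ⟨7, 115, 5, 22, 2, 3, 2, 2, 3, 0⟩ :=
  out_sound (S := T5.ds_pp) T5.ok_pp (w := 21) (j := 4) (by decide +kernel)
theorem L06043 : Good (Phi V5.P V5.D 1 1) ⟨6, 57, 5, 23, 2, 3, 2, 2, 3, 0⟩ :=
  out_sound (S := T5.ds_pp) T5.ok_pp (w := 67) (j := 3) (by decide +kernel)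
theorem L06044 : Good (Phi V5.P V5.D 1 1) ⟨5, 29, 4, 11, 2, 3, 2, 2, 3, 0⟩ :=
  out_sound (S := T5.ds_pp) T5.ok_pp (w := 17) (j := 4) (by decide +kernel)
theorem L06045 : Good (Phi V5.P V5.D 1 1) ⟨4, 15, 4, 11, 2, 3, 2, 2, 3, 0⟩ :=
  out_sound (S := T5.ds_pp) T5.ok_pp (w := 53) (j := 3) (by decide +kernel)
theorem L06046 : Good (Phi V5.P V5.D 1 1) ⟨2, 2, 4, 10, 2, 3, 2, 2, 4, 2⟩ :=
  out_sound (S := T5.ds_pp) T5.ok_pp (w := 41) (j := 3) (by decide +kernel)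
theorem L06047 : Good (Phi V5.P V5.D 1 1) ⟨3, 6, 4, 10, 2, 3, 2, 2, 4, 2⟩ :=
  out_sound (S := T5.ds_pp) T5.ok_pp (w := 47) (j := 3) (by decide +kernel)
theorem L06048 : Good (Phi V5.P V5.D 1 1) ⟨6, 56, 5, 20, 3, 6, 2, 2, 5, 4⟩ :=
  leafX_sound T5.ok_pp T5.Ypp.bz_eq (w := 246) (c := ⟨⟨.negSucc 5025, .negSucc 675, .ofNat 356, .ofNat 226, .negSucc 1895, .ofNat 612⟩, ⟨.negSucc 3225, .negSucc 384, .ofNat 71, .ofNat 168, .negSucc 1227, .ofNat 395⟩, ⟨.ofNat 3277, .ofNat 367, .negSucc 147, .negSucc 372, .ofNat 1794, .negSucc 296⟩, ⟨.negSucc 8190, .negSucc 525, .ofNat 172, .negSucc 1081, .negSucc 3698, .ofNat 1573⟩, ⟨.ofNat 1500, .negSucc 302, .ofNat 338, .ofNat 2147, .ofNat 1562, .negSucc 1086⟩, .ofNat 2364, .negSucc 3229, .ofNat 0, .negSucc 3229, .ofNat 5174, .ofNat 0, .ofNat 128, .ofNat 1035, .negSucc 1075, .ofNat 0, .ofNat 691, .negSucc 651, .ofNat 0, .ofNat 0, .ofNat 1613, .ofNat 1513,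 .ofNat 0, .ofNat 0, .ofNat 652514317515565855844868989706360649154560, .ofNat 0, .ofNat 0, .ofNat 0, .ofNat 35993161957895589074995101860297843379535872, .ofNat 0, .ofNat 0, .ofNat 0, .ofNat 0, .ofNat 0, .ofNat 0, .ofNat 0, .ofNat 0, .ofNat 0⟩)
    (by decide +kernel)
theorem L06049 : Good (Phi V5.P V5.D 1 1) ⟨6, 56, 5, 20, 3, 7, 2, 2, 5, 4⟩ :=
  leafX_sound T5.ok_pp T5.Ypp.bz_eq (w := 246) (c := ⟨⟨.negSucc 4668, .negSucc 866, .ofNat 649, .ofNat 1909, .negSucc 2274, .ofNat 494⟩, ⟨.negSucc 3028, .negSucc 387, .ofNat 184, .ofNat 1279, .negSucc 1464, .ofNat 312⟩, ⟨.ofNat 2930, .ofNat 223, .negSucc 157, .negSucc 1347, .ofNat 1742, .negSucc 133⟩, ⟨.negSucc 9088, .negSucc 926, .ofNat 702, .ofNat 375, .negSucc 4972, .ofNat 1851⟩, ⟨.ofNat 3608, .ofNat 67, .negSucc 34, .ofNat 3561, .ofNat 2711, .negSucc 1747⟩, .ofNat 2353, .negSucc 3213, .ofNat 0, .negSucc 3213, .ofNat 5152, .ofNat 0, .ofNat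 128, .ofNat 871, .negSucc 547, .ofNat 0, .ofNat 582, .negSucc 322, .ofNat 0, .ofNat 0, .ofNat 837, .ofNat 1470, .ofNat 0, .ofNat 0, .ofNat 811330797912575367855507328452831005900800, .ofNat 0, .ofNat 0, .ofNat 0, .ofNat 34820177808233923872605671554742803507445760, .ofNat 0, .ofNat 0, .ofNat 0, .ofNat 166397161535787177732668396296289361044963328, .ofNat 0, .ofNat 0, .ofNat 0, .ofNat 9588537063751207333925454181026746760953856, .ofNat 0⟩)
    (by decide +kernel)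
theorem L06050 : Good (Phi V5.P V5.D 1 1) ⟨6, 56, 5, 20, 2, 3, 3, 4, 5, 5⟩ :=
  leafX_sound T5.ok_pp T5.Ypp.bz_eq (w := 234) (c := ⟨⟨.negSucc 4692, .negSucc 534, .ofNat 212, .ofNat 1656, .negSucc 754, .ofNat 415⟩, ⟨.negSucc 3004, .negSucc 330, .ofNat 21, .ofNat 1110, .negSucc 489, .ofNat 266⟩, ⟨.ofNat 3162, .ofNat 289, .negSucc 81, .negSucc 1423, .ofNat 694, .negSucc 166⟩, ⟨.negSucc 7104, .negSucc 521, .ofNat 97, .negSucc 831, .negSucc 1452, .ofNat 1215⟩, ⟨.ofNat 610, .negSucc 93, .ofNat 174, .ofNat 4849, .ofNat 581, .negSucc 960⟩, .ofNat 1450, .negSucc 1843, .ofNat 0, .negSucc 1843, .ofNat 3052, .ofNat 0, .ofNat 128, .ofNat 584, .negSucc 195, .ofNat 0, .ofNat 401, .negSucc 108, .ofNat 0, .ofNat 0, .ofNat 409, .ofNat 1345, .ofNat 0, .ofNat 0, .ofNat 492956351870729647749333835197643227136, .ofNat 0, .ofNat 0, .ofNat 0, .ofNat 18063022153116123637471623650186524360704, .ofNat 0, .ofNat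 0, .ofNat 0, .ofNat 50299842282250178243114591599765261123584, .ofNat 0, .ofNat 0, .ofNat 0, .ofNat 12866749802698957931404270819889928732672, .ofNat 0⟩)
    (by decide +kernel)
theorem L06051 : Good (Phi V5.P V5.D 1 1) ⟨6, 56, 5, 20, 2, 3, 3, 5, 5, 5⟩ :=
  leafX_sound T5.ok_pp T5.Ypp.bz_eq (w := 235) (c := ⟨⟨.negSucc 6064, .ofNat 661, .negSucc 452, .ofNat 1654, .negSucc 783, .ofNat 550⟩, ⟨.negSucc 3912, .ofNat 502, .negSucc 461, .ofNat 1118, .negSucc 506, .ofNat 353⟩, ⟨.ofNat 4103, .ofNat 93, .ofNat 43, .negSucc 1586, .ofNat 679, .negSucc 274⟩, ⟨.negSucc 8929, .ofNat 668, .negSucc 642, .negSucc 1567, .negSucc 1508, .ofNat 1627⟩, ⟨.ofNat 425, .ofNat 693, .negSucc 162, .ofNat 5985, .ofNat 621, .negSucc 1298⟩, .ofNat 1452, .negSucc 1845, .ofNat 0, .negSucc 1845, .ofNat 3055, .ofNat 0, .ofNat 128, .ofNat 575, .negSucc 235, .ofNat 0, .ofNat 398, .negSucc 127, .ofNat 0, .ofNat 0, .ofNat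 502, .ofNat 992, .ofNat 0, .ofNat 0, .ofNat 570502269683990678794828043213546192896, .ofNat 0, .ofNat 0, .ofNat 0, .ofNat 29250893691222354561221925770739109068800, .ofNat 0, .ofNat 0, .ofNat 0, .ofNat 52133915456762671261695317952464792059904, .ofNat 0, .ofNat 0, .ofNat 0, .ofNat 7455925703305660583213594410676901642240, .ofNat 0⟩)
    (by decide +kernel)
theorem L06052 : Good (Phi V5.P V5.D 1 1) ⟨6, 56, 5, 21, 2, 3, 2, 2, 5, 4⟩ :=
  leafX_sound T5.ok_pp T5.Ypp.bz_eq (w := 241) (c := ⟨⟨.negSucc 5655, .negSucc 2, .negSucc 272, .ofNat 2278, .negSucc 2203, .ofNat 385⟩, ⟨.negSucc 3744, .negSucc 1, .negSucc 397, .ofNat 1539, .negSucc 1443, .ofNat 248⟩, ⟨.ofNat 3780, .ofNat 2, .ofNat 140, .negSucc 1990, .ofNat 1819, .negSucc 147⟩, ⟨.negSucc 10052, .negSucc 4, .negSucc 104, .ofNat 1075, .negSucc 3375, .ofNat 938⟩, ⟨.ofNat 3157, .ofNat 2, .negSucc 70, .ofNat 3224, .ofNat 438, .negSucc 606⟩,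 .ofNat 14595, .negSucc 21606, .ofNat 0, .negSucc 21606, .ofNat 32795, .ofNat 0, .ofNat 128, .ofNat 3531, .negSucc 2389, .ofNat 0, .ofNat 2352, .negSucc 1558, .ofNat 0, .ofNat 0, .ofNat 3838, .ofNat 5719, .ofNat 0, .ofNat 0, .ofNat 65694037486175243183897717881958301696, .ofNat 0, .ofNat 0, .ofNat 0, .ofNat 53640265049508148941218680712881883840512, .ofNat 0, .ofNat 0, .ofNat 0, .ofNat 156369547210848893645598727073553572691968, .ofNat 0, .ofNat 0, .ofNat 0, .ofNat 40431542439389744900451808320151925817344, .ofNat 0⟩)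
    (by decide +kernel)
theorem L06053 : Good (Phi V5.P V5.D 1 1) ⟨6, 56, 5, 21, 2, 3, 2, 2, 5, 5⟩ :=
  leafX_sound T5.ok_pp T5.Ypp.bz_eq (w := 238) (c := ⟨⟨.negSucc 4866, .negSucc 1, .ofNat 100, .ofNat 1635, .negSucc 1686, .ofNat 402⟩, ⟨.negSucc 3224, .negSucc 1, .negSucc 48, .ofNat 1108, .negSucc 1106, .ofNat 264⟩, ⟨.ofNat 3344, .ofNat 2, .negSucc 204, .negSucc 1406, .ofNat 1419, .negSucc 193⟩, ⟨.negSucc 8009, .negSucc 3, .ofNat 37, .negSucc 155, .negSucc 2532, .ofNat 1244⟩, ⟨.ofNat 1752, .ofNat 2, .ofNat 16, .ofNat 3719, .ofNat 255, .negSucc 1024⟩, .ofNat 10055, .negSucc 14769, .ofNat 0, .negSucc 14769, .ofNat 22496, .ofNat 0, .ofNat 128, .ofNat 1903, .negSucc 728, .ofNat 0, .ofNat 1273, .negSucc 470, .ofNat 0, .ofNat 0, .ofNat 1709, .ofNat 3867, .ofNat 0, .ofNat 0, .ofNat 0, .ofNat 0, .ofNat 0, .ofNat 0, .ofNat 3739178498058940009693189287570208456704, .ofNat 0, .ofNat 0, .ofNat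 0, .ofNat 4825821644270495881406090437577542729728, .ofNat 0, .ofNat 0, .ofNat 0, .ofNat 35137661257733595059426286424649120088064, .ofNat 0⟩)
    (by decide +kernel)
theorem L06054 : Good (Phi V5.P V5.D 1 1) ⟨7, 114, 5, 20, 3, 6, 2, 2, 4, 2⟩ :=
  leafX_sound T5.ok_pp T5.Ypp.bz_eq (w := 253) (c := ⟨⟨.negSucc 5512, .ofNat 3, .negSucc 39, .ofNat 331, .negSucc 1632, .ofNat 1331⟩, ⟨.negSucc 3749, .ofNat 2, .ofNat 83, .ofNat 228, .negSucc 1072, .ofNat 868⟩, ⟨.ofNat 3657, .negSucc 1, .negSucc 7, .negSucc 429, .ofNat 1610, .negSucc 730⟩, ⟨.negSucc 9035, .ofNat 5, .negSucc 2, .negSucc 187, .negSucc 2275, .ofNat 2049⟩, ⟨.ofNat 1859, .negSucc 0, .ofNat 2, .ofNat 991, .negSucc 18, .negSucc 285⟩, .ofNat 14067, .negSucc 20811, .ofNat 0, .negSucc 20811, .ofNat 31597, .ofNat 0, .ofNat 128, .ofNat 3025, .negSucc 2032, .ofNat 0, .ofNat 2016, .negSucc 1328, .ofNat 0, .ofNat 0, .ofNat 3611, .ofNat 8948,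 .ofNat 0, .ofNat 0, .ofNat 77324935020750301357270809213263566340096, .ofNat 0, .ofNat 0, .ofNat 0, .ofNat 2844858573333635630690176975138296017587273728, .ofNat 0, .ofNat 0, .ofNat 0, .ofNat 14190680767479143897437711752989382526631936, .ofNat 0, .ofNat 0, .ofNat 0, .ofNat 9875129491561607812717457320396454140837888, .ofNat 0⟩)
    (by decide +kernel)
theorem L06055 : Good (Phi V5.P V5.D 1 1) ⟨7, 114, 5, 21, 3, 6, 2, 2, 4, 2⟩ :=
  leafX_sound T5.ok_pp T5.Ypp.bz_eq (w := 255) (c := ⟨⟨.negSucc 5568, .negSucc 131, .ofNat 85, .ofNat 342, .negSucc 1522, .ofNat 1247⟩, ⟨.negSucc 3678, .negSucc 86, .negSucc 62, .ofNat 234, .negSucc 1008, .ofNat 820⟩, ⟨.ofNat 3660, .ofNat 50, .ofNat 14, .negSucc 436, .ofNat 1522, .negSucc 662⟩, ⟨.negSucc 9057, .negSucc 139, .negSucc 112, .ofNat 22, .negSucc 1826, .ofNat 1656⟩, ⟨.ofNat 1864, .ofNat 152, .ofNat 153, .ofNat 691, .negSucc 450, .ofNat 122⟩, .ofNat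 19259, .negSucc 28475, .ofNat 0, .negSucc 28475, .ofNat 42901, .ofNat 0, .ofNat 128, .ofNat 3650, .negSucc 2199, .ofNat 0, .ofNat 2443, .negSucc 1453, .ofNat 0, .ofNat 0, .ofNat 4047, .ofNat 3404, .ofNat 0, .ofNat 0, .ofNat 22228407762511072175619282551974955843584, .ofNat 2829432412800106671982413898868297573855405486899200, .ofNat 0, .ofNat 0, .ofNat 21209952417272282144038810578903047637827584, .ofNat 0, .ofNat 0, .ofNat 0, .ofNat 0, .ofNat 0, .ofNat 0, .ofNat 0, .ofNat 0, .ofNat 0⟩)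
    (by decide +kernel)
theorem L06056 : Good (Phi V5.P V5.D 1 1) ⟨7, 114, 5, 20, 3, 7, 2, 2, 5, 4⟩ :=
  leafX_sound T5.ok_pp T5.Ypp.bz_eq (w := 256) (c := ⟨⟨.negSucc 5143, .ofNat 3, .ofNat 274, .ofNat 1981, .negSucc 2361, .ofNat 268⟩, ⟨.negSucc 3079, .ofNat 2, .negSucc 134, .ofNat 1334, .negSucc 1550, .ofNat 173⟩, ⟨.ofNat 2942, .negSucc 1, .ofNat 70, .negSucc 1419, .ofNat 1815, .negSucc 73⟩, ⟨.negSucc 9411, .ofNat 5, .ofNat 1, .ofNat 650, .negSucc 5035, .ofNat 1395⟩, ⟨.ofNat 3867, .negSucc 2, .negSucc 0, .ofNat 3237, .ofNat 2593, .negSucc 1536⟩, .ofNat 6369, .negSucc 9219, .ofNat 0, .negSucc 9219, .ofNat 14136, .ofNat 0, .ofNat 128, .ofNat 3204, .negSucc 1915, .ofNat 0, .ofNat 2142, .negSucc 1219, .ofNat 0, .ofNat 0, .ofNat 3025, .ofNat 5395, .ofNat 0, .ofNat 0, .ofNat 1466654654416993838618210332561329178542080, .ofNat 0, .ofNat 0, .ofNat 0, .ofNat 6766363209231987293192252705532670295876304896,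 .ofNat 0, .ofNat 0, .ofNat 0, .ofNat 172776381381240308794903094600221721641353216, .ofNat 0, .ofNat 0, .ofNat 0, .ofNat 61097024233321381757294095011709732685611008, .ofNat 0⟩)
    (by decide +kernel)
theorem L06057 : Good (Phi V5.P V5.D 1 1) ⟨8, 228, 6, 42, 3, 7, 2, 2, 6, 8⟩ :=
  leafX_sound T5.ok_pp T5.Ypp.bz_eq (w := 272) (c := ⟨⟨.negSucc 4972, .negSucc 723, .ofNat 772, .ofNat 2161, .negSucc 2666, .ofNat 196⟩, ⟨.negSucc 3281, .negSucc 463, .ofNat 418, .ofNat 1455, .negSucc 1755, .ofNat 129⟩, ⟨.ofNat 3047, .negSucc 334, .ofNat 379, .negSucc 1579, .ofNat 2045, .negSucc 69⟩, ⟨.negSucc 10512, .negSucc 430, .negSucc 89, .ofNat 1927, .negSucc 3491, .ofNat 423⟩, ⟨.ofNat 5333, .ofNat 284, .ofNat 470, .ofNat 1682, .negSucc 345, .negSucc 229⟩, .ofNat 18428, .negSucc 27253, .ofNat 0, .negSucc 27253, .ofNat 41103, .ofNat 0, .ofNat 128, .ofNat 3775, .negSucc 2397, .ofNat 0, .ofNat 2523, .negSucc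 1576, .ofNat 0, .ofNat 0, .ofNat 3390, .ofNat 5998, .ofNat 0, .ofNat 0, .ofNat 133443835201496437526019995664457339519369216, .ofNat 0, .ofNat 0, .ofNat 0, .ofNat 15283142912410016050374303880973091462610681856, .ofNat 0, .ofNat 0, .ofNat 0, .ofNat 95692505743056472726779234480909947507205734400, .ofNat 0, .ofNat 0, .ofNat 0, .ofNat 22427855217476763190429121811612583105514176512, .ofNat 0⟩)
    (by decide +kernel)
theorem L06058 : Good (Phi V5.P V5.D 1 1) ⟨8, 228, 6, 42, 3, 7, 2, 2, 6, 9⟩ :=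
  leafX_sound T5.ok_pp T5.Ypp.bz_eq (w := 267) (c := ⟨⟨.negSucc 4814, .negSucc 296, .ofNat 313, .ofNat 1772, .negSucc 2188, .ofNat 296⟩, ⟨.negSucc 3176, .negSucc 142, .ofNat 83, .ofNat 1192, .negSucc 1446, .ofNat 198⟩, ⟨.ofNat 2988, .negSucc 274, .ofNat 330, .negSucc 1316, .ofNat 1713, .negSucc 109⟩, ⟨.negSucc 8833, .negSucc 241, .negSucc 5, .negSucc 42, .negSucc 4416, .ofNat 1075⟩, ⟨.ofNat 3137, .ofNat 101, .ofNat 247, .ofNat 3803, .ofNat 2032, .negSucc 985⟩, .ofNat 7187, .negSucc 10400, .ofNat 0, .negSucc 10400, .ofNat 15833, .ofNat 0, .ofNat 128, .ofNat 2244, .negSucc 776, .ofNat 0, .ofNat 1507, .negSucc 499, .ofNat 0, .ofNat 0, .ofNat 1345, .ofNat 4293, .ofNat 0, .ofNat 0, .ofNat 25425963690078622745948688436975508937244672, .ofNat 0, .ofNat 0, .ofNat 0, .ofNat 4543007298473565190767943729361844631523819520, .ofNat 0, .ofNat 0, .ofNat 0, .ofNat 17731756850016361763365746714682355722731126784,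 .ofNat 0, .ofNat 0, .ofNat 0, .ofNat 6856128528974707721986097263100239947174510592, .ofNat 0⟩)
    (by decide +kernel)
theorem L06059 : Good (Phi V5.P V5.D 1 1) ⟨8, 229, 6, 42, 3, 7, 2, 2, 5, 4⟩ :=
  out_sound (S := T5.ds_pp) T5.ok_pp (w := 23) (j := 4) (by decide +kernel)
theorem L06060 : Good (Phi V5.P V5.D 1 1) ⟨8, 228, 6, 43, 3, 7, 2, 2, 5, 4⟩ :=
  out_sound (S := T5.ds_pp) T5.ok_pp (w := 81) (j := 3) (by decide +kernel)
theorem L06061 : Good (Phi V5.P V5.D 1 1) ⟨8, 229, 6, 43, 3, 7, 2, 2, 5, 4⟩ :=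
  out_sound (S := T5.ds_pp) T5.ok_pp (w := 23) (j := 4) (by decide +kernel)
theorem L06062 : Good (Phi V5.P V5.D 1 1) ⟨7, 114, 5, 20, 3, 7, 2, 2, 5, 5⟩ :=
  leafX_sound T5.ok_pp T5.Ypp.bz_eq (w := 258) (c := ⟨⟨.negSucc 4426, .ofNat 2, .ofNat 95, .ofNat 1334, .negSucc 1781, .ofNat 340⟩, ⟨.negSucc 2978, .ofNat 1, .ofNat 117, .ofNat 904, .negSucc 1165, .ofNat 219⟩, ⟨.ofNat 2808, .negSucc 0, .negSucc 21, .negSucc 920, .ofNat 1387, .negSucc 148⟩, ⟨.negSucc 8503, .ofNat 5, .negSucc 1, .ofNat 437, .negSucc 2678, .ofNat 1015⟩, ⟨.ofNat 3638, .negSucc 1, .ofNat 3, .ofNat 2185, .ofNat 278, .negSucc 813⟩, .ofNat 14069, .negSucc 20815, .ofNat 0, .negSucc 20815, .ofNat 31602, .ofNat 0, .ofNat 128, .ofNat 3139, .negSucc 1595, .ofNat 0, .ofNat 2097, .negSucc 1030, .ofNat 0, .ofNat 0, .ofNat 4051, .ofNat 7886, .ofNat 0, .ofNat 0, .ofNat 3539736677960579636180370570989276778987520, .ofNat 0, .ofNat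 0, .ofNat 0, .ofNat 57760140858474134914865481856349393313968685056, .ofNat 0, .ofNat 0, .ofNat 0, .ofNat 26307007239372868699896832728777369901326139392, .ofNat 0, .ofNat 0, .ofNat 0, .ofNat 0, .ofNat 0⟩)
    (by decide +kernel)
theorem L06063 : Good (Phi V5.P V5.D 1 1) ⟨7, 114, 6, 42, 3, 7, 2, 2, 5, 5⟩ :=
  leafX_sound T5.ok_pp T5.Ypp.bz_eq (w := 252) (c := ⟨⟨.negSucc 4429, .negSucc 112, .ofNat 31, .ofNat 1268, .negSucc 1686, .ofNat 444⟩, ⟨.negSucc 2917, .ofNat 6, .negSucc 82, .ofNat 853, .negSucc 1122, .ofNat 294⟩, ⟨.ofNat 2771, .negSucc 33, .ofNat 79, .negSucc 897, .ofNat 1349, .negSucc 154⟩, ⟨.negSucc 7630, .ofNat 14, .negSucc 203, .negSucc 759, .negSucc 3650, .ofNat 1368⟩, ⟨.ofNat 2139, .ofNat 47, .ofNat 186, .ofNat 3807, .ofNat 1924, .negSucc 1119⟩, .ofNat 1568, .negSucc 1994, .ofNat 0, .negSucc 1994, .ofNat 3225, .ofNat 0, .ofNat 128, .ofNat 539, .negSucc 306, .ofNat 0, .ofNat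 378, .negSucc 165, .ofNat 0, .ofNat 0, .ofNat 725, .ofNat 1452, .ofNat 0, .ofNat 0, .ofNat 636073935473352112874310980421657454182400, .ofNat 221241648004054597628520758987369645891166237557260288, .ofNat 0, .ofNat 0, .ofNat 6921029197184478094808072858733527592599552, .ofNat 0, .ofNat 0, .ofNat 0, .ofNat 14476664648260755436660590962574888437547008, .ofNat 0, .ofNat 0, .ofNat 0, .ofNat 23078930306339980108437929484259666000084992, .ofNat 0⟩)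
    (by decide +kernel)
theorem L06064 : Good (Phi V5.P V5.D 1 1) ⟨8, 228, 6, 43, 3, 7, 2, 2, 5, 5⟩ :=
  out_sound (S := T5.ds_pp) T5.ok_pp (w := 81) (j := 3) (by decide +kernel)
theorem L06065 : Good (Phi V5.P V5.D 1 1) ⟨8, 229, 6, 43, 3, 7, 2, 2, 5, 5⟩ :=
  out_sound (S := T5.ds_pp) T5.ok_pp (w := 23) (j := 4) (by decide +kernel)

end Crest.Agent.R097C5.N5pp
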