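import Crest.Agent.R097.KP7
import Crest.Agent.R097.T5Ypp

/-!
# Row 97, box cover in dimension n = 5 (generated)
-/

set_option autoImplicit false
set_option Elab.async false
set_option maxHeartbeats 0
set_option maxRecDepth 100000

open Crest.Agent.R097 Crest.Agent.R097.KA


namespace Crest.Agent.R097C5.N5pp

theorem L06066 : Good (Phi V5.P V5.D 1 1) ⟨7, 115, 4, 10, 2, 3, 2, 2, 4, 2⟩ :=
  out_sound (S := T5.ds_pp) T5.ok_pp (w := 21) (j := 4) (by decide +kernel)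
theorem L06067 : Good (Phi V5.P V5.D 1 1) ⟨5, 29, 4, 10, 2, 3, 2, 2, 4, 2⟩ :=
  out_sound (S := T5.ds_pp) T5.ok_pp (w := 59) (j := 3) (by decide +kernel)
theorem L06068 : Good (Phi V5.P V5.D 1 1) ⟨4, 15, 4, 10, 2, 3, 2, 2, 4, 2⟩ :=
  out_sound (S := T5.ds_pp) T5.ok_pp (w := 53) (j := 3) (by decide +kernel)
theorem L06069 : Good (Phi V5.P V5.D 1 1) ⟨2, 2, 4, 11, 2, 3, 2, 2, 4, 2⟩ :=
  out_sound (S := T5.ds_pp) T5.ok_pp (w := 41) (j := 3) (by decide +kernel)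
theorem L06070 : Good (Phi V5.P V5.D 1 1) ⟨3, 6, 4, 11, 2, 3, 2, 2, 4, 2⟩ :=
  out_sound (S := T5.ds_pp) T5.ok_pp (w := 47) (j := 3) (by decide +kernel)
theorem L06071 : Good (Phi V5.P V5.D 1 1) ⟨6, 56, 4, 11, 2, 3, 2, 2, 4, 2⟩ :=
  out_sound (S := T5.ds_pp) T5.ok_pp (w := 65) (j := 3) (by decide +kernel)
theorem L06072 : Good (Phi V5.P V5.D 1 1) ⟨7, 114, 5, 22, 2, 3, 2, 2, 4, 2⟩ :=
  out_sound (S := T5.ds_pp) T5.ok_pp (w := 73) (j := 3) (by decide +kernel)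
theorem L06073 : Good (Phi V5.P V5.D 1 1) ⟨7, 115, 5, 22, 2, 3, 2, 2, 4, 2⟩ :=
  out_sound (S := T5.ds_pp) T5.ok_pp (w := 21) (j := 4) (by decide +kernel)
theorem L06074 : Good (Phi V5.P V5.D 1 1) ⟨6, 57, 5, 23, 2, 3, 2, 2, 4, 2⟩ :=
  out_sound (S := T5.ds_pp) T5.ok_pp (w := 67) (j := 3) (by decide +kernel)
theorem L06075 : Good (Phi V5.P V5.D 1 1) ⟨5, 29, 4, 11, 2, 3, 2, 2, 4, 2⟩ :=
  out_sound (S := T5.ds_pp) T5.ok_pp (w := 17) (j := 4) (by decide +kernel)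
theorem L06076 : Good (Phi V5.P V5.D 1 1) ⟨4, 15, 4, 11, 2, 3, 2, 2, 4, 2⟩ :=
  out_sound (S := T5.ds_pp) T5.ok_pp (w := 53) (j := 3) (by decide +kernel)
theorem L06077 : Good (Phi V5.P V5.D 1 1) ⟨2, 2, 3, 5, 2, 3, 2, 2, 4, 3⟩ :=
  out_sound (S := T5.ds_pp) T5.ok_pp (w := 39) (j := 3) (by decide +kernel)
theorem L06078 : Good (Phi V5.P V5.D 1 1) ⟨3, 6, 3, 5, 2, 3, 2, 2, 4, 3⟩ :=
  out_sound (S := T5.ds_pp) T5.ok_pp (w := 45) (j := 3) (by decide +kernel)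
theorem L06079 : Good (Phi V5.P V5.D 1 1) ⟨7, 112, 6, 40, 2, 3, 2, 2, 4, 3⟩ :=
  leafX_sound T5.ok_pp T5.Ypp.bz_eq (w := 237) (c := ⟨⟨.negSucc 4274, .negSucc 39, .ofNat 102, .ofNat 1087, .negSucc 1001, .ofNat 631⟩, ⟨.negSucc 2760, .ofNat 2, .ofNat 13, .ofNat 734, .negSucc 635, .ofNat 392⟩, ⟨.ofNat 2761, .ofNat 189, .negSucc 168, .negSucc 909, .ofNat 975, .negSucc 298⟩, ⟨.negSucc 6423, .negSucc 64, .ofNat 168, .negSucc 269, .negSucc 1655, .ofNat 1419⟩, ⟨.ofNat 464, .ofNat 105, .negSucc 65, .ofNat 2832, .ofNat 367, .negSucc 822⟩, .ofNat 7660, .negSucc 11423, .ofNat 0, .negSucc 11423, .ofNat 17883, .ofNat 0, .ofNat 128, .ofNat 938, .negSucc 244, .ofNat 0, .ofNat 621, .negSucc 147, .ofNat 0, .ofNat 0, .ofNat 1197, .ofNat 2074, .ofNat 0, .ofNat 0, .ofNat 1529207942985861093774813390962688000, .ofNat 0, .ofNat 0, .ofNat 0, .ofNat 0, .ofNat 0, .ofNat 0, .ofNat 0, .ofNat 0, .ofNat 0, .ofNat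 0, .ofNat 2491136340272770946748272066294484154023543832576, .ofNat 599867559349111821811382022467106111488, .ofNat 0⟩)
    (by decide +kernel)
theorem L06080 : Good (Phi V5.P V5.D 1 1) ⟨7, 112, 6, 41, 2, 3, 2, 2, 4, 3⟩ :=
  out_sound (S := T5.ds_pp) T5.ok_pp (w := 75) (j := 3) (by decide +kernel)
theorem L06081 : Good (Phi V5.P V5.D 1 1) ⟨7, 113, 5, 20, 3, 6, 2, 2, 4, 3⟩ :=
  leafX_sound T5.ok_pp T5.Ypp.bz_eq (w := 243) (c := ⟨⟨.negSucc 4353, .negSucc 124, .ofNat 67, .ofNat 338, .negSucc 962, .ofNat 816⟩, ⟨.negSucc 2785, .negSucc 73, .negSucc 54, .ofNat 229, .negSucc 630, .ofNat 526⟩, ⟨.ofNat 2988, .ofNat 26, .ofNat 52, .negSucc 369, .ofNat 1019, .negSucc 551⟩, ⟨.negSucc 6550, .negSucc 133, .ofNat 83, .negSucc 122, .negSucc 1443, .ofNat 1790⟩, ⟨.ofNat 590, .ofNat 38, .negSucc 29, .ofNat 920, .ofNat 117, .negSucc 978⟩, .ofNat 1452, .negSucc 1845, .ofNat 0, .negSucc 1845, .ofNat 3053,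 .ofNat 0, .ofNat 128, .ofNat 572, .negSucc 283, .ofNat 0, .ofNat 402, .negSucc 151, .ofNat 0, .ofNat 0, .ofNat 1116, .ofNat 1793, .ofNat 0, .ofNat 0, .ofNat 0, .ofNat 0, .ofNat 0, .ofNat 0, .ofNat 79424770593519510333338023480994528493568, .ofNat 0, .ofNat 0, .ofNat 0, .ofNat 0, .ofNat 0, .ofNat 0, .ofNat 0, .ofNat 0, .ofNat 0⟩)
    (by decide +kernel)
theorem L06082 : Good (Phi V5.P V5.D 1 1) ⟨7, 113, 5, 20, 3, 7, 2, 2, 4, 3⟩ :=
  leafX_sound T5.ok_pp T5.Ypp.bz_eq (w := 244) (c := ⟨⟨.negSucc 3813, .negSucc 11, .negSucc 77, .ofNat 798, .negSucc 1142, .ofNat 583⟩, ⟨.negSucc 2422, .ofNat 35, .negSucc 189, .ofNat 545, .negSucc 741, .ofNat 369⟩, ⟨.ofNat 2439, .negSucc 230, .ofNat 283, .negSucc 403, .ofNat 960, .negSucc 283⟩, ⟨.negSucc 6363, .negSucc 25, .negSucc 203, .negSucc 1037, .negSucc 2061, .ofNat 1990⟩, ⟨.ofNat 1505, .ofNat 88, .ofNat 60, .ofNat 3330, .ofNat 675, .negSucc 1788⟩,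 .ofNat 2386, .negSucc 3257, .ofNat 0, .negSucc 3257, .ofNat 5206, .ofNat 0, .ofNat 128, .ofNat 513, .negSucc 115, .ofNat 0, .ofNat 358, .negSucc 54, .ofNat 0, .ofNat 0, .ofNat 872, .ofNat 1641, .ofNat 0, .ofNat 0, .ofNat 9180602132926927146725636953166764310528, .ofNat 0, .ofNat 0, .ofNat 0, .ofNat 176706821031643983491904894427520202440704, .ofNat 0, .ofNat 0, .ofNat 0, .ofNat 851316357230111479427462562891736174034944, .ofNat 0, .ofNat 0, .ofNat 785438522909568824668570520848517783923215801778176, .ofNat 1069642899987034205387613367776113141481472, .ofNat 0⟩)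
    (by decide +kernel)
theorem L06083 : Good (Phi V5.P V5.D 1 1) ⟨6, 56, 6, 42, 2, 3, 3, 4, 4, 3⟩ :=
  leafX_sound T5.ok_pp T5.Ypp.bz_eq (w := 240) (c := ⟨⟨.negSucc 4267, .negSucc 1, .ofNat 170, .ofNat 1148, .negSucc 573, .ofNat 567⟩, ⟨.negSucc 2824, .negSucc 0, .ofNat 66, .ofNat 779, .negSucc 378, .ofNat 372⟩, ⟨.ofNat 2851, .ofNat 1, .ofNat 161, .negSucc 826, .ofNat 561, .negSucc 238⟩, ⟨.negSucc 6568, .negSucc 2, .ofNat 103, .negSucc 283, .negSucc 842, .ofNat 1482⟩, ⟨.ofNat 858, .ofNat 1, .ofNat 88, .ofNat 2875, .ofNat 55, .negSucc 1035⟩, .ofNat 10082, .negSucc 14810, .ofNat 0, .negSucc 14810, .ofNat 22558, .ofNat 0, .ofNat 128, .ofNat 2207, .negSucc 510, .ofNat 0, .ofNat 1483, .negSucc 324, .ofNat 0, .ofNat 0, .ofNat 2572, .ofNat 7325, .ofNat 0, .ofNat 0, .ofNat 0, .ofNat 0, .ofNat 0, .ofNat 0, .ofNat 5844564778359715628814081030790515261440, .ofNat 0, .ofNat 0, .ofNat 0, .ofNat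 503521472413081252034429356656351065931776, .ofNat 0, .ofNat 0, .ofNat 0, .ofNat 0, .ofNat 0⟩)
    (by decide +kernel)
theorem L06084 : Good (Phi V5.P V5.D 1 1) ⟨6, 56, 6, 42, 2, 3, 3, 5, 4, 3⟩ :=
  leafX_sound T5.ok_pp T5.Ypp.bz_eq (w := 244) (c := ⟨⟨.negSucc 4903, .negSucc 1, .negSucc 329, .ofNat 1095, .negSucc 529, .ofNat 799⟩, ⟨.negSucc 3242, .negSucc 0, .negSucc 291, .ofNat 744, .negSucc 347, .ofNat 522⟩, ⟨.ofNat 3549, .ofNat 2, .ofNat 137, .negSucc 940, .ofNat 432, .negSucc 441⟩, ⟨.negSucc 8078, .negSucc 3, .negSucc 169, .ofNat 576, .negSucc 650, .ofNat 1087⟩, ⟨.ofNat 1775, .ofNat 1, .negSucc 125, .ofNat 1468, .negSucc 131, .ofNat 45⟩, .ofNat 23254, .negSucc 34648, .ofNat 0, .negSucc 34648, .ofNat 52440, .ofNat 0, .ofNat 128, .ofNat 3512, .negSucc 825, .ofNat 0, .ofNat 2348, .negSucc 533, .ofNat 0, .ofNat 0, .ofNat 4730, .ofNat 12109, .ofNat 0, .ofNat 0, .ofNat 0, .ofNat 0, .ofNat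 0, .ofNat 0, .ofNat 57047856638955571273182771951022821605376, .ofNat 0, .ofNat 0, .ofNat 0, .ofNat 1352247091797681910575901680809104971399168, .ofNat 0, .ofNat 0, .ofNat 9526755731698130042356279647300408114606858305536, .ofNat 597140926874839621651878804970554727071744, .ofNat 0⟩)
    (by decide +kernel)
theorem L06085 : Good (Phi V5.P V5.D 1 1) ⟨6, 56, 6, 43, 2, 3, 2, 2, 4, 3⟩ :=
  out_sound (S := T5.ds_pp) T5.ok_pp (w := 69) (j := 3) (by decide +kernel)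
theorem L06086 : Good (Phi V5.P V5.D 1 1) ⟨7, 114, 5, 20, 2, 3, 2, 2, 5, 6⟩ :=
  leafX_sound T5.ok_pp T5.Ypp.bz_eq (w := 241) (c := ⟨⟨.negSucc 4518, .ofNat 2, .ofNat 25, .ofNat 1347, .negSucc 1219, .ofNat 413⟩, ⟨.negSucc 2628, .ofNat 1, .negSucc 344, .ofNat 913, .negSucc 800, .ofNat 265⟩, ⟨.ofNat 3078, .negSucc 1, .negSucc 11, .negSucc 1068, .ofNat 1076, .negSucc 148⟩, ⟨.negSucc 6611, .ofNat 4, .negSucc 3, .negSucc 378, .negSucc 1873, .ofNat 711⟩, ⟨.ofNat 449, .negSucc 0, .negSucc 2, .ofNat 3440, .ofNat 249, .negSucc 202⟩, .ofNat 9798, .negSucc 14383, .ofNat 0, .negSucc 14383, .ofNat 21914, .ofNat 0, .ofNat 128, .ofNat 1684, .negSucc 419, .ofNat 0, .ofNat 1130, .negSucc 267, .ofNat 0, .ofNat 0, .ofNat 1603, .ofNat 5853, .ofNat 0, .ofNat 0, .ofNat 2811134306300947163441418737119026741248, .ofNat 0, .ofNat 0, .ofNat 0, .ofNat 2909828776221193885541017187116781506920448, .ofNat 0, .ofNat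 0, .ofNat 0, .ofNat 180452131033630001894774618811138341601280, .ofNat 0, .ofNat 0, .ofNat 0, .ofNat 142043780365952661393219581421028636622848, .ofNat 0⟩)
    (by decide +kernel)
theorem L06087 : Good (Phi V5.P V5.D 1 1) ⟨8, 228, 6, 42, 2, 3, 3, 4, 5, 6⟩ :=
  leafX_sound T5.ok_pp T5.Ypp.bz_eq (w := 251) (c := ⟨⟨.negSucc 4429, .ofNat 280, .negSucc 253, .ofNat 1349, .negSucc 602, .ofNat 315⟩, ⟨.negSucc 2930, .ofNat 249, .negSucc 283, .ofNat 908, .negSucc 397, .ofNat 209⟩, ⟨.ofNat 3004, .ofNat 103, .negSucc 122, .negSucc 1030, .ofNat 581, .negSucc 110⟩, ⟨.negSucc 6502, .ofNat 48, .negSucc 104, .negSucc 724, .negSucc 938, .ofNat 989⟩, ⟨.ofNat 414, .ofNat 141, .ofNat 38, .ofNat 3924, .ofNat 143, .negSucc 818⟩, .ofNat 7181, .negSucc 10391, .ofNat 0, .negSucc 10391, .ofNat 15821, .ofNat 0, .ofNat 128, .ofNat 1715, .negSucc 360, .ofNat 0, .ofNat 1159, .negSucc 229, .ofNat 0, .ofNat 0, .ofNat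 1357, .ofNat 5876, .ofNat 0, .ofNat 0, .ofNat 895129639454103328021685859337755426816, .ofNat 0, .ofNat 0, .ofNat 0, .ofNat 315212100184929819345662719917874663653376, .ofNat 0, .ofNat 0, .ofNat 0, .ofNat 1184457138660231855895928874140884715700224, .ofNat 0, .ofNat 0, .ofNat 0, .ofNat 102547833405542791093164666862074299678720, .ofNat 0⟩)
    (by decide +kernel)
theorem L06088 : Good (Phi V5.P V5.D 1 1) ⟨8, 228, 6, 42, 2, 3, 3, 5, 5, 6⟩ :=
  leafX_sound T5.ok_pp T5.Ypp.bz_eq (w := 252) (c := ⟨⟨.negSucc 5090, .ofNat 28, .ofNat 26, .ofNat 1181, .negSucc 580, .ofNat 511⟩, ⟨.negSucc 3366, .ofNat 83, .negSucc 104, .ofNat 798, .negSucc 385, .ofNat 341⟩, ⟨.ofNat 3678, .negSucc 99, .ofNat 94, .negSucc 1094, .ofNat 499, .negSucc 223⟩, ⟨.negSucc 7237, .negSucc 208, .negSucc 228, .negSucc 1327, .negSucc 1121, .ofNat 1230⟩, ⟨.ofNat 138, .ofNat 417, .ofNat 360, .ofNat 4467, .ofNat 462, .negSucc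 767⟩, .ofNat 7282, .negSucc 10535, .ofNat 0, .negSucc 10535, .ofNat 16026, .ofNat 0, .ofNat 128, .ofNat 1888, .negSucc 632, .ofNat 0, .ofNat 1277, .negSucc 401, .ofNat 0, .ofNat 0, .ofNat 2510, .ofNat 4030, .ofNat 0, .ofNat 0, .ofNat 550637799592752130407659478985352413184, .ofNat 0, .ofNat 0, .ofNat 0, .ofNat 265301691481485185511749438601625369313280, .ofNat 0, .ofNat 0, .ofNat 0, .ofNat 0, .ofNat 0, .ofNat 0, .ofNat 0, .ofNat 0, .ofNat 0⟩)
    (by decide +kernel)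
theorem L06089 : Good (Phi V5.P V5.D 1 1) ⟨8, 229, 6, 42, 2, 3, 2, 2, 5, 6⟩ :=
  out_sound (S := T5.ds_pp) T5.ok_pp (w := 23) (j := 4) (by decide +kernel)
theorem L06090 : Good (Phi V5.P V5.D 1 1) ⟨8, 228, 6, 43, 2, 3, 2, 2, 5, 6⟩ :=
  out_sound (S := T5.ds_pp) T5.ok_pp (w := 81) (j := 3) (by decide +kernel)
theorem L06091 : Good (Phi V5.P V5.D 1 1) ⟨8, 229, 6, 43, 2, 3, 2, 2, 5, 6⟩ :=
  out_sound (S := T5.ds_pp) T5.ok_pp (w := 23) (j := 4) (by decide +kernel)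
theorem L06092 : Good (Phi V5.P V5.D 1 1) ⟨7, 114, 5, 20, 2, 3, 2, 2, 5, 7⟩ :=
  leafX_sound T5.ok_pp T5.Ypp.bz_eq (w := 245) (c := ⟨⟨.negSucc 4011, .ofNat 2, .negSucc 8, .ofNat 1088, .negSucc 930, .ofNat 312⟩, ⟨.negSucc 2861, .ofNat 1, .ofNat 201, .ofNat 734, .negSucc 613, .ofNat 205⟩, ⟨.ofNat 2648, .negSucc 0, .ofNat 28, .negSucc 711, .ofNat 957, .negSucc 82⟩, ⟨.negSucc 6269, .ofNat 3, .negSucc 1, .ofNat 899, .negSucc 927, .ofNat 341⟩, ⟨.ofNat 924, .negSucc 0, .ofNat 1, .ofNat 952, .negSucc 538, .ofNat 151⟩, .ofNat 26853, .negSucc 40070, .ofNat 0, .negSucc 40070, .ofNat 60606, .ofNat 0, .ofNat 128, .ofNat 2482, .negSucc 376, .ofNat 0, .ofNat 1660, .negSucc 242, .ofNat 0, .ofNat 0, .ofNat 2722, .ofNat 8058, .ofNat 0, .ofNat 0, .ofNat 16704018951317963480440811051450290405376, .ofNat 0, .ofNat 0, .ofNat 22432516541427036102455534444202193032684263964672, .ofNat 27406487470019626241025400103423521511702528,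 .ofNat 0, .ofNat 0, .ofNat 37757461074315254195798334377217386221482090168320, .ofNat 4827910546264141171761880467795680901988352, .ofNat 0, .ofNat 0, .ofNat 22092778659236757788067056230190269832354653536256, .ofNat 938586887126268752715599523362729761964032, .ofNat 0⟩)
    (by decide +kernel)
theorem L06093 : Good (Phi V5.P V5.D 1 1) ⟨7, 114, 6, 42, 3, 6, 2, 2, 5, 7⟩ :=
  leafX_sound T5.ok_pp T5.Ypp.bz_eq (w := 261) (c := ⟨⟨.negSucc 3941, .ofNat 156, .negSucc 121, .ofNat 323, .negSucc 919, .ofNat 366⟩, ⟨.negSucc 2607, .ofNat 113, .negSucc 125, .ofNat 218, .negSucc 611, .ofNat 242⟩, ⟨.ofNat 2765, .negSucc 45, .ofNat 70, .negSucc 362, .ofNat 979, .negSucc 270⟩, ⟨.negSucc 5728, .ofNat 15, .negSucc 2, .ofNat 215, .negSucc 864, .ofNat 424⟩, ⟨.ofNat 280, .negSucc 13, .negSucc 48, .ofNat 357, .negSucc 621, .ofNat 123⟩, .ofNat 20515, .negSucc 30198, .ofNat 0, .negSucc 30198, .ofNat 45245,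 .ofNat 0, .ofNat 128, .ofNat 1801, .negSucc 777, .ofNat 0, .ofNat 1218, .negSucc 508, .ofNat 0, .ofNat 0, .ofNat 3896, .ofNat 12663, .ofNat 0, .ofNat 0, .ofNat 0, .ofNat 0, .ofNat 0, .ofNat 0, .ofNat 5468303669763429756233139278339458445827112960, .ofNat 377549578628429476207165245204344480636419767427150118912, .ofNat 0, .ofNat 314456062606714790176119091110799777196105877623406592, .ofNat 2462385846622194642055104780855729282500001792, .ofNat 0, .ofNat 0, .ofNat 0, .ofNat 0, .ofNat 0⟩)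
    (by decide +kernel)
theorem L06094 : Good (Phi V5.P V5.D 1 1) ⟨7, 114, 6, 42, 3, 7, 2, 2, 5, 7⟩ :=
  leafX_sound T5.ok_pp T5.Ypp.bz_eq (w := 254) (c := ⟨⟨.negSucc 3563, .negSucc 424, .ofNat 211, .ofNat 761, .negSucc 1056, .ofNat 248⟩, ⟨.negSucc 2354, .negSucc 295, .ofNat 107, .ofNat 514, .negSucc 700, .ofNat 164⟩, ⟨.ofNat 2295, .ofNat 127, .negSucc 48, .negSucc 280, .ofNat 940, .negSucc 115⟩, ⟨.negSucc 5559, .negSucc 156, .negSucc 26, .negSucc 957, .negSucc 1619, .ofNat 835⟩, ⟨.ofNat 845, .negSucc 24, .ofNat 147, .ofNat 3039, .ofNat 210, .negSucc 729⟩, .ofNat 4533, .negSucc 6421, .ofNat 0, .negSucc 6421, .ofNat 9863, .ofNat 0, .ofNat 128, .ofNat 899, .negSucc 134, .ofNat 0, .ofNat 619, .negSucc 73, .ofNat 0, .ofNat 0, .ofNat 1416, .ofNat 3573, .ofNat 0, .ofNat 0, .ofNat 1131831329767637444761566588472679997636608, .ofNat 0, .ofNat 0, .ofNat 133617329666533691945919501751958898443132342940729344,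 .ofNat 161553891224185691936720718490043722223321088, .ofNat 0, .ofNat 0, .ofNat 214210568006564834491390144686886160743642266081427456, .ofNat 750944849504976194816330021080750080814743552, .ofNat 124506382182695521478931991094036388960003022640319037440, .ofNat 0, .ofNat 319708927207327319753879401500079840763259812585668608, .ofNat 174971218065594586919266436922507586172878848, .ofNat 0⟩)
    (by decide +kernel)
theorem L06095 : Good (Phi V5.P V5.D 1 1) ⟨8, 228, 6, 43, 2, 3, 2, 2, 5, 7⟩ :=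
  out_sound (S := T5.ds_pp) T5.ok_pp (w := 81) (j := 3) (by decide +kernel)
theorem L06096 : Good (Phi V5.P V5.D 1 1) ⟨8, 229, 6, 43, 2, 3, 2, 2, 5, 7⟩ :=
  out_sound (S := T5.ds_pp) T5.ok_pp (w := 23) (j := 4) (by decide +kernel)
theorem L06097 : Good (Phi V5.P V5.D 1 1) ⟨7, 115, 4, 10, 2, 3, 2, 2, 4, 3⟩ :=
  out_sound (S := T5.ds_pp) T5.ok_pp (w := 21) (j := 4) (by decide +kernel)
theorem L06098 : Good (Phi V5.P V5.D 1 1) ⟨6, 56, 4, 11, 2, 3, 2, 2, 4, 3⟩ :=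
  out_sound (S := T5.ds_pp) T5.ok_pp (w := 65) (j := 3) (by decide +kernel)
theorem L06099 : Good (Phi V5.P V5.D 1 1) ⟨7, 114, 5, 22, 2, 3, 2, 2, 4, 3⟩ :=
  out_sound (S := T5.ds_pp) T5.ok_pp (w := 73) (j := 3) (by decide +kernel)
theorem L06100 : Good (Phi V5.P V5.D 1 1) ⟨7, 115, 5, 22, 2, 3, 2, 2, 4, 3⟩ :=
  out_sound (S := T5.ds_pp) T5.ok_pp (w := 21) (j := 4) (by decide +kernel)
theorem L06101 : Good (Phi V5.P V5.D 1 1) ⟨6, 57, 5, 23, 2, 3, 2, 2, 4, 3⟩ :=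
  out_sound (S := T5.ds_pp) T5.ok_pp (w := 67) (j := 3) (by decide +kernel)
theorem L06102 : Good (Phi V5.P V5.D 1 1) ⟨5, 29, 3, 5, 2, 3, 2, 2, 4, 3⟩ :=
  out_sound (S := T5.ds_pp) T5.ok_pp (w := 17) (j := 4) (by decide +kernel)
theorem L06103 : Good (Phi V5.P V5.D 1 1) ⟨4, 15, 3, 5, 2, 3, 2, 2, 4, 3⟩ :=
  out_sound (S := T5.ds_pp) T5.ok_pp (w := 51) (j := 3) (by decide +kernel)
theorem L06104 : Good (Phi V5.P V5.D 1 1) ⟨2, 2, 2, 3, 2, 3, 2, 2, 2, 0⟩ :=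
  out_sound (S := T5.ds_pp) T5.ok_pp (w := 37) (j := 3) (by decide +kernel)
theorem L06105 : Good (Phi V5.P V5.D 1 1) ⟨3, 6, 2, 3, 2, 3, 2, 2, 2, 0⟩ :=
  out_sound (S := T5.ds_pp) T5.ok_pp (w := 43) (j := 3) (by decide +kernel)
theorem L06106 : Good (Phi V5.P V5.D 1 1) ⟨5, 28, 3, 6, 2, 3, 2, 2, 2, 0⟩ :=
  out_sound (S := T5.ds_pp) T5.ok_pp (w := 57) (j := 3) (by decide +kernel)
theorem L06107 : Good (Phi V5.P V5.D 1 1) ⟨5, 29, 3, 6, 2, 3, 2, 2, 2, 0⟩ :=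
  out_sound (S := T5.ds_pp) T5.ok_pp (w := 17) (j := 4) (by decide +kernel)
theorem L06108 : Good (Phi V5.P V5.D 1 1) ⟨4, 14, 3, 7, 2, 3, 2, 2, 2, 0⟩ :=
  out_sound (S := T5.ds_pp) T5.ok_pp (w := 51) (j := 3) (by decide +kernel)
theorem L06109 : Good (Phi V5.P V5.D 1 1) ⟨4, 15, 2, 3, 2, 3, 2, 2, 2, 0⟩ :=
  out_sound (S := T5.ds_pp) T5.ok_pp (w := 15) (j := 4) (by decide +kernel)
theorem L06110 : Good (Phi V5.P V5.D 1 1) ⟨2, 2, 4, 8, 3, 6, 3, 6, 3, 0⟩ :=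
  out_sound (S := T5.ds_pp) T5.ok_pp (w := 41) (j := 3) (by decide +kernel)
theorem L06111 : Good (Phi V5.P V5.D 1 1) ⟨4, 12, 4, 8, 3, 6, 3, 6, 4, 0⟩ :=
  out_sound (S := T5.ds_pp) T5.ok_pp (w := 53) (j := 3) (by decide +kernel)
theorem L06112 : Good (Phi V5.P V5.D 1 1) ⟨4, 13, 4, 8, 3, 6, 3, 6, 4, 0⟩ :=
  leafX_sound T5.ok_pp T5.Ypp.bz_eq (w := 234) (c := ⟨⟨.negSucc 1041, .negSucc 4511, .ofNat 732, .negSucc 1689, .negSucc 1290, .negSucc 3700⟩, ⟨.negSucc 551, .negSucc 2205, .negSucc 57, .negSucc 794, .negSucc 702, .negSucc 2122⟩, ⟨.ofNat 789, .ofNat 2943, .negSucc 386, .ofNat 680, .ofNat 1443, .ofNat 2445⟩, ⟨.negSucc 1496, .negSucc 8292, .ofNat 1079, .negSucc 5469, .negSucc 3328, .negSucc 6035⟩, ⟨.negSucc 354, .ofNat 3771, .negSucc 389, .ofNat 5041, .ofNat 2493, .ofNat 1030⟩, .ofNat 1482, .negSucc 2038, .ofNat 0, .negSucc 2038, .ofNat 3708, .ofNat 0, .ofNat 128, .ofNat 519, .negSucc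 2154, .ofNat 0, .ofNat 324, .negSucc 1160, .ofNat 0, .ofNat 0, .ofNat 1548, .ofNat 134, .ofNat 0, .ofNat 0, .ofNat 253121741836803418275223829844218121027584, .ofNat 0, .ofNat 0, .ofNat 0, .ofNat 6665710661981403746004223132611788513738752, .ofNat 0, .ofNat 0, .ofNat 0, .ofNat 19228883107911387531962195550172157256400896, .ofNat 0, .ofNat 0, .ofNat 0, .ofNat 26137439019629597962435090955837758645469184, .ofNat 0⟩)
    (by decide +kernel)
theorem L06113 : Good (Phi V5.P V5.D 1 1) ⟨3, 6, 4, 8, 3, 6, 3, 6, 4, 1⟩ :=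
  leafX_sound T5.ok_pp T5.Ypp.bz_eq (w := 229) (c := ⟨⟨.negSucc 5182, .negSucc 4460, .ofNat 551, .negSucc 433, .negSucc 974, .ofNat 1912⟩, ⟨.negSucc 3012, .negSucc 2118, .negSucc 161, .negSucc 124, .negSucc 493, .ofNat 1010⟩, ⟨.ofNat 3449, .ofNat 3031, .negSucc 299, .negSucc 40, .ofNat 1165, .negSucc 959⟩, ⟨.negSucc 10186, .negSucc 5983, .ofNat 271, .negSucc 2896, .negSucc 2576, .ofNat 4481⟩, ⟨.ofNat 2719, .ofNat 1351, .ofNat 607, .ofNat 3870, .ofNat 1988, .negSucc 2945⟩, .ofNat 1456, .negSucc 1995, .ofNat 0, .negSucc 1995, .ofNat 3638, .ofNat 0, .ofNat 128, .ofNat 352, .negSucc 773, .ofNat 0, .ofNat 220, .negSucc 402, .ofNat 0, .ofNat 0, .ofNat 748, .ofNat 244, .ofNat 0, .ofNat 0, .ofNat 450259604782908226188440760286736837246976, .ofNat 0, .ofNat 0, .ofNat 0, .ofNat 21066188671241254639973402008010786972106752, .ofNat 0, .ofNat 0, .ofNat 0, .ofNat 12251397852335319420903482508217259200086016,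 .ofNat 0, .ofNat 0, .ofNat 0, .ofNat 39653465025340704523719065390705999389655040, .ofNat 0⟩)
    (by decide +kernel)
theorem L06114 : Good (Phi V5.P V5.D 1 1) ⟨3, 7, 4, 8, 3, 6, 3, 6, 3, 0⟩ :=
  out_sound (S := T5.ds_pp) T5.ok_pp (w := 47) (j := 3) (by decide +kernel)
theorem L06115 : Good (Phi V5.P V5.D 1 1) ⟨2, 2, 4, 9, 3, 6, 3, 6, 3, 0⟩ :=
  out_sound (S := T5.ds_pp) T5.ok_pp (w := 41) (j := 3) (by decide +kernel)
theorem L06116 : Good (Phi V5.P V5.D 1 1) ⟨3, 6, 4, 9, 3, 6, 3, 6, 4, 0⟩ :=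
  leafX_sound T5.ok_pp T5.Ypp.bz_eq (w := 231) (c := ⟨⟨.ofNat 939, .negSucc 4441, .ofNat 966, .negSucc 1355, .negSucc 1304, .negSucc 4587⟩, ⟨.ofNat 794, .negSucc 2759, .ofNat 242, .negSucc 747, .negSucc 745, .negSucc 2803⟩, ⟨.ofNat 157, .ofNat 2293, .negSucc 499, .ofNat 520, .ofNat 1441, .ofNat 2947⟩, ⟨.ofNat 1248, .negSucc 7421, .ofNat 1158, .negSucc 5554, .negSucc 3432, .negSucc 7273⟩, ⟨.ofNat 620, .ofNat 1277, .ofNat 364, .ofNat 5790, .ofNat 2542, .ofNat 1035⟩, .ofNat 1789, .negSucc 2456, .ofNat 0, .negSucc 2456, .ofNat 4206, .ofNat 0, .ofNat 128, .ofNat 667, .negSucc 2452, .ofNat 0, .ofNat 429, .negSucc 1407, .ofNat 0, .ofNat 0, .ofNat 1789, .ofNat 212, .ofNat 0, .ofNat 0, .ofNat 174021591510374283131282622325897465692160, .ofNat 0, .ofNat 0, .ofNat 0, .ofNat 29947281673487542407959672294646523526905856, .ofNat 0, .ofNat 0, .ofNat 0, .ofNat 10165642612598824342827754460782703597846528,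 .ofNat 0, .ofNat 0, .ofNat 0, .ofNat 274286773290421059761513409932749979655340032, .ofNat 0⟩)
    (by decide +kernel)
theorem L06117 : Good (Phi V5.P V5.D 1 1) ⟨3, 6, 4, 9, 3, 6, 3, 6, 4, 1⟩ :=
  leafX_sound T5.ok_pp T5.Ypp.bz_eq (w := 231) (c := ⟨⟨.negSucc 5196, .negSucc 4233, .ofNat 626, .negSucc 171, .negSucc 818, .ofNat 1950⟩, ⟨.negSucc 3483, .negSucc 2012, .negSucc 111, .negSucc 11, .negSucc 459, .ofNat 1119⟩, ⟨.ofNat 2766, .ofNat 3667, .negSucc 434, .negSucc 205, .ofNat 1099, .negSucc 965⟩, ⟨.negSucc 12714, .negSucc 3218, .ofNat 195, .negSucc 2646, .negSucc 2347, .ofNat 4294⟩, ⟨.ofNat 5268, .negSucc 1136, .ofNat 665, .ofNat 3943, .ofNat 1903, .negSucc 2458⟩, .ofNat 3058, .negSucc 4488, .ofNat 0, .negSucc 4488, .ofNat 7480, .ofNat 0, .ofNat 128, .ofNat 607, .negSucc 1264, .ofNat 0, .ofNat 387, .negSucc 734, .ofNat 0, .ofNat 0, .ofNat 1261, .ofNat 243, .ofNat 0, .ofNat 0, .ofNat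 233299696611835533730511965173607911391232, .ofNat 0, .ofNat 0, .ofNat 0, .ofNat 138332989197078762965890011619157485536935936, .ofNat 0, .ofNat 0, .ofNat 0, .ofNat 6028480516934268199110370014962196672413696, .ofNat 0, .ofNat 0, .ofNat 0, .ofNat 0, .ofNat 0⟩)
    (by decide +kernel)
theorem L06118 : Good (Phi V5.P V5.D 1 1) ⟨4, 14, 4, 9, 3, 6, 3, 6, 4, 0⟩ :=
  leafX_sound T5.ok_pp T5.Ypp.bz_eq (w := 234) (c := ⟨⟨.negSucc 2685, .negSucc 2093, .ofNat 686, .negSucc 1673, .negSucc 1437, .negSucc 5135⟩, ⟨.negSucc 1238, .negSucc 598, .negSucc 155, .negSucc 990, .negSucc 865, .negSucc 3211⟩, ⟨.ofNat 1998, .ofNat 1564, .negSucc 397, .ofNat 707, .ofNat 1538, .ofNat 3291⟩, ⟨.negSucc 4975, .negSucc 2893, .ofNat 618, .negSucc 6059, .negSucc 3701, .negSucc 8020⟩, ⟨.ofNat 2179, .ofNat 1056, .ofNat 140, .ofNat 5707, .ofNat 2618, .ofNat 1065⟩, .ofNat 1600, .negSucc 1946, .ofNat 0, .negSucc 1946, .ofNat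 3040, .ofNat 0, .ofNat 128, .ofNat 491, .negSucc 1560, .ofNat 0, .ofNat 357, .negSucc 921, .ofNat 0, .ofNat 0, .ofNat 1091, .ofNat 255, .ofNat 0, .ofNat 0, .ofNat 306641989434092313524051572673975177707520, .ofNat 0, .ofNat 0, .ofNat 0, .ofNat 11266254013313062916066993247470731910971392, .ofNat 0, .ofNat 0, .ofNat 0, .ofNat 2045838646720419624683051719462635635212288, .ofNat 0, .ofNat 0, .ofNat 0, .ofNat 23470756448771771422590627540467762751078400, .ofNat 0⟩)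
    (by decide +kernel)
theorem L06119 : Good (Phi V5.P V5.D 1 1) ⟨4, 14, 4, 9, 3, 6, 3, 6, 4, 1⟩ :=
  leafX_sound T5.ok_pp T5.Ypp.bz_eq (w := 234) (c := ⟨⟨.negSucc 9390, .negSucc 901, .ofNat 308, .negSucc 94, .negSucc 939, .ofNat 1961⟩, ⟨.negSucc 5466, .negSucc 123, .negSucc 343, .negSucc 8, .negSucc 570, .ofNat 1204⟩, ⟨.ofNat 6389, .ofNat 799, .negSucc 203, .negSucc 220, .ofNat 1162, .negSucc 988⟩, ⟨.negSucc 15815, .negSucc 686, .negSucc 296, .negSucc 2713, .negSucc 2689, .ofNat 4551⟩, ⟨.ofNat 4111, .ofNat 705, .ofNat 732, .ofNat 4053, .ofNat 2119, .negSucc 2806⟩, .ofNat 1670, .negSucc 2046, .ofNat 0, .negSucc 2046, .ofNat 3184, .ofNat 0, .ofNat 128, .ofNat 392, .negSucc 996, .ofNat 0, .ofNat 285, .negSucc 563, .ofNat 0, .ofNat 0, .ofNat 925, .ofNat 399, .ofNat 0, .ofNat 0, .ofNat 474200510466665969528048630970913357037568, .ofNat 0, .ofNat 0, .ofNat 0, .ofNat 25870502712761907612272241198590748379840512,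 .ofNat 0, .ofNat 0, .ofNat 0, .ofNat 14582000588660437828878423024433429483618304, .ofNat 0, .ofNat 0, .ofNat 0, .ofNat 27673632626846681533596468947063854510112768, .ofNat 1135141728489794218822747186787884524184648638529536⟩)
    (by decide +kernel)
theorem L06120 : Good (Phi V5.P V5.D 1 1) ⟨4, 15, 4, 9, 3, 6, 3, 6, 3, 0⟩ :=
  out_sound (S := T5.ds_pp) T5.ok_pp (w := 53) (j := 3) (by decide +kernel)
theorem L06121 : Good (Phi V5.P V5.D 1 1) ⟨2, 2, 4, 8, 3, 6, 3, 7, 4, 0⟩ :=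
  out_sound (S := T5.ds_pp) T5.ok_pp (w := 41) (j := 3) (by decide +kernel)
theorem L06122 : Good (Phi V5.P V5.D 1 1) ⟨4, 12, 4, 8, 3, 6, 3, 7, 4, 0⟩ :=
  out_sound (S := T5.ds_pp) T5.ok_pp (w := 53) (j := 3) (by decide +kernel)
theorem L06123 : Good (Phi V5.P V5.D 1 1) ⟨5, 26, 4, 8, 3, 6, 3, 7, 4, 0⟩ :=
  leafX_sound T5.ok_pp T5.Ypp.bz_eq (w := 239) (c := ⟨⟨.negSucc 1073, .negSucc 2106, .negSucc 243, .negSucc 1677, .negSucc 620, .negSucc 6157⟩, ⟨.negSucc 657, .negSucc 947, .negSucc 633, .negSucc 797, .negSucc 236, .negSucc 3386⟩, ⟨.ofNat 1243, .ofNat 1608, .negSucc 43, .ofNat 766, .ofNat 1374, .ofNat 3897⟩, ⟨.negSucc 2566, .negSucc 3834, .negSucc 1261, .negSucc 5750, .negSucc 2907, .negSucc 10227⟩, ⟨.ofNat 1526, .ofNat 1601, .ofNat 1104, .ofNat 5767, .ofNat 3671, .ofNat 1762⟩, .ofNat 1457, .negSucc 2059, .ofNat 0, .negSucc 2059, .ofNat 3890, .ofNat 0, .ofNat 128, .ofNat 588, .negSucc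 3294, .ofNat 0, .ofNat 362, .negSucc 1698, .ofNat 0, .ofNat 0, .ofNat 2415, .ofNat 162, .ofNat 0, .ofNat 0, .ofNat 0, .ofNat 0, .ofNat 0, .ofNat 0, .ofNat 2920487068937125081908576269622843841445888, .ofNat 0, .ofNat 0, .ofNat 0, .ofNat 570935297279457091583192638949418306895872, .ofNat 0, .ofNat 0, .ofNat 0, .ofNat 23005561037125422536530938511235261466148864, .ofNat 0⟩)
    (by decide +kernel)
theorem L06124 : Good (Phi V5.P V5.D 1 1) ⟨6, 54, 4, 8, 3, 6, 3, 7, 5, 0⟩ :=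
  leafX_sound T5.ok_pp T5.Ypp.bz_eq (w := 248) (c := ⟨⟨.negSucc 2419, .negSucc 1102, .ofNat 2554, .negSucc 3751, .ofNat 830, .negSucc 4023⟩, ⟨.negSucc 1170, .negSucc 415, .ofNat 861, .negSucc 1925, .ofNat 599, .negSucc 2269⟩, ⟨.ofNat 2256, .ofNat 924, .negSucc 1798, .ofNat 2144, .ofNat 648, .ofNat 2437⟩, ⟨.negSucc 6217, .negSucc 1945, .ofNat 4032, .negSucc 8467, .negSucc 285, .negSucc 6358⟩, ⟨.ofNat 4749, .ofNat 715, .negSucc 999, .ofNat 5163, .ofNat 2669, .ofNat 757⟩, .ofNat 2145, .negSucc 3159, .ofNat 0, .negSucc 3159, .ofNat 5632, .ofNat 0, .ofNat 128, .ofNat 239, .negSucc 2017, .ofNat 0, .ofNat 150, .negSucc 1100, .ofNat 0, .ofNat 0, .ofNat 1422, .ofNat 95, .ofNat 0, .ofNat 0, .ofNat 0, .ofNat 0, .ofNat 0, .ofNat 0, .ofNat 80424025767799129133645347590274092529352704, .ofNat 0, .ofNat 0, .ofNat 0, .ofNat 10249185282881788972202872527680886676652032, .ofNat 0, .ofNat 0, .ofNat 0,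 .ofNat 0, .ofNat 0⟩)
    (by decide +kernel)
theorem L06125 : Good (Phi V5.P V5.D 1 1) ⟨6, 55, 4, 8, 3, 6, 3, 7, 5, 0⟩ :=
  leafX_sound T5.ok_pp T5.Ypp.bz_eq (w := 248) (c := ⟨⟨.negSucc 4846, .negSucc 1127, .ofNat 4013, .negSucc 3748, .ofNat 1231, .negSucc 4485⟩, ⟨.negSucc 2277, .negSucc 466, .ofNat 1783, .negSucc 2055, .ofNat 826, .negSucc 2649⟩, ⟨.ofNat 3945, .ofNat 906, .negSucc 2599, .ofNat 2126, .ofNat 393, .ofNat 2733⟩, ⟨.negSucc 9073, .negSucc 2637, .ofNat 6373, .negSucc 9475, .negSucc 481, .negSucc 7612⟩, ⟨.ofNat 3953, .ofNat 1800, .negSucc 1540, .ofNat 6767, .ofNat 3805, .ofNat 1843⟩, .ofNat 2048, .negSucc 2868, .ofNat 0, .negSucc 2868, .ofNat 4905, .ofNat 0, .ofNat 128, .ofNat 284, .negSucc 2202, .ofNat 0, .ofNat 189, .negSucc 1220, .ofNat 0, .ofNat 0, .ofNat 1530, .ofNat 192, .ofNat 0, .ofNat 0, .ofNat 1765690303136218416484820060457229847887872, .ofNat 0, .ofNat 0, .ofNat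 0, .ofNat 121071065780056453892625815843175816472035328, .ofNat 0, .ofNat 0, .ofNat 0, .ofNat 14753780814247906309407166656256143848898560, .ofNat 0, .ofNat 0, .ofNat 0, .ofNat 62095223217163008742752335143819356502228992, .ofNat 0⟩)
    (by decide +kernel)
theorem L06126 : Good (Phi V5.P V5.D 1 1) ⟨5, 27, 4, 8, 3, 6, 3, 7, 5, 1⟩ :=
  leafX_sound T5.ok_pp T5.Ypp.bz_eq (w := 243) (c := ⟨⟨.negSucc 7011, .negSucc 4455, .ofNat 2890, .negSucc 1504, .negSucc 2290, .negSucc 1964⟩, ⟨.negSucc 3635, .negSucc 2191, .ofNat 869, .negSucc 679, .negSucc 1155, .negSucc 1137⟩, ⟨.ofNat 5122, .ofNat 3177, .negSucc 1880, .ofNat 673, .ofNat 2615, .ofNat 1363⟩, ⟨.negSucc 10744, .negSucc 8763, .ofNat 3677, .negSucc 6666, .negSucc 6980, .negSucc 3658⟩, ⟨.ofNat 1027, .ofNat 4317, .ofNat 314, .ofNat 7666, .ofNat 6242, .ofNat 1256⟩, .ofNat 2007, .negSucc 2864, .ofNat 0, .negSucc 2864, .ofNat 5010, .ofNat 0, .ofNat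 128, .ofNat 254, .negSucc 1685, .ofNat 0, .ofNat 163, .negSucc 919, .ofNat 0, .ofNat 0, .ofNat 1268, .ofNat 95, .ofNat 0, .ofNat 0, .ofNat 7783284839813176146077556444363174421987328, .ofNat 0, .ofNat 0, .ofNat 1582076641873866208491764591891638293669880004608, .ofNat 251100697122963371582865078767771011459842048, .ofNat 0, .ofNat 0, .ofNat 0, .ofNat 37718530156400334673268202365012236287606784, .ofNat 0, .ofNat 0, .ofNat 0, .ofNat 191900768253977125090627718666239553767997440, .ofNat 0⟩)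
    (by decide +kernel)
theorem L06127 : Good (Phi V5.P V5.D 1 1) ⟨3, 7, 4, 8, 3, 6, 3, 7, 4, 0⟩ :=
  out_sound (S := T5.ds_pp) T5.ok_pp (w := 47) (j := 3) (by decide +kernel)
theorem L06128 : Good (Phi V5.P V5.D 1 1) ⟨2, 2, 4, 8, 3, 6, 3, 7, 4, 1⟩ :=
  out_sound (S := T5.ds_pp) T5.ok_pp (w := 41) (j := 3) (by decide +kernel)
theorem L06129 : Good (Phi V5.P V5.D 1 1) ⟨4, 12, 4, 8, 3, 6, 3, 7, 4, 1⟩ :=
  out_sound (S := T5.ds_pp) T5.ok_pp (w := 53) (j := 3) (by decide +kernel)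
theorem L06130 : Good (Phi V5.P V5.D 1 1) ⟨5, 26, 4, 8, 3, 6, 3, 7, 4, 1⟩ :=
  leafX_sound T5.ok_pp T5.Ypp.bz_eq (w := 239) (c := ⟨⟨.negSucc 9942, .negSucc 328, .negSucc 346, .ofNat 225, .negSucc 1337, .ofNat 2732⟩, ⟨.negSucc 5460, .negSucc 27, .negSucc 750, .ofNat 241, .negSucc 635, .ofNat 1410⟩, ⟨.ofNat 7159, .ofNat 245, .ofNat 380, .negSucc 405, .ofNat 1685, .negSucc 1659⟩, ⟨.negSucc 18097, .negSucc 279, .negSucc 665, .negSucc 1830, .negSucc 3935, .ofNat 5844⟩, ⟨.ofNat 5396, .ofNat 192, .negSucc 35, .ofNat 3918, .ofNat 3510, .negSucc 3217⟩, .ofNat 2875, .negSucc 4525, .ofNat 0, .negSucc 4525, .ofNat 8210, .ofNat 0, .ofNat 128, .ofNat 544, .negSucc 1197, .ofNat 0, .ofNat 327, .negSucc 625, .ofNat 0, .ofNat 0, .ofNat 1157, .ofNat 364, .ofNat 0, .ofNat 0, .ofNat 0, .ofNat 0, .ofNat 0, .ofNat 765964127544377194469787633039653186342471335936, .ofNat 5468518014429163479339173816057190238126080,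 .ofNat 0, .ofNat 0, .ofNat 562556368476546208557683430638785601056184205312, .ofNat 4025738358564320407358063788946281432350720, .ofNat 0, .ofNat 0, .ofNat 879139021998676526554667004373091206265858686976, .ofNat 9681343294207625664674612088365198107213824, .ofNat 0⟩)
    (by decide +kernel)
theorem L06131 : Good (Phi V5.P V5.D 1 1) ⟨5, 27, 4, 8, 3, 6, 3, 7, 4, 1⟩ :=
  leafX_sound T5.ok_pp T5.Ypp.bz_eq (w := 238) (c := ⟨⟨.negSucc 10424, .negSucc 1685, .ofNat 795, .ofNat 153, .negSucc 1500, .ofNat 2871⟩, ⟨.negSucc 5612, .negSucc 795, .negSucc 85, .ofNat 228, .negSucc 704, .ofNat 1521⟩, ⟨.ofNat 7455, .ofNat 1403, .negSucc 549, .negSucc 294, .ofNat 1923, .negSucc 1773⟩, ⟨.negSucc 18332, .negSucc 3579, .ofNat 1092, .negSucc 2311, .negSucc 4934, .ofNat 6303⟩, ⟨.ofNat 5300, .ofNat 2350, .negSucc 182, .ofNat 4382, .ofNat 4761, .negSucc 3693⟩, .ofNat 2007, .negSucc 2864, .ofNat 0, .negSucc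 2864, .ofNat 5010, .ofNat 0, .ofNat 128, .ofNat 383, .negSucc 1015, .ofNat 0, .ofNat 247, .negSucc 540, .ofNat 0, .ofNat 0, .ofNat 950, .ofNat 85, .ofNat 0, .ofNat 0, .ofNat 153888566728362346762692434676362237706240, .ofNat 0, .ofNat 0, .ofNat 0, .ofNat 5020170242056149444151926896112464677568512, .ofNat 0, .ofNat 0, .ofNat 245548056648167981762066146928440012101994414080, .ofNat 1886986279314924036730465584060952939069440, .ofNat 0, .ofNat 0, .ofNat 1194334763460986387278879808145541135389463412736, .ofNat 5370523024138268089771726056520736500088832, .ofNat 0⟩)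
    (by decide +kernel)
theorem L06132 : Good (Phi V5.P V5.D 1 1) ⟨3, 7, 4, 8, 3, 6, 3, 7, 4, 1⟩ :=
  out_sound (S := T5.ds_pp) T5.ok_pp (w := 47) (j := 3) (by decide +kernel)
theorem L06133 : Good (Phi V5.P V5.D 1 1) ⟨2, 2, 4, 9, 3, 6, 3, 7, 3, 0⟩ :=
  out_sound (S := T5.ds_pp) T5.ok_pp (w := 41) (j := 3) (by decide +kernel)
theorem L06134 : Good (Phi V5.P V5.D 1 1) ⟨4, 12, 4, 9, 3, 6, 3, 7, 4, 0⟩ :=
  out_sound (S := T5.ds_pp) T5.ok_pp (w := 53) (j := 3) (by decide +kernel)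
theorem L06135 : Good (Phi V5.P V5.D 1 1) ⟨5, 26, 4, 9, 3, 6, 3, 7, 4, 0⟩ :=
  out_sound (S := T5.ds_pp) T5.ok_pp (w := 59) (j := 3) (by decide +kernel)
theorem L06136 : Good (Phi V5.P V5.D 1 1) ⟨6, 54, 4, 9, 3, 6, 3, 7, 4, 0⟩ :=
  out_sound (S := T5.ds_pp) T5.ok_pp (w := 65) (j := 3) (by decide +kernel)
theorem L06137 : Good (Phi V5.P V5.D 1 1) ⟨6, 55, 5, 18, 3, 6, 3, 7, 4, 0⟩ :=
  leafX_sound T5.ok_pp T5.Ypp.bz_eq (w := 248) (c := ⟨⟨.negSucc 1647, .negSucc 1288, .ofNat 1122, .negSucc 2233, .negSucc 60, .negSucc 7648⟩, ⟨.negSucc 866, .negSucc 562, .ofNat 337, .negSucc 1234, .ofNat 42, .negSucc 4625⟩, ⟨.ofNat 1752, .ofNat 1076, .negSucc 792, .ofNat 1197, .ofNat 1174, .ofNat 4898⟩, ⟨.negSucc 4386, .negSucc 1877, .ofNat 1271, .negSucc 6973, .negSucc 2018, .negSucc 12800⟩, ⟨.ofNat 3340, .ofNat 161, .ofNat 332, .ofNat 6152, .ofNat 3213, .ofNat 2865⟩, .ofNat 3011, .negSucc 4410, .ofNat 0,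 .negSucc 4410, .ofNat 7352, .ofNat 0, .ofNat 128, .ofNat 476, .negSucc 2677, .ofNat 0, .ofNat 307, .negSucc 1568, .ofNat 0, .ofNat 0, .ofNat 1959, .ofNat 181, .ofNat 0, .ofNat 0, .ofNat 0, .ofNat 0, .ofNat 0, .ofNat 68029226412751721813054598208310041829511748648960, .ofNat 9661856131872342859564720490089757020258304, .ofNat 0, .ofNat 0, .ofNat 0, .ofNat 0, .ofNat 0, .ofNat 0, .ofNat 0, .ofNat 0, .ofNat 0⟩)
    (by decide +kernel)
theorem L06138 : Good (Phi V5.P V5.D 1 1) ⟨6, 55, 5, 19, 3, 6, 3, 7, 4, 0⟩ :=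
  leafX_sound T5.ok_pp T5.Ypp.bz_eq (w := 251) (c := ⟨⟨.ofNat 1434, .negSucc 2685, .ofNat 5092, .negSucc 2806, .negSucc 275, .negSucc 8487⟩, ⟨.ofNat 767, .negSucc 1450, .ofNat 2743, .negSucc 1626, .negSucc 87, .negSucc 5217⟩, ⟨.negSucc 552, .ofNat 2133, .negSucc 3204, .ofNat 1682, .ofNat 1326, .ofNat 5491⟩, ⟨.negSucc 1933, .negSucc 2254, .ofNat 7011, .negSucc 7894, .negSucc 2804, .negSucc 13381⟩, ⟨.ofNat 5814, .negSucc 1817, .negSucc 186, .ofNat 6214, .ofNat 3885, .ofNat 1941⟩, .ofNat 5229, .negSucc 7859, .ofNat 0, .negSucc 7859, .ofNat 12705, .ofNat 0, .ofNat 128, .ofNat 915, .negSucc 4794, .ofNat 0, .ofNat 592, .negSucc 2908, .ofNat 0, .ofNat 0, .ofNat 3577, .ofNat 249, .ofNat 0, .ofNat 0, .ofNat 100054203739202717610357283916834653863936, .ofNat 0, .ofNat 0, .ofNat 0, .ofNat 63675033595889843045675986415551313380114432, .ofNat 0, .ofNat 0, .ofNat 0, .ofNat 2947447175986721484542923104616366043299840,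 .ofNat 0, .ofNat 0, .ofNat 0, .ofNat 0, .ofNat 0⟩)
    (by decide +kernel)
theorem L06139 : Good (Phi V5.P V5.D 1 1) ⟨6, 56, 4, 9, 3, 6, 3, 7, 4, 0⟩ :=
  leafX_sound T5.ok_pp T5.Ypp.bz_eq (w := 244) (c := ⟨⟨.negSucc 4472, .negSucc 4637, .ofNat 5839, .negSucc 1984, .negSucc 256, .negSucc 8088⟩, ⟨.negSucc 2121, .negSucc 2518, .ofNat 2745, .negSucc 1190, .negSucc 75, .negSucc 5055⟩, ⟨.ofNat 3834, .ofNat 3088, .negSucc 3967, .ofNat 1115, .ofNat 1286, .ofNat 5243⟩, ⟨.negSucc 6658, .negSucc 5949, .ofNat 6564, .negSucc 7706, .negSucc 2722, .negSucc 13720⟩, ⟨.ofNat 1456, .ofNat 251, .ofNat 1103, .ofNat 7688, .ofNat 3747, .ofNat 3503⟩, .ofNat 3130, .negSucc 4420, .ofNat 0, .negSucc 4420, .ofNat 7065, .ofNat 0, .ofNat 128, .ofNat 467, .negSucc 2403, .ofNat 0, .ofNat 317, .negSucc 1435, .ofNat 0, .ofNat 0, .ofNat 1774, .ofNat 132, .ofNat 0, .ofNat 0, .ofNat 198330896858384090432775607222439671496704,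 .ofNat 0, .ofNat 0, .ofNat 0, .ofNat 6019059322431141181054216193143482898972672, .ofNat 0, .ofNat 0, .ofNat 0, .ofNat 1071394207673669963216612630179011325067264, .ofNat 0, .ofNat 0, .ofNat 35881585066185150812471688928944647338712958500864, .ofNat 5975373095270036235609496375799795016531968, .ofNat 0⟩)
    (by decide +kernel)
theorem L06140 : Good (Phi V5.P V5.D 1 1) ⟨6, 57, 4, 9, 3, 6, 3, 7, 4, 0⟩ :=
  out_sound (S := T5.ds_pp) T5.ok_pp (w := 65) (j := 3) (by decide +kernel)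
theorem L06141 : Good (Phi V5.P V5.D 1 1) ⟨5, 29, 4, 9, 3, 6, 3, 7, 4, 0⟩ :=
  out_sound (S := T5.ds_pp) T5.ok_pp (w := 59) (j := 3) (by decide +kernel)
theorem L06142 : Good (Phi V5.P V5.D 1 1) ⟨4, 15, 4, 9, 3, 6, 3, 7, 4, 0⟩ :=
  out_sound (S := T5.ds_pp) T5.ok_pp (w := 53) (j := 3) (by decide +kernel)
theorem L06143 : Good (Phi V5.P V5.D 1 1) ⟨4, 12, 4, 9, 3, 6, 3, 7, 4, 1⟩ :=
  out_sound (S := T5.ds_pp) T5.ok_pp (w := 53) (j := 3) (by decide +kernel)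
theorem L06144 : Good (Phi V5.P V5.D 1 1) ⟨4, 13, 4, 9, 3, 6, 3, 7, 4, 1⟩ :=
  leafX_sound T5.ok_pp T5.Ypp.bz_eq (w := 235) (c := ⟨⟨.negSucc 7746, .negSucc 3384, .ofNat 754, .ofNat 22, .negSucc 1411, .ofNat 2723⟩, ⟨.negSucc 4871, .negSucc 1555, .negSucc 155, .ofNat 103, .negSucc 743, .ofNat 1567⟩, ⟨.ofNat 5053, .ofNat 3160, .negSucc 647, .negSucc 154, .ofNat 1865, .negSucc 1695⟩, ⟨.negSucc 15361, .negSucc 3871, .negSucc 158, .negSucc 3226, .negSucc 5139, .ofNat 5916⟩, ⟨.ofNat 5678, .negSucc 142, .ofNat 1492, .ofNat 5321, .ofNat 5096, .negSucc 3309⟩, .ofNat 3040, .negSucc 4463, .ofNat 0, .negSucc 4463, .ofNat 7449, .ofNat 0, .ofNat 128, .ofNat 508, .negSucc 1312, .ofNat 0, .ofNat 327, .negSucc 754, .ofNat 0, .ofNat 0, .ofNat 1266, .ofNat 139, .ofNat 0, .ofNat 0, .ofNat 144697022947784755185209454442481132240896, .ofNat 0, .ofNat 0, .ofNat 36006340012779329947282757670840172469173616640,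 .ofNat 39542059253506469679448732767653283992961024, .ofNat 0, .ofNat 0, .ofNat 19005582997633872841994224081964952638642454528, .ofNat 14407162856067568624559624949091070906466304, .ofNat 0, .ofNat 0, .ofNat 119483985257716890787487598924223704594777112576, .ofNat 58734479140100100061783345919112953299206144, .ofNat 0⟩)
    (by decide +kernel)
theorem L06145 : Good (Phi V5.P V5.D 1 1) ⟨5, 28, 4, 9, 3, 6, 3, 7, 4, 1⟩ :=
  leafX_sound T5.ok_pp T5.Ypp.bz_eq (w := 239) (c := ⟨⟨.negSucc 11115, .negSucc 1296, .ofNat 732, .negSucc 32, .negSucc 1034, .ofNat 2639⟩, ⟨.negSucc 6437, .negSucc 534, .negSucc 190, .ofNat 47, .negSucc 596, .ofNat 1609⟩, ⟨.ofNat 8166, .ofNat 1250, .negSucc 612, .negSucc 68, .ofNat 1597, .negSucc 1627⟩, ⟨.negSucc 19714, .negSucc 1649, .ofNat 371, .negSucc 3665, .negSucc 4598, .ofNat 6581⟩, ⟨.ofNat 6506, .ofNat 511, .ofNat 464, .ofNat 5702, .ofNat 4924, .negSucc 4475⟩,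 .ofNat 2373, .negSucc 3188, .ofNat 0, .negSucc 3188, .ofNat 5052, .ofNat 0, .ofNat 128, .ofNat 477, .negSucc 1248, .ofNat 0, .ofNat 335, .negSucc 710, .ofNat 0, .ofNat 0, .ofNat 1181, .ofNat 152, .ofNat 0, .ofNat 0, .ofNat 181748440334461053144616076976226561949696, .ofNat 0, .ofNat 0, .ofNat 0, .ofNat 7156303550119995403135889027156465716035584, .ofNat 0, .ofNat 0, .ofNat 0, .ofNat 3567923101312070819137380753368796847144960, .ofNat 0, .ofNat 0, .ofNat 1619370648319927479970694525023719274827850186752, .ofNat 7035983606845068029076489376471875338633216, .ofNat 0⟩)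
    (by decide +kernel)
theorem L06146 : Good (Phi V5.P V5.D 1 1) ⟨5, 29, 4, 9, 3, 6, 3, 7, 4, 1⟩ :=
  out_sound (S := T5.ds_pp) T5.ok_pp (w := 59) (j := 3) (by decide +kernel)
theorem L06147 : Good (Phi V5.P V5.D 1 1) ⟨4, 15, 4, 9, 3, 6, 3, 7, 4, 1⟩ :=
  out_sound (S := T5.ds_pp) T5.ok_pp (w := 53) (j := 3) (by decide +kernel)
theorem L06148 : Good (Phi V5.P V5.D 1 1) ⟨2, 2, 4, 8, 3, 7, 2, 3, 4, 0⟩ :=
  out_sound (S := T5.ds_pp) T5.ok_pp (w := 41) (j := 3) (by decide +kernel)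
theorem L06149 : Good (Phi V5.P V5.D 1 1) ⟨4, 12, 4, 8, 4, 14, 2, 3, 4, 0⟩ :=
  out_sound (S := T5.ds_pp) T5.ok_pp (w := 53) (j := 3) (by decide +kernel)
theorem L06150 : Good (Phi V5.P V5.D 1 1) ⟨5, 26, 4, 8, 4, 14, 3, 6, 4, 0⟩ :=
  leafX_sound T5.ok_pp T5.Ypp.bz_eq (w := 255) (c := ⟨⟨.negSucc 3982, .negSucc 2373, .ofNat 1452, .ofNat 948, .negSucc 1502, .negSucc 2058⟩, ⟨.negSucc 2273, .negSucc 983, .ofNat 200, .ofNat 574, .negSucc 762, .negSucc 1144⟩, ⟨.ofNat 2263, .ofNat 1576, .negSucc 849, .negSucc 891, .ofNat 1431, .ofNat 1377⟩, ⟨.negSucc 10737, .negSucc 2747, .ofNat 1546, .ofNat 529, .negSucc 3526, .negSucc 2974⟩, ⟨.ofNat 8015, .negSucc 671, .ofNat 385, .ofNat 1590, .ofNat 2319, .negSucc 181⟩, .ofNat 2854, .negSucc 4481, .ofNat 0, .negSucc 4481, .ofNat 8120, .ofNat 0, .ofNat 128, .ofNat 598, .negSucc 2170, .ofNat 0, .ofNat 353, .negSucc 1145, .ofNat 0, .ofNat 0, .ofNat 1573, .ofNat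 1486, .ofNat 0, .ofNat 0, .ofNat 0, .ofNat 0, .ofNat 0, .ofNat 0, .ofNat 233001377516696169512437986853471908465263771648, .ofNat 0, .ofNat 0, .ofNat 0, .ofNat 75049594394539465290709125466481010024619442176, .ofNat 0, .ofNat 0, .ofNat 0, .ofNat 635857153158013993096267489356682489969156030464, .ofNat 0⟩)
    (by decide +kernel)
theorem L06151 : Good (Phi V5.P V5.D 1 1) ⟨5, 27, 4, 8, 4, 14, 3, 6, 4, 0⟩ :=
  leafX_sound T5.ok_pp T5.Ypp.bz_eq (w := 252) (c := ⟨⟨.negSucc 6426, .negSucc 3426, .ofNat 2068, .ofNat 705, .negSucc 1386, .negSucc 2117⟩, ⟨.negSucc 3271, .negSucc 1548, .ofNat 504, .ofNat 461, .negSucc 716, .negSucc 1223⟩, ⟨.ofNat 3876, .ofNat 2371, .negSucc 1417, .negSucc 753, .ofNat 1401, .ofNat 1451⟩, ⟨.negSucc 13428, .negSucc 6116, .ofNat 2790, .negSucc 108, .negSucc 3748, .negSucc 3173⟩, ⟨.ofNat 7087, .ofNat 2282, .negSucc 162, .ofNat 1967, .ofNat 2965, .ofNat 119⟩, .ofNat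 2007, .negSucc 2864, .ofNat 0, .negSucc 2864, .ofNat 5010, .ofNat 0, .ofNat 128, .ofNat 384, .negSucc 1442, .ofNat 0, .ofNat 240, .negSucc 777, .ofNat 0, .ofNat 0, .ofNat 1021, .ofNat 390, .ofNat 0, .ofNat 0, .ofNat 2683956058162661801499370480955343235360751616, .ofNat 0, .ofNat 0, .ofNat 0, .ofNat 176766755160118936690479200887242784887101456384, .ofNat 0, .ofNat 0, .ofNat 0, .ofNat 23615985067531118814474048359069511027309674496, .ofNat 0, .ofNat 0, .ofNat 0, .ofNat 56894374341691246074581540876323775992156913664, .ofNat 0⟩)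
    (by decide +kernel)
theorem L06152 : Good (Phi V5.P V5.D 1 1) ⟨5, 26, 4, 8, 4, 14, 3, 7, 4, 0⟩ :=
  leafX_sound T5.ok_pp T5.Ypp.bz_eq (w := 254) (c := ⟨⟨.negSucc 2538, .negSucc 4333, .ofNat 1263, .ofNat 678, .negSucc 2573, .negSucc 3219⟩, ⟨.negSucc 1459, .negSucc 2006, .negSucc 49, .ofNat 418, .negSucc 1286, .negSucc 1772⟩, ⟨.ofNat 1607, .ofNat 3337, .negSucc 1026, .negSucc 977, .ofNat 2442, .ofNat 2067⟩, ⟨.negSucc 8661, .negSucc 6547, .ofNat 1701, .negSucc 319, .negSucc 5889, .negSucc 5523⟩, ⟨.ofNat 8666, .ofNat 368, .negSucc 274, .ofNat 2368, .ofNat 3774, .ofNat 1239⟩, .ofNat 2809, .negSucc 4561, .ofNat 0, .negSucc 4561, .ofNat 8537, .ofNat 0, .ofNat 128, .ofNat 672, .negSucc 2209, .ofNat 0, .ofNat 381, .negSucc 1171, .ofNat 0, .ofNat 0, .ofNat 1583, .ofNat 150, .ofNat 0, .ofNat 0, .ofNat 741164407156906725232300069988118238846779392, .ofNat 0, .ofNat 0, .ofNat 0, .ofNat 0, .ofNat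 0, .ofNat 0, .ofNat 0, .ofNat 0, .ofNat 0, .ofNat 0, .ofNat 0, .ofNat 233150937795874260373311575186785290307380445184, .ofNat 0⟩)
    (by decide +kernel)
theorem L06153 : Good (Phi V5.P V5.D 1 1) ⟨5, 27, 5, 16, 4, 14, 3, 7, 5, 0⟩ :=
  leafX_sound T5.ok_pp T5.Ypp.bz_eq (w := 262) (c := ⟨⟨.negSucc 7009, .negSucc 5020, .ofNat 1735, .ofNat 409, .negSucc 2064, .negSucc 1598⟩, ⟨.negSucc 3545, .negSucc 2133, .ofNat 522, .ofNat 294, .negSucc 966, .negSucc 903⟩, ⟨.ofNat 4939, .ofNat 3698, .negSucc 1189, .negSucc 840, .ofNat 2385, .ofNat 933⟩, ⟨.negSucc 15876, .negSucc 9661, .ofNat 2720, .negSucc 438, .negSucc 5707, .negSucc 2546⟩, ⟨.ofNat 9874, .ofNat 4396, .negSucc 680, .ofNat 1830, .ofNat 4751, .ofNat 318⟩, .ofNat 2061, .negSucc 2951, .ofNat 0, .negSucc 2951, .ofNat 5163, .ofNat 0, .ofNat 128, .ofNat 441, .negSucc 2890, .ofNat 0, .ofNat 283, .negSucc 1526, .ofNat 0, .ofNat 0, .ofNat 1948,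 .ofNat 145, .ofNat 0, .ofNat 0, .ofNat 236089204317401586424913037238178430212661837824, .ofNat 0, .ofNat 0, .ofNat 0, .ofNat 4612689587385760700725803784540873962678988570624, .ofNat 0, .ofNat 0, .ofNat 0, .ofNat 1240838178189924321340838496835912378331953102848, .ofNat 0, .ofNat 0, .ofNat 0, .ofNat 8096072513528202588567702828516532801285379850240, .ofNat 0⟩)
    (by decide +kernel)
theorem L06154 : Good (Phi V5.P V5.D 1 1) ⟨6, 54, 5, 17, 4, 14, 3, 7, 5, 0⟩ :=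
  leafX_sound T5.ok_pp T5.Ypp.bz_eq (w := 266) (c := ⟨⟨.negSucc 3358, .negSucc 4709, .ofNat 2923, .negSucc 257, .negSucc 1787, .negSucc 2204⟩, ⟨.negSucc 1880, .negSucc 2338, .ofNat 1230, .negSucc 83, .negSucc 884, .negSucc 1256⟩, ⟨.ofNat 2494, .ofNat 3206, .negSucc 1960, .negSucc 340, .ofNat 2173, .ofNat 1396⟩, ⟨.negSucc 9339, .negSucc 9281, .ofNat 5446, .negSucc 1546, .negSucc 5457, .negSucc 3767⟩, ⟨.ofNat 7595, .ofNat 4211, .negSucc 2364, .ofNat 2014, .ofNat 4910, .ofNat 892⟩, .ofNat 2546, .negSucc 3803, .ofNat 0, .negSucc 3803, .ofNat 6651, .ofNat 0, .ofNat 128, .ofNat 495, .negSucc 2502, .ofNat 0, .ofNat 308, .negSucc 1375, .ofNat 0, .ofNat 0, .ofNat 1707, .ofNat 342, .ofNat 0, .ofNat 0, .ofNat 0, .ofNat 0, .ofNat 0, .ofNat 0, .ofNat 1979982837547781362532254750707032421703633338368, .ofNat 0, .ofNat 0, .ofNat 0, .ofNat 0, .ofNat 0, .ofNat 0, .ofNat 0, .ofNat 7251912869986863516725617536293498529439283150848,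 .ofNat 0⟩)
    (by decide +kernel)
theorem L06155 : Good (Phi V5.P V5.D 1 1) ⟨6, 55, 5, 17, 4, 14, 3, 7, 5, 0⟩ :=
  leafX_sound T5.ok_pp T5.Ypp.bz_eq (w := 266) (c := ⟨⟨.negSucc 7421, .negSucc 3702, .ofNat 2209, .negSucc 486, .negSucc 2539, .negSucc 1726⟩, ⟨.negSucc 3812, .negSucc 1851, .ofNat 827, .negSucc 227, .negSucc 1333, .negSucc 1025⟩, ⟨.ofNat 5327, .ofNat 2667, .negSucc 1511, .negSucc 291, .ofNat 2738, .ofNat 1042⟩, ⟨.negSucc 16905, .negSucc 8905, .ofNat 4280, .negSucc 2352, .negSucc 7404, .negSucc 3102⟩, ⟨.ofNat 10589, .ofNat 5917, .negSucc 2133, .ofNat 2743, .ofNat 6253, .ofNat 947⟩, .ofNat 1997, .negSucc 2789, .ofNat 0, .negSucc 2789, .ofNat 4771, .ofNat 0, .ofNat 128, .ofNat 311, .negSucc 3370, .ofNat 0, .ofNat 203, .negSucc 1847, .ofNat 0, .ofNat 0, .ofNat 2290, .ofNat 246, .ofNat 0, .ofNat 0, .ofNat 136591199991720462159897982014663992203609636864, .ofNat 0, .ofNat 0,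 .ofNat 0, .ofNat 2411930260389873313121092633781005523555950002176, .ofNat 0, .ofNat 0, .ofNat 0, .ofNat 538495354001368230570799696782364893918259052544, .ofNat 0, .ofNat 0, .ofNat 0, .ofNat 0, .ofNat 0⟩)
    (by decide +kernel)
theorem L06156 : Good (Phi V5.P V5.D 1 1) ⟨6, 54, 4, 8, 4, 14, 3, 7, 5, 1⟩ :=
  leafX_sound T5.ok_pp T5.Ypp.bz_eq (w := 262) (c := ⟨⟨.negSucc 8681, .negSucc 2312, .ofNat 2183, .ofNat 909, .negSucc 3467, .negSucc 1304⟩, ⟨.negSucc 4423, .negSucc 993, .ofNat 285, .ofNat 559, .negSucc 1768, .negSucc 752⟩, ⟨.ofNat 5962, .ofNat 1704, .negSucc 1502, .negSucc 1234, .ofNat 3173, .ofNat 955⟩, ⟨.negSucc 17941, .negSucc 4651, .ofNat 3102, .ofNat 380, .negSucc 8762, .negSucc 2352⟩, ⟨.ofNat 9179, .ofNat 2449, .negSucc 622, .ofNat 1685, .ofNat 6425, .ofNat 741⟩, .ofNat 2191, .negSucc 3239, .ofNat 0, .negSucc 3239, .ofNat 5772, .ofNat 0, .ofNat 128, .ofNat 398, .negSucc 1895,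 .ofNat 0, .ofNat 246, .negSucc 1004, .ofNat 0, .ofNat 0, .ofNat 1391, .ofNat 219, .ofNat 0, .ofNat 0, .ofNat 113270938991360025976743973710912006324614070272, .ofNat 0, .ofNat 0, .ofNat 33236085963024477062633178755429545175550582784524288, .ofNat 1487185978644521386031629905421745467794990825472, .ofNat 0, .ofNat 0, .ofNat 0, .ofNat 0, .ofNat 0, .ofNat 0, .ofNat 561825703326091650290965160714005721995588936598028288, .ofNat 2710248852298946588103950395980380230915958243328, .ofNat 0⟩)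
    (by decide +kernel)
theorem L06157 : Good (Phi V5.P V5.D 1 1) ⟨6, 55, 4, 8, 4, 14, 3, 7, 5, 1⟩ :=
  leafX_sound T5.ok_pp T5.Ypp.bz_eq (w := 262) (c := ⟨⟨.negSucc 10872, .negSucc 2789, .ofNat 2775, .ofNat 373, .negSucc 4136, .negSucc 1296⟩, ⟨.negSucc 5269, .negSucc 1292, .ofNat 549, .ofNat 283, .negSucc 2219, .negSucc 761⟩, ⟨.ofNat 7654, .ofNat 2165, .negSucc 1962, .negSucc 957, .ofNat 3690, .ofNat 914⟩, ⟨.negSucc 22692, .negSucc 6215, .ofNat 4871, .negSucc 759, .negSucc 10902, .negSucc 2010⟩, ⟨.ofNat 12310, .ofNat 3894, .negSucc 2300, .ofNat 2191, .ofNat 8240, .ofNat 211⟩, .ofNat 1956, .negSucc 2720, .ofNat 0, .negSucc 2720, .ofNat 4665, .ofNat 0, .ofNat 128, .ofNat 308, .negSucc 1915, .ofNat 0, .ofNat 202, .negSucc 1014, .ofNat 0, .ofNat 0, .ofNat 1390, .ofNat 254, .ofNat 0, .ofNat 0, .ofNat 77424560872489572820649289625462526603171987456, .ofNat 0, .ofNat 0, .ofNat 0, .ofNat 1238392198897370765653409626148602998296884019200,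 .ofNat 0, .ofNat 0, .ofNat 0, .ofNat 398637602241441253605559949381106447566862548992, .ofNat 0, .ofNat 0, .ofNat 853518134176785367315160180291403810878978164372013056, .ofNat 2242264349574469699306737968214275166424398823424, .ofNat 0⟩)
    (by decide +kernel)
theorem L06158 : Good (Phi V5.P V5.D 1 1) ⟨3, 7, 4, 8, 4, 14, 2, 3, 4, 0⟩ :=
  out_sound (S := T5.ds_pp) T5.ok_pp (w := 47) (j := 3) (by decide +kernel)
theorem L06159 : Good (Phi V5.P V5.D 1 1) ⟨4, 12, 4, 8, 4, 15, 2, 3, 4, 0⟩ :=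
  out_sound (S := T5.ds_pp) T5.ok_pp (w := 53) (j := 3) (by decide +kernel)
theorem L06160 : Good (Phi V5.P V5.D 1 1) ⟨5, 26, 4, 8, 4, 15, 2, 3, 5, 0⟩ :=
  leafX_sound T5.ok_pp T5.Ypp.bz_eq (w := 254) (c := ⟨⟨.negSucc 3770, .negSucc 2028, .ofNat 1859, .ofNat 3458, .negSucc 2440, .negSucc 680⟩, ⟨.negSucc 2222, .negSucc 655, .ofNat 486, .ofNat 1873, .negSucc 1236, .negSucc 384⟩, ⟨.ofNat 1847, .ofNat 1513, .negSucc 1365, .negSucc 2110, .ofNat 2104, .ofNat 355⟩, ⟨.negSucc 10945, .negSucc 3041, .ofNat 2316, .ofNat 6028, .negSucc 5793, .negSucc 854⟩, ⟨.ofNat 9286, .ofNat 412, .ofNat 39, .negSucc 1560, .ofNat 3901, .negSucc 294⟩, .ofNat 2256, .negSucc 3447, .ofNat 0, .negSucc 3447, .ofNat 6322, .ofNat 0, .ofNat 128, .ofNat 1120, .negSucc 1617, .ofNat 0, .ofNat 663, .negSucc 833, .ofNat 0, .ofNat 0, .ofNat 1088, .ofNat 377, .ofNat 0, .ofNat 0, .ofNat 444463767104260617899665478412268334175223808,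 .ofNat 0, .ofNat 0, .ofNat 0, .ofNat 223229432613981705782400385209871260349800382464, .ofNat 0, .ofNat 0, .ofNat 0, .ofNat 0, .ofNat 0, .ofNat 0, .ofNat 6891083403113207818692892935089424808137678989033472, .ofNat 370574498274491892961546946953540339647436029952, .ofNat 0⟩)
    (by decide +kernel)
theorem L06161 : Good (Phi V5.P V5.D 1 1) ⟨5, 26, 4, 8, 4, 15, 2, 3, 5, 1⟩ :=
  leafX_sound T5.ok_pp T5.Ypp.bz_eq (w := 256) (c := ⟨⟨.negSucc 4672, .negSucc 1374, .ofNat 894, .ofNat 3288, .negSucc 4015, .negSucc 1530⟩, ⟨.negSucc 2717, .negSucc 316, .negSucc 143, .ofNat 1789, .negSucc 2066, .negSucc 824⟩, ⟨.ofNat 2333, .ofNat 1294, .negSucc 988, .negSucc 2243, .ofNat 3066, .ofNat 947⟩, ⟨.negSucc 11972, .negSucc 1955, .ofNat 747, .ofNat 5544, .negSucc 8769, .negSucc 2710⟩, ⟨.ofNat 8709, .ofNat 219, .ofNat 312, .negSucc 1156, .ofNat 5040, .ofNat 771⟩, .ofNat 2833, .negSucc 4448, .ofNat 0, .negSucc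 4448, .ofNat 8071, .ofNat 0, .ofNat 128, .ofNat 1094, .negSucc 2329, .ofNat 0, .ofNat 645, .negSucc 1203, .ofNat 0, .ofNat 0, .ofNat 1727, .ofNat 407, .ofNat 0, .ofNat 0, .ofNat 1693851442464035956505871895704909229479428096, .ofNat 0, .ofNat 0, .ofNat 959508783048942697098093099887880499535681238859776, .ofNat 511399051820821553162447686591212013023884476416, .ofNat 0, .ofNat 0, .ofNat 0, .ofNat 0, .ofNat 0, .ofNat 0, .ofNat 0, .ofNat 342225097306466809110147604574500170717259104256, .ofNat 0⟩)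
    (by decide +kernel)
theorem L06162 : Good (Phi V5.P V5.D 1 1) ⟨6, 54, 4, 8, 4, 15, 3, 6, 5, 0⟩ :=
  leafX_sound T5.ok_pp T5.Ypp.bz_eq (w := 261) (c := ⟨⟨.negSucc 5972, .negSucc 1066, .ofNat 1034, .ofNat 3665, .negSucc 1588, .negSucc 464⟩, ⟨.negSucc 3004, .negSucc 356, .ofNat 28, .ofNat 2052, .negSucc 835, .negSucc 288⟩, ⟨.ofNat 3394, .ofNat 845, .negSucc 922, .negSucc 2156, .ofNat 1182, .ofNat 239⟩, ⟨.negSucc 14338, .negSucc 2213, .ofNat 1326, .ofNat 6073, .negSucc 3446, .negSucc 352⟩, ⟨.ofNat 9900, .ofNat 1194, .negSucc 230, .negSucc 1213, .ofNat 1956, .negSucc 585⟩, .ofNat 2503, .negSucc 3762, .ofNat 0, .negSucc 3762, .ofNat 6644, .ofNat 0, .ofNat 128, .ofNat 380, .negSucc 889, .ofNat 0, .ofNat 230, .negSucc 477, .ofNat 0, .ofNat 0, .ofNat 610, .ofNat 480, .ofNat 0, .ofNat 0, .ofNat 32084925156911920694777880999400479217210621952, .ofNat 0, .ofNat 0, .ofNat 0, .ofNat 1916408858328762648357799673105791228715280105472,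 .ofNat 0, .ofNat 0, .ofNat 0, .ofNat 0, .ofNat 0, .ofNat 0, .ofNat 0, .ofNat 1148723772969788235375379010170167666255541043200, .ofNat 0⟩)
    (by decide +kernel)
theorem L06163 : Good (Phi V5.P V5.D 1 1) ⟨6, 54, 4, 8, 4, 15, 3, 6, 5, 1⟩ :=
  leafX_sound T5.ok_pp T5.Ypp.bz_eq (w := 261) (c := ⟨⟨.negSucc 6122, .negSucc 1228, .ofNat 1035, .ofNat 3297, .negSucc 1932, .negSucc 1273⟩, ⟨.negSucc 3113, .negSucc 444, .negSucc 7, .ofNat 1867, .negSucc 1021, .negSucc 717⟩, ⟨.ofNat 3577, .ofNat 932, .negSucc 842, .negSucc 2141, .ofNat 1397, .ofNat 762⟩, ⟨.negSucc 13924, .negSucc 2806, .ofNat 1527, .ofNat 5344, .negSucc 4461, .negSucc 2198⟩, ⟨.ofNat 8756, .ofNat 1816, .negSucc 552, .negSucc 839, .ofNat 2831, .ofNat 540⟩, .ofNat 1430, .negSucc 1959, .ofNat 0, .negSucc 1959, .ofNat 3596, .ofNat 0, .ofNat 128, .ofNat 466, .negSucc 1157, .ofNat 0, .ofNat 285, .negSucc 578, .ofNat 0, .ofNat 0, .ofNat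 847, .ofNat 435, .ofNat 0, .ofNat 0, .ofNat 0, .ofNat 0, .ofNat 0, .ofNat 0, .ofNat 0, .ofNat 0, .ofNat 0, .ofNat 0, .ofNat 0, .ofNat 0, .ofNat 0, .ofNat 0, .ofNat 2041876477061323587048513839017291148391478198272, .ofNat 0⟩)
    (by decide +kernel)
theorem L06164 : Good (Phi V5.P V5.D 1 1) ⟨7, 110, 5, 16, 4, 15, 3, 6, 4, 0⟩ :=
  out_sound (S := T5.ds_pp) T5.ok_pp (w := 73) (j := 3) (by decide +kernel)
theorem L06165 : Good (Phi V5.P V5.D 1 1) ⟨7, 110, 5, 17, 4, 15, 3, 6, 4, 0⟩ :=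
  leafX_sound T5.ok_pp T5.Ypp.bz_eq (w := 264) (c := ⟨⟨.negSucc 6180, .negSucc 725, .ofNat 570, .ofNat 3274, .negSucc 2021, .negSucc 1858⟩, ⟨.negSucc 3180, .negSucc 280, .negSucc 7, .ofNat 1923, .negSucc 1119, .negSucc 1098⟩, ⟨.ofNat 3646, .ofNat 573, .negSucc 504, .negSucc 2128, .ofNat 1495, .ofNat 1172⟩, ⟨.negSucc 15093, .negSucc 1421, .ofNat 623, .ofNat 5024, .negSucc 4405, .negSucc 2758⟩, ⟨.ofNat 10493, .ofNat 664, .ofNat 30, .negSucc 463, .ofNat 2497, .ofNat 98⟩, .ofNat 3128, .negSucc 4664, .ofNat 0, .negSucc 4664, .ofNat 7891, .ofNat 0, .ofNat 128, .ofNat 495, .negSucc 1201, .ofNat 0, .ofNat 308, .negSucc 665, .ofNat 0, .ofNat 0, .ofNat 852, .ofNat 562, .ofNat 0, .ofNat 0, .ofNat 823457646822447284031241700007382267482603520, .ofNat 0, .ofNat 0, .ofNat 0, .ofNat 122275702380922358243631242607308950776252989440, .ofNat 0, .ofNat 0, .ofNat 0, .ofNat 0, .ofNat 0, .ofNat 0, .ofNat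 0, .ofNat 27496000873307239386375601555598713562207354880, .ofNat 0⟩)
    (by decide +kernel)
theorem L06166 : Good (Phi V5.P V5.D 1 1) ⟨7, 111, 4, 8, 4, 15, 3, 6, 4, 0⟩ :=
  out_sound (S := T5.ds_pp) T5.ok_pp (w := 71) (j := 3) (by decide +kernel)
theorem L06167 : Good (Phi V5.P V5.D 1 1) ⟨5, 27, 4, 8, 4, 15, 4, 14, 4, 0⟩ :=
  leafX_sound T5.ok_pp T5.Ypp.bz_eq (w := 257) (c := ⟨⟨.negSucc 6797, .negSucc 3048, .ofNat 1055, .ofNat 3237, .negSucc 647, .negSucc 2737⟩, ⟨.negSucc 3386, .negSucc 1117, .negSucc 169, .ofNat 1822, .negSucc 347, .negSucc 1530⟩, ⟨.ofNat 4512, .ofNat 2196, .negSucc 890, .negSucc 2434, .ofNat 587, .ofNat 1603⟩, ⟨.negSucc 16370, .negSucc 6436, .ofNat 1236, .ofNat 5669, .negSucc 1964, .negSucc 4886⟩, ⟨.ofNat 11377, .ofNat 3653, .negSucc 201, .negSucc 1615, .ofNat 1758, .ofNat 1486⟩, .ofNat 2007, .negSucc 2864, .ofNat 0, .negSucc 2864, .ofNat 5010, .ofNat 0, .ofNat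 128, .ofNat 380, .negSucc 1461, .ofNat 0, .ofNat 238, .negSucc 768, .ofNat 0, .ofNat 0, .ofNat 1007, .ofNat 225, .ofNat 0, .ofNat 0, .ofNat 42573877309918323956436306596376749681582014464, .ofNat 0, .ofNat 0, .ofNat 0, .ofNat 1082433459365354234290011026692457757269441904640, .ofNat 0, .ofNat 0, .ofNat 0, .ofNat 453555736883712400142942556546921554443990204416, .ofNat 0, .ofNat 0, .ofNat 0, .ofNat 1780871323957224258041078266864285251545853853696, .ofNat 0⟩)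
    (by decide +kernel)
theorem L06168 : Good (Phi V5.P V5.D 1 1) ⟨5, 27, 5, 16, 4, 15, 4, 15, 4, 0⟩ :=
  leafX_sound T5.ok_pp T5.Ypp.bz_eq (w := 260) (c := ⟨⟨.negSucc 6498, .negSucc 4318, .ofNat 670, .ofNat 3310, .negSucc 1422, .negSucc 4319⟩, ⟨.negSucc 3123, .negSucc 1703, .negSucc 61, .ofNat 1752, .negSucc 729, .negSucc 2394⟩, ⟨.ofNat 4935, .ofNat 3030, .negSucc 586, .negSucc 2856, .ofNat 1044, .ofNat 2384⟩, ⟨.negSucc 16590, .negSucc 9356, .ofNat 650, .ofNat 6318, .negSucc 3193, .negSucc 7508⟩, ⟨.ofNat 12520, .ofNat 5591, .ofNat 181, .negSucc 2550, .ofNat 1956, .ofNat 1988⟩, .ofNat 2061, .negSucc 2951, .ofNat 0, .negSucc 2951, .ofNat 5163, .ofNat 0, .ofNat 128, .ofNat 483, .negSucc 1613, .ofNat 0, .ofNat 308, .negSucc 831, .ofNat 0, .ofNat 0, .ofNat 1072, .ofNat 193, .ofNat 0, .ofNat 0, .ofNat 144397741598810728783511688920162404808821571584, .ofNat 0, .ofNat 0, .ofNat 0, .ofNat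 1997415697963626982421357129711572379452611493888, .ofNat 0, .ofNat 0, .ofNat 0, .ofNat 949444564969545446744794054960743208915751141376, .ofNat 0, .ofNat 0, .ofNat 197169791752514797959777403011663537619209046793912320, .ofNat 4460970580276969956020802492808179700445145464832, .ofNat 0⟩)
    (by decide +kernel)
theorem L06169 : Good (Phi V5.P V5.D 1 1) ⟨6, 54, 5, 17, 4, 15, 4, 15, 4, 0⟩ :=
  leafX_sound T5.ok_pp T5.Ypp.bz_eq (w := 266) (c := ⟨⟨.negSucc 5850, .negSucc 1875, .ofNat 557, .ofNat 3490, .negSucc 1074, .negSucc 4837⟩, ⟨.negSucc 3180, .negSucc 724, .negSucc 123, .ofNat 1936, .negSucc 573, .negSucc 2739⟩, ⟨.ofNat 4131, .ofNat 1515, .negSucc 615, .negSucc 2877, .ofNat 955, .ofNat 2728⟩, ⟨.negSucc 16134, .negSucc 3859, .ofNat 614, .ofNat 6777, .negSucc 2551, .negSucc 8414⟩, ⟨.ofNat 13002, .ofNat 2037, .negSucc 67, .negSucc 2878, .ofNat 1695, .ofNat 2284⟩, .ofNat 3198, .negSucc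 4888, .ofNat 0, .negSucc 4888, .ofNat 8467, .ofNat 0, .ofNat 128, .ofNat 577, .negSucc 2176, .ofNat 0, .ofNat 356, .negSucc 1188, .ofNat 0, .ofNat 0, .ofNat 1443, .ofNat 371, .ofNat 0, .ofNat 0, .ofNat 0, .ofNat 0, .ofNat 0, .ofNat 0, .ofNat 3478180800663725331523303814383351791753556393984, .ofNat 0, .ofNat 0, .ofNat 0, .ofNat 338217586277515203564067219675330175066181730304, .ofNat 0, .ofNat 0, .ofNat 5560924280138290270542129910958125722445816629391523840, .ofNat 3351797688899022467594040204252401106959703474176, .ofNat 0⟩)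
    (by decide +kernel)
theorem L06170 : Good (Phi V5.P V5.D 1 1) ⟨6, 55, 5, 17, 4, 15, 4, 15, 4, 0⟩ :=
  leafX_sound T5.ok_pp T5.Ypp.bz_eq (w := 265) (c := ⟨⟨.negSucc 7554, .negSucc 3102, .ofNat 939, .ofNat 3754, .negSucc 1530, .negSucc 5314⟩, ⟨.negSucc 3786, .negSucc 1413, .ofNat 70, .ofNat 2112, .negSucc 838, .negSucc 3057⟩, ⟨.ofNat 5713, .ofNat 2282, .negSucc 843, .negSucc 3196, .ofNat 1204, .ofNat 2992⟩, ⟨.negSucc 19506, .negSucc 6379, .ofNat 1213, .ofNat 7122, .negSucc 3703, .negSucc 9588⟩, ⟨.ofNat 14630, .ofNat 3318, .negSucc 188, .negSucc 2823, .ofNat 2510, .ofNat 3153⟩, .ofNat 2825, .negSucc 4170, .ofNat 0, .negSucc 4170, .ofNat 7084, .ofNat 0, .ofNat 128, .ofNat 436, .negSucc 1593, .ofNat 0, .ofNat 276, .negSucc 881, .ofNat 0, .ofNat 0, .ofNat 1064, .ofNat 197, .ofNat 0, .ofNat 0, .ofNat 60114501529138439793285225434159621217921794048, .ofNat 0, .ofNat 0, .ofNat 0, .ofNat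 1651815302819071747150704369100243006308768284672, .ofNat 0, .ofNat 0, .ofNat 0, .ofNat 529592041733062630001790148844201981996221595648, .ofNat 0, .ofNat 0, .ofNat 3257362663732608644770523733732654594461398945549516800, .ofNat 1700536897881873912904666954627676548365044154368, .ofNat 0⟩)
    (by decide +kernel)
theorem L06171 : Good (Phi V5.P V5.D 1 1) ⟨3, 7, 4, 8, 4, 15, 2, 3, 4, 0⟩ :=
  out_sound (S := T5.ds_pp) T5.ok_pp (w := 47) (j := 3) (by decide +kernel)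
theorem L06172 : Good (Phi V5.P V5.D 1 1) ⟨2, 2, 4, 8, 3, 7, 2, 3, 4, 1⟩ :=
  out_sound (S := T5.ds_pp) T5.ok_pp (w := 41) (j := 3) (by decide +kernel)
theorem L06173 : Good (Phi V5.P V5.D 1 1) ⟨4, 12, 4, 8, 3, 7, 2, 3, 4, 1⟩ :=
  out_sound (S := T5.ds_pp) T5.ok_pp (w := 53) (j := 3) (by decide +kernel)
theorem L06174 : Good (Phi V5.P V5.D 1 1) ⟨5, 26, 4, 8, 3, 7, 2, 3, 5, 2⟩ :=
  leafX_sound T5.ok_pp T5.Ypp.bz_eq (w := 241) (c := ⟨⟨.negSucc 7555, .negSucc 714, .ofNat 167, .ofNat 3366, .negSucc 3312, .negSucc 70⟩, ⟨.negSucc 4248, .negSucc 61, .negSucc 472, .ofNat 1914, .negSucc 1705, .negSucc 64⟩, ⟨.ofNat 4341, .ofNat 1063, .negSucc 157, .negSucc 2868, .ofNat 2785, .ofNat 166⟩, ⟨.negSucc 15627, .negSucc 914, .negSucc 362, .ofNat 4022, .negSucc 6983, .ofNat 254⟩, ⟨.ofNat 7504, .ofNat 146, .ofNat 622, .ofNat 1797, .ofNat 3727, .negSucc 655⟩, .ofNat 3224, .negSucc 5139, .ofNat 0, .negSucc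 5139, .ofNat 9297, .ofNat 0, .ofNat 128, .ofNat 802, .negSucc 1673, .ofNat 0, .ofNat 473, .negSucc 863, .ofNat 0, .ofNat 0, .ofNat 1468, .ofNat 272, .ofNat 0, .ofNat 0, .ofNat 31219177489067534940994431938426228965376, .ofNat 0, .ofNat 0, .ofNat 475783404558436839728546349408573628718891663360, .ofNat 7065872731809873010164190361118210776891392, .ofNat 0, .ofNat 0, .ofNat 0, .ofNat 13315824805511239676895487080186376974499840, .ofNat 0, .ofNat 0, .ofNat 0, .ofNat 70141053910133877203408791710604908721864704, .ofNat 0⟩)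
    (by decide +kernel)
theorem L06175 : Good (Phi V5.P V5.D 1 1) ⟨6, 54, 4, 8, 3, 7, 3, 6, 5, 2⟩ :=
  leafX_sound T5.ok_pp T5.Ypp.bz_eq (w := 247) (c := ⟨⟨.negSucc 8590, .negSucc 951, .ofNat 1146, .ofNat 3342, .negSucc 1685, .ofNat 107⟩, ⟨.negSucc 4515, .negSucc 345, .ofNat 27, .ofNat 1985, .negSucc 892, .ofNat 22⟩, ⟨.ofNat 5489, .ofNat 727, .negSucc 801, .negSucc 2716, .ofNat 1362, .ofNat 63⟩, ⟨.negSucc 16991, .negSucc 1887, .ofNat 1291, .ofNat 3864, .negSucc 3792, .ofNat 643⟩, ⟨.ofNat 7698, .ofNat 1045, .ofNat 116, .ofNat 1849, .ofNat 2316, .negSucc 858⟩, .ofNat 2198, .negSucc 3252, .ofNat 0, .negSucc 3252, .ofNat 5797, .ofNat 0, .ofNat 128, .ofNat 568, .negSucc 870, .ofNat 0, .ofNat 346, .negSucc 454, .ofNat 0, .ofNat 0, .ofNat 758, .ofNat 529, .ofNat 0, .ofNat 0, .ofNat 2567558978599071473365416008047664945954816, .ofNat 0, .ofNat 0, .ofNat 0, .ofNat 100764924407982624179373429672184022206251008,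 .ofNat 0, .ofNat 0, .ofNat 0, .ofNat 0, .ofNat 0, .ofNat 0, .ofNat 0, .ofNat 86858755087308059362301497999757435201388544, .ofNat 0⟩)
    (by decide +kernel)
theorem L06176 : Good (Phi V5.P V5.D 1 1) ⟨6, 54, 4, 8, 4, 14, 3, 7, 5, 2⟩ :=
  leafX_sound T5.ok_pp T5.Ypp.bz_eq (w := 262) (c := ⟨⟨.negSucc 10565, .negSucc 1056, .ofNat 1076, .ofNat 896, .negSucc 2528, .ofNat 1532⟩, ⟨.negSucc 5481, .negSucc 365, .negSucc 245, .ofNat 552, .negSucc 1248, .ofNat 774⟩, ⟨.ofNat 7274, .ofNat 895, .negSucc 813, .negSucc 1161, .ofNat 2533, .negSucc 831⟩, ⟨.negSucc 21472, .negSucc 2541, .ofNat 1280, .ofNat 548, .negSucc 6373, .ofNat 3435⟩, ⟨.ofNat 10477, .ofNat 1954, .negSucc 169, .ofNat 1368, .ofNat 4689, .negSucc 2109⟩, .ofNat 2209, .negSucc 3271, .ofNat 0, .negSucc 3271, .ofNat 5829, .ofNat 0, .ofNat 128, .ofNat 315, .negSucc 1072, .ofNat 0, .ofNat 195, .negSucc 561, .ofNat 0, .ofNat 0, .ofNat 914,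 .ofNat 160, .ofNat 0, .ofNat 0, .ofNat 61779619334314019267153220291386981000654356480, .ofNat 0, .ofNat 0, .ofNat 0, .ofNat 1906795554991558092031771796541791701286216794112, .ofNat 0, .ofNat 0, .ofNat 88738327501994698500312810299586064311463329337966592, .ofNat 171517570852194116535820097113667377514288250880, .ofNat 0, .ofNat 0, .ofNat 0, .ofNat 0, .ofNat 0⟩)
    (by decide +kernel)
theorem L06177 : Good (Phi V5.P V5.D 1 1) ⟨6, 54, 4, 8, 4, 15, 3, 7, 5, 2⟩ :=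
  leafX_sound T5.ok_pp T5.Ypp.bz_eq (w := 262) (c := ⟨⟨.negSucc 8708, .negSucc 1069, .ofNat 691, .ofNat 1946, .negSucc 2636, .ofNat 313⟩, ⟨.negSucc 4425, .negSucc 343, .negSucc 385, .ofNat 1101, .negSucc 1391, .ofNat 119⟩, ⟨.ofNat 5748, .ofNat 919, .negSucc 691, .negSucc 1919, .ofNat 1940, .negSucc 86⟩, ⟨.negSucc 19567, .negSucc 2274, .ofNat 453, .ofNat 2750, .negSucc 5313, .ofNat 1404⟩, ⟨.ofNat 11980, .ofNat 1393, .ofNat 297, .ofNat 187, .ofNat 2537, .negSucc 1671⟩, .ofNat 2503, .negSucc 3762, .ofNat 0, .negSucc 3762, .ofNat 6644, .ofNat 0, .ofNat 128, .ofNat 592, .negSucc 1095, .ofNat 0, .ofNat 362, .negSucc 579, .ofNat 0, .ofNat 0, .ofNat 904, .ofNat 201, .ofNat 0, .ofNat 1951185065987229027943474747003334921238323818135552, .ofNat 23707447783105669514388641192247731699065028608, .ofNat 0, .ofNat 0, .ofNat 97717368595009434535135974201342675918443616447496192, .ofNat 1361822760123913106245556191595336016339677478912,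 .ofNat 0, .ofNat 0, .ofNat 0, .ofNat 0, .ofNat 0, .ofNat 0, .ofNat 753416400398804728966405545743045593009873501410033664, .ofNat 2375195622242383649779395210677802185705199239168, .ofNat 0⟩)
    (by decide +kernel)
theorem L06178 : Good (Phi V5.P V5.D 1 1) ⟨7, 110, 4, 8, 3, 7, 3, 6, 5, 2⟩ :=
  leafX_sound T5.ok_pp T5.Ypp.bz_eq (w := 252) (c := ⟨⟨.negSucc 9753, .negSucc 636, .ofNat 821, .ofNat 3734, .negSucc 1822, .ofNat 183⟩, ⟨.negSucc 4999, .negSucc 264, .negSucc 191, .ofNat 2292, .negSucc 1005, .ofNat 67⟩, ⟨.ofNat 6370, .ofNat 423, .negSucc 627, .negSucc 2967, .ofNat 1455, .ofNat 34⟩, ⟨.negSucc 18990, .negSucc 1279, .ofNat 830, .ofNat 3995, .negSucc 4205, .ofNat 845⟩, ⟨.ofNat 8535, .ofNat 668, .ofNat 79, .ofNat 2407, .ofNat 2624, .negSucc 974⟩, .ofNat 2319, .negSucc 3341, .ofNat 0, .negSucc 3341, .ofNat 5734, .ofNat 0, .ofNat 128, .ofNat 738, .negSucc 1257, .ofNat 0, .ofNat 467,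 .negSucc 660, .ofNat 0, .ofNat 0, .ofNat 1066, .ofNat 704, .ofNat 0, .ofNat 0, .ofNat 597103624616221854606525033642750942117888, .ofNat 0, .ofNat 0, .ofNat 0, .ofNat 42551256359785848443568682732522768823222272, .ofNat 0, .ofNat 0, .ofNat 0, .ofNat 0, .ofNat 0, .ofNat 0, .ofNat 0, .ofNat 18666603381982100235583936968046823774093312, .ofNat 0⟩)
    (by decide +kernel)
theorem L06179 : Good (Phi V5.P V5.D 1 1) ⟨7, 110, 4, 8, 3, 7, 3, 7, 5, 2⟩ :=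
  leafX_sound T5.ok_pp T5.Ypp.bz_eq (w := 252) (c := ⟨⟨.negSucc 11285, .negSucc 445, .ofNat 384, .ofNat 2952, .negSucc 2542, .ofNat 950⟩, ⟨.negSucc 5618, .negSucc 98, .negSucc 669, .ofNat 1779, .negSucc 1386, .ofNat 482⟩, ⟨.ofNat 8601, .ofNat 492, .negSucc 826, .negSucc 3400, .ofNat 2040, .negSucc 494⟩, ⟨.negSucc 23882, .negSucc 1049, .ofNat 336, .ofNat 3503, .negSucc 5896, .ofNat 2785⟩, ⟨.ofNat 13204, .ofNat 774, .negSucc 362, .ofNat 1299, .ofNat 3725, .negSucc 2375⟩, .ofNat 2158, .negSucc 3078, .ofNat 0, .negSucc 3078, .ofNat 5305, .ofNat 0, .ofNat 128, .ofNat 578, .negSucc 1680, .ofNat 0, .ofNat 372, .negSucc 874, .ofNat 0, .ofNat 0, .ofNat 1394, .ofNat 260, .ofNat 0, .ofNat 9959257488603094501030637788644434791726728609792, .ofNat 883232629274225678613843133131543229235200, .ofNat 0, .ofNat 0, .ofNat 0, .ofNat 26048989168658150038103738826605199024455680, .ofNat 0, .ofNat 0, .ofNat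 1132955298141233100143329917177674900104099122905088, .ofNat 2623392676360605357028861857895037926375424, .ofNat 0, .ofNat 0, .ofNat 5440829704130924747794750149446080818378508735610880, .ofNat 67554735919156249542363528223724187420721152, .ofNat 0⟩)
    (by decide +kernel)
theorem L06180 : Good (Phi V5.P V5.D 1 1) ⟨7, 111, 4, 8, 3, 7, 2, 3, 5, 2⟩ :=
  out_sound (S := T5.ds_pp) T5.ok_pp (w := 71) (j := 3) (by decide +kernel)
theorem L06181 : Good (Phi V5.P V5.D 1 1) ⟨5, 26, 4, 8, 3, 7, 2, 3, 5, 3⟩ :=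
  leafX_sound T5.ok_pp T5.Ypp.bz_eq (w := 241) (c := ⟨⟨.negSucc 6625, .negSucc 948, .negSucc 245, .ofNat 2194, .negSucc 2412, .ofNat 550⟩, ⟨.negSucc 3685, .negSucc 286, .negSucc 613, .ofNat 1291, .negSucc 1262, .ofNat 263⟩, ⟨.ofNat 4314, .ofNat 754, .negSucc 31, .negSucc 2021, .ofNat 1932, .negSucc 210⟩, ⟨.negSucc 13705, .negSucc 1099, .negSucc 769, .ofNat 1775, .negSucc 4871, .ofNat 1619⟩, ⟨.ofNat 6541, .negSucc 153, .ofNat 210, .ofNat 2716, .ofNat 2316, .negSucc 1448⟩, .ofNat 3222, .negSucc 5127, .ofNat 0, .negSucc 5127, .ofNat 9259, .ofNat 0, .ofNat 128, .ofNat 1136, .negSucc 978, .ofNat 0, .ofNat 676, .negSucc 497, .ofNat 0, .ofNat 0, .ofNat 1128, .ofNat 408, .ofNat 0, .ofNat 0, .ofNat 0, .ofNat 0, .ofNat 0, .ofNat 818172087378633349602951492798630370384881385472, .ofNat 5739097329970473993345626167566400982351872, .ofNat 0, .ofNat 0, .ofNat 0, .ofNat 0, .ofNat 0, .ofNat 0, .ofNat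 4105716758745093413699537435194668227927293820928, .ofNat 26484295257302246573020816851770403314466816, .ofNat 0⟩)
    (by decide +kernel)
theorem L06182 : Good (Phi V5.P V5.D 1 1) ⟨5, 27, 4, 8, 4, 14, 2, 3, 5, 3⟩ :=
  leafX_sound T5.ok_pp T5.Ypp.bz_eq (w := 253) (c := ⟨⟨.negSucc 8074, .negSucc 951, .ofNat 271, .ofNat 694, .negSucc 1900, .ofNat 1358⟩, ⟨.negSucc 4278, .negSucc 343, .negSucc 335, .ofNat 452, .negSucc 960, .ofNat 718⟩, ⟨.ofNat 5265, .ofNat 785, .negSucc 200, .negSucc 774, .ofNat 2275, .negSucc 715⟩, ⟨.negSucc 15489, .negSucc 1579, .negSucc 181, .ofNat 6, .negSucc 5225, .ofNat 3140⟩, ⟨.ofNat 6359, .ofNat 704, .ofNat 653, .ofNat 1748, .ofNat 4232, .negSucc 2026⟩, .ofNat 2007, .negSucc 2864, .ofNat 0, .negSucc 2864, .ofNat 5010, .ofNat 0, .ofNat 128, .ofNat 348, .negSucc 853, .ofNat 0, .ofNat 222, .negSucc 440, .ofNat 0, .ofNat 0, .ofNat 927, .ofNat 211, .ofNat 0, .ofNat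 0, .ofNat 3983736337367707732701059534233063997443145728, .ofNat 0, .ofNat 0, .ofNat 2823146799666847955051450234289401488281056843923456, .ofNat 316356542053273877841613292930846485518189854720, .ofNat 0, .ofNat 0, .ofNat 1357688833430453691726796642474970508406458238894080, .ofNat 49328302928602429235421318787076441509566873600, .ofNat 0, .ofNat 0, .ofNat 0, .ofNat 0, .ofNat 0⟩)
    (by decide +kernel)
theorem L06183 : Good (Phi V5.P V5.D 1 1) ⟨5, 27, 4, 8, 4, 15, 3, 6, 5, 3⟩ :=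
  leafX_sound T5.ok_pp T5.Ypp.bz_eq (w := 257) (c := ⟨⟨.negSucc 6657, .negSucc 1097, .ofNat 253, .ofNat 1382, .negSucc 1331, .ofNat 607⟩, ⟨.negSucc 3432, .negSucc 306, .negSucc 393, .ofNat 848, .negSucc 714, .ofNat 296⟩, ⟨.ofNat 4145, .ofNat 880, .negSucc 234, .negSucc 1148, .ofNat 1016, .negSucc 228⟩, ⟨.negSucc 14066, .negSucc 2439, .negSucc 141, .ofNat 1082, .negSucc 2838, .ofNat 1778⟩, ⟨.ofNat 7601, .ofNat 1659, .ofNat 427, .ofNat 1635, .ofNat 1532, .negSucc 1556⟩, .ofNat 2007, .negSucc 2864, .ofNat 0, .negSucc 2864, .ofNat 5010, .ofNat 0, .ofNat 128, .ofNat 512, .negSucc 620, .ofNat 0, .ofNat 324, .negSucc 313, .ofNat 0, .ofNat 0, .ofNat 703, .ofNat 781, .ofNat 0, .ofNat 0, .ofNat 178119035901373328035873426495522650829843595264, .ofNat 0, .ofNat 0, .ofNat 0, .ofNat 3913184857360000901255245598721607015381988278272, .ofNat 0, .ofNat 0, .ofNat 0, .ofNat 1903815620673881756763969438335912521121975500800,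 .ofNat 0, .ofNat 0, .ofNat 0, .ofNat 2617237058461619710408789551427489922964541931520, .ofNat 0⟩)
    (by decide +kernel)
theorem L06184 : Good (Phi V5.P V5.D 1 1) ⟨5, 27, 4, 8, 4, 15, 3, 7, 5, 3⟩ :=
  leafX_sound T5.ok_pp T5.Ypp.bz_eq (w := 258) (c := ⟨⟨.negSucc 8020, .negSucc 768, .negSucc 38, .ofNat 994, .negSucc 1755, .ofNat 1090⟩, ⟨.negSucc 4120, .negSucc 27, .negSucc 677, .ofNat 599, .negSucc 940, .ofNat 556⟩, ⟨.ofNat 5461, .ofNat 941, .negSucc 216, .negSucc 1347, .ofNat 1287, .negSucc 523⟩, ⟨.negSucc 17588, .negSucc 1926, .negSucc 797, .ofNat 973, .negSucc 3454, .ofNat 3078⟩, ⟨.ofNat 10277, .ofNat 1629, .ofNat 717, .ofNat 827, .ofNat 1548, .negSucc 2567⟩, .ofNat 2007, .negSucc 2864, .ofNat 0, .negSucc 2864, .ofNat 5010, .ofNat 0, .ofNat 128, .ofNat 581, .negSucc 828, .ofNat 0, .ofNat 372, .negSucc 410, .ofNat 0, .ofNat 0, .ofNat 957, .ofNat 567, .ofNat 0, .ofNat 0, .ofNat 165654994963623893223126174074160225136721002496,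 .ofNat 0, .ofNat 0, .ofNat 16738702544900852988126679888575702783493254030557184, .ofNat 3589267072996642240867725035790595125363035078656, .ofNat 0, .ofNat 0, .ofNat 28173021680167221740084168355804975977662386752454656, .ofNat 1837206316324415507845847224856799468653931134976, .ofNat 0, .ofNat 0, .ofNat 113077702090863829452580858974279199834783064145264640, .ofNat 9550875533362992649646820808991431576382676664320, .ofNat 0⟩)
    (by decide +kernel)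
theorem L06185 : Good (Phi V5.P V5.D 1 1) ⟨3, 7, 4, 8, 3, 7, 2, 3, 4, 1⟩ :=
  out_sound (S := T5.ds_pp) T5.ok_pp (w := 47) (j := 3) (by decide +kernel)
theorem L06186 : Good (Phi V5.P V5.D 1 1) ⟨2, 2, 4, 9, 3, 7, 2, 3, 4, 0⟩ :=
  out_sound (S := T5.ds_pp) T5.ok_pp (w := 41) (j := 3) (by decide +kernel)
theorem L06187 : Good (Phi V5.P V5.D 1 1) ⟨4, 12, 4, 9, 3, 7, 3, 6, 4, 0⟩ :=
  out_sound (S := T5.ds_pp) T5.ok_pp (w := 53) (j := 3) (by decide +kernel)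
theorem L06188 : Good (Phi V5.P V5.D 1 1) ⟨5, 26, 4, 9, 3, 7, 3, 6, 4, 0⟩ :=
  out_sound (S := T5.ds_pp) T5.ok_pp (w := 59) (j := 3) (by decide +kernel)
theorem L06189 : Good (Phi V5.P V5.D 1 1) ⟨6, 54, 4, 9, 3, 7, 3, 6, 4, 0⟩ :=
  out_sound (S := T5.ds_pp) T5.ok_pp (w := 65) (j := 3) (by decide +kernel)
theorem L06190 : Good (Phi V5.P V5.D 1 1) ⟨6, 55, 5, 18, 3, 7, 3, 6, 5, 0⟩ :=
  leafX_sound T5.ok_pp T5.Ypp.bz_eq (w := 253) (c := ⟨⟨.negSucc 7091, .negSucc 2418, .ofNat 1727, .ofNat 4354, .negSucc 1736, .negSucc 248⟩, ⟨.negSucc 4123, .negSucc 1155, .ofNat 694, .ofNat 2688, .negSucc 1012, .negSucc 171⟩, ⟨.ofNat 4236, .ofNat 1650, .negSucc 1109, .negSucc 3051, .ofNat 1364, .ofNat 218⟩, ⟨.negSucc 16180, .negSucc 4050, .ofNat 2071, .ofNat 6499, .negSucc 4592, .ofNat 43⟩, ⟨.ofNat 9858, .ofNat 998, .ofNat 373, .negSucc 355, .ofNat 3434, .negSucc 658⟩, .ofNat 3216, .negSucc 4754, .ofNat 0,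 .negSucc 4754, .ofNat 7928, .ofNat 0, .ofNat 128, .ofNat 723, .negSucc 2131, .ofNat 0, .ofNat 455, .negSucc 1235, .ofNat 0, .ofNat 0, .ofNat 1439, .ofNat 418, .ofNat 0, .ofNat 0, .ofNat 5923171474680836387268472453893313366327296, .ofNat 0, .ofNat 0, .ofNat 0, .ofNat 420226722128384513439860416907340411888992256, .ofNat 0, .ofNat 0, .ofNat 0, .ofNat 0, .ofNat 0, .ofNat 0, .ofNat 0, .ofNat 42998382218960197952773485722184291385868288, .ofNat 0⟩)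
    (by decide +kernel)
theorem L06191 : Good (Phi V5.P V5.D 1 1) ⟨6, 55, 5, 18, 3, 7, 3, 6, 5, 1⟩ :=
  leafX_sound T5.ok_pp T5.Ypp.bz_eq (w := 252) (c := ⟨⟨.negSucc 7158, .negSucc 2306, .ofNat 1152, .ofNat 4236, .negSucc 1934, .negSucc 1704⟩, ⟨.negSucc 4165, .negSucc 1085, .ofNat 302, .ofNat 2602, .negSucc 1110, .negSucc 1003⟩, ⟨.ofNat 4578, .ofNat 1552, .negSucc 806, .negSucc 3286, .ofNat 1579, .ofNat 1068⟩, ⟨.negSucc 15329, .negSucc 3753, .ofNat 517, .ofNat 5734, .negSucc 4760, .negSucc 2959⟩, ⟨.ofNat 8267, .ofNat 903, .ofNat 1498, .ofNat 634, .ofNat 3232, .ofNat 794⟩, .ofNat 4065, .negSucc 6109, .ofNat 0, .negSucc 6109, .ofNat 10099, .ofNat 0, .ofNat 128, .ofNat 670, .negSucc 1317, .ofNat 0, .ofNat 422, .negSucc 762, .ofNat 0, .ofNat 0, .ofNat 981, .ofNat 460, .ofNat 0, .ofNat 0, .ofNat 8787464222359791891607673215679780563714048, .ofNat 0, .ofNat 0, .ofNat 0, .ofNat 568298918087455772827225293404389417095790592,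 .ofNat 0, .ofNat 0, .ofNat 0, .ofNat 0, .ofNat 0, .ofNat 0, .ofNat 0, .ofNat 129115111608488236690435536070696692491485184, .ofNat 0⟩)
    (by decide +kernel)
theorem L06192 : Good (Phi V5.P V5.D 1 1) ⟨6, 55, 5, 19, 3, 7, 3, 6, 4, 0⟩ :=
  leafX_sound T5.ok_pp T5.Ypp.bz_eq (w := 251) (c := ⟨⟨.negSucc 6816, .negSucc 930, .ofNat 1091, .ofNat 4639, .negSucc 2269, .negSucc 1929⟩, ⟨.negSucc 4308, .negSucc 289, .ofNat 319, .ofNat 2901, .negSucc 1353, .negSucc 1190⟩, ⟨.ofNat 4128, .ofNat 720, .negSucc 891, .negSucc 3357, .ofNat 1720, .ofNat 1280⟩, ⟨.negSucc 16061, .negSucc 1049, .ofNat 939, .ofNat 5999, .negSucc 5012, .negSucc 2899⟩, ⟨.ofNat 9870, .negSucc 149, .ofNat 584, .ofNat 1057, .ofNat 2835, .ofNat 205⟩, .ofNat 5336, .negSucc 8026, .ofNat 0, .negSucc 8026, .ofNat 12965, .ofNat 0, .ofNat 128, .ofNat 1250, .negSucc 3665, .ofNat 0, .ofNat 797, .negSucc 2200, .ofNat 0, .ofNat 0, .ofNat 2634,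 .ofNat 587, .ofNat 0, .ofNat 0, .ofNat 49255490654022783755665901014267038007296, .ofNat 0, .ofNat 0, .ofNat 0, .ofNat 48239682246819495680474002687822706560204800, .ofNat 0, .ofNat 0, .ofNat 0, .ofNat 0, .ofNat 0, .ofNat 0, .ofNat 0, .ofNat 12666338879542508924657052175850094410596352, .ofNat 0⟩)
    (by decide +kernel)
theorem L06193 : Good (Phi V5.P V5.D 1 1) ⟨6, 56, 4, 9, 3, 7, 3, 6, 5, 0⟩ :=
  leafX_sound T5.ok_pp T5.Ypp.bz_eq (w := 249) (c := ⟨⟨.negSucc 7826, .negSucc 1761, .ofNat 1500, .ofNat 3481, .negSucc 1222, .negSucc 841⟩, ⟨.negSucc 4386, .negSucc 911, .ofNat 340, .ofNat 2236, .negSucc 739, .negSucc 528⟩, ⟨.ofNat 4985, .ofNat 914, .negSucc 1057, .negSucc 2640, .ofNat 1096, .ofNat 493⟩, ⟨.negSucc 17963, .negSucc 5188, .ofNat 3022, .ofNat 4323, .negSucc 3505, .negSucc 755⟩, ⟨.ofNat 11269, .ofNat 4376, .negSucc 2123, .ofNat 1039, .ofNat 2769, .negSucc 687⟩, .ofNat 2917, .negSucc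 4094, .ofNat 0, .negSucc 4094, .ofNat 6562, .ofNat 0, .ofNat 128, .ofNat 572, .negSucc 2208, .ofNat 0, .ofNat 377, .negSucc 1292, .ofNat 0, .ofNat 0, .ofNat 1475, .ofNat 304, .ofNat 0, .ofNat 0, .ofNat 3903520068848228677428168393576803792322560, .ofNat 0, .ofNat 0, .ofNat 0, .ofNat 133924170827090458003158349274667818399301632, .ofNat 0, .ofNat 0, .ofNat 0, .ofNat 21651803065442438060848468373079196142927872, .ofNat 0, .ofNat 0, .ofNat 0, .ofNat 239250552861998913948226927594134573724729344, .ofNat 0⟩)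
    (by decide +kernel)
theorem L06194 : Good (Phi V5.P V5.D 1 1) ⟨6, 56, 4, 9, 3, 7, 3, 6, 5, 1⟩ :=
  leafX_sound T5.ok_pp T5.Ypp.bz_eq (w := 249) (c := ⟨⟨.negSucc 8281, .negSucc 535, .negSucc 5, .ofNat 4348, .negSucc 2422, .negSucc 1176⟩, ⟨.negSucc 4631, .negSucc 127, .negSucc 666, .ofNat 2786, .negSucc 1469, .negSucc 742⟩, ⟨.ofNat 5734, .ofNat 864, .negSucc 791, .negSucc 3308, .ofNat 1811, .ofNat 855⟩, ⟨.negSucc 17223, .negSucc 1453, .negSucc 670, .ofNat 5106, .negSucc 5728, .negSucc 2132⟩, ⟨.ofNat 9046, .ofNat 1251, .ofNat 376, .ofNat 1714, .ofNat 3610, .ofNat 733⟩, .ofNat 3212, .negSucc 4547, .ofNat 0, .negSucc 4547, .ofNat 7261, .ofNat 0, .ofNat 128, .ofNat 562, .negSucc 1996, .ofNat 0, .ofNat 370, .negSucc 1162, .ofNat 0, .ofNat 0, .ofNat 1454, .ofNat 295, .ofNat 0, .ofNat 0, .ofNat 3917647430341542490882593011536710112116736, .ofNat 0, .ofNat 0, .ofNat 0, .ofNat 171164003024592446586050876228017507356639232,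 .ofNat 0, .ofNat 0, .ofNat 0, .ofNat 21122864564078755515492974467705989895290880, .ofNat 0, .ofNat 0, .ofNat 0, .ofNat 80286357793917759321631271718935666997854208, .ofNat 0⟩)
    (by decide +kernel)
theorem L06195 : Good (Phi V5.P V5.D 1 1) ⟨6, 57, 4, 9, 3, 7, 3, 6, 4, 0⟩ :=
  out_sound (S := T5.ds_pp) T5.ok_pp (w := 65) (j := 3) (by decide +kernel)
theorem L06196 : Good (Phi V5.P V5.D 1 1) ⟨5, 29, 4, 9, 3, 7, 3, 6, 4, 0⟩ :=
  out_sound (S := T5.ds_pp) T5.ok_pp (w := 59) (j := 3) (by decide +kernel)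
theorem L06197 : Good (Phi V5.P V5.D 1 1) ⟨4, 15, 4, 9, 3, 7, 3, 6, 4, 0⟩ :=
  out_sound (S := T5.ds_pp) T5.ok_pp (w := 53) (j := 3) (by decide +kernel)
theorem L06198 : Good (Phi V5.P V5.D 1 1) ⟨4, 12, 5, 18, 3, 7, 3, 7, 4, 0⟩ :=
  out_sound (S := T5.ds_pp) T5.ok_pp (w := 55) (j := 3) (by decide +kernel)
theorem L06199 : Good (Phi V5.P V5.D 1 1) ⟨5, 26, 5, 18, 3, 7, 3, 7, 4, 0⟩ :=
  out_sound (S := T5.ds_pp) T5.ok_pp (w := 61) (j := 3) (by decide +kernel)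
theorem L06200 : Good (Phi V5.P V5.D 1 1) ⟨6, 54, 5, 18, 3, 7, 3, 7, 4, 0⟩ :=
  out_sound (S := T5.ds_pp) T5.ok_pp (w := 67) (j := 3) (by decide +kernel)
theorem L06201 : Good (Phi V5.P V5.D 1 1) ⟨7, 110, 5, 18, 4, 14, 3, 7, 5, 0⟩ :=
  leafX_sound T5.ok_pp T5.Ypp.bz_eq (w := 272) (c := ⟨⟨.negSucc 4963, .negSucc 1717, .ofNat 2820, .negSucc 880, .negSucc 1544, .negSucc 2098⟩, ⟨.negSucc 2825, .negSucc 836, .ofNat 1229, .negSucc 464, .negSucc 804, .negSucc 1245⟩, ⟨.ofNat 3693, .ofNat 1211, .negSucc 1859, .negSucc 70, .ofNat 2047, .ofNat 1319⟩, ⟨.negSucc 13625, .negSucc 2854, .ofNat 4538, .negSucc 2483, .negSucc 4928, .negSucc 3505⟩, ⟨.ofNat 10675, .ofNat 692, .negSucc 1168, .ofNat 2018, .ofNat 4492, .ofNat 759⟩, .ofNat 3992, .negSucc 6052, .ofNat 0, .negSucc 6052, .ofNat 10116, .ofNat 0, .ofNat 128, .ofNat 538, .negSucc 3318, .ofNat 0, .ofNat 340, .negSucc 1915, .ofNat 0, .ofNat 0, .ofNat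 2265, .ofNat 647, .ofNat 0, .ofNat 0, .ofNat 0, .ofNat 0, .ofNat 0, .ofNat 0, .ofNat 4041453156592597450845330810162048686150909952000, .ofNat 0, .ofNat 0, .ofNat 0, .ofNat 316012907844226587327124902898182341382025248768, .ofNat 0, .ofNat 0, .ofNat 0, .ofNat 6012415390783091327865671654012688601844876836864, .ofNat 0⟩)
    (by decide +kernel)
theorem L06202 : Good (Phi V5.P V5.D 1 1) ⟨7, 111, 5, 18, 4, 14, 3, 7, 5, 0⟩ :=
  leafX_sound T5.ok_pp T5.Ypp.bz_eq (w := 272) (c := ⟨⟨.negSucc 6340, .negSucc 2506, .ofNat 2700, .negSucc 882, .negSucc 2289, .negSucc 2428⟩, ⟨.negSucc 3420, .negSucc 1327, .ofNat 1153, .negSucc 489, .negSucc 1264, .negSucc 1469⟩, ⟨.ofNat 4699, .ofNat 1737, .negSucc 1864, .negSucc 88, .ofNat 2594, .ofNat 1524⟩, ⟨.negSucc 15542, .negSucc 5621, .ofNat 5709, .negSucc 3493, .negSucc 6989, .negSucc 4387⟩, ⟨.ofNat 10706, .ofNat 3312, .negSucc 3316, .ofNat 3587, .ofNat 6031,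 .ofNat 1418⟩, .ofNat 2750, .negSucc 3961, .ofNat 0, .negSucc 3961, .ofNat 6577, .ofNat 0, .ofNat 128, .ofNat 496, .negSucc 4621, .ofNat 0, .ofNat 322, .negSucc 2667, .ofNat 0, .ofNat 0, .ofNat 3171, .ofNat 189, .ofNat 0, .ofNat 0, .ofNat 42224880404875730213077417794684611929657311232, .ofNat 0, .ofNat 0, .ofNat 3671158496744627167585797023176664994631486137440403456, .ofNat 6513158789093125705208144965819757622799164768256, .ofNat 0, .ofNat 0, .ofNat 0, .ofNat 937313786893049364287437919549936818742961897472, .ofNat 0, .ofNat 0, .ofNat 0, .ofNat 0, .ofNat 0⟩)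
    (by decide +kernel)
theorem L06203 : Good (Phi V5.P V5.D 1 1) ⟨6, 55, 5, 18, 4, 15, 3, 7, 5, 0⟩ :=
  leafX_sound T5.ok_pp T5.Ypp.bz_eq (w := 268) (c := ⟨⟨.negSucc 6491, .negSucc 3147, .ofNat 1600, .ofNat 3154, .negSucc 1113, .negSucc 1450⟩, ⟨.negSucc 3672, .negSucc 1495, .ofNat 515, .ofNat 1870, .negSucc 602, .negSucc 874⟩, ⟨.ofNat 4245, .ofNat 2126, .negSucc 1142, .negSucc 2473, .ofNat 1317, .ofNat 855⟩, ⟨.negSucc 17430, .negSucc 6064, .ofNat 2361, .ofNat 6021, .negSucc 3615, .negSucc 2429⟩, ⟨.ofNat 13362, .ofNat 2629, .negSucc 510, .negSucc 2426, .ofNat 3302, .ofNat 542⟩, .ofNat 3577, .negSucc 5317, .ofNat 0, .negSucc 5317, .ofNat 8810, .ofNat 0, .ofNat 128, .ofNat 606, .negSucc 3032, .ofNat 0, .ofNat 385, .negSucc 1748, .ofNat 0, .ofNat 0, .ofNat 1964, .ofNat 158, .ofNat 0, .ofNat 0, .ofNat 63938939419387598581539551703390679816560705536, .ofNat 0, .ofNat 0, .ofNat 0, .ofNat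 6959776192035344941497263227217559451542124232704, .ofNat 0, .ofNat 0, .ofNat 0, .ofNat 5238400375493109609155737042437233407676322414592, .ofNat 0, .ofNat 0, .ofNat 0, .ofNat 0, .ofNat 0⟩)
    (by decide +kernel)
theorem L06204 : Good (Phi V5.P V5.D 1 1) ⟨6, 55, 6, 36, 3, 7, 3, 7, 5, 1⟩ :=
  leafX_sound T5.ok_pp T5.Ypp.bz_eq (w := 256) (c := ⟨⟨.negSucc 8825, .negSucc 2467, .ofNat 504, .ofNat 3870, .negSucc 3384, .negSucc 1662⟩, ⟨.negSucc 5090, .negSucc 1111, .ofNat 63, .ofNat 2347, .negSucc 1918, .negSucc 993⟩, ⟨.ofNat 6440, .ofNat 1746, .negSucc 302, .negSucc 3908, .ofNat 2677, .ofNat 1059⟩, ⟨.negSucc 19513, .negSucc 5135, .ofNat 461, .ofNat 5604, .negSucc 8770, .negSucc 3069⟩, ⟨.ofNat 11194, .ofNat 2729, .ofNat 243, .ofNat 2, .ofNat 6379, .ofNat 1090⟩, .ofNat 2780, .negSucc 4050, .ofNat 0, .negSucc 4050, .ofNat 6797, .ofNat 0, .ofNat 128, .ofNat 800, .negSucc 3357, .ofNat 0, .ofNat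 511, .negSucc 1901, .ofNat 0, .ofNat 0, .ofNat 2399, .ofNat 234, .ofNat 0, .ofNat 88736992715900913853819808866799961840805488885760, .ofNat 34684186073282951468747715987029020716826624, .ofNat 0, .ofNat 0, .ofNat 0, .ofNat 509935038419177759248036705605261843721355264, .ofNat 0, .ofNat 0, .ofNat 0, .ofNat 0, .ofNat 0, .ofNat 0, .ofNat 0, .ofNat 0, .ofNat 0⟩)
    (by decide +kernel)
theorem L06205 : Good (Phi V5.P V5.D 1 1) ⟨6, 55, 6, 37, 3, 7, 3, 7, 5, 1⟩ :=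
  leafX_sound T5.ok_pp T5.Ypp.bz_eq (w := 257) (c := ⟨⟨.negSucc 6721, .negSucc 4289, .ofNat 843, .ofNat 3499, .negSucc 3801, .negSucc 1845⟩, ⟨.negSucc 4066, .negSucc 2198, .ofNat 254, .ofNat 2167, .negSucc 2219, .negSucc 1129⟩, ⟨.ofNat 4993, .ofNat 3052, .negSucc 594, .negSucc 3758, .ofNat 2933, .ofNat 1218⟩, ⟨.negSucc 15263, .negSucc 8868, .ofNat 1230, .ofNat 4935, .negSucc 9818, .negSucc 3918⟩, ⟨.ofNat 9059, .ofNat 4570, .negSucc 245, .ofNat 183, .ofNat 7042, .ofNat 2033⟩, .ofNat 3220, .negSucc 4716, .ofNat 0, .negSucc 4716, .ofNat 7790, .ofNat 0, .ofNat 128, .ofNat 822, .negSucc 3418, .ofNat 0, .ofNat 526, .negSucc 1983, .ofNat 0, .ofNat 0, .ofNat 2440, .ofNat 368, .ofNat 0, .ofNat 0, .ofNat 54153268504966015978154427361419435131797504, .ofNat 0, .ofNat 0, .ofNat 0, .ofNat 924642772113701123995041188400450282119495680, .ofNat 0, .ofNat 0, .ofNat 11605723065484371662277721967737684013972245994012672,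 .ofNat 81240426376902157033656319640373638383796224, .ofNat 0, .ofNat 0, .ofNat 0, .ofNat 0, .ofNat 0⟩)
    (by decide +kernel)
theorem L06206 : Good (Phi V5.P V5.D 1 1) ⟨3, 7, 5, 18, 3, 7, 3, 7, 4, 0⟩ :=
  out_sound (S := T5.ds_pp) T5.ok_pp (w := 49) (j := 3) (by decide +kernel)
theorem L06207 : Good (Phi V5.P V5.D 1 1) ⟨4, 12, 5, 19, 3, 7, 3, 7, 4, 0⟩ :=
  out_sound (S := T5.ds_pp) T5.ok_pp (w := 55) (j := 3) (by decide +kernel)
theorem L06208 : Good (Phi V5.P V5.D 1 1) ⟨5, 26, 5, 19, 3, 7, 3, 7, 4, 0⟩ :=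
  out_sound (S := T5.ds_pp) T5.ok_pp (w := 61) (j := 3) (by decide +kernel)
theorem L06209 : Good (Phi V5.P V5.D 1 1) ⟨6, 54, 5, 19, 3, 7, 3, 7, 4, 0⟩ :=
  out_sound (S := T5.ds_pp) T5.ok_pp (w := 67) (j := 3) (by decide +kernel)
theorem L06210 : Good (Phi V5.P V5.D 1 1) ⟨6, 55, 5, 19, 3, 7, 3, 7, 5, 0⟩ :=
  leafX_sound T5.ok_pp T5.Ypp.bz_eq (w := 255) (c := ⟨⟨.negSucc 5845, .negSucc 1843, .ofNat 1171, .ofNat 3164, .negSucc 1640, .negSucc 1624⟩, ⟨.negSucc 3672, .negSucc 832, .ofNat 306, .ofNat 1967, .negSucc 950, .negSucc 1001⟩, ⟨.ofNat 4242, .ofNat 1399, .negSucc 1080, .negSucc 3134, .ofNat 1763, .ofNat 1017⟩, ⟨.negSucc 15919, .negSucc 2949, .ofNat 1338, .ofNat 4637, .negSucc 5123, .negSucc 2791⟩, ⟨.ofNat 12054, .ofNat 600, .ofNat 150, .negSucc 151, .ofNat 4437, .ofNat 726⟩, .ofNat 3596, .negSucc 5278, .ofNat 0, .negSucc 5278, .ofNat 8616, .ofNat 0, .ofNat 128, .ofNat 1036, .negSucc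 5195, .ofNat 0, .ofNat 667, .negSucc 3082, .ofNat 0, .ofNat 0, .ofNat 3476, .ofNat 293, .ofNat 0, .ofNat 0, .ofNat 3115574183171647129455683641245448452177920, .ofNat 0, .ofNat 0, .ofNat 0, .ofNat 796641513486178936498935364655975775122489344, .ofNat 0, .ofNat 0, .ofNat 0, .ofNat 615096307549965927854282729828192327426899968, .ofNat 0, .ofNat 0, .ofNat 0, .ofNat 4264099867019247949591524402452005996042649600, .ofNat 0⟩)
    (by decide +kernel)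
theorem L06211 : Good (Phi V5.P V5.D 1 1) ⟨6, 55, 5, 19, 3, 7, 3, 7, 5, 1⟩ :=
  leafX_sound T5.ok_pp T5.Ypp.bz_eq (w := 256) (c := ⟨⟨.negSucc 5462, .negSucc 4402, .ofNat 3347, .ofNat 3414, .negSucc 3945, .negSucc 2245⟩, ⟨.negSucc 3552, .negSucc 2278, .ofNat 1508, .ofNat 2127, .negSucc 2335, .negSucc 1363⟩, ⟨.ofNat 3652, .ofNat 3728, .negSucc 2758, .negSucc 3733, .ofNat 3095, .ofNat 1428⟩, ⟨.negSucc 16651, .negSucc 5548, .ofNat 3538, .ofNat 4410, .negSucc 9116, .negSucc 3958⟩, ⟨.ofNat 13792, .negSucc 756, .ofNat 1338, .ofNat 767, .ofNat 5573, .ofNat 1206⟩, .ofNat 5238, .negSucc 7870, .ofNat 0, .negSucc 7870, .ofNat 12714, .ofNat 0, .ofNat 128, .ofNat 1365, .negSucc 4190, .ofNat 0, .ofNat 876, .negSucc 2508, .ofNat 0, .ofNat 0, .ofNat 3036, .ofNat 242, .ofNat 0, .ofNat 0, .ofNat 8084002088572687099321224403696012912230400, .ofNat 0, .ofNat 0, .ofNat 83307281033717825596637686344197009172827471872000,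 .ofNat 2809663167925695684789836689607469370966016000, .ofNat 0, .ofNat 0, .ofNat 0, .ofNat 538869859024233682330968678433938864053682176, .ofNat 0, .ofNat 0, .ofNat 0, .ofNat 0, .ofNat 0⟩)
    (by decide +kernel)
theorem L06212 : Good (Phi V5.P V5.D 1 1) ⟨6, 56, 5, 19, 4, 14, 3, 7, 5, 0⟩ :=
  leafX_sound T5.ok_pp T5.Ypp.bz_eq (w := 269) (c := ⟨⟨.negSucc 5338, .negSucc 1552, .ofNat 1560, .negSucc 1650, .negSucc 925, .negSucc 3083⟩, ⟨.negSucc 3036, .negSucc 590, .ofNat 513, .negSucc 1003, .negSucc 507, .negSucc 1931⟩, ⟨.ofNat 4053, .ofNat 1576, .negSucc 1300, .ofNat 407, .ofNat 1739, .ofNat 1962⟩, ⟨.negSucc 13889, .negSucc 2755, .ofNat 2452, .negSucc 4918, .negSucc 4508, .negSucc 5558⟩, ⟨.ofNat 10129, .ofNat 1186, .negSucc 841, .ofNat 4033, .ofNat 5053, .ofNat 1832⟩, .ofNat 4023, .negSucc 5797, .ofNat 0, .negSucc 5797, .ofNat 9183, .ofNat 0, .ofNat 128, .ofNat 639, .negSucc 4296, .ofNat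 0, .ofNat 425, .negSucc 2600, .ofNat 0, .ofNat 0, .ofNat 2965, .ofNat 205, .ofNat 0, .ofNat 0, .ofNat 187027838799299604896395591881036271581092904960, .ofNat 0, .ofNat 0, .ofNat 0, .ofNat 16159942288290778536572952385523738913209298452480, .ofNat 0, .ofNat 0, .ofNat 0, .ofNat 3219802850287962964761230913506203257982383292416, .ofNat 0, .ofNat 0, .ofNat 0, .ofNat 18187810073710172217399581798374417288135813627904, .ofNat 0⟩)
    (by decide +kernel)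
theorem L06213 : Good (Phi V5.P V5.D 1 1) ⟨6, 56, 5, 19, 4, 15, 4, 14, 5, 0⟩ :=
  leafX_sound T5.ok_pp T5.Ypp.bz_eq (w := 272) (c := ⟨⟨.negSucc 7764, .negSucc 3458, .ofNat 1876, .ofNat 2486, .negSucc 549, .negSucc 1392⟩, ⟨.negSucc 4508, .negSucc 1747, .ofNat 693, .ofNat 1545, .negSucc 328, .negSucc 864⟩, ⟨.ofNat 5086, .ofNat 2461, .negSucc 1438, .negSucc 2111, .ofNat 603, .ofNat 887⟩, ⟨.negSucc 19715, .negSucc 5225, .ofNat 1592, .ofNat 4150, .negSucc 1908, .negSucc 2006⟩, ⟨.ofNat 13920, .ofNat 1102, .ofNat 1013, .negSucc 960, .ofNat 1766, .ofNat 60⟩, .ofNat 4631, .negSucc 6732, .ofNat 0, .negSucc 6732, .ofNat 10624, .ofNat 0, .ofNat 128, .ofNat 611, .negSucc 2623, .ofNat 0, .ofNat 402, .negSucc 1574, .ofNat 0, .ofNat 0, .ofNat 1710, .ofNat 840, .ofNat 0, .ofNat 0, .ofNat 4451391566999812735279140103059415241497820266496, .ofNat 0, .ofNat 0, .ofNat 0, .ofNat 203136307615739328591994534305035820868157558489088,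 .ofNat 0, .ofNat 0, .ofNat 0, .ofNat 50133683377275014916411003334808649475835692056576, .ofNat 0, .ofNat 0, .ofNat 0, .ofNat 281933639406918025798702478193196096967041555103744, .ofNat 0⟩)
    (by decide +kernel)

end Crest.Agent.R097C5.N5pp
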