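import Crest.Agent.R097.KP7
import Crest.Agent.R097.T5Ypp

/-!
# Row 97, box cover in dimension n = 5 (generated)
-/

set_option autoImplicit false
set_option Elab.async false
set_option maxHeartbeats 0
set_option maxRecDepth 100000

open Crest.Agent.R097 Crest.Agent.R097.KA


namespace Crest.Agent.R097C5.N5pp

theorem L06214 : Good (Phi V5.P V5.D 1 1) ⟨6, 56, 5, 19, 4, 15, 4, 15, 5, 0⟩ :=
  leafX_sound T5.ok_pp T5.Ypp.bz_eq (w := 273) (c := ⟨⟨.negSucc 8501, .negSucc 2892, .ofNat 2188, .ofNat 3483, .negSucc 719, .negSucc 3009⟩, ⟨.negSucc 4921, .negSucc 1404, .ofNat 864, .ofNat 2145, .negSucc 417, .negSucc 1878⟩, ⟨.ofNat 6081, .ofNat 2099, .negSucc 1571, .negSucc 3038, .ofNat 807, .ofNat 1746⟩, ⟨.negSucc 22115, .negSucc 5194, .ofNat 3022, .ofNat 7217, .negSucc 2488, .negSucc 6482⟩, ⟨.ofNat 16066, .ofNat 2097, .negSucc 449, .negSucc 3573, .ofNat 2313, .ofNat 3447⟩, .ofNat 4455, .negSucc 6463,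 .ofNat 0, .negSucc 6463, .ofNat 10208, .ofNat 0, .ofNat 128, .ofNat 662, .negSucc 3515, .ofNat 0, .ofNat 438, .negSucc 2112, .ofNat 0, .ofNat 0, .ofNat 2227, .ofNat 111, .ofNat 0, .ofNat 0, .ofNat 2553131681662775930798379780215693365712223469568, .ofNat 0, .ofNat 0, .ofNat 0, .ofNat 105972443443101350140742332400308527525211435696128, .ofNat 0, .ofNat 0, .ofNat 0, .ofNat 32840364287413017926728152482212109426778945093632, .ofNat 0, .ofNat 0, .ofNat 0, .ofNat 189666309345374363681768975549262003874515021463552, .ofNat 0⟩)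
    (by decide +kernel)
theorem L06215 : Good (Phi V5.P V5.D 1 1) ⟨6, 57, 5, 19, 3, 7, 3, 7, 5, 0⟩ :=
  out_sound (S := T5.ds_pp) T5.ok_pp (w := 67) (j := 3) (by decide +kernel)
theorem L06216 : Good (Phi V5.P V5.D 1 1) ⟨7, 112, 5, 19, 4, 14, 3, 7, 5, 1⟩ :=
  leafX_sound T5.ok_pp T5.Ypp.bz_eq (w := 272) (c := ⟨⟨.negSucc 8573, .negSucc 2337, .ofNat 2740, .negSucc 662, .negSucc 4695, .negSucc 1838⟩, ⟨.negSucc 4988, .negSucc 1277, .ofNat 1135, .negSucc 382, .negSucc 2830, .negSucc 1164⟩, ⟨.ofNat 6185, .ofNat 1560, .negSucc 1832, .negSucc 341, .ofNat 4065, .ofNat 1327⟩, ⟨.negSucc 18389, .negSucc 3736, .ofNat 3568, .negSucc 3670, .negSucc 12582, .negSucc 3881⟩, ⟨.ofNat 9990, .ofNat 763, .ofNat 47, .ofNat 4276, .ofNat 9311, .ofNat 1964⟩, .ofNat 4005, .negSucc 5837, .ofNat 0, .negSucc 5837, .ofNat 9350, .ofNat 0, .ofNat 128, .ofNat 617, .negSucc 3467, .ofNat 0, .ofNat 403, .negSucc 2104, .ofNat 0,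 .ofNat 0, .ofNat 2540, .ofNat 263, .ofNat 0, .ofNat 0, .ofNat 196555479968199025541339870303360209774167719936, .ofNat 0, .ofNat 0, .ofNat 29083750454180974086899624304304410080872498728118779904, .ofNat 10419546829452763259513529273947022584819363086336, .ofNat 0, .ofNat 0, .ofNat 0, .ofNat 0, .ofNat 0, .ofNat 0, .ofNat 0, .ofNat 0, .ofNat 0⟩)
    (by decide +kernel)
theorem L06217 : Good (Phi V5.P V5.D 1 1) ⟨7, 112, 5, 19, 4, 15, 3, 7, 5, 1⟩ :=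
  leafX_sound T5.ok_pp T5.Ypp.bz_eq (w := 272) (c := ⟨⟨.negSucc 8961, .negSucc 2048, .ofNat 1610, .ofNat 2652, .negSucc 4613, .negSucc 1614⟩, ⟨.negSucc 5201, .negSucc 1085, .ofNat 458, .ofNat 1633, .negSucc 2805, .negSucc 1016⟩, ⟨.ofNat 6143, .ofNat 1360, .negSucc 1254, .negSucc 2578, .ofNat 3249, .ofNat 993⟩, ⟨.negSucc 21716, .negSucc 3914, .ofNat 1855, .ofNat 4022, .negSucc 10488, .negSucc 3230⟩, ⟨.ofNat 14357, .ofNat 1668, .ofNat 208, .negSucc 400, .ofNat 6219, .ofNat 1458⟩, .ofNat 5200, .negSucc 7692, .ofNat 0, .negSucc 7692, .ofNat 12236, .ofNat 0, .ofNat 128, .ofNat 692, .negSucc 2672, .ofNat 0, .ofNat 450, .negSucc 1616, .ofNat 0, .ofNat 0, .ofNat 1839, .ofNat 328, .ofNat 0, .ofNat 0, .ofNat 167664499021483771423314322147265307402500571136, .ofNat 0, .ofNat 0, .ofNat 0, .ofNat 6507092611982183523018544170905224528702077927424, .ofNat 0, .ofNat 0, .ofNat 0, .ofNat 3192500463278361780183629977338492198076423340032,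 .ofNat 0, .ofNat 0, .ofNat 273380910147205594538867185887803079234923675027536609280, .ofNat 4582811357270974096590789723206512295004621242368, .ofNat 0⟩)
    (by decide +kernel)
theorem L06218 : Good (Phi V5.P V5.D 1 1) ⟨7, 113, 5, 19, 3, 7, 3, 7, 5, 1⟩ :=
  out_sound (S := T5.ds_pp) T5.ok_pp (w := 73) (j := 3) (by decide +kernel)
theorem L06219 : Good (Phi V5.P V5.D 1 1) ⟨6, 57, 5, 19, 3, 7, 3, 7, 5, 1⟩ :=
  out_sound (S := T5.ds_pp) T5.ok_pp (w := 67) (j := 3) (by decide +kernel)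
theorem L06220 : Good (Phi V5.P V5.D 1 1) ⟨5, 29, 5, 19, 3, 7, 3, 7, 4, 0⟩ :=
  out_sound (S := T5.ds_pp) T5.ok_pp (w := 61) (j := 3) (by decide +kernel)
theorem L06221 : Good (Phi V5.P V5.D 1 1) ⟨4, 15, 5, 19, 3, 7, 3, 7, 4, 0⟩ :=
  out_sound (S := T5.ds_pp) T5.ok_pp (w := 55) (j := 3) (by decide +kernel)
theorem L06222 : Good (Phi V5.P V5.D 1 1) ⟨2, 2, 4, 9, 3, 7, 2, 3, 4, 1⟩ :=
  out_sound (S := T5.ds_pp) T5.ok_pp (w := 41) (j := 3) (by decide +kernel)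
theorem L06223 : Good (Phi V5.P V5.D 1 1) ⟨4, 12, 4, 9, 3, 7, 2, 3, 4, 1⟩ :=
  out_sound (S := T5.ds_pp) T5.ok_pp (w := 53) (j := 3) (by decide +kernel)
theorem L06224 : Good (Phi V5.P V5.D 1 1) ⟨5, 26, 4, 9, 3, 7, 2, 3, 4, 1⟩ :=
  out_sound (S := T5.ds_pp) T5.ok_pp (w := 59) (j := 3) (by decide +kernel)
theorem L06225 : Good (Phi V5.P V5.D 1 1) ⟨6, 54, 4, 9, 3, 7, 2, 3, 5, 2⟩ :=
  out_sound (S := T5.ds_pp) T5.ok_pp (w := 65) (j := 3) (by decide +kernel)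
theorem L06226 : Good (Phi V5.P V5.D 1 1) ⟨6, 55, 4, 9, 3, 7, 3, 6, 5, 2⟩ :=
  leafX_sound T5.ok_pp T5.Ypp.bz_eq (w := 249) (c := ⟨⟨.negSucc 8549, .negSucc 565, .ofNat 24, .ofNat 3611, .negSucc 1660, .negSucc 360⟩, ⟨.negSucc 4996, .negSucc 97, .negSucc 700, .ofNat 2256, .negSucc 965, .negSucc 224⟩, ⟨.ofNat 5488, .ofNat 647, .negSucc 399, .negSucc 2897, .ofNat 1406, .ofNat 338⟩, ⟨.negSucc 17232, .negSucc 1463, .negSucc 1071, .ofNat 3584, .negSucc 4119, .ofNat 137⟩, ⟨.ofNat 8080, .ofNat 1213, .ofNat 1208, .ofNat 2675, .ofNat 2821, .negSucc 1085⟩, .ofNat 3129, .negSucc 4600, .ofNat 0, .negSucc 4600, .ofNat 7659, .ofNat 0, .ofNat 128, .ofNat 916, .negSucc 1459, .ofNat 0, .ofNat 579, .negSucc 836, .ofNat 0, .ofNat 0, .ofNat 1244, .ofNat 642, .ofNat 0, .ofNat 0, .ofNat 4509774338850378992188988242126460092940288, .ofNat 0, .ofNat 0, .ofNat 0, .ofNat 203141779219857864068024068592544540035907584,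 .ofNat 0, .ofNat 0, .ofNat 0, .ofNat 0, .ofNat 0, .ofNat 0, .ofNat 0, .ofNat 307304332687023087577137005332380909593165824, .ofNat 0⟩)
    (by decide +kernel)
theorem L06227 : Good (Phi V5.P V5.D 1 1) ⟨6, 55, 5, 18, 3, 7, 3, 7, 5, 2⟩ :=
  leafX_sound T5.ok_pp T5.Ypp.bz_eq (w := 253) (c := ⟨⟨.negSucc 10416, .negSucc 1430, .ofNat 452, .ofNat 2702, .negSucc 2661, .ofNat 789⟩, ⟨.negSucc 6026, .negSucc 519, .negSucc 196, .ofNat 1678, .negSucc 1533, .ofNat 421⟩, ⟨.ofNat 7632, .ofNat 1020, .negSucc 270, .negSucc 3284, .ofNat 2055, .negSucc 403⟩, ⟨.negSucc 22867, .negSucc 2456, .negSucc 300, .ofNat 3206, .negSucc 6591, .ofNat 2586⟩, ⟨.ofNat 12925, .ofNat 803, .ofNat 1187, .ofNat 1158, .ofNat 4518, .negSucc 2393⟩, .ofNat 3042, .negSucc 4472, .ofNat 0, .negSucc 4472, .ofNat 7476, .ofNat 0, .ofNat 128, .ofNat 948, .negSucc 2256, .ofNat 0, .ofNat 603, .negSucc 1279, .ofNat 0, .ofNat 0, .ofNat 1865, .ofNat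 354, .ofNat 0, .ofNat 0, .ofNat 15740880207307370171441382184561054488461312, .ofNat 0, .ofNat 0, .ofNat 190528031457855309822910774756809542948521016033280, .ofNat 494197917990899074804719879183828880342384640, .ofNat 0, .ofNat 0, .ofNat 2375711595924286690221002178249910264041311179898880, .ofNat 536664592325734268133797527731520029425926144, .ofNat 0, .ofNat 0, .ofNat 4491915059437550133497330581268189552759192825102336, .ofNat 875932352558514240660081930096178548629831680, .ofNat 0⟩)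
    (by decide +kernel)
theorem L06228 : Good (Phi V5.P V5.D 1 1) ⟨6, 55, 5, 19, 3, 7, 3, 7, 5, 2⟩ :=
  leafX_sound T5.ok_pp T5.Ypp.bz_eq (w := 255) (c := ⟨⟨.negSucc 9067, .negSucc 2192, .ofNat 379, .ofNat 2223, .negSucc 2770, .ofNat 1019⟩, ⟨.negSucc 5670, .negSucc 1011, .negSucc 250, .ofNat 1406, .negSucc 1645, .ofNat 585⟩, ⟨.ofNat 6776, .ofNat 1531, .negSucc 170, .negSucc 3165, .ofNat 2245, .negSucc 548⟩, ⟨.negSucc 22352, .negSucc 2533, .negSucc 54, .ofNat 2179, .negSucc 6464, .ofNat 2816⟩, ⟨.ofNat 14715, .negSucc 590, .ofNat 523, .ofNat 1630, .ofNat 4004, .negSucc 2195⟩, .ofNat 5293, .negSucc 7961, .ofNat 0, .negSucc 7961, .ofNat 12867, .ofNat 0, .ofNat 128, .ofNat 1221, .negSucc 3277, .ofNat 0, .ofNat 784, .negSucc 1950, .ofNat 0, .ofNat 0, .ofNat 2708, .ofNat 450, .ofNat 0, .ofNat 0, .ofNat 0, .ofNat 0, .ofNat 0, .ofNat 0, .ofNat 876725289894812775428674998933966420313112576, .ofNat 0,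 .ofNat 0, .ofNat 3782304138477448705382156634356359161090217691054080, .ofNat 1157419145397173288816576308057318985400582144, .ofNat 0, .ofNat 0, .ofNat 0, .ofNat 0, .ofNat 0⟩)
    (by decide +kernel)
theorem L06229 : Good (Phi V5.P V5.D 1 1) ⟨6, 54, 4, 9, 3, 7, 2, 3, 5, 3⟩ :=
  out_sound (S := T5.ds_pp) T5.ok_pp (w := 65) (j := 3) (by decide +kernel)
theorem L06230 : Good (Phi V5.P V5.D 1 1) ⟨6, 55, 4, 9, 3, 7, 3, 6, 5, 3⟩ :=
  leafX_sound T5.ok_pp T5.Ypp.bz_eq (w := 248) (c := ⟨⟨.negSucc 8088, .negSucc 421, .ofNat 368, .ofNat 2118, .negSucc 1306, .ofNat 910⟩, ⟨.negSucc 4732, .negSucc 75, .negSucc 367, .ofNat 1384, .negSucc 763, .ofNat 505⟩, ⟨.ofNat 5330, .ofNat 426, .negSucc 328, .negSucc 1951, .ofNat 1032, .negSucc 392⟩, ⟨.negSucc 15998, .negSucc 891, .negSucc 158, .ofNat 770, .negSucc 2983, .ofNat 2584⟩, ⟨.ofNat 7132, .ofNat 605, .ofNat 623, .ofNat 3738, .ofNat 1811, .negSucc 2083⟩, .ofNat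 2413, .negSucc 3449, .ofNat 0, .negSucc 3449, .ofNat 5802, .ofNat 0, .ofNat 128, .ofNat 1168, .negSucc 1242, .ofNat 0, .ofNat 748, .negSucc 689, .ofNat 0, .ofNat 0, .ofNat 1368, .ofNat 1056, .ofNat 0, .ofNat 0, .ofNat 5868044955021687619636152807816086574596096, .ofNat 0, .ofNat 0, .ofNat 0, .ofNat 263809444276231433266229980475698129246617600, .ofNat 0, .ofNat 0, .ofNat 0, .ofNat 0, .ofNat 0, .ofNat 0, .ofNat 0, .ofNat 48853817746096480137622833434051728205938688, .ofNat 0⟩)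
    (by decide +kernel)
theorem L06231 : Good (Phi V5.P V5.D 1 1) ⟨6, 55, 4, 9, 3, 7, 3, 7, 5, 3⟩ :=
  leafX_sound T5.ok_pp T5.Ypp.bz_eq (w := 248) (c := ⟨⟨.negSucc 8816, .negSucc 761, .ofNat 212, .ofNat 1442, .negSucc 1822, .ofNat 1150⟩, ⟨.negSucc 5121, .negSucc 217, .negSucc 603, .ofNat 943, .negSucc 1051, .ofNat 648⟩, ⟨.ofNat 6533, .ofNat 747, .negSucc 464, .negSucc 2222, .ofNat 1591, .negSucc 612⟩, ⟨.negSucc 18809, .negSucc 1832, .negSucc 269, .ofNat 624, .negSucc 4518, .ofNat 3481⟩, ⟨.ofNat 10044, .ofNat 1312, .ofNat 381, .ofNat 2425, .ofNat 3061, .negSucc 3017⟩, .ofNat 2435, .negSucc 3499, .ofNat 0, .negSucc 3499, .ofNat 5909, .ofNat 0, .ofNat 128, .ofNat 983, .negSucc 1463, .ofNat 0, .ofNat 631, .negSucc 800, .ofNat 0, .ofNat 0, .ofNat 1631, .ofNat 577, .ofNat 0, .ofNat 1578635549730658176129149945212055140434976964608, .ofNat 4004016173648591644383953202017760406667264, .ofNat 0, .ofNat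 0, .ofNat 115235639818467160564820861363946949939263491276800, .ofNat 167972757509452236833627183134588784529637376, .ofNat 0, .ofNat 0, .ofNat 461460555457835037511416267401548000421062660587520, .ofNat 167186265793767358209841007473563512541806592, .ofNat 0, .ofNat 0, .ofNat 740918195051088270890239805452043545468197205442560, .ofNat 382430285858912468324435861251401808286318592, .ofNat 0⟩)
    (by decide +kernel)
theorem L06232 : Good (Phi V5.P V5.D 1 1) ⟨6, 56, 4, 9, 3, 7, 3, 6, 5, 2⟩ :=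
  leafX_sound T5.ok_pp T5.Ypp.bz_eq (w := 249) (c := ⟨⟨.negSucc 8984, .negSucc 535, .ofNat 225, .ofNat 3203, .negSucc 2035, .negSucc 200⟩, ⟨.negSucc 5047, .negSucc 100, .negSucc 565, .ofNat 2081, .negSucc 1242, .negSucc 138⟩, ⟨.ofNat 6367, .ofNat 1011, .negSucc 893, .negSucc 2741, .ofNat 1575, .ofNat 224⟩, ⟨.negSucc 18329, .negSucc 969, .negSucc 320, .ofNat 2522, .negSucc 5024, .ofNat 461⟩, ⟨.ofNat 9226, .ofNat 583, .ofNat 283, .ofNat 3238, .ofNat 3357, .negSucc 1178⟩, .ofNat 2917, .negSucc 4094, .ofNat 0, .negSucc 4094, .ofNat 6562, .ofNat 0, .ofNat 128, .ofNat 957, .negSucc 1682, .ofNat 0, .ofNat 632, .negSucc 970, .ofNat 0, .ofNat 0, .ofNat 1401, .ofNat 576, .ofNat 0, .ofNat 0, .ofNat 7187352136350970933481901498473518857191424, .ofNat 0, .ofNat 0, .ofNat 0, .ofNat 322028865264529516890174759416320774081871872, .ofNat 0, .ofNat 0, .ofNat 0, .ofNat 60976042483996053478844626124812338300190720,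 .ofNat 0, .ofNat 0, .ofNat 0, .ofNat 61494631285784102225727979782313478335758336, .ofNat 0⟩)
    (by decide +kernel)
theorem L06233 : Good (Phi V5.P V5.D 1 1) ⟨6, 56, 5, 18, 3, 7, 3, 7, 5, 2⟩ :=
  out_sound (S := T5.ds_pp) T5.ok_pp (w := 67) (j := 3) (by decide +kernel)
theorem L06234 : Good (Phi V5.P V5.D 1 1) ⟨7, 112, 5, 19, 3, 7, 3, 7, 6, 4⟩ :=
  leafX_sound T5.ok_pp T5.Ypp.bz_eq (w := 263) (c := ⟨⟨.negSucc 11242, .negSucc 1764, .ofNat 1693, .ofNat 2469, .negSucc 3797, .ofNat 256⟩, ⟨.negSucc 6664, .negSucc 915, .ofNat 507, .ofNat 1589, .negSucc 2315, .ofNat 137⟩, ⟨.ofNat 8430, .ofNat 1411, .negSucc 1397, .negSucc 3345, .ofNat 2864, .negSucc 201⟩, ⟨.negSucc 24632, .negSucc 3204, .ofNat 1896, .ofNat 2358, .negSucc 9133, .ofNat 965⟩, ⟨.ofNat 13800, .ofNat 1258, .ofNat 308, .ofNat 1844, .ofNat 5884, .negSucc 956⟩, .ofNat 5085, .negSucc 7515, .ofNat 0, .negSucc 7515, .ofNat 11960, .ofNat 0,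 .ofNat 128, .ofNat 959, .negSucc 2389, .ofNat 0, .ofNat 624, .negSucc 1452, .ofNat 0, .ofNat 0, .ofNat 1871, .ofNat 326, .ofNat 0, .ofNat 0, .ofNat 323577255226059918170639747186593077196226560, .ofNat 0, .ofNat 0, .ofNat 17447258509209625107577662144996498501811383755079680, .ofNat 26669494706393440584460764808705836354489024512, .ofNat 0, .ofNat 0, .ofNat 322541969801668010940638664837022400709543701306671104, .ofNat 14275589545842784769713601017587880176650289152, .ofNat 0, .ofNat 0, .ofNat 0, .ofNat 0, .ofNat 0⟩)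
    (by decide +kernel)
theorem L06235 : Good (Phi V5.P V5.D 1 1) ⟨7, 112, 5, 19, 3, 7, 3, 7, 6, 5⟩ :=
  leafX_sound T5.ok_pp T5.Ypp.bz_eq (w := 262) (c := ⟨⟨.negSucc 10659, .negSucc 582, .ofNat 303, .ofNat 2053, .negSucc 2773, .ofNat 638⟩, ⟨.negSucc 6348, .negSucc 201, .negSucc 285, .ofNat 1333, .negSucc 1702, .ofNat 379⟩, ⟨.ofNat 8096, .ofNat 492, .negSucc 402, .negSucc 2939, .ofNat 2116, .negSucc 477⟩, ⟨.negSucc 23373, .negSucc 1301, .negSucc 330, .ofNat 1592, .negSucc 6519, .ofNat 2097⟩, ⟨.ofNat 13090, .ofNat 808, .ofNat 837, .ofNat 2104, .ofNat 4066, .negSucc 1873⟩, .ofNat 5158, .negSucc 7628, .ofNat 0, .negSucc 7628, .ofNat 12137, .ofNat 0, .ofNat 128, .ofNat 912, .negSucc 1423, .ofNat 0, .ofNat 594, .negSucc 863, .ofNat 0, .ofNat 0, .ofNat 1231, .ofNat 496, .ofNat 0, .ofNat 0, .ofNat 394298799882678062701372498564936501724971008, .ofNat 0, .ofNat 0, .ofNat 134084906746730731776814033952066423339946742621667328,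 .ofNat 21632473409314794217475039248468113124319297536, .ofNat 0, .ofNat 0, .ofNat 418341002267813724297403804954142914601549286323781632, .ofNat 1758310975941251033009381647314890115625517056, .ofNat 0, .ofNat 0, .ofNat 267124726512335065089289210119169665396504550940082176, .ofNat 9124204854185901140873391880592457011864535040, .ofNat 0⟩)
    (by decide +kernel)
theorem L06236 : Good (Phi V5.P V5.D 1 1) ⟨7, 113, 5, 19, 3, 7, 3, 7, 5, 2⟩ :=
  out_sound (S := T5.ds_pp) T5.ok_pp (w := 73) (j := 3) (by decide +kernel)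
theorem L06237 : Good (Phi V5.P V5.D 1 1) ⟨6, 56, 5, 18, 3, 7, 2, 3, 5, 3⟩ :=
  out_sound (S := T5.ds_pp) T5.ok_pp (w := 67) (j := 3) (by decide +kernel)
theorem L06238 : Good (Phi V5.P V5.D 1 1) ⟨6, 56, 5, 19, 3, 7, 3, 6, 5, 3⟩ :=
  leafX_sound T5.ok_pp T5.Ypp.bz_eq (w := 253) (c := ⟨⟨.negSucc 8416, .negSucc 725, .ofNat 203, .ofNat 2242, .negSucc 1480, .ofNat 797⟩, ⟨.negSucc 5063, .negSucc 250, .negSucc 199, .ofNat 1479, .negSucc 903, .ofNat 468⟩, ⟨.ofNat 5731, .ofNat 620, .negSucc 238, .negSucc 2137, .ofNat 1178, .negSucc 333⟩, ⟨.negSucc 16766, .negSucc 852, .negSucc 345, .ofNat 477, .negSucc 3148, .ofNat 2428⟩, ⟨.ofNat 7668, .negSucc 21, .ofNat 679, .ofNat 4294, .ofNat 1652, .negSucc 2062⟩, .ofNat 4631, .negSucc 6732, .ofNat 0, .negSucc 6732, .ofNat 10624, .ofNat 0, .ofNat 128, .ofNat 1369, .negSucc 1464, .ofNat 0, .ofNat 904, .negSucc 868, .ofNat 0, .ofNat 0, .ofNat 1570, .ofNat 1072,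 .ofNat 0, .ofNat 0, .ofNat 17448048877594935721463670538957999749201920, .ofNat 0, .ofNat 0, .ofNat 0, .ofNat 2328656451058980332619964498807483160000987136, .ofNat 0, .ofNat 0, .ofNat 0, .ofNat 0, .ofNat 0, .ofNat 0, .ofNat 0, .ofNat 0, .ofNat 0⟩)
    (by decide +kernel)
theorem L06239 : Good (Phi V5.P V5.D 1 1) ⟨6, 56, 5, 19, 3, 7, 3, 7, 5, 3⟩ :=
  leafX_sound T5.ok_pp T5.Ypp.bz_eq (w := 253) (c := ⟨⟨.negSucc 9477, .negSucc 214, .negSucc 131, .ofNat 1194, .negSucc 1621, .ofNat 1536⟩, ⟨.negSucc 5664, .ofNat 155, .negSucc 483, .ofNat 807, .negSucc 990, .ofNat 920⟩, ⟨.ofNat 7172, .ofNat 760, .negSucc 178, .negSucc 2208, .ofNat 1281, .negSucc 858⟩, ⟨.negSucc 20669, .negSucc 686, .negSucc 642, .negSucc 22, .negSucc 3587, .ofNat 4175⟩, ⟨.ofNat 11442, .ofNat 739, .ofNat 427, .ofNat 2740, .ofNat 2026, .negSucc 3153⟩, .ofNat 3903, .negSucc 5680, .ofNat 0, .negSucc 5680, .ofNat 9110, .ofNat 0, .ofNat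 128, .ofNat 1040, .negSucc 1952, .ofNat 0, .ofNat 681, .negSucc 1155, .ofNat 0, .ofNat 0, .ofNat 2152, .ofNat 603, .ofNat 0, .ofNat 0, .ofNat 21962199838241564985321536078297921790935040, .ofNat 0, .ofNat 0, .ofNat 911461597212880278513134815149818297990866773475328, .ofNat 1345782221890291598934059431353462016410910720, .ofNat 0, .ofNat 0, .ofNat 3228709017207163018932871455819067264491011587440640, .ofNat 788083049043826481065688104047158497848066048, .ofNat 0, .ofNat 0, .ofNat 0, .ofNat 4115646596705219553535287827553641978874822656, .ofNat 0⟩)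
    (by decide +kernel)
theorem L06240 : Good (Phi V5.P V5.D 1 1) ⟨6, 57, 4, 9, 3, 7, 2, 3, 4, 1⟩ :=
  out_sound (S := T5.ds_pp) T5.ok_pp (w := 65) (j := 3) (by decide +kernel)
theorem L06241 : Good (Phi V5.P V5.D 1 1) ⟨5, 29, 4, 9, 3, 7, 2, 3, 4, 1⟩ :=
  out_sound (S := T5.ds_pp) T5.ok_pp (w := 59) (j := 3) (by decide +kernel)
theorem L06242 : Good (Phi V5.P V5.D 1 1) ⟨4, 15, 4, 9, 3, 7, 2, 3, 4, 1⟩ :=
  out_sound (S := T5.ds_pp) T5.ok_pp (w := 53) (j := 3) (by decide +kernel)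
theorem L06243 : Good (Phi V5.P V5.D 1 1) ⟨2, 2, 3, 4, 2, 3, 2, 3, 3, 1⟩ :=
  out_sound (S := T5.ds_pp) T5.ok_pp (w := 39) (j := 3) (by decide +kernel)
theorem L06244 : Good (Phi V5.P V5.D 1 1) ⟨4, 12, 3, 4, 2, 3, 2, 3, 3, 1⟩ :=
  out_sound (S := T5.ds_pp) T5.ok_pp (w := 51) (j := 3) (by decide +kernel)
theorem L06245 : Good (Phi V5.P V5.D 1 1) ⟨5, 26, 3, 4, 2, 3, 2, 3, 5, 4⟩ :=
  leafX_sound T5.ok_pp T5.Ypp.bz_eq (w := 221) (c := ⟨⟨.negSucc 7375, .ofNat 265, .ofNat 471, .ofNat 1994, .negSucc 1642, .ofNat 702⟩, ⟨.negSucc 4176, .ofNat 326, .negSucc 491, .ofNat 1268, .negSucc 856, .ofNat 348⟩, ⟨.ofNat 4762, .ofNat 532, .negSucc 472, .negSucc 2242, .ofNat 1574, .negSucc 320⟩, ⟨.negSucc 11473, .negSucc 122, .negSucc 496, .negSucc 380, .negSucc 3599, .ofNat 1973⟩, ⟨.ofNat 670, .ofNat 1169, .ofNat 1642, .ofNat 6018, .ofNat 2083, .negSucc 1654⟩, .ofNat 1039, .negSucc 1340, .ofNat 0, .negSucc 1340,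 .ofNat 2619, .ofNat 0, .ofNat 128, .ofNat 656, .negSucc 682, .ofNat 0, .ofNat 417, .negSucc 295, .ofNat 0, .ofNat 0, .ofNat 1062, .ofNat 368, .ofNat 0, .ofNat 266886295456313655195718070091432545222656, .ofNat 0, .ofNat 0, .ofNat 0, .ofNat 13420135153760714889018285006187131603779584, .ofNat 218233925526192820859042835734103851008, .ofNat 0, .ofNat 0, .ofNat 94447010844901859621788625317555424123158528, .ofNat 671913756031522046587538254062378024960, .ofNat 0, .ofNat 0, .ofNat 0, .ofNat 557840157175263864776683925442513600512, .ofNat 0⟩)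
    (by decide +kernel)
theorem L06246 : Good (Phi V5.P V5.D 1 1) ⟨5, 27, 4, 8, 3, 6, 3, 6, 5, 4⟩ :=
  leafX_sound T5.ok_pp T5.Ypp.bz_eq (w := 242) (c := ⟨⟨.negSucc 6889, .negSucc 525, .ofNat 94, .ofNat 181, .negSucc 646, .ofNat 1073⟩, ⟨.negSucc 3758, .negSucc 307, .negSucc 252, .ofNat 177, .negSucc 341, .ofNat 589⟩, ⟨.ofNat 4922, .ofNat 351, .ofNat 5, .negSucc 378, .ofNat 851, .negSucc 650⟩, ⟨.negSucc 11358, .negSucc 529, .negSucc 211, .negSucc 1120, .negSucc 1505, .ofNat 2398⟩, ⟨.ofNat 2076, .ofNat 44, .ofNat 467, .ofNat 2374, .ofNat 978, .negSucc 1435⟩, .ofNat 1488, .negSucc 2038, .ofNat 0, .negSucc 2038, .ofNat 3686, .ofNat 0, .ofNat 128, .ofNat 281, .negSucc 407, .ofNat 0, .ofNat 179, .negSucc 207, .ofNat 0, .ofNat 0, .ofNat 595, .ofNat 732, .ofNat 0, .ofNat 0, .ofNat 0, .ofNat 0, .ofNat 0, .ofNat 0, .ofNat 342841101821959435443162798849564776584970240, .ofNat 0, .ofNat 0, .ofNat 0, .ofNat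 41575619267555536073329559870782057666838528, .ofNat 0, .ofNat 0, .ofNat 0, .ofNat 0, .ofNat 0⟩)
    (by decide +kernel)
theorem L06247 : Good (Phi V5.P V5.D 1 1) ⟨5, 27, 4, 8, 3, 7, 3, 6, 5, 4⟩ :=
  leafX_sound T5.ok_pp T5.Ypp.bz_eq (w := 243) (c := ⟨⟨.negSucc 6524, .negSucc 447, .ofNat 35, .ofNat 1438, .negSucc 912, .ofNat 735⟩, ⟨.negSucc 3494, .negSucc 21, .negSucc 419, .ofNat 962, .negSucc 494, .ofNat 373⟩, ⟨.ofNat 4456, .ofNat 449, .negSucc 24, .negSucc 1432, .ofNat 732, .negSucc 374⟩, ⟨.negSucc 12049, .negSucc 932, .negSucc 528, .negSucc 18, .negSucc 1843, .ofNat 2138⟩, ⟨.ofNat 4381, .ofNat 739, .ofNat 621, .ofNat 3681, .ofNat 909, .negSucc 1847⟩, .ofNat 1475, .negSucc 2015, .ofNat 0, .negSucc 2015, .ofNat 3644, .ofNat 0, .ofNat 128, .ofNat 907, .negSucc 520, .ofNat 0, .ofNat 583, .negSucc 243, .ofNat 0, .ofNat 0, .ofNat 883, .ofNat 1017, .ofNat 0, .ofNat 0, .ofNat 11057427324159482873445900953068872088420352,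 .ofNat 0, .ofNat 0, .ofNat 0, .ofNat 221590393619318613646215381256119399340834816, .ofNat 0, .ofNat 0, .ofNat 0, .ofNat 0, .ofNat 0, .ofNat 0, .ofNat 0, .ofNat 0, .ofNat 0⟩)
    (by decide +kernel)
theorem L06248 : Good (Phi V5.P V5.D 1 1) ⟨5, 27, 4, 9, 2, 3, 3, 6, 5, 4⟩ :=
  leafX_sound T5.ok_pp T5.Ypp.bz_eq (w := 228) (c := ⟨⟨.negSucc 7113, .negSucc 462, .negSucc 117, .ofNat 1975, .negSucc 868, .ofNat 789⟩, ⟨.negSucc 4323, .negSucc 101, .negSucc 527, .ofNat 1355, .negSucc 504, .ofNat 446⟩, ⟨.ofNat 5235, .ofNat 477, .ofNat 27, .negSucc 2235, .ofNat 760, .negSucc 418⟩, ⟨.negSucc 11409, .negSucc 809, .negSucc 707, .negSucc 1423, .negSucc 1965, .ofNat 2341⟩, ⟨.ofNat 1712, .ofNat 525, .ofNat 545, .ofNat 7022, .ofNat 1169, .negSucc 1959⟩, .ofNat 1204, .negSucc 1524, .ofNat 0, .negSucc 1524, .ofNat 2700, .ofNat 0, .ofNat 128, .ofNat 426, .negSucc 514, .ofNat 0, .ofNat 285, .negSucc 256, .ofNat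 0, .ofNat 0, .ofNat 751, .ofNat 642, .ofNat 0, .ofNat 0, .ofNat 722353389509944878354854576415091720192, .ofNat 0, .ofNat 0, .ofNat 0, .ofNat 22700388423769962552416128816051960938496, .ofNat 0, .ofNat 0, .ofNat 393097711016236462098579519075186648679448576, .ofNat 4603784201479224137625483594217696526336, .ofNat 0, .ofNat 0, .ofNat 0, .ofNat 0, .ofNat 0⟩)
    (by decide +kernel)
theorem L06249 : Good (Phi V5.P V5.D 1 1) ⟨5, 27, 3, 4, 3, 6, 3, 7, 5, 4⟩ :=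
  leafX_sound T5.ok_pp T5.Ypp.bz_eq (w := 239) (c := ⟨⟨.negSucc 7834, .negSucc 649, .ofNat 349, .ofNat 440, .negSucc 752, .ofNat 1364⟩, ⟨.negSucc 4271, .negSucc 338, .negSucc 536, .ofNat 344, .negSucc 388, .ofNat 754⟩, ⟨.ofNat 5893, .ofNat 409, .ofNat 21, .negSucc 394, .ofNat 1094, .negSucc 915⟩, ⟨.negSucc 13335, .negSucc 1219, .ofNat 163, .negSucc 1193, .negSucc 2175, .ofNat 3293⟩, ⟨.ofNat 3107, .ofNat 905, .ofNat 220, .ofNat 3108, .ofNat 1842, .negSucc 2204⟩, .ofNat 1571, .negSucc 2151, .ofNat 0, .negSucc 2151, .ofNat 3816, .ofNat 0, .ofNat 128, .ofNat 366, .negSucc 470, .ofNat 0, .ofNat 238, .negSucc 239, .ofNat 0, .ofNat 0, .ofNat 700, .ofNat 499, .ofNat 0, .ofNat 0, .ofNat 0, .ofNat 0, .ofNat 0, .ofNat 789219172947936698322279339608712718022256623616, .ofNat 78785969667059835602791625774625120449462272, .ofNat 0, .ofNat 0, .ofNat 690957213826110278224566837876343432267398381568, .ofNat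 52551492826210597536707303023819443771801600, .ofNat 0, .ofNat 0, .ofNat 1634761776802781580728394688136201410190231207936, .ofNat 102207369073789966603325091715667724555255808, .ofNat 0⟩)
    (by decide +kernel)
theorem L06250 : Good (Phi V5.P V5.D 1 1) ⟨5, 27, 4, 8, 3, 7, 3, 7, 5, 4⟩ :=
  leafX_sound T5.ok_pp T5.Ypp.bz_eq (w := 243) (c := ⟨⟨.negSucc 7269, .negSucc 439, .negSucc 41, .ofNat 968, .negSucc 883, .ofNat 1112⟩, ⟨.negSucc 3844, .negSucc 2, .negSucc 517, .ofNat 663, .negSucc 470, .ofNat 570⟩, ⟨.ofNat 5430, .ofNat 480, .negSucc 36, .negSucc 1601, .ofNat 868, .negSucc 614⟩, ⟨.negSucc 14124, .negSucc 1124, .negSucc 611, .negSucc 228, .negSucc 1863, .ofNat 2929⟩, ⟨.ofNat 6139, .ofNat 1088, .ofNat 515, .ofNat 2833, .ofNat 938, .negSucc 2292⟩, .ofNat 2007, .negSucc 2864, .ofNat 0, .negSucc 2864, .ofNat 5010, .ofNat 0, .ofNat 128, .ofNat 473, .negSucc 444, .ofNat 0, .ofNat 309, .negSucc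 201, .ofNat 0, .ofNat 0, .ofNat 846, .ofNat 599, .ofNat 0, .ofNat 0, .ofNat 12386304332156605627668864811751505613815808, .ofNat 0, .ofNat 0, .ofNat 9593440862241433504586427429849571292691979829248, .ofNat 199015094000511173475838754494985969900453888, .ofNat 0, .ofNat 0, .ofNat 8495189979232576832254329167888167923038069719040, .ofNat 74924401892301688684126730407035228236283904, .ofNat 0, .ofNat 0, .ofNat 32440077315024891158613429695224212024523638177792, .ofNat 0, .ofNat 0⟩)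
    (by decide +kernel)
theorem L06251 : Good (Phi V5.P V5.D 1 1) ⟨5, 27, 4, 9, 3, 7, 3, 7, 5, 4⟩ :=
  leafX_sound T5.ok_pp T5.Ypp.bz_eq (w := 244) (c := ⟨⟨.negSucc 7231, .negSucc 443, .negSucc 147, .ofNat 932, .negSucc 1288, .ofNat 1118⟩, ⟨.negSucc 4399, .ofNat 104, .negSucc 684, .ofNat 636, .negSucc 765, .ofNat 625⟩, ⟨.ofNat 5330, .ofNat 698, .negSucc 88, .negSucc 1734, .ofNat 1143, .negSucc 635⟩, ⟨.negSucc 14450, .negSucc 1151, .negSucc 874, .negSucc 579, .negSucc 2488, .ofNat 3281⟩, ⟨.ofNat 6500, .ofNat 1098, .ofNat 632, .ofNat 3151, .ofNat 1031, .negSucc 2749⟩, .ofNat 2475, .negSucc 3546, .ofNat 0, .negSucc 3546, .ofNat 5951, .ofNat 0, .ofNat 128, .ofNat 779, .negSucc 860, .ofNat 0, .ofNat 507, .negSucc 460, .ofNat 0, .ofNat 0, .ofNat 1396, .ofNat 971, .ofNat 0, .ofNat 88341421779415998413424064284807697712191373312, .ofNat 19677798260917714359069173731123039110692864, .ofNat 0, .ofNat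 0, .ofNat 14293234222390649559869795177661894874249954328576, .ofNat 466995880841817604404301703552994265907855360, .ofNat 0, .ofNat 0, .ofNat 30422128782740864331790316431265980088990484660224, .ofNat 435779800661846107703565567111593765829083136, .ofNat 0, .ofNat 0, .ofNat 0, .ofNat 0, .ofNat 0⟩)
    (by decide +kernel)
theorem L06252 : Good (Phi V5.P V5.D 1 1) ⟨4, 13, 3, 4, 3, 6, 2, 3, 5, 5⟩ :=
  leafX_sound T5.ok_pp T5.Ypp.bz_eq (w := 229) (c := ⟨⟨.negSucc 5567, .negSucc 654, .ofNat 11, .ofNat 289, .negSucc 1010, .ofNat 832⟩, ⟨.negSucc 3031, .negSucc 394, .negSucc 516, .ofNat 215, .negSucc 579, .ofNat 458⟩, ⟨.ofNat 4207, .ofNat 228, .ofNat 265, .negSucc 402, .ofNat 1336, .negSucc 531⟩, ⟨.negSucc 9237, .negSucc 216, .negSucc 594, .negSucc 658, .negSucc 2038, .ofNat 1871⟩, ⟨.ofNat 1235, .negSucc 202, .ofNat 717, .ofNat 1836, .ofNat 933, .negSucc 1135⟩, .ofNat 748, .negSucc 828, .ofNat 0,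 .negSucc 828, .ofNat 1631, .ofNat 0, .ofNat 128, .ofNat 293, .negSucc 240, .ofNat 0, .ofNat 205, .negSucc 96, .ofNat 0, .ofNat 0, .ofNat 482, .ofNat 372, .ofNat 0, .ofNat 0, .ofNat 0, .ofNat 0, .ofNat 0, .ofNat 9050526864696440645269508488139416899441131520, .ofNat 3717304314162243674963452638785492591050752, .ofNat 0, .ofNat 0, .ofNat 8977579151229791294524869466785499107783868416, .ofNat 1073150078060746544119912958119637933883392, .ofNat 0, .ofNat 0, .ofNat 13056150172586023487410764072025482090701127680, .ofNat 6509114102524080516539490188552422350127104, .ofNat 0⟩)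
    (by decide +kernel)
theorem L06253 : Good (Phi V5.P V5.D 1 1) ⟨4, 13, 3, 4, 4, 14, 2, 3, 5, 5⟩ :=
  leafX_sound T5.ok_pp T5.Ypp.bz_eq (w := 244) (c := ⟨⟨.negSucc 5189, .negSucc 726, .ofNat 49, .ofNat 358, .negSucc 1083, .ofNat 797⟩, ⟨.negSucc 2857, .negSucc 245, .negSucc 610, .ofNat 254, .negSucc 599, .ofNat 421⟩, ⟨.ofNat 3679, .ofNat 410, .ofNat 148, .negSucc 451, .ofNat 1347, .negSucc 483⟩, ⟨.negSucc 9397, .negSucc 1100, .negSucc 507, .negSucc 298, .negSucc 2422, .ofNat 2052⟩, ⟨.ofNat 2787, .ofNat 641, .ofNat 641, .ofNat 1408, .ofNat 1444, .negSucc 1530⟩, .ofNat 1527, .negSucc 2095, .ofNat 0, .negSucc 2095, .ofNat 3763, .ofNat 0, .ofNat 128, .ofNat 271, .negSucc 195, .ofNat 0, .ofNat 177, .negSucc 88, .ofNat 0, .ofNat 0, .ofNat 511, .ofNat 432, .ofNat 0, .ofNat 0, .ofNat 0, .ofNat 0, .ofNat 0, .ofNat 47630650552453877004421992554640692137576110227456, .ofNat 99320566176159684773441632128044672413635444736,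 .ofNat 0, .ofNat 0, .ofNat 22189206318498334621989345629215948746588726231040, .ofNat 82937842991138152021330146808341486751440699392, .ofNat 0, .ofNat 0, .ofNat 74679927911939030742263256398917815779716384161792, .ofNat 37397611186462919509991401836197257112060952576, .ofNat 0⟩)
    (by decide +kernel)
theorem L06254 : Good (Phi V5.P V5.D 1 1) ⟨4, 13, 4, 8, 4, 15, 3, 6, 5, 5⟩ :=
  leafX_sound T5.ok_pp T5.Ypp.bz_eq (w := 252) (c := ⟨⟨.negSucc 4870, .negSucc 342, .negSucc 72, .ofNat 538, .negSucc 758, .ofNat 560⟩, ⟨.negSucc 2725, .ofNat 160, .negSucc 408, .ofNat 380, .negSucc 422, .ofNat 276⟩, ⟨.ofNat 3085, .ofNat 564, .negSucc 18, .negSucc 522, .ofNat 556, .negSucc 259⟩, ⟨.negSucc 9592, .negSucc 615, .negSucc 583, .negSucc 503, .negSucc 1417, .ofNat 1753⟩, ⟨.ofNat 4004, .ofNat 786, .ofNat 462, .ofNat 2249, .ofNat 537, .negSucc 1601⟩, .ofNat 776, .negSucc 895, .ofNat 0, .negSucc 895, .ofNat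 1809, .ofNat 0, .ofNat 128, .ofNat 517, .negSucc 276, .ofNat 0, .ofNat 362, .negSucc 62, .ofNat 0, .ofNat 0, .ofNat 879, .ofNat 1091, .ofNat 0, .ofNat 0, .ofNat 495006281169859530696991008284497713127573422080, .ofNat 0, .ofNat 0, .ofNat 301417400839185859638995374516530900707754786160640, .ofNat 4659567489711665445838045241805849262283361878016, .ofNat 0, .ofNat 0, .ofNat 0, .ofNat 0, .ofNat 0, .ofNat 0, .ofNat 0, .ofNat 0, .ofNat 0⟩)
    (by decide +kernel)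
theorem L06255 : Good (Phi V5.P V5.D 1 1) ⟨4, 13, 4, 9, 4, 15, 3, 6, 5, 5⟩ :=
  leafX_sound T5.ok_pp T5.Ypp.bz_eq (w := 252) (c := ⟨⟨.negSucc 4890, .negSucc 389, .negSucc 90, .ofNat 517, .negSucc 831, .ofNat 579⟩, ⟨.negSucc 3200, .ofNat 244, .negSucc 465, .ofNat 366, .negSucc 500, .ofNat 317⟩, ⟨.ofNat 2912, .ofNat 783, .negSucc 82, .negSucc 551, .ofNat 566, .negSucc 264⟩, ⟨.negSucc 9818, .negSucc 920, .negSucc 601, .negSucc 716, .negSucc 1569, .ofNat 1908⟩, ⟨.ofNat 4381, .ofNat 839, .ofNat 497, .ofNat 2393, .ofNat 590, .negSucc 1766⟩, .ofNat 1012, .negSucc 1301, .ofNat 0, .negSucc 1301, .ofNat 2492, .ofNat 0, .ofNat 128, .ofNat 612, .negSucc 307, .ofNat 0, .ofNat 399, .negSucc 112, .ofNat 0, .ofNat 0, .ofNat 886, .ofNat 1306, .ofNat 0, .ofNat 0, .ofNat 832008339612531898439839307962350491510587260928, .ofNat 0, .ofNat 0, .ofNat 320420802500430543805317535587840967388904426569728, .ofNat 10576500184350589197114789561179188376163196076032,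 .ofNat 0, .ofNat 0, .ofNat 0, .ofNat 4413861749448678014936710485859287946454257106944, .ofNat 0, .ofNat 0, .ofNat 0, .ofNat 0, .ofNat 0⟩)
    (by decide +kernel)
theorem L06256 : Good (Phi V5.P V5.D 1 1) ⟨4, 13, 3, 4, 4, 15, 3, 7, 5, 5⟩ :=
  out_sound (S := T5.ds_pp) T5.ok_pp (w := 38) (j := 2) (by decide +kernel)
theorem L06257 : Good (Phi V5.P V5.D 1 1) ⟨4, 13, 4, 8, 2, 3, 2, 3, 5, 6⟩ :=
  leafX_sound T5.ok_pp T5.Ypp.bz_eq (w := 219) (c := ⟨⟨.negSucc 5051, .negSucc 150, .negSucc 112, .ofNat 1041, .negSucc 903, .ofNat 482⟩, ⟨.negSucc 2861, .ofNat 60, .negSucc 334, .ofNat 739, .negSucc 530, .ofNat 241⟩, ⟨.ofNat 3744, .ofNat 319, .ofNat 43, .negSucc 1236, .ofNat 865, .negSucc 274⟩, ⟨.negSucc 7441, .negSucc 498, .negSucc 213, .negSucc 1162, .negSucc 1353, .ofNat 1377⟩, ⟨.negSucc 324, .ofNat 1155, .negSucc 131, .ofNat 4687, .ofNat 313, .negSucc 1210⟩, .ofNat 1062, .negSucc 1343, .ofNat 0, .negSucc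 1343, .ofNat 2528, .ofNat 0, .ofNat 128, .ofNat 412, .negSucc 122, .ofNat 0, .ofNat 281, .negSucc 45, .ofNat 0, .ofNat 0, .ofNat 496, .ofNat 621, .ofNat 0, .ofNat 622965459185504039088190392392621848788992, .ofNat 39228873599529370068731595877225857024, .ofNat 0, .ofNat 0, .ofNat 17008422558632104886869944138269319164329984, .ofNat 1997179361319692707580294829801197273088, .ofNat 0, .ofNat 0, .ofNat 60575796212595975858128264037097986695626752, .ofNat 2541109487372801393227701013670782828544, .ofNat 0, .ofNat 0, .ofNat 36953444723988258063528752902400802553856000, .ofNat 0, .ofNat 0⟩)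
    (by decide +kernel)
theorem L06258 : Good (Phi V5.P V5.D 1 1) ⟨4, 13, 4, 9, 2, 3, 2, 3, 5, 6⟩ :=
  leafX_sound T5.ok_pp T5.Ypp.bz_eq (w := 220) (c := ⟨⟨.negSucc 4894, .negSucc 506, .negSucc 11, .ofNat 1075, .negSucc 801, .ofNat 468⟩, ⟨.negSucc 2985, .negSucc 225, .negSucc 258, .ofNat 765, .negSucc 473, .ofNat 260⟩, ⟨.ofNat 3824, .ofNat 289, .ofNat 89, .negSucc 1275, .ofNat 970, .negSucc 280⟩, ⟨.negSucc 7442, .negSucc 610, .negSucc 94, .negSucc 1608, .negSucc 1358, .ofNat 1566⟩, ⟨.ofNat 368, .ofNat 107, .ofNat 62, .ofNat 5159, .ofNat 318, .negSucc 1481⟩, .ofNat 1788, .negSucc 2456, .ofNat 0, .negSucc 2456, .ofNat 4211, .ofNat 0, .ofNat 128, .ofNat 554, .negSucc 178, .ofNat 0, .ofNat 371, .negSucc 86, .ofNat 0, .ofNat 0, .ofNat 699, .ofNat 885, .ofNat 0, .ofNat 449051546647826725488994497747498295099392, .ofNat 92031637899501393630139060016925114368, .ofNat 0, .ofNat 0, .ofNat 18284732383809612525270140150339693514326016,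 .ofNat 5321319719613054625384541729968076357632, .ofNat 0, .ofNat 0, .ofNat 123098198900767993842981995631061731362471936, .ofNat 3790966022183627866794434897698480979968, .ofNat 0, .ofNat 0, .ofNat 79905767471364146342559639466151585345699840, .ofNat 330182100393881283009343306484632518656, .ofNat 0⟩)
    (by decide +kernel)
theorem L06259 : Good (Phi V5.P V5.D 1 1) ⟨4, 13, 3, 4, 2, 3, 2, 3, 5, 7⟩ :=
  leafX_sound T5.ok_pp T5.Ypp.bz_eq (w := 215) (c := ⟨⟨.negSucc 4284, .negSucc 408, .negSucc 33, .ofNat 544, .negSucc 804, .ofNat 450⟩, ⟨.negSucc 2307, .negSucc 388, .negSucc 309, .ofNat 380, .negSucc 473, .ofNat 254⟩, ⟨.ofNat 3403, .ofNat 26, .ofNat 228, .negSucc 672, .ofNat 797, .negSucc 393⟩, ⟨.negSucc 6403, .negSucc 335, .negSucc 19, .negSucc 428, .negSucc 991, .ofNat 1016⟩, ⟨.negSucc 300, .ofNat 267, .ofNat 9, .ofNat 2066, .negSucc 309, .negSucc 598⟩, .ofNat 753, .negSucc 834, .ofNat 0,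 .negSucc 834, .ofNat 1635, .ofNat 0, .ofNat 128, .ofNat 233, .negSucc 94, .ofNat 0, .ofNat 171, .negSucc 28, .ofNat 0, .ofNat 0, .ofNat 487, .ofNat 429, .ofNat 0, .ofNat 193889851561851773926232381734848204636160, .ofNat 0, .ofNat 0, .ofNat 0, .ofNat 3574243219531902209136127749829027315056640, .ofNat 0, .ofNat 0, .ofNat 0, .ofNat 8635374626003909096623625565593628827451392, .ofNat 222508008086421292533507578517132410880, .ofNat 0, .ofNat 0, .ofNat 5798012182893726822042803698490365003694080, .ofNat 0, .ofNat 0⟩)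
    (by decide +kernel)
theorem L06260 : Good (Phi V5.P V5.D 1 1) ⟨5, 28, 4, 8, 2, 3, 2, 3, 4, 2⟩ :=
  out_sound (S := T5.ds_pp) T5.ok_pp (w := 59) (j := 3) (by decide +kernel)
theorem L06261 : Good (Phi V5.P V5.D 1 1) ⟨7, 112, 4, 9, 2, 3, 3, 6, 5, 4⟩ :=
  leafX_sound T5.ok_pp T5.Ypp.bz_eq (w := 236) (c := ⟨⟨.negSucc 7289, .negSucc 49, .negSucc 276, .ofNat 1937, .negSucc 1014, .ofNat 700⟩, ⟨.negSucc 4165, .ofNat 71, .negSucc 749, .ofNat 1334, .negSucc 629, .ofNat 412⟩, ⟨.ofNat 5771, .ofNat 164, .negSucc 104, .negSucc 2298, .ofNat 738, .negSucc 369⟩, ⟨.negSucc 11472, .negSucc 283, .negSucc 837, .negSucc 2133, .negSucc 2273, .ofNat 2491⟩, ⟨.ofNat 2109, .ofNat 471, .ofNat 143, .ofNat 7701, .ofNat 1296, .negSucc 2358⟩, .ofNat 1332, .negSucc 1690, .ofNat 0, .negSucc 1690, .ofNat 2879, .ofNat 0, .ofNat 128, .ofNat 551, .negSucc 544, .ofNat 0, .ofNat 375, .negSucc 282, .ofNat 0, .ofNat 0, .ofNat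 823, .ofNat 571, .ofNat 0, .ofNat 0, .ofNat 43713947782307278133473023855616327680, .ofNat 0, .ofNat 0, .ofNat 0, .ofNat 1955968970833614059536569763118725464064, .ofNat 0, .ofNat 0, .ofNat 0, .ofNat 948259261509947461669803576821421178880, .ofNat 0, .ofNat 0, .ofNat 0, .ofNat 0, .ofNat 0⟩)
    (by decide +kernel)
theorem L06262 : Good (Phi V5.P V5.D 1 1) ⟨7, 112, 4, 9, 2, 3, 3, 7, 5, 4⟩ :=
  leafX_sound T5.ok_pp T5.Ypp.bz_eq (w := 237) (c := ⟨⟨.negSucc 8281, .negSucc 233, .negSucc 16, .ofNat 1389, .negSucc 1005, .ofNat 1241⟩, ⟨.negSucc 4739, .negSucc 62, .negSucc 620, .ofNat 983, .negSucc 601, .ofNat 751⟩, ⟨.ofNat 6999, .ofNat 237, .negSucc 279, .negSucc 2551, .ofNat 969, .negSucc 650⟩, ⟨.negSucc 14281, .negSucc 562, .negSucc 480, .negSucc 2354, .negSucc 2181, .ofNat 3611⟩, ⟨.ofNat 4212, .ofNat 418, .ofNat 292, .ofNat 6856, .ofNat 1179, .negSucc 2904⟩, .ofNat 2684, .negSucc 3777, .ofNat 0,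 .negSucc 3777, .ofNat 6141, .ofNat 0, .ofNat 128, .ofNat 665, .negSucc 706, .ofNat 0, .ofNat 450, .negSucc 381, .ofNat 0, .ofNat 0, .ofNat 1169, .ofNat 552, .ofNat 0, .ofNat 0, .ofNat 110269919686726993436099050709073264640, .ofNat 0, .ofNat 0, .ofNat 0, .ofNat 3798807656614991157914744156179052625920, .ofNat 0, .ofNat 0, .ofNat 726114657653623547963824431947838980295816642560, .ofNat 2009030142189598045992778898806080012288, .ofNat 0, .ofNat 0, .ofNat 0, .ofNat 0, .ofNat 0⟩)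
    (by decide +kernel)
theorem L06263 : Good (Phi V5.P V5.D 1 1) ⟨7, 113, 4, 9, 2, 3, 2, 3, 5, 4⟩ :=
  out_sound (S := T5.ds_pp) T5.ok_pp (w := 71) (j := 3) (by decide +kernel)
theorem L06264 : Good (Phi V5.P V5.D 1 1) ⟨6, 56, 4, 9, 2, 3, 3, 6, 5, 5⟩ :=
  leafX_sound T5.ok_pp T5.Ypp.bz_eq (w := 232) (c := ⟨⟨.negSucc 6245, .ofNat 5, .negSucc 189, .ofNat 1434, .negSucc 714, .ofNat 687⟩, ⟨.negSucc 3664, .ofNat 81, .negSucc 485, .ofNat 997, .negSucc 442, .ofNat 420⟩, ⟨.ofNat 4909, .ofNat 158, .negSucc 81, .negSucc 1691, .ofNat 614, .negSucc 363⟩, ⟨.negSucc 9351, .negSucc 245, .negSucc 568, .negSucc 2112, .negSucc 1560, .ofNat 2012⟩, ⟨.ofNat 822, .ofNat 497, .ofNat 279, .ofNat 6565, .ofNat 847, .negSucc 1601⟩, .ofNat 1563, .negSucc 2020, .ofNat 0, .negSucc 2020, .ofNat 3362, .ofNat 0, .ofNat 128, .ofNat 557, .negSucc 296, .ofNat 0, .ofNat 389, .negSucc 145, .ofNat 0, .ofNat 0, .ofNat 713, .ofNat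 1037, .ofNat 0, .ofNat 0, .ofNat 356299833467388294565661464917123792896, .ofNat 0, .ofNat 0, .ofNat 0, .ofNat 10309403075542750738239550060427235819520, .ofNat 0, .ofNat 0, .ofNat 22311142092902796602970127806623215546972241920, .ofNat 8584187681975972915546333204186178519040, .ofNat 0, .ofNat 0, .ofNat 0, .ofNat 0, .ofNat 0⟩)
    (by decide +kernel)
theorem L06265 : Good (Phi V5.P V5.D 1 1) ⟨6, 56, 4, 9, 2, 3, 3, 7, 5, 5⟩ :=
  leafX_sound T5.ok_pp T5.Ypp.bz_eq (w := 232) (c := ⟨⟨.negSucc 6835, .negSucc 207, .negSucc 5, .ofNat 836, .negSucc 657, .ofNat 968⟩, ⟨.negSucc 4034, .negSucc 103, .negSucc 349, .ofNat 636, .negSucc 378, .ofNat 597⟩, ⟨.ofNat 5168, .ofNat 20, .ofNat 387, .negSucc 899, .ofNat 824, .negSucc 750⟩, ⟨.negSucc 11165, .negSucc 287, .negSucc 120, .negSucc 2157, .negSucc 1065, .ofNat 2492⟩, ⟨.ofNat 2371, .ofNat 289, .negSucc 97, .ofNat 5332, .ofNat 237, .negSucc 1751⟩, .ofNat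 2028, .negSucc 2768, .ofNat 0, .negSucc 2768, .ofNat 4572, .ofNat 0, .ofNat 128, .ofNat 361, .negSucc 301, .ofNat 0, .ofNat 243, .negSucc 164, .ofNat 0, .ofNat 0, .ofNat 652, .ofNat 824, .ofNat 0, .ofNat 0, .ofNat 369385978540269910433749943442672189440, .ofNat 0, .ofNat 0, .ofNat 166758989605815558369676115980453515952610344960, .ofNat 10338249830319579267530786418006041821184, .ofNat 0, .ofNat 0, .ofNat 49059100939614736680935554535581603744261865472, .ofNat 1880772884088797459570025430519168106496, .ofNat 0, .ofNat 0, .ofNat 170226000304901219999736612808555902618575044608, .ofNat 3207991065965269698295316228959362875392, .ofNat 0⟩)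
    (by decide +kernel)
theorem L06266 : Good (Phi V5.P V5.D 1 1) ⟨6, 57, 4, 9, 2, 3, 2, 3, 4, 2⟩ :=
  out_sound (S := T5.ds_pp) T5.ok_pp (w := 65) (j := 3) (by decide +kernel)
theorem L06267 : Good (Phi V5.P V5.D 1 1) ⟨5, 28, 4, 8, 2, 3, 2, 3, 4, 3⟩ :=
  out_sound (S := T5.ds_pp) T5.ok_pp (w := 59) (j := 3) (by decide +kernel)
theorem L06268 : Good (Phi V5.P V5.D 1 1) ⟨6, 56, 5, 18, 2, 3, 2, 3, 4, 3⟩ :=
  out_sound (S := T5.ds_pp) T5.ok_pp (w := 67) (j := 3) (by decide +kernel)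
theorem L06269 : Good (Phi V5.P V5.D 1 1) ⟨6, 56, 5, 19, 3, 6, 2, 3, 4, 3⟩ :=
  leafX_sound T5.ok_pp T5.Ypp.bz_eq (w := 242) (c := ⟨⟨.negSucc 5392, .negSucc 207, .ofNat 45, .ofNat 324, .negSucc 787, .ofNat 1144⟩, ⟨.negSucc 3348, .negSucc 178, .negSucc 44, .ofNat 223, .negSucc 491, .ofNat 703⟩, ⟨.ofNat 4080, .ofNat 60, .ofNat 51, .negSucc 336, .ofNat 977, .negSucc 907⟩, ⟨.negSucc 8070, .negSucc 221, .negSucc 19, .negSucc 374, .negSucc 1110, .ofNat 2497⟩, ⟨.ofNat 556, .ofNat 56, .ofNat 132, .ofNat 1320, .negSucc 4, .negSucc 1371⟩, .ofNat 3943, .negSucc 5743, .ofNat 0, .negSucc 5743, .ofNat 9207, .ofNat 0, .ofNat 128, .ofNat 905, .negSucc 283, .ofNat 0, .ofNat 600, .negSucc 163, .ofNat 0, .ofNat 0, .ofNat 1246, .ofNat 1974, .ofNat 0, .ofNat 0, .ofNat 0, .ofNat 0, .ofNat 0, .ofNat 54773834417885683750521276613048980973929002696704, .ofNat 6286732277481234729478302892808437074231296, .ofNat 0,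 .ofNat 0, .ofNat 244739112421556160728801572924377086353527172759552, .ofNat 405683077880934219363485685067367107788800, .ofNat 0, .ofNat 0, .ofNat 226652349005017850371976292015967324086875287715840, .ofNat 0, .ofNat 0⟩)
    (by decide +kernel)
theorem L06270 : Good (Phi V5.P V5.D 1 1) ⟨6, 56, 5, 19, 3, 7, 2, 3, 4, 3⟩ :=
  leafX_sound T5.ok_pp T5.Ypp.bz_eq (w := 240) (c := ⟨⟨.negSucc 5065, .negSucc 189, .ofNat 34, .ofNat 722, .negSucc 972, .ofNat 1141⟩, ⟨.negSucc 3101, .negSucc 65, .negSucc 126, .ofNat 514, .negSucc 571, .ofNat 691⟩, ⟨.ofNat 3705, .ofNat 197, .negSucc 38, .negSucc 824, .ofNat 934, .negSucc 691⟩, ⟨.negSucc 8477, .negSucc 49, .negSucc 204, .negSucc 1487, .negSucc 1697, .ofNat 3299⟩, ⟨.ofNat 1991, .negSucc 241, .ofNat 318, .ofNat 3983, .ofNat 607, .negSucc 2613⟩, .ofNat 2048, .negSucc 2797, .ofNat 0, .negSucc 2797, .ofNat 4610, .ofNat 0, .ofNat 128, .ofNat 455, .negSucc 134,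 .ofNat 0, .ofNat 312, .negSucc 58, .ofNat 0, .ofNat 0, .ofNat 762, .ofNat 845, .ofNat 0, .ofNat 958747038730510943544630754732755967977170403328, .ofNat 11558275799475998367685769945108019412992, .ofNat 0, .ofNat 0, .ofNat 31058338571692085269685921563248213368705277493248, .ofNat 486812501161289885726234732804433420222464, .ofNat 0, .ofNat 0, .ofNat 144468608573920638475242312619476908476718773174272, .ofNat 275987510743105594743064874492684237012992, .ofNat 0, .ofNat 0, .ofNat 159072677183005196658981269974036861960215311941632, .ofNat 0, .ofNat 0⟩)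
    (by decide +kernel)
theorem L06271 : Good (Phi V5.P V5.D 1 1) ⟨6, 57, 4, 9, 2, 3, 2, 3, 4, 3⟩ :=
  out_sound (S := T5.ds_pp) T5.ok_pp (w := 65) (j := 3) (by decide +kernel)
theorem L06272 : Good (Phi V5.P V5.D 1 1) ⟨5, 29, 3, 4, 2, 3, 2, 3, 3, 1⟩ :=
  out_sound (S := T5.ds_pp) T5.ok_pp (w := 57) (j := 3) (by decide +kernel)
theorem L06273 : Good (Phi V5.P V5.D 1 1) ⟨4, 15, 3, 4, 2, 3, 2, 3, 3, 1⟩ :=
  out_sound (S := T5.ds_pp) T5.ok_pp (w := 51) (j := 3) (by decide +kernel)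
theorem L06274 : Good (Phi V5.P V5.D 1 1) ⟨2, 2, 3, 5, 3, 6, 2, 3, 3, 0⟩ :=
  out_sound (S := T5.ds_pp) T5.ok_pp (w := 39) (j := 3) (by decide +kernel)
theorem L06275 : Good (Phi V5.P V5.D 1 1) ⟨3, 6, 3, 5, 3, 6, 2, 3, 3, 0⟩ :=
  out_sound (S := T5.ds_pp) T5.ok_pp (w := 45) (j := 3) (by decide +kernel)
theorem L06276 : Good (Phi V5.P V5.D 1 1) ⟨6, 56, 4, 10, 3, 6, 3, 6, 4, 0⟩ :=
  leafX_sound T5.ok_pp T5.Ypp.bz_eq (w := 247) (c := ⟨⟨.negSucc 1870, .negSucc 870, .ofNat 1026, .negSucc 1531, .negSucc 1096, .negSucc 5244⟩, ⟨.negSucc 1049, .negSucc 679, .ofNat 433, .negSucc 941, .negSucc 700, .negSucc 3423⟩, ⟨.ofNat 1746, .negSucc 29, .ofNat 44, .ofNat 625, .ofNat 1330, .ofNat 3430⟩, ⟨.negSucc 4533, .negSucc 458, .ofNat 824, .negSucc 5199, .negSucc 2985, .negSucc 8948⟩, ⟨.ofNat 2648, .negSucc 569, .ofNat 162, .ofNat 4649, .ofNat 2227, .ofNat 2377⟩, .ofNat 5337, .negSucc 7747, .ofNat 0, .negSucc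 7747, .ofNat 12053, .ofNat 0, .ofNat 128, .ofNat 1290, .negSucc 3350, .ofNat 0, .ofNat 855, .negSucc 2137, .ofNat 0, .ofNat 0, .ofNat 2523, .ofNat 382, .ofNat 0, .ofNat 0, .ofNat 0, .ofNat 0, .ofNat 0, .ofNat 0, .ofNat 33052235318092060601552025326156227027140608, .ofNat 0, .ofNat 0, .ofNat 0, .ofNat 3265761806576316628447824992060222547689472, .ofNat 0, .ofNat 0, .ofNat 0, .ofNat 22928571715456624092246829209742132253818880, .ofNat 0⟩)
    (by decide +kernel)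
theorem L06277 : Good (Phi V5.P V5.D 1 1) ⟨6, 57, 4, 10, 3, 6, 3, 6, 4, 0⟩ :=
  leafX_sound T5.ok_pp T5.Ypp.bz_eq (w := 244) (c := ⟨⟨.negSucc 2077, .ofNat 492, .ofNat 217, .negSucc 1102, .negSucc 812, .negSucc 5952⟩, ⟨.negSucc 1313, .ofNat 103, .ofNat 91, .negSucc 740, .negSucc 526, .negSucc 3969⟩, ⟨.ofNat 1694, .negSucc 206, .negSucc 218, .ofNat 325, .ofNat 1178, .ofNat 3883⟩, ⟨.negSucc 4630, .ofNat 1131, .ofNat 849, .negSucc 5427, .negSucc 2683, .negSucc 9720⟩, ⟨.ofNat 2576, .negSucc 788, .negSucc 714, .ofNat 5775, .ofNat 2328, .ofNat 2013⟩, .ofNat 2055, .negSucc 2675, .ofNat 0, .negSucc 2675, .ofNat 4181, .ofNat 0, .ofNat 128, .ofNat 824, .negSucc 3447, .ofNat 0, .ofNat 571, .negSucc 2162, .ofNat 0, .ofNat 0, .ofNat 2520, .ofNat 191, .ofNat 0, .ofNat 0, .ofNat 286947233124173232985004260084631310696448, .ofNat 0, .ofNat 0, .ofNat 0, .ofNat 10601061475973435727448537972417268799242240, .ofNat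 0, .ofNat 0, .ofNat 0, .ofNat 0, .ofNat 0, .ofNat 0, .ofNat 0, .ofNat 13782132468539540593286813715020926846763008, .ofNat 245612321949014264388535809776124031203924677668896768⟩)
    (by decide +kernel)
theorem L06278 : Good (Phi V5.P V5.D 1 1) ⟨6, 56, 5, 20, 3, 6, 3, 7, 4, 0⟩ :=
  leafX_sound T5.ok_pp T5.Ypp.bz_eq (w := 250) (c := ⟨⟨.negSucc 814, .ofNat 338, .ofNat 634, .negSucc 2434, .ofNat 393, .negSucc 8474⟩, ⟨.negSucc 649, .ofNat 791, .negSucc 107, .negSucc 1549, .ofNat 310, .negSucc 5505⟩, ⟨.ofNat 1121, .ofNat 414, .negSucc 710, .ofNat 1397, .ofNat 767, .ofNat 5455⟩, ⟨.negSucc 3372, .ofNat 975, .ofNat 957, .negSucc 8485, .negSucc 1060, .negSucc 14374⟩, ⟨.ofNat 3511, .negSucc 784, .negSucc 271, .ofNat 7706, .ofNat 2512, .ofNat 3699⟩, .ofNat 5213, .negSucc 7571, .ofNat 0, .negSucc 7571, .ofNat 11805, .ofNat 0, .ofNat 128, .ofNat 725, .negSucc 3892, .ofNat 0, .ofNat 483, .negSucc 2471,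 .ofNat 0, .ofNat 0, .ofNat 2928, .ofNat 243, .ofNat 0, .ofNat 0, .ofNat 287619734057149965245125251295246679015424, .ofNat 0, .ofNat 0, .ofNat 58272514949121821724975259155799290026403850878976, .ofNat 36726401204363184614337314912271682276163584, .ofNat 0, .ofNat 0, .ofNat 0, .ofNat 12724461437738182506019315173400774101172224, .ofNat 0, .ofNat 0, .ofNat 899920734216380046481565102524612561449909105983488, .ofNat 0, .ofNat 0⟩)
    (by decide +kernel)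
theorem L06279 : Good (Phi V5.P V5.D 1 1) ⟨6, 56, 5, 21, 3, 6, 3, 7, 4, 0⟩ :=
  leafX_sound T5.ok_pp T5.Ypp.bz_eq (w := 257) (c := ⟨⟨.ofNat 840, .negSucc 2, .negSucc 1701, .negSucc 2825, .negSucc 84, .negSucc 9017⟩, ⟨.ofNat 555, .negSucc 1, .negSucc 1652, .negSucc 1839, .negSucc 32, .negSucc 5943⟩, ⟨.ofNat 292, .ofNat 2, .ofNat 417, .ofNat 1678, .ofNat 1132, .ofNat 5896⟩, ⟨.negSucc 4157, .negSucc 7, .negSucc 788, .negSucc 7131, .negSucc 1557, .negSucc 12915⟩, ⟨.ofNat 7995, .ofNat 6, .negSucc 308, .ofNat 4771, .ofNat 2189, .ofNat 410⟩, .ofNat 14617, .negSucc 21640, .ofNat 0, .negSucc 21640, .ofNat 32846, .ofNat 0, .ofNat 128, .ofNat 2749, .negSucc 15382, .ofNat 0, .ofNat 1837, .negSucc 10088, .ofNat 0, .ofNat 0, .ofNat 11623, .ofNat 623, .ofNat 0, .ofNat 0, .ofNat 2522389220566738827564869923282096914169856, .ofNat 0, .ofNat 0, .ofNat 0, .ofNat 574586264008468834473053509345175517035233280,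 .ofNat 0, .ofNat 0, .ofNat 0, .ofNat 145568635271258135307615237371056463777103872, .ofNat 0, .ofNat 0, .ofNat 0, .ofNat 1286149154911554215307739760823963783180320768, .ofNat 0⟩)
    (by decide +kernel)
theorem L06280 : Good (Phi V5.P V5.D 1 1) ⟨7, 114, 5, 20, 3, 6, 3, 7, 4, 0⟩ :=
  leafX_sound T5.ok_pp T5.Ypp.bz_eq (w := 264) (c := ⟨⟨.ofNat 571, .ofNat 3, .ofNat 283, .negSucc 2921, .ofNat 360, .negSucc 9861⟩, ⟨.ofNat 825, .ofNat 2, .negSucc 256, .negSucc 1901, .ofNat 259, .negSucc 6502⟩, ⟨.ofNat 181, .negSucc 1, .ofNat 36, .ofNat 1689, .ofNat 935, .ofNat 6536⟩, ⟨.negSucc 8830, .ofNat 8, .ofNat 0, .negSucc 3706, .ofNat 59, .negSucc 10414⟩, ⟨.ofNat 15045, .negSucc 5, .ofNat 9, .negSucc 589, .ofNat 712, .negSucc 5087⟩, .ofNat 26824, .negSucc 40025, .ofNat 0, .negSucc 40025, .ofNat 60538, .ofNat 0, .ofNat 128, .ofNat 4245, .negSucc 20595, .ofNat 0, .ofNat 2832, .negSucc 13542, .ofNat 0, .ofNat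 0, .ofNat 15630, .ofNat 5001, .ofNat 0, .ofNat 0, .ofNat 0, .ofNat 0, .ofNat 0, .ofNat 7946522266907768640594772626332779652291789066338304, .ofNat 28319352123845337295576172891698854937772425216, .ofNat 0, .ofNat 0, .ofNat 0, .ofNat 503089032016050262690218901278466173455826944, .ofNat 0, .ofNat 0, .ofNat 422264521058022234879807652166559558940165716846837760, .ofNat 56152049202562226389167440190298320740687020032, .ofNat 0⟩)
    (by decide +kernel)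
theorem L06281 : Good (Phi V5.P V5.D 1 1) ⟨7, 114, 5, 21, 3, 6, 3, 7, 4, 0⟩ :=
  leafX_sound T5.ok_pp T5.Ypp.bz_eq (w := 257) (c := ⟨⟨.ofNat 69, .ofNat 915, .ofNat 579, .negSucc 2396, .ofNat 212, .negSucc 8858⟩, ⟨.ofNat 131, .ofNat 1177, .negSucc 487, .negSucc 1607, .ofNat 143, .negSucc 5895⟩, ⟨.ofNat 813, .ofNat 142, .negSucc 1185, .ofNat 1403, .ofNat 891, .ofNat 5806⟩, ⟨.negSucc 642, .negSucc 80, .negSucc 155, .negSucc 8894, .negSucc 3106, .negSucc 14999⟩, ⟨.ofNat 1177, .ofNat 1751, .ofNat 1509, .ofNat 8250, .ofNat 5132, .ofNat 3866⟩, .ofNat 8455, .negSucc 12235, .ofNat 0, .negSucc 12235, .ofNat 18480, .ofNat 0, .ofNat 128, .ofNat 1418, .negSucc 6842, .ofNat 0, .ofNat 960, .negSucc 4513, .ofNat 0, .ofNat 0, .ofNat 5237, .ofNat 264, .ofNat 0, .ofNat 0, .ofNat 1221174007187117642684675741540432836820992, .ofNat 0, .ofNat 0, .ofNat 689216873129560831104197624697904073264474701692928, .ofNat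 66278519907911604080741284410486755388555264, .ofNat 0, .ofNat 0, .ofNat 0, .ofNat 13835159892333955038671027056646779823980544, .ofNat 0, .ofNat 0, .ofNat 0, .ofNat 64497494860847860392156624266924077053116416, .ofNat 50819770943613815919433205961822114651198267179747246080⟩)
    (by decide +kernel)
theorem L06282 : Good (Phi V5.P V5.D 1 1) ⟨7, 115, 4, 10, 3, 6, 3, 7, 4, 0⟩ :=
  out_sound (S := T5.ds_pp) T5.ok_pp (w := 21) (j := 4) (by decide +kernel)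
theorem L06283 : Good (Phi V5.P V5.D 1 1) ⟨6, 56, 4, 11, 3, 6, 2, 3, 4, 0⟩ :=
  out_sound (S := T5.ds_pp) T5.ok_pp (w := 65) (j := 3) (by decide +kernel)
theorem L06284 : Good (Phi V5.P V5.D 1 1) ⟨7, 114, 5, 22, 3, 6, 2, 3, 4, 0⟩ :=
  out_sound (S := T5.ds_pp) T5.ok_pp (w := 73) (j := 3) (by decide +kernel)
theorem L06285 : Good (Phi V5.P V5.D 1 1) ⟨7, 115, 5, 22, 3, 6, 2, 3, 4, 0⟩ :=
  out_sound (S := T5.ds_pp) T5.ok_pp (w := 21) (j := 4) (by decide +kernel)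
theorem L06286 : Good (Phi V5.P V5.D 1 1) ⟨6, 57, 5, 23, 3, 6, 2, 3, 4, 0⟩ :=
  out_sound (S := T5.ds_pp) T5.ok_pp (w := 67) (j := 3) (by decide +kernel)
theorem L06287 : Good (Phi V5.P V5.D 1 1) ⟨5, 29, 3, 5, 3, 6, 2, 3, 4, 0⟩ :=
  out_sound (S := T5.ds_pp) T5.ok_pp (w := 17) (j := 4) (by decide +kernel)
theorem L06288 : Good (Phi V5.P V5.D 1 1) ⟨4, 15, 3, 5, 3, 6, 2, 3, 4, 0⟩ :=
  out_sound (S := T5.ds_pp) T5.ok_pp (w := 51) (j := 3) (by decide +kernel)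
theorem L06289 : Good (Phi V5.P V5.D 1 1) ⟨6, 56, 4, 10, 3, 6, 3, 6, 4, 1⟩ :=
  leafX_sound T5.ok_pp T5.Ypp.bz_eq (w := 245) (c := ⟨⟨.negSucc 8948, .negSucc 251, .ofNat 149, .negSucc 159, .negSucc 904, .ofNat 1771⟩, ⟨.negSucc 5752, .ofNat 21, .negSucc 558, .negSucc 76, .negSucc 578, .ofNat 1125⟩, ⟨.ofNat 6088, .ofNat 211, .negSucc 41, .negSucc 175, .ofNat 1170, .negSucc 856⟩, ⟨.negSucc 15030, .negSucc 646, .negSucc 473, .negSucc 3188, .negSucc 2983, .ofNat 3974⟩, ⟨.ofNat 3574, .ofNat 717, .ofNat 694, .ofNat 4538, .ofNat 2606, .negSucc 2282⟩, .ofNat 3659, .negSucc 5199, .ofNat 0, .negSucc 5199, .ofNat 8180, .ofNat 0, .ofNat 128, .ofNat 982, .negSucc 2106, .ofNat 0, .ofNat 652, .negSucc 1316, .ofNat 0, .ofNat 0, .ofNat 2050, .ofNat 812, .ofNat 0, .ofNat 0, .ofNat 0, .ofNat 0, .ofNat 0, .ofNat 0, .ofNat 11229791779241593224184468734390700307644416, .ofNat 0, .ofNat 0, .ofNat 0, .ofNat 2355373514228639137848212573967131573485568,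 .ofNat 0, .ofNat 0, .ofNat 0, .ofNat 6506146051248495975271053927776153122111488, .ofNat 0⟩)
    (by decide +kernel)
theorem L06290 : Good (Phi V5.P V5.D 1 1) ⟨6, 56, 4, 10, 3, 6, 3, 7, 4, 1⟩ :=
  leafX_sound T5.ok_pp T5.Ypp.bz_eq (w := 245) (c := ⟨⟨.negSucc 10323, .negSucc 303, .ofNat 159, .negSucc 145, .negSucc 1167, .ofNat 2492⟩, ⟨.negSucc 6635, .ofNat 15, .negSucc 623, .negSucc 49, .negSucc 711, .ofNat 1573⟩, ⟨.ofNat 7605, .ofNat 122, .ofNat 150, .ofNat 44, .ofNat 1764, .negSucc 1557⟩, ⟨.negSucc 18985, .negSucc 287, .negSucc 191, .negSucc 3774, .negSucc 4762, .ofNat 5595⟩, ⟨.ofNat 6655, .ofNat 101, .ofNat 138, .ofNat 5490, .ofNat 4795, .negSucc 3221⟩, .ofNat 5194, .negSucc 7541, .ofNat 0, .negSucc 7541, .ofNat 11759, .ofNat 0, .ofNat 128, .ofNat 768, .negSucc 1421, .ofNat 0, .ofNat 511, .negSucc 892, .ofNat 0, .ofNat 0, .ofNat 1405, .ofNat 114, .ofNat 0, .ofNat 0, .ofNat 53220236834781664547953641816433417519104,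 .ofNat 0, .ofNat 0, .ofNat 0, .ofNat 21861875562014658860997290959846264987975680, .ofNat 0, .ofNat 0, .ofNat 0, .ofNat 0, .ofNat 0, .ofNat 0, .ofNat 21566796936213170477981021213868449139409146609664, .ofNat 7408399067871992397441782125123627563089920, .ofNat 0⟩)
    (by decide +kernel)
theorem L06291 : Good (Phi V5.P V5.D 1 1) ⟨7, 114, 5, 20, 3, 6, 2, 3, 5, 2⟩ :=
  leafX_sound T5.ok_pp T5.Ypp.bz_eq (w := 263) (c := ⟨⟨.negSucc 8391, .ofNat 5, .ofNat 147, .negSucc 668, .negSucc 2331, .ofNat 97⟩, ⟨.negSucc 5197, .ofNat 3, .negSucc 241, .negSucc 420, .negSucc 1513, .ofNat 61⟩, ⟨.ofNat 5619, .negSucc 3, .negSucc 15, .ofNat 146, .ofNat 3171, .ofNat 148⟩, ⟨.negSucc 17741, .ofNat 10, .negSucc 10, .negSucc 933, .negSucc 2623, .ofNat 262⟩, ⟨.ofNat 9268, .negSucc 3, .ofNat 4, .ofNat 16, .negSucc 932, .negSucc 182⟩, .ofNat 28780, .negSucc 42972, .ofNat 0, .negSucc 42972, .ofNat 64977, .ofNat 0, .ofNat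 128, .ofNat 3528, .negSucc 8118, .ofNat 0, .ofNat 2349, .negSucc 5335, .ofNat 0, .ofNat 0, .ofNat 7303, .ofNat 3727, .ofNat 0, .ofNat 0, .ofNat 0, .ofNat 0, .ofNat 0, .ofNat 32795796249181824166496283816711415467199089323540480, .ofNat 44949725194009369854766637367458905651205373952, .ofNat 0, .ofNat 0, .ofNat 0, .ofNat 113940217727587687681164025331971179533041664, .ofNat 0, .ofNat 0, .ofNat 332281627528754492572069397231118454057694764776554496, .ofNat 15352120939314451176031991285724873643993858048, .ofNat 0⟩)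
    (by decide +kernel)
theorem L06292 : Good (Phi V5.P V5.D 1 1) ⟨7, 114, 5, 21, 3, 6, 2, 3, 5, 2⟩ :=
  leafX_sound T5.ok_pp T5.Ypp.bz_eq (w := 257) (c := ⟨⟨.negSucc 8064, .negSucc 139, .ofNat 184, .negSucc 834, .negSucc 2323, .negSucc 50⟩, ⟨.negSucc 5315, .negSucc 119, .negSucc 103, .negSucc 544, .negSucc 1533, .negSucc 24⟩, ⟨.ofNat 5503, .ofNat 22, .ofNat 14, .ofNat 216, .ofNat 3205, .ofNat 211⟩, ⟨.negSucc 14474, .negSucc 370, .negSucc 264, .negSucc 4499, .negSucc 8043, .ofNat 973⟩, ⟨.ofNat 4749, .ofNat 478, .ofNat 464, .ofNat 4996, .ofNat 7180, .negSucc 1549⟩, .ofNat 8455, .negSucc 12235, .ofNat 0, .negSucc 12235, .ofNat 18480, .ofNat 0, .ofNat 128, .ofNat 1250, .negSucc 4206, .ofNat 0, .ofNat 844, .negSucc 2771, .ofNat 0, .ofNat 0, .ofNat 3713, .ofNat 429, .ofNat 0, .ofNat 0, .ofNat 0, .ofNat 0, .ofNat 0, .ofNat 8566116573820528656342266484385290137335365808160768, .ofNat 110400618789848838969505662143973201301995520,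 .ofNat 0, .ofNat 0, .ofNat 0, .ofNat 0, .ofNat 0, .ofNat 0, .ofNat 0, .ofNat 0, .ofNat 0⟩)
    (by decide +kernel)
theorem L06293 : Good (Phi V5.P V5.D 1 1) ⟨7, 115, 4, 10, 3, 6, 2, 3, 5, 2⟩ :=
  out_sound (S := T5.ds_pp) T5.ok_pp (w := 21) (j := 4) (by decide +kernel)
theorem L06294 : Good (Phi V5.P V5.D 1 1) ⟨6, 57, 4, 10, 3, 6, 2, 3, 5, 3⟩ :=
  leafX_sound T5.ok_pp T5.Ypp.bz_eq (w := 246) (c := ⟨⟨.negSucc 8494, .negSucc 514, .ofNat 52, .negSucc 132, .negSucc 1596, .ofNat 1122⟩, ⟨.negSucc 5447, .negSucc 435, .negSucc 279, .negSucc 81, .negSucc 1056, .ofNat 748⟩, ⟨.ofNat 5834, .ofNat 220, .ofNat 322, .negSucc 143, .ofNat 2340, .negSucc 658⟩, ⟨.negSucc 14123, .negSucc 762, .negSucc 665, .negSucc 3113, .negSucc 5759, .ofNat 2882⟩, ⟨.ofNat 3590, .ofNat 571, .ofNat 555, .ofNat 4392, .ofNat 5285, .negSucc 1960⟩, .ofNat 3726, .negSucc 5130, .ofNat 0, .negSucc 5130, .ofNat 7802, .ofNat 0, .ofNat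 128, .ofNat 924, .negSucc 1864, .ofNat 0, .ofNat 640, .negSucc 1179, .ofNat 0, .ofNat 0, .ofNat 2007, .ofNat 274, .ofNat 0, .ofNat 0, .ofNat 254417206945400334885638303929432545427456, .ofNat 0, .ofNat 0, .ofNat 32291474954003074137649356518197065534274971631616, .ofNat 33667038738941166041737114031537339563507712, .ofNat 0, .ofNat 0, .ofNat 0, .ofNat 8472831644295269241850282560408296257224704, .ofNat 0, .ofNat 0, .ofNat 0, .ofNat 0, .ofNat 0⟩)
    (by decide +kernel)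
theorem L06295 : Good (Phi V5.P V5.D 1 1) ⟨6, 56, 4, 11, 3, 6, 2, 3, 4, 1⟩ :=
  out_sound (S := T5.ds_pp) T5.ok_pp (w := 65) (j := 3) (by decide +kernel)
theorem L06296 : Good (Phi V5.P V5.D 1 1) ⟨7, 114, 5, 22, 3, 6, 2, 3, 4, 1⟩ :=
  out_sound (S := T5.ds_pp) T5.ok_pp (w := 73) (j := 3) (by decide +kernel)
theorem L06297 : Good (Phi V5.P V5.D 1 1) ⟨7, 115, 5, 22, 3, 6, 2, 3, 4, 1⟩ :=
  out_sound (S := T5.ds_pp) T5.ok_pp (w := 21) (j := 4) (by decide +kernel)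
theorem L06298 : Good (Phi V5.P V5.D 1 1) ⟨6, 57, 5, 23, 3, 6, 2, 3, 4, 1⟩ :=
  out_sound (S := T5.ds_pp) T5.ok_pp (w := 67) (j := 3) (by decide +kernel)
theorem L06299 : Good (Phi V5.P V5.D 1 1) ⟨5, 29, 3, 5, 3, 6, 2, 3, 4, 1⟩ :=
  out_sound (S := T5.ds_pp) T5.ok_pp (w := 17) (j := 4) (by decide +kernel)
theorem L06300 : Good (Phi V5.P V5.D 1 1) ⟨4, 15, 3, 5, 3, 6, 2, 3, 4, 1⟩ :=
  out_sound (S := T5.ds_pp) T5.ok_pp (w := 51) (j := 3) (by decide +kernel)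
theorem L06301 : Good (Phi V5.P V5.D 1 1) ⟨2, 2, 3, 5, 3, 7, 3, 6, 3, 0⟩ :=
  out_sound (S := T5.ds_pp) T5.ok_pp (w := 39) (j := 3) (by decide +kernel)
theorem L06302 : Good (Phi V5.P V5.D 1 1) ⟨3, 6, 3, 5, 4, 14, 3, 6, 5, 0⟩ :=
  out_sound (S := T5.ds_pp) T5.ok_pp (w := 45) (j := 3) (by decide +kernel)
theorem L06303 : Good (Phi V5.P V5.D 1 1) ⟨5, 28, 5, 20, 4, 14, 3, 6, 5, 0⟩ :=
  leafX_sound T5.ok_pp T5.Ypp.bz_eq (w := 265) (c := ⟨⟨.negSucc 5275, .negSucc 334, .ofNat 20, .negSucc 737, .negSucc 699, .negSucc 1048⟩, ⟨.negSucc 3394, .ofNat 383, .negSucc 372, .negSucc 460, .negSucc 436, .negSucc 683⟩, ⟨.ofNat 3169, .ofNat 519, .negSucc 124, .negSucc 21, .ofNat 1054, .ofNat 752⟩, ⟨.negSucc 12833, .negSucc 365, .negSucc 490, .negSucc 3527, .negSucc 2471, .negSucc 1360⟩, ⟨.ofNat 8302, .ofNat 93, .ofNat 505, .ofNat 3806, .ofNat 2284, .negSucc 176⟩, .ofNat 3968, .negSucc 5600, .ofNat 0, .negSucc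 5600, .ofNat 8683, .ofNat 0, .ofNat 128, .ofNat 936, .negSucc 3767, .ofNat 0, .ofNat 626, .negSucc 2370, .ofNat 0, .ofNat 0, .ofNat 2558, .ofNat 767, .ofNat 0, .ofNat 0, .ofNat 566821851882202344871806094305381386093294780416, .ofNat 0, .ofNat 0, .ofNat 0, .ofNat 30673049692351081403900757463120372601686268575744, .ofNat 0, .ofNat 0, .ofNat 0, .ofNat 10500737678207789414515774029616268861078690070528, .ofNat 0, .ofNat 0, .ofNat 0, .ofNat 48201320300999027727260994289591056055987853066240, .ofNat 96899946705073419061845593013335818971264109338565921472512⟩)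
    (by decide +kernel)
theorem L06304 : Good (Phi V5.P V5.D 1 1) ⟨5, 28, 5, 21, 4, 14, 3, 6, 5, 0⟩ :=
  leafX_sound T5.ok_pp T5.Ypp.bz_eq (w := 268) (c := ⟨⟨.negSucc 5209, .ofNat 94, .ofNat 1112, .negSucc 853, .negSucc 605, .negSucc 1366⟩, ⟨.negSucc 3681, .ofNat 622, .ofNat 366, .negSucc 563, .negSucc 397, .negSucc 908⟩, ⟨.ofNat 3190, .negSucc 63, .negSucc 633, .ofNat 34, .ofNat 1002, .ofNat 941⟩, ⟨.negSucc 13361, .ofNat 378, .ofNat 1375, .negSucc 3469, .negSucc 2391, .negSucc 1857⟩, ⟨.ofNat 8959, .negSucc 17, .negSucc 48, .ofNat 3406, .ofNat 2317, .negSucc 83⟩, .ofNat 7210, .negSucc 10434, .ofNat 0, .negSucc 10434, .ofNat 15881, .ofNat 0, .ofNat 128, .ofNat 1552, .negSucc 7248, .ofNat 0, .ofNat 1039, .negSucc 4726, .ofNat 0, .ofNat 0, .ofNat 4918, .ofNat 427, .ofNat 0, .ofNat 0, .ofNat 757521968131619814755789924787859649102887256064, .ofNat 110748668604140382369890551475204415711818111296252936192,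 .ofNat 0, .ofNat 0, .ofNat 38492871272114402597589412867313324114635623759872, .ofNat 145545902746762881048049498824964170386958037958102242820096, .ofNat 0, .ofNat 0, .ofNat 35024329629529849523018395324308295782038339846144, .ofNat 165283825992114262226276187890112877130292443645191399669760, .ofNat 0, .ofNat 0, .ofNat 80311425042375506475626244930364952669056959250432, .ofNat 353354981689993681354058883856842044556868804673797456134144⟩)
    (by decide +kernel)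
theorem L06305 : Good (Phi V5.P V5.D 1 1) ⟨5, 29, 4, 10, 4, 14, 3, 6, 5, 0⟩ :=
  out_sound (S := T5.ds_pp) T5.ok_pp (w := 59) (j := 3) (by decide +kernel)
theorem L06306 : Good (Phi V5.P V5.D 1 1) ⟨6, 56, 4, 11, 4, 14, 3, 6, 5, 0⟩ :=
  out_sound (S := T5.ds_pp) T5.ok_pp (w := 65) (j := 3) (by decide +kernel)
theorem L06307 : Good (Phi V5.P V5.D 1 1) ⟨7, 114, 5, 22, 4, 14, 3, 6, 5, 0⟩ :=
  out_sound (S := T5.ds_pp) T5.ok_pp (w := 73) (j := 3) (by decide +kernel)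
theorem L06308 : Good (Phi V5.P V5.D 1 1) ⟨7, 115, 5, 22, 4, 14, 3, 6, 5, 0⟩ :=
  out_sound (S := T5.ds_pp) T5.ok_pp (w := 21) (j := 4) (by decide +kernel)
theorem L06309 : Good (Phi V5.P V5.D 1 1) ⟨6, 57, 5, 23, 4, 14, 3, 6, 5, 0⟩ :=
  out_sound (S := T5.ds_pp) T5.ok_pp (w := 67) (j := 3) (by decide +kernel)
theorem L06310 : Good (Phi V5.P V5.D 1 1) ⟨5, 29, 4, 11, 4, 14, 3, 6, 5, 0⟩ :=
  out_sound (S := T5.ds_pp) T5.ok_pp (w := 17) (j := 4) (by decide +kernel)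
theorem L06311 : Good (Phi V5.P V5.D 1 1) ⟨4, 15, 3, 5, 4, 14, 3, 6, 5, 0⟩ :=
  out_sound (S := T5.ds_pp) T5.ok_pp (w := 51) (j := 3) (by decide +kernel)
theorem L06312 : Good (Phi V5.P V5.D 1 1) ⟨3, 6, 3, 5, 4, 14, 3, 6, 5, 1⟩ :=
  out_sound (S := T5.ds_pp) T5.ok_pp (w := 45) (j := 3) (by decide +kernel)
theorem L06313 : Good (Phi V5.P V5.D 1 1) ⟨6, 56, 4, 10, 4, 14, 3, 6, 5, 1⟩ :=
  leafX_sound T5.ok_pp T5.Ypp.bz_eq (w := 266) (c := ⟨⟨.negSucc 7260, .negSucc 65, .ofNat 300, .ofNat 326, .negSucc 1621, .negSucc 1409⟩, ⟨.negSucc 4618, .ofNat 163, .negSucc 569, .ofNat 233, .negSucc 1032, .negSucc 920⟩, ⟨.ofNat 4401, .ofNat 304, .negSucc 459, .negSucc 664, .ofNat 1646, .ofNat 1090⟩, ⟨.negSucc 15315, .negSucc 535, .negSucc 389, .negSucc 1773, .negSucc 4644, .negSucc 2431⟩, ⟨.ofNat 7830, .ofNat 717, .ofNat 788, .ofNat 3434, .ofNat 3622, .ofNat 680⟩, .ofNat 5211, .negSucc 7566, .ofNat 0, .negSucc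 7566, .ofNat 11797, .ofNat 0, .ofNat 128, .ofNat 1022, .negSucc 3600, .ofNat 0, .ofNat 674, .negSucc 2271, .ofNat 0, .ofNat 0, .ofNat 2687, .ofNat 770, .ofNat 0, .ofNat 0, .ofNat 0, .ofNat 0, .ofNat 0, .ofNat 0, .ofNat 13792640917847443223657858417940458589244499165184, .ofNat 0, .ofNat 0, .ofNat 0, .ofNat 1605858711170770359076162452876117271408959029248, .ofNat 0, .ofNat 0, .ofNat 0, .ofNat 22861175186530280836000019654986174376920326602752, .ofNat 0⟩)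
    (by decide +kernel)
theorem L06314 : Good (Phi V5.P V5.D 1 1) ⟨6, 57, 4, 10, 4, 14, 3, 6, 5, 1⟩ :=
  leafX_sound T5.ok_pp T5.Ypp.bz_eq (w := 266) (c := ⟨⟨.negSucc 7026, .ofNat 162, .ofNat 544, .ofNat 72, .negSucc 1701, .negSucc 1836⟩, ⟨.negSucc 4223, .ofNat 313, .negSucc 390, .ofNat 53, .negSucc 1126, .negSucc 1223⟩, ⟨.ofNat 4366, .negSucc 190, .negSucc 222, .negSucc 514, .ofNat 1685, .ofNat 1297⟩, ⟨.negSucc 15293, .ofNat 321, .ofNat 302, .negSucc 2106, .negSucc 4912, .negSucc 3218⟩, ⟨.ofNat 8526, .ofNat 76, .ofNat 54, .ofNat 3313, .ofNat 3791, .ofNat 964⟩, .ofNat 3726, .negSucc 5130, .ofNat 0, .negSucc 5130, .ofNat 7802, .ofNat 0, .ofNat 128, .ofNat 1133, .negSucc 4515, .ofNat 0, .ofNat 774, .negSucc 2870, .ofNat 0, .ofNat 0, .ofNat 3307, .ofNat 347, .ofNat 0, .ofNat 0, .ofNat 111895894855970886603539977778742777316588388352, .ofNat 0, .ofNat 0, .ofNat 0, .ofNat 6910996414767688147986253607294268570843985477632,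 .ofNat 28040404560446301840204859543774767900399960699473965875200, .ofNat 0, .ofNat 0, .ofNat 0, .ofNat 0, .ofNat 0, .ofNat 0, .ofNat 29566369291939126611070481263579230345551444705280, .ofNat 78208815423056398678724458843114094075535646320078046101504⟩)
    (by decide +kernel)
theorem L06315 : Good (Phi V5.P V5.D 1 1) ⟨6, 56, 4, 11, 4, 14, 3, 6, 5, 1⟩ :=
  out_sound (S := T5.ds_pp) T5.ok_pp (w := 65) (j := 3) (by decide +kernel)
theorem L06316 : Good (Phi V5.P V5.D 1 1) ⟨7, 114, 5, 22, 4, 14, 3, 6, 5, 1⟩ :=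
  out_sound (S := T5.ds_pp) T5.ok_pp (w := 73) (j := 3) (by decide +kernel)
theorem L06317 : Good (Phi V5.P V5.D 1 1) ⟨7, 115, 5, 22, 4, 14, 3, 6, 5, 1⟩ :=
  out_sound (S := T5.ds_pp) T5.ok_pp (w := 21) (j := 4) (by decide +kernel)
theorem L06318 : Good (Phi V5.P V5.D 1 1) ⟨6, 57, 5, 23, 4, 14, 3, 6, 5, 1⟩ :=
  out_sound (S := T5.ds_pp) T5.ok_pp (w := 67) (j := 3) (by decide +kernel)
theorem L06319 : Good (Phi V5.P V5.D 1 1) ⟨5, 29, 3, 5, 4, 14, 3, 6, 5, 1⟩ :=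
  out_sound (S := T5.ds_pp) T5.ok_pp (w := 17) (j := 4) (by decide +kernel)
theorem L06320 : Good (Phi V5.P V5.D 1 1) ⟨4, 15, 3, 5, 4, 14, 3, 6, 5, 1⟩ :=
  out_sound (S := T5.ds_pp) T5.ok_pp (w := 51) (j := 3) (by decide +kernel)
theorem L06321 : Good (Phi V5.P V5.D 1 1) ⟨3, 6, 4, 10, 4, 15, 4, 12, 4, 0⟩ :=
  out_sound (S := T5.ds_pp) T5.ok_pp (w := 47) (j := 3) (by decide +kernel)
theorem L06322 : Good (Phi V5.P V5.D 1 1) ⟨7, 112, 5, 20, 4, 15, 4, 12, 4, 0⟩ :=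
  leafX_sound T5.ok_pp T5.Ypp.bz_eq (w := 276) (c := ⟨⟨.negSucc 5249, .negSucc 1757, .ofNat 7, .ofNat 3564, .negSucc 1119, .negSucc 1571⟩, ⟨.negSucc 3379, .negSucc 955, .negSucc 354, .ofNat 2275, .negSucc 702, .negSucc 1006⟩, ⟨.ofNat 2786, .ofNat 1132, .negSucc 352, .negSucc 2340, .ofNat 777, .ofNat 1186⟩, ⟨.negSucc 15727, .negSucc 1897, .negSucc 318, .ofNat 4830, .negSucc 1984, .negSucc 1930⟩, ⟨.ofNat 12703, .negSucc 688, .ofNat 47, .ofNat 337, .ofNat 621, .negSucc 459⟩, .ofNat 9579, .negSucc 14384, .ofNat 0, .negSucc 14384, .ofNat 22454, .ofNat 0, .ofNat 128, .ofNat 2335, .negSucc 6408, .ofNat 0, .ofNat 1516, .negSucc 4013, .ofNat 0, .ofNat 0, .ofNat 4481, .ofNat 1386, .ofNat 0, .ofNat 0, .ofNat 0, .ofNat 0, .ofNat 0, .ofNat 0, .ofNat 18097784030496121287020178208961767443172960501760, .ofNat 0, .ofNat 0, .ofNat 0, .ofNat 0, .ofNat 0, .ofNat 0, .ofNat 0, .ofNat 9232569346001683087909123797940177974122011164672,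 .ofNat 0⟩)
    (by decide +kernel)
theorem L06323 : Good (Phi V5.P V5.D 1 1) ⟨7, 113, 5, 20, 4, 15, 4, 12, 4, 0⟩ :=
  leafX_sound T5.ok_pp T5.Ypp.bz_eq (w := 273) (c := ⟨⟨.negSucc 6715, .negSucc 402, .ofNat 303, .ofNat 3222, .negSucc 1112, .negSucc 1726⟩, ⟨.negSucc 4167, .negSucc 171, .negSucc 120, .ofNat 2107, .negSucc 723, .negSucc 1117⟩, ⟨.ofNat 3801, .ofNat 698, .negSucc 744, .negSucc 2160, .ofNat 748, .ofNat 1298⟩, ⟨.negSucc 17521, .negSucc 327, .ofNat 97, .ofNat 5146, .negSucc 3030, .negSucc 2763⟩, ⟨.ofNat 12478, .negSucc 224, .ofNat 78, .negSucc 918, .ofNat 2244, .ofNat 512⟩, .ofNat 7666, .negSucc 11284, .ofNat 0, .negSucc 11284, .ofNat 17429, .ofNat 0, .ofNat 128, .ofNat 881, .negSucc 2887, .ofNat 0, .ofNat 580, .negSucc 1838, .ofNat 0, .ofNat 0, .ofNat 1964, .ofNat 760, .ofNat 0, .ofNat 0, .ofNat 39919600391602665423173871540910671764427636736, .ofNat 0, .ofNat 0, .ofNat 0, .ofNat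 7060402763915299980816163254810921914873830965248, .ofNat 0, .ofNat 0, .ofNat 0, .ofNat 3251278047913641334190703237606892196029630775296, .ofNat 0, .ofNat 0, .ofNat 0, .ofNat 0, .ofNat 0⟩)
    (by decide +kernel)
theorem L06324 : Good (Phi V5.P V5.D 1 1) ⟨6, 57, 5, 20, 4, 15, 4, 12, 4, 0⟩ :=
  leafX_sound T5.ok_pp T5.Ypp.bz_eq (w := 276) (c := ⟨⟨.negSucc 6684, .ofNat 3, .ofNat 49, .ofNat 3472, .negSucc 1542, .negSucc 1982⟩, ⟨.negSucc 4161, .ofNat 2, .negSucc 182, .ofNat 2292, .negSucc 1007, .negSucc 1301⟩, ⟨.ofNat 3641, .negSucc 1, .negSucc 19, .negSucc 2296, .ofNat 1004, .ofNat 1472⟩, ⟨.negSucc 18260, .ofNat 9, .negSucc 16, .ofNat 5067, .negSucc 2825, .negSucc 1937⟩, ⟨.ofNat 13519, .negSucc 6, .ofNat 8, .negSucc 301, .ofNat 999, .negSucc 1260⟩, .ofNat 14068, .negSucc 20812, .ofNat 0, .negSucc 20812, .ofNat 31599, .ofNat 0, .ofNat 128, .ofNat 7387, .negSucc 20205, .ofNat 0, .ofNat 4906, .negSucc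 13182, .ofNat 0, .ofNat 0, .ofNat 13797, .ofNat 10520, .ofNat 0, .ofNat 0, .ofNat 875364237459339062424763460825202740275858898944, .ofNat 0, .ofNat 0, .ofNat 0, .ofNat 24358517017467498456196399254115773559646093704167424, .ofNat 0, .ofNat 0, .ofNat 0, .ofNat 335807650171580632593915656995637515719590379782144, .ofNat 0, .ofNat 0, .ofNat 0, .ofNat 958595601222378322721038848952555183306791347814400, .ofNat 0⟩)
    (by decide +kernel)
theorem L06325 : Good (Phi V5.P V5.D 1 1) ⟨5, 29, 5, 20, 4, 15, 4, 12, 4, 0⟩ :=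
  out_sound (S := T5.ds_pp) T5.ok_pp (w := 61) (j := 3) (by decide +kernel)
theorem L06326 : Good (Phi V5.P V5.D 1 1) ⟨4, 15, 5, 20, 4, 15, 4, 12, 4, 0⟩ :=
  out_sound (S := T5.ds_pp) T5.ok_pp (w := 55) (j := 3) (by decide +kernel)
theorem L06327 : Good (Phi V5.P V5.D 1 1) ⟨6, 56, 5, 21, 4, 15, 4, 12, 5, 0⟩ :=
  leafX_sound T5.ok_pp T5.Ypp.bz_eq (w := 278) (c := ⟨⟨.negSucc 6762, .negSucc 2, .negSucc 472, .ofNat 3272, .negSucc 1117, .negSucc 238⟩, ⟨.negSucc 4436, .negSucc 1, .negSucc 815, .ofNat 2171, .negSucc 735, .negSucc 149⟩, ⟨.ofNat 3651, .ofNat 1, .negSucc 705, .negSucc 2118, .ofNat 754, .ofNat 311⟩, ⟨.negSucc 18895, .negSucc 8, .negSucc 493, .ofNat 5878, .negSucc 2797, .ofNat 623⟩, ⟨.ofNat 14158, .ofNat 7, .negSucc 3, .negSucc 1910, .ofNat 1845, .negSucc 1430⟩, .ofNat 6481, .negSucc 9388, .ofNat 0, .negSucc 9388, .ofNat 14390, .ofNat 0, .ofNat 128, .ofNat 3776, .negSucc 12316, .ofNat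 0, .ofNat 2509, .negSucc 7920, .ofNat 0, .ofNat 0, .ofNat 7924, .ofNat 1699, .ofNat 0, .ofNat 0, .ofNat 18607173545410536116147704238344542396753050075136, .ofNat 0, .ofNat 0, .ofNat 0, .ofNat 1552490703077055443628577527904988796749639915143168, .ofNat 0, .ofNat 0, .ofNat 0, .ofNat 3770740476392223587013065643900768192363208365834240, .ofNat 0, .ofNat 0, .ofNat 0, .ofNat 16803913311157260772240900997790290823892408301780992, .ofNat 0⟩)
    (by decide +kernel)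
theorem L06328 : Good (Phi V5.P V5.D 1 1) ⟨6, 57, 6, 42, 4, 15, 4, 12, 5, 0⟩ :=
  leafX_sound T5.ok_pp T5.Ypp.bz_eq (w := 279) (c := ⟨⟨.negSucc 6957, .negSucc 732, .ofNat 72, .ofNat 3132, .negSucc 1168, .ofNat 280⟩, ⟨.negSucc 4569, .negSucc 37, .negSucc 168, .ofNat 2089, .negSucc 775, .ofNat 190⟩, ⟨.ofNat 3759, .negSucc 190, .ofNat 75, .negSucc 2063, .ofNat 783, .ofNat 34⟩, ⟨.negSucc 18980, .negSucc 264, .negSucc 321, .ofNat 5309, .negSucc 2845, .ofNat 1540⟩, ⟨.ofNat 13905, .ofNat 79, .ofNat 162, .negSucc 1371, .ofNat 1811, .negSucc 1709⟩, .ofNat 7087, .negSucc 10083, .ofNat 0, .negSucc 10083, .ofNat 15106, .ofNat 0, .ofNat 128, .ofNat 1697, .negSucc 6069, .ofNat 0, .ofNat 1152, .negSucc 3946, .ofNat 0, .ofNat 0, .ofNat 3884, .ofNat 1520, .ofNat 0, .ofNat 0, .ofNat 15651121071577484534175403611710898957042688458752, .ofNat 0, .ofNat 0, .ofNat 0, .ofNat 1266974814970554674923543037827067233909776821780480,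 .ofNat 90525686311124605449549784677250891008070431513808729945407488, .ofNat 0, .ofNat 0, .ofNat 321885850981518784625388315014910293689957431115776, .ofNat 0, .ofNat 0, .ofNat 0, .ofNat 5890218387587270836885973594283236679133079300734976, .ofNat 300253221287599969941840575263738802121738130867356030252089344⟩)
    (by decide +kernel)
theorem L06329 : Good (Phi V5.P V5.D 1 1) ⟨8, 228, 6, 43, 4, 15, 4, 12, 5, 0⟩ :=
  out_sound (S := T5.ds_pp) T5.ok_pp (w := 81) (j := 3) (by decide +kernel)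
theorem L06330 : Good (Phi V5.P V5.D 1 1) ⟨8, 229, 6, 43, 4, 15, 4, 12, 5, 0⟩ :=
  out_sound (S := T5.ds_pp) T5.ok_pp (w := 23) (j := 4) (by decide +kernel)
theorem L06331 : Good (Phi V5.P V5.D 1 1) ⟨7, 115, 6, 43, 4, 15, 4, 12, 5, 0⟩ :=
  out_sound (S := T5.ds_pp) T5.ok_pp (w := 21) (j := 4) (by decide +kernel)
theorem L06332 : Good (Phi V5.P V5.D 1 1) ⟨6, 56, 5, 21, 4, 15, 4, 12, 5, 1⟩ :=
  leafX_sound T5.ok_pp T5.Ypp.bz_eq (w := 280) (c := ⟨⟨.negSucc 6758, .negSucc 2, .ofNat 222, .ofNat 3022, .negSucc 1599, .negSucc 1692⟩, ⟨.negSucc 4428, .negSucc 1, .negSucc 202, .ofNat 1998, .negSucc 1043, .negSucc 1111⟩, ⟨.ofNat 3875, .ofNat 2, .negSucc 158, .negSucc 2083, .ofNat 1054, .ofNat 1162⟩, ⟨.negSucc 17847, .negSucc 8, .ofNat 48, .ofNat 4007, .negSucc 2652, .negSucc 2272⟩, ⟨.ofNat 12610, .ofNat 7, .ofNat 5, .ofNat 355, .ofNat 623, .negSucc 146⟩, .ofNat 14675, .negSucc 21728, .ofNat 0, .negSucc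 21728, .ofNat 32978, .ofNat 0, .ofNat 128, .ofNat 5394, .negSucc 11930, .ofNat 0, .ofNat 3582, .negSucc 7788, .ofNat 0, .ofNat 0, .ofNat 8504, .ofNat 2756, .ofNat 0, .ofNat 0, .ofNat 0, .ofNat 0, .ofNat 0, .ofNat 0, .ofNat 5245906934190161152241061476967461679942589428531200, .ofNat 0, .ofNat 0, .ofNat 0, .ofNat 0, .ofNat 0, .ofNat 0, .ofNat 0, .ofNat 19181759964920867888468149902608570330613488187080704, .ofNat 0⟩)
    (by decide +kernel)
theorem L06333 : Good (Phi V5.P V5.D 1 1) ⟨6, 57, 5, 21, 4, 15, 4, 12, 5, 1⟩ :=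
  leafX_sound T5.ok_pp T5.Ypp.bz_eq (w := 274) (c := ⟨⟨.negSucc 6570, .ofNat 22, .negSucc 176, .ofNat 2737, .negSucc 1269, .negSucc 1821⟩, ⟨.negSucc 4302, .negSucc 298, .negSucc 190, .ofNat 1827, .negSucc 843, .negSucc 1213⟩, ⟨.ofNat 3804, .ofNat 79, .negSucc 51, .negSucc 1945, .ofNat 893, .ofNat 1222⟩, ⟨.negSucc 16854, .negSucc 414, .negSucc 730, .ofNat 4009, .negSucc 3319, .negSucc 3651⟩, ⟨.ofNat 11518, .ofNat 343, .ofNat 630, .negSucc 243, .ofNat 2301, .ofNat 1646⟩, .ofNat 5676, .negSucc 8009, .ofNat 0, .negSucc 8009, .ofNat 12050, .ofNat 0, .ofNat 128, .ofNat 1944, .negSucc 3775, .ofNat 0, .ofNat 1318, .negSucc 2456, .ofNat 0, .ofNat 0, .ofNat 2609, .ofNat 634, .ofNat 0, .ofNat 0, .ofNat 6325926156151469333275791387955111787957401419776, .ofNat 214434582846062398092509564728301334514683894752620671139840, .ofNat 0, .ofNat 0, .ofNat 957025578952591155900269960325092699653993679290368, .ofNat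 2091011645269143549219124895290269270859651912894823027179520, .ofNat 0, .ofNat 0, .ofNat 0, .ofNat 0, .ofNat 0, .ofNat 0, .ofNat 963844107896429302656788721282198643795362928656384, .ofNat 58085610144259484644752997049088324451361596322974115072835584⟩)
    (by decide +kernel)
theorem L06334 : Good (Phi V5.P V5.D 1 1) ⟨5, 29, 5, 21, 4, 15, 4, 12, 4, 0⟩ :=
  out_sound (S := T5.ds_pp) T5.ok_pp (w := 61) (j := 3) (by decide +kernel)
theorem L06335 : Good (Phi V5.P V5.D 1 1) ⟨4, 15, 5, 21, 4, 15, 4, 12, 4, 0⟩ :=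
  out_sound (S := T5.ds_pp) T5.ok_pp (w := 55) (j := 3) (by decide +kernel)
theorem L06336 : Good (Phi V5.P V5.D 1 1) ⟨3, 6, 4, 11, 4, 15, 4, 12, 4, 0⟩ :=
  out_sound (S := T5.ds_pp) T5.ok_pp (w := 47) (j := 3) (by decide +kernel)
theorem L06337 : Good (Phi V5.P V5.D 1 1) ⟨6, 56, 4, 11, 4, 15, 4, 12, 4, 0⟩ :=
  out_sound (S := T5.ds_pp) T5.ok_pp (w := 65) (j := 3) (by decide +kernel)
theorem L06338 : Good (Phi V5.P V5.D 1 1) ⟨7, 114, 5, 22, 4, 15, 4, 12, 4, 0⟩ :=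
  out_sound (S := T5.ds_pp) T5.ok_pp (w := 73) (j := 3) (by decide +kernel)
theorem L06339 : Good (Phi V5.P V5.D 1 1) ⟨7, 115, 5, 22, 4, 15, 4, 12, 4, 0⟩ :=
  out_sound (S := T5.ds_pp) T5.ok_pp (w := 21) (j := 4) (by decide +kernel)
theorem L06340 : Good (Phi V5.P V5.D 1 1) ⟨6, 57, 5, 23, 4, 15, 4, 12, 4, 0⟩ :=
  out_sound (S := T5.ds_pp) T5.ok_pp (w := 67) (j := 3) (by decide +kernel)
theorem L06341 : Good (Phi V5.P V5.D 1 1) ⟨5, 29, 4, 11, 4, 15, 4, 12, 4, 0⟩ :=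
  out_sound (S := T5.ds_pp) T5.ok_pp (w := 17) (j := 4) (by decide +kernel)
theorem L06342 : Good (Phi V5.P V5.D 1 1) ⟨4, 15, 4, 11, 4, 15, 4, 12, 4, 0⟩ :=
  out_sound (S := T5.ds_pp) T5.ok_pp (w := 53) (j := 3) (by decide +kernel)
theorem L06343 : Good (Phi V5.P V5.D 1 1) ⟨3, 6, 5, 20, 4, 15, 4, 13, 4, 0⟩ :=
  out_sound (S := T5.ds_pp) T5.ok_pp (w := 49) (j := 3) (by decide +kernel)
theorem L06344 : Good (Phi V5.P V5.D 1 1) ⟨7, 112, 5, 20, 4, 15, 4, 13, 4, 0⟩ :=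
  leafX_sound T5.ok_pp T5.Ypp.bz_eq (w := 277) (c := ⟨⟨.negSucc 6933, .negSucc 85, .ofNat 1002, .ofNat 2695, .negSucc 1248, .negSucc 2285⟩, ⟨.negSucc 4450, .ofNat 117, .ofNat 204, .ofNat 1723, .negSucc 781, .negSucc 1455⟩, ⟨.ofNat 4042, .ofNat 154, .negSucc 845, .negSucc 2030, .ofNat 888, .ofNat 1597⟩, ⟨.negSucc 18296, .negSucc 78, .ofNat 636, .ofNat 3237, .negSucc 2398, .negSucc 3259⟩, ⟨.ofNat 13076, .ofNat 77, .ofNat 506, .ofNat 877, .ofNat 983, .ofNat 45⟩, .ofNat 10461, .negSucc 15743, .ofNat 0, .negSucc 15743, .ofNat 24549, .ofNat 0, .ofNat 128, .ofNat 2915, .negSucc 7387, .ofNat 0, .ofNat 1896, .negSucc 4628, .ofNat 0, .ofNat 0, .ofNat 5066, .ofNat 551, .ofNat 0, .ofNat 0, .ofNat 24431588084669819717243368278703497801126379520, .ofNat 0, .ofNat 0, .ofNat 0, .ofNat 17673141193356307301804912549840095847911320977408, .ofNat 0, .ofNat 0, .ofNat 0, .ofNat 0, .ofNat 0, .ofNat 0, .ofNat 0,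 .ofNat 8586710016004547890246712362021222636842087612416, .ofNat 0⟩)
    (by decide +kernel)
theorem L06345 : Good (Phi V5.P V5.D 1 1) ⟨7, 113, 5, 20, 4, 15, 4, 13, 4, 0⟩ :=
  leafX_sound T5.ok_pp T5.Ypp.bz_eq (w := 273) (c := ⟨⟨.negSucc 7299, .negSucc 1947, .ofNat 1756, .ofNat 2214, .negSucc 1239, .negSucc 1873⟩, ⟨.negSucc 4505, .negSucc 1058, .ofNat 660, .ofNat 1444, .negSucc 785, .negSucc 1217⟩, ⟨.ofNat 4335, .ofNat 1022, .negSucc 1001, .negSucc 1840, .ofNat 933, .ofNat 1431⟩, ⟨.negSucc 18957, .negSucc 2420, .ofNat 1312, .ofNat 2885, .negSucc 2738, .negSucc 3013⟩, ⟨.ofNat 13441, .negSucc 188, .ofNat 1138, .ofNat 380, .ofNat 1526, .ofNat 574⟩, .ofNat 5342, .negSucc 7753, .ofNat 0, .negSucc 7753, .ofNat 12061, .ofNat 0, .ofNat 128, .ofNat 1096, .negSucc 3856, .ofNat 0, .ofNat 722, .negSucc 2426, .ofNat 0, .ofNat 0, .ofNat 2613, .ofNat 338, .ofNat 0, .ofNat 0, .ofNat 33047155158164442912496162051713149159532920832,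 .ofNat 0, .ofNat 0, .ofNat 0, .ofNat 2694600631398622683159848914435750716472826003456, .ofNat 0, .ofNat 0, .ofNat 0, .ofNat 0, .ofNat 0, .ofNat 0, .ofNat 0, .ofNat 4489935542923266361483890757208558228070631211008, .ofNat 0⟩)
    (by decide +kernel)
theorem L06346 : Good (Phi V5.P V5.D 1 1) ⟨6, 57, 5, 20, 4, 15, 4, 13, 4, 0⟩ :=
  leafX_sound T5.ok_pp T5.Ypp.bz_eq (w := 278) (c := ⟨⟨.negSucc 6535, .ofNat 4, .negSucc 32, .ofNat 2538, .negSucc 1486, .negSucc 3008⟩, ⟨.negSucc 4380, .ofNat 2, .ofNat 84, .ofNat 1676, .negSucc 971, .negSucc 1977⟩, ⟨.ofNat 3976, .negSucc 1, .negSucc 85, .negSucc 1997, .ofNat 1051, .ofNat 2043⟩, ⟨.negSucc 19004, .ofNat 10, .negSucc 6, .ofNat 2895, .negSucc 2009, .negSucc 3373⟩, ⟨.ofNat 14762, .negSucc 6, .ofNat 7, .ofNat 999, .negSucc 112, .negSucc 1259⟩, .ofNat 21690, .negSucc 32293, .ofNat 0, .negSucc 32293, .ofNat 48892, .ofNat 0, .ofNat 128, .ofNat 8228, .negSucc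 25112, .ofNat 0, .ofNat 5468, .negSucc 16446, .ofNat 0, .ofNat 0, .ofNat 16960, .ofNat 11865, .ofNat 0, .ofNat 0, .ofNat 4871640289748403338920932981366506864561876893696, .ofNat 0, .ofNat 0, .ofNat 0, .ofNat 114917560280221445330919410117973841912065210659635200, .ofNat 0, .ofNat 0, .ofNat 0, .ofNat 30321754442284814131529984302267044528283743835652096, .ofNat 0, .ofNat 0, .ofNat 0, .ofNat 63032373567203676153840832048091915662091466854891520, .ofNat 0⟩)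
    (by decide +kernel)
theorem L06347 : Good (Phi V5.P V5.D 1 1) ⟨5, 29, 5, 20, 4, 15, 4, 13, 4, 0⟩ :=
  out_sound (S := T5.ds_pp) T5.ok_pp (w := 61) (j := 3) (by decide +kernel)
theorem L06348 : Good (Phi V5.P V5.D 1 1) ⟨4, 15, 5, 20, 4, 15, 4, 13, 4, 0⟩ :=
  out_sound (S := T5.ds_pp) T5.ok_pp (w := 55) (j := 3) (by decide +kernel)
theorem L06349 : Good (Phi V5.P V5.D 1 1) ⟨3, 6, 5, 21, 4, 15, 4, 13, 4, 0⟩ :=
  out_sound (S := T5.ds_pp) T5.ok_pp (w := 49) (j := 3) (by decide +kernel)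
theorem L06350 : Good (Phi V5.P V5.D 1 1) ⟨6, 56, 5, 21, 4, 15, 4, 13, 4, 0⟩ :=
  leafX_sound T5.ok_pp T5.Ypp.bz_eq (w := 274) (c := ⟨⟨.negSucc 6161, .negSucc 3, .ofNat 685, .ofNat 2227, .negSucc 1535, .negSucc 3288⟩, ⟨.negSucc 4039, .negSucc 1, .ofNat 86, .ofNat 1478, .negSucc 1000, .negSucc 2152⟩, ⟨.ofNat 3652, .ofNat 2, .ofNat 138, .negSucc 1803, .ofNat 1058, .ofNat 2192⟩, ⟨.negSucc 18134, .negSucc 9, .ofNat 349, .ofNat 3458, .negSucc 3193, .negSucc 5001⟩, ⟨.ofNat 14304, .ofNat 8, .ofNat 19, .negSucc 486, .ofNat 1571, .ofNat 595⟩, .ofNat 10065, .negSucc 14785, .ofNat 0, .negSucc 14785, .ofNat 22520, .ofNat 0, .ofNat 128, .ofNat 4417, .negSucc 11702, .ofNat 0, .ofNat 2936, .negSucc 7596, .ofNat 0, .ofNat 0, .ofNat 7911, .ofNat 1330, .ofNat 0, .ofNat 0, .ofNat 0, .ofNat 0, .ofNat 0, .ofNat 0, .ofNat 96030003948752052583453714962786756961873185210368, .ofNat 0, .ofNat 0, .ofNat 0, .ofNat 117278879868000252094769530501775809934469453840384,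 .ofNat 0, .ofNat 0, .ofNat 0, .ofNat 477029701570360108892602078193758909417414255968256, .ofNat 0⟩)
    (by decide +kernel)
theorem L06351 : Good (Phi V5.P V5.D 1 1) ⟨6, 57, 6, 42, 4, 15, 4, 13, 5, 0⟩ :=
  leafX_sound T5.ok_pp T5.Ypp.bz_eq (w := 279) (c := ⟨⟨.negSucc 7152, .ofNat 287, .ofNat 62, .ofNat 2280, .negSucc 687, .negSucc 555⟩, ⟨.negSucc 4700, .ofNat 264, .negSucc 91, .ofNat 1532, .negSucc 455, .negSucc 359⟩, ⟨.ofNat 4116, .ofNat 229, .negSucc 145, .negSucc 1785, .ofNat 613, .ofNat 514⟩, ⟨.negSucc 20209, .ofNat 116, .ofNat 134, .ofNat 3990, .negSucc 1734, .negSucc 84⟩, ⟨.ofNat 15323, .negSucc 48, .negSucc 93, .negSucc 1179, .ofNat 1158, .negSucc 1022⟩, .ofNat 7087, .negSucc 10083, .ofNat 0, .negSucc 10083, .ofNat 15106, .ofNat 0, .ofNat 128, .ofNat 1484, .negSucc 6637, .ofNat 0, .ofNat 1009, .negSucc 4311, .ofNat 0, .ofNat 0, .ofNat 4242, .ofNat 618, .ofNat 0, .ofNat 0, .ofNat 10328785842638689355770927862807446743785595207680,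 .ofNat 0, .ofNat 0, .ofNat 0, .ofNat 1105671835491187058247224215229387686159116924878848, .ofNat 0, .ofNat 0, .ofNat 0, .ofNat 0, .ofNat 0, .ofNat 0, .ofNat 0, .ofNat 2591985489472274121241601815969552840751216664248320, .ofNat 0⟩)
    (by decide +kernel)
theorem L06352 : Good (Phi V5.P V5.D 1 1) ⟨8, 228, 6, 43, 4, 15, 4, 13, 5, 0⟩ :=
  out_sound (S := T5.ds_pp) T5.ok_pp (w := 81) (j := 3) (by decide +kernel)
theorem L06353 : Good (Phi V5.P V5.D 1 1) ⟨8, 229, 6, 43, 4, 15, 4, 13, 5, 0⟩ :=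
  out_sound (S := T5.ds_pp) T5.ok_pp (w := 23) (j := 4) (by decide +kernel)
theorem L06354 : Good (Phi V5.P V5.D 1 1) ⟨7, 115, 6, 43, 4, 15, 4, 13, 5, 0⟩ :=
  out_sound (S := T5.ds_pp) T5.ok_pp (w := 21) (j := 4) (by decide +kernel)
theorem L06355 : Good (Phi V5.P V5.D 1 1) ⟨6, 57, 5, 21, 4, 15, 4, 13, 5, 1⟩ :=
  leafX_sound T5.ok_pp T5.Ypp.bz_eq (w := 276) (c := ⟨⟨.negSucc 7461, .negSucc 541, .ofNat 131, .ofNat 2118, .negSucc 1489, .negSucc 2045⟩, ⟨.negSucc 4879, .ofNat 37, .negSucc 419, .ofNat 1417, .negSucc 985, .negSucc 1357⟩, ⟨.ofNat 4590, .negSucc 231, .ofNat 107, .negSucc 1811, .ofNat 1087, .ofNat 1371⟩, ⟨.negSucc 19533, .negSucc 363, .negSucc 610, .ofNat 2947, .negSucc 3656, .negSucc 3924⟩, ⟨.ofNat 13669, .ofNat 226, .ofNat 461, .ofNat 42, .ofNat 2355, .ofNat 1592⟩, .ofNat 10725, .negSucc 15449, .ofNat 0, .negSucc 15449, .ofNat 23019, .ofNat 0, .ofNat 128, .ofNat 2438, .negSucc 4391,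 .ofNat 0, .ofNat 1655, .negSucc 2900, .ofNat 0, .ofNat 0, .ofNat 3038, .ofNat 575, .ofNat 0, .ofNat 0, .ofNat 17454904824401793007436550251772884679722264428544, .ofNat 0, .ofNat 0, .ofNat 0, .ofNat 2872728431802493390752742622650386046151625755590656, .ofNat 0, .ofNat 0, .ofNat 0, .ofNat 0, .ofNat 0, .ofNat 0, .ofNat 0, .ofNat 4139946511699842453322274810368456639804749270482944, .ofNat 101698709854588667377794454024349052245096345701872407811194880⟩)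
    (by decide +kernel)
theorem L06356 : Good (Phi V5.P V5.D 1 1) ⟨5, 29, 5, 21, 4, 15, 4, 13, 4, 0⟩ :=
  out_sound (S := T5.ds_pp) T5.ok_pp (w := 61) (j := 3) (by decide +kernel)
theorem L06357 : Good (Phi V5.P V5.D 1 1) ⟨4, 15, 5, 21, 4, 15, 4, 13, 4, 0⟩ :=
  out_sound (S := T5.ds_pp) T5.ok_pp (w := 55) (j := 3) (by decide +kernel)
theorem L06358 : Good (Phi V5.P V5.D 1 1) ⟨3, 6, 4, 11, 4, 15, 4, 13, 4, 0⟩ :=
  out_sound (S := T5.ds_pp) T5.ok_pp (w := 47) (j := 3) (by decide +kernel)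
theorem L06359 : Good (Phi V5.P V5.D 1 1) ⟨6, 56, 4, 11, 4, 15, 4, 13, 4, 0⟩ :=
  out_sound (S := T5.ds_pp) T5.ok_pp (w := 65) (j := 3) (by decide +kernel)
theorem L06360 : Good (Phi V5.P V5.D 1 1) ⟨7, 114, 5, 22, 4, 15, 4, 13, 4, 0⟩ :=
  out_sound (S := T5.ds_pp) T5.ok_pp (w := 73) (j := 3) (by decide +kernel)
theorem L06361 : Good (Phi V5.P V5.D 1 1) ⟨7, 115, 5, 22, 4, 15, 4, 13, 4, 0⟩ :=
  out_sound (S := T5.ds_pp) T5.ok_pp (w := 21) (j := 4) (by decide +kernel)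
theorem L06362 : Good (Phi V5.P V5.D 1 1) ⟨6, 57, 5, 23, 4, 15, 4, 13, 4, 0⟩ :=
  out_sound (S := T5.ds_pp) T5.ok_pp (w := 67) (j := 3) (by decide +kernel)
theorem L06363 : Good (Phi V5.P V5.D 1 1) ⟨5, 29, 4, 11, 4, 15, 4, 13, 4, 0⟩ :=
  out_sound (S := T5.ds_pp) T5.ok_pp (w := 17) (j := 4) (by decide +kernel)
theorem L06364 : Good (Phi V5.P V5.D 1 1) ⟨4, 15, 4, 11, 4, 15, 4, 13, 4, 0⟩ :=
  out_sound (S := T5.ds_pp) T5.ok_pp (w := 53) (j := 3) (by decide +kernel)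
theorem L06365 : Good (Phi V5.P V5.D 1 1) ⟨3, 6, 3, 5, 3, 7, 3, 6, 4, 1⟩ :=
  out_sound (S := T5.ds_pp) T5.ok_pp (w := 45) (j := 3) (by decide +kernel)
theorem L06366 : Good (Phi V5.P V5.D 1 1) ⟨6, 56, 5, 20, 3, 7, 3, 6, 5, 2⟩ :=
  leafX_sound T5.ok_pp T5.Ypp.bz_eq (w := 255) (c := ⟨⟨.negSucc 8893, .negSucc 530, .ofNat 73, .ofNat 2580, .negSucc 1916, .ofNat 355⟩, ⟨.negSucc 5727, .negSucc 22, .negSucc 384, .ofNat 1713, .negSucc 1240, .ofNat 214⟩, ⟨.ofNat 5952, .ofNat 185, .ofNat 5, .negSucc 2493, .ofNat 1540, .negSucc 23⟩, ⟨.negSucc 18480, .negSucc 858, .negSucc 749, .ofNat 1294, .negSucc 5292, .ofNat 1079⟩, ⟨.ofNat 9114, .ofNat 341, .ofNat 977, .ofNat 3603, .ofNat 3957, .negSucc 886⟩, .ofNat 5234, .negSucc 7601, .ofNat 0, .negSucc 7601, .ofNat 11852, .ofNat 0, .ofNat 128, .ofNat 1588, .negSucc 2526, .ofNat 0, .ofNat 1046, .negSucc 1585, .ofNat 0, .ofNat 0, .ofNat 2102, .ofNat 855, .ofNat 0,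 .ofNat 0, .ofNat 21660681460730689504654248764942554094370816, .ofNat 0, .ofNat 0, .ofNat 0, .ofNat 1452435256963617257233482810425132649893855232, .ofNat 0, .ofNat 0, .ofNat 0, .ofNat 0, .ofNat 0, .ofNat 0, .ofNat 0, .ofNat 1213608283392756346855264932313646866186108928, .ofNat 0⟩)
    (by decide +kernel)
theorem L06367 : Good (Phi V5.P V5.D 1 1) ⟨6, 56, 5, 21, 3, 7, 3, 6, 5, 2⟩ :=
  leafX_sound T5.ok_pp T5.Ypp.bz_eq (w := 256) (c := ⟨⟨.negSucc 8860, .negSucc 3, .ofNat 1765, .ofNat 2610, .negSucc 2072, .negSucc 163⟩, ⟨.negSucc 5837, .negSucc 2, .ofNat 971, .ofNat 1764, .negSucc 1371, .negSucc 116⟩, ⟨.ofNat 5824, .ofNat 3, .ofNat 748, .negSucc 2466, .ofNat 1603, .ofNat 289⟩, ⟨.negSucc 19329, .negSucc 9, .ofNat 1494, .ofNat 1546, .negSucc 5513, .ofNat 273⟩, ⟨.ofNat 10385, .ofNat 7, .ofNat 207, .ofNat 3242, .ofNat 3899, .negSucc 763⟩, .ofNat 4205, .negSucc 5963, .ofNat 0, .negSucc 5963, .ofNat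 9229, .ofNat 0, .ofNat 128, .ofNat 2964, .negSucc 4954, .ofNat 0, .ofNat 1977, .negSucc 3129, .ofNat 0, .ofNat 0, .ofNat 4001, .ofNat 1247, .ofNat 0, .ofNat 0, .ofNat 0, .ofNat 0, .ofNat 0, .ofNat 0, .ofNat 3404199429484425696198077797323191196829351936, .ofNat 0, .ofNat 0, .ofNat 0, .ofNat 20018142026295977095962092001084614545059610624, .ofNat 0, .ofNat 0, .ofNat 0, .ofNat 13610510859687595270454563500193254920387821568, .ofNat 0⟩)
    (by decide +kernel)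
theorem L06368 : Good (Phi V5.P V5.D 1 1) ⟨6, 56, 4, 10, 3, 7, 3, 6, 5, 3⟩ :=
  leafX_sound T5.ok_pp T5.Ypp.bz_eq (w := 250) (c := ⟨⟨.negSucc 8463, .ofNat 239, .negSucc 726, .ofNat 2071, .negSucc 1578, .ofNat 844⟩, ⟨.negSucc 5446, .ofNat 396, .negSucc 1177, .ofNat 1382, .negSucc 1012, .ofNat 526⟩, ⟨.ofNat 5586, .ofNat 246, .negSucc 27, .negSucc 2036, .ofNat 1194, .negSucc 349⟩, ⟨.negSucc 16971, .negSucc 346, .negSucc 1568, .ofNat 15, .negSucc 3723, .ofNat 2873⟩, ⟨.ofNat 7768, .ofNat 1129, .ofNat 321, .ofNat 4478, .ofNat 2287, .negSucc 2598⟩, .ofNat 3685, .negSucc 5232, .ofNat 0, .negSucc 5232, .ofNat 8219, .ofNat 0, .ofNat 128, .ofNat 1491, .negSucc 1549, .ofNat 0, .ofNat 990, .negSucc 950, .ofNat 0, .ofNat 0, .ofNat 1660, .ofNat 1368, .ofNat 0, .ofNat 0, .ofNat 11878979464323441535160153374101753013731328, .ofNat 0, .ofNat 0, .ofNat 0, .ofNat 601680249163963274174036790521160770506457088,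 .ofNat 0, .ofNat 0, .ofNat 0, .ofNat 643398756609759079393110269908135091789365248, .ofNat 0, .ofNat 0, .ofNat 0, .ofNat 408833617446567394660185587852599117930823680, .ofNat 0⟩)
    (by decide +kernel)
theorem L06369 : Good (Phi V5.P V5.D 1 1) ⟨7, 114, 5, 20, 3, 7, 3, 6, 4, 1⟩ :=
  leafX_sound T5.ok_pp T5.Ypp.bz_eq (w := 263) (c := ⟨⟨.negSucc 9583, .ofNat 4, .ofNat 92, .ofNat 1934, .negSucc 1508, .ofNat 1755⟩, ⟨.negSucc 6224, .ofNat 3, .negSucc 12, .ofNat 1299, .negSucc 988, .ofNat 1141⟩, ⟨.ofNat 6212, .negSucc 2, .negSucc 13, .negSucc 2059, .ofNat 1252, .negSucc 690⟩, ⟨.negSucc 20445, .ofNat 10, .negSucc 9, .ofNat 1721, .negSucc 1726, .ofNat 1920⟩, ⟨.ofNat 10786, .negSucc 5, .ofNat 6, .ofNat 1482, .negSucc 570, .ofNat 774⟩, .ofNat 26813, .negSucc 40008, .ofNat 0, .negSucc 40008, .ofNat 60513, .ofNat 0, .ofNat 128, .ofNat 8807, .negSucc 10464, .ofNat 0, .ofNat 5857, .negSucc 6853, .ofNat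 0, .ofNat 0, .ofNat 10050, .ofNat 8746, .ofNat 0, .ofNat 0, .ofNat 6314388755686207495647503338710866463817728, .ofNat 0, .ofNat 0, .ofNat 0, .ofNat 89211187037037017939203176468107235244707414016, .ofNat 0, .ofNat 0, .ofNat 0, .ofNat 1832639946323684194735634954671423298719449088, .ofNat 0, .ofNat 0, .ofNat 0, .ofNat 10378482665401187309041959388325430770490408960, .ofNat 0⟩)
    (by decide +kernel)
theorem L06370 : Good (Phi V5.P V5.D 1 1) ⟨7, 114, 6, 42, 3, 7, 3, 6, 4, 1⟩ :=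
  leafX_sound T5.ok_pp T5.Ypp.bz_eq (w := 259) (c := ⟨⟨.negSucc 9297, .ofNat 224, .negSucc 231, .ofNat 1868, .negSucc 1622, .ofNat 1726⟩, ⟨.negSucc 6118, .ofNat 259, .negSucc 341, .ofNat 1283, .negSucc 1084, .ofNat 1122⟩, ⟨.ofNat 6158, .ofNat 442, .negSucc 161, .negSucc 1990, .ofNat 1248, .negSucc 777⟩, ⟨.negSucc 20202, .negSucc 224, .negSucc 610, .ofNat 722, .negSucc 4159, .ofNat 4409⟩, ⟨.ofNat 10783, .ofNat 364, .ofNat 561, .ofNat 2885, .ofNat 2821, .negSucc 3016⟩, .ofNat 7188, .negSucc 10402, .ofNat 0, .negSucc 10402, .ofNat 15836, .ofNat 0, .ofNat 128, .ofNat 2421, .negSucc 3867, .ofNat 0, .ofNat 1621, .negSucc 2503, .ofNat 0, .ofNat 0, .ofNat 3697, .ofNat 1121, .ofNat 0, .ofNat 0, .ofNat 1362294499978949816326852043859646329389056, .ofNat 0, .ofNat 0, .ofNat 0, .ofNat 250257100569913813115049506097059883613421568, .ofNat 0, .ofNat 0, .ofNat 0, .ofNat 277932084275036710397670729910405723395719168,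 .ofNat 0, .ofNat 0, .ofNat 0, .ofNat 0, .ofNat 0⟩)
    (by decide +kernel)
theorem L06371 : Good (Phi V5.P V5.D 1 1) ⟨8, 228, 6, 43, 3, 7, 3, 6, 4, 1⟩ :=
  out_sound (S := T5.ds_pp) T5.ok_pp (w := 81) (j := 3) (by decide +kernel)
theorem L06372 : Good (Phi V5.P V5.D 1 1) ⟨8, 229, 6, 43, 3, 7, 3, 6, 4, 1⟩ :=
  out_sound (S := T5.ds_pp) T5.ok_pp (w := 23) (j := 4) (by decide +kernel)
theorem L06373 : Good (Phi V5.P V5.D 1 1) ⟨7, 115, 4, 10, 3, 7, 3, 6, 4, 1⟩ :=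
  out_sound (S := T5.ds_pp) T5.ok_pp (w := 21) (j := 4) (by decide +kernel)
theorem L06374 : Good (Phi V5.P V5.D 1 1) ⟨6, 56, 4, 11, 3, 7, 3, 6, 4, 1⟩ :=
  out_sound (S := T5.ds_pp) T5.ok_pp (w := 65) (j := 3) (by decide +kernel)
theorem L06375 : Good (Phi V5.P V5.D 1 1) ⟨7, 114, 5, 22, 3, 7, 3, 6, 4, 1⟩ :=
  out_sound (S := T5.ds_pp) T5.ok_pp (w := 73) (j := 3) (by decide +kernel)
theorem L06376 : Good (Phi V5.P V5.D 1 1) ⟨7, 115, 5, 22, 3, 7, 3, 6, 4, 1⟩ :=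
  out_sound (S := T5.ds_pp) T5.ok_pp (w := 21) (j := 4) (by decide +kernel)
theorem L06377 : Good (Phi V5.P V5.D 1 1) ⟨6, 57, 5, 23, 3, 7, 3, 6, 4, 1⟩ :=
  out_sound (S := T5.ds_pp) T5.ok_pp (w := 67) (j := 3) (by decide +kernel)
theorem L06378 : Good (Phi V5.P V5.D 1 1) ⟨5, 29, 3, 5, 3, 7, 3, 6, 4, 1⟩ :=
  out_sound (S := T5.ds_pp) T5.ok_pp (w := 17) (j := 4) (by decide +kernel)
theorem L06379 : Good (Phi V5.P V5.D 1 1) ⟨4, 15, 3, 5, 3, 7, 3, 6, 4, 1⟩ :=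
  out_sound (S := T5.ds_pp) T5.ok_pp (w := 51) (j := 3) (by decide +kernel)
theorem L06380 : Good (Phi V5.P V5.D 1 1) ⟨2, 2, 3, 5, 4, 14, 4, 14, 4, 0⟩ :=
  out_sound (S := T5.ds_pp) T5.ok_pp (w := 39) (j := 3) (by decide +kernel)
theorem L06381 : Good (Phi V5.P V5.D 1 1) ⟨3, 6, 3, 5, 4, 14, 4, 14, 4, 0⟩ :=
  out_sound (S := T5.ds_pp) T5.ok_pp (w := 45) (j := 3) (by decide +kernel)
theorem L06382 : Good (Phi V5.P V5.D 1 1) ⟨5, 28, 5, 20, 4, 14, 4, 14, 5, 0⟩ :=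
  leafX_sound T5.ok_pp T5.Ypp.bz_eq (w := 268) (c := ⟨⟨.negSucc 5002, .negSucc 282, .ofNat 426, .negSucc 1503, .negSucc 468, .negSucc 2115⟩, ⟨.negSucc 3143, .ofNat 349, .negSucc 126, .negSucc 975, .negSucc 291, .negSucc 1384⟩, ⟨.ofNat 3599, .ofNat 1174, .negSucc 561, .ofNat 327, .ofNat 793, .ofNat 1355⟩, ⟨.negSucc 12874, .negSucc 620, .ofNat 216, .negSucc 5220, .negSucc 1957, .negSucc 4294⟩, ⟨.ofNat 9052, .ofNat 450, .ofNat 268, .ofNat 4727, .ofNat 1990, .ofNat 1988⟩, .ofNat 3968, .negSucc 5600, .ofNat 0, .negSucc 5600, .ofNat 8683, .ofNat 0, .ofNat 128, .ofNat 584, .negSucc 3795, .ofNat 0, .ofNat 394, .negSucc 2379, .ofNat 0, .ofNat 0, .ofNat 2620, .ofNat 228, .ofNat 0, .ofNat 0, .ofNat 6993747773233983278767377794690554160241231003648, .ofNat 0, .ofNat 0, .ofNat 0, .ofNat 444948605291488062176306761407096336437790791172096, .ofNat 0, .ofNat 0, .ofNat 0, .ofNat 59935623735848398862740059086710733769679338209280,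 .ofNat 131257550015010440393588678587835774355657971755598389182464, .ofNat 0, .ofNat 0, .ofNat 413095235857762266533023498518759448638140224372736, .ofNat 0⟩)
    (by decide +kernel)

end Crest.Agent.R097C5.N5pp
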