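import Crest.Agent.R097.KP7
import Crest.Agent.R097.T5Ypp

/-!
# Row 97, box cover in dimension n = 5 (generated)
-/

set_option autoImplicit false
set_option Elab.async false
set_option maxHeartbeats 0
set_option maxRecDepth 100000

open Crest.Agent.R097 Crest.Agent.R097.KA


namespace Crest.Agent.R097C5.N5pp

theorem L06383 : Good (Phi V5.P V5.D 1 1) ⟨6, 56, 5, 21, 4, 14, 4, 14, 5, 0⟩ :=
  leafX_sound T5.ok_pp T5.Ypp.bz_eq (w := 281) (c := ⟨⟨.negSucc 4005, .negSucc 2, .ofNat 39, .negSucc 2025, .negSucc 143, .negSucc 2771⟩, ⟨.negSucc 2620, .negSucc 1, .negSucc 428, .negSucc 1316, .negSucc 84, .negSucc 1822⟩, ⟨.ofNat 3153, .ofNat 2, .negSucc 2, .ofNat 670, .ofNat 585, .ofNat 1798⟩, ⟨.negSucc 14367, .negSucc 8, .negSucc 58, .negSucc 3800, .negSucc 664, .negSucc 3910⟩, ⟨.ofNat 13172, .ofNat 7, .negSucc 9, .ofNat 1462, .ofNat 709, .ofNat 39⟩, .ofNat 14587, .negSucc 21594, .ofNat 0, .negSucc 21594, .ofNat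 32777, .ofNat 0, .ofNat 128, .ofNat 3511, .negSucc 16674, .ofNat 0, .ofNat 2340, .negSucc 10908, .ofNat 0, .ofNat 0, .ofNat 11535, .ofNat 2003, .ofNat 0, .ofNat 0, .ofNat 0, .ofNat 0, .ofNat 0, .ofNat 0, .ofNat 5219787210174369772869290147715188831876851502678016, .ofNat 0, .ofNat 0, .ofNat 0, .ofNat 353398608586595706585666939593057123232737898004480, .ofNat 0, .ofNat 0, .ofNat 0, .ofNat 20137484021390318419897725457647806100594935753342976, .ofNat 0⟩)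
    (by decide +kernel)
theorem L06384 : Good (Phi V5.P V5.D 1 1) ⟨6, 57, 5, 21, 4, 14, 4, 14, 5, 0⟩ :=
  leafX_sound T5.ok_pp T5.Ypp.bz_eq (w := 277) (c := ⟨⟨.negSucc 4066, .ofNat 220, .ofNat 940, .negSucc 2104, .ofNat 47, .negSucc 2965⟩, ⟨.negSucc 2638, .ofNat 382, .ofNat 257, .negSucc 1392, .ofNat 39, .negSucc 1967⟩, ⟨.ofNat 3200, .negSucc 280, .negSucc 488, .ofNat 706, .ofNat 446, .ofNat 1925⟩, ⟨.negSucc 12633, .ofNat 369, .ofNat 759, .negSucc 5607, .negSucc 796, .negSucc 4986⟩, ⟨.ofNat 10460, .ofNat 190, .ofNat 401, .ofNat 3982, .ofNat 1305, .ofNat 1246⟩, .ofNat 7231, .negSucc 10464, .ofNat 0, .negSucc 10464, .ofNat 15924, .ofNat 0, .ofNat 128, .ofNat 1370, .negSucc 8880, .ofNat 0, .ofNat 920, .negSucc 5782, .ofNat 0, .ofNat 0, .ofNat 6103, .ofNat 383, .ofNat 0, .ofNat 0, .ofNat 4961254574762883666195192428580804440101381734400, .ofNat 0, .ofNat 0, .ofNat 0, .ofNat 186156362957359980684950841105959536966370999664640,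 .ofNat 14081561153703926811712052393245790717305643419113745855545344, .ofNat 0, .ofNat 0, .ofNat 257157055259468466074816098990095726227826644353024, .ofNat 13253858808045079255531192428797032639575441759223578613514240, .ofNat 0, .ofNat 0, .ofNat 6439673315452972681071077619291446694141337890979840, .ofNat 215120815855940718920926707016511881575710032160361601361248256⟩)
    (by decide +kernel)
theorem L06385 : Good (Phi V5.P V5.D 1 1) ⟨6, 56, 4, 11, 4, 14, 4, 14, 5, 0⟩ :=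
  out_sound (S := T5.ds_pp) T5.ok_pp (w := 65) (j := 3) (by decide +kernel)
theorem L06386 : Good (Phi V5.P V5.D 1 1) ⟨7, 114, 5, 22, 4, 14, 4, 14, 5, 0⟩ :=
  out_sound (S := T5.ds_pp) T5.ok_pp (w := 73) (j := 3) (by decide +kernel)
theorem L06387 : Good (Phi V5.P V5.D 1 1) ⟨7, 115, 5, 22, 4, 14, 4, 14, 5, 0⟩ :=
  out_sound (S := T5.ds_pp) T5.ok_pp (w := 21) (j := 4) (by decide +kernel)
theorem L06388 : Good (Phi V5.P V5.D 1 1) ⟨6, 57, 5, 23, 4, 14, 4, 14, 5, 0⟩ :=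
  out_sound (S := T5.ds_pp) T5.ok_pp (w := 67) (j := 3) (by decide +kernel)
theorem L06389 : Good (Phi V5.P V5.D 1 1) ⟨5, 29, 3, 5, 4, 14, 4, 14, 5, 0⟩ :=
  out_sound (S := T5.ds_pp) T5.ok_pp (w := 17) (j := 4) (by decide +kernel)
theorem L06390 : Good (Phi V5.P V5.D 1 1) ⟨6, 56, 4, 10, 4, 14, 4, 14, 5, 1⟩ :=
  leafX_sound T5.ok_pp T5.Ypp.bz_eq (w := 271) (c := ⟨⟨.negSucc 7295, .negSucc 796, .ofNat 1368, .negSucc 897, .negSucc 1488, .negSucc 2430⟩, ⟨.negSucc 4578, .negSucc 311, .ofNat 13, .negSucc 569, .negSucc 941, .negSucc 1593⟩, ⟨.ofNat 5101, .ofNat 1030, .negSucc 1447, .negSucc 103, .ofNat 1450, .ofNat 1664⟩, ⟨.negSucc 17122, .negSucc 1092, .ofNat 954, .negSucc 4092, .negSucc 4177, .negSucc 5019⟩, ⟨.ofNat 10456, .ofNat 301, .ofNat 538, .ofNat 4327, .ofNat 3180, .ofNat 2413⟩, .ofNat 5340, .negSucc 7754, .ofNat 0, .negSucc 7754, .ofNat 12066, .ofNat 0, .ofNat 128, .ofNat 712, .negSucc 4747, .ofNat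 0, .ofNat 472, .negSucc 2996, .ofNat 0, .ofNat 0, .ofNat 3496, .ofNat 189, .ofNat 0, .ofNat 0, .ofNat 1677773328657226596318423104230136081773672529920, .ofNat 0, .ofNat 0, .ofNat 0, .ofNat 230521052270175027548560246342656110181271824498688, .ofNat 0, .ofNat 0, .ofNat 0, .ofNat 59909531986552840716932543759012437514011839299584, .ofNat 0, .ofNat 0, .ofNat 0, .ofNat 739075728938269469905298122701053085628422372196352, .ofNat 0⟩)
    (by decide +kernel)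
theorem L06391 : Good (Phi V5.P V5.D 1 1) ⟨6, 57, 4, 10, 4, 14, 4, 14, 5, 1⟩ :=
  leafX_sound T5.ok_pp T5.Ypp.bz_eq (w := 270) (c := ⟨⟨.negSucc 7407, .ofNat 82, .ofNat 757, .negSucc 1379, .negSucc 1281, .negSucc 2876⟩, ⟨.negSucc 4452, .ofNat 168, .negSucc 270, .negSucc 908, .negSucc 840, .negSucc 1915⟩, ⟨.ofNat 5238, .negSucc 266, .negSucc 171, .ofNat 184, .ofNat 1317, .ofNat 1982⟩, ⟨.negSucc 17754, .ofNat 544, .ofNat 537, .negSucc 4710, .negSucc 3914, .negSucc 5494⟩, ⟨.ofNat 11627, .negSucc 234, .negSucc 256, .ofNat 4173, .ofNat 3187, .ofNat 2199⟩, .ofNat 6386, .negSucc 9046, .ofNat 0, .negSucc 9046, .ofNat 13574, .ofNat 0, .ofNat 128, .ofNat 685, .negSucc 3255, .ofNat 0, .ofNat 470, .negSucc 2088, .ofNat 0, .ofNat 0, .ofNat 2411, .ofNat 253, .ofNat 0, .ofNat 0, .ofNat 3189603823219974320418377885561252655482647085056, .ofNat 0, .ofNat 0, .ofNat 0, .ofNat 235007535702707749393390589451964370723793050533888,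 .ofNat 372714826014389937934134759461569269692966884859794499305472, .ofNat 0, .ofNat 0, .ofNat 45570075108126463135608043055493526327922719195136, .ofNat 0, .ofNat 0, .ofNat 0, .ofNat 91290411924083713951926499745609136486828621168640, .ofNat 0⟩)
    (by decide +kernel)
theorem L06392 : Good (Phi V5.P V5.D 1 1) ⟨6, 56, 4, 11, 4, 14, 4, 14, 5, 1⟩ :=
  out_sound (S := T5.ds_pp) T5.ok_pp (w := 65) (j := 3) (by decide +kernel)
theorem L06393 : Good (Phi V5.P V5.D 1 1) ⟨7, 114, 5, 22, 4, 14, 4, 14, 5, 1⟩ :=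
  out_sound (S := T5.ds_pp) T5.ok_pp (w := 73) (j := 3) (by decide +kernel)
theorem L06394 : Good (Phi V5.P V5.D 1 1) ⟨7, 115, 5, 22, 4, 14, 4, 14, 5, 1⟩ :=
  out_sound (S := T5.ds_pp) T5.ok_pp (w := 21) (j := 4) (by decide +kernel)
theorem L06395 : Good (Phi V5.P V5.D 1 1) ⟨6, 57, 5, 23, 4, 14, 4, 14, 5, 1⟩ :=
  out_sound (S := T5.ds_pp) T5.ok_pp (w := 67) (j := 3) (by decide +kernel)
theorem L06396 : Good (Phi V5.P V5.D 1 1) ⟨5, 29, 3, 5, 4, 14, 4, 14, 5, 1⟩ :=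
  out_sound (S := T5.ds_pp) T5.ok_pp (w := 17) (j := 4) (by decide +kernel)
theorem L06397 : Good (Phi V5.P V5.D 1 1) ⟨4, 15, 3, 5, 4, 14, 4, 14, 4, 0⟩ :=
  out_sound (S := T5.ds_pp) T5.ok_pp (w := 51) (j := 3) (by decide +kernel)
theorem L06398 : Good (Phi V5.P V5.D 1 1) ⟨2, 2, 6, 40, 4, 14, 4, 15, 4, 0⟩ :=
  out_sound (S := T5.ds_pp) T5.ok_pp (w := 45) (j := 3) (by decide +kernel)
theorem L06399 : Good (Phi V5.P V5.D 1 1) ⟨3, 6, 6, 40, 4, 14, 4, 15, 4, 0⟩ :=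
  out_sound (S := T5.ds_pp) T5.ok_pp (w := 51) (j := 3) (by decide +kernel)
theorem L06400 : Good (Phi V5.P V5.D 1 1) ⟨7, 112, 6, 40, 4, 14, 4, 15, 4, 0⟩ :=
  leafX_sound T5.ok_pp T5.Ypp.bz_eq (w := 278) (c := ⟨⟨.negSucc 1715, .negSucc 1938, .negSucc 70, .negSucc 1516, .negSucc 3842, .negSucc 7426⟩, ⟨.negSucc 1122, .negSucc 1059, .negSucc 318, .negSucc 941, .negSucc 2395, .negSucc 4721⟩, ⟨.ofNat 1728, .ofNat 1842, .negSucc 126, .ofNat 246, .ofNat 3047, .ofNat 4860⟩, ⟨.negSucc 9892, .negSucc 2549, .negSucc 492, .negSucc 5606, .negSucc 7605, .negSucc 13715⟩, ⟨.ofNat 11629, .negSucc 274, .ofNat 428, .ofNat 5332, .ofNat 3381, .ofNat 4906⟩, .ofNat 7707, .negSucc 11597, .ofNat 0, .negSucc 11597, .ofNat 18308, .ofNat 0, .ofNat 128, .ofNat 1157, .negSucc 6857, .ofNat 0, .ofNat 750, .negSucc 4311, .ofNat 0, .ofNat 0, .ofNat 4839, .ofNat 509, .ofNat 0, .ofNat 0, .ofNat 0, .ofNat 0, .ofNat 0, .ofNat 375860156210742984859712952388550736218069504175361753088,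 .ofNat 18919526615753371853453805398682236887774015782912, .ofNat 0, .ofNat 0, .ofNat 0, .ofNat 661512841776511944822427161870764697510811271168, .ofNat 0, .ofNat 0, .ofNat 5271496453700336006736841023030877305996946189339871674368, .ofNat 89247043733398863903417828814414232088371965984768, .ofNat 0⟩)
    (by decide +kernel)
theorem L06401 : Good (Phi V5.P V5.D 1 1) ⟨7, 113, 6, 40, 4, 14, 4, 15, 4, 0⟩ :=
  leafX_sound T5.ok_pp T5.Ypp.bz_eq (w := 277) (c := ⟨⟨.negSucc 3124, .negSucc 3331, .ofNat 1790, .negSucc 2747, .negSucc 2444, .negSucc 8493⟩, ⟨.negSucc 1800, .negSucc 1915, .ofNat 851, .negSucc 1744, .negSucc 1530, .negSucc 5436⟩, ⟨.ofNat 3223, .ofNat 2382, .negSucc 1320, .ofNat 898, .ofNat 2208, .ofNat 5625⟩, ⟨.negSucc 10482, .negSucc 4709, .ofNat 1492, .negSucc 7339, .negSucc 6855, .negSucc 16231⟩, ⟨.ofNat 9520, .ofNat 502, .ofNat 1119, .ofNat 5328, .ofNat 5252, .ofNat 6505⟩, .ofNat 6259, .negSucc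 9143, .ofNat 0, .negSucc 9143, .ofNat 14174, .ofNat 0, .ofNat 128, .ofNat 974, .negSucc 6442, .ofNat 0, .ofNat 650, .negSucc 4044, .ofNat 0, .ofNat 0, .ofNat 4563, .ofNat 493, .ofNat 0, .ofNat 0, .ofNat 420059741659085917199992477790740361274856570880, .ofNat 0, .ofNat 0, .ofNat 0, .ofNat 28491894390110400075208948947314246528205190070272, .ofNat 0, .ofNat 0, .ofNat 0, .ofNat 1492822366115558800199119894224628732616996028416, .ofNat 0, .ofNat 0, .ofNat 0, .ofNat 51127190126314728983247660259800582222682852950016, .ofNat 0⟩)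
    (by decide +kernel)
theorem L06402 : Good (Phi V5.P V5.D 1 1) ⟨6, 57, 6, 40, 4, 14, 4, 15, 4, 0⟩ :=
  out_sound (S := T5.ds_pp) T5.ok_pp (w := 69) (j := 3) (by decide +kernel)
theorem L06403 : Good (Phi V5.P V5.D 1 1) ⟨5, 29, 6, 40, 4, 14, 4, 15, 4, 0⟩ :=
  out_sound (S := T5.ds_pp) T5.ok_pp (w := 63) (j := 3) (by decide +kernel)
theorem L06404 : Good (Phi V5.P V5.D 1 1) ⟨4, 15, 6, 40, 4, 14, 4, 15, 4, 0⟩ :=
  out_sound (S := T5.ds_pp) T5.ok_pp (w := 57) (j := 3) (by decide +kernel)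
theorem L06405 : Good (Phi V5.P V5.D 1 1) ⟨2, 2, 6, 41, 4, 14, 4, 15, 4, 0⟩ :=
  out_sound (S := T5.ds_pp) T5.ok_pp (w := 45) (j := 3) (by decide +kernel)
theorem L06406 : Good (Phi V5.P V5.D 1 1) ⟨3, 6, 6, 41, 4, 14, 4, 15, 4, 0⟩ :=
  out_sound (S := T5.ds_pp) T5.ok_pp (w := 51) (j := 3) (by decide +kernel)
theorem L06407 : Good (Phi V5.P V5.D 1 1) ⟨6, 56, 6, 41, 4, 14, 4, 15, 4, 0⟩ :=
  leafX_sound T5.ok_pp T5.Ypp.bz_eq (w := 275) (c := ⟨⟨.negSucc 2585, .negSucc 420, .ofNat 441, .negSucc 2744, .negSucc 2721, .negSucc 7864⟩, ⟨.negSucc 1962, .ofNat 298, .negSucc 38, .negSucc 1789, .negSucc 1743, .negSucc 5128⟩, ⟨.ofNat 2247, .ofNat 1089, .negSucc 542, .ofNat 927, .ofNat 2351, .ofNat 5255⟩, ⟨.negSucc 10526, .negSucc 248, .ofNat 574, .negSucc 7975, .negSucc 6704, .negSucc 15431⟩, ⟨.ofNat 10294, .negSucc 151, .negSucc 208, .ofNat 6231, .ofNat 4402, .ofNat 6632⟩, .ofNat 8433, .negSucc 12407, .ofNat 0,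 .negSucc 12407, .ofNat 19067, .ofNat 0, .ofNat 128, .ofNat 1127, .negSucc 7035, .ofNat 0, .ofNat 750, .negSucc 4519, .ofNat 0, .ofNat 0, .ofNat 4984, .ofNat 415, .ofNat 0, .ofNat 0, .ofNat 2903149148616942923904495884536062121472665059328, .ofNat 0, .ofNat 0, .ofNat 4949333108919549644589431026779230794771511471872409600, .ofNat 38819381922915501191238556555110548742696905736192, .ofNat 0, .ofNat 0, .ofNat 0, .ofNat 11490649055003014539047553670693647332931450961920, .ofNat 0, .ofNat 0, .ofNat 0, .ofNat 26903932959164994721114789566266666626233795608576, .ofNat 0⟩)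
    (by decide +kernel)
theorem L06408 : Good (Phi V5.P V5.D 1 1) ⟨6, 57, 6, 41, 4, 14, 4, 15, 4, 0⟩ :=
  leafX_sound T5.ok_pp T5.Ypp.bz_eq (w := 283) (c := ⟨⟨.negSucc 2274, .ofNat 5, .ofNat 233, .negSucc 2775, .negSucc 2984, .negSucc 8488⟩, ⟨.negSucc 1223, .ofNat 3, .negSucc 95, .negSucc 1814, .negSucc 1946, .negSucc 5583⟩, ⟨.ofNat 2399, .negSucc 2, .ofNat 71, .ofNat 981, .ofNat 2513, .ofNat 5635⟩, ⟨.negSucc 19884, .ofNat 14, .negSucc 6, .negSucc 3404, .negSucc 3137, .negSucc 9158⟩, ⟨.ofNat 25574, .negSucc 10, .ofNat 13, .negSucc 755, .negSucc 1514, .negSucc 4063⟩, .ofNat 26833, .negSucc 40039, .ofNat 0, .negSucc 40039, .ofNat 60559, .ofNat 0, .ofNat 128, .ofNat 6136, .negSucc 37778, .ofNat 0, .ofNat 4091, .negSucc 24783, .ofNat 0, .ofNat 0, .ofNat 26981, .ofNat 6628, .ofNat 0, .ofNat 33421199035792437736115954943354228227647043439838625792, .ofNat 4910973092649716414156772082639903288511239815168,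 .ofNat 0, .ofNat 0, .ofNat 0, .ofNat 101808955118389950582746895416261041301257591778705408, .ofNat 0, .ofNat 0, .ofNat 858451849546279231989024274851151602779712911701958459392, .ofNat 39117871229657431487886824023678372501980184408227840, .ofNat 0, .ofNat 0, .ofNat 19076627939850211374724002070216263780225219006575407005696, .ofNat 438540856971583173988341799179937847853264103446413312, .ofNat 0⟩)
    (by decide +kernel)
theorem L06409 : Good (Phi V5.P V5.D 1 1) ⟨5, 29, 6, 41, 4, 14, 4, 15, 4, 0⟩ :=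
  out_sound (S := T5.ds_pp) T5.ok_pp (w := 63) (j := 3) (by decide +kernel)
theorem L06410 : Good (Phi V5.P V5.D 1 1) ⟨4, 15, 6, 41, 4, 14, 4, 15, 4, 0⟩ :=
  out_sound (S := T5.ds_pp) T5.ok_pp (w := 57) (j := 3) (by decide +kernel)
theorem L06411 : Good (Phi V5.P V5.D 1 1) ⟨2, 2, 5, 21, 4, 14, 4, 15, 4, 0⟩ :=
  out_sound (S := T5.ds_pp) T5.ok_pp (w := 43) (j := 3) (by decide +kernel)
theorem L06412 : Good (Phi V5.P V5.D 1 1) ⟨3, 6, 5, 21, 4, 14, 4, 15, 4, 0⟩ :=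
  out_sound (S := T5.ds_pp) T5.ok_pp (w := 49) (j := 3) (by decide +kernel)
theorem L06413 : Good (Phi V5.P V5.D 1 1) ⟨6, 56, 6, 42, 4, 14, 4, 15, 5, 0⟩ :=
  leafX_sound T5.ok_pp T5.Ypp.bz_eq (w := 286) (c := ⟨⟨.negSucc 1897, .negSucc 2, .ofNat 389, .negSucc 3355, .negSucc 167, .negSucc 5053⟩, ⟨.negSucc 1222, .negSucc 1, .ofNat 53, .negSucc 2198, .negSucc 98, .negSucc 3323⟩, ⟨.ofNat 2368, .ofNat 2, .negSucc 1160, .ofNat 1452, .ofNat 757, .ofNat 3241⟩, ⟨.negSucc 14343, .negSucc 9, .ofNat 198, .negSucc 4575, .negSucc 99, .negSucc 6338⟩, ⟨.ofNat 17599, .ofNat 8, .ofNat 68, .negSucc 184, .negSucc 179, .negSucc 1115⟩, .ofNat 23202, .negSucc 34570, .ofNat 0, .negSucc 34570, .ofNat 52322, .ofNat 0, .ofNat 128, .ofNat 3656, .negSucc 26880, .ofNat 0, .ofNat 2438, .negSucc 17644, .ofNat 0, .ofNat 0, .ofNat 18669, .ofNat 354, .ofNat 0, .ofNat 0, .ofNat 45254408514501039667278509458345586125576867938304, .ofNat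 0, .ofNat 0, .ofNat 0, .ofNat 49478707499579455156595839445327451676264078937948160, .ofNat 0, .ofNat 0, .ofNat 0, .ofNat 9948206437195818184919142774575175379841445856804864, .ofNat 0, .ofNat 0, .ofNat 0, .ofNat 0, .ofNat 0⟩)
    (by decide +kernel)
theorem L06414 : Good (Phi V5.P V5.D 1 1) ⟨6, 56, 6, 43, 4, 14, 4, 15, 5, 0⟩ :=
  out_sound (S := T5.ds_pp) T5.ok_pp (w := 69) (j := 3) (by decide +kernel)
theorem L06415 : Good (Phi V5.P V5.D 1 1) ⟨7, 114, 6, 42, 4, 14, 4, 15, 5, 0⟩ :=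
  leafX_sound T5.ok_pp T5.Ypp.bz_eq (w := 285) (c := ⟨⟨.negSucc 1949, .ofNat 145, .ofNat 1099, .negSucc 3683, .negSucc 723, .negSucc 5221⟩, ⟨.negSucc 1229, .ofNat 450, .ofNat 395, .negSucc 2427, .negSucc 455, .negSucc 3461⟩, ⟨.ofNat 2392, .ofNat 393, .negSucc 949, .ofNat 1635, .ofNat 1098, .ofNat 3344⟩, ⟨.negSucc 11050, .ofNat 509, .ofNat 1483, .negSucc 7412, .negSucc 1965, .negSucc 9791⟩, ⟨.ofNat 12538, .negSucc 169, .negSucc 255, .ofNat 3395, .ofNat 1450, .ofNat 3711⟩, .ofNat 12201, .negSucc 17812, .ofNat 0, .negSucc 17812, .ofNat 26788, .ofNat 0, .ofNat 128, .ofNat 1182, .negSucc 8457, .ofNat 0, .ofNat 799, .negSucc 5564, .ofNat 0, .ofNat 0, .ofNat 5862, .ofNat 1048, .ofNat 0, .ofNat 0, .ofNat 0, .ofNat 0, .ofNat 0, .ofNat 0, .ofNat 2236079230902385861404291835664593146371321366577152, .ofNat 0, .ofNat 0, .ofNat 0, .ofNat 449785232808432657964554157304456976939964163948544, .ofNat 0, .ofNat 0,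 .ofNat 80591759278393400715667914310487160403080764846052764286976, .ofNat 2327347592803871109832443717982315699779200469696512, .ofNat 1340747123389095088975518838263866174408735197561064794475200512⟩)
    (by decide +kernel)
theorem L06416 : Good (Phi V5.P V5.D 1 1) ⟨8, 228, 6, 43, 4, 14, 4, 15, 5, 0⟩ :=
  out_sound (S := T5.ds_pp) T5.ok_pp (w := 81) (j := 3) (by decide +kernel)
theorem L06417 : Good (Phi V5.P V5.D 1 1) ⟨8, 229, 6, 43, 4, 14, 4, 15, 5, 0⟩ :=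
  out_sound (S := T5.ds_pp) T5.ok_pp (w := 23) (j := 4) (by decide +kernel)
theorem L06418 : Good (Phi V5.P V5.D 1 1) ⟨7, 115, 5, 21, 4, 14, 4, 15, 5, 0⟩ :=
  out_sound (S := T5.ds_pp) T5.ok_pp (w := 21) (j := 4) (by decide +kernel)
theorem L06419 : Good (Phi V5.P V5.D 1 1) ⟨6, 56, 6, 42, 4, 14, 4, 15, 5, 1⟩ :=
  leafX_sound T5.ok_pp T5.Ypp.bz_eq (w := 284) (c := ⟨⟨.negSucc 6912, .negSucc 5, .negSucc 982, .negSucc 2484, .negSucc 3846, .negSucc 3227⟩, ⟨.negSucc 4532, .negSucc 3, .negSucc 1061, .negSucc 1623, .negSucc 2501, .negSucc 2120⟩, ⟨.ofNat 5638, .ofNat 4, .ofNat 284, .ofNat 723, .ofNat 3190, .ofNat 2215⟩, ⟨.negSucc 22237, .negSucc 15, .negSucc 820, .negSucc 5912, .negSucc 7007, .negSucc 4819⟩, ⟨.ofNat 18849, .ofNat 11, .negSucc 230, .ofNat 3659, .ofNat 2453, .ofNat 467⟩, .ofNat 14628, .negSucc 21656, .ofNat 0, .negSucc 21656, .ofNat 32871, .ofNat 0, .ofNat 128, .ofNat 3767, .negSucc 20297,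 .ofNat 0, .ofNat 2515, .negSucc 13263, .ofNat 0, .ofNat 0, .ofNat 14793, .ofNat 909, .ofNat 0, .ofNat 0, .ofNat 0, .ofNat 0, .ofNat 0, .ofNat 0, .ofNat 23573994601254356285477770606561949303120887906566144, .ofNat 0, .ofNat 0, .ofNat 0, .ofNat 0, .ofNat 0, .ofNat 0, .ofNat 0, .ofNat 0, .ofNat 0⟩)
    (by decide +kernel)
theorem L06420 : Good (Phi V5.P V5.D 1 1) ⟨6, 56, 6, 43, 4, 14, 4, 15, 5, 1⟩ :=
  out_sound (S := T5.ds_pp) T5.ok_pp (w := 69) (j := 3) (by decide +kernel)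
theorem L06421 : Good (Phi V5.P V5.D 1 1) ⟨7, 114, 5, 21, 4, 14, 4, 15, 5, 1⟩ :=
  leafX_sound T5.ok_pp T5.Ypp.bz_eq (w := 280) (c := ⟨⟨.negSucc 7601, .ofNat 663, .ofNat 375, .negSucc 2264, .negSucc 3405, .negSucc 3138⟩, ⟨.negSucc 4912, .ofNat 529, .negSucc 283, .negSucc 1523, .negSucc 2255, .negSucc 2102⟩, ⟨.ofNat 6091, .negSucc 254, .negSucc 431, .ofNat 551, .ofNat 2892, .ofNat 2188⟩, ⟨.negSucc 18796, .ofNat 233, .negSucc 43, .negSucc 7792, .negSucc 9279, .negSucc 6946⟩, ⟨.ofNat 12335, .ofNat 769, .ofNat 707, .ofNat 6885, .ofNat 6752, .ofNat 3797⟩, .ofNat 8455, .negSucc 12235, .ofNat 0, .negSucc 12235, .ofNat 18480, .ofNat 0, .ofNat 128, .ofNat 988, .negSucc 6645, .ofNat 0, .ofNat 667, .negSucc 4363, .ofNat 0, .ofNat 0, .ofNat 4829, .ofNat 432, .ofNat 0, .ofNat 0, .ofNat 10664674211954376147323538282753123299275086757888, .ofNat 0, .ofNat 0, .ofNat 453962001688560612238599127420453515201708328465083662336,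 .ofNat 646736435514638337587998244604265088029193693822976, .ofNat 0, .ofNat 0, .ofNat 0, .ofNat 73465490384356373120931139640570917323833509675008, .ofNat 21025230645255363789731746819012517138045394427086075789836288, .ofNat 0, .ofNat 4516664159258587738981091080817599875056532739691779194880, .ofNat 880910490688141808481283622919560644367121918197760, .ofNat 351965999835260570776425808138065444403522569089245863867318272⟩)
    (by decide +kernel)
theorem L06422 : Good (Phi V5.P V5.D 1 1) ⟨7, 115, 5, 21, 4, 14, 4, 15, 5, 1⟩ :=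
  out_sound (S := T5.ds_pp) T5.ok_pp (w := 21) (j := 4) (by decide +kernel)
theorem L06423 : Good (Phi V5.P V5.D 1 1) ⟨5, 29, 5, 21, 4, 14, 4, 15, 4, 0⟩ :=
  out_sound (S := T5.ds_pp) T5.ok_pp (w := 61) (j := 3) (by decide +kernel)
theorem L06424 : Good (Phi V5.P V5.D 1 1) ⟨4, 15, 5, 21, 4, 14, 4, 15, 4, 0⟩ :=
  out_sound (S := T5.ds_pp) T5.ok_pp (w := 55) (j := 3) (by decide +kernel)
theorem L06425 : Good (Phi V5.P V5.D 1 1) ⟨2, 2, 4, 11, 4, 14, 4, 15, 4, 0⟩ :=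
  out_sound (S := T5.ds_pp) T5.ok_pp (w := 41) (j := 3) (by decide +kernel)
theorem L06426 : Good (Phi V5.P V5.D 1 1) ⟨3, 6, 4, 11, 4, 14, 4, 15, 4, 0⟩ :=
  out_sound (S := T5.ds_pp) T5.ok_pp (w := 47) (j := 3) (by decide +kernel)
theorem L06427 : Good (Phi V5.P V5.D 1 1) ⟨6, 56, 4, 11, 4, 14, 4, 15, 4, 0⟩ :=
  out_sound (S := T5.ds_pp) T5.ok_pp (w := 65) (j := 3) (by decide +kernel)
theorem L06428 : Good (Phi V5.P V5.D 1 1) ⟨7, 114, 5, 22, 4, 14, 4, 15, 4, 0⟩ :=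
  out_sound (S := T5.ds_pp) T5.ok_pp (w := 73) (j := 3) (by decide +kernel)
theorem L06429 : Good (Phi V5.P V5.D 1 1) ⟨7, 115, 5, 22, 4, 14, 4, 15, 4, 0⟩ :=
  out_sound (S := T5.ds_pp) T5.ok_pp (w := 21) (j := 4) (by decide +kernel)
theorem L06430 : Good (Phi V5.P V5.D 1 1) ⟨6, 57, 5, 23, 4, 14, 4, 15, 4, 0⟩ :=
  out_sound (S := T5.ds_pp) T5.ok_pp (w := 67) (j := 3) (by decide +kernel)
theorem L06431 : Good (Phi V5.P V5.D 1 1) ⟨5, 29, 4, 11, 4, 14, 4, 15, 4, 0⟩ :=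
  out_sound (S := T5.ds_pp) T5.ok_pp (w := 17) (j := 4) (by decide +kernel)
theorem L06432 : Good (Phi V5.P V5.D 1 1) ⟨4, 15, 4, 11, 4, 14, 4, 15, 4, 0⟩ :=
  out_sound (S := T5.ds_pp) T5.ok_pp (w := 53) (j := 3) (by decide +kernel)
theorem L06433 : Good (Phi V5.P V5.D 1 1) ⟨2, 2, 5, 20, 4, 15, 4, 14, 4, 0⟩ :=
  out_sound (S := T5.ds_pp) T5.ok_pp (w := 43) (j := 3) (by decide +kernel)
theorem L06434 : Good (Phi V5.P V5.D 1 1) ⟨3, 6, 5, 20, 4, 15, 4, 14, 4, 0⟩ :=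
  out_sound (S := T5.ds_pp) T5.ok_pp (w := 49) (j := 3) (by decide +kernel)
theorem L06435 : Good (Phi V5.P V5.D 1 1) ⟨6, 56, 6, 40, 4, 15, 4, 14, 4, 0⟩ :=
  leafX_sound T5.ok_pp T5.Ypp.bz_eq (w := 272) (c := ⟨⟨.negSucc 5991, .negSucc 2567, .ofNat 285, .ofNat 2209, .negSucc 1627, .negSucc 3360⟩, ⟨.negSucc 3811, .negSucc 1380, .negSucc 14, .ofNat 1433, .negSucc 1005, .negSucc 2156⟩, ⟨.ofNat 4075, .ofNat 1445, .negSucc 174, .negSucc 2157, .ofNat 1201, .ofNat 2205⟩, ⟨.negSucc 18303, .negSucc 3952, .ofNat 443, .ofNat 4420, .negSucc 3156, .negSucc 7163⟩, ⟨.ofNat 15094, .ofNat 817, .negSucc 305, .negSucc 1966, .ofNat 1358, .ofNat 3696⟩, .ofNat 4816, .negSucc 7002, .ofNat 0, .negSucc 7002, .ofNat 11000, .ofNat 0, .ofNat 128, .ofNat 1334, .negSucc 5851, .ofNat 0, .ofNat 875, .negSucc 3628, .ofNat 0, .ofNat 0, .ofNat 3873, .ofNat 661, .ofNat 0, .ofNat 0, .ofNat 545465192821643112032826638165893517934524891136,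 .ofNat 0, .ofNat 0, .ofNat 0, .ofNat 22084814920497008407631856864521640397435222097920, .ofNat 0, .ofNat 0, .ofNat 0, .ofNat 26410370595258992251807663971095517611975480705024, .ofNat 0, .ofNat 0, .ofNat 0, .ofNat 0, .ofNat 0⟩)
    (by decide +kernel)
theorem L06436 : Good (Phi V5.P V5.D 1 1) ⟨6, 56, 6, 41, 4, 15, 4, 14, 4, 0⟩ :=
  leafX_sound T5.ok_pp T5.Ypp.bz_eq (w := 274) (c := ⟨⟨.negSucc 6129, .negSucc 373, .ofNat 48, .ofNat 1715, .negSucc 1536, .negSucc 4400⟩, ⟨.negSucc 4174, .ofNat 159, .negSucc 223, .ofNat 1130, .negSucc 980, .negSucc 2863⟩, ⟨.ofNat 3241, .ofNat 1305, .negSucc 348, .negSucc 1838, .ofNat 1194, .ofNat 2868⟩, ⟨.negSucc 18914, .negSucc 404, .negSucc 155, .ofNat 3040, .negSucc 2897, .negSucc 7845⟩, ⟨.ofNat 15552, .ofNat 32, .ofNat 114, .negSucc 936, .ofNat 1137, .ofNat 2518⟩, .ofNat 8456, .negSucc 12440, .ofNat 0, .negSucc 12440, .ofNat 19112, .ofNat 0, .ofNat 128, .ofNat 1380,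 .negSucc 5711, .ofNat 0, .ofNat 914, .negSucc 3661, .ofNat 0, .ofNat 0, .ofNat 3751, .ofNat 904, .ofNat 0, .ofNat 0, .ofNat 0, .ofNat 0, .ofNat 0, .ofNat 0, .ofNat 35478500974655022244117576059665142968563179454464, .ofNat 0, .ofNat 0, .ofNat 0, .ofNat 25439261014722540738403013212796353436983089954816, .ofNat 0, .ofNat 0, .ofNat 0, .ofNat 38802201336308791751713196145234913414666510139392, .ofNat 0⟩)
    (by decide +kernel)
theorem L06437 : Good (Phi V5.P V5.D 1 1) ⟨6, 57, 5, 20, 4, 15, 4, 14, 4, 0⟩ :=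
  leafX_sound T5.ok_pp T5.Ypp.bz_eq (w := 278) (c := ⟨⟨.negSucc 6620, .ofNat 4, .ofNat 224, .ofNat 1295, .negSucc 1775, .negSucc 4327⟩, ⟨.negSucc 3856, .ofNat 3, .negSucc 321, .ofNat 858, .negSucc 1161, .negSucc 2847⟩, ⟨.ofNat 4101, .negSucc 2, .ofNat 93, .negSucc 1625, .ofNat 1282, .ofNat 2843⟩, ⟨.negSucc 21440, .ofNat 12, .negSucc 12, .ofNat 1382, .negSucc 2188, .negSucc 4663⟩, ⟨.ofNat 18792, .negSucc 8, .ofNat 8, .ofNat 658, .negSucc 451, .negSucc 2093⟩, .ofNat 26850, .negSucc 40065, .ofNat 0, .negSucc 40065, .ofNat 60598, .ofNat 0, .ofNat 128, .ofNat 5000, .negSucc 18744, .ofNat 0, .ofNat 3325, .negSucc 12285, .ofNat 0, .ofNat 0, .ofNat 12540, .ofNat 7553, .ofNat 0, .ofNat 0, .ofNat 1192146433120372190964279081985357203212616073216, .ofNat 0, .ofNat 0, .ofNat 0, .ofNat 40303699537402941447968861522110390535817162223779840, .ofNat 0, .ofNat 0, .ofNat 0, .ofNat 8732961676139570306008457033573196579768970766188544,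 .ofNat 0, .ofNat 0, .ofNat 0, .ofNat 45074334948990216279173700607176046247801335729618944, .ofNat 0⟩)
    (by decide +kernel)
theorem L06438 : Good (Phi V5.P V5.D 1 1) ⟨5, 29, 5, 20, 4, 15, 4, 14, 4, 0⟩ :=
  out_sound (S := T5.ds_pp) T5.ok_pp (w := 61) (j := 3) (by decide +kernel)
theorem L06439 : Good (Phi V5.P V5.D 1 1) ⟨4, 15, 5, 20, 4, 15, 4, 14, 4, 0⟩ :=
  out_sound (S := T5.ds_pp) T5.ok_pp (w := 55) (j := 3) (by decide +kernel)
theorem L06440 : Good (Phi V5.P V5.D 1 1) ⟨2, 2, 5, 21, 4, 15, 4, 14, 4, 0⟩ :=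
  out_sound (S := T5.ds_pp) T5.ok_pp (w := 43) (j := 3) (by decide +kernel)
theorem L06441 : Good (Phi V5.P V5.D 1 1) ⟨3, 6, 5, 21, 4, 15, 4, 14, 4, 0⟩ :=
  out_sound (S := T5.ds_pp) T5.ok_pp (w := 49) (j := 3) (by decide +kernel)
theorem L06442 : Good (Phi V5.P V5.D 1 1) ⟨6, 56, 5, 21, 4, 15, 4, 14, 4, 0⟩ :=
  leafX_sound T5.ok_pp T5.Ypp.bz_eq (w := 274) (c := ⟨⟨.negSucc 6322, .negSucc 3, .ofNat 106, .ofNat 1623, .negSucc 1975, .negSucc 4530⟩, ⟨.negSucc 4137, .negSucc 2, .negSucc 503, .ofNat 1083, .negSucc 1287, .negSucc 2977⟩, ⟨.ofNat 4142, .ofNat 3, .negSucc 385, .negSucc 1789, .ofNat 1407, .ofNat 2933⟩, ⟨.negSucc 19519, .negSucc 11, .negSucc 11, .ofNat 3171, .negSucc 4081, .negSucc 8022⟩, ⟨.ofNat 16044, .ofNat 9, .negSucc 48, .negSucc 1331, .ofNat 1984, .ofNat 2517⟩, .ofNat 10093, .negSucc 14826, .ofNat 0, .negSucc 14826, .ofNat 22582, .ofNat 0, .ofNat 128, .ofNat 4139, .negSucc 14174, .ofNat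 0, .ofNat 2755, .negSucc 9202, .ofNat 0, .ofNat 0, .ofNat 9301, .ofNat 1114, .ofNat 0, .ofNat 0, .ofNat 0, .ofNat 0, .ofNat 0, .ofNat 0, .ofNat 85834142832774701632045362360997129300684428017664, .ofNat 0, .ofNat 0, .ofNat 0, .ofNat 74855773065048788119881444596821634254676128956416, .ofNat 0, .ofNat 0, .ofNat 0, .ofNat 1704945579088869758113851316013505372100514468069376, .ofNat 0⟩)
    (by decide +kernel)
theorem L06443 : Good (Phi V5.P V5.D 1 1) ⟨7, 114, 6, 42, 4, 15, 4, 14, 5, 0⟩ :=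
  leafX_sound T5.ok_pp T5.Ypp.bz_eq (w := 286) (c := ⟨⟨.negSucc 7393, .ofNat 120, .ofNat 61, .ofNat 2163, .negSucc 644, .negSucc 1553⟩, ⟨.negSucc 4839, .ofNat 467, .negSucc 290, .ofNat 1437, .negSucc 419, .negSucc 1024⟩, ⟨.ofNat 4683, .negSucc 301, .ofNat 51, .negSucc 2012, .ofNat 695, .ofNat 1052⟩, ⟨.negSucc 21226, .ofNat 95, .negSucc 109, .ofNat 3582, .negSucc 1261, .negSucc 2000⟩, ⟨.ofNat 16359, .ofNat 68, .ofNat 143, .negSucc 822, .ofNat 548, .negSucc 252⟩, .ofNat 12201, .negSucc 17812, .ofNat 0, .negSucc 17812, .ofNat 26788, .ofNat 0, .ofNat 128, .ofNat 2128, .negSucc 10516, .ofNat 0, .ofNat 1431, .negSucc 6907, .ofNat 0, .ofNat 0, .ofNat 6663, .ofNat 406, .ofNat 0, .ofNat 0, .ofNat 26956603640361114087248899198552093807548903194624, .ofNat 0, .ofNat 0, .ofNat 0, .ofNat 4200035982513027713455482395617025430289310459887616, .ofNat 0, .ofNat 0, .ofNat 0, .ofNat 0, .ofNat 0, .ofNat 0, .ofNat 0,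 .ofNat 0, .ofNat 0⟩)
    (by decide +kernel)
theorem L06444 : Good (Phi V5.P V5.D 1 1) ⟨8, 228, 6, 43, 4, 15, 4, 14, 5, 0⟩ :=
  out_sound (S := T5.ds_pp) T5.ok_pp (w := 81) (j := 3) (by decide +kernel)
theorem L06445 : Good (Phi V5.P V5.D 1 1) ⟨8, 229, 6, 43, 4, 15, 4, 14, 5, 0⟩ :=
  out_sound (S := T5.ds_pp) T5.ok_pp (w := 23) (j := 4) (by decide +kernel)
theorem L06446 : Good (Phi V5.P V5.D 1 1) ⟨7, 114, 5, 21, 4, 15, 4, 14, 5, 1⟩ :=
  leafX_sound T5.ok_pp T5.Ypp.bz_eq (w := 280) (c := ⟨⟨.negSucc 8584, .negSucc 190, .negSucc 347, .ofNat 1578, .negSucc 2223, .negSucc 1966⟩, ⟨.negSucc 5604, .negSucc 196, .negSucc 487, .ofNat 1056, .negSucc 1475, .negSucc 1325⟩, ⟨.ofNat 5672, .ofNat 405, .negSucc 208, .negSucc 1864, .ofNat 1584, .ofNat 1320⟩, ⟨.negSucc 22340, .negSucc 708, .negSucc 688, .ofNat 2281, .negSucc 5469, .negSucc 4831⟩, ⟨.ofNat 15543, .ofNat 333, .ofNat 304, .negSucc 93, .ofNat 3525, .ofNat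 3086⟩, .ofNat 8455, .negSucc 12235, .ofNat 0, .negSucc 12235, .ofNat 18480, .ofNat 0, .ofNat 128, .ofNat 1711, .negSucc 5569, .ofNat 0, .ofNat 1151, .negSucc 3652, .ofNat 0, .ofNat 0, .ofNat 3721, .ofNat 633, .ofNat 0, .ofNat 0, .ofNat 4220551671418704040436968574183739227970887221248, .ofNat 0, .ofNat 0, .ofNat 0, .ofNat 715105201151820020410466328987933415135280327819264, .ofNat 0, .ofNat 0, .ofNat 0, .ofNat 0, .ofNat 0, .ofNat 0, .ofNat 0, .ofNat 799374824690126385952097793551774154385443197550592, .ofNat 319885204580730930435280184528676049887051117210450678360571904⟩)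
    (by decide +kernel)
theorem L06447 : Good (Phi V5.P V5.D 1 1) ⟨7, 115, 5, 21, 4, 15, 4, 14, 4, 0⟩ :=
  out_sound (S := T5.ds_pp) T5.ok_pp (w := 21) (j := 4) (by decide +kernel)
theorem L06448 : Good (Phi V5.P V5.D 1 1) ⟨5, 29, 5, 21, 4, 15, 4, 14, 4, 0⟩ :=
  out_sound (S := T5.ds_pp) T5.ok_pp (w := 61) (j := 3) (by decide +kernel)
theorem L06449 : Good (Phi V5.P V5.D 1 1) ⟨4, 15, 5, 21, 4, 15, 4, 14, 4, 0⟩ :=
  out_sound (S := T5.ds_pp) T5.ok_pp (w := 55) (j := 3) (by decide +kernel)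
theorem L06450 : Good (Phi V5.P V5.D 1 1) ⟨2, 2, 4, 11, 4, 15, 4, 14, 4, 0⟩ :=
  out_sound (S := T5.ds_pp) T5.ok_pp (w := 41) (j := 3) (by decide +kernel)
theorem L06451 : Good (Phi V5.P V5.D 1 1) ⟨3, 6, 4, 11, 4, 15, 4, 14, 4, 0⟩ :=
  out_sound (S := T5.ds_pp) T5.ok_pp (w := 47) (j := 3) (by decide +kernel)
theorem L06452 : Good (Phi V5.P V5.D 1 1) ⟨6, 56, 4, 11, 4, 15, 4, 14, 4, 0⟩ :=
  out_sound (S := T5.ds_pp) T5.ok_pp (w := 65) (j := 3) (by decide +kernel)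
theorem L06453 : Good (Phi V5.P V5.D 1 1) ⟨7, 114, 5, 22, 4, 15, 4, 14, 4, 0⟩ :=
  out_sound (S := T5.ds_pp) T5.ok_pp (w := 73) (j := 3) (by decide +kernel)
theorem L06454 : Good (Phi V5.P V5.D 1 1) ⟨7, 115, 5, 22, 4, 15, 4, 14, 4, 0⟩ :=
  out_sound (S := T5.ds_pp) T5.ok_pp (w := 21) (j := 4) (by decide +kernel)
theorem L06455 : Good (Phi V5.P V5.D 1 1) ⟨6, 57, 5, 23, 4, 15, 4, 14, 4, 0⟩ :=
  out_sound (S := T5.ds_pp) T5.ok_pp (w := 67) (j := 3) (by decide +kernel)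
theorem L06456 : Good (Phi V5.P V5.D 1 1) ⟨5, 29, 4, 11, 4, 15, 4, 14, 4, 0⟩ :=
  out_sound (S := T5.ds_pp) T5.ok_pp (w := 17) (j := 4) (by decide +kernel)
theorem L06457 : Good (Phi V5.P V5.D 1 1) ⟨4, 15, 4, 11, 4, 15, 4, 14, 4, 0⟩ :=
  out_sound (S := T5.ds_pp) T5.ok_pp (w := 53) (j := 3) (by decide +kernel)
theorem L06458 : Good (Phi V5.P V5.D 1 1) ⟨2, 2, 6, 40, 4, 15, 4, 15, 4, 0⟩ :=
  out_sound (S := T5.ds_pp) T5.ok_pp (w := 45) (j := 3) (by decide +kernel)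
theorem L06459 : Good (Phi V5.P V5.D 1 1) ⟨3, 6, 6, 40, 4, 15, 4, 15, 4, 0⟩ :=
  out_sound (S := T5.ds_pp) T5.ok_pp (w := 51) (j := 3) (by decide +kernel)
theorem L06460 : Good (Phi V5.P V5.D 1 1) ⟨7, 112, 6, 40, 4, 15, 4, 15, 4, 0⟩ :=
  leafX_sound T5.ok_pp T5.Ypp.bz_eq (w := 279) (c := ⟨⟨.negSucc 4764, .negSucc 2368, .ofNat 1946, .ofNat 3418, .negSucc 2608, .negSucc 7178⟩, ⟨.negSucc 3074, .negSucc 1290, .ofNat 941, .ofNat 2154, .negSucc 1632, .negSucc 4539⟩, ⟨.ofNat 3712, .ofNat 1647, .negSucc 1490, .negSucc 3197, .ofNat 1822, .ofNat 4237⟩, ⟨.negSucc 19591, .negSucc 2077, .ofNat 2109, .ofNat 5228, .negSucc 3387, .negSucc 11397⟩, ⟨.ofNat 19414, .negSucc 1380, .ofNat 530, .negSucc 617, .negSucc 434, .ofNat 1941⟩, .ofNat 10676, .negSucc 16078, .ofNat 0, .negSucc 16078, .ofNat 25070, .ofNat 0, .ofNat 128, .ofNat 2307, .negSucc 7127, .ofNat 0, .ofNat 1507, .negSucc 4465, .ofNat 0, .ofNat 0, .ofNat 4624,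 .ofNat 773, .ofNat 0, .ofNat 0, .ofNat 0, .ofNat 0, .ofNat 0, .ofNat 0, .ofNat 42111342629100998241547412174675066940446497308672, .ofNat 0, .ofNat 0, .ofNat 0, .ofNat 6117265256683155641282558692696044404182452535296, .ofNat 0, .ofNat 0, .ofNat 6641544477401720021039501387260406050082899386721198145536, .ofNat 11958548121576794704444476552294491965310902468608, .ofNat 0⟩)
    (by decide +kernel)
theorem L06461 : Good (Phi V5.P V5.D 1 1) ⟨7, 113, 6, 40, 4, 15, 4, 15, 4, 0⟩ :=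
  leafX_sound T5.ok_pp T5.Ypp.bz_eq (w := 277) (c := ⟨⟨.negSucc 7521, .negSucc 4648, .ofNat 3097, .ofNat 1895, .negSucc 3426, .negSucc 6170⟩, ⟨.negSucc 4597, .negSucc 2676, .ofNat 1641, .ofNat 1213, .negSucc 2147, .negSucc 3939⟩, ⟨.ofNat 5601, .ofNat 2767, .negSucc 1954, .negSucc 2418, .ofNat 2319, .ofNat 3789⟩, ⟨.negSucc 22306, .negSucc 4763, .ofNat 4323, .ofNat 4448, .negSucc 6454, .negSucc 12457⟩, ⟨.ofNat 18171, .negSucc 1899, .negSucc 555, .negSucc 2715, .ofNat 2508, .ofNat 5748⟩, .ofNat 7397, .negSucc 10876, .ofNat 0, .negSucc 10876, .ofNat 16813, .ofNat 0, .ofNat 128, .ofNat 1257, .negSucc 5397, .ofNat 0, .ofNat 834, .negSucc 3384, .ofNat 0, .ofNat 0, .ofNat 3479, .ofNat 355, .ofNat 0, .ofNat 0, .ofNat 252423398363285746806740597337053259210019569664, .ofNat 0, .ofNat 0, .ofNat 0, .ofNat 22534337639496349479427481584644129696367918448640, .ofNat 0, .ofNat 0, .ofNat 0, .ofNat 2875765270326198626442083847392646058858426400768,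 .ofNat 0, .ofNat 0, .ofNat 0, .ofNat 21031138778001236079520675354680421214473615835136, .ofNat 0⟩)
    (by decide +kernel)
theorem L06462 : Good (Phi V5.P V5.D 1 1) ⟨6, 57, 6, 40, 4, 15, 4, 15, 4, 0⟩ :=
  out_sound (S := T5.ds_pp) T5.ok_pp (w := 69) (j := 3) (by decide +kernel)
theorem L06463 : Good (Phi V5.P V5.D 1 1) ⟨5, 29, 6, 40, 4, 15, 4, 15, 4, 0⟩ :=
  out_sound (S := T5.ds_pp) T5.ok_pp (w := 63) (j := 3) (by decide +kernel)
theorem L06464 : Good (Phi V5.P V5.D 1 1) ⟨4, 15, 6, 40, 4, 15, 4, 15, 4, 0⟩ :=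
  out_sound (S := T5.ds_pp) T5.ok_pp (w := 57) (j := 3) (by decide +kernel)
theorem L06465 : Good (Phi V5.P V5.D 1 1) ⟨2, 2, 6, 41, 4, 15, 4, 15, 4, 0⟩ :=
  out_sound (S := T5.ds_pp) T5.ok_pp (w := 45) (j := 3) (by decide +kernel)
theorem L06466 : Good (Phi V5.P V5.D 1 1) ⟨3, 6, 6, 41, 4, 15, 4, 15, 4, 0⟩ :=
  out_sound (S := T5.ds_pp) T5.ok_pp (w := 51) (j := 3) (by decide +kernel)
theorem L06467 : Good (Phi V5.P V5.D 1 1) ⟨7, 112, 6, 41, 4, 15, 4, 15, 4, 0⟩ :=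
  out_sound (S := T5.ds_pp) T5.ok_pp (w := 75) (j := 3) (by decide +kernel)
theorem L06468 : Good (Phi V5.P V5.D 1 1) ⟨7, 113, 6, 41, 4, 15, 4, 15, 5, 0⟩ :=
  leafX_sound T5.ok_pp T5.Ypp.bz_eq (w := 284) (c := ⟨⟨.negSucc 5937, .negSucc 1554, .ofNat 482, .ofNat 2245, .ofNat 251, .negSucc 4337⟩, ⟨.negSucc 3807, .negSucc 890, .ofNat 127, .ofNat 1461, .ofNat 168, .negSucc 2826⟩, ⟨.ofNat 4412, .ofNat 1078, .negSucc 398, .negSucc 2352, .ofNat 233, .ofNat 2485⟩, ⟨.negSucc 18841, .negSucc 2082, .ofNat 1042, .ofNat 5376, .negSucc 475, .negSucc 10600⟩, ⟨.ofNat 15981, .negSucc 58, .negSucc 785, .negSucc 3341, .ofNat 1282, .ofNat 6795⟩, .ofNat 8353, .negSucc 12290, .ofNat 0, .negSucc 12290, .ofNat 18894, .ofNat 0, .ofNat 128, .ofNat 1660, .negSucc 9241, .ofNat 0, .ofNat 1101, .negSucc 5923, .ofNat 0, .ofNat 0, .ofNat 5682, .ofNat 471, .ofNat 0, .ofNat 0, .ofNat 0, .ofNat 0, .ofNat 0, .ofNat 0, .ofNat 1056119209937815836156356280855638058557758402199552,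 .ofNat 0, .ofNat 0, .ofNat 0, .ofNat 0, .ofNat 0, .ofNat 0, .ofNat 0, .ofNat 0, .ofNat 0⟩)
    (by decide +kernel)
theorem L06469 : Good (Phi V5.P V5.D 1 1) ⟨7, 113, 6, 41, 4, 15, 4, 15, 5, 1⟩ :=
  leafX_sound T5.ok_pp T5.Ypp.bz_eq (w := 284) (c := ⟨⟨.negSucc 8890, .negSucc 1983, .ofNat 805, .ofNat 1514, .negSucc 4445, .negSucc 2766⟩, ⟨.negSucc 5713, .negSucc 1107, .ofNat 217, .ofNat 981, .negSucc 2865, .negSucc 1808⟩, ⟨.ofNat 6234, .ofNat 1687, .negSucc 810, .negSucc 2346, .ofNat 2951, .ofNat 1740⟩, ⟨.negSucc 25196, .negSucc 2580, .ofNat 98, .ofNat 3249, .negSucc 10120, .negSucc 5878⟩, ⟨.ofNat 19100, .ofNat 322, .ofNat 994, .negSucc 1672, .ofNat 5876, .ofNat 3009⟩, .ofNat 8482, .negSucc 12478, .ofNat 0, .negSucc 12478, .ofNat 19169, .ofNat 0, .ofNat 128, .ofNat 1585, .negSucc 7011, .ofNat 0, .ofNat 1051, .negSucc 4494, .ofNat 0, .ofNat 0, .ofNat 4654, .ofNat 605, .ofNat 0, .ofNat 0, .ofNat 41572497956979082251582306192858893389375702302720,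 .ofNat 0, .ofNat 0, .ofNat 2330830010431601117626345485888059415415539730542640496640, .ofNat 843647623597917844511903853664179242798740259471360, .ofNat 0, .ofNat 0, .ofNat 0, .ofNat 0, .ofNat 0, .ofNat 0, .ofNat 0, .ofNat 0, .ofNat 0⟩)
    (by decide +kernel)
theorem L06470 : Good (Phi V5.P V5.D 1 1) ⟨6, 57, 6, 41, 4, 15, 4, 15, 4, 0⟩ :=
  leafX_sound T5.ok_pp T5.Ypp.bz_eq (w := 282) (c := ⟨⟨.negSucc 6092, .ofNat 5, .ofNat 203, .ofNat 1440, .negSucc 3652, .negSucc 7515⟩, ⟨.negSucc 3675, .ofNat 3, .negSucc 163, .ofNat 945, .negSucc 2390, .negSucc 4940⟩, ⟨.ofNat 4387, .negSucc 2, .ofNat 134, .negSucc 2297, .ofNat 2480, .ofNat 4661⟩, ⟨.negSucc 24707, .ofNat 15, .ofNat 6, .ofNat 1631, .negSucc 3764, .negSucc 8284⟩, ⟨.ofNat 24706, .negSucc 10, .ofNat 20, .ofNat 574, .negSucc 1996, .negSucc 3347⟩, .ofNat 26831, .negSucc 40036, .ofNat 0, .negSucc 40036, .ofNat 60555, .ofNat 0, .ofNat 128, .ofNat 9140,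 .negSucc 30917, .ofNat 0, .ofNat 6085, .negSucc 20266, .ofNat 0, .ofNat 0, .ofNat 20059, .ofNat 3508, .ofNat 0, .ofNat 8180442197023883076704652062772897003755322566300925952, .ofNat 7454667121705111002665925421789080922226528616448, .ofNat 0, .ofNat 0, .ofNat 0, .ofNat 62605466738796581004524042302663633996284041069854720, .ofNat 0, .ofNat 0, .ofNat 0, .ofNat 24365935341672204335621858205098343593807802062077952, .ofNat 0, .ofNat 0, .ofNat 0, .ofNat 330994760168048058683315783665998898683870193674878976, .ofNat 0⟩)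
    (by decide +kernel)
theorem L06471 : Good (Phi V5.P V5.D 1 1) ⟨5, 29, 6, 41, 4, 15, 4, 15, 4, 0⟩ :=
  out_sound (S := T5.ds_pp) T5.ok_pp (w := 63) (j := 3) (by decide +kernel)
theorem L06472 : Good (Phi V5.P V5.D 1 1) ⟨4, 15, 6, 41, 4, 15, 4, 15, 4, 0⟩ :=
  out_sound (S := T5.ds_pp) T5.ok_pp (w := 57) (j := 3) (by decide +kernel)
theorem L06473 : Good (Phi V5.P V5.D 1 1) ⟨2, 2, 5, 21, 4, 15, 4, 15, 4, 0⟩ :=
  out_sound (S := T5.ds_pp) T5.ok_pp (w := 43) (j := 3) (by decide +kernel)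
theorem L06474 : Good (Phi V5.P V5.D 1 1) ⟨3, 6, 5, 21, 4, 15, 4, 15, 4, 0⟩ :=
  out_sound (S := T5.ds_pp) T5.ok_pp (w := 49) (j := 3) (by decide +kernel)
theorem L06475 : Good (Phi V5.P V5.D 1 1) ⟨6, 56, 6, 42, 4, 15, 4, 15, 4, 0⟩ :=
  leafX_sound T5.ok_pp T5.Ypp.bz_eq (w := 279) (c := ⟨⟨.negSucc 4814, .negSucc 4, .ofNat 813, .ofNat 1707, .negSucc 4592, .negSucc 8681⟩, ⟨.negSucc 3147, .negSucc 2, .ofNat 235, .ofNat 1128, .negSucc 2984, .negSucc 5705⟩, ⟨.ofNat 3878, .ofNat 3, .ofNat 83, .negSucc 2405, .ofNat 3051, .ofNat 5303⟩, ⟨.negSucc 20207, .negSucc 13, .ofNat 426, .ofNat 4083, .negSucc 5480, .negSucc 15551⟩, ⟨.ofNat 20273, .ofNat 10, .ofNat 294, .negSucc 2542, .negSucc 1398, .ofNat 5086⟩, .ofNat 14642, .negSucc 21678, .ofNat 0, .negSucc 21678, .ofNat 32903, .ofNat 0, .ofNat 128, .ofNat 4885, .negSucc 17889, .ofNat 0, .ofNat 3255, .negSucc 11680, .ofNat 0, .ofNat 0, .ofNat 11574, .ofNat 727,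 .ofNat 0, .ofNat 2236153600803804482905190245871223074317536305434591232, .ofNat 3928373979940649778253188268951191755120344825856, .ofNat 0, .ofNat 0, .ofNat 0, .ofNat 385914675610875699320349496026469429976698663731200, .ofNat 0, .ofNat 0, .ofNat 0, .ofNat 19004110687280765902272406513042939462523700641792, .ofNat 0, .ofNat 0, .ofNat 0, .ofNat 2924388819786765972159632786315597883007166324932608, .ofNat 0⟩)
    (by decide +kernel)
theorem L06476 : Good (Phi V5.P V5.D 1 1) ⟨8, 228, 7, 84, 4, 15, 4, 15, 5, 0⟩ :=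
  leafX_sound T5.ok_pp T5.Ypp.bz_eq (w := 295) (c := ⟨⟨.negSucc 6381, .ofNat 368, .ofNat 1242, .ofNat 1776, .negSucc 1360, .negSucc 4710⟩, ⟨.negSucc 4167, .ofNat 204, .ofNat 777, .ofNat 1179, .negSucc 874, .negSucc 3122⟩, ⟨.ofNat 4677, .negSucc 3, .negSucc 842, .negSucc 2108, .ofNat 1213, .ofNat 2775⟩, ⟨.negSucc 20807, .ofNat 1308, .ofNat 2756, .ofNat 5348, .negSucc 1285, .negSucc 10501⟩, ⟨.ofNat 17868, .negSucc 895, .negSucc 1758, .negSucc 4289, .negSucc 906, .ofNat 5858⟩, .ofNat 16464, .negSucc 24358, .ofNat 0, .negSucc 24358, .ofNat 36843, .ofNat 0, .ofNat 128, .ofNat 3317, .negSucc 14341, .ofNat 0, .ofNat 2215, .negSucc 9415, .ofNat 0, .ofNat 0, .ofNat 8856, .ofNat 929, .ofNat 0, .ofNat 0, .ofNat 0, .ofNat 0, .ofNat 0, .ofNat 0, .ofNat 10879199620756467315350125561022538184912792461508608, .ofNat 0, .ofNat 0, .ofNat 0, .ofNat 0, .ofNat 0, .ofNat 0, .ofNat 0, .ofNat 0, .ofNat 0⟩)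
    (by decide +kernel)
theorem L06477 : Good (Phi V5.P V5.D 1 1) ⟨8, 228, 7, 85, 4, 15, 4, 15, 5, 0⟩ :=
  leafX_sound T5.ok_pp T5.Ypp.bz_eq (w := 296) (c := ⟨⟨.negSucc 5907, .negSucc 130, .ofNat 555, .ofNat 1826, .negSucc 1078, .negSucc 4542⟩, ⟨.negSucc 4015, .ofNat 113, .ofNat 183, .ofNat 1231, .negSucc 702, .negSucc 3041⟩, ⟨.ofNat 4657, .negSucc 391, .negSucc 96, .negSucc 2154, .ofNat 988, .ofNat 2699⟩, ⟨.negSucc 19432, .negSucc 251, .negSucc 362, .ofNat 5575, .negSucc 1342, .negSucc 9916⟩, ⟨.ofNat 16398, .ofNat 687, .ofNat 1282, .negSucc 4485, .negSucc 226, .ofNat 5315⟩, .ofNat 22300, .negSucc 32954, .ofNat 0, .negSucc 32954, .ofNat 49494, .ofNat 0, .ofNat 128, .ofNat 3605, .negSucc 19581, .ofNat 0, .ofNat 2417, .negSucc 12984, .ofNat 0, .ofNat 0, .ofNat 11942, .ofNat 729, .ofNat 0, .ofNat 0, .ofNat 20323999123783818619413201643053618140135995473920, .ofNat 0, .ofNat 0, .ofNat 0, .ofNat 5386186287647751178110511833991689776353796786487296,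 .ofNat 0, .ofNat 0, .ofNat 0, .ofNat 0, .ofNat 0, .ofNat 0, .ofNat 0, .ofNat 5758558846420324348377947763993202663733783609475072, .ofNat 0⟩)
    (by decide +kernel)
theorem L06478 : Good (Phi V5.P V5.D 1 1) ⟨8, 228, 6, 42, 4, 15, 4, 15, 5, 1⟩ :=
  leafX_sound T5.ok_pp T5.Ypp.bz_eq (w := 291) (c := ⟨⟨.negSucc 9560, .negSucc 556, .ofNat 288, .ofNat 1075, .negSucc 4421, .negSucc 3513⟩, ⟨.negSucc 6233, .negSucc 402, .ofNat 1, .ofNat 718, .negSucc 2920, .negSucc 2342⟩, ⟨.ofNat 6877, .ofNat 561, .negSucc 449, .negSucc 2103, .ofNat 2881, .ofNat 2092⟩, ⟨.negSucc 27528, .negSucc 1079, .negSucc 697, .ofNat 2618, .negSucc 8024, .negSucc 6724⟩, ⟨.ofNat 21275, .ofNat 932, .ofNat 910, .negSucc 1661, .ofNat 2778, .ofNat 2705⟩, .ofNat 18541, .negSucc 27416, .ofNat 0, .negSucc 27416, .ofNat 41341, .ofNat 0, .ofNat 128, .ofNat 2517, .negSucc 8570, .ofNat 0, .ofNat 1683, .negSucc 5648, .ofNat 0, .ofNat 0, .ofNat 5644,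 .ofNat 751, .ofNat 0, .ofNat 0, .ofNat 19107597563389446505064860299027589362538640310272, .ofNat 0, .ofNat 0, .ofNat 141067459138345905672832859843356338044277928012250785775616, .ofNat 2441850691041174872879665560770889679148745287008256, .ofNat 0, .ofNat 0, .ofNat 0, .ofNat 0, .ofNat 0, .ofNat 0, .ofNat 1174273292554617392807222390773536485632665485322429120118784, .ofNat 2009969599417663816931089101831734395829634046361600, .ofNat 11657559639819258073257418881180684571796854378011388677428609024⟩)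
    (by decide +kernel)
theorem L06479 : Good (Phi V5.P V5.D 1 1) ⟨8, 229, 6, 42, 4, 15, 4, 15, 4, 0⟩ :=
  out_sound (S := T5.ds_pp) T5.ok_pp (w := 23) (j := 4) (by decide +kernel)
theorem L06480 : Good (Phi V5.P V5.D 1 1) ⟨7, 115, 6, 42, 4, 15, 4, 15, 4, 0⟩ :=
  out_sound (S := T5.ds_pp) T5.ok_pp (w := 75) (j := 3) (by decide +kernel)
theorem L06481 : Good (Phi V5.P V5.D 1 1) ⟨5, 29, 6, 42, 4, 15, 4, 15, 4, 0⟩ :=
  out_sound (S := T5.ds_pp) T5.ok_pp (w := 63) (j := 3) (by decide +kernel)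
theorem L06482 : Good (Phi V5.P V5.D 1 1) ⟨4, 15, 6, 42, 4, 15, 4, 15, 4, 0⟩ :=
  out_sound (S := T5.ds_pp) T5.ok_pp (w := 57) (j := 3) (by decide +kernel)
theorem L06483 : Good (Phi V5.P V5.D 1 1) ⟨6, 56, 6, 43, 4, 15, 4, 15, 4, 0⟩ :=
  out_sound (S := T5.ds_pp) T5.ok_pp (w := 69) (j := 3) (by decide +kernel)
theorem L06484 : Good (Phi V5.P V5.D 1 1) ⟨8, 228, 6, 43, 4, 15, 4, 15, 4, 0⟩ :=
  out_sound (S := T5.ds_pp) T5.ok_pp (w := 81) (j := 3) (by decide +kernel)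
theorem L06485 : Good (Phi V5.P V5.D 1 1) ⟨8, 229, 6, 43, 4, 15, 4, 15, 4, 0⟩ :=
  out_sound (S := T5.ds_pp) T5.ok_pp (w := 23) (j := 4) (by decide +kernel)
theorem L06486 : Good (Phi V5.P V5.D 1 1) ⟨7, 115, 6, 43, 4, 15, 4, 15, 4, 0⟩ :=
  out_sound (S := T5.ds_pp) T5.ok_pp (w := 21) (j := 4) (by decide +kernel)
theorem L06487 : Good (Phi V5.P V5.D 1 1) ⟨5, 29, 6, 43, 4, 15, 4, 15, 4, 0⟩ :=
  out_sound (S := T5.ds_pp) T5.ok_pp (w := 63) (j := 3) (by decide +kernel)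
theorem L06488 : Good (Phi V5.P V5.D 1 1) ⟨4, 15, 6, 43, 4, 15, 4, 15, 4, 0⟩ :=
  out_sound (S := T5.ds_pp) T5.ok_pp (w := 57) (j := 3) (by decide +kernel)
theorem L06489 : Good (Phi V5.P V5.D 1 1) ⟨2, 2, 4, 11, 4, 15, 4, 15, 4, 0⟩ :=
  out_sound (S := T5.ds_pp) T5.ok_pp (w := 41) (j := 3) (by decide +kernel)
theorem L06490 : Good (Phi V5.P V5.D 1 1) ⟨3, 6, 4, 11, 4, 15, 4, 15, 4, 0⟩ :=
  out_sound (S := T5.ds_pp) T5.ok_pp (w := 47) (j := 3) (by decide +kernel)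
theorem L06491 : Good (Phi V5.P V5.D 1 1) ⟨6, 56, 4, 11, 4, 15, 4, 15, 4, 0⟩ :=
  out_sound (S := T5.ds_pp) T5.ok_pp (w := 65) (j := 3) (by decide +kernel)
theorem L06492 : Good (Phi V5.P V5.D 1 1) ⟨7, 114, 5, 22, 4, 15, 4, 15, 4, 0⟩ :=
  out_sound (S := T5.ds_pp) T5.ok_pp (w := 73) (j := 3) (by decide +kernel)
theorem L06493 : Good (Phi V5.P V5.D 1 1) ⟨7, 115, 5, 22, 4, 15, 4, 15, 4, 0⟩ :=
  out_sound (S := T5.ds_pp) T5.ok_pp (w := 21) (j := 4) (by decide +kernel)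
theorem L06494 : Good (Phi V5.P V5.D 1 1) ⟨6, 57, 5, 23, 4, 15, 4, 15, 4, 0⟩ :=
  out_sound (S := T5.ds_pp) T5.ok_pp (w := 67) (j := 3) (by decide +kernel)
theorem L06495 : Good (Phi V5.P V5.D 1 1) ⟨5, 29, 4, 11, 4, 15, 4, 15, 4, 0⟩ :=
  out_sound (S := T5.ds_pp) T5.ok_pp (w := 17) (j := 4) (by decide +kernel)
theorem L06496 : Good (Phi V5.P V5.D 1 1) ⟨4, 15, 4, 11, 4, 15, 4, 15, 4, 0⟩ :=
  out_sound (S := T5.ds_pp) T5.ok_pp (w := 53) (j := 3) (by decide +kernel)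
theorem L06497 : Good (Phi V5.P V5.D 1 1) ⟨2, 2, 3, 5, 3, 7, 3, 7, 4, 1⟩ :=
  out_sound (S := T5.ds_pp) T5.ok_pp (w := 39) (j := 3) (by decide +kernel)
theorem L06498 : Good (Phi V5.P V5.D 1 1) ⟨3, 6, 3, 5, 3, 7, 3, 7, 4, 1⟩ :=
  out_sound (S := T5.ds_pp) T5.ok_pp (w := 45) (j := 3) (by decide +kernel)
theorem L06499 : Good (Phi V5.P V5.D 1 1) ⟨6, 56, 5, 20, 4, 14, 3, 7, 5, 2⟩ :=
  leafX_sound T5.ok_pp T5.Ypp.bz_eq (w := 269) (c := ⟨⟨.negSucc 10619, .negSucc 928, .ofNat 532, .negSucc 205, .negSucc 2974, .ofNat 1741⟩, ⟨.negSucc 6888, .negSucc 22, .negSucc 335, .negSucc 112, .negSucc 1875, .ofNat 1091⟩, ⟨.ofNat 7496, .ofNat 830, .negSucc 415, .negSucc 573, .ofNat 2914, .negSucc 973⟩, ⟨.negSucc 23081, .negSucc 1193, .negSucc 936, .negSucc 2709, .negSucc 8696, .ofNat 3577⟩, ⟨.ofNat 12198, .ofNat 578, .ofNat 1863, .ofNat 3715, .ofNat 6928, .negSucc 1755⟩, .ofNat 7326, .negSucc 10788, .ofNat 0, .negSucc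 10788, .ofNat 16707, .ofNat 0, .ofNat 128, .ofNat 736, .negSucc 2223, .ofNat 0, .ofNat 487, .negSucc 1408, .ofNat 0, .ofNat 0, .ofNat 1859, .ofNat 439, .ofNat 0, .ofNat 0, .ofNat 993060853339580888369296776766993138498062516224, .ofNat 0, .ofNat 0, .ofNat 0, .ofNat 39310107304535993581397878108179110327852139020288, .ofNat 0, .ofNat 0, .ofNat 1139891467788219556816755115277383311680246134775742464, .ofNat 2387173501628427265734588951118355306948834885632, .ofNat 0, .ofNat 0, .ofNat 13799478262071865006082057886739390480151485996364464128, .ofNat 21141481146541133228962491097087725908237427408896, .ofNat 0⟩)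
    (by decide +kernel)
theorem L06500 : Good (Phi V5.P V5.D 1 1) ⟨6, 56, 5, 20, 4, 15, 4, 14, 5, 2⟩ :=
  leafX_sound T5.ok_pp T5.Ypp.bz_eq (w := 273) (c := ⟨⟨.negSucc 9832, .negSucc 1443, .ofNat 382, .ofNat 1275, .negSucc 1454, .ofNat 950⟩, ⟨.negSucc 6312, .negSucc 483, .negSucc 331, .ofNat 837, .negSucc 937, .ofNat 591⟩, ⟨.ofNat 6619, .ofNat 824, .negSucc 198, .negSucc 1738, .ofNat 1058, .negSucc 399⟩, ⟨.negSucc 24243, .negSucc 2040, .negSucc 924, .ofNat 1328, .negSucc 4016, .ofNat 2909⟩, ⟨.ofNat 15771, .ofNat 623, .ofNat 1568, .ofNat 738, .ofNat 3005, .negSucc 2418⟩, .ofNat 5189, .negSucc 7537, .ofNat 0, .negSucc 7537, .ofNat 11760, .ofNat 0, .ofNat 128, .ofNat 1212, .negSucc 2886, .ofNat 0, .ofNat 800, .negSucc 1801, .ofNat 0, .ofNat 0, .ofNat 2280, .ofNat 1455, .ofNat 0, .ofNat 0, .ofNat 13824185434947045903708247869210411189870725693440, .ofNat 0, .ofNat 0, .ofNat 0, .ofNat 502252627851936454031345992072259861894626944221184,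 .ofNat 0, .ofNat 0, .ofNat 0, .ofNat 101717090745488744316858882966152914928507474149376, .ofNat 0, .ofNat 0, .ofNat 0, .ofNat 1767090543737741929967398441599539763917339574140928, .ofNat 0⟩)
    (by decide +kernel)
theorem L06501 : Good (Phi V5.P V5.D 1 1) ⟨6, 56, 5, 20, 4, 15, 4, 15, 5, 2⟩ :=
  leafX_sound T5.ok_pp T5.Ypp.bz_eq (w := 273) (c := ⟨⟨.negSucc 11820, .negSucc 1622, .ofNat 545, .ofNat 1096, .negSucc 2393, .ofNat 1824⟩, ⟨.negSucc 7493, .negSucc 711, .negSucc 213, .ofNat 698, .negSucc 1554, .ofNat 1145⟩, ⟨.ofNat 7905, .ofNat 1806, .negSucc 843, .negSucc 2062, .ofNat 1706, .negSucc 958⟩, ⟨.negSucc 29728, .negSucc 2351, .negSucc 718, .ofNat 1763, .negSucc 6516, .ofNat 5107⟩, ⟨.ofNat 19958, .ofNat 593, .ofNat 1631, .negSucc 329, .ofNat 4792, .negSucc 3902⟩, .ofNat 5308, .negSucc 7708, .ofNat 0, .negSucc 7708, .ofNat 12003, .ofNat 0, .ofNat 128, .ofNat 1008, .negSucc 2577, .ofNat 0, .ofNat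 668, .negSucc 1611, .ofNat 0, .ofNat 0, .ofNat 2017, .ofNat 452, .ofNat 0, .ofNat 905663831230933560131273500211152545658588564532756480, .ofNat 6841079467448878689119492797749196270615090167808, .ofNat 0, .ofNat 0, .ofNat 33493904744038246492535287710409077077840785122646818816, .ofNat 561547449631082060953043228616881214798111860326400, .ofNat 0, .ofNat 0, .ofNat 53240106680054638590196701518218338109460590574855782400, .ofNat 79265921291940385008234473867844024110351380381696, .ofNat 0, .ofNat 0, .ofNat 122310944162300400106115967379570162534643663797456207872, .ofNat 269309002764794719126460601245419912808255333597184, .ofNat 0⟩)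
    (by decide +kernel)
theorem L06502 : Good (Phi V5.P V5.D 1 1) ⟨7, 112, 5, 21, 3, 7, 3, 7, 5, 2⟩ :=
  out_sound (S := T5.ds_pp) T5.ok_pp (w := 73) (j := 3) (by decide +kernel)
theorem L06503 : Good (Phi V5.P V5.D 1 1) ⟨8, 226, 5, 21, 3, 7, 3, 7, 5, 2⟩ :=
  out_sound (S := T5.ds_pp) T5.ok_pp (w := 79) (j := 3) (by decide +kernel)
theorem L06504 : Good (Phi V5.P V5.D 1 1) ⟨8, 227, 5, 21, 3, 7, 3, 7, 5, 2⟩ :=
  leafX_sound T5.ok_pp T5.Ypp.bz_eq (w := 272) (c := ⟨⟨.negSucc 10680, .negSucc 524, .negSucc 433, .ofNat 1075, .negSucc 3327, .ofNat 1414⟩, ⟨.negSucc 7155, .negSucc 188, .negSucc 1086, .ofNat 723, .negSucc 2197, .ofNat 926⟩, ⟨.ofNat 8329, .ofNat 44, .negSucc 761, .negSucc 2589, .ofNat 2490, .negSucc 749⟩, ⟨.negSucc 27136, .negSucc 404, .negSucc 234, .ofNat 899, .negSucc 3965, .ofNat 1661⟩, ⟨.ofNat 18023, .negSucc 213, .negSucc 140, .ofNat 931, .negSucc 1094, .ofNat 494⟩, .ofNat 36691, .negSucc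 55201, .ofNat 0, .negSucc 55201, .ofNat 83866, .ofNat 0, .ofNat 128, .ofNat 3331, .negSucc 8259, .ofNat 0, .ofNat 2200, .negSucc 5442, .ofNat 0, .ofNat 0, .ofNat 6462, .ofNat 996, .ofNat 0, .ofNat 0, .ofNat 21010546870242506318043433236476125142581248, .ofNat 0, .ofNat 0, .ofNat 0, .ofNat 0, .ofNat 0, .ofNat 0, .ofNat 5575927355023557357483658289412397915451278119160250368, .ofNat 1166436622760829725875779915603656007166722048, .ofNat 0, .ofNat 0, .ofNat 13048741713991521179046255873050122698766980756271005696, .ofNat 2184058536128796089603753118156871065392906240, .ofNat 0⟩)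
    (by decide +kernel)
theorem L06505 : Good (Phi V5.P V5.D 1 1) ⟨6, 57, 5, 20, 3, 7, 3, 7, 6, 4⟩ :=
  leafX_sound T5.ok_pp T5.Ypp.bz_eq (w := 271) (c := ⟨⟨.negSucc 10805, .ofNat 6, .ofNat 193, .ofNat 956, .negSucc 4259, .ofNat 299⟩, ⟨.negSucc 6827, .ofNat 4, .negSucc 135, .ofNat 647, .negSucc 2789, .ofNat 192⟩, ⟨.ofNat 7941, .negSucc 3, .ofNat 175, .negSucc 2635, .ofNat 3024, .negSucc 198⟩, ⟨.negSucc 28177, .ofNat 15, .negSucc 12, .ofNat 788, .negSucc 4724, .ofNat 392⟩, ⟨.ofNat 20016, .negSucc 9, .ofNat 11, .ofNat 839, .negSucc 1839, .ofNat 42⟩, .ofNat 26816, .negSucc 40013, .ofNat 0, .negSucc 40013, .ofNat 60521, .ofNat 0, .ofNat 128, .ofNat 13089, .negSucc 27269, .ofNat 0, .ofNat 8712, .negSucc 17867, .ofNat 0, .ofNat 0, .ofNat 20980, .ofNat 6092, .ofNat 0, .ofNat 552142584734652318792621838360565735035345892802560, .ofNat 725872915614315814548579719339821926189826572288, .ofNat 0, .ofNat 0,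 .ofNat 23245696674272704084639072419650343859954251768791040, .ofNat 296210544027565738548644876821602270375981745176576, .ofNat 0, .ofNat 0, .ofNat 4499388543521604682459372610129851416333108571008925696, .ofNat 227937907019773856390803220089155232108071459225600, .ofNat 0, .ofNat 0, .ofNat 5840270348527116484435618929381424838474553368839716864, .ofNat 266494551486414936295516612793971114388161254391808, .ofNat 0⟩)
    (by decide +kernel)
theorem L06506 : Good (Phi V5.P V5.D 1 1) ⟨8, 228, 6, 42, 4, 14, 3, 7, 6, 4⟩ :=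
  leafX_sound T5.ok_pp T5.Ypp.bz_eq (w := 290) (c := ⟨⟨.negSucc 9855, .ofNat 385, .negSucc 265, .negSucc 1034, .negSucc 4139, .ofNat 281⟩, ⟨.negSucc 6463, .ofNat 440, .negSucc 574, .negSucc 674, .negSucc 2719, .ofNat 188⟩, ⟨.ofNat 7134, .ofNat 145, .negSucc 252, .negSucc 109, .ofNat 3770, .negSucc 57⟩, ⟨.negSucc 25715, .negSucc 458, .negSucc 600, .negSucc 2915, .negSucc 7493, .ofNat 1569⟩, ⟨.ofNat 17877, .ofNat 924, .ofNat 751, .ofNat 2214, .ofNat 2587, .negSucc 1759⟩, .ofNat 19407, .negSucc 28704, .ofNat 0, .negSucc 28704, .ofNat 43254, .ofNat 0, .ofNat 128, .ofNat 1880, .negSucc 4895, .ofNat 0, .ofNat 1259, .negSucc 3230, .ofNat 0, .ofNat 0, .ofNat 3896, .ofNat 1541, .ofNat 0, .ofNat 0, .ofNat 0, .ofNat 0, .ofNat 0, .ofNat 0, .ofNat 4454399522312636311097889874587718035054601709813760, .ofNat 0, .ofNat 0, .ofNat 499552954912680666731944064354406285756224265992098145107968, .ofNat 1738908464492506741650195466093770991253113138053120,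 .ofNat 0, .ofNat 0, .ofNat 1537914100205926755828376989941747428339966590214402239102976, .ofNat 3565200389179905676766617982501477277196013226950656, .ofNat 0⟩)
    (by decide +kernel)
theorem L06507 : Good (Phi V5.P V5.D 1 1) ⟨8, 228, 6, 42, 4, 15, 3, 7, 6, 4⟩ :=
  leafX_sound T5.ok_pp T5.Ypp.bz_eq (w := 290) (c := ⟨⟨.negSucc 10484, .ofNat 709, .negSucc 874, .ofNat 1099, .negSucc 5097, .ofNat 290⟩, ⟨.negSucc 6863, .ofNat 550, .negSucc 862, .ofNat 734, .negSucc 3373, .ofNat 184⟩, ⟨.ofNat 7255, .ofNat 1453, .negSucc 1540, .negSucc 1931, .ofNat 3487, .negSucc 189⟩, ⟨.negSucc 27266, .negSucc 294, .negSucc 839, .ofNat 1484, .negSucc 11073, .ofNat 1114⟩, ⟨.ofNat 18896, .ofNat 834, .ofNat 391, .ofNat 98, .ofNat 5912, .negSucc 1076⟩, .ofNat 12025, .negSucc 17644, .ofNat 0, .negSucc 17644, .ofNat 26682, .ofNat 0, .ofNat 128, .ofNat 3495, .negSucc 7439, .ofNat 0, .ofNat 2339, .negSucc 4874, .ofNat 0, .ofNat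 0, .ofNat 5446, .ofNat 1138, .ofNat 0, .ofNat 0, .ofNat 35096548415345889723111913737867232718961701289984, .ofNat 0, .ofNat 0, .ofNat 255741801131236162722142908705693788455105116024709545197568, .ofNat 2878971230336120221669482554665475380704194435481600, .ofNat 0, .ofNat 0, .ofNat 1638638082826059800513963499599159331819542697898785206435840, .ofNat 3938586332742602854304965515751354396317115190607872, .ofNat 0, .ofNat 0, .ofNat 3524098587461602055373600668700284503839597680417885808230400, .ofNat 1920345674512960220409562565887149952800318019338240, .ofNat 31508250897409924441031382078560676426768036343119746614603808768⟩)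
    (by decide +kernel)
theorem L06508 : Good (Phi V5.P V5.D 1 1) ⟨8, 229, 6, 42, 3, 7, 3, 7, 6, 4⟩ :=
  out_sound (S := T5.ds_pp) T5.ok_pp (w := 23) (j := 4) (by decide +kernel)
theorem L06509 : Good (Phi V5.P V5.D 1 1) ⟨7, 115, 6, 42, 3, 7, 3, 7, 6, 4⟩ :=
  out_sound (S := T5.ds_pp) T5.ok_pp (w := 75) (j := 3) (by decide +kernel)
theorem L06510 : Good (Phi V5.P V5.D 1 1) ⟨8, 228, 6, 43, 3, 7, 3, 7, 6, 4⟩ :=
  out_sound (S := T5.ds_pp) T5.ok_pp (w := 81) (j := 3) (by decide +kernel)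
theorem L06511 : Good (Phi V5.P V5.D 1 1) ⟨8, 229, 6, 43, 3, 7, 3, 7, 6, 4⟩ :=
  out_sound (S := T5.ds_pp) T5.ok_pp (w := 23) (j := 4) (by decide +kernel)
theorem L06512 : Good (Phi V5.P V5.D 1 1) ⟨7, 115, 6, 43, 3, 7, 3, 7, 6, 4⟩ :=
  out_sound (S := T5.ds_pp) T5.ok_pp (w := 21) (j := 4) (by decide +kernel)
theorem L06513 : Good (Phi V5.P V5.D 1 1) ⟨7, 114, 5, 20, 3, 7, 3, 7, 6, 5⟩ :=
  leafX_sound T5.ok_pp T5.Ypp.bz_eq (w := 274) (c := ⟨⟨.negSucc 10643, .ofNat 6, .ofNat 78, .ofNat 1122, .negSucc 2985, .ofNat 568⟩, ⟨.negSucc 6670, .ofNat 4, .negSucc 264, .ofNat 756, .negSucc 1955, .ofNat 369⟩, ⟨.ofNat 8107, .negSucc 3, .negSucc 76, .negSucc 2567, .ofNat 2211, .negSucc 290⟩, ⟨.negSucc 26062, .ofNat 13, .negSucc 15, .ofNat 1028, .negSucc 3140, .ofNat 564⟩, ⟨.ofNat 16947, .negSucc 7, .ofNat 7, .ofNat 834, .negSucc 1536, .ofNat 336⟩, .ofNat 26847, .negSucc 40060, .ofNat 0, .negSucc 40060, .ofNat 60591,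 .ofNat 0, .ofNat 128, .ofNat 10405, .negSucc 17762, .ofNat 0, .ofNat 6927, .negSucc 11629, .ofNat 0, .ofNat 0, .ofNat 15074, .ofNat 8057, .ofNat 0, .ofNat 905405980904200834535950968391015375956099783983104, .ofNat 133174374587713512102354231492734091443717537792, .ofNat 0, .ofNat 0, .ofNat 1152662272231311203356556945648169955867884108717752320, .ofNat 65900733421994457175499100055828733067787935678464, .ofNat 0, .ofNat 0, .ofNat 54456593324066163298093861389363193943775684504642912256, .ofNat 20038355797688615302428076114193306404429305479168, .ofNat 0, .ofNat 0, .ofNat 74448022596592963484552167987263059227359619491353853952, .ofNat 48750283438634350661469186596321002258059948457984, .ofNat 0⟩)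
    (by decide +kernel)
theorem L06514 : Good (Phi V5.P V5.D 1 1) ⟨8, 228, 6, 42, 3, 7, 3, 7, 6, 5⟩ :=
  leafX_sound T5.ok_pp T5.Ypp.bz_eq (w := 274) (c := ⟨⟨.negSucc 10385, .negSucc 852, .ofNat 562, .ofNat 763, .negSucc 3116, .ofNat 768⟩, ⟨.negSucc 6811, .negSucc 522, .ofNat 145, .ofNat 524, .negSucc 2074, .ofNat 505⟩, ⟨.ofNat 7846, .negSucc 828, .ofNat 1180, .negSucc 2346, .ofNat 2331, .negSucc 464⟩, ⟨.negSucc 23967, .negSucc 1016, .negSucc 432, .negSucc 1177, .negSucc 8104, .ofNat 2330⟩, ⟨.ofNat 14183, .ofNat 557, .ofNat 788, .ofNat 3392, .ofNat 5589, .negSucc 1868⟩, .ofNat 7277, .negSucc 10533, .ofNat 0, .negSucc 10533, .ofNat 16028, .ofNat 0, .ofNat 128, .ofNat 3580, .negSucc 6778, .ofNat 0, .ofNat 2406, .negSucc 4388, .ofNat 0, .ofNat 0, .ofNat 5646, .ofNat 1444, .ofNat 0, .ofNat 0, .ofNat 3405126549920557710419997381931728612918034432, .ofNat 0, .ofNat 0, .ofNat 23212573219468618470026094172976862280666942811616051200,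 .ofNat 90136198837674872431325426899344453975054221312, .ofNat 0, .ofNat 0, .ofNat 612009273437845529832650353040603585102775956265922199552, .ofNat 314686799842301007713918582794169545687121788928, .ofNat 0, .ofNat 0, .ofNat 1010649964872668010489512520329337405237443851041743306752, .ofNat 124428849796779881316477311593916655904214745088, .ofNat 0⟩)
    (by decide +kernel)
theorem L06515 : Good (Phi V5.P V5.D 1 1) ⟨8, 229, 6, 42, 3, 7, 3, 7, 6, 5⟩ :=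
  out_sound (S := T5.ds_pp) T5.ok_pp (w := 23) (j := 4) (by decide +kernel)
theorem L06516 : Good (Phi V5.P V5.D 1 1) ⟨8, 228, 6, 43, 3, 7, 3, 7, 6, 5⟩ :=
  out_sound (S := T5.ds_pp) T5.ok_pp (w := 81) (j := 3) (by decide +kernel)
theorem L06517 : Good (Phi V5.P V5.D 1 1) ⟨8, 229, 6, 43, 3, 7, 3, 7, 6, 5⟩ :=
  out_sound (S := T5.ds_pp) T5.ok_pp (w := 23) (j := 4) (by decide +kernel)
theorem L06518 : Good (Phi V5.P V5.D 1 1) ⟨7, 115, 4, 10, 3, 7, 3, 7, 6, 5⟩ :=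
  out_sound (S := T5.ds_pp) T5.ok_pp (w := 21) (j := 4) (by decide +kernel)
theorem L06519 : Good (Phi V5.P V5.D 1 1) ⟨6, 56, 4, 10, 4, 14, 3, 7, 5, 3⟩ :=
  leafX_sound T5.ok_pp T5.Ypp.bz_eq (w := 264) (c := ⟨⟨.negSucc 9465, .negSucc 785, .ofNat 364, .ofNat 160, .negSucc 1368, .ofNat 2003⟩, ⟨.negSucc 6054, .negSucc 248, .negSucc 606, .ofNat 118, .negSucc 872, .ofNat 1280⟩, ⟨.ofNat 6912, .ofNat 721, .negSucc 369, .negSucc 727, .ofNat 1762, .negSucc 1197⟩, ⟨.negSucc 20514, .negSucc 1393, .negSucc 720, .negSucc 1338, .negSucc 5260, .ofNat 5367⟩, ⟨.ofNat 10861, .ofNat 878, .ofNat 1009, .ofNat 2405, .ofNat 5077, .negSucc 3898⟩, .ofNat 3658, .negSucc 5196, .ofNat 0, .negSucc 5196, .ofNat 8175, .ofNat 0, .ofNat 128, .ofNat 1228, .negSucc 1689, .ofNat 0, .ofNat 820, .negSucc 1033, .ofNat 0, .ofNat 0, .ofNat 1771, .ofNat 825, .ofNat 0, .ofNat 0, .ofNat 0, .ofNat 0, .ofNat 0, .ofNat 1203083118037969115708043233676788094155613168667197440,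 .ofNat 6862045489984639836399403242053012608996847124480, .ofNat 0, .ofNat 0, .ofNat 0, .ofNat 3027760095580477010610851520078904213895454392320, .ofNat 0, .ofNat 0, .ofNat 2268311729479009746555098471141445338411421230832812032, .ofNat 10539894686336158284486618212298225595256104026112, .ofNat 0⟩)
    (by decide +kernel)
theorem L06520 : Good (Phi V5.P V5.D 1 1) ⟨6, 56, 4, 10, 4, 15, 3, 7, 5, 3⟩ :=
  leafX_sound T5.ok_pp T5.Ypp.bz_eq (w := 265) (c := ⟨⟨.negSucc 9043, .negSucc 411, .negSucc 188, .ofNat 684, .negSucc 2067, .ofNat 1584⟩, ⟨.negSucc 5772, .ofNat 1, .negSucc 961, .ofNat 459, .negSucc 1326, .ofNat 997⟩, ⟨.ofNat 6193, .ofNat 431, .negSucc 169, .negSucc 1302, .ofNat 1622, .negSucc 850⟩, ⟨.negSucc 21785, .negSucc 1308, .negSucc 1179, .ofNat 352, .negSucc 4642, .ofNat 4740⟩, ⟨.ofNat 13930, .ofNat 1146, .ofNat 848, .ofNat 962, .ofNat 2644, .negSucc 3863⟩, .ofNat 5211, .negSucc 7570, .ofNat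 0, .negSucc 7570, .ofNat 11808, .ofNat 0, .ofNat 128, .ofNat 1240, .negSucc 1803, .ofNat 0, .ofNat 822, .negSucc 1114, .ofNat 0, .ofNat 0, .ofNat 1950, .ofNat 713, .ofNat 0, .ofNat 1299685559659971823772908064421385431014313436381184, .ofNat 176208298144039775806430196171856927391483953152, .ofNat 0, .ofNat 0, .ofNat 953855250762768823931300514304494509098494451691552768, .ofNat 16063026519941651742078941268672473857112703762432, .ofNat 0, .ofNat 0, .ofNat 2974022051760407030806967398258861535472204160966852608, .ofNat 4532971628540872234625492571550783167136524140544, .ofNat 0, .ofNat 0, .ofNat 4514145106186879477578368028384311007508804477942497280, .ofNat 23881169244252694923428442012406713010482153783296, .ofNat 0⟩)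
    (by decide +kernel)
theorem L06521 : Good (Phi V5.P V5.D 1 1) ⟨7, 114, 5, 20, 3, 7, 3, 7, 5, 3⟩ :=
  leafX_sound T5.ok_pp T5.Ypp.bz_eq (w := 269) (c := ⟨⟨.negSucc 9969, .ofNat 5, .ofNat 110, .ofNat 898, .negSucc 2024, .ofNat 1672⟩, ⟨.negSucc 6363, .ofNat 3, .negSucc 110, .ofNat 609, .negSucc 1324, .ofNat 1091⟩, ⟨.ofNat 7352, .negSucc 2, .ofNat 108, .negSucc 2140, .ofNat 1658, .negSucc 919⟩, ⟨.negSucc 22907, .ofNat 11, .negSucc 5, .ofNat 792, .negSucc 2071, .ofNat 1898⟩, ⟨.ofNat 13665, .negSucc 6, .ofNat 10, .ofNat 719, .negSucc 1108, .ofNat 662⟩, .ofNat 26854, .negSucc 40071, .ofNat 0, .negSucc 40071, .ofNat 60607, .ofNat 0, .ofNat 128, .ofNat 13381, .negSucc 14863, .ofNat 0, .ofNat 8914, .negSucc 9714, .ofNat 0, .ofNat 0, .ofNat 15766, .ofNat 6497, .ofNat 0, .ofNat 2442781650273462534536960375132168513987483095007232, .ofNat 3703543193539886771769264899160702930483412992, .ofNat 0, .ofNat 0,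 .ofNat 117687677590094153047875864084442269817860729870483456, .ofNat 2117133951337458320508913606482258887427047292928, .ofNat 0, .ofNat 0, .ofNat 0, .ofNat 26666752969989482216302821805163820126471979008, .ofNat 0, .ofNat 0, .ofNat 0, .ofNat 22292804777164535702916674081193369357162381312, .ofNat 0⟩)
    (by decide +kernel)
theorem L06522 : Good (Phi V5.P V5.D 1 1) ⟨7, 114, 6, 42, 3, 7, 3, 7, 5, 3⟩ :=
  leafX_sound T5.ok_pp T5.Ypp.bz_eq (w := 267) (c := ⟨⟨.negSucc 9915, .negSucc 282, .ofNat 2, .ofNat 867, .negSucc 2213, .ofNat 1824⟩, ⟨.negSucc 6517, .ofNat 78, .negSucc 282, .ofNat 597, .negSucc 1450, .ofNat 1188⟩, ⟨.ofNat 7577, .negSucc 137, .ofNat 188, .negSucc 2213, .ofNat 1740, .negSucc 1085⟩, ⟨.negSucc 23279, .negSucc 167, .negSucc 249, .ofNat 424, .negSucc 2468, .ofNat 2697⟩, ⟨.ofNat 14121, .ofNat 8, .ofNat 65, .ofNat 1199, .negSucc 901, .negSucc 244⟩, .ofNat 17424, .negSucc 25593, .ofNat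 0, .negSucc 25593, .ofNat 38383, .ofNat 0, .ofNat 128, .ofNat 3232, .negSucc 4031, .ofNat 0, .ofNat 2181, .negSucc 2644, .ofNat 0, .ofNat 0, .ofNat 4252, .ofNat 2113, .ofNat 0, .ofNat 0, .ofNat 168685463334338416988434639409382568390295552, .ofNat 0, .ofNat 0, .ofNat 0, .ofNat 21111694459549248789549576383315413199948349440, .ofNat 0, .ofNat 0, .ofNat 6226129686284856865517604268887788251271654950154797056, .ofNat 2647409631349409079552583917710274454481797120, .ofNat 0, .ofNat 0, .ofNat 3885197398093270557663901426500516229512464591847686144, .ofNat 19354687157190371410546907139741539042945138688, .ofNat 11119440498457733203495656899500781699047549139148267847680⟩)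
    (by decide +kernel)
theorem L06523 : Good (Phi V5.P V5.D 1 1) ⟨8, 228, 6, 43, 3, 7, 3, 7, 5, 3⟩ :=
  out_sound (S := T5.ds_pp) T5.ok_pp (w := 81) (j := 3) (by decide +kernel)
theorem L06524 : Good (Phi V5.P V5.D 1 1) ⟨8, 229, 6, 43, 3, 7, 3, 7, 5, 3⟩ :=
  out_sound (S := T5.ds_pp) T5.ok_pp (w := 23) (j := 4) (by decide +kernel)
theorem L06525 : Good (Phi V5.P V5.D 1 1) ⟨7, 115, 4, 10, 3, 7, 3, 7, 5, 3⟩ :=
  out_sound (S := T5.ds_pp) T5.ok_pp (w := 21) (j := 4) (by decide +kernel)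
theorem L06526 : Good (Phi V5.P V5.D 1 1) ⟨6, 56, 4, 11, 3, 7, 3, 7, 4, 1⟩ :=
  out_sound (S := T5.ds_pp) T5.ok_pp (w := 65) (j := 3) (by decide +kernel)
theorem L06527 : Good (Phi V5.P V5.D 1 1) ⟨7, 114, 5, 22, 3, 7, 3, 7, 4, 1⟩ :=
  out_sound (S := T5.ds_pp) T5.ok_pp (w := 73) (j := 3) (by decide +kernel)
theorem L06528 : Good (Phi V5.P V5.D 1 1) ⟨7, 115, 5, 22, 3, 7, 3, 7, 4, 1⟩ :=
  out_sound (S := T5.ds_pp) T5.ok_pp (w := 21) (j := 4) (by decide +kernel)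
theorem L06529 : Good (Phi V5.P V5.D 1 1) ⟨6, 57, 5, 23, 3, 7, 3, 7, 4, 1⟩ :=
  out_sound (S := T5.ds_pp) T5.ok_pp (w := 67) (j := 3) (by decide +kernel)
theorem L06530 : Good (Phi V5.P V5.D 1 1) ⟨5, 29, 3, 5, 3, 7, 3, 7, 4, 1⟩ :=
  out_sound (S := T5.ds_pp) T5.ok_pp (w := 17) (j := 4) (by decide +kernel)
theorem L06531 : Good (Phi V5.P V5.D 1 1) ⟨4, 15, 3, 5, 3, 7, 3, 7, 4, 1⟩ :=
  out_sound (S := T5.ds_pp) T5.ok_pp (w := 51) (j := 3) (by decide +kernel)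
theorem L06532 : Good (Phi V5.P V5.D 1 1) ⟨2, 2, 3, 5, 2, 3, 2, 3, 3, 1⟩ :=
  out_sound (S := T5.ds_pp) T5.ok_pp (w := 39) (j := 3) (by decide +kernel)
theorem L06533 : Good (Phi V5.P V5.D 1 1) ⟨3, 6, 3, 5, 2, 3, 2, 3, 3, 1⟩ :=
  out_sound (S := T5.ds_pp) T5.ok_pp (w := 45) (j := 3) (by decide +kernel)
theorem L06534 : Good (Phi V5.P V5.D 1 1) ⟨7, 112, 4, 10, 2, 3, 3, 6, 5, 4⟩ :=
  leafX_sound T5.ok_pp T5.Ypp.bz_eq (w := 237) (c := ⟨⟨.negSucc 7156, .negSucc 659, .ofNat 1486, .ofNat 1897, .negSucc 924, .ofNat 930⟩, ⟨.negSucc 4613, .negSucc 362, .ofNat 475, .ofNat 1300, .negSucc 575, .ofNat 572⟩, ⟨.ofNat 5532, .ofNat 321, .negSucc 699, .negSucc 2250, .ofNat 729, .negSucc 428⟩, ⟨.negSucc 12028, .negSucc 668, .ofNat 1000, .negSucc 2267, .negSucc 2163, .ofNat 2730⟩, ⟨.ofNat 2694, .negSucc 163, .ofNat 953, .ofNat 7722, .ofNat 1327, .negSucc 2193⟩, .ofNat 2219, .negSucc 3037, .ofNat 0, .negSucc 3037, .ofNat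 4938, .ofNat 0, .ofNat 128, .ofNat 840, .negSucc 862, .ofNat 0, .ofNat 562, .negSucc 496, .ofNat 0, .ofNat 0, .ofNat 1311, .ofNat 843, .ofNat 0, .ofNat 0, .ofNat 0, .ofNat 0, .ofNat 0, .ofNat 0, .ofNat 6012646187674805244354255775316230275072, .ofNat 0, .ofNat 0, .ofNat 658727182494586738486032825313951416520420622336, .ofNat 11160113625583154154419447812899643326464, .ofNat 0, .ofNat 0, .ofNat 0, .ofNat 0, .ofNat 0⟩)
    (by decide +kernel)
theorem L06535 : Good (Phi V5.P V5.D 1 1) ⟨7, 113, 4, 10, 2, 3, 3, 6, 5, 4⟩ :=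
  leafX_sound T5.ok_pp T5.Ypp.bz_eq (w := 237) (c := ⟨⟨.negSucc 7417, .negSucc 204, .negSucc 156, .ofNat 1754, .negSucc 1146, .ofNat 853⟩, ⟨.negSucc 4712, .negSucc 34, .negSucc 693, .ofNat 1205, .negSucc 744, .ofNat 550⟩, ⟨.ofNat 5675, .ofNat 124, .ofNat 36, .negSucc 2169, .ofNat 847, .negSucc 444⟩, ⟨.negSucc 12171, .negSucc 350, .negSucc 728, .negSucc 2619, .negSucc 2564, .ofNat 2779⟩, ⟨.ofNat 2637, .ofNat 174, .ofNat 396, .ofNat 7825, .ofNat 1431, .negSucc 2368⟩, .ofNat 1461, .negSucc 1857, .ofNat 0, .negSucc 1857, .ofNat 3068, .ofNat 0, .ofNat 128, .ofNat 578, .negSucc 567, .ofNat 0, .ofNat 397, .negSucc 311, .ofNat 0, .ofNat 0, .ofNat 826, .ofNat 670, .ofNat 0, .ofNat 0, .ofNat 67206559126829380848667300155686387712, .ofNat 0, .ofNat 0, .ofNat 0, .ofNat 3001617015725923132418190854317680885760, .ofNat 0, .ofNat 0, .ofNat 0, .ofNat 0, .ofNat 0, .ofNat 0, .ofNat 0, .ofNat 0, .ofNat 0⟩)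
    (by decide +kernel)
theorem L06536 : Good (Phi V5.P V5.D 1 1) ⟨6, 56, 4, 10, 2, 3, 3, 7, 5, 4⟩ :=
  leafX_sound T5.ok_pp T5.Ypp.bz_eq (w := 235) (c := ⟨⟨.negSucc 8088, .negSucc 618, .ofNat 260, .ofNat 1203, .negSucc 608, .ofNat 1254⟩, ⟨.negSucc 5243, .negSucc 164, .negSucc 512, .ofNat 847, .negSucc 377, .ofNat 797⟩, ⟨.ofNat 6508, .ofNat 667, .negSucc 311, .negSucc 2408, .ofNat 738, .negSucc 655⟩, ⟨.negSucc 14298, .negSucc 1011, .negSucc 344, .negSucc 3052, .negSucc 1735, .ofNat 3685⟩, ⟨.ofNat 4343, .ofNat 485, .ofNat 552, .ofNat 7296, .ofNat 1334, .negSucc 2944⟩, .ofNat 3507, .negSucc 5017, .ofNat 0, .negSucc 5017, .ofNat 7972, .ofNat 0, .ofNat 128, .ofNat 940, .negSucc 1164, .ofNat 0, .ofNat 625, .negSucc 702, .ofNat 0, .ofNat 0, .ofNat 1816, .ofNat 736, .ofNat 0, .ofNat 203982445147423640579157628064361678154760192, .ofNat 427331426561658694642039984152517804032, .ofNat 0, .ofNat 0, .ofNat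 13632196665135356914804504634883461081292865536, .ofNat 18541637316588567995230138087089224286208, .ofNat 0, .ofNat 0, .ofNat 154475597214735195132425007060441212640261308416, .ofNat 9030465472885835332566293649993626550272, .ofNat 0, .ofNat 0, .ofNat 271876141583766668092389489471735433008611590144, .ofNat 14549924449652242468243633839564616892416, .ofNat 0⟩)
    (by decide +kernel)
theorem L06537 : Good (Phi V5.P V5.D 1 1) ⟨6, 57, 5, 20, 2, 3, 3, 6, 5, 4⟩ :=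
  leafX_sound T5.ok_pp T5.Ypp.bz_eq (w := 244) (c := ⟨⟨.negSucc 7595, .ofNat 3, .negSucc 316, .ofNat 1812, .negSucc 1068, .ofNat 1186⟩, ⟨.negSucc 5171, .ofNat 2, .negSucc 64, .ofNat 1246, .negSucc 699, .ofNat 773⟩, ⟨.ofNat 6295, .negSucc 2, .negSucc 298, .negSucc 2265, .ofNat 790, .negSucc 598⟩, ⟨.negSucc 14114, .ofNat 7, .negSucc 11, .negSucc 1178, .negSucc 2280, .ofNat 2722⟩, ⟨.ofNat 4521, .negSucc 3, .ofNat 2, .ofNat 5650, .ofNat 1182, .negSucc 1601⟩, .ofNat 9798, .negSucc 14383, .ofNat 0, .negSucc 14383, .ofNat 21914, .ofNat 0, .ofNat 128, .ofNat 4244, .negSucc 3456, .ofNat 0, .ofNat 2837, .negSucc 2233, .ofNat 0, .ofNat 0, .ofNat 5292, .ofNat 7230, .ofNat 0, .ofNat 0, .ofNat 18909233982319051618630861847237178163200, .ofNat 0, .ofNat 0, .ofNat 0, .ofNat 244688448423125955583526230145237522361352192, .ofNat 0, .ofNat 0, .ofNat 0, .ofNat 188520881360998184657909371993053709991936, .ofNat 0, .ofNat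 0, .ofNat 0, .ofNat 34787350028912365690907613369987267767042048, .ofNat 0⟩)
    (by decide +kernel)
theorem L06538 : Good (Phi V5.P V5.D 1 1) ⟨6, 57, 5, 21, 2, 3, 3, 6, 5, 4⟩ :=
  leafX_sound T5.ok_pp T5.Ypp.bz_eq (w := 236) (c := ⟨⟨.negSucc 7765, .negSucc 9, .negSucc 125, .ofNat 1657, .negSucc 1065, .ofNat 1108⟩, ⟨.negSucc 5129, .ofNat 281, .negSucc 417, .ofNat 1120, .negSucc 707, .ofNat 740⟩, ⟨.ofNat 5918, .ofNat 578, .negSucc 242, .negSucc 2172, .ofNat 798, .negSucc 572⟩, ⟨.negSucc 12724, .negSucc 326, .negSucc 502, .negSucc 3139, .negSucc 2438, .ofNat 3209⟩, ⟨.ofNat 2766, .ofNat 363, .ofNat 473, .ofNat 8182, .ofNat 1413, .negSucc 2467⟩, .ofNat 1565, .negSucc 1990, .ofNat 0, .negSucc 1990, .ofNat 3220, .ofNat 0, .ofNat 128, .ofNat 571, .negSucc 660, .ofNat 0, .ofNat 397, .negSucc 373, .ofNat 0, .ofNat 0, .ofNat 967, .ofNat 781, .ofNat 0, .ofNat 0, .ofNat 524151839932439720531786442460167667712,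 .ofNat 17424517922329474897170802479264936658275338813440, .ofNat 0, .ofNat 0, .ofNat 50454570200701534763812580793169196613632, .ofNat 0, .ofNat 0, .ofNat 0, .ofNat 42318707403640209643841829139844752736256, .ofNat 365589147070745692069707189879442909340138528047104, .ofNat 0, .ofNat 0, .ofNat 6970615149073364538293287904161478737920, .ofNat 1061026551092424324637159751981635603580382844289024⟩)
    (by decide +kernel)
theorem L06539 : Good (Phi V5.P V5.D 1 1) ⟨6, 57, 4, 10, 3, 6, 3, 7, 5, 4⟩ :=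
  leafX_sound T5.ok_pp T5.Ypp.bz_eq (w := 251) (c := ⟨⟨.negSucc 8472, .negSucc 408, .ofNat 280, .ofNat 270, .negSucc 620, .ofNat 1375⟩, ⟨.negSucc 5354, .negSucc 202, .negSucc 285, .ofNat 192, .negSucc 399, .ofNat 905⟩, ⟨.ofNat 6228, .negSucc 71, .ofNat 393, .negSucc 194, .ofNat 1140, .negSucc 898⟩, ⟨.negSucc 14638, .negSucc 413, .negSucc 355, .negSucc 1939, .negSucc 1764, .ofNat 3485⟩, ⟨.ofNat 4503, .ofNat 387, .ofNat 389, .ofNat 3488, .ofNat 1359, .negSucc 2346⟩, .ofNat 7131, .negSucc 10320, .ofNat 0, .negSucc 10320, .ofNat 15719, .ofNat 0, .ofNat 128, .ofNat 1381, .negSucc 1474, .ofNat 0, .ofNat 931, .negSucc 949, .ofNat 0, .ofNat 0, .ofNat 2244, .ofNat 624, .ofNat 0, .ofNat 0, .ofNat 3596300364101799624265832354887825119772672, .ofNat 0, .ofNat 0, .ofNat 398630742394475073603475606782286708979428210245632, .ofNat 1384819019697555741196406612891635447798693888, .ofNat 0, .ofNat 0, .ofNat 0, .ofNat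 326352306985120890777235001466328465432117248, .ofNat 0, .ofNat 0, .ofNat 0, .ofNat 0, .ofNat 0⟩)
    (by decide +kernel)
theorem L06540 : Good (Phi V5.P V5.D 1 1) ⟨6, 57, 4, 10, 3, 7, 3, 7, 5, 4⟩ :=
  leafX_sound T5.ok_pp T5.Ypp.bz_eq (w := 247) (c := ⟨⟨.negSucc 7845, .negSucc 216, .negSucc 261, .ofNat 574, .negSucc 1289, .ofNat 1303⟩, ⟨.negSucc 4698, .ofNat 276, .negSucc 1086, .ofNat 392, .negSucc 861, .ofNat 862⟩, ⟨.ofNat 6398, .ofNat 322, .negSucc 116, .negSucc 1817, .ofNat 1016, .negSucc 774⟩, ⟨.negSucc 16749, .negSucc 746, .negSucc 843, .negSucc 1643, .negSucc 2977, .ofNat 4158⟩, ⟨.ofNat 8795, .ofNat 595, .ofNat 444, .ofNat 3679, .ofNat 1722, .negSucc 3500⟩, .ofNat 1566, .negSucc 1992, .ofNat 0, .negSucc 1992, .ofNat 3223, .ofNat 0, .ofNat 128, .ofNat 703, .negSucc 846, .ofNat 0, .ofNat 492, .negSucc 453, .ofNat 0, .ofNat 0, .ofNat 1266, .ofNat 715, .ofNat 0, .ofNat 1067012449107408718937569171773070443667083231232,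 .ofNat 7964800793508311832086494026489159716175872, .ofNat 26691738573709449819874896350575174805262639103475712, .ofNat 0, .ofNat 195561986137314757630039520828933344644260534681600, .ofNat 213471087978842568504000153666140282504085504, .ofNat 0, .ofNat 0, .ofNat 350630987636886999039550738387540937572192465453056, .ofNat 146152411839897924202474789794276583728480256, .ofNat 169254901337705118674134066092725889278289507086499840, .ofNat 0, .ofNat 603059795800899820024437344435758853922918320046080, .ofNat 447692605630746334120928143846526620086042624, .ofNat 2496575593416242857172548768430408503774423499568840704⟩)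
    (by decide +kernel)
theorem L06541 : Good (Phi V5.P V5.D 1 1) ⟨6, 56, 4, 11, 2, 3, 2, 3, 5, 4⟩ :=
  out_sound (S := T5.ds_pp) T5.ok_pp (w := 65) (j := 3) (by decide +kernel)
theorem L06542 : Good (Phi V5.P V5.D 1 1) ⟨7, 114, 5, 22, 2, 3, 2, 3, 5, 4⟩ :=
  out_sound (S := T5.ds_pp) T5.ok_pp (w := 73) (j := 3) (by decide +kernel)
theorem L06543 : Good (Phi V5.P V5.D 1 1) ⟨7, 115, 5, 22, 2, 3, 2, 3, 5, 4⟩ :=
  out_sound (S := T5.ds_pp) T5.ok_pp (w := 21) (j := 4) (by decide +kernel)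
theorem L06544 : Good (Phi V5.P V5.D 1 1) ⟨6, 57, 5, 23, 2, 3, 2, 3, 5, 4⟩ :=
  out_sound (S := T5.ds_pp) T5.ok_pp (w := 67) (j := 3) (by decide +kernel)
theorem L06545 : Good (Phi V5.P V5.D 1 1) ⟨6, 56, 5, 20, 3, 6, 2, 3, 5, 5⟩ :=
  leafX_sound T5.ok_pp T5.Ypp.bz_eq (w := 248) (c := ⟨⟨.negSucc 6327, .negSucc 53, .negSucc 47, .ofNat 284, .negSucc 993, .ofNat 920⟩, ⟨.negSucc 4050, .negSucc 6, .negSucc 188, .ofNat 201, .negSucc 631, .ofNat 587⟩, ⟨.ofNat 4829, .negSucc 148, .ofNat 170, .negSucc 354, .ofNat 1431, .negSucc 618⟩, ⟨.negSucc 10049, .negSucc 75, .negSucc 157, .negSucc 922, .negSucc 2041, .ofNat 2061⟩, ⟨.ofNat 1601, .ofNat 149, .ofNat 114, .ofNat 2031, .ofNat 994, .negSucc 1176⟩, .ofNat 5240, .negSucc 7609, .ofNat 0, .negSucc 7609, .ofNat 11861, .ofNat 0, .ofNat 128, .ofNat 887, .negSucc 673, .ofNat 0, .ofNat 591, .negSucc 417, .ofNat 0, .ofNat 0, .ofNat 1456, .ofNat 2157, .ofNat 0, .ofNat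 0, .ofNat 0, .ofNat 0, .ofNat 0, .ofNat 811454180194359389593974764262141168580848825401344, .ofNat 150451645181402937278649072341555741083041792, .ofNat 0, .ofNat 0, .ofNat 1185907189258411435718506054711006533584251615444992, .ofNat 34661947062299025327761085116396459459084288, .ofNat 0, .ofNat 0, .ofNat 1954694761232905046243948368474178744596825288736768, .ofNat 64868129224661447313549226066757422321500160, .ofNat 0⟩)
    (by decide +kernel)
theorem L06546 : Good (Phi V5.P V5.D 1 1) ⟨6, 56, 5, 20, 3, 7, 2, 3, 5, 5⟩ :=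
  leafX_sound T5.ok_pp T5.Ypp.bz_eq (w := 249) (c := ⟨⟨.negSucc 5582, .negSucc 635, .ofNat 225, .ofNat 923, .negSucc 1751, .ofNat 662⟩, ⟨.negSucc 3587, .negSucc 299, .negSucc 65, .ofNat 641, .negSucc 1126, .ofNat 416⟩, ⟨.ofNat 4182, .ofNat 247, .negSucc 43, .negSucc 1126, .ofNat 1329, .negSucc 342⟩, ⟨.negSucc 10550, .negSucc 720, .negSucc 134, .negSucc 1475, .negSucc 3017, .ofNat 2252⟩, ⟨.ofNat 4089, .negSucc 181, .ofNat 550, .ofNat 4279, .ofNat 842, .negSucc 2033⟩, .ofNat 3648, .negSucc 5182, .ofNat 0, .negSucc 5182, .ofNat 8156, .ofNat 0, .ofNat 128, .ofNat 1771, .negSucc 562, .ofNat 0, .ofNat 1195, .negSucc 321, .ofNat 0, .ofNat 0, .ofNat 1701, .ofNat 1815, .ofNat 0, .ofNat 0, .ofNat 1444066173897721966298808138917518916976640, .ofNat 0, .ofNat 0, .ofNat 378041722372498867563343840635513656758853026447360, .ofNat 145713967404607904850097545258184390050054144, .ofNat 0, .ofNat 0, .ofNat 4708957047708722244481886262663796313198257971920896,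 .ofNat 155904913757082655196339492041533249149730816, .ofNat 0, .ofNat 0, .ofNat 2539305762480577292948446490250407880825663228215296, .ofNat 79016387074495022206169390527330405717114880, .ofNat 0⟩)
    (by decide +kernel)
theorem L06547 : Good (Phi V5.P V5.D 1 1) ⟨6, 56, 5, 21, 2, 3, 2, 3, 5, 5⟩ :=
  leafX_sound T5.ok_pp T5.Ypp.bz_eq (w := 241) (c := ⟨⟨.negSucc 6492, .negSucc 2, .negSucc 484, .ofNat 1294, .negSucc 1441, .ofNat 760⟩, ⟨.negSucc 4295, .negSucc 1, .negSucc 576, .ofNat 893, .negSucc 941, .ofNat 492⟩, ⟨.ofNat 5006, .ofNat 2, .ofNat 165, .negSucc 1685, .ofNat 1365, .negSucc 393⟩, ⟨.negSucc 11681, .negSucc 5, .negSucc 181, .negSucc 127, .negSucc 1553, .ofNat 1222⟩, ⟨.ofNat 3827, .ofNat 2, .negSucc 138, .ofNat 2968, .negSucc 669, .negSucc 237⟩, .ofNat 14664, .negSucc 21711, .ofNat 0, .negSucc 21711, .ofNat 32953, .ofNat 0, .ofNat 128, .ofNat 3769, .negSucc 1823, .ofNat 0, .ofNat 2520, .negSucc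 1176, .ofNat 0, .ofNat 0, .ofNat 4885, .ofNat 4981, .ofNat 0, .ofNat 0, .ofNat 0, .ofNat 0, .ofNat 0, .ofNat 28837073767597670800826466680113507774278664192, .ofNat 159223073728929209658278840614966265905152, .ofNat 0, .ofNat 0, .ofNat 4673103512009534846875043607166858688568410243072, .ofNat 397709934600703034362842619681644543475712, .ofNat 0, .ofNat 0, .ofNat 4193275600571301645286612657420512163149270482944, .ofNat 16277083267747559932835147096154139787264, .ofNat 0⟩)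
    (by decide +kernel)
theorem L06548 : Good (Phi V5.P V5.D 1 1) ⟨7, 114, 5, 20, 2, 3, 2, 3, 5, 5⟩ :=
  leafX_sound T5.ok_pp T5.Ypp.bz_eq (w := 246) (c := ⟨⟨.negSucc 6507, .ofNat 3, .ofNat 68, .ofNat 1344, .negSucc 1642, .ofNat 661⟩, ⟨.negSucc 4250, .ofNat 2, .negSucc 11, .ofNat 928, .negSucc 1076, .ofNat 428⟩, ⟨.ofNat 4920, .negSucc 1, .ofNat 58, .negSucc 1674, .ofNat 1494, .negSucc 394⟩, ⟨.negSucc 11824, .ofNat 6, .negSucc 2, .negSucc 242, .negSucc 1656, .ofNat 1552⟩, ⟨.ofNat 4171, .negSucc 1, .ofNat 3, .ofNat 3245, .negSucc 929, .negSucc 950⟩, .ofNat 14068, .negSucc 20813, .ofNat 0, .negSucc 20813, .ofNat 31600, .ofNat 0, .ofNat 128, .ofNat 5364, .negSucc 2711, .ofNat 0, .ofNat 3586, .negSucc 1751, .ofNat 0, .ofNat 0, .ofNat 6613, .ofNat 6589, .ofNat 0, .ofNat 0, .ofNat 99704753876311249652642386565090246656, .ofNat 0, .ofNat 0, .ofNat 7379049086779787682733538675073772809091240951808, .ofNat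 2710630770709721759580491753019060625866752, .ofNat 0, .ofNat 0, .ofNat 197294362205796489422100860380174537689338562478080, .ofNat 1037384261880395544986603630328967294091264, .ofNat 0, .ofNat 0, .ofNat 118039173239529277528367104943592056913255236370432, .ofNat 0, .ofNat 0⟩)
    (by decide +kernel)
theorem L06549 : Good (Phi V5.P V5.D 1 1) ⟨8, 228, 6, 42, 2, 3, 3, 6, 5, 5⟩ :=
  leafX_sound T5.ok_pp T5.Ypp.bz_eq (w := 253) (c := ⟨⟨.negSucc 6489, .negSucc 338, .ofNat 254, .ofNat 1390, .negSucc 750, .ofNat 661⟩, ⟨.negSucc 4297, .negSucc 195, .ofNat 57, .ofNat 956, .negSucc 490, .ofNat 433⟩, ⟨.ofNat 5104, .negSucc 369, .ofNat 414, .negSucc 1819, .ofNat 633, .negSucc 354⟩, ⟨.negSucc 10670, .negSucc 284, .negSucc 73, .negSucc 1996, .negSucc 1257, .ofNat 2222⟩, ⟨.ofNat 2360, .ofNat 87, .ofNat 203, .ofNat 5942, .ofNat 313, .negSucc 1944⟩, .ofNat 7212, .negSucc 10436, .ofNat 0, .negSucc 10436, .ofNat 15885,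 .ofNat 0, .ofNat 128, .ofNat 2610, .negSucc 1659, .ofNat 0, .ofNat 1763, .negSucc 1054, .ofNat 0, .ofNat 0, .ofNat 4449, .ofNat 2979, .ofNat 0, .ofNat 0, .ofNat 1535975303017555674421795773852977987584, .ofNat 0, .ofNat 0, .ofNat 0, .ofNat 277977066783166021653964249947762434506752, .ofNat 0, .ofNat 0, .ofNat 0, .ofNat 778441730955034699854718633958809605767168, .ofNat 0, .ofNat 0, .ofNat 0, .ofNat 0, .ofNat 0⟩)
    (by decide +kernel)
theorem L06550 : Good (Phi V5.P V5.D 1 1) ⟨8, 229, 6, 42, 2, 3, 3, 6, 5, 5⟩ :=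
  out_sound (S := T5.ds_pp) T5.ok_pp (w := 23) (j := 4) (by decide +kernel)
theorem L06551 : Good (Phi V5.P V5.D 1 1) ⟨7, 114, 6, 42, 2, 3, 3, 7, 5, 5⟩ :=
  leafX_sound T5.ok_pp T5.Ypp.bz_eq (w := 247) (c := ⟨⟨.negSucc 7003, .negSucc 40, .negSucc 42, .ofNat 711, .negSucc 528, .ofNat 997⟩, ⟨.negSucc 4634, .ofNat 65, .negSucc 155, .ofNat 512, .negSucc 331, .ofNat 667⟩, ⟨.ofNat 5558, .ofNat 235, .negSucc 41, .negSucc 612, .ofNat 844, .negSucc 714⟩, ⟨.negSucc 12229, .ofNat 10, .negSucc 31, .negSucc 1482, .negSucc 251, .ofNat 2935⟩, ⟨.ofNat 3595, .negSucc 23, .negSucc 72, .ofNat 3746, .negSucc 699, .negSucc 2305⟩, .ofNat 7224, .negSucc 10454, .ofNat 0, .negSucc 10454, .ofNat 15910, .ofNat 0, .ofNat 128, .ofNat 1524, .negSucc 888, .ofNat 0, .ofNat 1029, .negSucc 569, .ofNat 0, .ofNat 0, .ofNat 1910, .ofNat 2114, .ofNat 0, .ofNat 0, .ofNat 0, .ofNat 0, .ofNat 0, .ofNat 259544085313026082073407354006613878642415891382272,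 .ofNat 271575489398829582995231488064015489302528, .ofNat 0, .ofNat 0, .ofNat 625426292526646148916103345138678180237943307763712, .ofNat 49439874393332629534988132070441439199232, .ofNat 0, .ofNat 0, .ofNat 1837062586216774571478974975596759793058890983145472, .ofNat 30134570658557549044016693724662651158528, .ofNat 0⟩)
    (by decide +kernel)
theorem L06552 : Good (Phi V5.P V5.D 1 1) ⟨8, 228, 6, 43, 2, 3, 2, 3, 5, 5⟩ :=
  out_sound (S := T5.ds_pp) T5.ok_pp (w := 81) (j := 3) (by decide +kernel)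
theorem L06553 : Good (Phi V5.P V5.D 1 1) ⟨8, 229, 6, 43, 2, 3, 2, 3, 5, 5⟩ :=
  out_sound (S := T5.ds_pp) T5.ok_pp (w := 23) (j := 4) (by decide +kernel)
theorem L06554 : Good (Phi V5.P V5.D 1 1) ⟨7, 115, 4, 10, 2, 3, 2, 3, 5, 5⟩ :=
  out_sound (S := T5.ds_pp) T5.ok_pp (w := 21) (j := 4) (by decide +kernel)
theorem L06555 : Good (Phi V5.P V5.D 1 1) ⟨6, 56, 4, 11, 2, 3, 2, 3, 5, 5⟩ :=
  out_sound (S := T5.ds_pp) T5.ok_pp (w := 65) (j := 3) (by decide +kernel)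
theorem L06556 : Good (Phi V5.P V5.D 1 1) ⟨7, 114, 5, 22, 2, 3, 2, 3, 5, 5⟩ :=
  out_sound (S := T5.ds_pp) T5.ok_pp (w := 73) (j := 3) (by decide +kernel)
theorem L06557 : Good (Phi V5.P V5.D 1 1) ⟨7, 115, 5, 22, 2, 3, 2, 3, 5, 5⟩ :=
  out_sound (S := T5.ds_pp) T5.ok_pp (w := 21) (j := 4) (by decide +kernel)
theorem L06558 : Good (Phi V5.P V5.D 1 1) ⟨6, 57, 5, 23, 2, 3, 2, 3, 5, 5⟩ :=
  out_sound (S := T5.ds_pp) T5.ok_pp (w := 67) (j := 3) (by decide +kernel)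
theorem L06559 : Good (Phi V5.P V5.D 1 1) ⟨5, 29, 3, 5, 2, 3, 2, 3, 4, 2⟩ :=
  out_sound (S := T5.ds_pp) T5.ok_pp (w := 17) (j := 4) (by decide +kernel)
theorem L06560 : Good (Phi V5.P V5.D 1 1) ⟨4, 15, 3, 5, 2, 3, 2, 3, 4, 2⟩ :=
  out_sound (S := T5.ds_pp) T5.ok_pp (w := 51) (j := 3) (by decide +kernel)
theorem L06561 : Good (Phi V5.P V5.D 1 1) ⟨6, 56, 4, 10, 3, 6, 2, 3, 4, 3⟩ :=
  leafX_sound T5.ok_pp T5.Ypp.bz_eq (w := 238) (c := ⟨⟨.negSucc 5444, .ofNat 33, .negSucc 184, .ofNat 323, .negSucc 835, .ofNat 1128⟩, ⟨.negSucc 3457, .negSucc 52, .negSucc 238, .ofNat 223, .negSucc 540, .ofNat 724⟩, ⟨.ofNat 4114, .ofNat 66, .ofNat 132, .negSucc 336, .ofNat 1127, .negSucc 929⟩, ⟨.negSucc 8147, .ofNat 15, .negSucc 228, .negSucc 430, .negSucc 1391, .ofNat 2514⟩, ⟨.ofNat 622, .ofNat 105, .ofNat 67, .ofNat 1367, .ofNat 326, .negSucc 1416⟩, .ofNat 3647, .negSucc 5180, .ofNat 0, .negSucc 5180, .ofNat 8153, .ofNat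 0, .ofNat 128, .ofNat 602, .negSucc 207, .ofNat 0, .ofNat 406, .negSucc 122, .ofNat 0, .ofNat 0, .ofNat 958, .ofNat 1727, .ofNat 0, .ofNat 0, .ofNat 0, .ofNat 0, .ofNat 0, .ofNat 6512175804690272808292897389511738883383790403584, .ofNat 1351480037803758264414282532133931854069760, .ofNat 0, .ofNat 0, .ofNat 14834858724800745310358426134297230129580788940800, .ofNat 478806500241862170795084326911480267014144, .ofNat 0, .ofNat 0, .ofNat 20887089609511782967119208727692558116766145839104, .ofNat 294840034480903666625131053012839873642496, .ofNat 0⟩)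
    (by decide +kernel)
theorem L06562 : Good (Phi V5.P V5.D 1 1) ⟨6, 56, 4, 10, 3, 7, 2, 3, 4, 3⟩ :=
  leafX_sound T5.ok_pp T5.Ypp.bz_eq (w := 241) (c := ⟨⟨.negSucc 5199, .ofNat 291, .negSucc 518, .ofNat 670, .negSucc 1152, .ofNat 1084⟩, ⟨.negSucc 3359, .ofNat 313, .negSucc 723, .ofNat 466, .negSucc 741, .ofNat 665⟩, ⟨.ofNat 3708, .ofNat 159, .negSucc 35, .negSucc 856, .ofNat 1093, .negSucc 692⟩, ⟨.negSucc 8608, .ofNat 38, .negSucc 690, .negSucc 1509, .negSucc 1421, .ofNat 2572⟩, ⟨.ofNat 1994, .ofNat 520, .negSucc 83, .ofNat 3764, .negSucc 328, .negSucc 1681⟩, .ofNat 5222, .negSucc 7586, .ofNat 0, .negSucc 7586, .ofNat 11832, .ofNat 0, .ofNat 128, .ofNat 1279, .negSucc 328, .ofNat 0, .ofNat 860, .negSucc 185, .ofNat 0, .ofNat 0, .ofNat 1845, .ofNat 1823, .ofNat 0, .ofNat 388272630286975234231331317509777814859995414528, .ofNat 13773067102847319545570366565475627827200, .ofNat 0, .ofNat 0, .ofNat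 22388703852353733986554675107737673483638204792832, .ofNat 3607007102848896850917509729169693885857792, .ofNat 0, .ofNat 0, .ofNat 83337449920429354666367188344992948125450398334976, .ofNat 3836019260627695141787396546351173556240384, .ofNat 0, .ofNat 0, .ofNat 91582087470512464410651957059231905700482576809984, .ofNat 1483730570382465623512167171204082990841856, .ofNat 0⟩)
    (by decide +kernel)
theorem L06563 : Good (Phi V5.P V5.D 1 1) ⟨7, 114, 4, 10, 3, 6, 3, 6, 4, 3⟩ :=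
  leafX_sound T5.ok_pp T5.Ypp.bz_eq (w := 250) (c := ⟨⟨.negSucc 5425, .negSucc 56, .negSucc 121, .ofNat 304, .negSucc 463, .ofNat 1150⟩, ⟨.negSucc 3577, .negSucc 124, .negSucc 103, .ofNat 206, .negSucc 308, .ofNat 762⟩, ⟨.ofNat 4243, .ofNat 132, .negSucc 12, .negSucc 309, .ofNat 555, .negSucc 963⟩, ⟨.negSucc 8166, .negSucc 43, .negSucc 23, .negSucc 479, .negSucc 729, .ofNat 2414⟩, ⟨.ofNat 718, .negSucc 64, .negSucc 27, .ofNat 1358, .ofNat 119, .negSucc 1207⟩, .ofNat 7349, .negSucc 10632, .ofNat 0, .negSucc 10632, .ofNat 16164, .ofNat 0, .ofNat 128, .ofNat 1443, .negSucc 475, .ofNat 0, .ofNat 976, .negSucc 302, .ofNat 0, .ofNat 0, .ofNat 2065, .ofNat 863, .ofNat 0, .ofNat 0, .ofNat 43031627650926942922926794181761042481152, .ofNat 0, .ofNat 0, .ofNat 375238776361490671301373581462041006622713929793536, .ofNat 22526056724098243320348140753595888861970432, .ofNat 0, .ofNat 0, .ofNat 0, .ofNat 0, .ofNat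 0, .ofNat 0, .ofNat 0, .ofNat 0, .ofNat 0⟩)
    (by decide +kernel)
theorem L06564 : Good (Phi V5.P V5.D 1 1) ⟨7, 114, 4, 10, 3, 7, 3, 6, 4, 3⟩ :=
  leafX_sound T5.ok_pp T5.Ypp.bz_eq (w := 246) (c := ⟨⟨.negSucc 5238, .negSucc 103, .ofNat 106, .ofNat 676, .negSucc 666, .ofNat 1161⟩, ⟨.negSucc 3278, .negSucc 33, .negSucc 270, .ofNat 455, .negSucc 446, .ofNat 756⟩, ⟨.ofNat 3875, .negSucc 0, .ofNat 65, .negSucc 911, .ofNat 534, .negSucc 760⟩, ⟨.negSucc 8527, .negSucc 498, .negSucc 227, .negSucc 1895, .negSucc 1277, .ofNat 3294⟩, ⟨.ofNat 1948, .ofNat 602, .ofNat 276, .ofNat 4252, .ofNat 497, .negSucc 2544⟩, .ofNat 2685, .negSucc 3661, .ofNat 0, .negSucc 3661, .ofNat 5731, .ofNat 0, .ofNat 128, .ofNat 1041, .negSucc 208, .ofNat 0, .ofNat 724, .negSucc 108, .ofNat 0, .ofNat 0, .ofNat 1050, .ofNat 1976, .ofNat 0, .ofNat 10607815236374658920554307894940645608651071946752, .ofNat 72451302673076956186327507391051368235008,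 .ofNat 911422156002492863222368626750182321803251079446528, .ofNat 0, .ofNat 1027675549301070850374414819601101295289861641601024, .ofNat 5536236776145506050800266163736463171125248, .ofNat 0, .ofNat 0, .ofNat 3457673827957742208322742076327162043657036765331456, .ofNat 0, .ofNat 0, .ofNat 0, .ofNat 3364516062829736673064358689180540735664356440670208, .ofNat 1274611562398691563242826766893927098220544, .ofNat 0⟩)
    (by decide +kernel)
theorem L06565 : Good (Phi V5.P V5.D 1 1) ⟨7, 115, 4, 10, 2, 3, 3, 6, 4, 3⟩ :=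
  out_sound (S := T5.ds_pp) T5.ok_pp (w := 21) (j := 4) (by decide +kernel)
theorem L06566 : Good (Phi V5.P V5.D 1 1) ⟨6, 57, 4, 10, 2, 3, 3, 7, 4, 3⟩ :=
  leafX_sound T5.ok_pp T5.Ypp.bz_eq (w := 227) (c := ⟨⟨.negSucc 6039, .negSucc 124, .negSucc 30, .ofNat 692, .negSucc 613, .ofNat 1484⟩, ⟨.negSucc 3889, .negSucc 132, .negSucc 225, .ofNat 471, .negSucc 406, .ofNat 992⟩, ⟨.ofNat 4750, .ofNat 90, .ofNat 105, .ofNat 19, .ofNat 560, .negSucc 1280⟩, ⟨.negSucc 9103, .negSucc 135, .negSucc 134, .negSucc 1352, .negSucc 986, .ofNat 3779⟩, ⟨.ofNat 929, .ofNat 132, .ofNat 126, .ofNat 3431, .ofNat 127, .negSucc 2540⟩, .ofNat 395, .negSucc 302, .ofNat 0, .negSucc 302, .ofNat 647, .ofNat 0, .ofNat 128, .ofNat 289, .negSucc 280, .ofNat 0, .ofNat 254, .negSucc 53, .ofNat 0, .ofNat 0, .ofNat 554, .ofNat 1387, .ofNat 0, .ofNat 665932106868149515888905798351041969724063744, .ofNat 0, .ofNat 0, .ofNat 0, .ofNat 40144459676470259975204337230294191579894644736,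 .ofNat 13279996585741777958750051694119223296, .ofNat 31950467852587494389965039090619936199313195008, .ofNat 0, .ofNat 34364739486563972749506173397629752440053039104, .ofNat 36231093929279863689845218852143628288, .ofNat 0, .ofNat 0, .ofNat 24364998882059543321165436865307028884587282432, .ofNat 70351065521315571900784253221921095680, .ofNat 0⟩)
    (by decide +kernel)
theorem L06567 : Good (Phi V5.P V5.D 1 1) ⟨6, 56, 4, 11, 2, 3, 2, 3, 4, 3⟩ :=
  out_sound (S := T5.ds_pp) T5.ok_pp (w := 65) (j := 3) (by decide +kernel)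
theorem L06568 : Good (Phi V5.P V5.D 1 1) ⟨7, 114, 5, 22, 2, 3, 2, 3, 4, 3⟩ :=
  out_sound (S := T5.ds_pp) T5.ok_pp (w := 73) (j := 3) (by decide +kernel)
theorem L06569 : Good (Phi V5.P V5.D 1 1) ⟨7, 115, 5, 22, 2, 3, 2, 3, 4, 3⟩ :=
  out_sound (S := T5.ds_pp) T5.ok_pp (w := 21) (j := 4) (by decide +kernel)
theorem L06570 : Good (Phi V5.P V5.D 1 1) ⟨6, 57, 5, 23, 2, 3, 2, 3, 4, 3⟩ :=
  out_sound (S := T5.ds_pp) T5.ok_pp (w := 67) (j := 3) (by decide +kernel)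
theorem L06571 : Good (Phi V5.P V5.D 1 1) ⟨5, 29, 3, 5, 2, 3, 2, 3, 4, 3⟩ :=
  out_sound (S := T5.ds_pp) T5.ok_pp (w := 17) (j := 4) (by decide +kernel)
theorem L06572 : Good (Phi V5.P V5.D 1 1) ⟨4, 15, 3, 5, 2, 3, 2, 3, 4, 3⟩ :=
  out_sound (S := T5.ds_pp) T5.ok_pp (w := 51) (j := 3) (by decide +kernel)
theorem L06573 : Good (Phi V5.P V5.D 1 1) ⟨2, 2, 2, 3, 2, 3, 2, 3, 2, 0⟩ :=
  out_sound (S := T5.ds_pp) T5.ok_pp (w := 37) (j := 3) (by decide +kernel)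
theorem L06574 : Good (Phi V5.P V5.D 1 1) ⟨3, 6, 2, 3, 2, 3, 2, 3, 2, 0⟩ :=
  out_sound (S := T5.ds_pp) T5.ok_pp (w := 43) (j := 3) (by decide +kernel)
theorem L06575 : Good (Phi V5.P V5.D 1 1) ⟨5, 28, 3, 6, 2, 3, 2, 3, 2, 0⟩ :=
  out_sound (S := T5.ds_pp) T5.ok_pp (w := 57) (j := 3) (by decide +kernel)
theorem L06576 : Good (Phi V5.P V5.D 1 1) ⟨5, 29, 3, 6, 2, 3, 2, 3, 2, 0⟩ :=
  out_sound (S := T5.ds_pp) T5.ok_pp (w := 17) (j := 4) (by decide +kernel)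
theorem L06577 : Good (Phi V5.P V5.D 1 1) ⟨4, 14, 3, 7, 2, 3, 2, 3, 2, 0⟩ :=
  out_sound (S := T5.ds_pp) T5.ok_pp (w := 51) (j := 3) (by decide +kernel)
theorem L06578 : Good (Phi V5.P V5.D 1 1) ⟨4, 15, 2, 3, 2, 3, 2, 3, 2, 0⟩ :=
  out_sound (S := T5.ds_pp) T5.ok_pp (w := 15) (j := 4) (by decide +kernel)
theorem L06579 : Good (Phi V5.P V5.D 1 1) ⟨2, 2, 1, 1, 1, 1, 1, 1, 2, 1⟩ :=
  out_sound (S := T5.ds_pp) T5.ok_pp (w := 35) (j := 3) (by decide +kernel)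
theorem L06580 : Good (Phi V5.P V5.D 1 1) ⟨3, 6, 2, 2, 2, 2, 2, 2, 4, 4⟩ :=
  leafX_sound T5.ok_pp T5.Ypp.bz_eq (w := 203) (c := ⟨⟨.negSucc 2627, .negSucc 733, .ofNat 66, .negSucc 140, .negSucc 546, .ofNat 384⟩, ⟨.negSucc 1150, .negSucc 827, .negSucc 255, .negSucc 87, .negSucc 331, .ofNat 223⟩, ⟨.ofNat 2281, .ofNat 324, .ofNat 85, .negSucc 229, .ofNat 577, .negSucc 366⟩, ⟨.negSucc 4272, .negSucc 387, .ofNat 109, .negSucc 201, .negSucc 624, .ofNat 661⟩, ⟨.negSucc 394, .ofNat 131, .ofNat 45, .negSucc 10, .negSucc 294, .negSucc 175⟩, .ofNat 747, .negSucc 827, .ofNat 0, .negSucc 827, .ofNat 1634, .ofNat 0, .ofNat 128, .ofNat 443, .negSucc 103, .ofNat 0, .ofNat 325, .negSucc 45, .ofNat 0, .ofNat 0, .ofNat 582, .ofNat 1393, .ofNat 0, .ofNat 0, .ofNat 0, .ofNat 0, .ofNat 0, .ofNat 0, .ofNat 0, .ofNat 0, .ofNat 0, .ofNat 0, .ofNat 0, .ofNat 0, .ofNat 0, .ofNat 4480891453858968128137423959522528985088, .ofNat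 17715070597533632349283252622682226688, .ofNat 0⟩)
    (by decide +kernel)
theorem L06581 : Good (Phi V5.P V5.D 1 1) ⟨5, 28, 3, 4, 2, 2, 2, 2, 4, 4⟩ :=
  leafX_sound T5.ok_pp T5.Ypp.bz_eq (w := 213) (c := ⟨⟨.negSucc 3283, .negSucc 207, .negSucc 37, .negSucc 158, .negSucc 627, .ofNat 402⟩, ⟨.negSucc 1925, .negSucc 219, .negSucc 184, .negSucc 102, .negSucc 401, .ofNat 252⟩, ⟨.ofNat 2693, .ofNat 237, .negSucc 80, .negSucc 216, .ofNat 644, .negSucc 415⟩, ⟨.negSucc 4565, .negSucc 144, .negSucc 30, .negSucc 186, .negSucc 698, .ofNat 693⟩, ⟨.negSucc 249, .ofNat 68, .negSucc 0, .negSucc 75, .negSucc 312, .negSucc 189⟩, .ofNat 682, .negSucc 675, .ofNat 0, .negSucc 675, .ofNat 1249, .ofNat 0, .ofNat 128, .ofNat 336, .negSucc 85, .ofNat 0, .ofNat 278, .negSucc 37, .ofNat 0, .ofNat 0, .ofNat 458, .ofNat 754, .ofNat 0, .ofNat 0, .ofNat 43932482631077578108427207232716800, .ofNat 0, .ofNat 0, .ofNat 0, .ofNat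 0, .ofNat 0, .ofNat 0, .ofNat 0, .ofNat 0, .ofNat 0, .ofNat 0, .ofNat 6525066299040238680376600607353272467980288, .ofNat 6809184055279009337005084294284050432, .ofNat 0⟩)
    (by decide +kernel)
theorem L06582 : Good (Phi V5.P V5.D 1 1) ⟨5, 28, 3, 5, 2, 2, 2, 2, 4, 4⟩ :=
  leafX_sound T5.ok_pp T5.Ypp.bz_eq (w := 214) (c := ⟨⟨.negSucc 3364, .negSucc 103, .negSucc 82, .negSucc 143, .negSucc 635, .ofNat 426⟩, ⟨.negSucc 2142, .negSucc 138, .negSucc 246, .negSucc 95, .negSucc 417, .ofNat 278⟩, ⟨.ofNat 2700, .negSucc 16, .ofNat 165, .negSucc 218, .ofNat 616, .negSucc 460⟩, ⟨.negSucc 4649, .negSucc 18, .negSucc 47, .negSucc 164, .negSucc 683, .ofNat 721⟩, ⟨.negSucc 241, .negSucc 23, .ofNat 71, .negSucc 65, .negSucc 329, .negSucc 187⟩, .ofNat 903, .negSucc 1022, .ofNat 0, .negSucc 1022, .ofNat 1784, .ofNat 0, .ofNat 128, .ofNat 600, .negSucc 129, .ofNat 0, .ofNat 450, .negSucc 66, .ofNat 0, .ofNat 0, .ofNat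 737, .ofNat 1403, .ofNat 0, .ofNat 0, .ofNat 91673757421253334557844691327385600, .ofNat 43953233032134881388101550405890513955717120, .ofNat 0, .ofNat 0, .ofNat 0, .ofNat 0, .ofNat 0, .ofNat 0, .ofNat 0, .ofNat 0, .ofNat 0, .ofNat 14037143400150658491954767085259139170959360, .ofNat 2774481868181933093309086548875018240, .ofNat 0⟩)
    (by decide +kernel)
theorem L06583 : Good (Phi V5.P V5.D 1 1) ⟨5, 29, 2, 2, 2, 2, 2, 2, 4, 4⟩ :=
  out_sound (S := T5.ds_pp) T5.ok_pp (w := 17) (j := 4) (by decide +kernel)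
theorem L06584 : Good (Phi V5.P V5.D 1 1) ⟨4, 15, 2, 2, 2, 2, 2, 2, 4, 4⟩ :=
  out_sound (S := T5.ds_pp) T5.ok_pp (w := 49) (j := 3) (by decide +kernel)
theorem L06585 : Good (Phi V5.P V5.D 1 1) ⟨4, 12, 2, 2, 2, 3, 2, 2, 4, 4⟩ :=
  out_sound (S := T5.ds_pp) T5.ok_pp (w := 49) (j := 3) (by decide +kernel)
theorem L06586 : Good (Phi V5.P V5.D 1 1) ⟨6, 52, 4, 8, 2, 3, 2, 2, 4, 4⟩ :=
  out_sound (S := T5.ds_pp) T5.ok_pp (w := 65) (j := 3) (by decide +kernel)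
theorem L06587 : Good (Phi V5.P V5.D 1 1) ⟨6, 53, 5, 16, 3, 6, 2, 2, 4, 4⟩ :=
  leafX_sound T5.ok_pp T5.Ypp.bz_eq (w := 235) (c := ⟨⟨.negSucc 3264, .negSucc 46, .negSucc 20, .ofNat 201, .negSucc 633, .ofNat 455⟩, ⟨.negSucc 1778, .negSucc 58, .negSucc 61, .ofNat 125, .negSucc 358, .ofNat 241⟩, ⟨.ofNat 2257, .ofNat 18, .ofNat 30, .negSucc 260, .ofNat 699, .negSucc 375⟩, ⟨.negSucc 4804, .negSucc 45, .ofNat 11, .ofNat 11, .negSucc 818, .ofNat 917⟩, ⟨.negSucc 253, .ofNat 119, .negSucc 77, .ofNat 517, .negSucc 235, .negSucc 424⟩, .ofNat 164, .negSucc 48, .ofNat 0, .negSucc 48, .ofNat 223, .ofNat 0, .ofNat 128, .ofNat 54, .negSucc 50, .ofNat 0, .ofNat 130, .ofNat 26, .ofNat 0, .ofNat 0, .ofNat 222, .ofNat 144, .ofNat 0, .ofNat 0, .ofNat 605962323670659322804267197633031831552, .ofNat 0, .ofNat 0, .ofNat 0, .ofNat 0, .ofNat 0, .ofNat 0, .ofNat 0, .ofNat 0, .ofNat 0, .ofNat 0, .ofNat 3709601909607979562124129503614656919882608672768,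 .ofNat 16320374317311370129485383786530414264320, .ofNat 0⟩)
    (by decide +kernel)

end Crest.Agent.R097C5.N5pp
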