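import Crest.Agent.R097.KP7
import Crest.Agent.R097.T5Ypp

/-!
# Row 97, box cover in dimension n = 5 (generated)
-/

set_option autoImplicit false
set_option Elab.async false
set_option maxHeartbeats 0
set_option maxRecDepth 100000

open Crest.Agent.R097 Crest.Agent.R097.KA


namespace Crest.Agent.R097C5.N5pp

theorem L06588 : Good (Phi V5.P V5.D 1 1) ⟨6, 53, 5, 16, 3, 7, 2, 2, 4, 4⟩ :=
  leafX_sound T5.ok_pp T5.Ypp.bz_eq (w := 239) (c := ⟨⟨.negSucc 3035, .negSucc 61, .ofNat 17, .ofNat 591, .negSucc 757, .ofNat 400⟩, ⟨.negSucc 1657, .negSucc 43, .negSucc 50, .ofNat 386, .negSucc 424, .ofNat 203⟩, ⟨.ofNat 1932, .ofNat 28, .ofNat 8, .negSucc 106, .ofNat 683, .negSucc 272⟩, ⟨.negSucc 4823, .ofNat 68, .negSucc 51, .negSucc 350, .negSucc 1010, .ofNat 976⟩, ⟨.ofNat 458, .negSucc 196, .ofNat 120, .ofNat 2223, .negSucc 207, .negSucc 690⟩, .ofNat 1457, .negSucc 2057, .ofNat 0, .negSucc 2057, .ofNat 3880, .ofNat 0, .ofNat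 128, .ofNat 792, .negSucc 47, .ofNat 0, .ofNat 535, .negSucc 4, .ofNat 0, .ofNat 0, .ofNat 1115, .ofNat 2737, .ofNat 0, .ofNat 1106709803979994759856328707855708006737195827200, .ofNat 0, .ofNat 0, .ofNat 0, .ofNat 91122267876975586847339667557279091096770618327040, .ofNat 202542251445437990536351221638005472100352, .ofNat 0, .ofNat 0, .ofNat 309776824285777628052043576902265453557098169237504, .ofNat 0, .ofNat 0, .ofNat 0, .ofNat 428740247193746401732304526087295362808661353168896, .ofNat 197671923174862077085586114058714024509440, .ofNat 0⟩)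
    (by decide +kernel)
theorem L06589 : Good (Phi V5.P V5.D 1 1) ⟨6, 53, 5, 17, 2, 3, 2, 2, 4, 4⟩ :=
  out_sound (S := T5.ds_pp) T5.ok_pp (w := 67) (j := 3) (by decide +kernel)
theorem L06590 : Good (Phi V5.P V5.D 1 1) ⟨5, 26, 4, 9, 2, 3, 2, 2, 4, 4⟩ :=
  out_sound (S := T5.ds_pp) T5.ok_pp (w := 59) (j := 3) (by decide +kernel)
theorem L06591 : Good (Phi V5.P V5.D 1 1) ⟨5, 27, 5, 16, 3, 6, 2, 2, 4, 4⟩ :=
  leafX_sound T5.ok_pp T5.Ypp.bz_eq (w := 233) (c := ⟨⟨.negSucc 3341, .negSucc 117, .negSucc 0, .ofNat 229, .negSucc 645, .ofNat 469⟩, ⟨.negSucc 1859, .negSucc 149, .negSucc 42, .ofNat 147, .negSucc 378, .ofNat 253⟩, ⟨.ofNat 2284, .ofNat 35, .ofNat 21, .negSucc 268, .ofNat 702, .negSucc 391⟩, ⟨.negSucc 4881, .ofNat 20, .negSucc 17, .ofNat 59, .negSucc 764, .ofNat 921⟩, ⟨.negSucc 148, .negSucc 29, .ofNat 30, .ofNat 488, .negSucc 324, .negSucc 407⟩, .ofNat 1389, .negSucc 1893, .ofNat 0, .negSucc 1893, .ofNat 3491,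 .ofNat 0, .ofNat 128, .ofNat 341, .negSucc 31, .ofNat 0, .ofNat 232, .negSucc 11, .ofNat 0, .ofNat 0, .ofNat 395, .ofNat 275, .ofNat 0, .ofNat 0, .ofNat 2915585186318424861148460527344899063808, .ofNat 0, .ofNat 0, .ofNat 0, .ofNat 0, .ofNat 0, .ofNat 0, .ofNat 0, .ofNat 0, .ofNat 0, .ofNat 0, .ofNat 1746510328110672224546391863905413491053121503232, .ofNat 31361940444177406562209142424039839498240, .ofNat 0⟩)
    (by decide +kernel)
theorem L06592 : Good (Phi V5.P V5.D 1 1) ⟨5, 27, 5, 17, 3, 6, 2, 2, 4, 4⟩ :=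
  leafX_sound T5.ok_pp T5.Ypp.bz_eq (w := 234) (c := ⟨⟨.negSucc 3335, .negSucc 122, .negSucc 12, .ofNat 238, .negSucc 682, .ofNat 467⟩, ⟨.negSucc 1902, .negSucc 149, .negSucc 54, .ofNat 155, .negSucc 411, .ofNat 263⟩, ⟨.ofNat 2346, .negSucc 43, .ofNat 44, .negSucc 284, .ofNat 727, .negSucc 431⟩, ⟨.negSucc 4903, .ofNat 58, .negSucc 37, .ofNat 44, .negSucc 769, .ofNat 950⟩, ⟨.negSucc 96, .negSucc 92, .ofNat 34, .ofNat 518, .negSucc 382, .negSucc 457⟩, .ofNat 2049, .negSucc 2939, .ofNat 0, .negSucc 2939, .ofNat 5133, .ofNat 0, .ofNat 128, .ofNat 451, .negSucc 51, .ofNat 0, .ofNat 300, .negSucc 22, .ofNat 0, .ofNat 0, .ofNat 627, .ofNat 1326, .ofNat 0, .ofNat 0, .ofNat 0, .ofNat 0, .ofNat 0, .ofNat 0, .ofNat 3717068175143606656198829135655164457254912, .ofNat 0, .ofNat 0, .ofNat 0, .ofNat 0, .ofNat 0, .ofNat 0, .ofNat 4977061528125315514303205771986073278381717192704, .ofNat 246546403569727332639568342961677060276224,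 .ofNat 0⟩)
    (by decide +kernel)
theorem L06593 : Good (Phi V5.P V5.D 1 1) ⟨5, 27, 4, 8, 3, 7, 2, 2, 4, 4⟩ :=
  leafX_sound T5.ok_pp T5.Ypp.bz_eq (w := 232) (c := ⟨⟨.negSucc 3085, .negSucc 110, .ofNat 16, .ofNat 584, .negSucc 792, .ofNat 383⟩, ⟨.negSucc 1700, .negSucc 56, .negSucc 133, .ofNat 406, .negSucc 459, .ofNat 200⟩, ⟨.ofNat 1937, .ofNat 21, .ofNat 38, .negSucc 76, .ofNat 677, .negSucc 231⟩, ⟨.negSucc 4735, .ofNat 17, .negSucc 93, .negSucc 424, .negSucc 1027, .ofNat 891⟩, ⟨.ofNat 297, .negSucc 79, .ofNat 140, .ofNat 2202, .negSucc 169, .negSucc 551⟩, .ofNat 1919, .negSucc 2754, .ofNat 0, .negSucc 2754, .ofNat 4890, .ofNat 0, .ofNat 128, .ofNat 348, .negSucc 28, .ofNat 0, .ofNat 237, .negSucc 3, .ofNat 0, .ofNat 0, .ofNat 765, .ofNat 2728, .ofNat 0, .ofNat 9783770903045564324148072561042950127636971520, .ofNat 10125406243627057022896571855006261575680, .ofNat 0, .ofNat 0, .ofNat 660107053896236052226945708708310682026639360000,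 .ofNat 2286363893805444177769044262288093119250432, .ofNat 0, .ofNat 0, .ofNat 922639432080277647137153948149233123111221592064, .ofNat 1417777129382086081403422162380349228711936, .ofNat 0, .ofNat 0, .ofNat 1595056068475280481257141924579418131851171069952, .ofNat 320412182916689381352558556354777786089472, .ofNat 0⟩)
    (by decide +kernel)
theorem L06594 : Good (Phi V5.P V5.D 1 1) ⟨6, 54, 4, 9, 2, 3, 2, 2, 4, 4⟩ :=
  out_sound (S := T5.ds_pp) T5.ok_pp (w := 65) (j := 3) (by decide +kernel)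
theorem L06595 : Good (Phi V5.P V5.D 1 1) ⟨6, 55, 4, 9, 3, 6, 2, 2, 4, 4⟩ :=
  leafX_sound T5.ok_pp T5.Ypp.bz_eq (w := 235) (c := ⟨⟨.negSucc 3425, .negSucc 49, .negSucc 37, .ofNat 237, .negSucc 673, .ofNat 498⟩, ⟨.negSucc 2045, .negSucc 67, .negSucc 117, .ofNat 155, .negSucc 416, .ofNat 294⟩, ⟨.ofNat 2374, .ofNat 1, .ofNat 79, .negSucc 279, .ofNat 714, .negSucc 459⟩, ⟨.negSucc 4891, .ofNat 3, .negSucc 18, .ofNat 35, .negSucc 780, .ofNat 991⟩, ⟨.negSucc 178, .ofNat 21, .negSucc 39, .ofNat 506, .negSucc 315, .negSucc 445⟩, .ofNat 1207, .negSucc 1533, .ofNat 0, .negSucc 1533, .ofNat 2723, .ofNat 0, .ofNat 128, .ofNat 396, .negSucc 53, .ofNat 0, .ofNat 280, .negSucc 21, .ofNat 0, .ofNat 0, .ofNat 571, .ofNat 1256, .ofNat 0, .ofNat 0, .ofNat 0, .ofNat 0, .ofNat 0, .ofNat 0, .ofNat 0, .ofNat 0, .ofNat 0, .ofNat 0, .ofNat 0, .ofNat 0, .ofNat 0, .ofNat 8248440272377668683645821342063657032173167312896, .ofNat 6568215878818217326016938843789303218176,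 .ofNat 0⟩)
    (by decide +kernel)
theorem L06596 : Good (Phi V5.P V5.D 1 1) ⟨6, 55, 4, 9, 3, 7, 2, 2, 4, 4⟩ :=
  leafX_sound T5.ok_pp T5.Ypp.bz_eq (w := 237) (c := ⟨⟨.negSucc 3158, .negSucc 96, .ofNat 73, .ofNat 624, .negSucc 802, .ofNat 429⟩, ⟨.negSucc 1883, .negSucc 63, .negSucc 88, .ofNat 428, .negSucc 486, .ofNat 248⟩, ⟨.ofNat 1997, .negSucc 27, .ofNat 146, .negSucc 93, .ofNat 712, .negSucc 289⟩, ⟨.negSucc 4719, .negSucc 6, .negSucc 239, .negSucc 578, .negSucc 969, .ofNat 957⟩, ⟨.ofNat 222, .negSucc 97, .ofNat 447, .ofNat 2419, .negSucc 283, .negSucc 567⟩, .ofNat 3072, .negSucc 4512, .ofNat 0, .negSucc 4512, .ofNat 7523, .ofNat 0, .ofNat 128, .ofNat 705, .negSucc 36, .ofNat 0, .ofNat 474, .negSucc 7, .ofNat 0, .ofNat 0, .ofNat 1125, .ofNat 2698, .ofNat 0, .ofNat 166441132953789323240843670920296830714746241024, .ofNat 8443808972414479120948354523425469890560, .ofNat 0, .ofNat 0, .ofNat 13827138413323821430336236925443007349056293830656,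 .ofNat 1441999284286120294904846527687943499284480, .ofNat 0, .ofNat 0, .ofNat 34993759257945449848675268353274781598236981329920, .ofNat 129524956607842615161952919842914811510784, .ofNat 0, .ofNat 0, .ofNat 50687120345683170765420303257095966359313461542912, .ofNat 170649952622869992368798601506619079524352, .ofNat 0⟩)
    (by decide +kernel)
theorem L06597 : Good (Phi V5.P V5.D 1 1) ⟨4, 13, 3, 5, 2, 3, 2, 2, 4, 4⟩ :=
  out_sound (S := T5.ds_pp) T5.ok_pp (w := 51) (j := 3) (by decide +kernel)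
theorem L06598 : Good (Phi V5.P V5.D 1 1) ⟨6, 56, 4, 8, 2, 3, 2, 2, 5, 8⟩ :=
  out_sound (S := T5.ds_pp) T5.ok_pp (w := 65) (j := 3) (by decide +kernel)
theorem L06599 : Good (Phi V5.P V5.D 1 1) ⟨6, 56, 4, 9, 3, 6, 2, 2, 5, 8⟩ :=
  leafX_sound T5.ok_pp T5.Ypp.bz_eq (w := 241) (c := ⟨⟨.negSucc 3527, .negSucc 77, .ofNat 29, .ofNat 272, .negSucc 731, .ofNat 266⟩, ⟨.negSucc 2151, .negSucc 90, .negSucc 72, .ofNat 180, .negSucc 466, .ofNat 164⟩, ⟨.ofNat 2391, .negSucc 0, .ofNat 65, .negSucc 309, .ofNat 765, .negSucc 233⟩, ⟨.negSucc 4915, .ofNat 8, .negSucc 22, .ofNat 32, .negSucc 848, .ofNat 573⟩, ⟨.negSucc 222, .negSucc 52, .ofNat 109, .ofNat 559, .negSucc 304, .negSucc 303⟩, .ofNat 774, .negSucc 829, .ofNat 0, .negSucc 829, .ofNat 1513, .ofNat 0, .ofNat 128, .ofNat 290, .negSucc 88, .ofNat 0, .ofNat 230, .negSucc 24, .ofNat 0, .ofNat 0, .ofNat 751, .ofNat 4147, .ofNat 0, .ofNat 0, .ofNat 0, .ofNat 0, .ofNat 0, .ofNat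 30328380003324858164003204987937104483458891120640, .ofNat 4686275405710817690892251055078777934577664, .ofNat 0, .ofNat 0, .ofNat 43516396555089363654479713736756060025761233371136, .ofNat 4865051541197578013399980482675927978868736, .ofNat 0, .ofNat 0, .ofNat 97088213480197139938811275612923543527045501812736, .ofNat 1956158396790706596182470771289893160091648, .ofNat 0⟩)
    (by decide +kernel)
theorem L06600 : Good (Phi V5.P V5.D 1 1) ⟨6, 56, 4, 9, 3, 7, 2, 2, 5, 8⟩ :=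
  leafX_sound T5.ok_pp T5.Ypp.bz_eq (w := 241) (c := ⟨⟨.negSucc 3217, .negSucc 124, .ofNat 14, .ofNat 647, .negSucc 807, .ofNat 200⟩, ⟨.negSucc 1907, .negSucc 67, .negSucc 150, .ofNat 445, .negSucc 507, .ofNat 123⟩, ⟨.ofNat 2098, .ofNat 153, .negSucc 121, .negSucc 66, .ofNat 791, .negSucc 128⟩, ⟨.negSucc 4769, .ofNat 36, .negSucc 51, .negSucc 688, .negSucc 1185, .ofNat 605⟩, ⟨.ofNat 341, .negSucc 202, .ofNat 0, .ofNat 2554, .ofNat 70, .negSucc 503⟩, .ofNat 1330, .negSucc 1686, .ofNat 0, .negSucc 1686, .ofNat 2870, .ofNat 0, .ofNat 128, .ofNat 546, .negSucc 35, .ofNat 0, .ofNat 403, .ofNat 1, .ofNat 0, .ofNat 0, .ofNat 856, .ofNat 2796, .ofNat 0, .ofNat 0, .ofNat 158508473460815954756140441138175957532672, .ofNat 0, .ofNat 0, .ofNat 106364791447051668691890778634854359751037640769536, .ofNat 11358206095328938077661297496935616686850048, .ofNat 0, .ofNat 0, .ofNat 185785720688007324509286426265578664668223355486208,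 .ofNat 13376175965302409301679797923593271728144384, .ofNat 0, .ofNat 0, .ofNat 164649170555018868321395216480670230102574052147200, .ofNat 13566017919625196646468078261574253747896320, .ofNat 0⟩)
    (by decide +kernel)
theorem L06601 : Good (Phi V5.P V5.D 1 1) ⟨6, 57, 3, 4, 2, 3, 2, 2, 5, 8⟩ :=
  out_sound (S := T5.ds_pp) T5.ok_pp (w := 63) (j := 3) (by decide +kernel)
theorem L06602 : Good (Phi V5.P V5.D 1 1) ⟨5, 28, 4, 10, 3, 6, 2, 2, 5, 8⟩ :=
  leafX_sound T5.ok_pp T5.Ypp.bz_eq (w := 237) (c := ⟨⟨.negSucc 3526, .negSucc 155, .ofNat 7, .ofNat 271, .negSucc 753, .ofNat 301⟩, ⟨.negSucc 2250, .negSucc 155, .negSucc 106, .ofNat 181, .negSucc 495, .ofNat 196⟩, ⟨.ofNat 2467, .ofNat 56, .ofNat 64, .negSucc 303, .ofNat 761, .negSucc 271⟩, ⟨.negSucc 4935, .negSucc 33, .negSucc 20, .ofNat 23, .negSucc 851, .ofNat 609⟩, ⟨.negSucc 163, .negSucc 60, .ofNat 83, .ofNat 547, .negSucc 323, .negSucc 280⟩, .ofNat 903, .negSucc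 1021, .ofNat 0, .negSucc 1021, .ofNat 1782, .ofNat 0, .ofNat 128, .ofNat 248, .negSucc 72, .ofNat 0, .ofNat 189, .negSucc 25, .ofNat 0, .ofNat 0, .ofNat 611, .ofNat 4126, .ofNat 0, .ofNat 0, .ofNat 0, .ofNat 0, .ofNat 0, .ofNat 3300678285202641321291078451894308550996926660608, .ofNat 3745767163320308333168836047328992196296704, .ofNat 0, .ofNat 0, .ofNat 81924174723042793250851256535133827957755215872, .ofNat 19126426466775957106789538595620341074100224, .ofNat 10514626926605605230940073530221927571079601514872832, .ofNat 0, .ofNat 3946429161270448130698179990191665438415279620096, .ofNat 9449295459446800891519416050968461930659840, .ofNat 0⟩)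
    (by decide +kernel)
theorem L06603 : Good (Phi V5.P V5.D 1 1) ⟨5, 28, 4, 10, 3, 7, 2, 2, 5, 8⟩ :=
  leafX_sound T5.ok_pp T5.Ypp.bz_eq (w := 237) (c := ⟨⟨.negSucc 3329, .ofNat 348, .negSucc 254, .ofNat 665, .negSucc 880, .ofNat 205⟩, ⟨.negSucc 2144, .ofNat 298, .negSucc 346, .ofNat 449, .negSucc 578, .ofNat 131⟩, ⟨.ofNat 1970, .ofNat 440, .negSucc 136, .negSucc 81, .ofNat 711, .negSucc 166⟩, ⟨.negSucc 4780, .ofNat 123, .negSucc 252, .negSucc 868, .negSucc 1180, .ofNat 654⟩, ⟨.ofNat 176, .ofNat 318, .ofNat 5, .ofNat 2747, .negSucc 98, .negSucc 567⟩, .ofNat 1472, .negSucc 1871, .ofNat 0, .negSucc 1871, .ofNat 3085, .ofNat 0, .ofNat 128, .ofNat 512, .negSucc 33, .ofNat 0, .ofNat 378, .ofNat 1, .ofNat 0, .ofNat 0, .ofNat 882, .ofNat 2012, .ofNat 0, .ofNat 50378999633816091236126720461886547948872925184, .ofNat 296131058798384158809951888797524782219264, .ofNat 0, .ofNat 0, .ofNat 7001614517622019915745968385480319831893600108544,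 .ofNat 53643680271994355423351853192923444519370752, .ofNat 7777948701503746015565123257217502161387917460635648, .ofNat 0, .ofNat 8853804585583186419635814925355544208388262985728, .ofNat 155916535750267158872946219101767561254010880, .ofNat 0, .ofNat 0, .ofNat 9780432374181698649744575685604223356429504872448, .ofNat 43808611394270805831316213886936173993000960, .ofNat 0⟩)
    (by decide +kernel)
theorem L06604 : Good (Phi V5.P V5.D 1 1) ⟨6, 56, 4, 11, 2, 3, 2, 2, 5, 8⟩ :=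
  out_sound (S := T5.ds_pp) T5.ok_pp (w := 65) (j := 3) (by decide +kernel)
theorem L06605 : Good (Phi V5.P V5.D 1 1) ⟨7, 114, 5, 22, 2, 3, 2, 2, 5, 8⟩ :=
  out_sound (S := T5.ds_pp) T5.ok_pp (w := 73) (j := 3) (by decide +kernel)
theorem L06606 : Good (Phi V5.P V5.D 1 1) ⟨7, 115, 5, 22, 2, 3, 2, 2, 5, 8⟩ :=
  out_sound (S := T5.ds_pp) T5.ok_pp (w := 21) (j := 4) (by decide +kernel)
theorem L06607 : Good (Phi V5.P V5.D 1 1) ⟨6, 57, 5, 23, 2, 3, 2, 2, 5, 8⟩ :=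
  out_sound (S := T5.ds_pp) T5.ok_pp (w := 67) (j := 3) (by decide +kernel)
theorem L06608 : Good (Phi V5.P V5.D 1 1) ⟨5, 28, 3, 4, 2, 3, 2, 2, 5, 9⟩ :=
  leafX_sound T5.ok_pp T5.Ypp.bz_eq (w := 220) (c := ⟨⟨.negSucc 3217, .negSucc 135, .negSucc 15, .ofNat 515, .negSucc 651, .ofNat 208⟩, ⟨.negSucc 1887, .negSucc 169, .negSucc 170, .ofNat 340, .negSucc 417, .ofNat 130⟩, ⟨.ofNat 2131, .negSucc 3, .ofNat 96, .negSucc 589, .ofNat 648, .negSucc 245⟩, ⟨.negSucc 4408, .ofNat 7, .ofNat 6, .ofNat 122, .negSucc 677, .ofNat 435⟩, ⟨.negSucc 370, .negSucc 62, .ofNat 15, .ofNat 961, .negSucc 396, .negSucc 216⟩, .ofNat 1331, .negSucc 1689, .ofNat 0, .negSucc 1689, .ofNat 2875, .ofNat 0, .ofNat 128, .ofNat 811, .negSucc 59, .ofNat 0, .ofNat 585, .negSucc 22, .ofNat 0, .ofNat 0, .ofNat 949, .ofNat 1525, .ofNat 0, .ofNat 2786818166427046204912075687242948835016704, .ofNat 12100630161612173566327230672781967360, .ofNat 0, .ofNat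 0, .ofNat 202021024547853551740597096848275759479914496, .ofNat 343167303054200434161098866822159007744, .ofNat 0, .ofNat 0, .ofNat 0, .ofNat 1545307445047972445349870749384584462336, .ofNat 0, .ofNat 0, .ofNat 543539678491816392325353186825607844139630592, .ofNat 348114837264095427033048602502089408512, .ofNat 0⟩)
    (by decide +kernel)
theorem L06609 : Good (Phi V5.P V5.D 1 1) ⟨5, 28, 3, 5, 2, 3, 2, 2, 5, 9⟩ :=
  leafX_sound T5.ok_pp T5.Ypp.bz_eq (w := 222) (c := ⟨⟨.negSucc 3227, .negSucc 187, .ofNat 53, .ofNat 492, .negSucc 669, .ofNat 221⟩, ⟨.negSucc 2052, .negSucc 212, .negSucc 119, .ofNat 327, .negSucc 443, .ofNat 143⟩, ⟨.ofNat 2238, .negSucc 2, .ofNat 136, .negSucc 592, .ofNat 668, .negSucc 266⟩, ⟨.negSucc 4406, .negSucc 19, .ofNat 11, .ofNat 184, .negSucc 683, .ofNat 442⟩, ⟨.negSucc 357, .negSucc 15, .ofNat 16, .ofNat 774, .negSucc 382, .negSucc 199⟩, .ofNat 2478, .negSucc 3382, .ofNat 0, .negSucc 3382,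 .ofNat 5369, .ofNat 0, .ofNat 128, .ofNat 966, .negSucc 134, .ofNat 0, .ofNat 674, .negSucc 70, .ofNat 0, .ofNat 0, .ofNat 2137, .ofNat 3459, .ofNat 0, .ofNat 6013164666669619811849254116227765021704192, .ofNat 14319378313611861475325728478233362432, .ofNat 2657114900499760776779960166591573103455764480, .ofNat 0, .ofNat 453323859571398173623412584965151954384715776, .ofNat 1584222387870349621246719424358426607616, .ofNat 265934700977545291860197505521375089540540137472, .ofNat 0, .ofNat 2709734356550247242475073910304129012365000704, .ofNat 3269571173115721740713657265104600694784, .ofNat 635992119531987010352102152532790201802572169216, .ofNat 0, .ofNat 2079083036186961381450918108341548927047172096, .ofNat 3249093980203018963758828572487700185088, .ofNat 0⟩)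
    (by decide +kernel)
theorem L06610 : Good (Phi V5.P V5.D 1 1) ⟨5, 29, 2, 2, 2, 3, 2, 2, 4, 4⟩ :=
  out_sound (S := T5.ds_pp) T5.ok_pp (w := 17) (j := 4) (by decide +kernel)
theorem L06611 : Good (Phi V5.P V5.D 1 1) ⟨4, 15, 2, 2, 2, 3, 2, 2, 4, 4⟩ :=
  out_sound (S := T5.ds_pp) T5.ok_pp (w := 49) (j := 3) (by decide +kernel)
theorem L06612 : Good (Phi V5.P V5.D 1 1) ⟨3, 6, 2, 2, 2, 2, 2, 2, 4, 5⟩ :=
  leafX_sound T5.ok_pp T5.Ypp.bz_eq (w := 203) (c := ⟨⟨.negSucc 2386, .negSucc 581, .ofNat 11, .negSucc 78, .negSucc 509, .ofNat 263⟩, ⟨.negSucc 1073, .negSucc 666, .negSucc 284, .negSucc 51, .negSucc 310, .ofNat 152⟩, ⟨.ofNat 2245, .ofNat 9, .ofNat 86, .negSucc 335, .ofNat 444, .negSucc 354⟩, ⟨.negSucc 3884, .negSucc 152, .ofNat 43, .ofNat 3, .negSucc 533, .ofNat 423⟩, ⟨.negSucc 336, .negSucc 41, .ofNat 90, .negSucc 204, .negSucc 352, .negSucc 78⟩, .ofNat 1565, .negSucc 2147, .ofNat 0, .negSucc 2147, .ofNat 3825,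 .ofNat 0, .ofNat 128, .ofNat 501, .negSucc 62, .ofNat 0, .ofNat 338, .negSucc 32, .ofNat 0, .ofNat 0, .ofNat 727, .ofNat 677, .ofNat 0, .ofNat 0, .ofNat 390310170257167093834176114976620544, .ofNat 0, .ofNat 0, .ofNat 0, .ofNat 272851200817557042579710055324263120896, .ofNat 0, .ofNat 0, .ofNat 0, .ofNat 0, .ofNat 0, .ofNat 0, .ofNat 11487594153134298214941418202093068484608, .ofNat 13824401778046900388664518823477510144, .ofNat 0⟩)
    (by decide +kernel)
theorem L06613 : Good (Phi V5.P V5.D 1 1) ⟨5, 28, 2, 2, 3, 4, 2, 2, 4, 5⟩ :=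
  leafX_sound T5.ok_pp T5.Ypp.bz_eq (w := 227) (c := ⟨⟨.negSucc 2904, .negSucc 119, .negSucc 108, .negSucc 112, .negSucc 570, .ofNat 309⟩, ⟨.negSucc 1696, .negSucc 166, .negSucc 364, .negSucc 75, .negSucc 374, .ofNat 200⟩, ⟨.ofNat 2385, .ofNat 88, .negSucc 103, .negSucc 121, .ofNat 378, .negSucc 461⟩, ⟨.negSucc 4010, .negSucc 7, .negSucc 7, .negSucc 56, .negSucc 569, .ofNat 477⟩, ⟨.negSucc 338, .negSucc 2, .negSucc 39, .negSucc 157, .negSucc 365, .negSucc 63⟩, .ofNat 820, .negSucc 888, .ofNat 0, .negSucc 888, .ofNat 1567, .ofNat 0, .ofNat 128, .ofNat 591, .negSucc 121, .ofNat 0, .ofNat 466, .negSucc 64, .ofNat 0, .ofNat 0, .ofNat 1041, .ofNat 4444, .ofNat 0, .ofNat 0, .ofNat 788657754739631682309105901248314343424, .ofNat 0, .ofNat 0, .ofNat 0, .ofNat 62705153271781697518378564688880412393472, .ofNat 0, .ofNat 0, .ofNat 0, .ofNat 0, .ofNat 0, .ofNat 0, .ofNat 22170199465476976818615182545293800662169026560, .ofNat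 65380683023248055632798782750533420580864, .ofNat 6956023355518594274501010101506605924981674082304⟩)
    (by decide +kernel)
theorem L06614 : Good (Phi V5.P V5.D 1 1) ⟨5, 28, 2, 2, 3, 5, 2, 2, 4, 5⟩ :=
  leafX_sound T5.ok_pp T5.Ypp.bz_eq (w := 225) (c := ⟨⟨.negSucc 3036, .negSucc 93, .negSucc 92, .ofNat 46, .negSucc 571, .ofNat 344⟩, ⟨.negSucc 1791, .negSucc 146, .negSucc 340, .ofNat 28, .negSucc 373, .ofNat 220⟩, ⟨.ofNat 2288, .ofNat 105, .negSucc 149, .negSucc 251, .ofNat 441, .negSucc 525⟩, ⟨.negSucc 4124, .ofNat 29, .ofNat 28, .ofNat 109, .negSucc 542, .ofNat 560⟩, ⟨.negSucc 443, .negSucc 5, .negSucc 68, .negSucc 68, .negSucc 416, .negSucc 110⟩, .ofNat 381, .negSucc 280, .ofNat 0, .negSucc 280, .ofNat 617, .ofNat 0, .ofNat 128, .ofNat 282, .negSucc 37, .ofNat 0, .ofNat 292, .negSucc 2, .ofNat 0, .ofNat 0, .ofNat 577, .ofNat 1092, .ofNat 0, .ofNat 0, .ofNat 358217664997486326031750529394709364736, .ofNat 0,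 .ofNat 0, .ofNat 0, .ofNat 15240203643387214223694592001349433425920, .ofNat 0, .ofNat 0, .ofNat 0, .ofNat 0, .ofNat 0, .ofNat 0, .ofNat 8421680587650089173480522041759755419487567872, .ofNat 19626295726395177294234031209420823724032, .ofNat 2034819873388730483601151133331349407789544898560⟩)
    (by decide +kernel)
theorem L06615 : Good (Phi V5.P V5.D 1 1) ⟨5, 29, 2, 2, 2, 2, 2, 2, 4, 5⟩ :=
  out_sound (S := T5.ds_pp) T5.ok_pp (w := 17) (j := 4) (by decide +kernel)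
theorem L06616 : Good (Phi V5.P V5.D 1 1) ⟨4, 15, 2, 2, 2, 2, 2, 2, 4, 5⟩ :=
  out_sound (S := T5.ds_pp) T5.ok_pp (w := 49) (j := 3) (by decide +kernel)
theorem L06617 : Good (Phi V5.P V5.D 1 1) ⟨3, 6, 2, 2, 2, 3, 2, 2, 4, 5⟩ :=
  leafX_sound T5.ok_pp T5.Ypp.bz_eq (w := 201) (c := ⟨⟨.negSucc 2516, .negSucc 474, .negSucc 32, .ofNat 308, .negSucc 553, .ofNat 337⟩, ⟨.negSucc 1149, .negSucc 608, .negSucc 306, .ofNat 189, .negSucc 340, .ofNat 192⟩, ⟨.ofNat 1952, .negSucc 52, .ofNat 116, .negSucc 543, .ofNat 572, .negSucc 458⟩, ⟨.negSucc 4015, .negSucc 20, .ofNat 106, .ofNat 215, .negSucc 574, .ofNat 596⟩, ⟨.negSucc 417, .negSucc 27, .negSucc 144, .ofNat 403, .negSucc 385, .negSucc 173⟩, .ofNat 366, .negSucc 260, .ofNat 0, .negSucc 260, .ofNat 644, .ofNat 0, .ofNat 128, .ofNat 191, .negSucc 20, .ofNat 0, .ofNat 206, .ofNat 4, .ofNat 0, .ofNat 0, .ofNat 330, .ofNat 623, .ofNat 0, .ofNat 191303758643351431891764653629064085504,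 .ofNat 0, .ofNat 0, .ofNat 0, .ofNat 4587294630681632944806060183323408334848, .ofNat 0, .ofNat 0, .ofNat 0, .ofNat 6271703951126772959744532472002603122688, .ofNat 0, .ofNat 0, .ofNat 0, .ofNat 6983168368320125271543903424258787770368, .ofNat 9918262730677887579997412988995764224, .ofNat 0⟩)
    (by decide +kernel)
theorem L06618 : Good (Phi V5.P V5.D 1 1) ⟨3, 7, 2, 2, 3, 6, 2, 2, 4, 5⟩ :=
  leafX_sound T5.ok_pp T5.Ypp.bz_eq (w := 215) (c := ⟨⟨.negSucc 2961, .negSucc 363, .negSucc 116, .ofNat 176, .negSucc 603, .ofNat 351⟩, ⟨.negSucc 1779, .negSucc 753, .negSucc 262, .ofNat 115, .negSucc 400, .ofNat 225⟩, ⟨.ofNat 1929, .ofNat 49, .ofNat 120, .negSucc 307, .ofNat 535, .negSucc 582⟩, ⟨.negSucc 4025, .ofNat 49, .ofNat 50, .ofNat 136, .negSucc 583, .ofNat 644⟩, ⟨.negSucc 447, .negSucc 34, .negSucc 107, .ofNat 174, .negSucc 410, .negSucc 222⟩, .ofNat 387, .negSucc 291, .ofNat 0, .negSucc 291, .ofNat 644, .ofNat 0,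 .ofNat 128, .ofNat 250, .negSucc 21, .ofNat 0, .ofNat 259, .ofNat 4, .ofNat 0, .ofNat 0, .ofNat 341, .ofNat 426, .ofNat 0, .ofNat 0, .ofNat 4954609821924940922437632827927423877120, .ofNat 3443774737497122040588967257386592456495071232, .ofNat 0, .ofNat 14382124598319878302080253555590254802501632, .ofNat 0, .ofNat 94615059158185899650220124967924677694153818112, .ofNat 0, .ofNat 37631298427561242617970968544386352790110208, .ofNat 0, .ofNat 242946447257814911075083679013565816612608540672, .ofNat 0, .ofNat 23765757837183586824379537457757435098824704, .ofNat 71556029682520865565990781495986607882240, .ofNat 77803175993545807174840262593365394032154378240⟩)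
    (by decide +kernel)
theorem L06619 : Good (Phi V5.P V5.D 1 1) ⟨3, 7, 2, 2, 3, 7, 2, 2, 4, 5⟩ :=
  out_sound (S := T5.ds_pp) T5.ok_pp (w := 32) (j := 2) (by decide +kernel)
theorem L06620 : Good (Phi V5.P V5.D 1 1) ⟨3, 6, 2, 3, 1, 1, 2, 2, 3, 2⟩ :=
  out_sound (S := T5.ds_pp) T5.ok_pp (w := 43) (j := 3) (by decide +kernel)
theorem L06621 : Good (Phi V5.P V5.D 1 1) ⟨5, 28, 3, 6, 1, 1, 2, 2, 3, 2⟩ :=
  out_sound (S := T5.ds_pp) T5.ok_pp (w := 57) (j := 3) (by decide +kernel)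
theorem L06622 : Good (Phi V5.P V5.D 1 1) ⟨5, 29, 3, 6, 1, 1, 2, 2, 3, 2⟩ :=
  out_sound (S := T5.ds_pp) T5.ok_pp (w := 17) (j := 4) (by decide +kernel)
theorem L06623 : Good (Phi V5.P V5.D 1 1) ⟨4, 14, 3, 7, 1, 1, 2, 2, 3, 2⟩ :=
  out_sound (S := T5.ds_pp) T5.ok_pp (w := 51) (j := 3) (by decide +kernel)
theorem L06624 : Good (Phi V5.P V5.D 1 1) ⟨4, 15, 2, 3, 1, 1, 2, 2, 3, 2⟩ :=
  out_sound (S := T5.ds_pp) T5.ok_pp (w := 15) (j := 4) (by decide +kernel)
theorem L06625 : Good (Phi V5.P V5.D 1 1) ⟨2, 3, 1, 1, 3, 4, 2, 2, 3, 3⟩ :=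
  leafX_sound T5.ok_pp T5.Ypp.bz_eq (w := 205) (c := ⟨⟨.negSucc 2339, .negSucc 623, .negSucc 232, .negSucc 56, .negSucc 514, .ofNat 463⟩, ⟨.negSucc 1119, .negSucc 845, .negSucc 748, .negSucc 37, .negSucc 327, .ofNat 292⟩, ⟨.ofNat 1987, .ofNat 5, .negSucc 122, .negSucc 210, .ofNat 230, .negSucc 862⟩, ⟨.negSucc 3625, .ofNat 74, .ofNat 4, .ofNat 11, .negSucc 546, .ofNat 638⟩, ⟨.negSucc 457, .ofNat 89, .negSucc 116, .negSucc 154, .negSucc 312, .ofNat 31⟩, .ofNat 375, .negSucc 274, .ofNat 0, .negSucc 274, .ofNat 643, .ofNat 0, .ofNat 128, .ofNat 249, .negSucc 43, .ofNat 0, .ofNat 257, .negSucc 19, .ofNat 0, .ofNat 0, .ofNat 729, .ofNat 1182, .ofNat 0, .ofNat 0, .ofNat 209489009742876783034154299819284234240, .ofNat 3792654717675200970370428160943378216779776, .ofNat 0, .ofNat 23105529524822763532342780005398305832960, .ofNat 1156470463959616872958035235478018457600, .ofNat 15868285949484239523208369410124637500604416,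 .ofNat 0, .ofNat 43601037465123405997675418954054592626688, .ofNat 8093902218068186631658157418354994839552, .ofNat 538914919740358334305927616572744072574271488, .ofNat 0, .ofNat 51570290254436372461961651461043846643712, .ofNat 3148705915164876336442128082558332698624, .ofNat 12322586201323493114801830191531921181245440⟩)
    (by decide +kernel)
theorem L06626 : Good (Phi V5.P V5.D 1 1) ⟨2, 3, 1, 1, 3, 5, 2, 2, 3, 3⟩ :=
  leafX_sound T5.ok_pp T5.Ypp.bz_eq (w := 203) (c := ⟨⟨.negSucc 2326, .negSucc 789, .negSucc 173, .ofNat 28, .negSucc 474, .ofNat 472⟩, ⟨.negSucc 1035, .negSucc 1151, .negSucc 598, .ofNat 17, .negSucc 313, .ofNat 295⟩, ⟨.ofNat 1764, .ofNat 48, .negSucc 260, .negSucc 317, .ofNat 318, .negSucc 1059⟩, ⟨.negSucc 3593, .negSucc 43, .ofNat 150, .ofNat 93, .negSucc 477, .ofNat 712⟩, ⟨.negSucc 524, .negSucc 21, .negSucc 189, .negSucc 93, .negSucc 338, .negSucc 52⟩, .ofNat 165, .negSucc 53, .ofNat 0,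 .negSucc 53, .ofNat 218, .ofNat 0, .ofNat 141, .ofNat 58, .negSucc 28, .ofNat 0, .ofNat 128, .ofNat 6, .ofNat 0, .ofNat 0, .ofNat 372, .ofNat 526, .ofNat 0, .ofNat 0, .ofNat 142281902430356008299018961092872241152, .ofNat 3345585198329211377458875358390165908226048, .ofNat 0, .ofNat 18880397350910784829151078462537433350144, .ofNat 390061384773246183533288331664808738816, .ofNat 19089501842544719253603615454804127648841728, .ofNat 0, .ofNat 9633930683992667992995965976470999793664, .ofNat 0, .ofNat 19146523381675749668514714947044731942600704, .ofNat 0, .ofNat 25895493510309387467057734059177145270272, .ofNat 2999721065014419407296613292579642933248, .ofNat 92748114156461552422536812001944787126059008⟩)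
    (by decide +kernel)
theorem L06627 : Good (Phi V5.P V5.D 1 1) ⟨2, 3, 1, 1, 2, 3, 2, 2, 3, 3⟩ :=
  out_sound (S := T5.ds_pp) T5.ok_pp (w := 28) (j := 2) (by decide +kernel)
theorem L06628 : Good (Phi V5.P V5.D 1 1) ⟨4, 12, 2, 2, 2, 2, 2, 3, 4, 4⟩ :=
  out_sound (S := T5.ds_pp) T5.ok_pp (w := 49) (j := 3) (by decide +kernel)
theorem L06629 : Good (Phi V5.P V5.D 1 1) ⟨4, 13, 3, 4, 2, 2, 3, 6, 4, 4⟩ :=
  leafX_sound T5.ok_pp T5.Ypp.bz_eq (w := 214) (c := ⟨⟨.negSucc 3419, .negSucc 572, .ofNat 85, .negSucc 386, .negSucc 606, .ofNat 411⟩, ⟨.negSucc 1769, .negSucc 598, .negSucc 110, .negSucc 233, .negSucc 366, .ofNat 240⟩, ⟨.ofNat 3001, .ofNat 274, .negSucc 52, .negSucc 65, .ofNat 290, .negSucc 527⟩, ⟨.negSucc 5090, .negSucc 243, .ofNat 55, .negSucc 398, .negSucc 649, .ofNat 708⟩, ⟨.negSucc 494, .negSucc 135, .ofNat 146, .negSucc 269, .negSucc 392, .negSucc 197⟩, .ofNat 1593, .negSucc 2194, .ofNat 0, .negSucc 2194,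 .ofNat 3904, .ofNat 0, .ofNat 128, .ofNat 456, .negSucc 94, .ofNat 0, .ofNat 302, .negSucc 50, .ofNat 0, .ofNat 0, .ofNat 496, .ofNat 383, .ofNat 0, .ofNat 0, .ofNat 0, .ofNat 0, .ofNat 0, .ofNat 0, .ofNat 1473880117281403962234871648614938050560, .ofNat 0, .ofNat 0, .ofNat 0, .ofNat 0, .ofNat 0, .ofNat 0, .ofNat 3680154738603305936458792244840984580456448, .ofNat 32671414727457131790843864332822904832, .ofNat 0⟩)
    (by decide +kernel)
theorem L06630 : Good (Phi V5.P V5.D 1 1) ⟨4, 13, 3, 4, 2, 2, 3, 7, 4, 4⟩ :=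
  leafX_sound T5.ok_pp T5.Ypp.bz_eq (w := 214) (c := ⟨⟨.negSucc 4050, .negSucc 604, .ofNat 2, .negSucc 764, .negSucc 1221, .ofNat 495⟩, ⟨.negSucc 2126, .negSucc 628, .negSucc 198, .negSucc 473, .negSucc 736, .ofNat 284⟩, ⟨.ofNat 3334, .ofNat 352, .negSucc 75, .ofNat 38, .ofNat 551, .negSucc 696⟩, ⟨.negSucc 5834, .negSucc 318, .ofNat 53, .negSucc 770, .negSucc 1440, .ofNat 886⟩, ⟨.negSucc 837, .negSucc 84, .ofNat 34, .negSucc 576, .negSucc 562, .negSucc 264⟩, .ofNat 366, .negSucc 259, .ofNat 0, .negSucc 259, .ofNat 641, .ofNat 0, .ofNat 128, .ofNat 157, .negSucc 122, .ofNat 0, .ofNat 148, .negSucc 46, .ofNat 0, .ofNat 0, .ofNat 376, .ofNat 786, .ofNat 0, .ofNat 482901329537649105989299956555689979019264, .ofNat 0, .ofNat 0, .ofNat 0, .ofNat 3910026974897225866541585839079612382969856, .ofNat 0, .ofNat 0, .ofNat 0, .ofNat 6826535351069597114022427128974031158509568, .ofNat 0, .ofNat 0, .ofNat 0, .ofNat 9399776353934713569752089146319779072573440,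 .ofNat 69266838775430003920753417272764137472, .ofNat 0⟩)
    (by decide +kernel)
theorem L06631 : Good (Phi V5.P V5.D 1 1) ⟨4, 13, 3, 5, 2, 2, 2, 3, 4, 4⟩ :=
  out_sound (S := T5.ds_pp) T5.ok_pp (w := 51) (j := 3) (by decide +kernel)
theorem L06632 : Good (Phi V5.P V5.D 1 1) ⟨3, 6, 2, 2, 2, 3, 2, 3, 4, 4⟩ :=
  leafX_sound T5.ok_pp T5.Ypp.bz_eq (w := 203) (c := ⟨⟨.negSucc 3386, .negSucc 858, .negSucc 30, .ofNat 348, .negSucc 789, .ofNat 739⟩, ⟨.negSucc 1520, .negSucc 972, .negSucc 424, .ofNat 229, .negSucc 504, .ofNat 420⟩, ⟨.ofNat 2953, .ofNat 107, .ofNat 306, .negSucc 458, .ofNat 602, .negSucc 731⟩, ⟨.negSucc 5520, .negSucc 258, .negSucc 17, .ofNat 28, .negSucc 789, .ofNat 1484⟩, ⟨.negSucc 411, .negSucc 131, .ofNat 89, .ofNat 807, .negSucc 557, .negSucc 685⟩, .ofNat 366, .negSucc 259, .ofNat 0, .negSucc 259, .ofNat 642, .ofNat 0, .ofNat 128, .ofNat 271, .negSucc 137, .ofNat 0, .ofNat 263, .negSucc 5, .ofNat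 0, .ofNat 0, .ofNat 721, .ofNat 1234, .ofNat 0, .ofNat 857895683492185071760481418418914852864, .ofNat 0, .ofNat 0, .ofNat 0, .ofNat 15412142883117790551603788256408407900160, .ofNat 3344324934287139405990703550661918720, .ofNat 0, .ofNat 0, .ofNat 43649094315433257350685007590164749352960, .ofNat 1316669074982919888464585226320871424, .ofNat 0, .ofNat 0, .ofNat 29825077344159051473875442619776092864512, .ofNat 17231491593024073767511937655106437120, .ofNat 0⟩)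
    (by decide +kernel)
theorem L06633 : Good (Phi V5.P V5.D 1 1) ⟨3, 6, 2, 2, 2, 2, 3, 6, 4, 5⟩ :=
  leafX_sound T5.ok_pp T5.Ypp.bz_eq (w := 206) (c := ⟨⟨.negSucc 2723, .negSucc 792, .negSucc 11, .negSucc 388, .negSucc 554, .ofNat 298⟩, ⟨.negSucc 1174, .negSucc 912, .negSucc 302, .negSucc 245, .negSucc 340, .ofNat 175⟩, ⟨.ofNat 2381, .ofNat 411, .negSucc 167, .negSucc 215, .ofNat 156, .negSucc 527⟩, ⟨.negSucc 4348, .negSucc 282, .ofNat 82, .negSucc 255, .negSucc 595, .ofNat 471⟩, ⟨.negSucc 577, .negSucc 146, .ofNat 45, .negSucc 528, .negSucc 356, .negSucc 60⟩, .ofNat 367, .negSucc 261, .ofNat 0, .negSucc 261, .ofNat 641, .ofNat 0, .ofNat 128, .ofNat 163, .negSucc 44, .ofNat 0, .ofNat 162, .negSucc 18, .ofNat 0, .ofNat 0, .ofNat 298, .ofNat 389, .ofNat 0, .ofNat 0, .ofNat 0, .ofNat 0, .ofNat 0, .ofNat 10354381504308097192129273439267074342912, .ofNat 0, .ofNat 0, .ofNat 0, .ofNat 0, .ofNat 0, .ofNat 0, .ofNat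 0, .ofNat 21080978892316072876196955037377815904256, .ofNat 23427125609743076515825486695889895424, .ofNat 0⟩)
    (by decide +kernel)
theorem L06634 : Good (Phi V5.P V5.D 1 1) ⟨3, 6, 2, 2, 2, 2, 3, 7, 4, 5⟩ :=
  out_sound (S := T5.ds_pp) T5.ok_pp (w := 32) (j := 2) (by decide +kernel)
theorem L06635 : Good (Phi V5.P V5.D 1 1) ⟨3, 6, 2, 2, 2, 3, 2, 3, 4, 5⟩ :=
  out_sound (S := T5.ds_pp) T5.ok_pp (w := 30) (j := 2) (by decide +kernel)
theorem L06636 : Good (Phi V5.P V5.D 1 1) ⟨5, 28, 4, 8, 1, 1, 2, 3, 4, 4⟩ :=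
  out_sound (S := T5.ds_pp) T5.ok_pp (w := 59) (j := 3) (by decide +kernel)
theorem L06637 : Good (Phi V5.P V5.D 1 1) ⟨6, 56, 4, 9, 2, 2, 3, 6, 4, 4⟩ :=
  leafX_sound T5.ok_pp T5.Ypp.bz_eq (w := 230) (c := ⟨⟨.negSucc 3980, .negSucc 116, .ofNat 3, .negSucc 332, .negSucc 641, .ofNat 474⟩, ⟨.negSucc 2448, .negSucc 144, .negSucc 73, .negSucc 214, .negSucc 412, .ofNat 297⟩, ⟨.ofNat 3293, .ofNat 5, .ofNat 62, .negSucc 136, .ofNat 263, .negSucc 653⟩, ⟨.negSucc 5325, .negSucc 36, .negSucc 1, .negSucc 335, .negSucc 656, .ofNat 751⟩, ⟨.negSucc 625, .negSucc 10, .ofNat 39, .negSucc 217, .negSucc 405, .negSucc 122⟩, .ofNat 5086, .negSucc 7513, .ofNat 0, .negSucc 7513, .ofNat 11953, .ofNat 0, .ofNat 128, .ofNat 1309, .negSucc 288, .ofNat 0, .ofNat 867, .negSucc 177, .ofNat 0, .ofNat 0, .ofNat 1580, .ofNat 1907, .ofNat 0, .ofNat 0, .ofNat 0, .ofNat 0, .ofNat 0, .ofNat 12459252429763006352073705714316434394039975936, .ofNat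 4332632982535985811520624838855484243968, .ofNat 0, .ofNat 0, .ofNat 0, .ofNat 0, .ofNat 0, .ofNat 0, .ofNat 73446376524378360115840118729494590228355088384, .ofNat 193196433638312868860562009038520320000, .ofNat 0⟩)
    (by decide +kernel)
theorem L06638 : Good (Phi V5.P V5.D 1 1) ⟨6, 56, 4, 9, 2, 2, 3, 7, 4, 4⟩ :=
  leafX_sound T5.ok_pp T5.Ypp.bz_eq (w := 227) (c := ⟨⟨.negSucc 4655, .negSucc 135, .negSucc 25, .negSucc 753, .negSucc 1279, .ofNat 548⟩, ⟨.negSucc 2863, .negSucc 163, .negSucc 110, .negSucc 488, .negSucc 821, .ofNat 342⟩, ⟨.ofNat 3660, .ofNat 76, .negSucc 17, .negSucc 35, .ofNat 553, .negSucc 762⟩, ⟨.negSucc 6120, .negSucc 33, .negSucc 28, .negSucc 711, .negSucc 1432, .ofNat 949⟩, ⟨.negSucc 906, .negSucc 16, .ofNat 11, .negSucc 514, .negSucc 562, .negSucc 248⟩, .ofNat 2050, .negSucc 2800, .ofNat 0, .negSucc 2800, .ofNat 4616, .ofNat 0, .ofNat 128, .ofNat 941, .negSucc 267, .ofNat 0, .ofNat 641, .negSucc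 161, .ofNat 0, .ofNat 0, .ofNat 975, .ofNat 2190, .ofNat 0, .ofNat 2457085385289345937287168473215517845641756672, .ofNat 23162531844823363521632413152895303680, .ofNat 0, .ofNat 0, .ofNat 26356896740722602632060202435341072062813831168, .ofNat 167110887286530181099351205169229463552, .ofNat 0, .ofNat 0, .ofNat 136825391729729657660808344871921208344528814080, .ofNat 871065426200357694901513893640432254976, .ofNat 0, .ofNat 0, .ofNat 141217637745288344497100356818598107534577369088, .ofNat 32079240046428085847691622472315043840, .ofNat 0⟩)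
    (by decide +kernel)
theorem L06639 : Good (Phi V5.P V5.D 1 1) ⟨6, 57, 4, 9, 2, 2, 2, 3, 4, 4⟩ :=
  out_sound (S := T5.ds_pp) T5.ok_pp (w := 65) (j := 3) (by decide +kernel)
theorem L06640 : Good (Phi V5.P V5.D 1 1) ⟨5, 28, 4, 9, 2, 3, 2, 3, 4, 4⟩ :=
  leafX_sound T5.ok_pp T5.Ypp.bz_eq (w := 218) (c := ⟨⟨.negSucc 4257, .negSucc 228, .negSucc 6, .ofNat 380, .negSucc 804, .ofNat 777⟩, ⟨.negSucc 2604, .negSucc 264, .negSucc 106, .ofNat 252, .negSucc 519, .ofNat 480⟩, ⟨.ofNat 3123, .ofNat 6, .ofNat 110, .negSucc 401, .ofNat 576, .negSucc 827⟩, ⟨.negSucc 5777, .negSucc 52, .negSucc 25, .ofNat 1, .negSucc 768, .ofNat 1603⟩, ⟨.negSucc 533, .negSucc 59, .ofNat 52, .ofNat 852, .negSucc 582, .negSucc 780⟩, .ofNat 382, .negSucc 284, .ofNat 0, .negSucc 284, .ofNat 643, .ofNat 0, .ofNat 128, .ofNat 191, .negSucc 62, .ofNat 0, .ofNat 181, .negSucc 3, .ofNat 0, .ofNat 0, .ofNat 320, .ofNat 2022, .ofNat 0, .ofNat 18576205631514264552987973228100621642498048,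 .ofNat 1824140399476867666523964971650383872, .ofNat 0, .ofNat 0, .ofNat 339157241016143708940122112527434714768736256, .ofNat 1689360773813369720564761461056864256, .ofNat 0, .ofNat 0, .ofNat 601265261255223795224873439465741317249695744, .ofNat 3397744471671627229851292785417650176, .ofNat 0, .ofNat 0, .ofNat 214904152914845799303251997316787514543964160, .ofNat 14699300140074946801699675324565946368, .ofNat 0⟩)
    (by decide +kernel)
theorem L06641 : Good (Phi V5.P V5.D 1 1) ⟨6, 56, 4, 10, 2, 2, 3, 6, 4, 4⟩ :=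
  leafX_sound T5.ok_pp T5.Ypp.bz_eq (w := 223) (c := ⟨⟨.negSucc 4027, .ofNat 10, .negSucc 114, .negSucc 358, .negSucc 665, .ofNat 462⟩, ⟨.negSucc 2550, .negSucc 75, .negSucc 143, .negSucc 236, .negSucc 434, .ofNat 301⟩, ⟨.ofNat 3396, .negSucc 107, .ofNat 183, .negSucc 144, .ofNat 264, .negSucc 641⟩, ⟨.negSucc 5401, .ofNat 53, .negSucc 56, .negSucc 382, .negSucc 711, .ofNat 830⟩, ⟨.negSucc 560, .ofNat 122, .negSucc 122, .negSucc 269, .negSucc 394, .negSucc 270⟩, .ofNat 166, .negSucc 57, .ofNat 0, .negSucc 57, .ofNat 216, .ofNat 0, .ofNat 128, .ofNat 90, .negSucc 126, .ofNat 0, .ofNat 141, .negSucc 5, .ofNat 0, .ofNat 0, .ofNat 320, .ofNat 134, .ofNat 0, .ofNat 0, .ofNat 0, .ofNat 0, .ofNat 0, .ofNat 843626022380810834707674692318064891635171328, .ofNat 8579487290883585279116587453974052864, .ofNat 0, .ofNat 0, .ofNat 0, .ofNat 37881309728041096011589978528522698752, .ofNat 0, .ofNat 0, .ofNat 1259344535283281645985039172892682235049672704,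 .ofNat 4695777530833985589606005311975456768, .ofNat 0⟩)
    (by decide +kernel)
theorem L06642 : Good (Phi V5.P V5.D 1 1) ⟨6, 57, 4, 10, 2, 2, 3, 6, 4, 4⟩ :=
  leafX_sound T5.ok_pp T5.Ypp.bz_eq (w := 231) (c := ⟨⟨.negSucc 3947, .ofNat 136, .negSucc 296, .negSucc 360, .negSucc 681, .ofNat 507⟩, ⟨.negSucc 2566, .ofNat 30, .negSucc 288, .negSucc 240, .negSucc 454, .ofNat 337⟩, ⟨.ofNat 3373, .ofNat 81, .ofNat 6, .negSucc 93, .ofNat 269, .negSucc 677⟩, ⟨.negSucc 5380, .negSucc 3, .negSucc 44, .negSucc 354, .negSucc 699, .ofNat 862⟩, ⟨.negSucc 531, .ofNat 8, .negSucc 26, .negSucc 226, .negSucc 386, .negSucc 228⟩, .ofNat 3726, .negSucc 5130, .ofNat 0, .negSucc 5130, .ofNat 7802, .ofNat 0, .ofNat 128, .ofNat 2353, .negSucc 367, .ofNat 0, .ofNat 1658, .negSucc 231, .ofNat 0, .ofNat 0, .ofNat 2329, .ofNat 1838, .ofNat 0, .ofNat 134996576113245418073810869284151494738706432, .ofNat 29426601262649365776417595784683323392,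 .ofNat 196132969956736018257993726246769847104635404288, .ofNat 0, .ofNat 0, .ofNat 1064191856416615881742681500684008816640, .ofNat 0, .ofNat 0, .ofNat 0, .ofNat 0, .ofNat 0, .ofNat 0, .ofNat 136564726048995498566827047539491110664619950080, .ofNat 825848666185694923352085261902134902784, .ofNat 4183011420411431125385774408047005956829857447936⟩)
    (by decide +kernel)
theorem L06643 : Good (Phi V5.P V5.D 1 1) ⟨6, 56, 4, 11, 2, 2, 3, 6, 4, 4⟩ :=
  out_sound (S := T5.ds_pp) T5.ok_pp (w := 65) (j := 3) (by decide +kernel)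
theorem L06644 : Good (Phi V5.P V5.D 1 1) ⟨7, 114, 5, 22, 2, 2, 3, 6, 4, 4⟩ :=
  out_sound (S := T5.ds_pp) T5.ok_pp (w := 73) (j := 3) (by decide +kernel)
theorem L06645 : Good (Phi V5.P V5.D 1 1) ⟨7, 115, 5, 22, 2, 2, 3, 6, 4, 4⟩ :=
  out_sound (S := T5.ds_pp) T5.ok_pp (w := 21) (j := 4) (by decide +kernel)
theorem L06646 : Good (Phi V5.P V5.D 1 1) ⟨6, 57, 5, 23, 2, 2, 3, 6, 4, 4⟩ :=
  out_sound (S := T5.ds_pp) T5.ok_pp (w := 67) (j := 3) (by decide +kernel)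
theorem L06647 : Good (Phi V5.P V5.D 1 1) ⟨5, 28, 3, 5, 3, 4, 4, 14, 4, 4⟩ :=
  leafX_sound T5.ok_pp T5.Ypp.bz_eq (w := 238) (c := ⟨⟨.negSucc 4674, .negSucc 320, .negSucc 9, .negSucc 364, .negSucc 656, .ofNat 572⟩, ⟨.negSucc 2968, .negSucc 370, .negSucc 194, .negSucc 240, .negSucc 434, .ofNat 376⟩, ⟨.ofNat 3665, .ofNat 109, .ofNat 10, .negSucc 46, .ofNat 269, .negSucc 804⟩, ⟨.negSucc 6149, .negSucc 118, .negSucc 11, .negSucc 318, .negSucc 737, .ofNat 998⟩, ⟨.negSucc 889, .negSucc 6, .negSucc 1, .negSucc 292, .negSucc 281, .negSucc 289⟩, .ofNat 907, .negSucc 1027, .ofNat 0, .negSucc 1027, .ofNat 1788, .ofNat 0, .ofNat 128, .ofNat 317, .negSucc 126, .ofNat 0, .ofNat 236, .negSucc 71, .ofNat 0, .ofNat 0, .ofNat 434, .ofNat 1812, .ofNat 0, .ofNat 126400035082487597787994813897584130158877474816, .ofNat 1368640381783800425833708678143701990506496, .ofNat 1150731464462222121055830393604981851801021927391232, .ofNat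 0, .ofNat 1107828708287163432309414328059703895982990163968, .ofNat 29678910142589219181465069818612434186797056, .ofNat 641382723383229361106672137183771860744466103009280, .ofNat 0, .ofNat 1756138440850182987119589812537626915260908699648, .ofNat 2545878166312895009171339419395833578127360, .ofNat 0, .ofNat 0, .ofNat 3117383697813276880269782423037175596269143326720, .ofNat 11116810919287543535076620483529175686184960, .ofNat 0⟩)
    (by decide +kernel)
theorem L06648 : Good (Phi V5.P V5.D 1 1) ⟨5, 28, 3, 5, 3, 4, 4, 15, 4, 4⟩ :=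
  out_sound (S := T5.ds_pp) T5.ok_pp (w := 36) (j := 2) (by decide +kernel)
theorem L06649 : Good (Phi V5.P V5.D 1 1) ⟨5, 28, 3, 5, 3, 5, 3, 7, 4, 4⟩ :=
  out_sound (S := T5.ds_pp) T5.ok_pp (w := 34) (j := 2) (by decide +kernel)
theorem L06650 : Good (Phi V5.P V5.D 1 1) ⟨5, 28, 3, 5, 2, 3, 2, 3, 4, 4⟩ :=
  leafX_sound T5.ok_pp T5.Ypp.bz_eq (w := 215) (c := ⟨⟨.negSucc 4268, .negSucc 213, .negSucc 37, .ofNat 399, .negSucc 814, .ofNat 793⟩, ⟨.negSucc 2712, .negSucc 270, .negSucc 220, .ofNat 271, .negSucc 542, .ofNat 520⟩, ⟨.ofNat 3218, .ofNat 74, .ofNat 172, .negSucc 356, .ofNat 561, .negSucc 873⟩, ⟨.negSucc 5800, .negSucc 75, .negSucc 47, .negSucc 21, .negSucc 755, .ofNat 1668⟩, ⟨.negSucc 494, .ofNat 11, .ofNat 43, .ofNat 879, .negSucc 571, .negSucc 836⟩, .ofNat 391, .negSucc 297, .ofNat 0, .negSucc 297, .ofNat 646, .ofNat 0, .ofNat 128, .ofNat 207, .negSucc 86, .ofNat 0, .ofNat 195, .negSucc 5, .ofNat 0, .ofNat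 0, .ofNat 431, .ofNat 1477, .ofNat 0, .ofNat 1954928990501738217534665217585062965411840, .ofNat 0, .ofNat 77585809157253927096089882713270661305860096, .ofNat 0, .ofNat 43019188467630109631838906569355556655464448, .ofNat 627781026824066469303442849272954880, .ofNat 21486585996890302019331162999372653176815616, .ofNat 0, .ofNat 63772861937653564726833914079530656750108672, .ofNat 0, .ofNat 390661058327400943002752202013692081316298752, .ofNat 0, .ofNat 31093961993646861384746194605968891855241216, .ofNat 3781052836176693587014655253963341824, .ofNat 1162792825213597140271184263896960907656298496⟩)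
    (by decide +kernel)
theorem L06651 : Good (Phi V5.P V5.D 1 1) ⟨5, 29, 2, 2, 1, 1, 2, 3, 4, 4⟩ :=
  out_sound (S := T5.ds_pp) T5.ok_pp (w := 17) (j := 4) (by decide +kernel)
theorem L06652 : Good (Phi V5.P V5.D 1 1) ⟨4, 15, 2, 2, 1, 1, 2, 3, 4, 4⟩ :=
  out_sound (S := T5.ds_pp) T5.ok_pp (w := 49) (j := 3) (by decide +kernel)
theorem L06653 : Good (Phi V5.P V5.D 1 1) ⟨3, 7, 2, 2, 2, 2, 3, 6, 4, 5⟩ :=
  leafX_sound T5.ok_pp T5.Ypp.bz_eq (w := 207) (c := ⟨⟨.negSucc 3492, .negSucc 663, .negSucc 76, .negSucc 390, .negSucc 572, .ofNat 312⟩, ⟨.negSucc 2067, .negSucc 864, .negSucc 357, .negSucc 260, .negSucc 370, .ofNat 201⟩, ⟨.ofNat 2739, .negSucc 25, .ofNat 56, .negSucc 300, .ofNat 122, .negSucc 596⟩, ⟨.negSucc 4612, .negSucc 73, .ofNat 10, .negSucc 200, .negSucc 580, .ofNat 479⟩, ⟨.negSucc 700, .negSucc 34, .negSucc 27, .negSucc 539, .negSucc 362, .negSucc 54⟩, .ofNat 879, .negSucc 991, .ofNat 0, .negSucc 991, .ofNat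 1754, .ofNat 0, .ofNat 128, .ofNat 361, .negSucc 71, .ofNat 0, .ofNat 274, .negSucc 40, .ofNat 0, .ofNat 0, .ofNat 536, .ofNat 642, .ofNat 0, .ofNat 83092071811953668862813171803395981312, .ofNat 8347506056420478741398233522676695040, .ofNat 14515710104558745629507651167572865746731008, .ofNat 0, .ofNat 25219627505879714742758401852676052615168, .ofNat 201625789913382735583375615182545879040, .ofNat 0, .ofNat 0, .ofNat 26415080091978579492130371319400159510528, .ofNat 541927893627423265862602219313644437504, .ofNat 0, .ofNat 0, .ofNat 62664688492786778501395784490351310405632, .ofNat 74590215973618040133602414943556075520, .ofNat 53369798934676125676409685467991185735811072⟩)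
    (by decide +kernel)
theorem L06654 : Good (Phi V5.P V5.D 1 1) ⟨3, 7, 2, 2, 2, 2, 3, 7, 4, 5⟩ :=
  out_sound (S := T5.ds_pp) T5.ok_pp (w := 32) (j := 2) (by decide +kernel)
theorem L06655 : Good (Phi V5.P V5.D 1 1) ⟨3, 7, 2, 2, 2, 3, 2, 3, 4, 5⟩ :=
  out_sound (S := T5.ds_pp) T5.ok_pp (w := 30) (j := 2) (by decide +kernel)
theorem L06656 : Good (Phi V5.P V5.D 1 1) ⟨3, 6, 2, 3, 1, 1, 2, 3, 3, 2⟩ :=
  out_sound (S := T5.ds_pp) T5.ok_pp (w := 43) (j := 3) (by decide +kernel)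
theorem L06657 : Good (Phi V5.P V5.D 1 1) ⟨5, 28, 3, 6, 2, 2, 2, 3, 3, 2⟩ :=
  out_sound (S := T5.ds_pp) T5.ok_pp (w := 57) (j := 3) (by decide +kernel)
theorem L06658 : Good (Phi V5.P V5.D 1 1) ⟨5, 29, 3, 6, 2, 2, 2, 3, 3, 2⟩ :=
  out_sound (S := T5.ds_pp) T5.ok_pp (w := 17) (j := 4) (by decide +kernel)
theorem L06659 : Good (Phi V5.P V5.D 1 1) ⟨4, 14, 3, 7, 2, 2, 2, 3, 3, 2⟩ :=
  out_sound (S := T5.ds_pp) T5.ok_pp (w := 51) (j := 3) (by decide +kernel)
theorem L06660 : Good (Phi V5.P V5.D 1 1) ⟨4, 15, 2, 3, 2, 2, 2, 3, 3, 2⟩ :=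
  out_sound (S := T5.ds_pp) T5.ok_pp (w := 15) (j := 4) (by decide +kernel)
theorem L06661 : Good (Phi V5.P V5.D 1 1) ⟨5, 28, 3, 6, 4, 12, 4, 12, 5, 8⟩ :=
  out_sound (S := T5.ds_pp) T5.ok_pp (w := 57) (j := 3) (by decide +kernel)
theorem L06662 : Good (Phi V5.P V5.D 1 1) ⟨5, 29, 3, 6, 4, 12, 4, 12, 5, 8⟩ :=
  out_sound (S := T5.ds_pp) T5.ok_pp (w := 17) (j := 4) (by decide +kernel)
theorem L06663 : Good (Phi V5.P V5.D 1 1) ⟨4, 14, 3, 7, 4, 12, 4, 12, 5, 8⟩ :=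
  out_sound (S := T5.ds_pp) T5.ok_pp (w := 51) (j := 3) (by decide +kernel)
theorem L06664 : Good (Phi V5.P V5.D 1 1) ⟨4, 15, 2, 3, 4, 12, 4, 12, 5, 8⟩ :=
  out_sound (S := T5.ds_pp) T5.ok_pp (w := 15) (j := 4) (by decide +kernel)
theorem L06665 : Good (Phi V5.P V5.D 1 1) ⟨3, 7, 2, 3, 4, 13, 4, 12, 5, 8⟩ :=
  out_sound (S := T5.ds_pp) T5.ok_pp (w := 40) (j := 2) (by decide +kernel)
theorem L06666 : Good (Phi V5.P V5.D 1 1) ⟨3, 7, 2, 3, 3, 6, 4, 13, 5, 8⟩ :=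
  out_sound (S := T5.ds_pp) T5.ok_pp (w := 38) (j := 2) (by decide +kernel)
theorem L06667 : Good (Phi V5.P V5.D 1 1) ⟨3, 7, 2, 3, 3, 6, 3, 6, 5, 9⟩ :=
  out_sound (S := T5.ds_pp) T5.ok_pp (w := 36) (j := 2) (by decide +kernel)
theorem L06668 : Good (Phi V5.P V5.D 1 1) ⟨3, 7, 2, 3, 3, 7, 3, 6, 4, 4⟩ :=
  out_sound (S := T5.ds_pp) T5.ok_pp (w := 34) (j := 2) (by decide +kernel)
theorem L06669 : Good (Phi V5.P V5.D 1 1) ⟨3, 7, 2, 3, 2, 3, 3, 7, 4, 4⟩ :=
  out_sound (S := T5.ds_pp) T5.ok_pp (w := 32) (j := 2) (by decide +kernel)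
theorem L06670 : Good (Phi V5.P V5.D 1 1) ⟨3, 7, 2, 3, 2, 3, 2, 3, 4, 5⟩ :=
  out_sound (S := T5.ds_pp) T5.ok_pp (w := 30) (j := 2) (by decide +kernel)
theorem L06671 : Good (Phi V5.P V5.D 1 1) ⟨2, 3, 1, 1, 2, 2, 2, 3, 3, 3⟩ :=
  leafX_sound T5.ok_pp T5.Ypp.bz_eq (w := 191) (c := ⟨⟨.negSucc 2639, .negSucc 1121, .negSucc 195, .negSucc 345, .negSucc 887, .ofNat 444⟩, ⟨.negSucc 1185, .negSucc 1413, .negSucc 726, .negSucc 225, .negSucc 566, .ofNat 275⟩, ⟨.ofNat 1991, .ofNat 554, .negSucc 394, .negSucc 388, .ofNat 107, .negSucc 997⟩, ⟨.negSucc 4022, .negSucc 327, .ofNat 117, .negSucc 160, .negSucc 948, .ofNat 656⟩, ⟨.negSucc 672, .negSucc 183, .negSucc 6, .negSucc 519, .negSucc 517, .ofNat 30⟩, .ofNat 165, .negSucc 54, .ofNat 0, .negSucc 54, .ofNat 218, .ofNat 0, .ofNat 128, .ofNat 82, .negSucc 58, .ofNat 0, .ofNat 158, .negSucc 23, .ofNat 0, .ofNat 0, .ofNat 378, .ofNat 1123, .ofNat 0, .ofNat 1583805442408159052374323555326754816,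 .ofNat 8906614139984622114411324062564352, .ofNat 621390723113246437175945326638382710784, .ofNat 0, .ofNat 16424378631375446302509308824784994304, .ofNat 75021689863511246428801023776653312, .ofNat 1560553543402725089958531300872750628864, .ofNat 0, .ofNat 19558150277284063842840645524330119168, .ofNat 153733119358467664919663129867059200, .ofNat 3805671341099332278483191263774216552448, .ofNat 0, .ofNat 30387427925366934723455304667565654016, .ofNat 96072275500963232030028410642235392, .ofNat 0⟩)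
    (by decide +kernel)
theorem L06672 : Good (Phi V5.P V5.D 1 1) ⟨2, 3, 1, 1, 2, 3, 2, 3, 3, 3⟩ :=
  out_sound (S := T5.ds_pp) T5.ok_pp (w := 28) (j := 2) (by decide +kernel)
theorem L06673 : Good (Phi V5.P V5.D 1 1) ⟨1, 1, 1, 1, 4, 8, 3, 4, 4, 8⟩ :=
  out_sound (S := T5.ds_pp) T5.ok_pp (w := 29) (j := 1) (by decide +kernel)
theorem L06674 : Good (Phi V5.P V5.D 1 1) ⟨1, 1, 1, 1, 4, 8, 3, 5, 4, 8⟩ :=
  out_sound (S := T5.ds_pp) T5.ok_pp (w := 36) (j := 2) (by decide +kernel)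
theorem L06675 : Good (Phi V5.P V5.D 1 1) ⟨1, 1, 1, 1, 4, 8, 2, 2, 4, 9⟩ :=
  out_sound (S := T5.ds_pp) T5.ok_pp (w := 28) (j := 1) (by decide +kernel)
theorem L06676 : Good (Phi V5.P V5.D 1 1) ⟨1, 1, 1, 1, 4, 9, 2, 2, 3, 4⟩ :=
  out_sound (S := T5.ds_pp) T5.ok_pp (w := 32) (j := 2) (by decide +kernel)
theorem L06677 : Good (Phi V5.P V5.D 1 1) ⟨1, 1, 1, 1, 3, 4, 2, 3, 3, 4⟩ :=
  out_sound (S := T5.ds_pp) T5.ok_pp (w := 30) (j := 2) (by decide +kernel)
theorem L06678 : Good (Phi V5.P V5.D 1 1) ⟨1, 1, 1, 1, 3, 4, 1, 1, 3, 5⟩ :=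
  out_sound (S := T5.ds_pp) T5.ok_pp (w := 28) (j := 2) (by decide +kernel)
theorem L06679 : Good (Phi V5.P V5.D 1 1) ⟨1, 1, 1, 1, 3, 5, 1, 1, 2, 2⟩ :=
  out_sound (S := T5.ds_pp) T5.ok_pp (w := 26) (j := 2) (by decide +kernel)
theorem L06680 : Good (Phi V5.P V5.D 1 1) ⟨1, 1, 1, 1, 2, 2, 1, 1, 2, 3⟩ :=
  out_sound (S := T5.ds_pp) T5.ok_pp (w := 24) (j := 2) (by decide +kernel)
theorem L06681 : Good (Phi V5.P V5.D 1 1) ⟨1, 1, 1, 1, 2, 3, 1, 1, 1, 1⟩ :=
  out_sound (S := T5.ds_pp) T5.ok_pp (w := 22) (j := 2) (by decide +kernel)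

end Crest.Agent.R097C5.N5pp
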