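import Crest.Agent.R097C5.N5pp_g2
import Crest.Agent.R097C5.N5pp_025
import Crest.Agent.R097C5.N5pp_026
import Crest.Agent.R097C5.N5pp_027
import Crest.Agent.R097C5.N5pp_028
import Crest.Agent.R097C5.N5pp_029
import Crest.Agent.R097C5.N5pp_030
import Crest.Agent.R097C5.N5pp_031

/-!
# Row 97, box cover in dimension n = 5 (generated)
-/

set_option autoImplicit false
set_option Elab.async false
set_option maxHeartbeats 0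
set_option maxRecDepth 100000

open Crest.Agent.R097 Crest.Agent.R097.KA


namespace Crest.Agent.R097C5.N5pp

theorem g00750 : Good (Phi V5.P V5.D 1 1) ⟨10, 891, 8, 151, 9, 304, 8, 126, 9, 224⟩ :=
  Good.n4 (Good.n2 (Good.n3 L05257 (Good.n4 (Good.n2 (Good.n3 L05258 L05259) L05260) L05261)) L05262) L05263
theorem g00751 : Good (Phi V5.P V5.D 1 1) ⟨10, 891, 8, 151, 8, 152, 6, 31, 8, 112⟩ :=
  Good.n3 (Good.n4 (Good.n3 L05251 (Good.n4 (Good.n3 L05252 (Good.n2 L05253 L05254)) L05255)) L05256) (Good.n4 (Good.n2 (Good.n3 g00750 L05264) L05265) L05266)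
theorem g00752 : Good (Phi V5.P V5.D 1 1) ⟨10, 891, 8, 151, 6, 38, 5, 15, 7, 56⟩ :=
  Good.n2 (Good.n3 L05250 (Good.n4 (Good.n2 g00751 L05267) L05268)) (Good.n3 (Good.n4 (Good.n2 L05269 L05270) L05271) L05272)
theorem g00753 : Good (Phi V5.P V5.D 1 1) ⟨10, 891, 8, 151, 5, 19, 4, 7, 6, 28⟩ :=
  Good.n3 (Good.n4 (Good.n3 L05246 (Good.n2 L05247 L05248)) L05249) (Good.n2 (Good.n4 g00752 L05273) L05274)
theorem g00754 : Good (Phi V5.P V5.D 1 1) ⟨10, 891, 8, 151, 3, 4, 2, 1, 4, 7⟩ :=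
  Good.n3 L05242 (Good.n4 (Good.n2 L05243 (Good.n3 L05244 (Good.n4 (Good.n2 L05245 g00753) L05275))) L05276)
theorem g00755 : Good (Phi V5.P V5.D 1 1) ⟨10, 891, 8, 151, 4, 10, 2, 1, 4, 7⟩ :=
  Good.n4 (Good.n3 L05277 (Good.n2 (Good.n4 (Good.n3 (Good.n3 L05278 L05279) L05280) L05281) L05282)) L05283
theorem g00756 : Good (Phi V5.P V5.D 1 1) ⟨9, 445, 7, 75, 2, 2, 2, 1, 4, 7⟩ :=
  Good.n1 (Good.n2 g00748 (Good.n2 g00749 L05240)) (Good.n0 L05241 (Good.n2 g00754 (Good.n2 g00755 L05284)))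
theorem g00757 : Good (Phi V5.P V5.D 1 1) ⟨8, 223, 7, 75, 9, 304, 8, 126, 9, 224⟩ :=
  Good.n4 (Good.n2 (Good.n3 L05300 (Good.n4 (Good.n2 (Good.n3 L05301 L05302) L05303) L05304)) L05305) L05306
theorem g00758 : Good (Phi V5.P V5.D 1 1) ⟨8, 223, 7, 75, 8, 152, 6, 31, 8, 112⟩ :=
  Good.n3 (Good.n4 (Good.n3 L05294 (Good.n4 (Good.n3 L05295 (Good.n2 L05296 L05297)) L05298)) L05299) (Good.n4 (Good.n2 (Good.n3 g00757 L05307) L05308) L05309)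
theorem g00759 : Good (Phi V5.P V5.D 1 1) ⟨8, 223, 7, 75, 6, 38, 5, 15, 7, 56⟩ :=
  Good.n2 (Good.n3 L05293 (Good.n4 (Good.n2 g00758 L05310) L05311)) (Good.n3 (Good.n4 (Good.n2 L05312 L05313) L05314) L05315)
theorem g00760 : Good (Phi V5.P V5.D 1 1) ⟨8, 223, 7, 75, 5, 19, 4, 7, 6, 28⟩ :=
  Good.n3 (Good.n4 (Good.n3 L05289 (Good.n2 L05290 L05291)) L05292) (Good.n2 (Good.n4 g00759 L05316) L05317)
theorem g00761 : Good (Phi V5.P V5.D 1 1) ⟨8, 223, 7, 75, 3, 4, 2, 1, 4, 7⟩ :=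
  Good.n3 L05285 (Good.n4 (Good.n2 L05286 (Good.n3 L05287 (Good.n4 (Good.n2 L05288 g00760) L05318))) L05319)
theorem g00762 : Good (Phi V5.P V5.D 1 1) ⟨8, 223, 7, 75, 4, 10, 2, 1, 4, 7⟩ :=
  Good.n4 (Good.n3 L05320 (Good.n2 (Good.n4 (Good.n3 (Good.n3 L05321 L05322) L05323) L05324) L05325)) L05326
theorem g00763 : Good (Phi V5.P V5.D 1 1) ⟨7, 111, 6, 37, 2, 2, 2, 1, 4, 7⟩ :=
  Good.n1 g00736 (Good.n0 (Good.n0 (Good.n1 g00743 L05197) g00756) (Good.n2 g00761 (Good.n2 g00762 L05327)))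
theorem g00764 : Good (Phi V5.P V5.D 1 1) ⟨6, 55, 6, 37, 1, 1, 1, 0, 4, 7⟩ :=
  Good.n0 (Good.n0 L04936 (Good.n1 (Good.n0 L04937 g00712) L04985)) (Good.n2 (Good.n3 L04986 g00763) L05328)
theorem g00765 : Good (Phi V5.P V5.D 1 1) ⟨8, 223, 8, 152, 9, 304, 8, 126, 9, 224⟩ :=
  Good.n4 (Good.n2 (Good.n3 L05347 (Good.n4 (Good.n2 (Good.n3 L05348 L05349) L05350) L05351)) L05352) L05353
theorem g00766 : Good (Phi V5.P V5.D 1 1) ⟨8, 223, 8, 152, 8, 152, 6, 31, 8, 112⟩ :=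
  Good.n3 (Good.n4 (Good.n3 L05341 (Good.n4 (Good.n3 L05342 (Good.n2 L05343 L05344)) L05345)) L05346) (Good.n4 (Good.n2 (Good.n3 g00765 L05354) L05355) L05356)
theorem g00767 : Good (Phi V5.P V5.D 1 1) ⟨8, 223, 8, 152, 6, 38, 5, 15, 7, 56⟩ :=
  Good.n2 (Good.n3 L05340 (Good.n4 (Good.n2 g00766 L05357) L05358)) (Good.n3 (Good.n4 (Good.n2 L05359 L05360) L05361) L05362)
theorem g00768 : Good (Phi V5.P V5.D 1 1) ⟨8, 223, 8, 152, 5, 19, 4, 7, 6, 28⟩ :=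
  Good.n3 (Good.n4 (Good.n3 L05336 (Good.n2 L05337 L05338)) L05339) (Good.n2 (Good.n4 g00767 L05363) L05364)
theorem g00769 : Good (Phi V5.P V5.D 1 1) ⟨8, 223, 8, 152, 3, 4, 2, 1, 4, 7⟩ :=
  Good.n3 L05332 (Good.n4 (Good.n2 L05333 (Good.n3 L05334 (Good.n4 (Good.n2 L05335 g00768) L05365))) L05366)
theorem g00770 : Good (Phi V5.P V5.D 1 1) ⟨8, 223, 8, 152, 4, 10, 2, 1, 4, 7⟩ :=
  Good.n4 (Good.n3 L05367 (Good.n2 (Good.n4 (Good.n3 (Good.n3 L05368 L05369) L05370) L05371) L05372)) L05373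
theorem g00771 : Good (Phi V5.P V5.D 1 1) ⟨11, 1787, 9, 306, 9, 304, 8, 126, 9, 224⟩ :=
  Good.n4 (Good.n2 (Good.n3 L05392 (Good.n4 (Good.n2 (Good.n3 L05393 L05394) L05395) L05396)) L05397) L05398
theorem g00772 : Good (Phi V5.P V5.D 1 1) ⟨11, 1787, 9, 306, 8, 152, 6, 31, 8, 112⟩ :=
  Good.n3 (Good.n4 (Good.n3 L05386 (Good.n4 (Good.n3 L05387 (Good.n2 L05388 L05389)) L05390)) L05391) (Good.n4 (Good.n2 (Good.n3 g00771 L05399) L05400) L05401)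
theorem g00773 : Good (Phi V5.P V5.D 1 1) ⟨11, 1787, 9, 306, 6, 38, 5, 15, 7, 56⟩ :=
  Good.n2 (Good.n3 L05385 (Good.n4 (Good.n2 g00772 L05402) L05403)) (Good.n3 (Good.n4 (Good.n2 L05404 L05405) L05406) L05407)
theorem g00774 : Good (Phi V5.P V5.D 1 1) ⟨11, 1787, 9, 306, 5, 19, 4, 7, 6, 28⟩ :=
  Good.n3 (Good.n4 (Good.n3 L05381 (Good.n2 L05382 L05383)) L05384) (Good.n2 (Good.n4 g00773 L05408) L05409)
theorem g00775 : Good (Phi V5.P V5.D 1 1) ⟨11, 1787, 9, 306, 3, 4, 2, 1, 4, 7⟩ :=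
  Good.n3 L05377 (Good.n4 (Good.n2 L05378 (Good.n3 L05379 (Good.n4 (Good.n2 L05380 g00774) L05410))) L05411)
theorem g00776 : Good (Phi V5.P V5.D 1 1) ⟨11, 1787, 9, 306, 4, 10, 2, 1, 4, 7⟩ :=
  Good.n4 (Good.n3 L05412 (Good.n2 (Good.n4 (Good.n3 (Good.n3 L05413 L05414) L05415) L05416) L05417)) L05418
theorem g00777 : Good (Phi V5.P V5.D 1 1) ⟨9, 447, 8, 153, 9, 304, 8, 126, 9, 224⟩ :=
  Good.n4 (Good.n2 (Good.n3 L05436 (Good.n4 (Good.n2 (Good.n3 L05437 L05438) L05439) L05440)) L05441) L05442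
theorem g00778 : Good (Phi V5.P V5.D 1 1) ⟨9, 447, 8, 153, 8, 152, 6, 31, 8, 112⟩ :=
  Good.n3 (Good.n4 (Good.n3 L05430 (Good.n4 (Good.n3 L05431 (Good.n2 L05432 L05433)) L05434)) L05435) (Good.n4 (Good.n2 (Good.n3 g00777 L05443) L05444) L05445)
theorem g00779 : Good (Phi V5.P V5.D 1 1) ⟨9, 447, 8, 153, 6, 38, 5, 15, 7, 56⟩ :=
  Good.n2 (Good.n3 L05429 (Good.n4 (Good.n2 g00778 L05446) L05447)) (Good.n3 (Good.n4 (Good.n2 L05448 L05449) L05450) L05451)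
theorem g00780 : Good (Phi V5.P V5.D 1 1) ⟨9, 447, 8, 153, 5, 19, 4, 7, 6, 28⟩ :=
  Good.n3 (Good.n4 (Good.n3 L05425 (Good.n2 L05426 L05427)) L05428) (Good.n2 (Good.n4 g00779 L05452) L05453)
theorem g00781 : Good (Phi V5.P V5.D 1 1) ⟨9, 447, 8, 153, 3, 4, 2, 1, 4, 7⟩ :=
  Good.n3 L05421 (Good.n4 (Good.n2 L05422 (Good.n3 L05423 (Good.n4 (Good.n2 L05424 g00780) L05454))) L05455)
theorem g00782 : Good (Phi V5.P V5.D 1 1) ⟨9, 447, 8, 153, 4, 10, 2, 1, 4, 7⟩ :=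
  Good.n4 (Good.n3 L05456 (Good.n2 (Good.n4 (Good.n3 (Good.n3 L05457 L05458) L05459) L05460) L05461)) L05462
theorem g00783 : Good (Phi V5.P V5.D 1 1) ⟨8, 223, 8, 153, 2, 2, 2, 1, 4, 7⟩ :=
  Good.n0 (Good.n0 L05375 (Good.n1 (Good.n0 L05376 (Good.n2 g00775 (Good.n2 g00776 L05419))) L05420)) (Good.n2 g00781 (Good.n2 g00782 L05463))
theorem g00784 : Good (Phi V5.P V5.D 1 1) ⟨13, 7159, 11, 1232, 9, 304, 8, 126, 9, 224⟩ :=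
  Good.n4 (Good.n2 (Good.n3 L05485 (Good.n4 (Good.n2 (Good.n3 L05486 L05487) L05488) L05489)) L05490) L05491
theorem g00785 : Good (Phi V5.P V5.D 1 1) ⟨13, 7159, 11, 1232, 8, 152, 6, 31, 8, 112⟩ :=
  Good.n3 (Good.n4 (Good.n3 L05479 (Good.n4 (Good.n3 L05480 (Good.n2 L05481 L05482)) L05483)) L05484) (Good.n4 (Good.n2 (Good.n3 g00784 L05492) L05493) L05494)
theorem g00786 : Good (Phi V5.P V5.D 1 1) ⟨13, 7159, 11, 1232, 6, 38, 5, 15, 7, 56⟩ :=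
  Good.n2 (Good.n3 L05478 (Good.n4 (Good.n2 g00785 L05495) L05496)) (Good.n3 (Good.n4 (Good.n2 L05497 L05498) L05499) L05500)
theorem g00787 : Good (Phi V5.P V5.D 1 1) ⟨13, 7159, 11, 1232, 5, 19, 4, 7, 6, 28⟩ :=
  Good.n3 (Good.n4 (Good.n3 L05474 (Good.n2 L05475 L05476)) L05477) (Good.n2 (Good.n4 g00786 L05501) L05502)
theorem g00788 : Good (Phi V5.P V5.D 1 1) ⟨12, 3579, 11, 1232, 3, 4, 3, 3, 4, 7⟩ :=
  Good.n4 (Good.n2 L05470 (Good.n3 L05471 (Good.n4 (Good.n2 L05472 (Good.n0 L05473 g00787)) L05503))) L05504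
theorem g00789 : Good (Phi V5.P V5.D 1 1) ⟨12, 3579, 11, 1232, 4, 10, 2, 1, 4, 7⟩ :=
  Good.n4 (Good.n3 L05505 (Good.n2 (Good.n4 (Good.n3 (Good.n3 L05506 L05507) L05508) L05509) L05510)) L05511
theorem g00790 : Good (Phi V5.P V5.D 1 1) ⟨12, 3579, 10, 616, 1, 1, 1, 0, 4, 7⟩ :=
  Good.n1 (Good.n2 (Good.n3 L05468 (Good.n2 (Good.n3 L05469 g00788) (Good.n2 g00789 L05512))) L05513) L05514
theorem g00791 : Good (Phi V5.P V5.D 1 1) ⟨10, 895, 8, 154, 9, 304, 8, 126, 9, 224⟩ :=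
  Good.n4 (Good.n2 (Good.n3 L05533 (Good.n4 (Good.n2 (Good.n3 L05534 L05535) L05536) L05537)) L05538) L05539
theorem g00792 : Good (Phi V5.P V5.D 1 1) ⟨10, 895, 8, 154, 8, 152, 6, 31, 8, 112⟩ :=
  Good.n3 (Good.n4 (Good.n3 L05527 (Good.n4 (Good.n3 L05528 (Good.n2 L05529 L05530)) L05531)) L05532) (Good.n4 (Good.n2 (Good.n3 g00791 L05540) L05541) L05542)
theorem g00793 : Good (Phi V5.P V5.D 1 1) ⟨10, 895, 8, 154, 6, 38, 5, 15, 7, 56⟩ :=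
  Good.n2 (Good.n3 L05526 (Good.n4 (Good.n2 g00792 L05543) L05544)) (Good.n3 (Good.n4 (Good.n2 L05545 L05546) L05547) L05548)
theorem g00794 : Good (Phi V5.P V5.D 1 1) ⟨10, 895, 8, 154, 5, 19, 4, 7, 6, 28⟩ :=
  Good.n3 (Good.n4 (Good.n3 L05522 (Good.n2 L05523 L05524)) L05525) (Good.n2 (Good.n4 g00793 L05549) L05550)
theorem g00795 : Good (Phi V5.P V5.D 1 1) ⟨10, 895, 8, 154, 3, 4, 2, 1, 4, 7⟩ :=
  Good.n3 L05518 (Good.n4 (Good.n2 L05519 (Good.n3 L05520 (Good.n4 (Good.n2 L05521 g00794) L05551))) L05552)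
theorem g00796 : Good (Phi V5.P V5.D 1 1) ⟨10, 895, 8, 154, 4, 10, 2, 1, 4, 7⟩ :=
  Good.n4 (Good.n3 L05553 (Good.n2 (Good.n4 (Good.n3 (Good.n3 L05554 L05555) L05556) L05557) L05558)) L05559
theorem g00797 : Good (Phi V5.P V5.D 1 1) ⟨9, 447, 8, 154, 1, 1, 1, 0, 4, 7⟩ :=
  Good.n0 (Good.n1 (Good.n0 L05466 (Good.n1 (Good.n0 L05467 g00790) L05515)) L05516) (Good.n2 (Good.n3 L05517 (Good.n2 g00795 (Good.n2 g00796 L05560))) L05561)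
theorem g00798 : Good (Phi V5.P V5.D 1 1) ⟨8, 223, 6, 38, 1, 1, 1, 0, 4, 7⟩ :=
  Good.n1 (Good.n2 (Good.n3 L05331 (Good.n1 (Good.n2 g00769 (Good.n2 g00770 L05374)) g00783)) L05464) (Good.n0 L05465 (Good.n1 g00797 L05562))
theorem g00799 : Good (Phi V5.P V5.D 1 1) ⟨6, 55, 4, 9, 1, 1, 1, 0, 4, 7⟩ :=
  Good.n1 (Good.n1 (Good.n0 g00679 (Good.n0 (Good.n2 (Good.n3 L04756 g00705) L04934) L04935)) g00764) (Good.n0 L05329 (Good.n1 (Good.n0 L05330 g00798) L05563))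
theorem g00800 : Good (Phi V5.P V5.D 1 1) ⟨4, 13, 3, 4, 1, 1, 1, 0, 4, 7⟩ :=
  Good.n1 (Good.n0 g00554 (Good.n1 (Good.n0 (Good.n2 g00578 L04080) L04081) g00638)) (Good.n0 L04482 (Good.n0 L04483 g00799))
theorem g00801 : Good (Phi V5.P V5.D 1 1) ⟨3, 6, 1, 1, 1, 1, 1, 0, 3, 3⟩ :=
  Good.n4 (Good.n2 (Good.n3 L03817 L03818) L03819) (Good.n1 (Good.n1 (Good.n0 L03820 g00800) L05564) L05565)
theorem g00802 : Good (Phi V5.P V5.D 1 1) ⟨4, 14, 1, 1, 9, 304, 8, 126, 9, 224⟩ :=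
  Good.n4 (Good.n2 (Good.n3 L05587 (Good.n4 (Good.n2 (Good.n3 L05588 L05589) L05590) L05591)) L05592) L05593
theorem g00803 : Good (Phi V5.P V5.D 1 1) ⟨4, 14, 1, 1, 8, 152, 6, 31, 8, 112⟩ :=
  Good.n3 (Good.n4 (Good.n3 L05581 (Good.n4 (Good.n3 L05582 (Good.n2 L05583 L05584)) L05585)) L05586) (Good.n4 (Good.n2 (Good.n3 g00802 L05594) L05595) L05596)
theorem g00804 : Good (Phi V5.P V5.D 1 1) ⟨4, 14, 1, 1, 6, 38, 5, 15, 7, 56⟩ :=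
  Good.n2 (Good.n3 L05580 (Good.n4 (Good.n2 g00803 L05597) L05598)) (Good.n3 (Good.n4 (Good.n2 L05599 L05600) L05601) L05602)
theorem g00805 : Good (Phi V5.P V5.D 1 1) ⟨4, 14, 1, 1, 5, 19, 4, 7, 6, 28⟩ :=
  Good.n3 (Good.n4 (Good.n3 L05576 (Good.n2 L05577 L05578)) L05579) (Good.n2 (Good.n4 g00804 L05603) L05604)
theorem g00806 : Good (Phi V5.P V5.D 1 1) ⟨4, 14, 1, 1, 3, 4, 2, 1, 4, 7⟩ :=
  Good.n3 L05572 (Good.n4 (Good.n2 L05573 (Good.n3 L05574 (Good.n4 (Good.n2 L05575 g00805) L05605))) L05606)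
theorem g00807 : Good (Phi V5.P V5.D 1 1) ⟨4, 14, 1, 1, 4, 10, 2, 1, 4, 7⟩ :=
  Good.n4 (Good.n3 L05607 (Good.n2 (Good.n4 (Good.n3 (Good.n3 L05608 L05609) L05610) L05611) L05612)) L05613
theorem g00808 : Good (Phi V5.P V5.D 1 1) ⟨4, 14, 1, 1, 1, 1, 1, 0, 3, 3⟩ :=
  Good.n4 (Good.n2 (Good.n1 L05566 (Good.n1 (Good.n0 L05567 L05568) L05569)) L05570) (Good.n2 (Good.n3 L05571 (Good.n2 g00806 (Good.n2 g00807 L05614))) L05615)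
theorem g00809 : Good (Phi V5.P V5.D 1 1) ⟨1, 1, 1, 1, 1, 1, 1, 0, 1, 0⟩ :=
  Good.n4 (Good.n2 g00466 (Good.n3 g00485 g00522)) (Good.n4 (Good.n0 L03690 g00540) (Good.n0 L03816 (Good.n0 g00801 (Good.n0 g00808 L05616))))
theorem g00810 : Good (Phi V5.P V5.D 1 1) ⟨4, 14, 3, 5, 2, 2, 2, 2, 4, 0⟩ :=
  Good.n0 (Good.n1 (Good.n0 L05629 L05630) (Good.n0 L05631 (Good.n1 (Good.n0 L05632 L05633) L05634))) L05635
theorem g00811 : Good (Phi V5.P V5.D 1 1) ⟨2, 3, 2, 2, 2, 2, 2, 2, 4, 0⟩ :=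
  Good.n1 (Good.n0 (Good.n0 L05623 (Good.n1 L05624 L05625)) (Good.n0 L05626 L05627)) (Good.n0 L05628 (Good.n0 g00810 L05636))
theorem g00812 : Good (Phi V5.P V5.D 1 1) ⟨1, 1, 1, 1, 2, 2, 2, 2, 3, 0⟩ :=
  Good.n1 (Good.n0 L05622 (Good.n4 g00811 (Good.n0 (Good.n0 L05637 L05638) L05639))) (Good.n0 L05640 (Good.n0 L05641 (Good.n0 (Good.n1 (Good.n0 L05642 L05643) L05644) L05645)))
theorem g00813 : Good (Phi V5.P V5.D 1 1) ⟨5, 28, 2, 2, 2, 2, 2, 2, 4, 2⟩ :=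
  Good.n1 (Good.n0 L05651 L05652) (Good.n1 L05653 (Good.n0 L05654 (Good.n1 (Good.n0 L05655 L05656) L05657)))
theorem g00814 : Good (Phi V5.P V5.D 1 1) ⟨3, 7, 1, 1, 2, 2, 2, 2, 4, 3⟩ :=
  Good.n1 (Good.n0 (Good.n0 (Good.n3 L05663 L05664) L05665) L05666) (Good.n0 (Good.n1 (Good.n0 L05667 L05668) L05669) L05670)
theorem g00815 : Good (Phi V5.P V5.D 1 1) ⟨3, 7, 1, 1, 2, 2, 2, 2, 3, 1⟩ :=
  Good.n4 (Good.n0 (Good.n1 (Good.n0 g00813 L05658) (Good.n1 (Good.n0 L05659 L05660) L05661)) L05662) g00814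
theorem g00816 : Good (Phi V5.P V5.D 1 1) ⟨1, 1, 1, 1, 2, 2, 2, 2, 2, 0⟩ :=
  Good.n4 g00812 (Good.n0 L05646 (Good.n0 (Good.n4 (Good.n1 L05647 L05648) (Good.n1 L05649 L05650)) g00815))
theorem g00817 : Good (Phi V5.P V5.D 1 1) ⟨1, 1, 3, 4, 3, 4, 3, 6, 3, 0⟩ :=
  Good.n0 L05671 (Good.n0 (Good.n0 L05672 (Good.n4 L05673 L05674)) (Good.n0 (Good.n4 L05675 L05676) L05677))
theorem g00818 : Good (Phi V5.P V5.D 1 1) ⟨4, 13, 4, 8, 3, 4, 3, 7, 3, 0⟩ :=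
  Good.n4 (Good.n3 L05680 (Good.n0 L05681 (Good.n0 L05682 L05683))) (Good.n3 L05684 (Good.n3 L05685 L05686))
theorem g00819 : Good (Phi V5.P V5.D 1 1) ⟨3, 7, 4, 9, 3, 4, 3, 7, 4, 0⟩ :=
  Good.n0 (Good.n0 (Good.n0 (Good.n4 (Good.n1 L05693 (Good.n3 L05694 L05695)) L05696) L05697) L05698) L05699
theorem g00820 : Good (Phi V5.P V5.D 1 1) ⟨2, 3, 4, 9, 3, 4, 3, 7, 4, 1⟩ :=
  Good.n0 (Good.n0 L05701 (Good.n0 L05702 (Good.n0 L05703 (Good.n3 L05704 L05705)))) (Good.n0 (Good.n0 (Good.n0 (Good.n3 L05706 (Good.n3 L05707 L05708)) L05709) L05710) L05711)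
theorem g00821 : Good (Phi V5.P V5.D 1 1) ⟨1, 1, 4, 9, 3, 4, 3, 7, 3, 0⟩ :=
  Good.n4 (Good.n0 L05688 (Good.n0 (Good.n0 L05689 (Good.n0 L05690 (Good.n4 L05691 L05692))) g00819)) (Good.n0 L05700 g00820)
theorem g00822 : Good (Phi V5.P V5.D 1 1) ⟨2, 3, 4, 8, 3, 5, 2, 3, 4, 0⟩ :=
  Good.n3 (Good.n0 L05713 L05714) (Good.n0 (Good.n0 L05715 (Good.n0 L05716 (Good.n4 L05717 L05718))) L05719)
theorem g00823 : Good (Phi V5.P V5.D 1 1) ⟨2, 3, 4, 9, 3, 5, 2, 3, 4, 0⟩ :=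
  Good.n0 (Good.n0 L05721 (Good.n0 L05722 (Good.n0 L05723 (Good.n3 L05724 L05725)))) (Good.n0 (Good.n0 (Good.n0 (Good.n4 L05726 L05727) L05728) L05729) L05730)
theorem g00824 : Good (Phi V5.P V5.D 1 1) ⟨2, 3, 3, 4, 3, 5, 2, 3, 4, 1⟩ :=
  Good.n0 (Good.n0 L05732 (Good.n3 L05733 (Good.n3 L05734 (Good.n1 L05735 L05736)))) (Good.n0 (Good.n0 (Good.n1 L05737 L05738) L05739) L05740)
theorem g00825 : Good (Phi V5.P V5.D 1 1) ⟨1, 1, 3, 4, 2, 2, 2, 3, 3, 0⟩ :=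
  Good.n2 (Good.n3 g00817 (Good.n1 (Good.n0 L05678 (Good.n0 (Good.n0 L05679 g00818) L05687)) g00821)) (Good.n4 (Good.n1 (Good.n0 L05712 g00822) (Good.n0 L05720 g00823)) (Good.n0 L05731 g00824))
theorem g00826 : Good (Phi V5.P V5.D 1 1) ⟨3, 6, 3, 4, 2, 2, 2, 3, 3, 1⟩ :=
  Good.n0 L05742 (Good.n4 (Good.n3 L05743 (Good.n3 L05744 L05745)) (Good.n2 (Good.n3 L05746 L05747) L05748))
theorem g00827 : Good (Phi V5.P V5.D 1 1) ⟨4, 14, 3, 4, 2, 2, 2, 3, 3, 1⟩ :=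
  Good.n4 (Good.n0 (Good.n3 L05749 (Good.n3 L05750 (Good.n1 L05751 (Good.n0 L05752 L05753)))) L05754) (Good.n0 (Good.n3 L05755 (Good.n0 (Good.n1 L05756 (Good.n3 L05757 L05758)) L05759)) L05760)
theorem g00828 : Good (Phi V5.P V5.D 1 1) ⟨4, 14, 4, 10, 3, 4, 4, 15, 5, 0⟩ :=
  Good.n4 (Good.n0 (Good.n0 L05770 (Good.n0 (Good.n3 L05771 (Good.n0 L05772 L05773)) L05774)) L05775) (Good.n0 (Good.n1 L05776 (Good.n0 L05777 L05778)) L05779)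
theorem g00829 : Good (Phi V5.P V5.D 1 1) ⟨2, 3, 4, 10, 3, 4, 3, 7, 5, 1⟩ :=
  Good.n3 (Good.n0 L05781 L05782) (Good.n0 L05783 (Good.n0 (Good.n0 (Good.n3 L05784 (Good.n4 L05785 L05786)) L05787) L05788))
theorem g00830 : Good (Phi V5.P V5.D 1 1) ⟨2, 3, 4, 10, 2, 2, 3, 7, 4, 0⟩ :=
  Good.n2 (Good.n4 (Good.n0 L05767 (Good.n3 (Good.n0 L05768 L05769) (Good.n0 g00828 L05780))) g00829) (Good.n0 L05789 (Good.n0 (Good.n0 (Good.n3 L05790 L05791) L05792) L05793))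
theorem g00831 : Good (Phi V5.P V5.D 1 1) ⟨5, 28, 4, 10, 2, 2, 4, 15, 5, 2⟩ :=
  Good.n0 (Good.n2 L05797 L05798) (Good.n3 L05799 (Good.n0 (Good.n1 L05800 (Good.n2 L05801 L05802)) L05803))
theorem g00832 : Good (Phi V5.P V5.D 1 1) ⟨5, 28, 4, 10, 2, 2, 3, 7, 5, 3⟩ :=
  Good.n0 (Good.n3 L05804 (Good.n2 L05805 L05806)) (Good.n3 L05807 (Good.n2 (Good.n0 (Good.n3 L05808 L05809) L05810) L05811))
theorem g00833 : Good (Phi V5.P V5.D 1 1) ⟨2, 3, 4, 10, 2, 2, 2, 3, 4, 1⟩ :=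
  Good.n0 L05794 (Good.n0 (Good.n0 (Good.n3 L05795 (Good.n4 (Good.n3 L05796 g00831) g00832)) L05812) L05813)
theorem g00834 : Good (Phi V5.P V5.D 1 1) ⟨2, 3, 4, 11, 2, 2, 2, 3, 3, 0⟩ :=
  Good.n0 L05814 (Good.n0 (Good.n0 (Good.n0 L05815 (Good.n1 (Good.n0 L05816 L05817) L05818)) L05819) L05820)
theorem g00835 : Good (Phi V5.P V5.D 1 1) ⟨2, 3, 3, 5, 2, 2, 2, 3, 3, 0⟩ :=
  Good.n1 (Good.n4 (Good.n3 (Good.n0 L05763 (Good.n0 (Good.n0 L05764 L05765) L05766)) g00830) g00833) g00834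
theorem g00836 : Good (Phi V5.P V5.D 1 1) ⟨5, 28, 3, 5, 2, 2, 2, 3, 4, 2⟩ :=
  Good.n1 (Good.n3 L05823 (Good.n3 L05824 (Good.n3 L05825 L05826))) (Good.n0 L05827 (Good.n1 (Good.n0 L05828 L05829) L05830))
theorem g00837 : Good (Phi V5.P V5.D 1 1) ⟨5, 28, 3, 5, 2, 2, 2, 3, 4, 3⟩ :=
  Good.n3 L05831 (Good.n1 (Good.n3 L05832 L05833) (Good.n0 L05834 (Good.n1 (Good.n0 L05835 L05836) L05837)))
theorem g00838 : Good (Phi V5.P V5.D 1 1) ⟨1, 1, 3, 5, 2, 2, 2, 3, 2, 0⟩ :=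
  Good.n4 (Good.n0 L05762 g00835) (Good.n0 L05821 (Good.n0 L05822 (Good.n0 (Good.n0 (Good.n4 g00836 g00837) L05838) L05839)))
theorem g00839 : Good (Phi V5.P V5.D 1 1) ⟨1, 1, 1, 1, 2, 2, 2, 3, 2, 0⟩ :=
  Good.n1 (Good.n1 (Good.n4 g00825 (Good.n0 L05741 (Good.n0 g00826 (Good.n0 g00827 L05761)))) g00838) (Good.n0 L05840 (Good.n0 L05841 (Good.n0 (Good.n1 (Good.n0 L05842 L05843) L05844) L05845)))
theorem g00840 : Good (Phi V5.P V5.D 1 1) ⟨2, 3, 4, 8, 3, 6, 2, 2, 3, 0⟩ :=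
  Good.n4 (Good.n0 (Good.n0 L05847 (Good.n2 L05848 L05849)) L05850) (Good.n0 (Good.n0 L05851 (Good.n0 L05852 L05853)) L05854)
theorem g00841 : Good (Phi V5.P V5.D 1 1) ⟨5, 27, 4, 8, 4, 15, 2, 2, 4, 0⟩ :=
  Good.n0 (Good.n2 L05860 (Good.n1 L05861 L05862)) (Good.n0 (Good.n4 (Good.n3 L05863 L05864) L05865) L05866)
theorem g00842 : Good (Phi V5.P V5.D 1 1) ⟨2, 3, 4, 8, 3, 7, 2, 2, 4, 0⟩ :=
  Good.n0 (Good.n2 (Good.n0 L05855 (Good.n0 L05856 L05857)) (Good.n0 L05858 (Good.n0 L05859 g00841))) L05867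
theorem g00843 : Good (Phi V5.P V5.D 1 1) ⟨2, 3, 4, 8, 3, 7, 2, 2, 3, 0⟩ :=
  Good.n4 g00842 (Good.n0 (Good.n0 L05868 (Good.n0 L05869 (Good.n2 L05870 (Good.n3 L05871 L05872)))) L05873)
theorem g00844 : Good (Phi V5.P V5.D 1 1) ⟨6, 55, 4, 9, 3, 7, 2, 2, 4, 0⟩ :=
  Good.n4 (Good.n1 (Good.n2 L05883 (Good.n3 L05884 L05885)) (Good.n2 L05886 L05887)) (Good.n3 (Good.n2 L05888 L05889) L05890)
theorem g00845 : Good (Phi V5.P V5.D 1 1) ⟨5, 28, 4, 9, 3, 7, 2, 2, 4, 0⟩ :=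
  Good.n4 (Good.n0 (Good.n1 L05891 (Good.n0 (Good.n2 L05892 (Good.n3 L05893 L05894)) L05895)) L05896) (Good.n0 (Good.n1 L05897 (Good.n3 (Good.n2 L05898 L05899) L05900)) L05901)
theorem g00846 : Good (Phi V5.P V5.D 1 1) ⟨2, 3, 4, 9, 3, 7, 2, 2, 4, 0⟩ :=
  Good.n0 (Good.n0 L05880 (Good.n0 L05881 (Good.n0 L05882 g00844))) (Good.n0 (Good.n0 g00845 L05902) L05903)
theorem g00847 : Good (Phi V5.P V5.D 1 1) ⟨1, 1, 4, 9, 2, 3, 2, 2, 4, 0⟩ :=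
  Good.n2 (Good.n0 L05874 (Good.n0 (Good.n0 L05875 L05876) (Good.n0 L05877 L05878))) (Good.n0 L05879 g00846)
theorem g00848 : Good (Phi V5.P V5.D 1 1) ⟨5, 27, 4, 9, 2, 3, 2, 2, 4, 1⟩ :=
  Good.n4 (Good.n0 L05907 (Good.n2 L05908 (Good.n3 L05909 L05910))) (Good.n0 L05911 (Good.n2 L05912 L05913))
theorem g00849 : Good (Phi V5.P V5.D 1 1) ⟨4, 14, 4, 9, 3, 7, 2, 2, 4, 1⟩ :=
  Good.n0 (Good.n0 (Good.n4 (Good.n1 L05916 (Good.n2 L05917 L05918)) (Good.n2 L05919 L05920)) L05921) L05922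
theorem g00850 : Good (Phi V5.P V5.D 1 1) ⟨2, 3, 4, 9, 2, 3, 2, 2, 4, 1⟩ :=
  Good.n0 (Good.n0 L05905 (Good.n0 L05906 g00848)) (Good.n0 (Good.n2 (Good.n0 L05914 L05915) g00849) L05923)
theorem g00851 : Good (Phi V5.P V5.D 1 1) ⟨3, 7, 3, 4, 2, 3, 2, 2, 5, 4⟩ :=
  Good.n0 (Good.n0 (Good.n1 L05930 (Good.n0 (Good.n1 L05931 (Good.n2 L05932 L05933)) L05934)) L05935) L05936
theorem g00852 : Good (Phi V5.P V5.D 1 1) ⟨1, 1, 3, 4, 2, 3, 2, 2, 5, 4⟩ :=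
  Good.n0 L05924 (Good.n0 (Good.n0 L05925 (Good.n2 L05926 (Good.n0 L05927 (Good.n1 L05928 L05929)))) g00851)
theorem g00853 : Good (Phi V5.P V5.D 1 1) ⟨3, 7, 3, 4, 2, 3, 2, 2, 5, 5⟩ :=
  Good.n0 (Good.n0 (Good.n1 L05943 (Good.n0 (Good.n1 L05944 (Good.n2 L05945 L05946)) L05947)) L05948) L05949
theorem g00854 : Good (Phi V5.P V5.D 1 1) ⟨1, 1, 3, 4, 2, 3, 2, 2, 5, 5⟩ :=
  Good.n0 L05937 (Good.n0 (Good.n0 L05938 (Good.n2 L05939 (Good.n2 L05940 (Good.n1 L05941 L05942)))) g00853)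
theorem g00855 : Good (Phi V5.P V5.D 1 1) ⟨3, 7, 3, 4, 2, 3, 2, 2, 4, 3⟩ :=
  Good.n0 (Good.n0 (Good.n1 L05955 (Good.n0 (Good.n1 L05956 (Good.n2 L05957 L05958)) L05959)) L05960) L05961
theorem g00856 : Good (Phi V5.P V5.D 1 1) ⟨1, 1, 3, 4, 2, 3, 2, 2, 3, 1⟩ :=
  Good.n4 (Good.n4 g00852 g00854) (Good.n0 L05950 (Good.n0 (Good.n0 L05951 (Good.n2 L05952 (Good.n1 L05953 L05954))) g00855))
theorem g00857 : Good (Phi V5.P V5.D 1 1) ⟨1, 1, 3, 4, 2, 3, 2, 2, 2, 0⟩ :=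
  Good.n4 (Good.n1 (Good.n0 L05846 (Good.n2 g00840 g00843)) (Good.n4 g00847 (Good.n0 L05904 g00850))) g00856
theorem g00858 : Good (Phi V5.P V5.D 1 1) ⟨5, 28, 5, 20, 4, 15, 3, 4, 4, 0⟩ :=
  Good.n0 (Good.n4 (Good.n0 L05968 (Good.n1 L05969 (Good.n4 L05970 L05971))) (Good.n1 L05972 L05973)) (Good.n2 L05974 L05975)
theorem g00859 : Good (Phi V5.P V5.D 1 1) ⟨7, 114, 5, 21, 4, 15, 3, 4, 4, 0⟩ :=
  Good.n4 (Good.n1 (Good.n2 L05983 (Good.n0 (Good.n4 L05984 L05985) L05986)) (Good.n0 L05987 L05988)) (Good.n1 (Good.n2 L05989 (Good.n0 L05990 L05991)) (Good.n0 L05992 L05993))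
theorem g00860 : Good (Phi V5.P V5.D 1 1) ⟨5, 28, 5, 21, 3, 7, 3, 4, 4, 0⟩ :=
  Good.n2 (Good.n0 L05977 L05978) (Good.n0 (Good.n4 (Good.n1 (Good.n4 L05979 L05980) L05981) L05982) (Good.n0 g00859 L05994))
theorem g00861 : Good (Phi V5.P V5.D 1 1) ⟨5, 28, 4, 10, 3, 7, 3, 5, 5, 0⟩ :=
  Good.n0 (Good.n1 (Good.n0 L05996 L05997) (Good.n2 L05998 (Good.n1 L05999 L06000))) (Good.n0 (Good.n1 L06001 (Good.n1 (Good.n0 L06002 L06003) (Good.n0 L06004 L06005))) L06006)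
theorem g00862 : Good (Phi V5.P V5.D 1 1) ⟨5, 28, 4, 10, 3, 7, 3, 5, 5, 1⟩ :=
  Good.n0 (Good.n1 L06007 L06008) (Good.n1 L06009 (Good.n0 (Good.n1 L06010 (Good.n0 L06011 L06012)) L06013))
theorem g00863 : Good (Phi V5.P V5.D 1 1) ⟨4, 14, 4, 10, 3, 7, 2, 2, 4, 0⟩ :=
  Good.n3 (Good.n1 (Good.n0 (Good.n2 (Good.n0 L05966 L05967) g00858) L05976) (Good.n0 g00860 L05995)) (Good.n0 (Good.n4 g00861 g00862) L06014)
theorem g00864 : Good (Phi V5.P V5.D 1 1) ⟨5, 28, 4, 10, 4, 15, 2, 2, 5, 2⟩ :=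
  Good.n1 (Good.n0 (Good.n3 L06024 L06025) L06026) (Good.n0 L06027 (Good.n0 (Good.n3 (Good.n1 L06028 (Good.n0 L06029 L06030)) L06031) L06032))
theorem g00865 : Good (Phi V5.P V5.D 1 1) ⟨4, 14, 4, 10, 3, 7, 2, 2, 4, 1⟩ :=
  Good.n2 (Good.n0 (Good.n0 L06020 (Good.n1 L06021 L06022)) L06023) (Good.n0 (Good.n4 g00864 (Good.n0 L06033 (Good.n0 (Good.n1 L06034 L06035) L06036))) L06037)
theorem g00866 : Good (Phi V5.P V5.D 1 1) ⟨2, 3, 4, 10, 2, 3, 2, 2, 3, 0⟩ :=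
  Good.n4 (Good.n0 L05963 (Good.n2 (Good.n4 L05964 L05965) (Good.n0 g00863 L06015))) (Good.n0 L06016 (Good.n0 (Good.n2 (Good.n0 (Good.n1 L06017 L06018) L06019) g00865) L06038))
theorem g00867 : Good (Phi V5.P V5.D 1 1) ⟨2, 3, 4, 11, 2, 3, 2, 2, 3, 0⟩ :=
  Good.n0 L06039 (Good.n0 (Good.n0 (Good.n0 L06040 (Good.n1 (Good.n0 L06041 L06042) L06043)) L06044) L06045)
theorem g00868 : Good (Phi V5.P V5.D 1 1) ⟨7, 114, 4, 10, 3, 7, 2, 2, 4, 2⟩ :=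
  Good.n4 (Good.n1 L06056 (Good.n1 (Good.n0 (Good.n4 L06057 L06058) L06059) (Good.n0 L06060 L06061))) (Good.n1 L06062 (Good.n1 L06063 (Good.n0 L06064 L06065)))
theorem g00869 : Good (Phi V5.P V5.D 1 1) ⟨5, 28, 4, 10, 2, 3, 2, 2, 4, 2⟩ :=
  Good.n0 (Good.n1 (Good.n4 (Good.n2 L06048 L06049) (Good.n3 L06050 L06051)) (Good.n4 L06052 L06053)) (Good.n0 (Good.n2 (Good.n1 L06054 L06055) g00868) L06066)
theorem g00870 : Good (Phi V5.P V5.D 1 1) ⟨2, 3, 4, 11, 2, 3, 2, 2, 4, 2⟩ :=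
  Good.n0 L06070 (Good.n0 (Good.n0 (Good.n0 L06071 (Good.n1 (Good.n0 L06072 L06073) L06074)) L06075) L06076)
theorem g00871 : Good (Phi V5.P V5.D 1 1) ⟨1, 1, 3, 5, 2, 3, 2, 2, 4, 2⟩ :=
  Good.n1 (Good.n0 L06046 (Good.n0 L06047 (Good.n0 (Good.n0 g00869 L06067) L06068))) (Good.n0 L06069 g00870)
theorem g00872 : Good (Phi V5.P V5.D 1 1) ⟨6, 56, 4, 10, 2, 3, 2, 2, 4, 3⟩ :=
  Good.n1 (Good.n0 (Good.n1 L06079 L06080) (Good.n2 L06081 L06082)) (Good.n1 (Good.n3 L06083 L06084) L06085)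
theorem g00873 : Good (Phi V5.P V5.D 1 1) ⟨7, 114, 4, 10, 2, 3, 2, 2, 4, 3⟩ :=
  Good.n4 (Good.n1 L06086 (Good.n1 (Good.n0 (Good.n3 L06087 L06088) L06089) (Good.n0 L06090 L06091))) (Good.n1 L06092 (Good.n1 (Good.n2 L06093 L06094) (Good.n0 L06095 L06096)))
theorem g00874 : Good (Phi V5.P V5.D 1 1) ⟨5, 28, 3, 5, 2, 3, 2, 2, 4, 3⟩ :=
  Good.n1 (Good.n0 g00872 (Good.n0 g00873 L06097)) (Good.n0 L06098 (Good.n1 (Good.n0 L06099 L06100) L06101))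
theorem g00875 : Good (Phi V5.P V5.D 1 1) ⟨1, 1, 3, 5, 2, 3, 2, 2, 2, 0⟩ :=
  Good.n4 (Good.n0 L05962 (Good.n1 g00866 g00867)) (Good.n4 g00871 (Good.n0 L06077 (Good.n0 L06078 (Good.n0 (Good.n0 g00874 L06102) L06103))))
theorem g00876 : Good (Phi V5.P V5.D 1 1) ⟨1, 1, 1, 1, 2, 3, 2, 2, 2, 0⟩ :=
  Good.n1 (Good.n1 g00857 g00875) (Good.n0 L06104 (Good.n0 L06105 (Good.n0 (Good.n1 (Good.n0 L06106 L06107) L06108) L06109)))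
theorem g00877 : Good (Phi V5.P V5.D 1 1) ⟨1, 1, 3, 4, 3, 6, 3, 6, 3, 0⟩ :=
  Good.n1 (Good.n0 L06110 (Good.n0 (Good.n4 (Good.n0 L06111 L06112) L06113) L06114)) (Good.n0 L06115 (Good.n0 (Good.n4 L06116 L06117) (Good.n0 (Good.n4 L06118 L06119) L06120)))
theorem g00878 : Good (Phi V5.P V5.D 1 1) ⟨1, 1, 4, 8, 3, 6, 3, 7, 4, 0⟩ :=
  Good.n0 L06121 (Good.n0 (Good.n0 L06122 (Good.n0 L06123 (Good.n4 (Good.n0 L06124 L06125) L06126))) L06127)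
theorem g00879 : Good (Phi V5.P V5.D 1 1) ⟨2, 3, 4, 9, 3, 6, 3, 7, 4, 0⟩ :=
  Good.n0 (Good.n0 L06134 (Good.n0 L06135 (Good.n0 L06136 (Good.n1 L06137 L06138)))) (Good.n0 (Good.n0 (Good.n0 L06139 L06140) L06141) L06142)
theorem g00880 : Good (Phi V5.P V5.D 1 1) ⟨1, 1, 4, 9, 3, 6, 3, 7, 3, 0⟩ :=
  Good.n0 L06133 (Good.n4 g00879 (Good.n0 (Good.n0 L06143 L06144) (Good.n0 (Good.n0 L06145 L06146) L06147)))
theorem g00881 : Good (Phi V5.P V5.D 1 1) ⟨1, 1, 3, 4, 3, 6, 3, 7, 3, 0⟩ :=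
  Good.n1 (Good.n4 g00878 (Good.n0 L06128 (Good.n0 (Good.n0 L06129 (Good.n0 L06130 L06131)) L06132))) g00880
theorem g00882 : Good (Phi V5.P V5.D 1 1) ⟨4, 13, 4, 8, 4, 14, 2, 3, 4, 0⟩ :=
  Good.n3 (Good.n0 L06150 L06151) (Good.n0 L06152 (Good.n4 (Good.n1 L06153 (Good.n0 L06154 L06155)) (Good.n0 L06156 L06157)))
theorem g00883 : Good (Phi V5.P V5.D 1 1) ⟨5, 27, 4, 8, 4, 15, 2, 3, 4, 0⟩ :=
  Good.n3 (Good.n0 (Good.n4 L06162 L06163) (Good.n0 (Good.n1 L06164 L06165) L06166)) (Good.n3 L06167 (Good.n1 L06168 (Good.n0 L06169 L06170)))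
theorem g00884 : Good (Phi V5.P V5.D 1 1) ⟨2, 3, 4, 8, 3, 7, 2, 3, 4, 0⟩ :=
  Good.n2 (Good.n0 (Good.n0 L06149 g00882) L06158) (Good.n0 (Good.n0 L06159 (Good.n0 (Good.n4 L06160 L06161) g00883)) L06171)
theorem g00885 : Good (Phi V5.P V5.D 1 1) ⟨4, 13, 4, 8, 3, 7, 2, 3, 5, 2⟩ :=
  Good.n0 L06174 (Good.n0 (Good.n3 L06175 (Good.n2 L06176 L06177)) (Good.n0 (Good.n3 L06178 L06179) L06180))
theorem g00886 : Good (Phi V5.P V5.D 1 1) ⟨2, 3, 4, 8, 3, 7, 2, 3, 4, 1⟩ :=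
  Good.n0 (Good.n0 L06173 (Good.n4 g00885 (Good.n0 L06181 (Good.n2 L06182 (Good.n3 L06183 L06184))))) L06185
theorem g00887 : Good (Phi V5.P V5.D 1 1) ⟨2, 3, 4, 9, 3, 7, 3, 6, 4, 0⟩ :=
  Good.n0 (Good.n0 L06187 (Good.n0 L06188 (Good.n0 L06189 (Good.n1 (Good.n4 L06190 L06191) L06192)))) (Good.n0 (Good.n0 (Good.n0 (Good.n4 L06193 L06194) L06195) L06196) L06197)
theorem g00888 : Good (Phi V5.P V5.D 1 1) ⟨4, 13, 5, 18, 3, 7, 3, 7, 4, 0⟩ :=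
  Good.n0 L06199 (Good.n0 L06200 (Good.n4 (Good.n2 (Good.n0 L06201 L06202) L06203) (Good.n1 L06204 L06205)))
theorem g00889 : Good (Phi V5.P V5.D 1 1) ⟨5, 28, 5, 19, 3, 7, 3, 7, 4, 0⟩ :=
  Good.n4 (Good.n0 (Good.n2 L06212 (Good.n3 L06213 L06214)) L06215) (Good.n0 (Good.n0 (Good.n2 L06216 L06217) L06218) L06219)
theorem g00890 : Good (Phi V5.P V5.D 1 1) ⟨2, 3, 5, 19, 3, 7, 3, 7, 4, 0⟩ :=
  Good.n0 (Good.n0 L06207 (Good.n0 L06208 (Good.n0 L06209 (Good.n4 L06210 L06211)))) (Good.n0 (Good.n0 g00889 L06220) L06221)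
theorem g00891 : Good (Phi V5.P V5.D 1 1) ⟨5, 27, 4, 9, 3, 7, 2, 3, 4, 1⟩ :=
  Good.n4 (Good.n0 L06225 (Good.n3 L06226 (Good.n1 L06227 L06228))) (Good.n0 L06229 (Good.n3 L06230 L06231))
theorem g00892 : Good (Phi V5.P V5.D 1 1) ⟨6, 56, 4, 9, 3, 7, 2, 3, 4, 1⟩ :=
  Good.n4 (Good.n3 L06232 (Good.n1 L06233 (Good.n0 (Good.n4 L06234 L06235) L06236))) (Good.n1 L06237 (Good.n3 L06238 L06239))
theorem g00893 : Good (Phi V5.P V5.D 1 1) ⟨2, 3, 4, 9, 3, 7, 2, 3, 4, 1⟩ :=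
  Good.n0 (Good.n0 L06223 (Good.n0 L06224 g00891)) (Good.n0 (Good.n0 (Good.n0 g00892 L06240) L06241) L06242)
theorem g00894 : Good (Phi V5.P V5.D 1 1) ⟨1, 1, 4, 9, 3, 7, 2, 3, 3, 0⟩ :=
  Good.n4 (Good.n0 L06186 (Good.n3 g00887 (Good.n1 (Good.n0 (Good.n0 L06198 g00888) L06206) g00890))) (Good.n0 L06222 g00893)
theorem g00895 : Good (Phi V5.P V5.D 1 1) ⟨1, 1, 3, 4, 2, 3, 2, 3, 3, 0⟩ :=
  Good.n2 (Good.n3 g00877 g00881) (Good.n1 (Good.n4 (Good.n0 L06148 g00884) (Good.n0 L06172 g00886)) g00894)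
theorem g00896 : Good (Phi V5.P V5.D 1 1) ⟨4, 13, 3, 4, 2, 3, 2, 3, 5, 4⟩ :=
  Good.n0 L06245 (Good.n3 (Good.n1 (Good.n2 L06246 L06247) L06248) (Good.n2 L06249 (Good.n1 L06250 L06251)))
theorem g00897 : Good (Phi V5.P V5.D 1 1) ⟨4, 13, 3, 4, 2, 3, 2, 3, 3, 1⟩ :=
  Good.n4 (Good.n4 g00896 (Good.n2 L06252 (Good.n2 L06253 (Good.n3 (Good.n1 L06254 L06255) L06256)))) (Good.n4 (Good.n1 L06257 L06258) L06259)
theorem g00898 : Good (Phi V5.P V5.D 1 1) ⟨5, 28, 3, 4, 2, 3, 2, 3, 4, 2⟩ :=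
  Good.n1 L06260 (Good.n0 (Good.n4 (Good.n0 (Good.n3 L06261 L06262) L06263) (Good.n3 L06264 L06265)) L06266)
theorem g00899 : Good (Phi V5.P V5.D 1 1) ⟨4, 14, 3, 4, 2, 3, 2, 3, 3, 1⟩ :=
  Good.n0 (Good.n4 g00898 (Good.n1 L06267 (Good.n0 (Good.n1 L06268 (Good.n2 L06269 L06270)) L06271))) L06272
theorem g00900 : Good (Phi V5.P V5.D 1 1) ⟨5, 28, 4, 10, 3, 6, 2, 3, 4, 0⟩ :=
  Good.n3 (Good.n0 L06276 L06277) (Good.n0 (Good.n1 L06278 L06279) (Good.n0 (Good.n1 L06280 L06281) L06282))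
theorem g00901 : Good (Phi V5.P V5.D 1 1) ⟨3, 7, 3, 5, 3, 6, 2, 3, 4, 0⟩ :=
  Good.n0 (Good.n0 (Good.n1 g00900 (Good.n0 L06283 (Good.n1 (Good.n0 L06284 L06285) L06286))) L06287) L06288
theorem g00902 : Good (Phi V5.P V5.D 1 1) ⟨5, 28, 3, 5, 3, 6, 2, 3, 4, 1⟩ :=
  Good.n1 (Good.n0 (Good.n3 L06289 L06290) (Good.n4 (Good.n0 (Good.n1 L06291 L06292) L06293) L06294)) (Good.n0 L06295 (Good.n1 (Good.n0 L06296 L06297) L06298))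
theorem g00903 : Good (Phi V5.P V5.D 1 1) ⟨4, 14, 3, 5, 4, 14, 3, 6, 5, 0⟩ :=
  Good.n1 (Good.n0 (Good.n1 L06303 L06304) L06305) (Good.n0 (Good.n0 L06306 (Good.n1 (Good.n0 L06307 L06308) L06309)) L06310)
theorem g00904 : Good (Phi V5.P V5.D 1 1) ⟨4, 14, 3, 5, 4, 14, 3, 6, 5, 1⟩ :=
  Good.n0 (Good.n1 (Good.n0 L06313 L06314) (Good.n0 L06315 (Good.n1 (Good.n0 L06316 L06317) L06318))) L06319
theorem g00905 : Good (Phi V5.P V5.D 1 1) ⟨5, 28, 5, 21, 4, 15, 4, 12, 4, 0⟩ :=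
  Good.n4 (Good.n0 L06327 (Good.n1 L06328 (Good.n0 (Good.n0 L06329 L06330) L06331))) (Good.n0 L06332 L06333)
theorem g00906 : Good (Phi V5.P V5.D 1 1) ⟨3, 7, 4, 10, 4, 15, 4, 12, 4, 0⟩ :=
  Good.n1 (Good.n0 (Good.n0 (Good.n0 (Good.n0 L06322 L06323) L06324) L06325) L06326) (Good.n0 (Good.n0 g00905 L06334) L06335)
theorem g00907 : Good (Phi V5.P V5.D 1 1) ⟨2, 3, 4, 11, 4, 15, 4, 12, 4, 0⟩ :=
  Good.n0 L06336 (Good.n0 (Good.n0 (Good.n0 L06337 (Good.n1 (Good.n0 L06338 L06339) L06340)) L06341) L06342)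
theorem g00908 : Good (Phi V5.P V5.D 1 1) ⟨4, 14, 5, 21, 4, 15, 4, 13, 4, 0⟩ :=
  Good.n0 (Good.n0 L06350 (Good.n4 (Good.n1 L06351 (Good.n0 (Good.n0 L06352 L06353) L06354)) L06355)) L06356
theorem g00909 : Good (Phi V5.P V5.D 1 1) ⟨2, 3, 4, 10, 4, 15, 4, 13, 4, 0⟩ :=
  Good.n1 (Good.n0 L06343 (Good.n0 (Good.n0 (Good.n0 (Good.n0 L06344 L06345) L06346) L06347) L06348)) (Good.n0 L06349 (Good.n0 g00908 L06357))
theorem g00910 : Good (Phi V5.P V5.D 1 1) ⟨2, 3, 4, 11, 4, 15, 4, 13, 4, 0⟩ :=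
  Good.n0 L06358 (Good.n0 (Good.n0 (Good.n0 L06359 (Good.n1 (Good.n0 L06360 L06361) L06362)) L06363) L06364)
theorem g00911 : Good (Phi V5.P V5.D 1 1) ⟨2, 3, 3, 5, 3, 7, 3, 6, 4, 0⟩ :=
  Good.n2 (Good.n4 (Good.n0 L06302 (Good.n0 g00903 L06311)) (Good.n0 L06312 (Good.n0 g00904 L06320))) (Good.n3 (Good.n1 (Good.n0 L06321 g00906) g00907) (Good.n1 g00909 g00910))
theorem g00912 : Good (Phi V5.P V5.D 1 1) ⟨5, 28, 4, 10, 3, 7, 3, 6, 4, 1⟩ :=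
  Good.n0 (Good.n4 (Good.n1 L06366 L06367) L06368) (Good.n0 (Good.n1 L06369 (Good.n1 L06370 (Good.n0 L06371 L06372))) L06373)
theorem g00913 : Good (Phi V5.P V5.D 1 1) ⟨3, 7, 3, 5, 3, 7, 3, 6, 4, 1⟩ :=
  Good.n0 (Good.n0 (Good.n1 g00912 (Good.n0 L06374 (Good.n1 (Good.n0 L06375 L06376) L06377))) L06378) L06379
theorem g00914 : Good (Phi V5.P V5.D 1 1) ⟨5, 28, 3, 5, 4, 14, 4, 14, 5, 0⟩ :=
  Good.n1 (Good.n1 L06382 (Good.n0 L06383 L06384)) (Good.n0 L06385 (Good.n1 (Good.n0 L06386 L06387) L06388))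
theorem g00915 : Good (Phi V5.P V5.D 1 1) ⟨4, 14, 3, 5, 4, 14, 4, 14, 5, 1⟩ :=
  Good.n0 (Good.n1 (Good.n0 L06390 L06391) (Good.n0 L06392 (Good.n1 (Good.n0 L06393 L06394) L06395))) L06396
theorem g00916 : Good (Phi V5.P V5.D 1 1) ⟨1, 1, 6, 40, 4, 14, 4, 15, 4, 0⟩ :=
  Good.n0 L06398 (Good.n0 L06399 (Good.n0 (Good.n0 (Good.n0 (Good.n0 L06400 L06401) L06402) L06403) L06404))
theorem g00917 : Good (Phi V5.P V5.D 1 1) ⟨1, 1, 5, 20, 4, 14, 4, 15, 4, 0⟩ :=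
  Good.n1 g00916 (Good.n0 L06405 (Good.n0 L06406 (Good.n0 (Good.n0 (Good.n0 L06407 L06408) L06409) L06410)))
theorem g00918 : Good (Phi V5.P V5.D 1 1) ⟨5, 28, 5, 21, 4, 14, 4, 15, 4, 0⟩ :=
  Good.n4 (Good.n0 (Good.n1 L06413 L06414) (Good.n0 (Good.n1 L06415 (Good.n0 L06416 L06417)) L06418)) (Good.n0 (Good.n1 L06419 L06420) (Good.n0 L06421 L06422))
theorem g00919 : Good (Phi V5.P V5.D 1 1) ⟨2, 3, 4, 11, 4, 14, 4, 15, 4, 0⟩ :=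
  Good.n0 L06426 (Good.n0 (Good.n0 (Good.n0 L06427 (Good.n1 (Good.n0 L06428 L06429) L06430)) L06431) L06432)
theorem g00920 : Good (Phi V5.P V5.D 1 1) ⟨1, 1, 3, 5, 4, 14, 4, 15, 4, 0⟩ :=
  Good.n1 (Good.n1 g00917 (Good.n0 L06411 (Good.n0 L06412 (Good.n0 (Good.n0 g00918 L06423) L06424)))) (Good.n0 L06425 g00919)
theorem g00921 : Good (Phi V5.P V5.D 1 1) ⟨1, 1, 3, 5, 4, 14, 3, 7, 4, 0⟩ :=
  Good.n3 (Good.n0 L06380 (Good.n0 L06381 (Good.n0 (Good.n4 (Good.n0 g00914 L06389) g00915) L06397))) g00920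
theorem g00922 : Good (Phi V5.P V5.D 1 1) ⟨1, 1, 5, 20, 4, 15, 4, 14, 4, 0⟩ :=
  Good.n0 L06433 (Good.n0 L06434 (Good.n0 (Good.n0 (Good.n0 (Good.n1 L06435 L06436) L06437) L06438) L06439))
theorem g00923 : Good (Phi V5.P V5.D 1 1) ⟨4, 14, 5, 21, 4, 15, 4, 14, 4, 0⟩ :=
  Good.n0 (Good.n0 L06442 (Good.n0 (Good.n4 (Good.n1 L06443 (Good.n0 L06444 L06445)) L06446) L06447)) L06448
theorem g00924 : Good (Phi V5.P V5.D 1 1) ⟨2, 3, 4, 11, 4, 15, 4, 14, 4, 0⟩ :=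
  Good.n0 L06451 (Good.n0 (Good.n0 (Good.n0 L06452 (Good.n1 (Good.n0 L06453 L06454) L06455)) L06456) L06457)
theorem g00925 : Good (Phi V5.P V5.D 1 1) ⟨1, 1, 3, 5, 4, 15, 4, 14, 4, 0⟩ :=
  Good.n1 (Good.n1 g00922 (Good.n0 L06440 (Good.n0 L06441 (Good.n0 g00923 L06449)))) (Good.n0 L06450 g00924)
theorem g00926 : Good (Phi V5.P V5.D 1 1) ⟨1, 1, 6, 40, 4, 15, 4, 15, 4, 0⟩ :=
  Good.n0 L06458 (Good.n0 L06459 (Good.n0 (Good.n0 (Good.n0 (Good.n0 L06460 L06461) L06462) L06463) L06464))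
theorem g00927 : Good (Phi V5.P V5.D 1 1) ⟨2, 3, 6, 41, 4, 15, 4, 15, 4, 0⟩ :=
  Good.n0 L06466 (Good.n0 (Good.n0 (Good.n0 (Good.n0 L06467 (Good.n4 L06468 L06469)) L06470) L06471) L06472)
theorem g00928 : Good (Phi V5.P V5.D 1 1) ⟨4, 14, 6, 42, 4, 15, 4, 15, 4, 0⟩ :=
  Good.n0 (Good.n0 L06475 (Good.n0 (Good.n0 (Good.n4 (Good.n1 L06476 L06477) L06478) L06479) L06480)) L06481
theorem g00929 : Good (Phi V5.P V5.D 1 1) ⟨3, 7, 5, 21, 4, 15, 4, 15, 4, 0⟩ :=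
  Good.n1 (Good.n0 g00928 L06482) (Good.n0 (Good.n0 (Good.n0 L06483 (Good.n0 (Good.n0 L06484 L06485) L06486)) L06487) L06488)
theorem g00930 : Good (Phi V5.P V5.D 1 1) ⟨2, 3, 4, 11, 4, 15, 4, 15, 4, 0⟩ :=
  Good.n0 L06490 (Good.n0 (Good.n0 (Good.n0 L06491 (Good.n1 (Good.n0 L06492 L06493) L06494)) L06495) L06496)
theorem g00931 : Good (Phi V5.P V5.D 1 1) ⟨1, 1, 3, 5, 4, 15, 4, 15, 4, 0⟩ :=
  Good.n1 (Good.n1 (Good.n1 g00926 (Good.n0 L06465 g00927)) (Good.n0 L06473 (Good.n0 L06474 g00929))) (Good.n0 L06489 g00930)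
theorem g00932 : Good (Phi V5.P V5.D 1 1) ⟨6, 57, 5, 21, 3, 7, 3, 7, 6, 4⟩ :=
  Good.n1 (Good.n0 (Good.n0 (Good.n2 L06506 L06507) L06508) L06509) (Good.n0 (Good.n0 L06510 L06511) L06512)
theorem g00933 : Good (Phi V5.P V5.D 1 1) ⟨6, 57, 4, 10, 3, 7, 3, 7, 5, 2⟩ :=
  Good.n4 (Good.n1 L06505 g00932) (Good.n0 (Good.n1 L06513 (Good.n1 (Good.n0 L06514 L06515) (Good.n0 L06516 L06517))) L06518)
theorem g00934 : Good (Phi V5.P V5.D 1 1) ⟨5, 28, 4, 10, 3, 7, 3, 7, 5, 2⟩ :=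
  Good.n0 (Good.n1 (Good.n2 L06499 (Good.n3 L06500 L06501)) (Good.n0 L06502 (Good.n0 L06503 L06504))) g00933
theorem g00935 : Good (Phi V5.P V5.D 1 1) ⟨5, 28, 4, 10, 3, 7, 3, 7, 5, 3⟩ :=
  Good.n0 (Good.n2 L06519 L06520) (Good.n0 (Good.n1 L06521 (Good.n1 L06522 (Good.n0 L06523 L06524))) L06525)
theorem g00936 : Good (Phi V5.P V5.D 1 1) ⟨4, 14, 3, 5, 3, 7, 3, 7, 4, 1⟩ :=
  Good.n0 (Good.n1 (Good.n4 g00934 g00935) (Good.n0 L06526 (Good.n1 (Good.n0 L06527 L06528) L06529))) L06530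
theorem g00937 : Good (Phi V5.P V5.D 1 1) ⟨1, 1, 3, 5, 3, 7, 3, 7, 3, 0⟩ :=
  Good.n4 (Good.n2 g00921 (Good.n3 g00925 g00931)) (Good.n0 L06497 (Good.n0 L06498 (Good.n0 g00936 L06531)))
theorem g00938 : Good (Phi V5.P V5.D 1 1) ⟨1, 1, 3, 5, 2, 3, 2, 3, 3, 0⟩ :=
  Good.n2 (Good.n0 L06274 (Good.n0 L06275 (Good.n4 g00901 (Good.n0 (Good.n0 g00902 L06299) L06300)))) (Good.n3 (Good.n0 L06301 (Good.n4 g00911 (Good.n0 L06365 g00913))) g00937)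
theorem g00939 : Good (Phi V5.P V5.D 1 1) ⟨5, 28, 4, 10, 2, 3, 2, 3, 5, 4⟩ :=
  Good.n0 (Good.n3 (Good.n0 L06534 L06535) L06536) (Good.n3 (Good.n1 L06537 L06538) (Good.n2 L06539 L06540))
theorem g00940 : Good (Phi V5.P V5.D 1 1) ⟨6, 57, 4, 10, 2, 3, 2, 3, 5, 5⟩ :=
  Good.n0 (Good.n1 L06548 (Good.n1 (Good.n3 (Good.n0 L06549 L06550) L06551) (Good.n0 L06552 L06553))) L06554
theorem g00941 : Good (Phi V5.P V5.D 1 1) ⟨5, 28, 3, 5, 2, 3, 2, 3, 5, 5⟩ :=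
  Good.n1 (Good.n0 (Good.n1 (Good.n2 L06545 L06546) L06547) g00940) (Good.n0 L06555 (Good.n1 (Good.n0 L06556 L06557) L06558))
theorem g00942 : Good (Phi V5.P V5.D 1 1) ⟨4, 14, 3, 5, 2, 3, 2, 3, 4, 2⟩ :=
  Good.n0 (Good.n4 (Good.n1 g00939 (Good.n0 L06541 (Good.n1 (Good.n0 L06542 L06543) L06544))) g00941) L06559
theorem g00943 : Good (Phi V5.P V5.D 1 1) ⟨5, 28, 3, 5, 2, 3, 2, 3, 4, 3⟩ :=
  Good.n1 (Good.n0 (Good.n2 L06561 L06562) (Good.n3 (Good.n0 (Good.n2 L06563 L06564) L06565) L06566)) (Good.n0 L06567 (Good.n1 (Good.n0 L06568 L06569) L06570))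
theorem g00944 : Good (Phi V5.P V5.D 1 1) ⟨1, 1, 3, 5, 2, 3, 2, 3, 3, 1⟩ :=
  Good.n0 L06532 (Good.n0 L06533 (Good.n4 (Good.n0 g00942 L06560) (Good.n0 (Good.n0 g00943 L06571) L06572)))
theorem g00945 : Good (Phi V5.P V5.D 1 1) ⟨1, 1, 2, 2, 2, 3, 2, 3, 2, 0⟩ :=
  Good.n1 (Good.n4 g00895 (Good.n0 L06243 (Good.n0 (Good.n0 L06244 g00897) (Good.n0 g00899 L06273)))) (Good.n4 g00938 g00944)
theorem g00946 : Good (Phi V5.P V5.D 1 1) ⟨1, 1, 1, 1, 2, 3, 2, 3, 2, 0⟩ :=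
  Good.n1 g00945 (Good.n0 L06573 (Good.n0 L06574 (Good.n0 (Good.n1 (Good.n0 L06575 L06576) L06577) L06578)))
theorem g00947 : Good (Phi V5.P V5.D 1 1) ⟨4, 13, 3, 4, 2, 3, 2, 2, 4, 4⟩ :=
  Good.n0 (Good.n1 (Good.n0 L06586 (Good.n1 (Good.n2 L06587 L06588) L06589)) L06590) (Good.n1 (Good.n2 (Good.n1 L06591 L06592) L06593) (Good.n0 L06594 (Good.n2 L06595 L06596)))
theorem g00948 : Good (Phi V5.P V5.D 1 1) ⟨5, 28, 2, 2, 2, 3, 2, 2, 5, 8⟩ :=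
  Good.n1 (Good.n0 (Good.n1 L06598 (Good.n2 L06599 L06600)) L06601) (Good.n1 (Good.n2 L06602 L06603) (Good.n0 L06604 (Good.n1 (Good.n0 L06605 L06606) L06607)))
theorem g00949 : Good (Phi V5.P V5.D 1 1) ⟨2, 3, 2, 2, 2, 3, 2, 2, 4, 4⟩ :=
  Good.n0 (Good.n0 L06585 (Good.n1 g00947 L06597)) (Good.n0 (Good.n0 (Good.n4 g00948 (Good.n1 L06608 L06609)) L06610) L06611)
theorem g00950 : Good (Phi V5.P V5.D 1 1) ⟨2, 3, 2, 2, 1, 1, 2, 2, 4, 5⟩ :=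
  Good.n2 (Good.n0 L06612 (Good.n0 (Good.n0 (Good.n2 L06613 L06614) L06615) L06616)) (Good.n0 L06617 (Good.n2 L06618 L06619))
theorem g00951 : Good (Phi V5.P V5.D 1 1) ⟨2, 3, 2, 2, 1, 1, 2, 2, 3, 2⟩ :=
  Good.n4 (Good.n2 (Good.n0 L06580 (Good.n0 (Good.n0 (Good.n1 L06581 L06582) L06583) L06584)) g00949) g00950
theorem g00952 : Good (Phi V5.P V5.D 1 1) ⟨2, 3, 1, 1, 1, 1, 2, 2, 2, 1⟩ :=
  Good.n4 (Good.n1 g00951 (Good.n0 L06620 (Good.n0 (Good.n1 (Good.n0 L06621 L06622) L06623) L06624))) (Good.n2 (Good.n2 L06625 L06626) L06627)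
theorem g00953 : Good (Phi V5.P V5.D 1 1) ⟨3, 6, 2, 2, 1, 1, 2, 3, 3, 2⟩ :=
  Good.n4 (Good.n2 (Good.n0 L06628 (Good.n1 (Good.n3 L06629 L06630) L06631)) L06632) (Good.n2 (Good.n3 L06633 L06634) L06635)
theorem g00954 : Good (Phi V5.P V5.D 1 1) ⟨5, 28, 3, 5, 2, 2, 2, 3, 4, 4⟩ :=
  Good.n3 (Good.n1 (Good.n0 L06641 L06642) (Good.n0 L06643 (Good.n1 (Good.n0 L06644 L06645) L06646))) (Good.n2 (Good.n3 L06647 L06648) L06649)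
theorem g00955 : Good (Phi V5.P V5.D 1 1) ⟨5, 28, 2, 2, 1, 1, 2, 3, 4, 4⟩ :=
  Good.n1 (Good.n1 L06636 (Good.n2 (Good.n0 (Good.n3 L06637 L06638) L06639) L06640)) (Good.n2 g00954 L06650)
theorem g00956 : Good (Phi V5.P V5.D 1 1) ⟨2, 3, 2, 2, 1, 1, 2, 3, 3, 2⟩ :=
  Good.n0 g00953 (Good.n4 (Good.n0 (Good.n0 g00955 L06651) L06652) (Good.n2 (Good.n3 L06653 L06654) L06655))
theorem g00957 : Good (Phi V5.P V5.D 1 1) ⟨3, 7, 2, 3, 3, 6, 3, 6, 4, 4⟩ :=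
  Good.n4 (Good.n3 (Good.n2 (Good.n0 (Good.n1 (Good.n0 L06661 L06662) L06663) L06664) L06665) L06666) L06667
theorem g00958 : Good (Phi V5.P V5.D 1 1) ⟨3, 7, 2, 3, 1, 1, 2, 3, 3, 2⟩ :=
  Good.n2 (Good.n0 (Good.n1 (Good.n0 L06657 L06658) L06659) L06660) (Good.n4 (Good.n3 (Good.n2 g00957 L06668) L06669) L06670)
theorem g00959 : Good (Phi V5.P V5.D 1 1) ⟨1, 1, 1, 1, 1, 1, 1, 1, 2, 1⟩ :=
  Good.n0 L06579 (Good.n3 g00952 (Good.n4 (Good.n1 g00956 (Good.n0 L06656 g00958)) (Good.n2 L06671 L06672)))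
theorem g00960 : Good (Phi V5.P V5.D 1 1) ⟨1, 1, 1, 1, 2, 2, 1, 1, 2, 2⟩ :=
  Good.n2 (Good.n4 (Good.n3 (Good.n2 (Good.n4 (Good.n3 L06673 L06674) L06675) L06676) L06677) L06678) L06679
theorem g00961 : Good (Phi V5.P V5.D 1 1) ⟨1, 1, 1, 1, 1, 1, 1, 1, 0, 0⟩ :=
  Good.n4 (Good.n4 (Good.n2 (Good.n3 g00816 g00839) (Good.n3 g00876 g00946)) g00959) (Good.n2 (Good.n4 g00960 L06680) L06681)
theorem g00962 : Good (Phi V5.P V5.D 1 1) ⟨1, 1, 1, 1, 1, 1, 0, 0, 0, 0⟩ :=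
  Good.n3 (Good.n4 g00809 (Good.n2 (Good.n4 (Good.n4 (Good.n2 L05617 L05618) L05619) L05620) L05621)) g00961
theorem g00963 : Good (Phi V5.P V5.D 1 1) ⟨1, 1, 1, 1, 0, 0, 0, 0, 0, 0⟩ :=
  Good.n2 (Good.n3 (Good.n4 g00415 L02904) (Good.n4 (Good.n4 g00449 (Good.n0 L03141 g00456)) L03194)) g00962
theorem g00964 : Good (Phi V5.P V5.D 1 1) ⟨1, 1, 0, 0, 0, 0, 0, 0, 0, 0⟩ :=
  Good.n1 (Good.n1 (Good.n2 (Good.n3 g00100 (Good.n4 g00111 L00796)) g00173) (Good.n2 g00192 g00396)) g00963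
theorem all : Good (Phi V5.P V5.D 1 1) ⟨0, 0, 0, 0, 0, 0, 0, 0, 0, 0⟩ :=
  Good.n0 (Good.n1 g00063 g00095) g00964

end Crest.Agent.R097C5.N5pp
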