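import Crest.Agent.R097.KP7
import Crest.Agent.R097.T5Ypp

/-!
# Row 97, box cover in dimension n = 5 (generated)
-/

set_option autoImplicit false
set_option Elab.async false
set_option maxHeartbeats 0
set_option maxRecDepth 100000

open Crest.Agent.R097 Crest.Agent.R097.KA


namespace Crest.Agent.R097C5.N5pp

theorem L00000 : Good (Phi V5.P V5.D 1 1) ⟨2, 0, 3, 0, 2, 0, 1, 0, 4, 0⟩ :=
  leafX_sound T5.ok_pp T5.Ypp.bz_eq (w := 196) (c := ⟨⟨.ofNat 568, .ofNat 94, .negSucc 21, .ofNat 29, .negSucc 198, .negSucc 1173⟩, ⟨.negSucc 15, .ofNat 16, .ofNat 19, .negSucc 36, .ofNat 25, .negSucc 36⟩, ⟨.negSucc 569, .negSucc 94, .ofNat 38, .negSucc 14, .ofNat 49, .ofNat 1205⟩, ⟨.ofNat 1653, .ofNat 229, .negSucc 51, .ofNat 119, .negSucc 580, .negSucc 3403⟩, ⟨.negSucc 97, .ofNat 60, .ofNat 8, .negSucc 337, .ofNat 172, .negSucc 14⟩, .ofNat 579,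 .negSucc 34, .ofNat 0, .negSucc 34, .ofNat 1122, .ofNat 0, .ofNat 295, .ofNat 11, .negSucc 212, .ofNat 0, .ofNat 128, .negSucc 1, .ofNat 0, .ofNat 0, .ofNat 591, .ofNat 1631, .ofNat 0, .ofNat 0, .ofNat 0, .ofNat 0, .ofNat 0, .ofNat 0, .ofNat 0, .ofNat 0, .ofNat 0, .ofNat 0, .ofNat 0, .ofNat 0, .ofNat 0, .ofNat 0, .ofNat 0, .ofNat 0⟩)
    (by decide +kernel)
theorem L00001 : Good (Phi V5.P V5.D 1 1) ⟨2, 0, 3, 0, 2, 0, 1, 0, 4, 1⟩ :=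
  leafX_sound T5.ok_pp T5.Ypp.bz_eq (w := 197) (c := ⟨⟨.negSucc 664, .negSucc 72, .ofNat 18, .ofNat 124, .negSucc 8, .negSucc 527⟩, ⟨.negSucc 7, .ofNat 64, .negSucc 111, .negSucc 28, .ofNat 16, .negSucc 20⟩, ⟨.ofNat 775, .ofNat 86, .negSucc 21, .negSucc 269, .negSucc 156, .ofNat 593⟩, ⟨.negSucc 2054, .ofNat 17, .ofNat 69, .ofNat 352, .negSucc 33, .negSucc 1525⟩, ⟨.negSucc 82, .ofNat 19, .negSucc 9, .negSucc 309, .ofNat 119, .ofNat 26⟩, .ofNat 578, .negSucc 30, .ofNat 0, .negSucc 30, .ofNat 1124, .ofNat 0, .ofNat 399, .ofNat 9, .negSucc 216, .ofNat 0, .ofNat 128, .ofNat 3, .ofNat 0, .ofNat 0, .ofNat 823, .ofNat 5305, .ofNat 0, .ofNat 0, .ofNat 0, .ofNat 0, .ofNat 0, .ofNat 0, .ofNat 0, .ofNat 0, .ofNat 1632003709454661134125777511123538411520, .ofNat 0, .ofNat 0, .ofNat 0, .ofNat 0, .ofNat 0, .ofNat 0, .ofNat 0⟩)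
    (by decide +kernel)
theorem L00002 : Good (Phi V5.P V5.D 1 1) ⟨2, 0, 3, 0, 2, 0, 2, 2, 3, 0⟩ :=
  leafX_sound T5.ok_pp T5.Ypp.bz_eq (w := 194) (c := ⟨⟨.negSucc 63, .negSucc 104, .negSucc 52, .negSucc 1, .negSucc 26, .negSucc 921⟩, ⟨.ofNat 17, .ofNat 24, .negSucc 85, .negSucc 0, .negSucc 3, .negSucc 25⟩, ⟨.negSucc 58, .ofNat 139, .ofNat 62, .negSucc 1, .ofNat 31, .ofNat 934⟩, ⟨.negSucc 289, .negSucc 93, .negSucc 167, .negSucc 36, .negSucc 105, .negSucc 2629⟩, ⟨.ofNat 206, .negSucc 330, .ofNat 80, .negSucc 137, .negSucc 64, .negSucc 92⟩, .ofNat 737, .negSucc 61, .ofNat 0, .negSucc 61, .ofNat 2006, .ofNat 0, .ofNat 470, .ofNat 11, .negSucc 237, .ofNat 0, .ofNat 128, .negSucc 1, .ofNat 0, .ofNat 0, .ofNat 718, .ofNat 887, .ofNat 0, .ofNat 0, .ofNat 0, .ofNat 0, .ofNat 0, .ofNat 0, .ofNat 0, .ofNat 0, .ofNat 0, .ofNat 0, .ofNat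 0, .ofNat 0, .ofNat 0, .ofNat 0, .ofNat 0, .ofNat 0⟩)
    (by decide +kernel)
theorem L00003 : Good (Phi V5.P V5.D 1 1) ⟨2, 0, 3, 0, 2, 0, 3, 6, 3, 0⟩ :=
  leafX_sound T5.ok_pp T5.Ypp.bz_eq (w := 200) (c := ⟨⟨.negSucc 494, .negSucc 19, .negSucc 9, .ofNat 95, .ofNat 83, .negSucc 533⟩, ⟨.negSucc 0, .ofNat 45, .negSucc 81, .negSucc 23, .ofNat 0, .negSucc 8⟩, ⟨.ofNat 387, .ofNat 65, .ofNat 21, .negSucc 63, .negSucc 86, .ofNat 463⟩, ⟨.negSucc 1527, .ofNat 115, .negSucc 20, .ofNat 272, .ofNat 231, .negSucc 1541⟩, ⟨.ofNat 18, .negSucc 63, .ofNat 57, .negSucc 226, .negSucc 15, .ofNat 1⟩, .ofNat 685, .negSucc 33, .ofNat 0, .negSucc 33, .ofNat 1625, .ofNat 0, .ofNat 396, .ofNat 8, .negSucc 228, .ofNat 0, .ofNat 128, .ofNat 0, .ofNat 0, .ofNat 0, .ofNat 640, .ofNat 2372, .ofNat 0, .ofNat 0, .ofNat 0, .ofNat 0, .ofNat 0, .ofNat 0, .ofNat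 0, .ofNat 0, .ofNat 0, .ofNat 0, .ofNat 0, .ofNat 0, .ofNat 0, .ofNat 0, .ofNat 0, .ofNat 0⟩)
    (by decide +kernel)
theorem L00004 : Good (Phi V5.P V5.D 1 1) ⟨2, 0, 3, 0, 2, 0, 3, 7, 3, 0⟩ :=
  leafX_sound T5.ok_pp T5.Ypp.bz_eq (w := 200) (c := ⟨⟨.negSucc 590, .negSucc 63, .negSucc 4, .negSucc 45, .ofNat 482, .negSucc 193⟩, ⟨.negSucc 2, .ofNat 29, .negSucc 57, .negSucc 36, .ofNat 8, .negSucc 4⟩, ⟨.ofNat 515, .ofNat 115, .ofNat 12, .ofNat 127, .negSucc 547, .ofNat 13⟩, ⟨.negSucc 1802, .negSucc 66, .ofNat 1, .negSucc 110, .ofNat 1408, .negSucc 555⟩, ⟨.ofNat 23, .ofNat 23, .negSucc 26, .negSucc 275, .negSucc 39, .negSucc 12⟩, .ofNat 579, .negSucc 22, .ofNat 0, .negSucc 22, .ofNat 1116, .ofNat 0, .ofNat 477, .ofNat 8, .negSucc 428, .ofNat 0, .ofNat 128, .negSucc 0, .ofNat 0, .ofNat 0, .ofNat 1072, .ofNat 2442, .ofNat 0, .ofNat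 0, .ofNat 0, .ofNat 0, .ofNat 0, .ofNat 0, .ofNat 0, .ofNat 0, .ofNat 0, .ofNat 0, .ofNat 0, .ofNat 0, .ofNat 0, .ofNat 0, .ofNat 0, .ofNat 0⟩)
    (by decide +kernel)
theorem L00005 : Good (Phi V5.P V5.D 1 1) ⟨2, 0, 3, 0, 2, 0, 1, 0, 3, 1⟩ :=
  leafX_sound T5.ok_pp T5.Ypp.bz_eq (w := 193) (c := ⟨⟨.negSucc 1254, .negSucc 103, .negSucc 5, .ofNat 12, .ofNat 197, .negSucc 98⟩, ⟨.negSucc 4, .ofNat 67, .negSucc 148, .negSucc 29, .ofNat 11, .negSucc 0⟩, ⟨.ofNat 1455, .ofNat 105, .ofNat 1, .negSucc 159, .negSucc 459, .ofNat 257⟩, ⟨.negSucc 3812, .negSucc 7, .ofNat 15, .ofNat 43, .ofNat 550, .negSucc 266⟩, ⟨.negSucc 42, .negSucc 2, .negSucc 1, .negSucc 233, .ofNat 24, .ofNat 36⟩, .ofNat 580, .negSucc 25, .ofNat 0, .negSucc 25, .ofNat 1109, .ofNat 0, .ofNat 811, .ofNat 8, .negSucc 220, .ofNat 0, .ofNat 128, .ofNat 9, .ofNat 0, .ofNat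 0, .ofNat 1418, .ofNat 5661, .ofNat 0, .ofNat 0, .ofNat 0, .ofNat 0, .ofNat 0, .ofNat 0, .ofNat 0, .ofNat 0, .ofNat 344730139411974869332284314183886962688, .ofNat 0, .ofNat 0, .ofNat 0, .ofNat 4353239114613670725500432627332060020736, .ofNat 0, .ofNat 0, .ofNat 0⟩)
    (by decide +kernel)
theorem L00006 : Good (Phi V5.P V5.D 1 1) ⟨2, 0, 3, 0, 2, 0, 2, 2, 3, 1⟩ :=
  leafX_sound T5.ok_pp T5.Ypp.bz_eq (w := 197) (c := ⟨⟨.negSucc 1123, .negSucc 99, .ofNat 3, .negSucc 17, .ofNat 136, .negSucc 16⟩, ⟨.negSucc 2, .ofNat 59, .negSucc 132, .negSucc 26, .ofNat 4, .ofNat 4⟩, ⟨.ofNat 1102, .ofNat 126, .negSucc 10, .negSucc 0, .negSucc 268, .ofNat 25⟩, ⟨.negSucc 3393, .negSucc 26, .ofNat 23, .negSucc 49, .ofNat 395, .negSucc 60⟩, ⟨.negSucc 6, .negSucc 6, .negSucc 8, .negSucc 189, .ofNat 0, .ofNat 11⟩, .ofNat 577, .negSucc 24, .ofNat 0, .negSucc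 24, .ofNat 1125, .ofNat 0, .ofNat 920, .ofNat 8, .negSucc 348, .ofNat 0, .ofNat 128, .ofNat 6, .ofNat 0, .ofNat 0, .ofNat 1919, .ofNat 5456, .ofNat 0, .ofNat 0, .ofNat 0, .ofNat 0, .ofNat 0, .ofNat 0, .ofNat 0, .ofNat 0, .ofNat 0, .ofNat 0, .ofNat 0, .ofNat 0, .ofNat 0, .ofNat 0, .ofNat 0, .ofNat 0⟩)
    (by decide +kernel)
theorem L00007 : Good (Phi V5.P V5.D 1 1) ⟨2, 0, 3, 0, 2, 0, 2, 3, 3, 1⟩ :=
  leafX_sound T5.ok_pp T5.Ypp.bz_eq (w := 196) (c := ⟨⟨.negSucc 859, .negSucc 60, .ofNat 11, .negSucc 41, .ofNat 424, .negSucc 203⟩, ⟨.negSucc 10, .ofNat 54, .negSucc 96, .negSucc 29, .ofNat 19, .ofNat 3⟩, ⟨.ofNat 817, .ofNat 82, .negSucc 16, .ofNat 73, .negSucc 712, .ofNat 56⟩, ⟨.negSucc 2609, .ofNat 20, .ofNat 33, .negSucc 109, .ofNat 1244, .negSucc 597⟩, ⟨.negSucc 59, .negSucc 63, .ofNat 8, .negSucc 203, .negSucc 24, .ofNat 129⟩,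 .ofNat 728, .negSucc 57, .ofNat 0, .negSucc 57, .ofNat 1840, .ofNat 0, .ofNat 604, .ofNat 11, .negSucc 192, .ofNat 0, .ofNat 128, .negSucc 0, .ofNat 0, .ofNat 0, .ofNat 886, .ofNat 1258, .ofNat 0, .ofNat 0, .ofNat 0, .ofNat 0, .ofNat 0, .ofNat 0, .ofNat 0, .ofNat 0, .ofNat 0, .ofNat 0, .ofNat 0, .ofNat 0, .ofNat 0, .ofNat 0, .ofNat 0, .ofNat 0⟩)
    (by decide +kernel)
theorem L00008 : Good (Phi V5.P V5.D 1 1) ⟨2, 0, 3, 0, 2, 0, 1, 0, 4, 4⟩ :=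
  leafX_sound T5.ok_pp T5.Ypp.bz_eq (w := 200) (c := ⟨⟨.negSucc 1321, .negSucc 115, .negSucc 1, .negSucc 17, .ofNat 196, .ofNat 58⟩, ⟨.negSucc 8, .ofNat 63, .negSucc 141, .negSucc 25, .ofNat 10, .ofNat 3⟩, ⟨.ofNat 1696, .ofNat 139, .negSucc 0, .negSucc 67, .negSucc 543, .negSucc 6⟩, ⟨.negSucc 3985, .negSucc 18, .ofNat 4, .negSucc 39, .ofNat 538, .ofNat 165⟩, ⟨.negSucc 25, .ofNat 5, .ofNat 1, .negSucc 204, .ofNat 21, .ofNat 9⟩, .ofNat 400, .negSucc 8, .ofNat 0, .negSucc 8, .ofNat 593, .ofNat 0, .ofNat 392, .ofNat 4, .negSucc 119, .ofNat 0, .ofNat 128, .ofNat 13, .ofNat 0, .ofNat 0, .ofNat 1159, .ofNat 17182, .ofNat 0, .ofNat 0, .ofNat 0, .ofNat 0, .ofNat 44862231232193484452844677086921596338176, .ofNat 0, .ofNat 0, .ofNat 0, .ofNat 11080384315527531761469989365474576564224, .ofNat 0, .ofNat 0, .ofNat 0, .ofNat 87642161931266003810118886513392333357056,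 .ofNat 0, .ofNat 0, .ofNat 0⟩)
    (by decide +kernel)
theorem L00009 : Good (Phi V5.P V5.D 1 1) ⟨2, 0, 3, 0, 2, 0, 1, 0, 5, 10⟩ :=
  leafX_sound T5.ok_pp T5.Ypp.bz_eq (w := 205) (c := ⟨⟨.negSucc 1259, .negSucc 97, .ofNat 0, .negSucc 21, .ofNat 183, .ofNat 28⟩, ⟨.negSucc 8, .ofNat 62, .negSucc 137, .negSucc 25, .ofNat 12, .ofNat 1⟩, ⟨.ofNat 1760, .ofNat 117, .negSucc 12, .negSucc 17, .negSucc 635, .negSucc 12⟩, ⟨.negSucc 3765, .negSucc 21, .ofNat 4, .negSucc 55, .ofNat 489, .ofNat 90⟩, ⟨.negSucc 19, .ofNat 2, .ofNat 0, .negSucc 193, .ofNat 19, .ofNat 4⟩, .ofNat 191, .negSucc 1, .ofNat 0, .negSucc 1, .ofNat 226, .ofNat 0, .ofNat 249, .ofNat 2, .negSucc 98, .ofNat 0, .ofNat 128, .ofNat 10, .ofNat 0, .ofNat 0, .ofNat 583, .ofNat 24480, .ofNat 27948065342288571926296490814038819733504, .ofNat 0, .ofNat 0, .ofNat 0, .ofNat 309337512007117094983601434760518169526272,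 .ofNat 0, .ofNat 0, .ofNat 0, .ofNat 38977302723021628198326682153308624257024, .ofNat 0, .ofNat 0, .ofNat 0, .ofNat 285456473766640456553451662706590066147328, .ofNat 0, .ofNat 0, .ofNat 0⟩)
    (by decide +kernel)
theorem L00010 : Good (Phi V5.P V5.D 1 1) ⟨2, 0, 3, 0, 2, 0, 1, 0, 5, 11⟩ :=
  leafX_sound T5.ok_pp T5.Ypp.bz_eq (w := 207) (c := ⟨⟨.negSucc 1295, .negSucc 108, .negSucc 6, .negSucc 15, .ofNat 255, .ofNat 21⟩, ⟨.negSucc 23, .ofNat 57, .negSucc 133, .negSucc 23, .ofNat 29, .ofNat 3⟩, ⟨.ofNat 1738, .ofNat 118, .negSucc 12, .negSucc 9, .negSucc 630, .negSucc 18⟩, ⟨.negSucc 3687, .negSucc 26, .ofNat 2, .negSucc 54, .ofNat 505, .ofNat 71⟩, ⟨.negSucc 21, .ofNat 0, .negSucc 0, .negSucc 186, .ofNat 23, .ofNat 4⟩, .ofNat 190, .negSucc 1, .ofNat 0, .negSucc 1, .ofNat 227, .ofNat 0, .ofNat 296, .ofNat 2, .negSucc 85, .ofNat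 0, .ofNat 128, .ofNat 8, .ofNat 0, .ofNat 0, .ofNat 557, .ofNat 80698, .ofNat 141205966041049802703000409435000117657600, .ofNat 0, .ofNat 0, .ofNat 0, .ofNat 1116532344521792686299555529708184962859008, .ofNat 0, .ofNat 0, .ofNat 0, .ofNat 62716268111234976660492432363348467646464, .ofNat 0, .ofNat 0, .ofNat 0, .ofNat 378787027232999454123909456268067354968064, .ofNat 0, .ofNat 0, .ofNat 0⟩)
    (by decide +kernel)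
theorem L00011 : Good (Phi V5.P V5.D 1 1) ⟨2, 0, 3, 0, 2, 0, 1, 0, 3, 3⟩ :=
  out_sound (S := T5.ds_pp) T5.ok_pp (w := 21) (j := 1) (by decide +kernel)
theorem L00012 : Good (Phi V5.P V5.D 1 1) ⟨2, 0, 3, 0, 2, 0, 2, 2, 3, 2⟩ :=
  leafX_sound T5.ok_pp T5.Ypp.bz_eq (w := 198) (c := ⟨⟨.negSucc 1114, .negSucc 107, .ofNat 0, .negSucc 25, .ofNat 93, .ofNat 93⟩, ⟨.negSucc 4, .ofNat 57, .negSucc 127, .negSucc 17, .ofNat 3, .ofNat 4⟩, ⟨.ofNat 1159, .ofNat 124, .negSucc 10, .ofNat 36, .negSucc 323, .negSucc 126⟩, ⟨.negSucc 3364, .negSucc 42, .negSucc 6, .negSucc 97, .ofNat 267, .ofNat 267⟩, ⟨.negSucc 3, .negSucc 16, .ofNat 6, .negSucc 178, .ofNat 7, .ofNat 16⟩, .ofNat 577, .negSucc 20, .ofNat 0, .negSucc 20, .ofNat 1126, .ofNat 0, .ofNat 385, .ofNat 6, .negSucc 87, .ofNat 0, .ofNat 128, .ofNat 1, .ofNat 0, .ofNat 0, .ofNat 921, .ofNat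 10164, .ofNat 0, .ofNat 0, .ofNat 0, .ofNat 0, .ofNat 0, .ofNat 0, .ofNat 0, .ofNat 0, .ofNat 0, .ofNat 0, .ofNat 0, .ofNat 0, .ofNat 0, .ofNat 0, .ofNat 0, .ofNat 0⟩)
    (by decide +kernel)
theorem L00013 : Good (Phi V5.P V5.D 1 1) ⟨2, 0, 3, 0, 2, 0, 3, 6, 3, 2⟩ :=
  leafX_sound T5.ok_pp T5.Ypp.bz_eq (w := 202) (c := ⟨⟨.negSucc 964, .negSucc 109, .ofNat 6, .negSucc 68, .ofNat 61, .ofNat 29⟩, ⟨.ofNat 0, .ofNat 52, .negSucc 122, .negSucc 19, .ofNat 5, .ofNat 5⟩, ⟨.ofNat 789, .ofNat 142, .negSucc 26, .ofNat 116, .negSucc 218, .negSucc 133⟩, ⟨.negSucc 2939, .negSucc 81, .ofNat 28, .negSucc 196, .ofNat 178, .ofNat 95⟩, ⟨.negSucc 13, .negSucc 22, .negSucc 2, .negSucc 140, .ofNat 22, .ofNat 36⟩, .ofNat 578, .negSucc 31, .ofNat 0, .negSucc 31, .ofNat 1123, .ofNat 0, .ofNat 483, .ofNat 10, .negSucc 98, .ofNat 0, .ofNat 128, .negSucc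 2, .ofNat 0, .ofNat 0, .ofNat 792, .ofNat 7621, .ofNat 0, .ofNat 0, .ofNat 0, .ofNat 0, .ofNat 0, .ofNat 0, .ofNat 0, .ofNat 0, .ofNat 0, .ofNat 0, .ofNat 0, .ofNat 0, .ofNat 0, .ofNat 0, .ofNat 0, .ofNat 0⟩)
    (by decide +kernel)
theorem L00014 : Good (Phi V5.P V5.D 1 1) ⟨2, 0, 3, 0, 2, 0, 3, 7, 3, 2⟩ :=
  leafX_sound T5.ok_pp T5.Ypp.bz_eq (w := 201) (c := ⟨⟨.negSucc 808, .negSucc 99, .negSucc 1, .negSucc 117, .ofNat 129, .negSucc 80⟩, ⟨.negSucc 0, .ofNat 46, .negSucc 106, .negSucc 6, .ofNat 10, .ofNat 1⟩, ⟨.ofNat 507, .ofNat 106, .negSucc 24, .ofNat 161, .negSucc 333, .negSucc 61⟩, ⟨.negSucc 2450, .negSucc 90, .ofNat 3, .negSucc 343, .ofNat 383, .negSucc 257⟩, ⟨.negSucc 37, .negSucc 14, .ofNat 31, .negSucc 45, .ofNat 33, .ofNat 31⟩, .ofNat 578, .negSucc 25, .ofNat 0, .negSucc 25, .ofNat 1123, .ofNat 0, .ofNat 628, .ofNat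 8, .negSucc 131, .ofNat 0, .ofNat 128, .negSucc 5, .ofNat 0, .ofNat 0, .ofNat 803, .ofNat 3018, .ofNat 0, .ofNat 0, .ofNat 0, .ofNat 0, .ofNat 0, .ofNat 19134021962048119574869894440235667816448, .ofNat 0, .ofNat 0, .ofNat 0, .ofNat 1335264582349270213172308341215704645632, .ofNat 0, .ofNat 0, .ofNat 0, .ofNat 0, .ofNat 0, .ofNat 0⟩)
    (by decide +kernel)
theorem L00015 : Good (Phi V5.P V5.D 1 1) ⟨2, 0, 3, 0, 2, 0, 2, 2, 3, 3⟩ :=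
  leafX_sound T5.ok_pp T5.Ypp.bz_eq (w := 200) (c := ⟨⟨.negSucc 999, .negSucc 103, .negSucc 4, .negSucc 33, .ofNat 58, .ofNat 64⟩, ⟨.ofNat 0, .ofNat 51, .negSucc 122, .negSucc 17, .ofNat 5, .ofNat 5⟩, ⟨.ofNat 1068, .ofNat 102, .negSucc 13, .ofNat 62, .negSucc 375, .negSucc 154⟩, ⟨.negSucc 3032, .negSucc 57, .negSucc 2, .negSucc 112, .ofNat 176, .ofNat 187⟩, ⟨.negSucc 13, .negSucc 8, .negSucc 2, .negSucc 146, .ofNat 27, .ofNat 28⟩, .ofNat 398, .negSucc 9, .ofNat 0, .negSucc 9, .ofNat 599, .ofNat 0, .ofNat 726, .ofNat 5, .negSucc 75, .ofNat 0, .ofNat 128, .negSucc 2, .ofNat 0, .ofNat 0, .ofNat 882, .ofNat 26546, .ofNat 0, .ofNat 0, .ofNat 0, .ofNat 0, .ofNat 0, .ofNat 0, .ofNat 0, .ofNat 0, .ofNat 13363645447576847014301987240807178960896, .ofNat 0, .ofNat 0, .ofNat 0, .ofNat 21946135468179773693268799119591076790272, .ofNat 0,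 .ofNat 0, .ofNat 0⟩)
    (by decide +kernel)
theorem L00016 : Good (Phi V5.P V5.D 1 1) ⟨2, 0, 3, 0, 2, 0, 2, 3, 3, 3⟩ :=
  leafX_sound T5.ok_pp T5.Ypp.bz_eq (w := 197) (c := ⟨⟨.negSucc 909, .negSucc 124, .ofNat 6, .negSucc 69, .ofNat 56, .negSucc 24⟩, ⟨.ofNat 0, .ofNat 48, .negSucc 118, .negSucc 7, .ofNat 15, .ofNat 7⟩, ⟨.ofNat 659, .ofNat 115, .negSucc 30, .ofNat 103, .negSucc 441, .negSucc 81⟩, ⟨.negSucc 2761, .negSucc 123, .ofNat 12, .negSucc 206, .ofNat 157, .negSucc 71⟩, ⟨.negSucc 25, .negSucc 11, .negSucc 6, .negSucc 54, .ofNat 87, .ofNat 69⟩, .ofNat 576, .negSucc 23, .ofNat 0, .negSucc 23, .ofNat 1133, .ofNat 0, .ofNat 513, .ofNat 7, .negSucc 85, .ofNat 0, .ofNat 128, .negSucc 9, .ofNat 0, .ofNat 0, .ofNat 856, .ofNat 4332, .ofNat 0, .ofNat 0, .ofNat 0, .ofNat 0, .ofNat 0, .ofNat 5711627857886398002305112774229054455808,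 .ofNat 0, .ofNat 0, .ofNat 0, .ofNat 799374663964009456542811475053505413120, .ofNat 0, .ofNat 0, .ofNat 11756223774363283675217350011091249266688, .ofNat 0, .ofNat 0, .ofNat 0⟩)
    (by decide +kernel)
theorem L00017 : Good (Phi V5.P V5.D 1 1) ⟨2, 0, 3, 0, 2, 0, 0, 0, 1, 1⟩ :=
  leafX_sound T5.ok_pp T5.Ypp.bz_eq (w := 188) (c := ⟨⟨.negSucc 945, .negSucc 101, .negSucc 1, .ofNat 0, .ofNat 0, .ofNat 0⟩, ⟨.ofNat 5, .ofNat 46, .negSucc 121, .ofNat 0, .ofNat 0, .ofNat 0⟩, ⟨.ofNat 249, .ofNat 102, .ofNat 2, .ofNat 0, .ofNat 0, .ofNat 0⟩, ⟨.negSucc 2876, .negSucc 45, .negSucc 0, .ofNat 1, .negSucc 0, .ofNat 1⟩, ⟨.ofNat 0, .ofNat 0, .ofNat 0, .ofNat 0, .ofNat 0, .ofNat 0⟩, .ofNat 190, .negSucc 1, .ofNat 0, .negSucc 1, .ofNat 228, .ofNat 0, .ofNat 146, .ofNat 2, .negSucc 105, .ofNat 0, .ofNat 128, .negSucc 0, .ofNat 0, .ofNat 0, .ofNat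 307, .ofNat 61591, .ofNat 149737327640835849103932133893734400000000, .ofNat 13501605830466856155650151443076747362304, .ofNat 0, .ofNat 0, .ofNat 9583188969013494342651656569199001600000000, .ofNat 887332181197253161675781121137557756706816, .ofNat 0, .ofNat 0, .ofNat 9583188969013494342651656569199001600000000, .ofNat 887333589288328087990261550857517849903104, .ofNat 0, .ofNat 0, .ofNat 9583188969013494342651656569199001600000000, .ofNat 887332698578704440025785506804997405278208, .ofNat 0, .ofNat 0⟩)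
    (by decide +kernel)
theorem L00018 : Good (Phi V5.P V5.D 1 1) ⟨3, 0, 4, 2, 3, 0, 1, 0, 3, 0⟩ :=
  leafX_sound T5.ok_pp T5.Ypp.bz_eq (w := 212) (c := ⟨⟨.ofNat 459, .ofNat 117, .ofNat 36, .negSucc 5, .negSucc 132, .negSucc 1765⟩, ⟨.ofNat 62, .ofNat 24, .negSucc 6, .negSucc 29, .negSucc 7, .negSucc 246⟩, ⟨.negSucc 454, .negSucc 122, .negSucc 38, .ofNat 12, .negSucc 29, .ofNat 1911⟩, ⟨.ofNat 1350, .ofNat 371, .ofNat 130, .ofNat 4, .negSucc 413, .negSucc 5246⟩, ⟨.negSucc 33, .negSucc 11, .negSucc 15, .negSucc 115, .ofNat 30, .ofNat 23⟩, .ofNat 725, .negSucc 200, .ofNat 0, .negSucc 200, .ofNat 1569, .ofNat 0, .ofNat 379, .ofNat 41, .negSucc 194, .ofNat 0, .ofNat 128, .negSucc 23, .ofNat 0, .ofNat 0, .ofNat 674, .ofNat 1884, .ofNat 0, .ofNat 0, .ofNat 0, .ofNat 0, .ofNat 0, .ofNat 0, .ofNat 0, .ofNat 0, .ofNat 0, .ofNat 0, .ofNat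 0, .ofNat 0, .ofNat 155910837028413601539927407602184101036032000, .ofNat 0, .ofNat 0, .ofNat 0⟩)
    (by decide +kernel)
theorem L00019 : Good (Phi V5.P V5.D 1 1) ⟨3, 0, 4, 2, 3, 0, 2, 2, 3, 0⟩ :=
  leafX_sound T5.ok_pp T5.Ypp.bz_eq (w := 216) (c := ⟨⟨.negSucc 259, .ofNat 16, .ofNat 22, .ofNat 51, .negSucc 24, .negSucc 864⟩, ⟨.negSucc 26, .ofNat 32, .negSucc 40, .negSucc 6, .negSucc 5, .negSucc 121⟩, ⟨.ofNat 163, .negSucc 8, .negSucc 23, .negSucc 51, .ofNat 7, .ofNat 894⟩, ⟨.negSucc 793, .ofNat 78, .ofNat 63, .ofNat 165, .negSucc 76, .negSucc 2567⟩, ⟨.negSucc 2, .ofNat 14, .ofNat 20, .negSucc 105, .negSucc 27, .ofNat 2⟩, .ofNat 792, .negSucc 258, .ofNat 0, .negSucc 258, .ofNat 1876, .ofNat 0, .ofNat 614, .ofNat 43, .negSucc 322, .ofNat 0, .ofNat 128, .negSucc 40, .ofNat 0, .ofNat 0, .ofNat 1001, .ofNat 1382, .ofNat 0, .ofNat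 0, .ofNat 0, .ofNat 0, .ofNat 0, .ofNat 0, .ofNat 0, .ofNat 0, .ofNat 0, .ofNat 0, .ofNat 0, .ofNat 0, .ofNat 0, .ofNat 0, .ofNat 0, .ofNat 0⟩)
    (by decide +kernel)
theorem L00020 : Good (Phi V5.P V5.D 1 1) ⟨3, 0, 4, 2, 3, 0, 3, 6, 3, 0⟩ :=
  leafX_sound T5.ok_pp T5.Ypp.bz_eq (w := 221) (c := ⟨⟨.negSucc 468, .negSucc 14, .negSucc 1, .ofNat 12, .ofNat 82, .negSucc 504⟩, ⟨.negSucc 51, .ofNat 23, .negSucc 44, .negSucc 13, .ofNat 9, .negSucc 73⟩, ⟨.ofNat 378, .ofNat 31, .ofNat 6, .ofNat 1, .negSucc 100, .ofNat 450⟩, ⟨.negSucc 1425, .ofNat 6, .negSucc 7, .ofNat 55, .ofNat 248, .negSucc 1496⟩, ⟨.ofNat 54, .negSucc 55, .ofNat 14, .negSucc 141, .negSucc 34, .negSucc 14⟩, .ofNat 774, .negSucc 245, .ofNat 0, .negSucc 245, .ofNat 1795, .ofNat 0, .ofNat 576, .ofNat 44, .negSucc 352, .ofNat 0, .ofNat 128, .negSucc 45, .ofNat 0, .ofNat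 0, .ofNat 1013, .ofNat 4045, .ofNat 0, .ofNat 0, .ofNat 0, .ofNat 0, .ofNat 0, .ofNat 0, .ofNat 0, .ofNat 0, .ofNat 0, .ofNat 0, .ofNat 0, .ofNat 0, .ofNat 0, .ofNat 0, .ofNat 0, .ofNat 0⟩)
    (by decide +kernel)
theorem L00021 : Good (Phi V5.P V5.D 1 1) ⟨3, 0, 4, 2, 3, 0, 3, 7, 3, 0⟩ :=
  leafX_sound T5.ok_pp T5.Ypp.bz_eq (w := 222) (c := ⟨⟨.negSucc 550, .negSucc 37, .negSucc 22, .negSucc 23, .ofNat 468, .negSucc 237⟩, ⟨.negSucc 68, .ofNat 10, .negSucc 30, .negSucc 24, .ofNat 61, .negSucc 29⟩, ⟨.ofNat 486, .ofNat 60, .ofNat 27, .ofNat 48, .negSucc 541, .ofNat 81⟩, ⟨.negSucc 1655, .negSucc 85, .negSucc 61, .negSucc 51, .ofNat 1391, .negSucc 702⟩, ⟨.ofNat 1, .ofNat 1, .negSucc 13, .negSucc 139, .negSucc 14, .ofNat 8⟩, .ofNat 725, .negSucc 198, .ofNat 0, .negSucc 198, .ofNat 1568, .ofNat 0, .ofNat 436, .ofNat 41, .negSucc 414,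 .ofNat 0, .ofNat 128, .negSucc 52, .ofNat 0, .ofNat 0, .ofNat 1086, .ofNat 4364, .ofNat 0, .ofNat 0, .ofNat 0, .ofNat 0, .ofNat 0, .ofNat 0, .ofNat 0, .ofNat 0, .ofNat 0, .ofNat 0, .ofNat 0, .ofNat 0, .ofNat 0, .ofNat 0, .ofNat 0, .ofNat 0⟩)
    (by decide +kernel)
theorem L00022 : Good (Phi V5.P V5.D 1 1) ⟨3, 0, 4, 2, 3, 0, 1, 0, 3, 1⟩ :=
  leafX_sound T5.ok_pp T5.Ypp.bz_eq (w := 213) (c := ⟨⟨.negSucc 1269, .negSucc 20, .negSucc 13, .negSucc 6, .ofNat 163, .negSucc 55⟩, ⟨.negSucc 162, .ofNat 42, .negSucc 75, .negSucc 15, .ofNat 25, .negSucc 5⟩, ⟨.ofNat 1512, .ofNat 26, .ofNat 22, .negSucc 22, .negSucc 471, .ofNat 167⟩, ⟨.negSucc 3813, .ofNat 12, .negSucc 37, .negSucc 3, .ofNat 485, .negSucc 171⟩, ⟨.negSucc 9, .negSucc 2, .ofNat 8, .negSucc 120, .ofNat 8, .ofNat 7⟩, .ofNat 725, .negSucc 199, .ofNat 0, .negSucc 199, .ofNat 1565,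 .ofNat 0, .ofNat 849, .ofNat 41, .negSucc 151, .ofNat 0, .ofNat 128, .negSucc 15, .ofNat 0, .ofNat 0, .ofNat 1073, .ofNat 3896, .ofNat 0, .ofNat 0, .ofNat 0, .ofNat 0, .ofNat 0, .ofNat 0, .ofNat 0, .ofNat 0, .ofNat 0, .ofNat 0, .ofNat 0, .ofNat 0, .ofNat 2060371328570064722441997801455668750922547200, .ofNat 0, .ofNat 0, .ofNat 0⟩)
    (by decide +kernel)
theorem L00023 : Good (Phi V5.P V5.D 1 1) ⟨3, 0, 4, 2, 3, 0, 2, 2, 3, 1⟩ :=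
  leafX_sound T5.ok_pp T5.Ypp.bz_eq (w := 219) (c := ⟨⟨.negSucc 1125, .negSucc 28, .ofNat 0, .negSucc 13, .ofNat 141, .negSucc 18⟩, ⟨.negSucc 141, .ofNat 36, .negSucc 67, .negSucc 16, .ofNat 20, .ofNat 0⟩, ⟨.ofNat 1130, .ofNat 48, .negSucc 13, .ofNat 6, .negSucc 285, .ofNat 13⟩, ⟨.negSucc 3387, .negSucc 14, .ofNat 4, .negSucc 29, .ofNat 416, .negSucc 57⟩, ⟨.negSucc 2, .ofNat 6, .negSucc 3, .negSucc 102, .negSucc 2, .ofNat 7⟩, .ofNat 725, .negSucc 199, .ofNat 0, .negSucc 199, .ofNat 1568, .ofNat 0, .ofNat 636, .ofNat 41, .negSucc 256, .ofNat 0, .ofNat 128, .negSucc 28, .ofNat 0, .ofNat 0, .ofNat 1499, .ofNat 12044, .ofNat 0, .ofNat 0, .ofNat 0, .ofNat 0, .ofNat 0, .ofNat 0, .ofNat 0, .ofNat 0, .ofNat 0, .ofNat 0, .ofNat 0, .ofNat 0, .ofNat 0, .ofNat 0, .ofNat 0, .ofNat 0⟩)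
    (by decide +kernel)
theorem L00024 : Good (Phi V5.P V5.D 1 1) ⟨3, 0, 4, 2, 3, 0, 2, 3, 3, 1⟩ :=
  leafX_sound T5.ok_pp T5.Ypp.bz_eq (w := 217) (c := ⟨⟨.negSucc 915, .ofNat 26, .negSucc 22, .negSucc 29, .ofNat 453, .negSucc 160⟩, ⟨.negSucc 124, .ofNat 35, .negSucc 54, .negSucc 9, .ofNat 64, .negSucc 14⟩, ⟨.ofNat 907, .negSucc 21, .ofNat 21, .ofNat 42, .negSucc 768, .negSucc 7⟩, ⟨.negSucc 2731, .ofNat 114, .negSucc 58, .negSucc 84, .ofNat 1347, .negSucc 496⟩, ⟨.negSucc 93, .ofNat 30, .negSucc 31, .negSucc 54, .ofNat 33, .ofNat 76⟩, .ofNat 724, .negSucc 195, .ofNat 0, .negSucc 195, .ofNat 1567, .ofNat 0, .ofNat 500, .ofNat 40, .negSucc 147, .ofNat 0, .ofNat 128, .negSucc 17, .ofNat 0, .ofNat 0, .ofNat 649, .ofNat 1580, .ofNat 0, .ofNat 0, .ofNat 0, .ofNat 0, .ofNat 0, .ofNat 0, .ofNat 0, .ofNat 0, .ofNat 0, .ofNat 0, .ofNat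 0, .ofNat 0, .ofNat 0, .ofNat 0, .ofNat 0, .ofNat 0⟩)
    (by decide +kernel)
theorem L00025 : Good (Phi V5.P V5.D 1 1) ⟨3, 0, 4, 2, 3, 0, 1, 0, 3, 2⟩ :=
  leafX_sound T5.ok_pp T5.Ypp.bz_eq (w := 215) (c := ⟨⟨.negSucc 1339, .negSucc 26, .ofNat 0, .negSucc 6, .ofNat 196, .ofNat 110⟩, ⟨.negSucc 171, .ofNat 37, .negSucc 69, .negSucc 13, .ofNat 28, .ofNat 17⟩, ⟨.ofNat 1798, .ofNat 32, .negSucc 1, .negSucc 20, .negSucc 626, .negSucc 64⟩, ⟨.negSucc 4028, .negSucc 3, .ofNat 3, .negSucc 8, .ofNat 589, .ofNat 326⟩, ⟨.negSucc 13, .ofNat 0, .ofNat 0, .negSucc 99, .ofNat 12, .ofNat 9⟩, .ofNat 406, .negSucc 43, .ofNat 0, .negSucc 43, .ofNat 588, .ofNat 0, .ofNat 272, .ofNat 20, .negSucc 94, .ofNat 0, .ofNat 128, .negSucc 3, .ofNat 0, .ofNat 0, .ofNat 866, .ofNat 12267, .ofNat 114917954089046630460863907446852394871160832, .ofNat 0, .ofNat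 0, .ofNat 0, .ofNat 2800470858653702555491720659585634775412506624, .ofNat 0, .ofNat 0, .ofNat 0, .ofNat 0, .ofNat 0, .ofNat 0, .ofNat 0, .ofNat 3246540886573817645729733146067719470236827648, .ofNat 0, .ofNat 0, .ofNat 0⟩)
    (by decide +kernel)
theorem L00026 : Good (Phi V5.P V5.D 1 1) ⟨3, 0, 4, 2, 3, 0, 1, 0, 3, 3⟩ :=
  out_sound (S := T5.ds_pp) T5.ok_pp (w := 23) (j := 1) (by decide +kernel)
theorem L00027 : Good (Phi V5.P V5.D 1 1) ⟨3, 0, 4, 2, 3, 0, 2, 2, 3, 2⟩ :=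
  leafX_sound T5.ok_pp T5.Ypp.bz_eq (w := 221) (c := ⟨⟨.negSucc 1123, .negSucc 25, .negSucc 0, .negSucc 11, .ofNat 100, .ofNat 83⟩, ⟨.negSucc 142, .ofNat 36, .negSucc 65, .negSucc 13, .ofNat 15, .ofNat 13⟩, ⟨.ofNat 1186, .ofNat 28, .negSucc 2, .negSucc 0, .negSucc 348, .negSucc 125⟩, ⟨.negSucc 3378, .negSucc 7, .negSucc 2, .negSucc 25, .ofNat 298, .ofNat 243⟩, ⟨.negSucc 9, .negSucc 2, .ofNat 1, .negSucc 80, .ofNat 4, .ofNat 11⟩, .ofNat 775, .negSucc 248, .ofNat 0, .negSucc 248, .ofNat 1792, .ofNat 0, .ofNat 427, .ofNat 44, .negSucc 72, .ofNat 0, .ofNat 128, .negSucc 8, .ofNat 0, .ofNat 0, .ofNat 800, .ofNat 25551, .ofNat 0, .ofNat 0, .ofNat 0, .ofNat 0, .ofNat 0, .ofNat 0, .ofNat 0, .ofNat 0, .ofNat 0, .ofNat 0, .ofNat 0, .ofNat 0, .ofNat 0, .ofNat 0, .ofNat 0, .ofNat 0⟩)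
    (by decide +kernel)
theorem L00028 : Good (Phi V5.P V5.D 1 1) ⟨3, 0, 4, 2, 3, 0, 2, 3, 3, 2⟩ :=
  leafX_sound T5.ok_pp T5.Ypp.bz_eq (w := 218) (c := ⟨⟨.negSucc 966, .negSucc 39, .negSucc 0, .negSucc 24, .ofNat 200, .ofNat 7⟩, ⟨.negSucc 125, .ofNat 28, .negSucc 57, .negSucc 9, .ofNat 35, .ofNat 5⟩, ⟨.ofNat 821, .ofNat 51, .negSucc 6, .ofNat 14, .negSucc 569, .negSucc 130⟩, ⟨.negSucc 2903, .negSucc 58, .negSucc 2, .negSucc 65, .ofNat 589, .ofNat 14⟩, ⟨.negSucc 32, .ofNat 4, .negSucc 2, .negSucc 56, .ofNat 36, .ofNat 39⟩, .ofNat 792, .negSucc 254, .ofNat 0, .negSucc 254, .ofNat 1867, .ofNat 0, .ofNat 466, .ofNat 42, .negSucc 76, .ofNat 0, .ofNat 128, .negSucc 10, .ofNat 0, .ofNat 0, .ofNat 570, .ofNat 3001, .ofNat 0, .ofNat 0, .ofNat 0, .ofNat 0, .ofNat 0, .ofNat 0, .ofNat 0, .ofNat 0, .ofNat 0, .ofNat 0, .ofNat 0, .ofNat 0,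 .ofNat 0, .ofNat 0, .ofNat 0, .ofNat 0⟩)
    (by decide +kernel)
theorem L00029 : Good (Phi V5.P V5.D 1 1) ⟨3, 0, 4, 2, 3, 0, 1, 1, 3, 3⟩ :=
  leafX_sound T5.ok_pp T5.Ypp.bz_eq (w := 214) (c := ⟨⟨.negSucc 1024, .negSucc 26, .ofNat 0, .negSucc 13, .ofNat 172, .negSucc 15⟩, ⟨.negSucc 131, .ofNat 33, .negSucc 60, .negSucc 9, .ofNat 30, .ofNat 4⟩, ⟨.ofNat 1115, .ofNat 17, .ofNat 1, .ofNat 7, .negSucc 901, .negSucc 67⟩, ⟨.negSucc 3078, .negSucc 17, .ofNat 2, .negSucc 32, .ofNat 499, .negSucc 51⟩, ⟨.negSucc 32, .ofNat 11, .negSucc 14, .negSucc 53, .ofNat 73, .ofNat 32⟩, .ofNat 792, .negSucc 254, .ofNat 0, .negSucc 254, .ofNat 1867, .ofNat 0, .ofNat 523, .ofNat 42, .negSucc 50, .ofNat 0, .ofNat 128, .negSucc 7, .ofNat 0, .ofNat 0, .ofNat 757, .ofNat 4489, .ofNat 0, .ofNat 0, .ofNat 0, .ofNat 0, .ofNat 0, .ofNat 0, .ofNat 0, .ofNat 0,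 .ofNat 0, .ofNat 0, .ofNat 0, .ofNat 0, .ofNat 685483017595579997340749400435153665345454080, .ofNat 0, .ofNat 0, .ofNat 0⟩)
    (by decide +kernel)
theorem L00030 : Good (Phi V5.P V5.D 1 1) ⟨3, 0, 4, 3, 3, 0, 1, 0, 3, 0⟩ :=
  leafX_sound T5.ok_pp T5.Ypp.bz_eq (w := 212) (c := ⟨⟨.ofNat 570, .negSucc 23, .ofNat 19, .negSucc 48, .negSucc 77, .negSucc 1846⟩, ⟨.ofNat 130, .ofNat 1, .negSucc 17, .negSucc 42, .ofNat 0, .negSucc 380⟩, ⟨.negSucc 574, .ofNat 20, .negSucc 18, .ofNat 75, .negSucc 87, .ofNat 1995⟩, ⟨.ofNat 1691, .negSucc 64, .ofNat 58, .negSucc 88, .negSucc 256, .negSucc 5481⟩, ⟨.negSucc 49, .ofNat 38, .ofNat 20, .negSucc 233, .ofNat 119, .ofNat 6⟩, .ofNat 840, .negSucc 402, .ofNat 0, .negSucc 402, .ofNat 2035, .ofNat 0, .ofNat 318, .ofNat 62, .negSucc 178, .ofNat 0, .ofNat 128, .negSucc 32, .ofNat 0, .ofNat 0, .ofNat 602,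 .ofNat 1974, .ofNat 0, .ofNat 0, .ofNat 0, .ofNat 0, .ofNat 0, .ofNat 0, .ofNat 0, .ofNat 0, .ofNat 0, .ofNat 0, .ofNat 0, .ofNat 0, .ofNat 0, .ofNat 0, .ofNat 0, .ofNat 0⟩)
    (by decide +kernel)
theorem L00031 : Good (Phi V5.P V5.D 1 1) ⟨3, 0, 4, 3, 3, 0, 1, 0, 3, 1⟩ :=
  leafX_sound T5.ok_pp T5.Ypp.bz_eq (w := 213) (c := ⟨⟨.negSucc 1292, .negSucc 19, .ofNat 2, .negSucc 0, .ofNat 183, .negSucc 57⟩, ⟨.negSucc 247, .ofNat 42, .negSucc 74, .negSucc 13, .ofNat 39, .negSucc 8⟩, ⟨.ofNat 1537, .ofNat 24, .negSucc 6, .negSucc 29, .negSucc 490, .ofNat 173⟩, ⟨.negSucc 3887, .ofNat 20, .ofNat 10, .ofNat 16, .ofNat 541, .negSucc 175⟩, ⟨.negSucc 18, .ofNat 1, .negSucc 7, .negSucc 115, .ofNat 12, .ofNat 20⟩, .ofNat 810, .negSucc 364, .ofNat 0, .negSucc 364, .ofNat 1899, .ofNat 0, .ofNat 498, .ofNat 62, .negSucc 117, .ofNat 0, .ofNat 128,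 .negSucc 19, .ofNat 0, .ofNat 0, .ofNat 799, .ofNat 3890, .ofNat 0, .ofNat 0, .ofNat 0, .ofNat 0, .ofNat 0, .ofNat 0, .ofNat 0, .ofNat 0, .ofNat 0, .ofNat 0, .ofNat 0, .ofNat 0, .ofNat 1225193580521567049630971926325477727289737216, .ofNat 0, .ofNat 0, .ofNat 0⟩)
    (by decide +kernel)
theorem L00032 : Good (Phi V5.P V5.D 1 1) ⟨3, 0, 4, 3, 3, 0, 2, 2, 2, 0⟩ :=
  leafX_sound T5.ok_pp T5.Ypp.bz_eq (w := 210) (c := ⟨⟨.negSucc 717, .negSucc 31, .ofNat 5, .negSucc 10, .ofNat 129, .negSucc 447⟩, ⟨.negSucc 128, .ofNat 37, .negSucc 62, .negSucc 17, .ofNat 25, .negSucc 91⟩, ⟨.ofNat 651, .ofNat 65, .negSucc 15, .ofNat 2, .negSucc 247, .ofNat 496⟩, ⟨.negSucc 2155, .negSucc 39, .ofNat 20, .negSucc 11, .ofNat 383, .negSucc 1343⟩, ⟨.ofNat 15, .ofNat 47, .negSucc 1, .negSucc 119, .negSucc 11, .negSucc 21⟩, .ofNat 793, .negSucc 344, .ofNat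 0, .negSucc 344, .ofNat 1788, .ofNat 0, .ofNat 494, .ofNat 62, .negSucc 149, .ofNat 0, .ofNat 128, .negSucc 27, .ofNat 0, .ofNat 0, .ofNat 721, .ofNat 692, .ofNat 0, .ofNat 0, .ofNat 0, .ofNat 0, .ofNat 0, .ofNat 0, .ofNat 0, .ofNat 0, .ofNat 0, .ofNat 0, .ofNat 0, .ofNat 0, .ofNat 0, .ofNat 0, .ofNat 0, .ofNat 0⟩)
    (by decide +kernel)
theorem L00033 : Good (Phi V5.P V5.D 1 1) ⟨3, 0, 4, 3, 3, 0, 3, 6, 2, 0⟩ :=
  leafX_sound T5.ok_pp T5.Ypp.bz_eq (w := 215) (c := ⟨⟨.negSucc 747, .negSucc 31, .negSucc 4, .negSucc 24, .ofNat 114, .negSucc 261⟩, ⟨.negSucc 140, .ofNat 28, .negSucc 59, .negSucc 14, .ofNat 24, .negSucc 48⟩, ⟨.ofNat 723, .ofNat 45, .ofNat 7, .ofNat 13, .negSucc 205, .ofNat 101⟩, ⟨.negSucc 2238, .negSucc 36, .negSucc 5, .negSucc 53, .ofNat 334, .negSucc 806⟩, ⟨.negSucc 36, .negSucc 7, .negSucc 19, .negSucc 86, .ofNat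 16, .ofNat 47⟩, .ofNat 756, .negSucc 302, .ofNat 0, .negSucc 302, .ofNat 1638, .ofNat 0, .ofNat 456, .ofNat 60, .negSucc 181, .ofNat 0, .ofNat 128, .negSucc 33, .ofNat 0, .ofNat 0, .ofNat 750, .ofNat 1422, .ofNat 0, .ofNat 0, .ofNat 0, .ofNat 0, .ofNat 0, .ofNat 0, .ofNat 0, .ofNat 0, .ofNat 0, .ofNat 0, .ofNat 0, .ofNat 0, .ofNat 0, .ofNat 0, .ofNat 0, .ofNat 0⟩)
    (by decide +kernel)
theorem L00034 : Good (Phi V5.P V5.D 1 1) ⟨3, 0, 4, 3, 3, 0, 3, 7, 2, 0⟩ :=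
  leafX_sound T5.ok_pp T5.Ypp.bz_eq (w := 216) (c := ⟨⟨.negSucc 580, .negSucc 17, .negSucc 13, .negSucc 4, .ofNat 391, .negSucc 379⟩, ⟨.negSucc 114, .ofNat 23, .negSucc 43, .negSucc 15, .ofNat 81, .negSucc 67⟩, ⟨.ofNat 572, .ofNat 14, .ofNat 7, .ofNat 14, .negSucc 511, .ofNat 41⟩, ⟨.negSucc 1740, .negSucc 18, .negSucc 33, .ofNat 6, .ofNat 1161, .negSucc 1143⟩, ⟨.negSucc 54, .ofNat 24, .negSucc 16, .negSucc 104, .ofNat 25, .ofNat 68⟩, .ofNat 756, .negSucc 299, .ofNat 0, .negSucc 299, .ofNat 1632, .ofNat 0, .ofNat 383, .ofNat 59, .negSucc 273, .ofNat 0, .ofNat 128, .negSucc 50, .ofNat 0, .ofNat 0, .ofNat 875, .ofNat 1955, .ofNat 0, .ofNat 0, .ofNat 0, .ofNat 0, .ofNat 0, .ofNat 0, .ofNat 0, .ofNat 0, .ofNat 0, .ofNat 0, .ofNat 0, .ofNat 0, .ofNat 0, .ofNat 0, .ofNat 0, .ofNat 0⟩)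
    (by decide +kernel)
theorem L00035 : Good (Phi V5.P V5.D 1 1) ⟨3, 0, 4, 3, 3, 0, 1, 0, 3, 2⟩ :=
  leafX_sound T5.ok_pp T5.Ypp.bz_eq (w := 215) (c := ⟨⟨.negSucc 1339, .negSucc 27, .negSucc 1, .negSucc 8, .ofNat 197, .ofNat 112⟩, ⟨.negSucc 258, .ofNat 38, .negSucc 69, .negSucc 13, .ofNat 43, .ofNat 24⟩, ⟨.ofNat 1808, .ofNat 32, .negSucc 3, .negSucc 20, .negSucc 638, .negSucc 67⟩, ⟨.negSucc 4028, .negSucc 6, .negSucc 1, .negSucc 8, .ofNat 591, .ofNat 328⟩, ⟨.negSucc 10, .ofNat 1, .ofNat 1, .negSucc 98, .ofNat 8, .ofNat 7⟩, .ofNat 409, .negSucc 62, .ofNat 0, .negSucc 62, .ofNat 594, .ofNat 0, .ofNat 223, .ofNat 29, .negSucc 69, .ofNat 0, .ofNat 128, .negSucc 5, .ofNat 0, .ofNat 0, .ofNat 662, .ofNat 10458, .ofNat 98896435142485252606573797420906029758021632, .ofNat 0, .ofNat 0, .ofNat 0, .ofNat 1883147413185854596705318908493263798691430400,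 .ofNat 0, .ofNat 0, .ofNat 0, .ofNat 0, .ofNat 0, .ofNat 0, .ofNat 0, .ofNat 2095899093434726059087927569795169897798434816, .ofNat 0, .ofNat 0, .ofNat 0⟩)
    (by decide +kernel)
theorem L00036 : Good (Phi V5.P V5.D 1 1) ⟨3, 0, 4, 3, 3, 0, 1, 0, 3, 3⟩ :=
  out_sound (S := T5.ds_pp) T5.ok_pp (w := 23) (j := 1) (by decide +kernel)
theorem L00037 : Good (Phi V5.P V5.D 1 1) ⟨3, 0, 4, 3, 3, 0, 2, 2, 3, 2⟩ :=
  leafX_sound T5.ok_pp T5.Ypp.bz_eq (w := 220) (c := ⟨⟨.negSucc 1124, .negSucc 25, .negSucc 1, .negSucc 8, .ofNat 104, .ofNat 82⟩, ⟨.negSucc 213, .ofNat 34, .negSucc 63, .negSucc 12, .ofNat 21, .ofNat 18⟩, ⟨.ofNat 1188, .ofNat 36, .negSucc 3, .negSucc 3, .negSucc 355, .negSucc 135⟩, ⟨.negSucc 3383, .negSucc 10, .negSucc 2, .negSucc 7, .ofNat 306, .ofNat 241⟩, ⟨.negSucc 5, .negSucc 2, .ofNat 1, .negSucc 89, .ofNat 6, .ofNat 9⟩,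 .ofNat 697, .negSucc 242, .ofNat 0, .negSucc 242, .ofNat 1410, .ofNat 0, .ofNat 349, .ofNat 56, .negSucc 60, .ofNat 0, .ofNat 128, .negSucc 10, .ofNat 0, .ofNat 0, .ofNat 661, .ofNat 23853, .ofNat 0, .ofNat 0, .ofNat 0, .ofNat 0, .ofNat 0, .ofNat 0, .ofNat 0, .ofNat 0, .ofNat 0, .ofNat 0, .ofNat 0, .ofNat 0, .ofNat 1577526157223050742903664602690326507605196800, .ofNat 0, .ofNat 0, .ofNat 0⟩)
    (by decide +kernel)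
theorem L00038 : Good (Phi V5.P V5.D 1 1) ⟨3, 0, 4, 3, 3, 0, 2, 3, 3, 2⟩ :=
  leafX_sound T5.ok_pp T5.Ypp.bz_eq (w := 218) (c := ⟨⟨.negSucc 969, .negSucc 20, .ofNat 11, .negSucc 30, .ofNat 216, .negSucc 15⟩, ⟨.negSucc 187, .ofNat 30, .negSucc 53, .negSucc 10, .ofNat 51, .ofNat 1⟩, ⟨.ofNat 837, .ofNat 23, .negSucc 17, .ofNat 7, .negSucc 591, .negSucc 118⟩, ⟨.negSucc 2907, .negSucc 4, .ofNat 40, .negSucc 82, .ofNat 630, .negSucc 55⟩, ⟨.negSucc 37, .ofNat 15, .negSucc 20, .negSucc 32, .ofNat 53, .ofNat 32⟩, .ofNat 791, .negSucc 346, .ofNat 0, .negSucc 346, .ofNat 1821, .ofNat 0, .ofNat 442, .ofNat 62, .negSucc 80, .ofNat 0, .ofNat 128, .negSucc 16, .ofNat 0, .ofNat 0, .ofNat 578, .ofNat 3400, .ofNat 0, .ofNat 0, .ofNat 0, .ofNat 0, .ofNat 0, .ofNat 1567751717332409016409586596243029254356336640, .ofNat 0, .ofNat 0, .ofNat 0, .ofNat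 243102416274655537758186653675371234160803840, .ofNat 0, .ofNat 0, .ofNat 0, .ofNat 0, .ofNat 0, .ofNat 0⟩)
    (by decide +kernel)
theorem L00039 : Good (Phi V5.P V5.D 1 1) ⟨3, 0, 4, 3, 3, 0, 1, 1, 3, 3⟩ :=
  leafX_sound T5.ok_pp T5.Ypp.bz_eq (w := 213) (c := ⟨⟨.negSucc 1022, .negSucc 27, .ofNat 1, .negSucc 12, .ofNat 175, .negSucc 31⟩, ⟨.negSucc 197, .ofNat 29, .negSucc 59, .negSucc 7, .ofNat 47, .negSucc 3⟩, ⟨.ofNat 1123, .ofNat 29, .negSucc 1, .negSucc 30, .negSucc 913, .negSucc 47⟩, ⟨.negSucc 3068, .negSucc 25, .ofNat 6, .negSucc 26, .ofNat 503, .negSucc 90⟩, ⟨.negSucc 40, .ofNat 11, .negSucc 16, .negSucc 34, .ofNat 86, .ofNat 20⟩, .ofNat 842, .negSucc 402, .ofNat 0, .negSucc 402, .ofNat 2019, .ofNat 0, .ofNat 341, .ofNat 62, .negSucc 31, .ofNat 0, .ofNat 128, .negSucc 6, .ofNat 0, .ofNat 0, .ofNat 480, .ofNat 2095, .ofNat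 0, .ofNat 0, .ofNat 0, .ofNat 0, .ofNat 0, .ofNat 0, .ofNat 0, .ofNat 0, .ofNat 0, .ofNat 0, .ofNat 0, .ofNat 0, .ofNat 252525035503556848202153010096079032029282304, .ofNat 0, .ofNat 0, .ofNat 0⟩)
    (by decide +kernel)
theorem L00040 : Good (Phi V5.P V5.D 1 1) ⟨3, 0, 3, 1, 4, 2, 1, 0, 3, 0⟩ :=
  leafX_sound T5.ok_pp T5.Ypp.bz_eq (w := 223) (c := ⟨⟨.ofNat 483, .ofNat 19, .negSucc 14, .ofNat 51, .ofNat 69, .negSucc 1836⟩, ⟨.ofNat 44, .ofNat 11, .ofNat 3, .negSucc 2, .ofNat 56, .negSucc 315⟩, ⟨.negSucc 438, .negSucc 23, .ofNat 25, .negSucc 47, .negSucc 267, .ofNat 1899⟩, ⟨.ofNat 1481, .ofNat 46, .negSucc 6, .ofNat 158, .ofNat 137, .negSucc 5468⟩, ⟨.negSucc 265, .negSucc 14, .negSucc 20, .negSucc 45, .ofNat 219, .ofNat 4⟩, .ofNat 607, .negSucc 146, .ofNat 0, .negSucc 146, .ofNat 1107, .ofNat 0, .ofNat 341, .ofNat 42, .negSucc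 163, .ofNat 0, .ofNat 128, .negSucc 16, .ofNat 0, .ofNat 0, .ofNat 573, .ofNat 1690, .ofNat 0, .ofNat 0, .ofNat 0, .ofNat 0, .ofNat 0, .ofNat 0, .ofNat 0, .ofNat 0, .ofNat 0, .ofNat 0, .ofNat 0, .ofNat 0, .ofNat 0, .ofNat 0, .ofNat 0, .ofNat 0⟩)
    (by decide +kernel)
theorem L00041 : Good (Phi V5.P V5.D 1 1) ⟨3, 0, 3, 1, 4, 2, 1, 0, 3, 1⟩ :=
  leafX_sound T5.ok_pp T5.Ypp.bz_eq (w := 224) (c := ⟨⟨.negSucc 1280, .negSucc 20, .negSucc 1, .negSucc 3, .ofNat 179, .negSucc 64⟩, ⟨.negSucc 186, .ofNat 44, .negSucc 146, .negSucc 8, .ofNat 35, .negSucc 7⟩, ⟨.ofNat 1449, .ofNat 35, .negSucc 0, .negSucc 40, .negSucc 438, .ofNat 177⟩, ⟨.negSucc 3824, .ofNat 7, .ofNat 7, .ofNat 2, .ofNat 521, .negSucc 200⟩, ⟨.negSucc 152, .ofNat 4, .ofNat 5, .negSucc 58, .ofNat 37, .ofNat 9⟩, .ofNat 605, .negSucc 139, .ofNat 0, .negSucc 139, .ofNat 1103,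 .ofNat 0, .ofNat 852, .ofNat 40, .negSucc 166, .ofNat 0, .ofNat 128, .negSucc 8, .ofNat 0, .ofNat 0, .ofNat 1131, .ofNat 3983, .ofNat 0, .ofNat 0, .ofNat 0, .ofNat 0, .ofNat 0, .ofNat 0, .ofNat 0, .ofNat 0, .ofNat 0, .ofNat 0, .ofNat 0, .ofNat 0, .ofNat 1178910450355926137508465784067023736030827118592, .ofNat 0, .ofNat 0, .ofNat 0⟩)
    (by decide +kernel)
theorem L00042 : Good (Phi V5.P V5.D 1 1) ⟨3, 0, 3, 1, 4, 2, 2, 2, 2, 0⟩ :=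
  leafX_sound T5.ok_pp T5.Ypp.bz_eq (w := 221) (c := ⟨⟨.negSucc 602, .negSucc 45, .ofNat 0, .negSucc 1, .ofNat 118, .negSucc 566⟩, ⟨.negSucc 68, .ofNat 30, .negSucc 130, .negSucc 5, .ofNat 17, .negSucc 92⟩, ⟨.ofNat 505, .ofNat 97, .negSucc 24, .negSucc 27, .negSucc 228, .ofNat 637⟩, ⟨.negSucc 1820, .negSucc 57, .ofNat 23, .ofNat 9, .ofNat 352, .negSucc 1703⟩, ⟨.negSucc 90, .negSucc 62, .negSucc 25, .negSucc 85, .negSucc 44, .ofNat 87⟩, .ofNat 785, .negSucc 287, .ofNat 0, .negSucc 287, .ofNat 1832, .ofNat 0, .ofNat 432, .ofNat 51, .negSucc 121, .ofNat 0, .ofNat 128, .negSucc 13, .ofNat 0, .ofNat 0, .ofNat 585, .ofNat 584, .ofNat 0, .ofNat 0, .ofNat 0, .ofNat 0, .ofNat 0, .ofNat 0, .ofNat 0, .ofNat 0, .ofNat 0, .ofNat 0, .ofNat 0, .ofNat 0, .ofNat 0, .ofNat 0, .ofNat 0, .ofNat 0⟩)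
    (by decide +kernel)
theorem L00043 : Good (Phi V5.P V5.D 1 1) ⟨3, 0, 3, 1, 4, 2, 2, 3, 2, 0⟩ :=
  leafX_sound T5.ok_pp T5.Ypp.bz_eq (w := 222) (c := ⟨⟨.negSucc 753, .negSucc 1, .ofNat 11, .negSucc 14, .ofNat 366, .negSucc 331⟩, ⟨.negSucc 107, .ofNat 31, .negSucc 104, .negSucc 9, .ofNat 63, .negSucc 48⟩, ⟨.ofNat 798, .ofNat 3, .negSucc 14, .negSucc 0, .negSucc 551, .ofNat 83⟩, ⟨.negSucc 2230, .ofNat 47, .ofNat 54, .negSucc 36, .ofNat 1092, .negSucc 1033⟩, ⟨.negSucc 169, .negSucc 1, .negSucc 34, .negSucc 43, .ofNat 6, .ofNat 101⟩, .ofNat 606, .negSucc 141, .ofNat 0, .negSucc 141, .ofNat 1107, .ofNat 0, .ofNat 481, .ofNat 41, .negSucc 240, .ofNat 0, .ofNat 128, .negSucc 27, .ofNat 0, .ofNat 0, .ofNat 911, .ofNat 1189, .ofNat 0, .ofNat 0, .ofNat 0, .ofNat 0, .ofNat 0, .ofNat 0, .ofNat 0, .ofNat 0, .ofNat 0, .ofNat 0, .ofNat 0,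 .ofNat 0, .ofNat 0, .ofNat 0, .ofNat 0, .ofNat 0⟩)
    (by decide +kernel)
theorem L00044 : Good (Phi V5.P V5.D 1 1) ⟨3, 0, 3, 1, 4, 2, 2, 0, 3, 2⟩ :=
  leafX_sound T5.ok_pp T5.Ypp.bz_eq (w := 237) (c := ⟨⟨.negSucc 1327, .negSucc 20, .negSucc 6, .negSucc 3, .ofNat 80, .ofNat 1⟩, ⟨.negSucc 191, .ofNat 46, .negSucc 155, .negSucc 8, .ofNat 18, .ofNat 0⟩, ⟨.ofNat 1706, .ofNat 29, .ofNat 10, .negSucc 46, .negSucc 270, .negSucc 0⟩, ⟨.negSucc 3978, .ofNat 11, .negSucc 2, .negSucc 3, .ofNat 235, .ofNat 2⟩, ⟨.negSucc 132, .ofNat 6, .ofNat 1, .negSucc 60, .ofNat 15, .ofNat 0⟩, .ofNat 192, .negSucc 9, .ofNat 0, .negSucc 9, .ofNat 225, .ofNat 0, .ofNat 319, .ofNat 10, .negSucc 117, .ofNat 0, .ofNat 128, .ofNat 16, .ofNat 0, .ofNat 0, .ofNat 533, .ofNat 1665242, .ofNat 169104835474834231446484932777584526807989051457536, .ofNat 0, .ofNat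 0, .ofNat 0, .ofNat 314745966241342056451564197331005860911952861069312, .ofNat 0, .ofNat 0, .ofNat 0, .ofNat 16147090116615574976656896232029952634046803607552, .ofNat 0, .ofNat 0, .ofNat 0, .ofNat 88651924245490954623084346445619322517584519102464, .ofNat 0, .ofNat 0, .ofNat 0⟩)
    (by decide +kernel)
theorem L00045 : Good (Phi V5.P V5.D 1 1) ⟨3, 0, 3, 1, 4, 2, 2, 1, 3, 2⟩ :=
  leafX_sound T5.ok_pp T5.Ypp.bz_eq (w := 231) (c := ⟨⟨.negSucc 1243, .negSucc 24, .negSucc 4, .negSucc 8, .ofNat 90, .ofNat 113⟩, ⟨.negSucc 176, .ofNat 39, .negSucc 139, .negSucc 8, .ofNat 16, .ofNat 24⟩, ⟨.ofNat 1438, .ofNat 37, .negSucc 6, .negSucc 13, .negSucc 288, .negSucc 61⟩, ⟨.negSucc 3731, .negSucc 4, .ofNat 2, .negSucc 13, .ofNat 271, .ofNat 336⟩, ⟨.negSucc 119, .ofNat 0, .ofNat 1, .negSucc 50, .ofNat 14, .ofNat 19⟩, .ofNat 408, .negSucc 53,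 .ofNat 0, .negSucc 53, .ofNat 590, .ofNat 0, .ofNat 150, .ofNat 25, .negSucc 75, .ofNat 0, .ofNat 128, .ofNat 0, .ofNat 0, .ofNat 0, .ofNat 742, .ofNat 14173, .ofNat 501725427182720996317311576611440600180880048128, .ofNat 0, .ofNat 0, .ofNat 0, .ofNat 1923010508198620845277276291072256464003461545984, .ofNat 0, .ofNat 0, .ofNat 0, .ofNat 0, .ofNat 0, .ofNat 0, .ofNat 0, .ofNat 0, .ofNat 0, .ofNat 0, .ofNat 0⟩)
    (by decide +kernel)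
theorem L00046 : Good (Phi V5.P V5.D 1 1) ⟨3, 0, 3, 1, 4, 2, 1, 0, 3, 3⟩ :=
  out_sound (S := T5.ds_pp) T5.ok_pp (w := 25) (j := 1) (by decide +kernel)
theorem L00047 : Good (Phi V5.P V5.D 1 1) ⟨3, 0, 3, 1, 4, 2, 1, 1, 3, 2⟩ :=
  leafX_sound T5.ok_pp T5.Ypp.bz_eq (w := 224) (c := ⟨⟨.negSucc 1110, .negSucc 32, .negSucc 0, .negSucc 11, .ofNat 247, .ofNat 46⟩, ⟨.negSucc 156, .ofNat 30, .negSucc 123, .negSucc 6, .ofNat 52, .ofNat 11⟩, ⟨.ofNat 1173, .ofNat 60, .negSucc 25, .ofNat 25, .negSucc 838, .negSucc 116⟩, ⟨.negSucc 3327, .negSucc 30, .ofNat 16, .negSucc 27, .ofNat 716, .ofNat 127⟩, ⟨.negSucc 109, .negSucc 10, .negSucc 27, .negSucc 41, .ofNat 91, .ofNat 42⟩, .ofNat 739, .negSucc 246, .ofNat 0, .negSucc 246, .ofNat 1590, .ofNat 0, .ofNat 445, .ofNat 50, .negSucc 52, .ofNat 0, .ofNat 128, .negSucc 7, .ofNat 0, .ofNat 0, .ofNat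 511, .ofNat 2346, .ofNat 0, .ofNat 0, .ofNat 0, .ofNat 0, .ofNat 0, .ofNat 0, .ofNat 0, .ofNat 0, .ofNat 0, .ofNat 21242657458725342617028524376794206876259581952, .ofNat 0, .ofNat 0, .ofNat 0, .ofNat 0, .ofNat 0, .ofNat 0⟩)
    (by decide +kernel)
theorem L00048 : Good (Phi V5.P V5.D 1 1) ⟨3, 0, 3, 1, 4, 2, 1, 1, 3, 3⟩ :=
  leafX_sound T5.ok_pp T5.Ypp.bz_eq (w := 223) (c := ⟨⟨.negSucc 1025, .negSucc 31, .ofNat 4, .negSucc 20, .ofNat 132, .ofNat 9⟩, ⟨.negSucc 143, .ofNat 34, .negSucc 122, .negSucc 10, .ofNat 43, .ofNat 10⟩, ⟨.ofNat 1086, .ofNat 28, .negSucc 41, .ofNat 31, .negSucc 832, .negSucc 111⟩, ⟨.negSucc 3061, .negSucc 36, .ofNat 14, .negSucc 58, .ofNat 360, .ofNat 17⟩, ⟨.negSucc 115, .negSucc 3, .negSucc 8, .negSucc 32, .ofNat 175, .ofNat 63⟩, .ofNat 607, .negSucc 142, .ofNat 0, .negSucc 142, .ofNat 1101, .ofNat 0, .ofNat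 464, .ofNat 40, .negSucc 32, .ofNat 0, .ofNat 128, .negSucc 6, .ofNat 0, .ofNat 0, .ofNat 490, .ofNat 970, .ofNat 3246687626490720447176129256706919265707491328, .ofNat 0, .ofNat 0, .ofNat 0, .ofNat 0, .ofNat 0, .ofNat 0, .ofNat 0, .ofNat 0, .ofNat 0, .ofNat 0, .ofNat 0, .ofNat 82595050680875770781094070319796292383311659008, .ofNat 0, .ofNat 0, .ofNat 0⟩)
    (by decide +kernel)
theorem L00049 : Good (Phi V5.P V5.D 1 1) ⟨3, 0, 3, 1, 4, 3, 1, 0, 3, 0⟩ :=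
  leafX_sound T5.ok_pp T5.Ypp.bz_eq (w := 223) (c := ⟨⟨.ofNat 579, .negSucc 28, .negSucc 58, .negSucc 21, .negSucc 20, .negSucc 1745⟩, ⟨.ofNat 46, .negSucc 11, .negSucc 22, .negSucc 7, .ofNat 45, .negSucc 301⟩, ⟨.negSucc 510, .ofNat 22, .ofNat 68, .negSucc 1, .negSucc 144, .ofNat 1733⟩, ⟨.ofNat 1741, .negSucc 62, .negSucc 121, .negSucc 31, .negSucc 135, .negSucc 5179⟩, ⟨.negSucc 317, .negSucc 14, .negSucc 5, .negSucc 114, .ofNat 243, .negSucc 45⟩, .ofNat 608, .negSucc 147, .ofNat 0, .negSucc 147, .ofNat 1106, .ofNat 0, .ofNat 400, .ofNat 43, .negSucc 175, .ofNat 0, .ofNat 128, .negSucc 15, .ofNat 0, .ofNat 0, .ofNat 601, .ofNat 1855, .ofNat 0, .ofNat 0, .ofNat 0, .ofNat 0, .ofNat 0, .ofNat 0, .ofNat 0, .ofNat 0, .ofNat 0, .ofNat 0, .ofNat 0, .ofNat 0, .ofNat 71736744366762366824531886855076210106936852480, .ofNat 0, .ofNat 0,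 .ofNat 0⟩)
    (by decide +kernel)
theorem L00050 : Good (Phi V5.P V5.D 1 1) ⟨3, 0, 3, 1, 4, 3, 2, 2, 3, 0⟩ :=
  leafX_sound T5.ok_pp T5.Ypp.bz_eq (w := 226) (c := ⟨⟨.negSucc 53, .ofNat 77, .negSucc 36, .ofNat 60, .negSucc 79, .negSucc 1018⟩, ⟨.ofNat 11, .ofNat 23, .negSucc 98, .negSucc 4, .negSucc 15, .negSucc 162⟩, ⟨.negSucc 53, .negSucc 54, .ofNat 48, .negSucc 77, .ofNat 93, .ofNat 987⟩, ⟨.negSucc 183, .ofNat 251, .negSucc 66, .ofNat 181, .negSucc 248, .negSucc 2983⟩, ⟨.negSucc 155, .ofNat 152, .negSucc 50, .negSucc 35, .ofNat 39, .negSucc 148⟩, .ofNat 738, .negSucc 245, .ofNat 0, .negSucc 245, .ofNat 1598, .ofNat 0, .ofNat 366, .ofNat 52, .negSucc 162, .ofNat 0, .ofNat 128, .negSucc 18, .ofNat 0, .ofNat 0, .ofNat 513, .ofNat 1038, .ofNat 0, .ofNat 0, .ofNat 0, .ofNat 0, .ofNat 0, .ofNat 0, .ofNat 0, .ofNat 0, .ofNat 0, .ofNat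 0, .ofNat 0, .ofNat 0, .ofNat 0, .ofNat 0, .ofNat 0, .ofNat 0⟩)
    (by decide +kernel)
theorem L00051 : Good (Phi V5.P V5.D 1 1) ⟨3, 0, 3, 1, 4, 3, 2, 3, 3, 0⟩ :=
  leafX_sound T5.ok_pp T5.Ypp.bz_eq (w := 227) (c := ⟨⟨.negSucc 622, .negSucc 36, .ofNat 23, .negSucc 21, .ofNat 455, .negSucc 375⟩, ⟨.negSucc 103, .ofNat 19, .negSucc 64, .negSucc 16, .ofNat 65, .negSucc 57⟩, ⟨.ofNat 592, .ofNat 87, .negSucc 28, .ofNat 33, .negSucc 499, .ofNat 208⟩, ⟨.negSucc 1860, .negSucc 92, .ofNat 108, .negSucc 46, .ofNat 1359, .negSucc 1105⟩, ⟨.negSucc 142, .ofNat 45, .negSucc 44, .negSucc 99, .negSucc 74, .negSucc 10⟩, .ofNat 737, .negSucc 243, .ofNat 0, .negSucc 243, .ofNat 1596, .ofNat 0, .ofNat 404, .ofNat 52, .negSucc 314, .ofNat 0, .ofNat 128, .negSucc 39, .ofNat 0, .ofNat 0, .ofNat 869, .ofNat 1445, .ofNat 0, .ofNat 0, .ofNat 0, .ofNat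 0, .ofNat 0, .ofNat 0, .ofNat 0, .ofNat 0, .ofNat 0, .ofNat 0, .ofNat 0, .ofNat 0, .ofNat 0, .ofNat 0, .ofNat 0, .ofNat 0⟩)
    (by decide +kernel)
theorem L00052 : Good (Phi V5.P V5.D 1 1) ⟨3, 0, 3, 1, 4, 3, 1, 0, 3, 1⟩ :=
  leafX_sound T5.ok_pp T5.Ypp.bz_eq (w := 224) (c := ⟨⟨.negSucc 1266, .negSucc 11, .negSucc 7, .negSucc 11, .ofNat 176, .negSucc 83⟩, ⟨.negSucc 197, .ofNat 46, .negSucc 147, .negSucc 8, .ofNat 39, .negSucc 8⟩, ⟨.ofNat 1364, .ofNat 30, .ofNat 10, .negSucc 46, .negSucc 409, .ofNat 207⟩, ⟨.negSucc 3769, .ofNat 44, .negSucc 2, .negSucc 20, .ofNat 500, .negSucc 260⟩, ⟨.negSucc 283, .ofNat 0, .ofNat 4, .negSucc 69, .ofNat 111, .ofNat 37⟩, .ofNat 816, .negSucc 331, .ofNat 0, .negSucc 331, .ofNat 1986, .ofNat 0, .ofNat 499, .ofNat 54, .negSucc 97, .ofNat 0, .ofNat 128, .negSucc 5, .ofNat 0, .ofNat 0, .ofNat 710, .ofNat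 2697, .ofNat 0, .ofNat 0, .ofNat 0, .ofNat 0, .ofNat 0, .ofNat 0, .ofNat 0, .ofNat 0, .ofNat 0, .ofNat 0, .ofNat 0, .ofNat 0, .ofNat 465395386597188823012931431159208342619024261120, .ofNat 0, .ofNat 0, .ofNat 0⟩)
    (by decide +kernel)
theorem L00053 : Good (Phi V5.P V5.D 1 1) ⟨3, 0, 3, 1, 4, 3, 1, 1, 3, 1⟩ :=
  leafX_sound T5.ok_pp T5.Ypp.bz_eq (w := 224) (c := ⟨⟨.negSucc 1032, .negSucc 44, .negSucc 32, .ofNat 2, .ofNat 415, .negSucc 172⟩, ⟨.negSucc 166, .ofNat 26, .negSucc 116, .negSucc 8, .ofNat 82, .negSucc 22⟩, ⟨.ofNat 1077, .ofNat 95, .ofNat 29, .negSucc 8, .negSucc 784, .ofNat 65⟩, ⟨.negSucc 3083, .negSucc 81, .negSucc 66, .ofNat 11, .ofNat 1249, .negSucc 532⟩, ⟨.negSucc 168, .negSucc 25, .negSucc 17, .negSucc 88, .ofNat 47, .ofNat 46⟩, .ofNat 607, .negSucc 142, .ofNat 0, .negSucc 142, .ofNat 1101, .ofNat 0, .ofNat 570,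 .ofNat 42, .negSucc 135, .ofNat 0, .ofNat 128, .negSucc 9, .ofNat 0, .ofNat 0, .ofNat 695, .ofNat 1883, .ofNat 0, .ofNat 0, .ofNat 0, .ofNat 0, .ofNat 0, .ofNat 0, .ofNat 0, .ofNat 0, .ofNat 0, .ofNat 8243949717969412857527867400051447168663289856, .ofNat 0, .ofNat 0, .ofNat 0, .ofNat 0, .ofNat 0, .ofNat 0⟩)
    (by decide +kernel)
theorem L00054 : Good (Phi V5.P V5.D 1 1) ⟨3, 0, 3, 1, 4, 3, 2, 0, 3, 2⟩ :=
  leafX_sound T5.ok_pp T5.Ypp.bz_eq (w := 235) (c := ⟨⟨.negSucc 1344, .negSucc 18, .negSucc 8, .negSucc 4, .ofNat 90, .ofNat 1⟩, ⟨.negSucc 205, .ofNat 48, .negSucc 155, .negSucc 8, .ofNat 22, .ofNat 0⟩, ⟨.ofNat 1660, .ofNat 28, .ofNat 13, .negSucc 64, .negSucc 270, .negSucc 0⟩, ⟨.negSucc 3998, .ofNat 18, .negSucc 2, .negSucc 5, .ofNat 248, .ofNat 2⟩, ⟨.negSucc 210, .ofNat 10, .ofNat 1, .negSucc 63, .ofNat 31, .ofNat 0⟩, .ofNat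 192, .negSucc 9, .ofNat 0, .negSucc 9, .ofNat 225, .ofNat 0, .ofNat 268, .ofNat 10, .negSucc 98, .ofNat 0, .ofNat 128, .ofNat 21, .ofNat 0, .ofNat 0, .ofNat 441, .ofNat 460469, .ofNat 45512222355748343747439257886983980591922735480832, .ofNat 0, .ofNat 0, .ofNat 0, .ofNat 128924585099696076125306438923288096098149468209152, .ofNat 0, .ofNat 0, .ofNat 0, .ofNat 7406560539697343327250097978743241341111631872000, .ofNat 0, .ofNat 0, .ofNat 0, .ofNat 36974677646724703066354505244415030806209319927808, .ofNat 0, .ofNat 0, .ofNat 0⟩)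
    (by decide +kernel)
theorem L00055 : Good (Phi V5.P V5.D 1 1) ⟨3, 0, 3, 1, 4, 3, 2, 1, 4, 4⟩ :=
  leafX_sound T5.ok_pp T5.Ypp.bz_eq (w := 237) (c := ⟨⟨.negSucc 1252, .negSucc 21, .negSucc 4, .negSucc 7, .ofNat 91, .ofNat 55⟩, ⟨.negSucc 185, .ofNat 42, .negSucc 142, .negSucc 6, .ofNat 17, .ofNat 10⟩, ⟨.ofNat 1385, .ofNat 37, .negSucc 2, .negSucc 31, .negSucc 259, .negSucc 5⟩, ⟨.negSucc 3738, .ofNat 3, .ofNat 3, .negSucc 15, .ofNat 263, .ofNat 158⟩, ⟨.negSucc 176, .ofNat 3, .ofNat 1, .negSucc 54, .ofNat 19, .ofNat 11⟩, .ofNat 606, .negSucc 143, .ofNat 0, .negSucc 143, .ofNat 1110, .ofNat 0, .ofNat 204, .ofNat 41, .negSucc 57, .ofNat 0, .ofNat 128, .negSucc 0, .ofNat 0, .ofNat 0, .ofNat 623, .ofNat 42414, .ofNat 0, .ofNat 0, .ofNat 0, .ofNat 0, .ofNat 0, .ofNat 0, .ofNat 0, .ofNat 0, .ofNat 0, .ofNat 0, .ofNat 0, .ofNat 0, .ofNat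 42454807282731679925292367223030998130968183701504, .ofNat 0, .ofNat 0, .ofNat 0⟩)
    (by decide +kernel)
theorem L00056 : Good (Phi V5.P V5.D 1 1) ⟨3, 0, 3, 1, 4, 3, 2, 1, 4, 5⟩ :=
  leafX_sound T5.ok_pp T5.Ypp.bz_eq (w := 238) (c := ⟨⟨.negSucc 1190, .negSucc 25, .negSucc 6, .negSucc 9, .ofNat 86, .ofNat 60⟩, ⟨.negSucc 178, .ofNat 40, .negSucc 136, .negSucc 7, .ofNat 19, .ofNat 13⟩, ⟨.ofNat 1405, .ofNat 38, .negSucc 17, .negSucc 17, .negSucc 295, .negSucc 28⟩, ⟨.negSucc 3552, .negSucc 7, .ofNat 2, .negSucc 22, .ofNat 242, .ofNat 176⟩, ⟨.negSucc 167, .ofNat 0, .negSucc 0, .negSucc 48, .ofNat 21, .ofNat 15⟩, .ofNat 407, .negSucc 51, .ofNat 0, .negSucc 51, .ofNat 590, .ofNat 0, .ofNat 180, .ofNat 24, .negSucc 46, .ofNat 0, .ofNat 128, .ofNat 1, .ofNat 0, .ofNat 0, .ofNat 535, .ofNat 75136, .ofNat 24426062776792379912148005639567639321504066306048,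 .ofNat 0, .ofNat 0, .ofNat 0, .ofNat 95493764585152340623944210180665942284017602658304, .ofNat 0, .ofNat 0, .ofNat 0, .ofNat 0, .ofNat 0, .ofNat 0, .ofNat 0, .ofNat 67810404488069510056899290839797375196961940963328, .ofNat 0, .ofNat 0, .ofNat 0⟩)
    (by decide +kernel)
theorem L00057 : Good (Phi V5.P V5.D 1 1) ⟨3, 0, 3, 1, 4, 3, 1, 0, 3, 3⟩ :=
  out_sound (S := T5.ds_pp) T5.ok_pp (w := 25) (j := 1) (by decide +kernel)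
theorem L00058 : Good (Phi V5.P V5.D 1 1) ⟨3, 0, 3, 1, 4, 3, 1, 1, 3, 2⟩ :=
  leafX_sound T5.ok_pp T5.Ypp.bz_eq (w := 224) (c := ⟨⟨.negSucc 1120, .negSucc 44, .ofNat 0, .negSucc 14, .ofNat 213, .ofNat 62⟩, ⟨.negSucc 168, .ofNat 34, .negSucc 128, .negSucc 7, .ofNat 57, .ofNat 16⟩, ⟨.ofNat 1148, .ofNat 67, .negSucc 23, .ofNat 11, .negSucc 742, .negSucc 113⟩, ⟨.negSucc 3340, .negSucc 68, .ofNat 16, .negSucc 43, .ofNat 605, .ofNat 170⟩, ⟨.negSucc 188, .negSucc 7, .negSucc 26, .negSucc 23, .ofNat 170, .ofNat 56⟩, .ofNat 791, .negSucc 298, .ofNat 0, .negSucc 298, .ofNat 1822, .ofNat 0, .ofNat 460, .ofNat 53, .negSucc 52, .ofNat 0, .ofNat 128, .negSucc 6, .ofNat 0, .ofNat 0, .ofNat 519, .ofNat 2209, .ofNat 0, .ofNat 0, .ofNat 0, .ofNat 0, .ofNat 0, .ofNat 0, .ofNat 0, .ofNat 0, .ofNat 0, .ofNat 23469766245304125686814317695600431080836956160,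 .ofNat 0, .ofNat 0, .ofNat 0, .ofNat 4225076524851985419710653107810910878023286784, .ofNat 0, .ofNat 0⟩)
    (by decide +kernel)
theorem L00059 : Good (Phi V5.P V5.D 1 1) ⟨3, 0, 3, 1, 4, 3, 1, 1, 3, 3⟩ :=
  leafX_sound T5.ok_pp T5.Ypp.bz_eq (w := 224) (c := ⟨⟨.negSucc 1022, .negSucc 43, .negSucc 0, .negSucc 15, .ofNat 86, .ofNat 46⟩, ⟨.negSucc 152, .ofNat 29, .negSucc 121, .negSucc 3, .ofNat 41, .ofNat 18⟩, ⟨.ofNat 1088, .ofNat 39, .negSucc 52, .ofNat 19, .negSucc 761, .negSucc 166⟩, ⟨.negSucc 3057, .negSucc 52, .ofNat 7, .negSucc 46, .ofNat 222, .ofNat 119⟩, ⟨.negSucc 184, .negSucc 1, .ofNat 3, .negSucc 11, .ofNat 215, .ofNat 81⟩, .ofNat 819, .negSucc 330, .ofNat 0, .negSucc 330, .ofNat 1961, .ofNat 0, .ofNat 395, .ofNat 52, .negSucc 26, .ofNat 0, .ofNat 128, .negSucc 6, .ofNat 0, .ofNat 0, .ofNat 455, .ofNat 2114, .ofNat 0,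 .ofNat 0, .ofNat 0, .ofNat 0, .ofNat 0, .ofNat 0, .ofNat 0, .ofNat 0, .ofNat 0, .ofNat 0, .ofNat 0, .ofNat 0, .ofNat 55362428323094644631090491447551561200329293824, .ofNat 0, .ofNat 0, .ofNat 0⟩)
    (by decide +kernel)
theorem L00060 : Good (Phi V5.P V5.D 1 1) ⟨3, 0, 3, 1, 2, 0, 0, 0, 1, 1⟩ :=
  leafX_sound T5.ok_pp T5.Ypp.bz_eq (w := 192) (c := ⟨⟨.negSucc 957, .negSucc 24, .ofNat 0, .ofNat 0, .ofNat 0, .ofNat 0⟩, ⟨.negSucc 119, .ofNat 31, .negSucc 119, .ofNat 0, .ofNat 0, .ofNat 0⟩, ⟨.ofNat 261, .ofNat 25, .ofNat 0, .ofNat 0, .ofNat 0, .ofNat 0⟩, ⟨.negSucc 2881, .negSucc 10, .ofNat 0, .ofNat 1, .negSucc 0, .ofNat 1⟩, ⟨.ofNat 0, .ofNat 0, .ofNat 0, .ofNat 0, .ofNat 0, .ofNat 0⟩, .ofNat 192, .negSucc 9, .ofNat 0, .negSucc 9, .ofNat 225, .ofNat 0, .ofNat 143, .ofNat 10, .negSucc 103, .ofNat 0, .ofNat 128, .negSucc 5, .ofNat 0,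 .ofNat 0, .ofNat 303, .ofNat 117613, .ofNat 2395797242253373585662914142299750400000000, .ofNat 216029712135696321898869798255734575595520, .ofNat 0, .ofNat 0, .ofNat 153331023504215909482426505107184025600000000, .ofNat 14197294303058700005065339214181449701785600, .ofNat 0, .ofNat 0, .ofNat 153331023504215909482426505107184025600000000, .ofNat 14197346516978451117724836750668061600645120, .ofNat 0, .ofNat 0, .ofNat 153331023504215909482426505107184025600000000, .ofNat 14197314272044228051506500100175861594980352, .ofNat 0, .ofNat 0⟩)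
    (by decide +kernel)
theorem L00061 : Good (Phi V5.P V5.D 1 1) ⟨3, 1, 3, 1, 2, 0, 2, 0, 3, 0⟩ :=
  leafX_sound T5.ok_pp T5.Ypp.bz_eq (w := 199) (c := ⟨⟨.ofNat 546, .ofNat 46, .negSucc 61, .ofNat 127, .ofNat 63, .negSucc 2030⟩, ⟨.ofNat 63, .negSucc 2, .ofNat 10, .negSucc 22, .ofNat 18, .negSucc 301⟩, ⟨.negSucc 546, .negSucc 20, .ofNat 87, .negSucc 79, .negSucc 203, .ofNat 2159⟩, ⟨.ofNat 1541, .ofNat 132, .negSucc 129, .ofNat 358, .ofNat 147, .negSucc 5752⟩, ⟨.negSucc 121, .ofNat 92, .negSucc 26, .negSucc 232, .ofNat 89, .negSucc 82⟩, .ofNat 583, .negSucc 141, .ofNat 0, .negSucc 141, .ofNat 1274, .ofNat 0, .ofNat 319, .ofNat 44, .negSucc 163, .ofNat 0, .ofNat 128, .negSucc 16, .ofNat 0, .ofNat 0, .ofNat 545, .ofNat 2342, .ofNat 0, .ofNat 0, .ofNat 0, .ofNat 0, .ofNat 0, .ofNat 0, .ofNat 0, .ofNat 0, .ofNat 0, .ofNat 0, .ofNat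 0, .ofNat 0, .ofNat 140221260882340779678116857740595763871744, .ofNat 0, .ofNat 0, .ofNat 0⟩)
    (by decide +kernel)
theorem L00062 : Good (Phi V5.P V5.D 1 1) ⟨3, 1, 3, 1, 2, 0, 2, 0, 3, 1⟩ :=
  leafX_sound T5.ok_pp T5.Ypp.bz_eq (w := 202) (c := ⟨⟨.negSucc 1258, .negSucc 90, .negSucc 10, .ofNat 10, .ofNat 40, .negSucc 70⟩, ⟨.negSucc 125, .ofNat 26, .negSucc 154, .negSucc 20, .ofNat 15, .negSucc 8⟩, ⟨.ofNat 1456, .ofNat 93, .ofNat 14, .negSucc 169, .negSucc 151, .ofNat 249⟩, ⟨.negSucc 3694, .negSucc 16, .negSucc 14, .ofNat 61, .ofNat 85, .negSucc 200⟩, ⟨.negSucc 73, .ofNat 19, .ofNat 0, .negSucc 222, .ofNat 50, .ofNat 14⟩, .ofNat 583, .negSucc 142, .ofNat 0, .negSucc 142, .ofNat 1277, .ofNat 0, .ofNat 883, .ofNat 44, .negSucc 169, .ofNat 0, .ofNat 128, .negSucc 9, .ofNat 0, .ofNat 0, .ofNat 1223, .ofNat 16206, .ofNat 0, .ofNat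 0, .ofNat 0, .ofNat 0, .ofNat 0, .ofNat 0, .ofNat 0, .ofNat 0, .ofNat 0, .ofNat 0, .ofNat 0, .ofNat 0, .ofNat 1186229068802477126017660805884207054192640, .ofNat 0, .ofNat 0, .ofNat 0⟩)
    (by decide +kernel)
theorem L00063 : Good (Phi V5.P V5.D 1 1) ⟨3, 1, 3, 1, 2, 0, 2, 0, 2, 1⟩ :=
  leafX_sound T5.ok_pp T5.Ypp.bz_eq (w := 203) (c := ⟨⟨.negSucc 1270, .negSucc 84, .negSucc 2, .negSucc 6, .negSucc 1, .ofNat 1⟩, ⟨.negSucc 120, .ofNat 27, .negSucc 154, .negSucc 22, .ofNat 3, .ofNat 0⟩, ⟨.ofNat 1390, .ofNat 88, .ofNat 8, .negSucc 136, .ofNat 126, .negSucc 0⟩, ⟨.negSucc 3950, .negSucc 6, .ofNat 0, .ofNat 20, .ofNat 197, .ofNat 2⟩, ⟨.negSucc 58, .ofNat 11, .ofNat 1, .negSucc 218, .ofNat 51, .ofNat 0⟩, .ofNat 397, .negSucc 46, .ofNat 0, .negSucc 46, .ofNat 635, .ofNat 0, .ofNat 346, .ofNat 23, .negSucc 108, .ofNat 0, .ofNat 128, .ofNat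 1, .ofNat 0, .ofNat 0, .ofNat 856, .ofNat 611211, .ofNat 958614589653336742358518467386096014589952, .ofNat 0, .ofNat 0, .ofNat 0, .ofNat 2387096733894327595242629073469651392921600, .ofNat 0, .ofNat 0, .ofNat 0, .ofNat 192641061670021600530294226891444162920448, .ofNat 0, .ofNat 0, .ofNat 0, .ofNat 826060629313897674946620412797282112503808, .ofNat 0, .ofNat 0, .ofNat 0⟩)
    (by decide +kernel)
theorem L00064 : Good (Phi V5.P V5.D 1 1) ⟨3, 1, 3, 1, 2, 0, 2, 0, 1, 1⟩ :=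
  out_sound (S := T5.ds_pp) T5.ok_pp (w := 18) (j := 1) (by decide +kernel)
theorem L00065 : Good (Phi V5.P V5.D 1 1) ⟨3, 1, 3, 1, 2, 0, 2, 1, 2, 0⟩ :=
  leafX_sound T5.ok_pp T5.Ypp.bz_eq (w := 193) (c := ⟨⟨.negSucc 163, .negSucc 111, .negSucc 8, .negSucc 15, .ofNat 98, .negSucc 1162⟩, ⟨.ofNat 32, .ofNat 12, .negSucc 110, .negSucc 19, .negSucc 8, .negSucc 166⟩, ⟨.ofNat 101, .ofNat 119, .ofNat 6, .negSucc 37, .negSucc 216, .ofNat 1405⟩, ⟨.negSucc 479, .negSucc 118, .negSucc 32, .negSucc 16, .ofNat 319, .negSucc 3433⟩, ⟨.negSucc 126, .negSucc 122, .ofNat 92, .negSucc 171, .negSucc 259, .ofNat 285⟩, .ofNat 705, .negSucc 248, .ofNat 0, .negSucc 248, .ofNat 1937, .ofNat 0, .ofNat 482, .ofNat 55, .negSucc 140, .ofNat 0, .ofNat 128, .negSucc 13, .ofNat 0, .ofNat 0, .ofNat 674, .ofNat 889, .ofNat 0, .ofNat 0, .ofNat 0, .ofNat 0, .ofNat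 0, .ofNat 0, .ofNat 0, .ofNat 0, .ofNat 0, .ofNat 0, .ofNat 0, .ofNat 0, .ofNat 0, .ofNat 0, .ofNat 0, .ofNat 0⟩)
    (by decide +kernel)
theorem L00066 : Good (Phi V5.P V5.D 1 1) ⟨3, 1, 3, 1, 2, 0, 2, 1, 4, 4⟩ :=
  leafX_sound T5.ok_pp T5.Ypp.bz_eq (w := 209) (c := ⟨⟨.negSucc 1264, .negSucc 81, .negSucc 2, .negSucc 23, .ofNat 95, .ofNat 58⟩, ⟨.negSucc 118, .ofNat 22, .negSucc 141, .negSucc 23, .ofNat 12, .ofNat 9⟩, ⟨.ofNat 1502, .ofNat 85, .negSucc 5, .negSucc 51, .negSucc 296, .negSucc 24⟩, ⟨.negSucc 3717, .negSucc 11, .ofNat 4, .negSucc 40, .ofNat 267, .ofNat 161⟩, ⟨.negSucc 7, .ofNat 3, .ofNat 0, .negSucc 200, .ofNat 4, .ofNat 5⟩, .ofNat 396, .negSucc 45, .ofNat 0, .negSucc 45, .ofNat 635, .ofNat 0, .ofNat 361, .ofNat 22, .negSucc 143, .ofNat 0, .ofNat 128, .negSucc 0, .ofNat 0, .ofNat 0, .ofNat 1203, .ofNat 34146, .ofNat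 0, .ofNat 0, .ofNat 0, .ofNat 0, .ofNat 0, .ofNat 0, .ofNat 0, .ofNat 0, .ofNat 0, .ofNat 0, .ofNat 0, .ofNat 0, .ofNat 0, .ofNat 0, .ofNat 0, .ofNat 0⟩)
    (by decide +kernel)
theorem L00067 : Good (Phi V5.P V5.D 1 1) ⟨3, 1, 3, 1, 2, 0, 2, 1, 4, 5⟩ :=
  leafX_sound T5.ok_pp T5.Ypp.bz_eq (w := 210) (c := ⟨⟨.negSucc 1192, .negSucc 78, .negSucc 3, .negSucc 31, .ofNat 83, .ofNat 58⟩, ⟨.negSucc 109, .ofNat 21, .negSucc 135, .negSucc 23, .ofNat 10, .ofNat 6⟩, ⟨.ofNat 1477, .ofNat 83, .negSucc 13, .negSucc 28, .negSucc 304, .negSucc 47⟩, ⟨.negSucc 3516, .negSucc 17, .ofNat 1, .negSucc 60, .ofNat 240, .ofNat 171⟩, ⟨.negSucc 5, .ofNat 0, .negSucc 0, .negSucc 191, .ofNat 6, .ofNat 7⟩, .ofNat 396, .negSucc 42, .ofNat 0, .negSucc 42, .ofNat 633, .ofNat 0, .ofNat 234, .ofNat 21, .negSucc 78, .ofNat 0, .ofNat 128, .negSucc 0, .ofNat 0, .ofNat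 0, .ofNat 845, .ofNat 72157, .ofNat 1834550738927216362775989265636589865795584, .ofNat 0, .ofNat 0, .ofNat 0, .ofNat 7363646739284851668161279733399128878612480, .ofNat 0, .ofNat 0, .ofNat 0, .ofNat 0, .ofNat 0, .ofNat 0, .ofNat 0, .ofNat 8667513478204851839820170383742463935250432, .ofNat 0, .ofNat 0, .ofNat 0⟩)
    (by decide +kernel)
theorem L00068 : Good (Phi V5.P V5.D 1 1) ⟨3, 1, 3, 1, 2, 0, 2, 1, 3, 3⟩ :=
  out_sound (S := T5.ds_pp) T5.ok_pp (w := 22) (j := 1) (by decide +kernel)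
theorem L00069 : Good (Phi V5.P V5.D 1 1) ⟨3, 1, 3, 1, 2, 0, 2, 1, 1, 1⟩ :=
  out_sound (S := T5.ds_pp) T5.ok_pp (w := 18) (j := 1) (by decide +kernel)
theorem L00070 : Good (Phi V5.P V5.D 1 1) ⟨3, 1, 3, 1, 2, 0, 2, 2, 3, 0⟩ :=
  leafX_sound T5.ok_pp T5.Ypp.bz_eq (w := 198) (c := ⟨⟨.negSucc 148, .negSucc 26, .ofNat 15, .ofNat 105, .negSucc 52, .negSucc 961⟩, ⟨.ofNat 4, .ofNat 23, .negSucc 74, .negSucc 6, .negSucc 2, .negSucc 125⟩, ⟨.ofNat 34, .ofNat 52, .negSucc 8, .negSucc 78, .ofNat 65, .ofNat 965⟩, ⟨.negSucc 518, .ofNat 78, .ofNat 49, .ofNat 319, .negSucc 167, .negSucc 2699⟩, ⟨.negSucc 93, .negSucc 68, .ofNat 72, .negSucc 239, .ofNat 191, .negSucc 17⟩, .ofNat 772, .negSucc 325, .ofNat 0, .negSucc 325, .ofNat 2491, .ofNat 0, .ofNat 425, .ofNat 55, .negSucc 249, .ofNat 0, .ofNat 128, .negSucc 27, .ofNat 0, .ofNat 0, .ofNat 733,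 .ofNat 807, .ofNat 0, .ofNat 0, .ofNat 0, .ofNat 0, .ofNat 0, .ofNat 0, .ofNat 0, .ofNat 0, .ofNat 0, .ofNat 0, .ofNat 0, .ofNat 0, .ofNat 0, .ofNat 0, .ofNat 0, .ofNat 0⟩)
    (by decide +kernel)
theorem L00071 : Good (Phi V5.P V5.D 1 1) ⟨3, 1, 3, 1, 2, 0, 2, 3, 3, 0⟩ :=
  leafX_sound T5.ok_pp T5.Ypp.bz_eq (w := 200) (c := ⟨⟨.negSucc 755, .ofNat 48, .ofNat 66, .negSucc 9, .ofNat 590, .negSucc 363⟩, ⟨.negSucc 78, .ofNat 26, .negSucc 49, .negSucc 21, .ofNat 80, .negSucc 56⟩, ⟨.ofNat 716, .negSucc 57, .negSucc 75, .ofNat 105, .negSucc 652, .ofNat 205⟩, ⟨.negSucc 2204, .ofNat 196, .ofNat 207, .ofNat 13, .ofNat 1679, .negSucc 1011⟩, ⟨.ofNat 43, .ofNat 93, .negSucc 4, .negSucc 118, .negSucc 144, .negSucc 76⟩, .ofNat 703, .negSucc 242, .ofNat 0, .negSucc 242, .ofNat 1938, .ofNat 0, .ofNat 542, .ofNat 54, .negSucc 400, .ofNat 0, .ofNat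 128, .negSucc 47, .ofNat 0, .ofNat 0, .ofNat 1079, .ofNat 1253, .ofNat 0, .ofNat 0, .ofNat 0, .ofNat 0, .ofNat 0, .ofNat 0, .ofNat 0, .ofNat 0, .ofNat 0, .ofNat 0, .ofNat 0, .ofNat 0, .ofNat 0, .ofNat 0, .ofNat 0, .ofNat 0⟩)
    (by decide +kernel)
theorem L00072 : Good (Phi V5.P V5.D 1 1) ⟨3, 1, 3, 1, 2, 0, 1, 1, 3, 1⟩ :=
  leafX_sound T5.ok_pp T5.Ypp.bz_eq (w := 196) (c := ⟨⟨.negSucc 997, .negSucc 79, .negSucc 25, .negSucc 8, .ofNat 499, .negSucc 248⟩, ⟨.negSucc 89, .ofNat 10, .negSucc 102, .negSucc 21, .ofNat 57, .negSucc 31⟩, ⟨.ofNat 1113, .ofNat 90, .ofNat 17, .ofNat 36, .negSucc 931, .ofNat 127⟩, ⟨.negSucc 2912, .negSucc 96, .negSucc 39, .negSucc 15, .ofNat 1453, .negSucc 736⟩, ⟨.ofNat 10, .ofNat 65, .negSucc 130, .negSucc 199, .negSucc 10, .ofNat 31⟩, .ofNat 583, .negSucc 135, .ofNat 0, .negSucc 135, .ofNat 1261, .ofNat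 0, .ofNat 512, .ofNat 42, .negSucc 147, .ofNat 0, .ofNat 128, .negSucc 13, .ofNat 0, .ofNat 0, .ofNat 729, .ofNat 1433, .ofNat 0, .ofNat 0, .ofNat 0, .ofNat 0, .ofNat 0, .ofNat 0, .ofNat 0, .ofNat 0, .ofNat 0, .ofNat 0, .ofNat 0, .ofNat 0, .ofNat 0, .ofNat 0, .ofNat 0, .ofNat 0⟩)
    (by decide +kernel)
theorem L00073 : Good (Phi V5.P V5.D 1 1) ⟨3, 1, 3, 1, 2, 0, 2, 2, 3, 2⟩ :=
  leafX_sound T5.ok_pp T5.Ypp.bz_eq (w := 203) (c := ⟨⟨.negSucc 1140, .negSucc 85, .negSucc 5, .negSucc 41, .ofNat 90, .ofNat 90⟩, ⟨.negSucc 108, .ofNat 17, .negSucc 131, .negSucc 22, .ofNat 14, .ofNat 16⟩, ⟨.ofNat 1213, .ofNat 92, .negSucc 12, .ofNat 8, .negSucc 333, .negSucc 132⟩, ⟨.negSucc 3348, .negSucc 40, .negSucc 9, .negSucc 93, .ofNat 246, .ofNat 244⟩, ⟨.negSucc 9, .negSucc 16, .ofNat 7, .negSucc 184, .ofNat 21, .ofNat 19⟩, .ofNat 777, .negSucc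 339, .ofNat 0, .negSucc 339, .ofNat 2493, .ofNat 0, .ofNat 372, .ofNat 57, .negSucc 73, .ofNat 0, .ofNat 128, .negSucc 7, .ofNat 0, .ofNat 0, .ofNat 779, .ofNat 13008, .ofNat 0, .ofNat 0, .ofNat 0, .ofNat 0, .ofNat 0, .ofNat 0, .ofNat 0, .ofNat 0, .ofNat 0, .ofNat 0, .ofNat 0, .ofNat 0, .ofNat 0, .ofNat 0, .ofNat 0, .ofNat 0⟩)
    (by decide +kernel)
theorem L00074 : Good (Phi V5.P V5.D 1 1) ⟨3, 1, 3, 1, 2, 0, 2, 3, 3, 2⟩ :=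
  leafX_sound T5.ok_pp T5.Ypp.bz_eq (w := 201) (c := ⟨⟨.negSucc 979, .negSucc 74, .ofNat 1, .negSucc 100, .ofNat 173, .negSucc 1⟩, ⟨.negSucc 91, .ofNat 16, .negSucc 119, .negSucc 27, .ofNat 32, .ofNat 5⟩, ⟨.ofNat 836, .ofNat 93, .negSucc 16, .ofNat 109, .negSucc 541, .negSucc 139⟩, ⟨.negSucc 2876, .negSucc 42, .ofNat 8, .negSucc 272, .ofNat 488, .negSucc 13⟩, ⟨.negSucc 39, .ofNat 5, .negSucc 8, .negSucc 141, .ofNat 92, .ofNat 43⟩, .ofNat 583, .negSucc 132, .ofNat 0, .negSucc 132, .ofNat 1256, .ofNat 0, .ofNat 1081, .ofNat 41, .negSucc 197, .ofNat 0, .ofNat 128, .negSucc 24, .ofNat 0, .ofNat 0, .ofNat 1344, .ofNat 2655, .ofNat 0, .ofNat 0, .ofNat 0, .ofNat 0, .ofNat 0, .ofNat 0, .ofNat 0, .ofNat 0, .ofNat 0, .ofNat 5786904028967915316849673334312050622464, .ofNat 0, .ofNat 0, .ofNat 0, .ofNat 0, .ofNat 0, .ofNat 0⟩)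
    (by decide +kernel)
theorem L00075 : Good (Phi V5.P V5.D 1 1) ⟨3, 1, 3, 1, 2, 0, 1, 1, 3, 3⟩ :=
  leafX_sound T5.ok_pp T5.Ypp.bz_eq (w := 198) (c := ⟨⟨.negSucc 1021, .negSucc 75, .ofNat 3, .negSucc 67, .ofNat 101, .ofNat 9⟩, ⟨.negSucc 96, .ofNat 15, .negSucc 121, .negSucc 18, .ofNat 27, .ofNat 3⟩, ⟨.ofNat 1130, .ofNat 65, .negSucc 33, .ofNat 40, .negSucc 826, .negSucc 127⟩, ⟨.negSucc 3005, .negSucc 28, .ofNat 15, .negSucc 176, .ofNat 272, .ofNat 23⟩, ⟨.negSucc 34, .negSucc 27, .negSucc 20, .negSucc 90, .ofNat 111, .ofNat 41⟩, .ofNat 751, .negSucc 301, .ofNat 0, .negSucc 301, .ofNat 2275, .ofNat 0, .ofNat 699, .ofNat 56, .negSucc 71, .ofNat 0, .ofNat 128, .negSucc 11, .ofNat 0, .ofNat 0, .ofNat 1046, .ofNat 5538, .ofNat 0, .ofNat 0, .ofNat 0, .ofNat 0, .ofNat 0, .ofNat 40666547251262201886069094878163146637312, .ofNat 0, .ofNat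 0, .ofNat 3778361845110902253564270073891493249024, .ofNat 1807614248300939741075195890955035082752, .ofNat 0, .ofNat 0, .ofNat 34820994012988131598381721914810860306432, .ofNat 0, .ofNat 0, .ofNat 0⟩)
    (by decide +kernel)
theorem L00076 : Good (Phi V5.P V5.D 1 1) ⟨3, 1, 3, 1, 2, 0, 1, 1, 1, 1⟩ :=
  leafX_sound T5.ok_pp T5.Ypp.bz_eq (w := 193) (c := ⟨⟨.negSucc 981, .negSucc 76, .ofNat 0, .ofNat 1, .negSucc 0, .ofNat 1⟩, ⟨.negSucc 86, .ofNat 14, .negSucc 120, .ofNat 0, .ofNat 0, .ofNat 0⟩, ⟨.ofNat 285, .ofNat 77, .ofNat 0, .ofNat 0, .ofNat 0, .ofNat 0⟩, ⟨.negSucc 2892, .negSucc 34, .ofNat 0, .ofNat 1, .negSucc 0, .ofNat 1⟩, ⟨.ofNat 0, .ofNat 0, .ofNat 0, .ofNat 0, .ofNat 0, .ofNat 0⟩, .ofNat 190, .negSucc 7, .ofNat 0, .negSucc 7, .ofNat 231, .ofNat 0, .ofNat 147, .ofNat 8, .negSucc 107, .ofNat 0, .ofNat 128, .negSucc 4, .ofNat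 0, .ofNat 0, .ofNat 310, .ofNat 74184, .ofNat 0, .ofNat 0, .ofNat 0, .ofNat 0, .ofNat 1226648188033727275859412040857472204800000000, .ofNat 60525442554807761284124064462783749646450688, .ofNat 0, .ofNat 0, .ofNat 1226648188033727275859412040857472204800000000, .ofNat 54116935171367781820074521433522345525379072, .ofNat 0, .ofNat 0, .ofNat 1226648188033727275859412040857472204800000000, .ofNat 60525462768662820475451842377093326315716608, .ofNat 0, .ofNat 0⟩)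
    (by decide +kernel)
theorem L00077 : Good (Phi V5.P V5.D 1 1) ⟨2, 0, 2, 0, 2, 1, 1, 0, 4, 0⟩ :=
  leafX_sound T5.ok_pp T5.Ypp.bz_eq (w := 193) (c := ⟨⟨.ofNat 594, .ofNat 169, .negSucc 98, .ofNat 283, .ofNat 12, .negSucc 1202⟩, ⟨.negSucc 82, .ofNat 36, .ofNat 119, .ofNat 20, .ofNat 77, .negSucc 130⟩, ⟨.negSucc 443, .negSucc 180, .ofNat 157, .negSucc 240, .negSucc 174, .ofNat 790⟩, ⟨.ofNat 1809, .ofNat 346, .negSucc 183, .ofNat 840, .negSucc 21, .negSucc 3522⟩, ⟨.negSucc 549, .ofNat 239, .negSucc 56, .negSucc 19, .ofNat 573, .negSucc 346⟩, .ofNat 583, .negSucc 76, .ofNat 0, .negSucc 76, .ofNat 1136, .ofNat 0, .ofNat 243, .ofNat 25, .negSucc 169, .ofNat 0, .ofNat 128, .ofNat 2, .ofNat 0, .ofNat 0, .ofNat 548, .ofNat 1350, .ofNat 0, .ofNat 0, .ofNat 0, .ofNat 0, .ofNat 0, .ofNat 0, .ofNat 0, .ofNat 0, .ofNat 0, .ofNat 0, .ofNat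 0, .ofNat 0, .ofNat 0, .ofNat 0, .ofNat 0, .ofNat 0⟩)
    (by decide +kernel)
theorem L00078 : Good (Phi V5.P V5.D 1 1) ⟨2, 0, 2, 0, 2, 1, 1, 0, 4, 1⟩ :=
  leafX_sound T5.ok_pp T5.Ypp.bz_eq (w := 193) (c := ⟨⟨.negSucc 515, .ofNat 15, .negSucc 57, .ofNat 135, .ofNat 63, .negSucc 677⟩, ⟨.negSucc 62, .ofNat 100, .negSucc 190, .negSucc 24, .ofNat 50, .negSucc 72⟩, ⟨.ofNat 447, .negSucc 31, .ofNat 131, .negSucc 611, .ofNat 39, .ofNat 549⟩, ⟨.negSucc 1577, .ofNat 177, .negSucc 44, .ofNat 396, .ofNat 139, .negSucc 1949⟩, ⟨.negSucc 527, .ofNat 127, .negSucc 45, .negSucc 245, .ofNat 384, .negSucc 101⟩, .ofNat 586, .negSucc 77, .ofNat 0, .negSucc 77, .ofNat 1126, .ofNat 0, .ofNat 352, .ofNat 25, .negSucc 118, .ofNat 0, .ofNat 128, .ofNat 8, .ofNat 0, .ofNat 0, .ofNat 476, .ofNat 2452, .ofNat 0, .ofNat 0, .ofNat 0, .ofNat 0, .ofNat 0, .ofNat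 0, .ofNat 0, .ofNat 0, .ofNat 0, .ofNat 0, .ofNat 0, .ofNat 0, .ofNat 0, .ofNat 0, .ofNat 0, .ofNat 0⟩)
    (by decide +kernel)
theorem L00079 : Good (Phi V5.P V5.D 1 1) ⟨2, 0, 2, 0, 2, 1, 1, 0, 3, 1⟩ :=
  leafX_sound T5.ok_pp T5.Ypp.bz_eq (w := 188) (c := ⟨⟨.negSucc 1185, .negSucc 47, .negSucc 22, .negSucc 11, .ofNat 115, .negSucc 153⟩, ⟨.negSucc 52, .ofNat 95, .negSucc 300, .negSucc 33, .ofNat 28, .negSucc 9⟩, ⟨.ofNat 947, .ofNat 42, .ofNat 39, .negSucc 407, .negSucc 3, .ofNat 392⟩, ⟨.negSucc 3626, .ofNat 153, .ofNat 34, .negSucc 12, .ofNat 342, .negSucc 451⟩, ⟨.negSucc 449, .ofNat 69, .negSucc 15, .negSucc 275, .ofNat 180, .ofNat 92⟩, .ofNat 583, .negSucc 72, .ofNat 0, .negSucc 72, .ofNat 1134, .ofNat 0, .ofNat 408, .ofNat 22, .negSucc 110, .ofNat 0, .ofNat 128, .ofNat 13, .ofNat 0, .ofNat 0, .ofNat 720, .ofNat 2056, .ofNat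 0, .ofNat 0, .ofNat 0, .ofNat 0, .ofNat 0, .ofNat 0, .ofNat 0, .ofNat 0, .ofNat 0, .ofNat 0, .ofNat 0, .ofNat 0, .ofNat 182750816421840579737110486671199043584, .ofNat 0, .ofNat 0, .ofNat 0⟩)
    (by decide +kernel)
theorem L00080 : Good (Phi V5.P V5.D 1 1) ⟨2, 0, 2, 0, 2, 1, 1, 1, 3, 0⟩ :=
  leafX_sound T5.ok_pp T5.Ypp.bz_eq (w := 187) (c := ⟨⟨.ofNat 122, .ofNat 74, .ofNat 3, .negSucc 26, .negSucc 174, .negSucc 952⟩, ⟨.ofNat 28, .ofNat 70, .negSucc 89, .negSucc 12, .negSucc 27, .negSucc 115⟩, ⟨.negSucc 335, .ofNat 11, .ofNat 28, .ofNat 107, .ofNat 384, .ofNat 738⟩, ⟨.ofNat 356, .ofNat 298, .ofNat 53, .negSucc 87, .negSucc 573, .negSucc 2727⟩, ⟨.negSucc 200, .ofNat 198, .negSucc 135, .ofNat 68, .negSucc 38, .negSucc 127⟩, .ofNat 586, .negSucc 77, .ofNat 0, .negSucc 77, .ofNat 1126, .ofNat 0, .ofNat 310, .ofNat 29, .negSucc 225,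 .ofNat 0, .ofNat 128, .ofNat 1, .ofNat 0, .ofNat 0, .ofNat 603, .ofNat 538, .ofNat 0, .ofNat 0, .ofNat 0, .ofNat 0, .ofNat 0, .ofNat 0, .ofNat 0, .ofNat 0, .ofNat 0, .ofNat 0, .ofNat 0, .ofNat 0, .ofNat 0, .ofNat 0, .ofNat 0, .ofNat 0⟩)
    (by decide +kernel)
theorem L00081 : Good (Phi V5.P V5.D 1 1) ⟨2, 0, 2, 0, 2, 1, 1, 1, 3, 1⟩ :=
  leafX_sound T5.ok_pp T5.Ypp.bz_eq (w := 188) (c := ⟨⟨.negSucc 951, .negSucc 157, .negSucc 4, .negSucc 139, .ofNat 195, .negSucc 157⟩, ⟨.negSucc 10, .ofNat 52, .negSucc 268, .negSucc 44, .ofNat 30, .negSucc 8⟩, ⟨.ofNat 742, .ofNat 259, .negSucc 85, .ofNat 74, .negSucc 263, .ofNat 228⟩, ⟨.negSucc 2914, .negSucc 192, .ofNat 65, .negSucc 386, .ofNat 583, .negSucc 472⟩, ⟨.negSucc 207, .negSucc 48, .negSucc 80, .negSucc 105, .ofNat 58, .ofNat 21⟩, .ofNat 578, .negSucc 73, .ofNat 0, .negSucc 73, .ofNat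 1168, .ofNat 0, .ofNat 514, .ofNat 25, .negSucc 152, .ofNat 0, .ofNat 128, .ofNat 6, .ofNat 0, .ofNat 0, .ofNat 731, .ofNat 776, .ofNat 0, .ofNat 0, .ofNat 0, .ofNat 0, .ofNat 0, .ofNat 0, .ofNat 0, .ofNat 0, .ofNat 0, .ofNat 2979529371527675263565026751057756160, .ofNat 0, .ofNat 0, .ofNat 0, .ofNat 0, .ofNat 0, .ofNat 0⟩)
    (by decide +kernel)
theorem L00082 : Good (Phi V5.P V5.D 1 1) ⟨2, 0, 2, 0, 2, 1, 2, 0, 3, 2⟩ :=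
  leafX_sound T5.ok_pp T5.Ypp.bz_eq (w := 195) (c := ⟨⟨.negSucc 1346, .negSucc 97, .negSucc 35, .negSucc 23, .ofNat 117, .ofNat 108⟩, ⟨.negSucc 75, .ofNat 94, .negSucc 309, .negSucc 30, .ofNat 34, .ofNat 21⟩, ⟨.ofNat 1398, .ofNat 89, .ofNat 46, .negSucc 386, .negSucc 85, .ofNat 249⟩, ⟨.negSucc 3917, .ofNat 26, .ofNat 10, .negSucc 60, .ofNat 158, .ofNat 302⟩, ⟨.negSucc 336, .ofNat 68, .negSucc 9, .negSucc 263, .ofNat 74, .ofNat 95⟩, .ofNat 191, .negSucc 5, .ofNat 0, .negSucc 5, .ofNat 228, .ofNat 0, .ofNat 136, .ofNat 3, .negSucc 44, .ofNat 0, .ofNat 128, .ofNat 18, .ofNat 0, .ofNat 0, .ofNat 196, .ofNat 14652, .ofNat 560823566978353025930051279703379017728, .ofNat 0, .ofNat 0, .ofNat 0, .ofNat 1340185102908781121965002238576639868928, .ofNat 0, .ofNat 0, .ofNat 0, .ofNat 0, .ofNat 0, .ofNat 0, .ofNat 0, .ofNat 771435252008405337561214966859051302912,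 .ofNat 0, .ofNat 0, .ofNat 0⟩)
    (by decide +kernel)
theorem L00083 : Good (Phi V5.P V5.D 1 1) ⟨2, 0, 2, 0, 2, 1, 2, 1, 4, 4⟩ :=
  leafX_sound T5.ok_pp T5.Ypp.bz_eq (w := 200) (c := ⟨⟨.negSucc 1218, .negSucc 85, .negSucc 32, .negSucc 41, .ofNat 60, .ofNat 50⟩, ⟨.negSucc 44, .ofNat 89, .negSucc 299, .negSucc 33, .ofNat 11, .ofNat 12⟩, ⟨.ofNat 1169, .ofNat 138, .ofNat 34, .negSucc 204, .negSucc 72, .ofNat 93⟩, ⟨.negSucc 3691, .negSucc 16, .negSucc 3, .negSucc 112, .ofNat 174, .ofNat 152⟩, ⟨.negSucc 270, .ofNat 28, .negSucc 7, .negSucc 236, .ofNat 45, .ofNat 50⟩, .ofNat 400, .negSucc 30, .ofNat 0, .negSucc 30, .ofNat 601, .ofNat 0, .ofNat 211, .ofNat 15, .negSucc 73, .ofNat 0, .ofNat 128, .ofNat 14, .ofNat 0, .ofNat 0, .ofNat 613, .ofNat 10185, .ofNat 1125657853742761628513483950224010379264, .ofNat 0, .ofNat 0, .ofNat 0, .ofNat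 0, .ofNat 0, .ofNat 0, .ofNat 0, .ofNat 0, .ofNat 0, .ofNat 0, .ofNat 0, .ofNat 0, .ofNat 0, .ofNat 0, .ofNat 0⟩)
    (by decide +kernel)
theorem L00084 : Good (Phi V5.P V5.D 1 1) ⟨3, 0, 2, 0, 2, 1, 3, 2, 5, 10⟩ :=
  leafX_sound T5.ok_pp T5.Ypp.bz_eq (w := 216) (c := ⟨⟨.negSucc 1171, .negSucc 21, .negSucc 25, .negSucc 37, .ofNat 26, .ofNat 36⟩, ⟨.negSucc 39, .ofNat 46, .negSucc 290, .negSucc 32, .ofNat 8, .ofNat 7⟩, ⟨.ofNat 1275, .ofNat 37, .negSucc 16, .negSucc 174, .negSucc 36, .ofNat 43⟩, ⟨.negSucc 3533, .negSucc 4, .ofNat 16, .negSucc 95, .ofNat 71, .ofNat 108⟩, ⟨.negSucc 247, .ofNat 11, .negSucc 8, .negSucc 213, .ofNat 33, .ofNat 24⟩, .ofNat 405, .negSucc 32, .ofNat 0, .negSucc 32, .ofNat 583, .ofNat 0, .ofNat 128, .ofNat 15, .negSucc 34, .ofNat 0, .ofNat 128, .ofNat 9, .ofNat 0, .ofNat 0, .ofNat 432, .ofNat 77772, .ofNat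 13356552363471535261432261982881717503918080, .ofNat 0, .ofNat 0, .ofNat 0, .ofNat 0, .ofNat 0, .ofNat 0, .ofNat 0, .ofNat 0, .ofNat 0, .ofNat 0, .ofNat 0, .ofNat 45427811867735944251423297359848645897224192, .ofNat 0, .ofNat 0, .ofNat 0⟩)
    (by decide +kernel)
theorem L00085 : Good (Phi V5.P V5.D 1 1) ⟨3, 1, 2, 0, 2, 1, 3, 2, 5, 10⟩ :=
  leafX_sound T5.ok_pp T5.Ypp.bz_eq (w := 217) (c := ⟨⟨.negSucc 1182, .negSucc 81, .negSucc 22, .negSucc 43, .ofNat 15, .ofNat 37⟩, ⟨.ofNat 8, .ofNat 33, .negSucc 287, .negSucc 25, .ofNat 1, .ofNat 6⟩, ⟨.ofNat 1301, .ofNat 85, .negSucc 15, .negSucc 173, .negSucc 21, .ofNat 34⟩, ⟨.negSucc 3515, .negSucc 17, .ofNat 16, .negSucc 105, .ofNat 55, .ofNat 105⟩, ⟨.negSucc 222, .ofNat 15, .negSucc 9, .negSucc 202, .ofNat 15, .ofNat 15⟩, .ofNat 395, .negSucc 25, .ofNat 0, .negSucc 25, .ofNat 622, .ofNat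 0, .ofNat 160, .ofNat 12, .negSucc 57, .ofNat 0, .ofNat 128, .ofNat 14, .ofNat 0, .ofNat 0, .ofNat 690, .ofNat 128663, .ofNat 31557833313777092660511211351934606476574720, .ofNat 0, .ofNat 0, .ofNat 0, .ofNat 31516079923178059225381546096638921032073216, .ofNat 0, .ofNat 0, .ofNat 0, .ofNat 0, .ofNat 0, .ofNat 0, .ofNat 0, .ofNat 111574332770541791872387905693399634463948800, .ofNat 0, .ofNat 0, .ofNat 0⟩)
    (by decide +kernel)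
theorem L00086 : Good (Phi V5.P V5.D 1 1) ⟨2, 0, 2, 0, 2, 1, 3, 2, 5, 11⟩ :=
  leafX_sound T5.ok_pp T5.Ypp.bz_eq (w := 215) (c := ⟨⟨.negSucc 1123, .negSucc 105, .negSucc 22, .negSucc 32, .ofNat 21, .ofNat 32⟩, ⟨.negSucc 39, .ofNat 79, .negSucc 283, .negSucc 21, .ofNat 4, .ofNat 6⟩, ⟨.ofNat 1280, .ofNat 116, .negSucc 39, .negSucc 133, .negSucc 33, .ofNat 48⟩, ⟨.negSucc 3398, .negSucc 36, .ofNat 25, .negSucc 93, .ofNat 46, .ofNat 116⟩, ⟨.negSucc 256, .ofNat 23, .negSucc 12, .negSucc 168, .ofNat 28, .ofNat 19⟩, .ofNat 191, .negSucc 4, .ofNat 0, .negSucc 4, .ofNat 227, .ofNat 0, .ofNat 282, .ofNat 2, .negSucc 54, .ofNat 0, .ofNat 128, .ofNat 21, .ofNat 0, .ofNat 0, .ofNat 386, .ofNat 508897, .ofNat 8383168301594589528548389063242713730646016, .ofNat 0, .ofNat 0, .ofNat 0, .ofNat 5648678388613484897115442686135606857170944, .ofNat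 0, .ofNat 0, .ofNat 0, .ofNat 5415539098101333753699988480343367837810688, .ofNat 0, .ofNat 0, .ofNat 0, .ofNat 6438897764184330544655497429117622424698880, .ofNat 0, .ofNat 0, .ofNat 0⟩)
    (by decide +kernel)
theorem L00087 : Good (Phi V5.P V5.D 1 1) ⟨2, 0, 2, 0, 2, 1, 3, 3, 5, 10⟩ :=
  leafX_sound T5.ok_pp T5.Ypp.bz_eq (w := 210) (c := ⟨⟨.negSucc 1118, .negSucc 115, .negSucc 17, .negSucc 55, .ofNat 28, .ofNat 33⟩, ⟨.negSucc 31, .ofNat 73, .negSucc 280, .negSucc 28, .ofNat 4, .ofNat 4⟩, ⟨.ofNat 1169, .ofNat 146, .negSucc 43, .negSucc 70, .negSucc 54, .ofNat 13⟩, ⟨.negSucc 3424, .negSucc 37, .ofNat 16, .negSucc 135, .ofNat 71, .ofNat 101⟩, ⟨.negSucc 218, .ofNat 9, .negSucc 6, .negSucc 194, .ofNat 18, .ofNat 18⟩, .ofNat 191, .negSucc 4, .ofNat 0, .negSucc 4, .ofNat 228, .ofNat 0, .ofNat 235, .ofNat 4, .negSucc 91, .ofNat 0,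 .ofNat 128, .ofNat 24, .ofNat 0, .ofNat 0, .ofNat 537, .ofNat 21217, .ofNat 156679788581038779015391422032165289852928, .ofNat 0, .ofNat 0, .ofNat 0, .ofNat 0, .ofNat 0, .ofNat 0, .ofNat 0, .ofNat 0, .ofNat 0, .ofNat 0, .ofNat 0, .ofNat 248380463472651094731215614682235926478848, .ofNat 0, .ofNat 0, .ofNat 0⟩)
    (by decide +kernel)
theorem L00088 : Good (Phi V5.P V5.D 1 1) ⟨2, 0, 2, 0, 2, 1, 3, 3, 5, 11⟩ :=
  leafX_sound T5.ok_pp T5.Ypp.bz_eq (w := 210) (c := ⟨⟨.negSucc 1088, .negSucc 111, .negSucc 13, .negSucc 51, .ofNat 15, .ofNat 44⟩, ⟨.negSucc 31, .ofNat 69, .negSucc 273, .negSucc 24, .ofNat 6, .ofNat 5⟩, ⟨.ofNat 1160, .ofNat 136, .negSucc 70, .negSucc 6, .negSucc 46, .ofNat 5⟩, ⟨.negSucc 3311, .negSucc 54, .ofNat 21, .negSucc 131, .ofNat 52, .ofNat 108⟩, ⟨.negSucc 210, .negSucc 4, .negSucc 7, .negSucc 175, .ofNat 26, .ofNat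 17⟩, .ofNat 191, .negSucc 4, .ofNat 0, .negSucc 4, .ofNat 227, .ofNat 0, .ofNat 217, .ofNat 4, .negSucc 61, .ofNat 0, .ofNat 128, .ofNat 13, .ofNat 0, .ofNat 0, .ofNat 440, .ofNat 23046, .ofNat 267319168815533212257383137617323308875776, .ofNat 0, .ofNat 0, .ofNat 0, .ofNat 0, .ofNat 0, .ofNat 0, .ofNat 0, .ofNat 0, .ofNat 0, .ofNat 0, .ofNat 0, .ofNat 1086509656541882423759359003059337943842816, .ofNat 0, .ofNat 0, .ofNat 0⟩)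
    (by decide +kernel)
theorem L00089 : Good (Phi V5.P V5.D 1 1) ⟨2, 0, 2, 0, 2, 1, 1, 0, 3, 3⟩ :=
  leafX_sound T5.ok_pp T5.Ypp.bz_eq (w := 193) (c := ⟨⟨.negSucc 1048, .negSucc 122, .negSucc 11, .negSucc 60, .ofNat 25, .ofNat 185⟩, ⟨.negSucc 27, .ofNat 68, .negSucc 267, .negSucc 25, .ofNat 4, .ofNat 33⟩, ⟨.ofNat 1295, .ofNat 140, .negSucc 109, .ofNat 45, .negSucc 196, .ofNat 132⟩, ⟨.negSucc 3304, .negSucc 71, .ofNat 25, .negSucc 123, .ofNat 149, .ofNat 397⟩, ⟨.negSucc 263, .negSucc 16, .negSucc 6, .negSucc 155, .ofNat 85, .ofNat 71⟩, .ofNat 190, .negSucc 4, .ofNat 0, .negSucc 4, .ofNat 228, .ofNat 0, .ofNat 279, .ofNat 3, .negSucc 70, .ofNat 0, .ofNat 128, .ofNat 12, .ofNat 0, .ofNat 0, .ofNat 628, .ofNat 42874, .ofNat 258034672328731618199286002479844556800, .ofNat 0, .ofNat 0, .ofNat 0, .ofNat 653040054922915404148862068124863692800,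 .ofNat 0, .ofNat 0, .ofNat 0, .ofNat 276530315648509279259374361456637116416, .ofNat 0, .ofNat 0, .ofNat 0, .ofNat 1415644911438119134958443270606117928960, .ofNat 0, .ofNat 0, .ofNat 0⟩)
    (by decide +kernel)
theorem L00090 : Good (Phi V5.P V5.D 1 1) ⟨2, 0, 2, 0, 2, 1, 2, 2, 3, 2⟩ :=
  leafX_sound T5.ok_pp T5.Ypp.bz_eq (w := 194) (c := ⟨⟨.negSucc 1122, .negSucc 125, .negSucc 13, .negSucc 76, .ofNat 51, .ofNat 97⟩, ⟨.negSucc 35, .ofNat 64, .negSucc 273, .negSucc 26, .ofNat 13, .ofNat 19⟩, ⟨.ofNat 1067, .ofNat 179, .negSucc 63, .ofNat 40, .negSucc 167, .negSucc 42⟩, ⟨.negSucc 3410, .negSucc 108, .ofNat 26, .negSucc 208, .ofNat 142, .ofNat 278⟩, ⟨.negSucc 222, .negSucc 29, .ofNat 3, .negSucc 168, .ofNat 45, .ofNat 56⟩, .ofNat 401, .negSucc 38, .ofNat 0, .negSucc 38, .ofNat 604, .ofNat 0, .ofNat 366, .ofNat 19, .negSucc 116, .ofNat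 0, .ofNat 128, .ofNat 3, .ofNat 0, .ofNat 0, .ofNat 1022, .ofNat 4180, .ofNat 0, .ofNat 0, .ofNat 0, .ofNat 0, .ofNat 0, .ofNat 0, .ofNat 0, .ofNat 0, .ofNat 0, .ofNat 0, .ofNat 0, .ofNat 0, .ofNat 0, .ofNat 0, .ofNat 0, .ofNat 0⟩)
    (by decide +kernel)
theorem L00091 : Good (Phi V5.P V5.D 1 1) ⟨2, 0, 2, 0, 2, 1, 2, 3, 3, 2⟩ :=
  leafX_sound T5.ok_pp T5.Ypp.bz_eq (w := 193) (c := ⟨⟨.negSucc 1005, .negSucc 176, .ofNat 2, .negSucc 159, .ofNat 55, .ofNat 43⟩, ⟨.negSucc 21, .ofNat 49, .negSucc 261, .negSucc 27, .ofNat 28, .ofNat 16⟩, ⟨.ofNat 840, .ofNat 245, .negSucc 100, .ofNat 272, .negSucc 310, .negSucc 109⟩, ⟨.negSucc 3062, .negSucc 246, .ofNat 47, .negSucc 451, .ofNat 145, .ofNat 125⟩, ⟨.negSucc 187, .negSucc 77, .negSucc 11, .negSucc 129, .ofNat 158, .ofNat 110⟩, .ofNat 585, .negSucc 89, .ofNat 0, .negSucc 89, .ofNat 1146,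 .ofNat 0, .ofNat 557, .ofNat 28, .negSucc 93, .ofNat 0, .ofNat 128, .negSucc 9, .ofNat 0, .ofNat 0, .ofNat 876, .ofNat 1401, .ofNat 0, .ofNat 0, .ofNat 0, .ofNat 0, .ofNat 0, .ofNat 372541422538339526870263591086996848640, .ofNat 0, .ofNat 0, .ofNat 0, .ofNat 40693758771946682430913086556171403264, .ofNat 0, .ofNat 0, .ofNat 0, .ofNat 114228442353090971771092908090230571008, .ofNat 0, .ofNat 0⟩)
    (by decide +kernel)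
theorem L00092 : Good (Phi V5.P V5.D 1 1) ⟨2, 0, 2, 0, 2, 1, 1, 1, 3, 3⟩ :=
  leafX_sound T5.ok_pp T5.Ypp.bz_eq (w := 189) (c := ⟨⟨.negSucc 999, .negSucc 124, .negSucc 2, .negSucc 80, .ofNat 1, .ofNat 67⟩, ⟨.negSucc 25, .ofNat 65, .negSucc 261, .negSucc 18, .ofNat 25, .ofNat 11⟩, ⟨.ofNat 1067, .ofNat 115, .negSucc 122, .ofNat 173, .negSucc 516, .negSucc 160⟩, ⟨.negSucc 3042, .negSucc 134, .ofNat 41, .negSucc 217, .ofNat 2, .ofNat 191⟩, ⟨.negSucc 200, .negSucc 33, .negSucc 6, .negSucc 111, .ofNat 209, .ofNat 59⟩, .ofNat 581, .negSucc 72, .ofNat 0, .negSucc 72, .ofNat 1146, .ofNat 0, .ofNat 276, .ofNat 22, .negSucc 41, .ofNat 0, .ofNat 128, .negSucc 12, .ofNat 0, .ofNat 0, .ofNat 969, .ofNat 1418, .ofNat 2914124802195446447863249090679668736, .ofNat 0, .ofNat 0, .ofNat 0, .ofNat 0, .ofNat 51918659930244525867027328325105221632,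 .ofNat 0, .ofNat 0, .ofNat 0, .ofNat 18728034787598332232796140511711723520, .ofNat 0, .ofNat 0, .ofNat 101320521824995273702528517822576852992, .ofNat 39478006480576904367154280457123659776, .ofNat 0, .ofNat 0⟩)
    (by decide +kernel)
theorem L00093 : Good (Phi V5.P V5.D 1 1) ⟨2, 0, 2, 0, 2, 1, 1, 0, 3, 4⟩ :=
  out_sound (S := T5.ds_pp) T5.ok_pp (w := 21) (j := 1) (by decide +kernel)
theorem L00094 : Good (Phi V5.P V5.D 1 1) ⟨2, 0, 2, 0, 3, 2, 2, 2, 4, 8⟩ :=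
  out_sound (S := T5.ds_pp) T5.ok_pp (w := 26) (j := 1) (by decide +kernel)
theorem L00095 : Good (Phi V5.P V5.D 1 1) ⟨2, 0, 2, 0, 3, 3, 3, 4, 4, 8⟩ :=
  out_sound (S := T5.ds_pp) T5.ok_pp (w := 27) (j := 1) (by decide +kernel)
theorem L00096 : Good (Phi V5.P V5.D 1 1) ⟨2, 0, 2, 0, 4, 6, 3, 5, 5, 16⟩ :=
  out_sound (S := T5.ds_pp) T5.ok_pp (w := 31) (j := 1) (by decide +kernel)
theorem L00097 : Good (Phi V5.P V5.D 1 1) ⟨2, 0, 2, 0, 4, 7, 4, 10, 5, 16⟩ :=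
  out_sound (S := T5.ds_pp) T5.ok_pp (w := 32) (j := 1) (by decide +kernel)
theorem L00098 : Good (Phi V5.P V5.D 1 1) ⟨2, 0, 2, 0, 4, 7, 4, 11, 5, 16⟩ :=
  out_sound (S := T5.ds_pp) T5.ok_pp (w := 40) (j := 2) (by decide +kernel)
theorem L00099 : Good (Phi V5.P V5.D 1 1) ⟨2, 0, 2, 0, 3, 3, 3, 5, 5, 17⟩ :=
  out_sound (S := T5.ds_pp) T5.ok_pp (w := 29) (j := 1) (by decide +kernel)
theorem L00100 : Good (Phi V5.P V5.D 1 1) ⟨2, 0, 2, 0, 3, 2, 4, 12, 5, 16⟩ :=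
  out_sound (S := T5.ds_pp) T5.ok_pp (w := 30) (j := 1) (by decide +kernel)
theorem L00101 : Good (Phi V5.P V5.D 1 1) ⟨2, 0, 2, 0, 4, 4, 4, 13, 6, 32⟩ :=
  out_sound (S := T5.ds_pp) T5.ok_pp (w := 34) (j := 1) (by decide +kernel)
theorem L00102 : Good (Phi V5.P V5.D 1 1) ⟨2, 0, 2, 0, 4, 5, 5, 26, 6, 32⟩ :=
  out_sound (S := T5.ds_pp) T5.ok_pp (w := 35) (j := 1) (by decide +kernel)
theorem L00103 : Good (Phi V5.P V5.D 1 1) ⟨2, 0, 2, 0, 5, 10, 5, 27, 6, 32⟩ :=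
  out_sound (S := T5.ds_pp) T5.ok_pp (w := 37) (j := 1) (by decide +kernel)
theorem L00104 : Good (Phi V5.P V5.D 1 1) ⟨2, 0, 2, 0, 5, 11, 5, 27, 6, 32⟩ :=
  out_sound (S := T5.ds_pp) T5.ok_pp (w := 46) (j := 2) (by decide +kernel)
theorem L00105 : Good (Phi V5.P V5.D 1 1) ⟨2, 0, 2, 0, 3, 2, 4, 13, 6, 33⟩ :=
  out_sound (S := T5.ds_pp) T5.ok_pp (w := 32) (j := 1) (by decide +kernel)
theorem L00106 : Good (Phi V5.P V5.D 1 1) ⟨2, 0, 2, 0, 5, 8, 5, 28, 7, 64⟩ :=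
  out_sound (S := T5.ds_pp) T5.ok_pp (w := 39) (j := 1) (by decide +kernel)
theorem L00107 : Good (Phi V5.P V5.D 1 1) ⟨2, 0, 2, 0, 5, 9, 6, 56, 7, 64⟩ :=
  out_sound (S := T5.ds_pp) T5.ok_pp (w := 40) (j := 1) (by decide +kernel)
theorem L00108 : Good (Phi V5.P V5.D 1 1) ⟨2, 0, 2, 0, 5, 9, 6, 57, 7, 64⟩ :=
  out_sound (S := T5.ds_pp) T5.ok_pp (w := 50) (j := 2) (by decide +kernel)
theorem L00109 : Good (Phi V5.P V5.D 1 1) ⟨2, 0, 2, 0, 4, 4, 5, 28, 7, 65⟩ :=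
  out_sound (S := T5.ds_pp) T5.ok_pp (w := 37) (j := 1) (by decide +kernel)
theorem L00110 : Good (Phi V5.P V5.D 1 1) ⟨2, 0, 2, 0, 6, 16, 6, 58, 8, 128⟩ :=
  out_sound (S := T5.ds_pp) T5.ok_pp (w := 44) (j := 1) (by decide +kernel)
theorem L00111 : Good (Phi V5.P V5.D 1 1) ⟨2, 0, 2, 0, 6, 17, 6, 58, 8, 128⟩ :=
  out_sound (S := T5.ds_pp) T5.ok_pp (w := 54) (j := 2) (by decide +kernel)
theorem L00112 : Good (Phi V5.P V5.D 1 1) ⟨2, 0, 2, 0, 5, 8, 6, 58, 8, 129⟩ :=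
  out_sound (S := T5.ds_pp) T5.ok_pp (w := 42) (j := 1) (by decide +kernel)
theorem L00113 : Good (Phi V5.P V5.D 1 1) ⟨2, 0, 2, 0, 5, 8, 6, 58, 7, 65⟩ :=
  out_sound (S := T5.ds_pp) T5.ok_pp (w := 40) (j := 1) (by decide +kernel)
theorem L00114 : Good (Phi V5.P V5.D 1 1) ⟨2, 0, 2, 0, 5, 8, 6, 59, 6, 32⟩ :=
  out_sound (S := T5.ds_pp) T5.ok_pp (w := 48) (j := 2) (by decide +kernel)
theorem L00115 : Good (Phi V5.P V5.D 1 1) ⟨2, 0, 2, 0, 5, 9, 5, 29, 6, 32⟩ :=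
  out_sound (S := T5.ds_pp) T5.ok_pp (w := 46) (j := 2) (by decide +kernel)
theorem L00116 : Good (Phi V5.P V5.D 1 1) ⟨2, 0, 2, 0, 4, 4, 4, 14, 6, 33⟩ :=
  out_sound (S := T5.ds_pp) T5.ok_pp (w := 34) (j := 1) (by decide +kernel)
theorem L00117 : Good (Phi V5.P V5.D 1 1) ⟨2, 0, 2, 0, 4, 4, 4, 15, 5, 16⟩ :=
  out_sound (S := T5.ds_pp) T5.ok_pp (w := 40) (j := 2) (by decide +kernel)
theorem L00118 : Good (Phi V5.P V5.D 1 1) ⟨2, 0, 2, 0, 4, 5, 3, 7, 5, 16⟩ :=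
  out_sound (S := T5.ds_pp) T5.ok_pp (w := 38) (j := 2) (by decide +kernel)
theorem L00119 : Good (Phi V5.P V5.D 1 1) ⟨2, 0, 2, 0, 3, 2, 3, 6, 5, 17⟩ :=
  out_sound (S := T5.ds_pp) T5.ok_pp (w := 29) (j := 1) (by decide +kernel)
theorem L00120 : Good (Phi V5.P V5.D 1 1) ⟨2, 0, 2, 0, 4, 4, 3, 7, 5, 17⟩ :=
  out_sound (S := T5.ds_pp) T5.ok_pp (w := 31) (j := 1) (by decide +kernel)
theorem L00121 : Good (Phi V5.P V5.D 1 1) ⟨2, 0, 2, 0, 4, 5, 3, 7, 5, 17⟩ :=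
  out_sound (S := T5.ds_pp) T5.ok_pp (w := 38) (j := 2) (by decide +kernel)
theorem L00122 : Good (Phi V5.P V5.D 1 1) ⟨2, 0, 2, 0, 4, 6, 5, 24, 6, 32⟩ :=
  out_sound (S := T5.ds_pp) T5.ok_pp (w := 35) (j := 1) (by decide +kernel)
theorem L00123 : Good (Phi V5.P V5.D 1 1) ⟨2, 0, 2, 0, 4, 6, 5, 25, 6, 32⟩ :=
  out_sound (S := T5.ds_pp) T5.ok_pp (w := 44) (j := 2) (by decide +kernel)
theorem L00124 : Good (Phi V5.P V5.D 1 1) ⟨2, 0, 2, 0, 4, 6, 4, 12, 6, 33⟩ :=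
  out_sound (S := T5.ds_pp) T5.ok_pp (w := 34) (j := 1) (by decide +kernel)
theorem L00125 : Good (Phi V5.P V5.D 1 1) ⟨2, 0, 2, 0, 4, 6, 4, 12, 5, 17⟩ :=
  out_sound (S := T5.ds_pp) T5.ok_pp (w := 32) (j := 1) (by decide +kernel)
theorem L00126 : Good (Phi V5.P V5.D 1 1) ⟨2, 0, 2, 0, 4, 6, 4, 13, 4, 8⟩ :=
  out_sound (S := T5.ds_pp) T5.ok_pp (w := 38) (j := 2) (by decide +kernel)
theorem L00127 : Good (Phi V5.P V5.D 1 1) ⟨2, 0, 2, 0, 4, 7, 3, 6, 4, 8⟩ :=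
  out_sound (S := T5.ds_pp) T5.ok_pp (w := 36) (j := 2) (by decide +kernel)
theorem L00128 : Good (Phi V5.P V5.D 1 1) ⟨2, 0, 2, 0, 3, 3, 3, 7, 4, 8⟩ :=
  out_sound (S := T5.ds_pp) T5.ok_pp (w := 34) (j := 2) (by decide +kernel)
theorem L00129 : Good (Phi V5.P V5.D 1 1) ⟨2, 0, 2, 0, 2, 1, 2, 2, 4, 9⟩ :=
  out_sound (S := T5.ds_pp) T5.ok_pp (w := 24) (j := 1) (by decide +kernel)
theorem L00130 : Good (Phi V5.P V5.D 1 1) ⟨2, 0, 2, 0, 3, 2, 2, 3, 4, 9⟩ :=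
  out_sound (S := T5.ds_pp) T5.ok_pp (w := 26) (j := 1) (by decide +kernel)
theorem L00131 : Good (Phi V5.P V5.D 1 1) ⟨2, 0, 2, 0, 3, 3, 2, 3, 4, 9⟩ :=
  out_sound (S := T5.ds_pp) T5.ok_pp (w := 32) (j := 2) (by decide +kernel)
theorem L00132 : Good (Phi V5.P V5.D 1 1) ⟨2, 0, 2, 0, 2, 1, 0, 0, 3, 5⟩ :=
  out_sound (S := T5.ds_pp) T5.ok_pp (w := 20) (j := 1) (by decide +kernel)
theorem L00133 : Good (Phi V5.P V5.D 1 1) ⟨2, 0, 2, 0, 2, 1, 0, 0, 2, 3⟩ :=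
  out_sound (S := T5.ds_pp) T5.ok_pp (w := 18) (j := 1) (by decide +kernel)
theorem L00134 : Good (Phi V5.P V5.D 1 1) ⟨2, 0, 2, 0, 3, 4, 3, 0, 4, 0⟩ :=
  leafX_sound T5.ok_pp T5.Ypp.bz_eq (w := 216) (c := ⟨⟨.ofNat 914, .ofNat 136, .negSucc 137, .ofNat 143, .ofNat 144, .negSucc 1293⟩, ⟨.negSucc 72, .ofNat 34, .ofNat 113, .ofNat 66, .ofNat 54, .negSucc 168⟩, ⟨.negSucc 492, .negSucc 226, .ofNat 210, .negSucc 207, .negSucc 153, .ofNat 349⟩, ⟨.ofNat 2800, .ofNat 209, .negSucc 311, .ofNat 381, .ofNat 376, .negSucc 3798⟩, ⟨.negSucc 588, .ofNat 384, .negSucc 121, .ofNat 308, .ofNat 376, .negSucc 676⟩, .ofNat 399, .negSucc 24, .ofNat 0, .negSucc 24, .ofNat 600, .ofNat 0, .ofNat 128, .negSucc 1, .negSucc 63, .ofNat 0, .ofNat 137, .ofNat 11, .ofNat 0, .ofNat 0, .ofNat 285, .ofNat 4867, .ofNat 0, .ofNat 0, .ofNat 0, .ofNat 0, .ofNat 27927603567094847874117094086028491428462592,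 .ofNat 0, .ofNat 0, .ofNat 0, .ofNat 0, .ofNat 0, .ofNat 0, .ofNat 0, .ofNat 0, .ofNat 0, .ofNat 0, .ofNat 0⟩)
    (by decide +kernel)
theorem L00135 : Good (Phi V5.P V5.D 1 1) ⟨2, 0, 2, 0, 3, 5, 3, 0, 4, 0⟩ :=
  leafX_sound T5.ok_pp T5.Ypp.bz_eq (w := 216) (c := ⟨⟨.ofNat 1084, .ofNat 112, .negSucc 167, .ofNat 56, .ofNat 143, .negSucc 1315⟩, ⟨.ofNat 0, .ofNat 37, .ofNat 107, .ofNat 95, .ofNat 76, .negSucc 261⟩, ⟨.negSucc 609, .negSucc 305, .ofNat 210, .negSucc 254, .negSucc 152, .ofNat 212⟩, ⟨.ofNat 3279, .ofNat 115, .negSucc 459, .ofNat 58, .ofNat 402, .negSucc 3783⟩, ⟨.negSucc 255, .ofNat 528, .negSucc 238, .ofNat 676, .ofNat 406, .negSucc 1014⟩, .ofNat 401, .negSucc 28, .ofNat 0, .negSucc 28, .ofNat 598, .ofNat 0, .ofNat 142, .negSucc 18, .negSucc 61, .ofNat 0, .ofNat 128, .ofNat 5, .ofNat 0, .ofNat 0, .ofNat 269, .ofNat 6197,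 .ofNat 0, .ofNat 0, .ofNat 0, .ofNat 0, .ofNat 0, .ofNat 0, .ofNat 0, .ofNat 0, .ofNat 92929381404339602353638996437039072732512256, .ofNat 0, .ofNat 0, .ofNat 0, .ofNat 0, .ofNat 0, .ofNat 0, .ofNat 0⟩)
    (by decide +kernel)
theorem L00136 : Good (Phi V5.P V5.D 1 1) ⟨2, 0, 2, 0, 2, 2, 3, 1, 4, 0⟩ :=
  leafX_sound T5.ok_pp T5.Ypp.bz_eq (w := 202) (c := ⟨⟨.ofNat 1059, .ofNat 141, .negSucc 108, .ofNat 254, .ofNat 35, .negSucc 1359⟩, ⟨.negSucc 31, .ofNat 60, .ofNat 139, .ofNat 156, .ofNat 39, .negSucc 230⟩, ⟨.negSucc 679, .negSucc 218, .ofNat 179, .negSucc 417, .negSucc 40, .ofNat 422⟩, ⟨.ofNat 3212, .ofNat 195, .negSucc 338, .ofNat 685, .ofNat 95, .negSucc 3916⟩, ⟨.negSucc 225, .ofNat 418, .negSucc 212, .ofNat 968, .ofNat 259, .negSucc 1007⟩, .ofNat 400, .negSucc 27, .ofNat 0, .negSucc 27, .ofNat 599, .ofNat 0, .ofNat 197, .ofNat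 6, .negSucc 85, .ofNat 0, .ofNat 128, .ofNat 10, .ofNat 0, .ofNat 0, .ofNat 260, .ofNat 2388, .ofNat 0, .ofNat 0, .ofNat 0, .ofNat 0, .ofNat 0, .ofNat 0, .ofNat 0, .ofNat 0, .ofNat 0, .ofNat 0, .ofNat 0, .ofNat 0, .ofNat 0, .ofNat 0, .ofNat 0, .ofNat 0⟩)
    (by decide +kernel)
theorem L00137 : Good (Phi V5.P V5.D 1 1) ⟨2, 0, 2, 0, 2, 2, 2, 1, 4, 0⟩ :=
  leafX_sound T5.ok_pp T5.Ypp.bz_eq (w := 197) (c := ⟨⟨.ofNat 1023, .ofNat 150, .negSucc 44, .ofNat 258, .negSucc 252, .negSucc 1254⟩, ⟨.ofNat 69, .negSucc 9, .ofNat 152, .ofNat 113, .negSucc 35, .negSucc 255⟩, ⟨.negSucc 842, .negSucc 182, .ofNat 104, .negSucc 283, .ofNat 248, .ofNat 600⟩, ⟨.ofNat 3117, .ofNat 222, .negSucc 200, .ofNat 662, .negSucc 733, .negSucc 3580⟩, ⟨.ofNat 87, .ofNat 532, .negSucc 192, .ofNat 810, .negSucc 66, .negSucc 1033⟩, .ofNat 399, .negSucc 31, .ofNat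 0, .negSucc 31, .ofNat 606, .ofNat 0, .ofNat 172, .ofNat 25, .negSucc 118, .ofNat 0, .ofNat 128, .ofNat 11, .ofNat 0, .ofNat 0, .ofNat 259, .ofNat 1013, .ofNat 0, .ofNat 0, .ofNat 0, .ofNat 0, .ofNat 0, .ofNat 0, .ofNat 0, .ofNat 0, .ofNat 0, .ofNat 0, .ofNat 0, .ofNat 0, .ofNat 0, .ofNat 0, .ofNat 0, .ofNat 0⟩)
    (by decide +kernel)

end Crest.Agent.R097C5.N5pp
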