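import Crest.Agent.R097.KP7
import Crest.Agent.R097.T5Ypp

/-!
# Row 97, box cover in dimension n = 5 (generated)
-/

set_option autoImplicit false
set_option Elab.async false
set_option maxHeartbeats 0
set_option maxRecDepth 100000

open Crest.Agent.R097 Crest.Agent.R097.KA


namespace Crest.Agent.R097C5.N5pp

theorem L00138 : Good (Phi V5.P V5.D 1 1) ⟨2, 0, 2, 0, 2, 3, 2, 0, 4, 0⟩ :=
  leafX_sound T5.ok_pp T5.Ypp.bz_eq (w := 197) (c := ⟨⟨.ofNat 1084, .ofNat 77, .negSucc 187, .negSucc 752, .ofNat 300, .negSucc 1090⟩, ⟨.ofNat 181, .ofNat 0, .negSucc 35, .ofNat 264, .ofNat 62, .negSucc 244⟩, ⟨.negSucc 892, .negSucc 366, .ofNat 164, .ofNat 1175, .negSucc 209, .ofNat 93⟩, ⟨.ofNat 3315, .ofNat 61, .negSucc 812, .negSucc 2348, .ofNat 819, .negSucc 3023⟩, ⟨.ofNat 921, .ofNat 683, .negSucc 713, .ofNat 2096, .ofNat 275, .negSucc 1249⟩, .ofNat 586, .negSucc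 77, .ofNat 0, .negSucc 77, .ofNat 1126, .ofNat 0, .ofNat 226, .ofNat 4, .negSucc 156, .ofNat 0, .ofNat 128, .negSucc 6, .ofNat 0, .ofNat 0, .ofNat 462, .ofNat 1434, .ofNat 0, .ofNat 0, .ofNat 0, .ofNat 0, .ofNat 0, .ofNat 0, .ofNat 0, .ofNat 0, .ofNat 0, .ofNat 0, .ofNat 0, .ofNat 0, .ofNat 0, .ofNat 0, .ofNat 0, .ofNat 0⟩)
    (by decide +kernel)
theorem L00139 : Good (Phi V5.P V5.D 1 1) ⟨2, 0, 2, 0, 2, 3, 2, 1, 4, 0⟩ :=
  leafX_sound T5.ok_pp T5.Ypp.bz_eq (w := 197) (c := ⟨⟨.ofNat 1341, .negSucc 60, .negSucc 53, .negSucc 602, .negSucc 214, .negSucc 1090⟩, ⟨.ofNat 316, .negSucc 10, .ofNat 52, .ofNat 125, .negSucc 105, .negSucc 321⟩, ⟨.negSucc 1023, .negSucc 55, .negSucc 71, .ofNat 815, .ofNat 270, .ofNat 161⟩, ⟨.ofNat 3871, .negSucc 160, .negSucc 364, .negSucc 1822, .negSucc 616, .negSucc 3014⟩, ⟨.ofNat 1345, .ofNat 573, .negSucc 251, .ofNat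 1304, .negSucc 581, .negSucc 1469⟩, .ofNat 702, .negSucc 146, .ofNat 0, .negSucc 146, .ofNat 1645, .ofNat 0, .ofNat 155, .ofNat 56, .negSucc 141, .ofNat 0, .ofNat 128, .ofNat 8, .ofNat 0, .ofNat 0, .ofNat 358, .ofNat 658, .ofNat 0, .ofNat 0, .ofNat 0, .ofNat 0, .ofNat 0, .ofNat 0, .ofNat 0, .ofNat 0, .ofNat 0, .ofNat 0, .ofNat 0, .ofNat 0, .ofNat 0, .ofNat 0, .ofNat 0, .ofNat 0⟩)
    (by decide +kernel)
theorem L00140 : Good (Phi V5.P V5.D 1 1) ⟨2, 0, 2, 0, 2, 2, 2, 0, 4, 1⟩ :=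
  leafX_sound T5.ok_pp T5.Ypp.bz_eq (w := 197) (c := ⟨⟨.negSucc 321, .ofNat 4, .negSucc 115, .ofNat 143, .ofNat 108, .negSucc 815⟩, ⟨.negSucc 149, .ofNat 132, .negSucc 166, .ofNat 94, .ofNat 54, .negSucc 118⟩, ⟨.negSucc 269, .negSucc 234, .ofNat 252, .negSucc 498, .ofNat 187, .ofNat 475⟩, ⟨.negSucc 932, .ofNat 97, .negSucc 173, .ofNat 360, .ofNat 302, .negSucc 2411⟩, ⟨.negSucc 1046, .ofNat 433, .negSucc 157, .ofNat 500, .ofNat 307, .negSucc 318⟩, .ofNat 400, .negSucc 32, .ofNat 0, .negSucc 32, .ofNat 604, .ofNat 0, .ofNat 234, .negSucc 3, .negSucc 95, .ofNat 0, .ofNat 128, .ofNat 21, .ofNat 0, .ofNat 0, .ofNat 344, .ofNat 3045, .ofNat 1074707609088566197897224679618542305280, .ofNat 0, .ofNat 0, .ofNat 0, .ofNat 782686572008833138522450789663659524096, .ofNat 0, .ofNat 0, .ofNat 0, .ofNat 0, .ofNat 0, .ofNat 0, .ofNat 0, .ofNat 0, .ofNat 0, .ofNat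 0, .ofNat 0⟩)
    (by decide +kernel)
theorem L00141 : Good (Phi V5.P V5.D 1 1) ⟨2, 0, 2, 0, 2, 3, 2, 0, 4, 1⟩ :=
  leafX_sound T5.ok_pp T5.Ypp.bz_eq (w := 197) (c := ⟨⟨.negSucc 238, .negSucc 51, .negSucc 47, .negSucc 163, .ofNat 92, .negSucc 725⟩, ⟨.ofNat 19, .ofNat 87, .negSucc 267, .ofNat 208, .ofNat 8, .negSucc 121⟩, ⟨.negSucc 754, .negSucc 204, .ofNat 255, .ofNat 599, .ofNat 59, .ofNat 420⟩, ⟨.negSucc 772, .ofNat 14, .negSucc 165, .negSucc 543, .ofNat 288, .negSucc 2066⟩, ⟨.negSucc 132, .ofNat 617, .negSucc 655, .ofNat 1674, .ofNat 12, .negSucc 645⟩, .ofNat 586, .negSucc 77, .ofNat 0, .negSucc 77, .ofNat 1126, .ofNat 0, .ofNat 288, .negSucc 14, .negSucc 152, .ofNat 0, .ofNat 128, .ofNat 7, .ofNat 0, .ofNat 0, .ofNat 496, .ofNat 3089, .ofNat 985967576971222148771794875501227540480, .ofNat 0, .ofNat 0, .ofNat 0, .ofNat 0, .ofNat 0, .ofNat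 0, .ofNat 0, .ofNat 0, .ofNat 0, .ofNat 0, .ofNat 0, .ofNat 0, .ofNat 0, .ofNat 0, .ofNat 0⟩)
    (by decide +kernel)
theorem L00142 : Good (Phi V5.P V5.D 1 1) ⟨2, 0, 2, 0, 1, 1, 2, 1, 4, 1⟩ :=
  leafX_sound T5.ok_pp T5.Ypp.bz_eq (w := 182) (c := ⟨⟨.negSucc 105, .negSucc 47, .negSucc 127, .negSucc 45, .negSucc 64, .negSucc 823⟩, ⟨.negSucc 29, .ofNat 91, .negSucc 213, .ofNat 127, .negSucc 36, .negSucc 107⟩, ⟨.negSucc 416, .negSucc 47, .ofNat 105, .negSucc 84, .ofNat 254, .ofNat 593⟩, ⟨.negSucc 467, .negSucc 36, .negSucc 299, .negSucc 139, .negSucc 160, .negSucc 2198⟩, ⟨.negSucc 371, .ofNat 356, .negSucc 308, .ofNat 980, .negSucc 172, .negSucc 485⟩, .ofNat 702, .negSucc 134, .ofNat 0, .negSucc 134, .ofNat 1631, .ofNat 0, .ofNat 215, .ofNat 32, .negSucc 131, .ofNat 0, .ofNat 128, .ofNat 11, .ofNat 0, .ofNat 0, .ofNat 405, .ofNat 1083, .ofNat 0,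 .ofNat 0, .ofNat 0, .ofNat 0, .ofNat 0, .ofNat 0, .ofNat 0, .ofNat 0, .ofNat 0, .ofNat 0, .ofNat 0, .ofNat 0, .ofNat 0, .ofNat 0, .ofNat 0, .ofNat 0⟩)
    (by decide +kernel)
theorem L00143 : Good (Phi V5.P V5.D 1 1) ⟨2, 0, 2, 0, 2, 2, 2, 0, 4, 2⟩ :=
  leafX_sound T5.ok_pp T5.Ypp.bz_eq (w := 198) (c := ⟨⟨.negSucc 1030, .negSucc 98, .negSucc 41, .ofNat 6, .ofNat 48, .negSucc 286⟩, ⟨.negSucc 125, .ofNat 151, .negSucc 303, .ofNat 4, .ofNat 21, .negSucc 15⟩, ⟨.ofNat 151, .negSucc 106, .ofNat 90, .negSucc 378, .ofNat 238, .ofNat 453⟩, ⟨.negSucc 3134, .negSucc 39, .ofNat 63, .ofNat 43, .ofNat 119, .negSucc 843⟩, ⟨.negSucc 932, .ofNat 364, .negSucc 133, .ofNat 8, .ofNat 192, .ofNat 72⟩, .ofNat 400, .negSucc 29, .ofNat 0, .negSucc 29, .ofNat 599, .ofNat 0, .ofNat 312, .ofNat 1, .negSucc 124, .ofNat 0, .ofNat 128, .ofNat 38, .ofNat 0, .ofNat 0, .ofNat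 577, .ofNat 3833, .ofNat 811686076121691228175115711212425314304, .ofNat 0, .ofNat 0, .ofNat 0, .ofNat 0, .ofNat 0, .ofNat 0, .ofNat 0, .ofNat 2578170894646907107044575392030540169216, .ofNat 0, .ofNat 0, .ofNat 0, .ofNat 0, .ofNat 0, .ofNat 0, .ofNat 0⟩)
    (by decide +kernel)
theorem L00144 : Good (Phi V5.P V5.D 1 1) ⟨2, 0, 2, 0, 2, 2, 2, 1, 4, 2⟩ :=
  leafX_sound T5.ok_pp T5.Ypp.bz_eq (w := 198) (c := ⟨⟨.negSucc 970, .negSucc 111, .negSucc 68, .negSucc 34, .ofNat 25, .negSucc 250⟩, ⟨.negSucc 77, .ofNat 122, .negSucc 298, .negSucc 17, .ofNat 20, .negSucc 31⟩, ⟨.ofNat 284, .ofNat 79, .ofNat 82, .negSucc 260, .ofNat 209, .ofNat 363⟩, ⟨.negSucc 2970, .negSucc 78, .negSucc 26, .negSucc 78, .ofNat 43, .negSucc 726⟩, ⟨.negSucc 586, .ofNat 206, .negSucc 77, .negSucc 99, .ofNat 91, .negSucc 58⟩, .ofNat 585, .negSucc 93, .ofNat 0, .negSucc 93, .ofNat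 1149, .ofNat 0, .ofNat 329, .ofNat 28, .negSucc 135, .ofNat 0, .ofNat 128, .ofNat 18, .ofNat 0, .ofNat 0, .ofNat 623, .ofNat 3779, .ofNat 0, .ofNat 0, .ofNat 0, .ofNat 0, .ofNat 0, .ofNat 0, .ofNat 0, .ofNat 0, .ofNat 0, .ofNat 0, .ofNat 0, .ofNat 0, .ofNat 0, .ofNat 0, .ofNat 0, .ofNat 0⟩)
    (by decide +kernel)
theorem L00145 : Good (Phi V5.P V5.D 1 1) ⟨2, 0, 2, 0, 2, 3, 3, 0, 4, 2⟩ :=
  leafX_sound T5.ok_pp T5.Ypp.bz_eq (w := 203) (c := ⟨⟨.negSucc 1031, .negSucc 80, .negSucc 6, .ofNat 39, .negSucc 25, .negSucc 238⟩, ⟨.negSucc 64, .ofNat 161, .negSucc 344, .ofNat 137, .negSucc 4, .negSucc 66⟩, ⟨.negSucc 126, .negSucc 134, .ofNat 139, .ofNat 234, .ofNat 49, .ofNat 374⟩, ⟨.negSucc 3137, .ofNat 13, .ofNat 56, .ofNat 89, .negSucc 82, .negSucc 644⟩, ⟨.negSucc 584, .ofNat 697, .negSucc 497, .ofNat 1067, .ofNat 50, .negSucc 396⟩, .ofNat 652, .negSucc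 113, .ofNat 0, .negSucc 113, .ofNat 1435, .ofNat 0, .ofNat 213, .negSucc 5, .negSucc 63, .ofNat 0, .ofNat 128, .ofNat 4, .ofNat 0, .ofNat 0, .ofNat 335, .ofNat 7580, .ofNat 17357314738313345028279431169611166384128, .ofNat 0, .ofNat 0, .ofNat 0, .ofNat 0, .ofNat 0, .ofNat 0, .ofNat 0, .ofNat 0, .ofNat 0, .ofNat 0, .ofNat 0, .ofNat 33845325652959736257549076696573449076736, .ofNat 0, .ofNat 0, .ofNat 0⟩)
    (by decide +kernel)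
theorem L00146 : Good (Phi V5.P V5.D 1 1) ⟨2, 0, 2, 0, 2, 3, 3, 1, 4, 2⟩ :=
  leafX_sound T5.ok_pp T5.Ypp.bz_eq (w := 202) (c := ⟨⟨.negSucc 1012, .negSucc 128, .negSucc 32, .ofNat 18, .negSucc 17, .negSucc 255⟩, ⟨.negSucc 60, .ofNat 145, .negSucc 344, .ofNat 123, .negSucc 3, .negSucc 52⟩, ⟨.negSucc 83, .negSucc 34, .ofNat 115, .ofNat 157, .ofNat 96, .ofNat 398⟩, ⟨.negSucc 3049, .negSucc 119, .negSucc 3, .negSucc 9, .negSucc 57, .negSucc 747⟩, ⟨.negSucc 535, .ofNat 590, .negSucc 401, .ofNat 979, .negSucc 36, .negSucc 304⟩, .ofNat 581, .negSucc 68, .ofNat 0, .negSucc 68, .ofNat 1142, .ofNat 0, .ofNat 146, .negSucc 5, .negSucc 47, .ofNat 0, .ofNat 128, .ofNat 6, .ofNat 0, .ofNat 0, .ofNat 203, .ofNat 3080, .ofNat 0, .ofNat 0, .ofNat 0, .ofNat 0, .ofNat 0, .ofNat 0, .ofNat 0, .ofNat 0, .ofNat 0, .ofNat 0, .ofNat 0, .ofNat 0, .ofNat 0, .ofNat 0, .ofNat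 0, .ofNat 0⟩)
    (by decide +kernel)
theorem L00147 : Good (Phi V5.P V5.D 1 1) ⟨2, 0, 2, 0, 2, 3, 2, 1, 4, 2⟩ :=
  leafX_sound T5.ok_pp T5.Ypp.bz_eq (w := 197) (c := ⟨⟨.negSucc 996, .negSucc 156, .negSucc 25, .negSucc 69, .negSucc 58, .negSucc 243⟩, ⟨.negSucc 63, .ofNat 139, .negSucc 340, .ofNat 77, .negSucc 0, .negSucc 37⟩, ⟨.negSucc 0, .ofNat 112, .ofNat 41, .ofNat 110, .ofNat 286, .ofNat 385⟩, ⟨.negSucc 3012, .negSucc 190, .ofNat 26, .negSucc 258, .negSucc 181, .negSucc 694⟩, ⟨.negSucc 676, .ofNat 465, .negSucc 253, .ofNat 720, .ofNat 46, .negSucc 54⟩, .ofNat 582, .negSucc 92, .ofNat 0, .negSucc 92, .ofNat 1168, .ofNat 0, .ofNat 292, .ofNat 18, .negSucc 71, .ofNat 0, .ofNat 128, .ofNat 9, .ofNat 0, .ofNat 0, .ofNat 262, .ofNat 1377, .ofNat 0, .ofNat 0, .ofNat 0, .ofNat 0, .ofNat 0, .ofNat 0, .ofNat 0, .ofNat 0, .ofNat 0, .ofNat 0, .ofNat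 0, .ofNat 0, .ofNat 0, .ofNat 0, .ofNat 0, .ofNat 0⟩)
    (by decide +kernel)
theorem L00148 : Good (Phi V5.P V5.D 1 1) ⟨2, 0, 2, 0, 2, 2, 1, 0, 4, 3⟩ :=
  leafX_sound T5.ok_pp T5.Ypp.bz_eq (w := 194) (c := ⟨⟨.negSucc 1290, .negSucc 87, .negSucc 43, .negSucc 11, .ofNat 63, .negSucc 19⟩, ⟨.negSucc 110, .ofNat 130, .negSucc 322, .negSucc 9, .ofNat 31, .negSucc 0⟩, ⟨.ofNat 523, .ofNat 40, .ofNat 90, .negSucc 277, .ofNat 305, .ofNat 248⟩, ⟨.negSucc 3897, .ofNat 17, .ofNat 30, .negSucc 27, .ofNat 146, .negSucc 43⟩, ⟨.negSucc 735, .ofNat 221, .negSucc 73, .negSucc 81, .ofNat 184, .ofNat 36⟩, .ofNat 585, .negSucc 91, .ofNat 0, .negSucc 91, .ofNat 1147, .ofNat 0, .ofNat 279, .ofNat 23, .negSucc 104, .ofNat 0, .ofNat 128, .ofNat 20, .ofNat 0, .ofNat 0, .ofNat 755, .ofNat 4182, .ofNat 66074247725220030195345175441706057728, .ofNat 0, .ofNat 0, .ofNat 0,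 .ofNat 0, .ofNat 0, .ofNat 0, .ofNat 0, .ofNat 0, .ofNat 0, .ofNat 0, .ofNat 0, .ofNat 908594215671411618513162137819221590016, .ofNat 0, .ofNat 0, .ofNat 0⟩)
    (by decide +kernel)
theorem L00149 : Good (Phi V5.P V5.D 1 1) ⟨2, 0, 2, 0, 2, 3, 2, 0, 4, 3⟩ :=
  leafX_sound T5.ok_pp T5.Ypp.bz_eq (w := 198) (c := ⟨⟨.negSucc 1277, .negSucc 106, .negSucc 5, .ofNat 108, .negSucc 57, .ofNat 23⟩, ⟨.negSucc 106, .ofNat 154, .negSucc 348, .ofNat 80, .negSucc 0, .negSucc 9⟩, ⟨.ofNat 305, .negSucc 36, .ofNat 86, .ofNat 35, .ofNat 162, .ofNat 244⟩, ⟨.negSucc 3831, .negSucc 41, .ofNat 133, .ofNat 264, .negSucc 183, .ofNat 75⟩, ⟨.negSucc 690, .ofNat 481, .negSucc 350, .ofNat 514, .negSucc 1, .negSucc 101⟩, .ofNat 652, .negSucc 105, .ofNat 0, .negSucc 105, .ofNat 1419, .ofNat 0, .ofNat 244, .ofNat 4, .negSucc 42, .ofNat 0, .ofNat 128, .ofNat 7, .ofNat 0, .ofNat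 0, .ofNat 341, .ofNat 3565, .ofNat 574685004356256947977636889675167694848, .ofNat 0, .ofNat 0, .ofNat 0, .ofNat 0, .ofNat 0, .ofNat 0, .ofNat 0, .ofNat 0, .ofNat 0, .ofNat 0, .ofNat 0, .ofNat 3059776601796410165719153893690023346176, .ofNat 0, .ofNat 0, .ofNat 0⟩)
    (by decide +kernel)
theorem L00150 : Good (Phi V5.P V5.D 1 1) ⟨2, 0, 2, 0, 2, 3, 2, 1, 4, 3⟩ :=
  leafX_sound T5.ok_pp T5.Ypp.bz_eq (w := 197) (c := ⟨⟨.negSucc 1295, .negSucc 144, .negSucc 11, .ofNat 7, .negSucc 50, .ofNat 38⟩, ⟨.negSucc 96, .ofNat 138, .negSucc 349, .ofNat 63, .ofNat 14, .negSucc 4⟩, ⟨.ofNat 414, .ofNat 131, .ofNat 11, .ofNat 71, .ofNat 256, .ofNat 203⟩, ⟨.negSucc 3873, .negSucc 171, .ofNat 92, .negSucc 9, .negSucc 146, .ofNat 92⟩, ⟨.negSucc 682, .ofNat 390, .negSucc 234, .ofNat 477, .ofNat 129, .negSucc 39⟩, .ofNat 586, .negSucc 77, .ofNat 0, .negSucc 77, .ofNat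 1126, .ofNat 0, .ofNat 275, .ofNat 10, .negSucc 56, .ofNat 0, .ofNat 128, .ofNat 10, .ofNat 0, .ofNat 0, .ofNat 350, .ofNat 1911, .ofNat 0, .ofNat 0, .ofNat 0, .ofNat 0, .ofNat 0, .ofNat 0, .ofNat 0, .ofNat 0, .ofNat 0, .ofNat 0, .ofNat 0, .ofNat 0, .ofNat 0, .ofNat 0, .ofNat 0, .ofNat 0⟩)
    (by decide +kernel)
theorem L00151 : Good (Phi V5.P V5.D 1 1) ⟨2, 0, 2, 0, 2, 2, 2, 0, 4, 4⟩ :=
  leafX_sound T5.ok_pp T5.Ypp.bz_eq (w := 199) (c := ⟨⟨.negSucc 1279, .negSucc 107, .negSucc 16, .ofNat 7, .negSucc 2, .ofNat 81⟩, ⟨.negSucc 103, .ofNat 112, .negSucc 308, .negSucc 6, .ofNat 12, .ofNat 12⟩, ⟨.ofNat 804, .ofNat 49, .ofNat 48, .negSucc 267, .ofNat 116, .ofNat 166⟩, ⟨.negSucc 3854, .negSucc 18, .ofNat 74, .ofNat 20, .negSucc 40, .ofNat 241⟩, ⟨.negSucc 680, .ofNat 138, .negSucc 56, .negSucc 91, .ofNat 119, .ofNat 33⟩, .ofNat 583, .negSucc 83, .ofNat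 0, .negSucc 83, .ofNat 1147, .ofNat 0, .ofNat 202, .ofNat 20, .negSucc 30, .ofNat 0, .ofNat 128, .ofNat 9, .ofNat 0, .ofNat 0, .ofNat 388, .ofNat 10377, .ofNat 1870437045303199816586880642977235992576, .ofNat 0, .ofNat 0, .ofNat 0, .ofNat 0, .ofNat 0, .ofNat 0, .ofNat 0, .ofNat 0, .ofNat 0, .ofNat 0, .ofNat 0, .ofNat 13022329321296872337759073427120560537600, .ofNat 0, .ofNat 0, .ofNat 0⟩)
    (by decide +kernel)
theorem L00152 : Good (Phi V5.P V5.D 1 1) ⟨2, 0, 2, 0, 2, 2, 2, 1, 4, 4⟩ :=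
  leafX_sound T5.ok_pp T5.Ypp.bz_eq (w := 200) (c := ⟨⟨.negSucc 1266, .negSucc 105, .negSucc 31, .negSucc 14, .ofNat 20, .ofNat 85⟩, ⟨.negSucc 85, .ofNat 107, .negSucc 310, .negSucc 14, .ofNat 12, .ofNat 16⟩, ⟨.ofNat 866, .ofNat 121, .ofNat 28, .negSucc 174, .ofNat 97, .ofNat 132⟩, ⟨.negSucc 3832, .negSucc 43, .ofNat 44, .negSucc 16, .ofNat 48, .ofNat 226⟩, ⟨.negSucc 522, .ofNat 95, .negSucc 54, .negSucc 124, .ofNat 55, .ofNat 57⟩, .ofNat 651, .negSucc 115, .ofNat 0, .negSucc 115, .ofNat 1443, .ofNat 0, .ofNat 358, .ofNat 26, .negSucc 80, .ofNat 0, .ofNat 128, .ofNat 13, .ofNat 0, .ofNat 0, .ofNat 901, .ofNat 8026, .ofNat 956278175360038182508035932218938359808, .ofNat 0, .ofNat 0, .ofNat 0, .ofNat 0, .ofNat 0, .ofNat 0, .ofNat 0, .ofNat 0, .ofNat 0, .ofNat 0, .ofNat 0, .ofNat 0, .ofNat 0, .ofNat 0, .ofNat 0⟩)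
    (by decide +kernel)
theorem L00153 : Good (Phi V5.P V5.D 1 1) ⟨2, 0, 2, 0, 2, 3, 1, 0, 4, 4⟩ :=
  leafX_sound T5.ok_pp T5.Ypp.bz_eq (w := 192) (c := ⟨⟨.negSucc 1257, .negSucc 115, .ofNat 1, .ofNat 120, .negSucc 118, .ofNat 109⟩, ⟨.negSucc 120, .ofNat 134, .negSucc 322, .ofNat 66, .ofNat 19, .ofNat 20⟩, ⟨.ofNat 487, .ofNat 40, .ofNat 26, .ofNat 58, .ofNat 422, .ofNat 170⟩, ⟨.negSucc 3728, .negSucc 83, .ofNat 122, .ofNat 314, .negSucc 371, .ofNat 269⟩, ⟨.negSucc 778, .ofNat 356, .negSucc 257, .ofNat 441, .ofNat 231, .ofNat 43⟩, .ofNat 586, .negSucc 77, .ofNat 0, .negSucc 77, .ofNat 1126, .ofNat 0, .ofNat 216, .ofNat 8, .negSucc 33, .ofNat 0, .ofNat 128, .ofNat 9, .ofNat 0, .ofNat 0, .ofNat 500, .ofNat 793, .ofNat 11173944594761004144059141521227644928, .ofNat 0, .ofNat 0, .ofNat 0, .ofNat 0, .ofNat 0, .ofNat 0, .ofNat 0, .ofNat 0, .ofNat 0,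 .ofNat 0, .ofNat 0, .ofNat 0, .ofNat 45131611225105660456388269270617817088, .ofNat 0, .ofNat 0⟩)
    (by decide +kernel)
theorem L00154 : Good (Phi V5.P V5.D 1 1) ⟨2, 0, 2, 0, 2, 2, 2, 0, 4, 5⟩ :=
  leafX_sound T5.ok_pp T5.Ypp.bz_eq (w := 202) (c := ⟨⟨.negSucc 1221, .negSucc 105, .negSucc 16, .ofNat 45, .negSucc 7, .ofNat 104⟩, ⟨.negSucc 106, .ofNat 105, .negSucc 293, .negSucc 1, .ofNat 19, .ofNat 19⟩, ⟨.ofNat 972, .ofNat 39, .ofNat 11, .negSucc 205, .ofNat 88, .ofNat 183⟩, ⟨.negSucc 3686, .negSucc 48, .ofNat 88, .ofNat 118, .negSucc 22, .ofNat 299⟩, ⟨.negSucc 696, .ofNat 128, .negSucc 69, .negSucc 63, .ofNat 167, .ofNat 82⟩, .ofNat 399, .negSucc 26, .ofNat 0, .negSucc 26, .ofNat 605, .ofNat 0, .ofNat 202, .ofNat 4, .negSucc 41, .ofNat 0, .ofNat 128, .ofNat 22, .ofNat 0, .ofNat 0, .ofNat 793, .ofNat 42941, .ofNat 11754655570441099943194396713015184457728,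 .ofNat 0, .ofNat 0, .ofNat 0, .ofNat 44261944377054137018228527549977911623680, .ofNat 0, .ofNat 0, .ofNat 0, .ofNat 20710033058799780683184036277405148512256, .ofNat 0, .ofNat 0, .ofNat 0, .ofNat 69905935541545138400498102929641047064576, .ofNat 0, .ofNat 0, .ofNat 0⟩)
    (by decide +kernel)
theorem L00155 : Good (Phi V5.P V5.D 1 1) ⟨2, 0, 2, 0, 2, 3, 2, 0, 4, 5⟩ :=
  leafX_sound T5.ok_pp T5.Ypp.bz_eq (w := 195) (c := ⟨⟨.negSucc 1151, .negSucc 106, .negSucc 6, .ofNat 90, .negSucc 51, .ofNat 117⟩, ⟨.negSucc 100, .ofNat 114, .negSucc 296, .ofNat 33, .ofNat 5, .ofNat 24⟩, ⟨.ofNat 751, .ofNat 8, .ofNat 2, .negSucc 15, .ofNat 122, .ofNat 189⟩, ⟨.negSucc 3483, .negSucc 80, .ofNat 121, .ofNat 301, .negSucc 134, .ofNat 321⟩, ⟨.negSucc 708, .ofNat 233, .negSucc 159, .ofNat 235, .ofNat 91, .ofNat 102⟩, .ofNat 585, .negSucc 81, .ofNat 0, .negSucc 81,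 .ofNat 1130, .ofNat 0, .ofNat 128, .ofNat 14, .negSucc 7, .ofNat 0, .ofNat 142, .ofNat 4, .ofNat 0, .ofNat 0, .ofNat 266, .ofNat 257, .ofNat 62937375672603275993214222646110060544, .ofNat 0, .ofNat 0, .ofNat 0, .ofNat 0, .ofNat 0, .ofNat 0, .ofNat 0, .ofNat 0, .ofNat 0, .ofNat 0, .ofNat 0, .ofNat 2920434062185073483050308519252801355776, .ofNat 138465666375730593737259299377501962240, .ofNat 0, .ofNat 0⟩)
    (by decide +kernel)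
theorem L00156 : Good (Phi V5.P V5.D 1 1) ⟨3, 0, 2, 0, 3, 4, 3, 2, 4, 5⟩ :=
  leafX_sound T5.ok_pp T5.Ypp.bz_eq (w := 224) (c := ⟨⟨.negSucc 1202, .negSucc 26, .negSucc 25, .negSucc 4, .ofNat 14, .ofNat 85⟩, ⟨.negSucc 75, .ofNat 49, .negSucc 290, .negSucc 10, .ofNat 9, .ofNat 18⟩, ⟨.ofNat 1062, .ofNat 36, .negSucc 19, .negSucc 88, .negSucc 1, .ofNat 130⟩, ⟨.negSucc 3619, .negSucc 21, .ofNat 40, .negSucc 10, .ofNat 44, .ofNat 251⟩, ⟨.negSucc 473, .ofNat 20, .negSucc 24, .negSucc 76, .ofNat 45, .ofNat 63⟩, .ofNat 405, .negSucc 32, .ofNat 0, .negSucc 32, .ofNat 583, .ofNat 0, .ofNat 167, .ofNat 12, .negSucc 38, .ofNat 0, .ofNat 128, .ofNat 14, .ofNat 0, .ofNat 0, .ofNat 589, .ofNat 57634, .ofNat 4959489616061293145251726053248888404778680320, .ofNat 0, .ofNat 0, .ofNat 0, .ofNat 6172198999721198194897429796432769138229772288, .ofNat 0, .ofNat 0,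 .ofNat 0, .ofNat 0, .ofNat 0, .ofNat 0, .ofNat 0, .ofNat 12952272602219022183636678364985317780575223808, .ofNat 0, .ofNat 0, .ofNat 0⟩)
    (by decide +kernel)
theorem L00157 : Good (Phi V5.P V5.D 1 1) ⟨3, 1, 2, 0, 3, 4, 3, 2, 4, 5⟩ :=
  leafX_sound T5.ok_pp T5.Ypp.bz_eq (w := 225) (c := ⟨⟨.negSucc 1221, .negSucc 83, .negSucc 22, .negSucc 10, .ofNat 6, .ofNat 87⟩, ⟨.negSucc 22, .ofNat 37, .negSucc 287, .negSucc 7, .ofNat 3, .ofNat 13⟩, ⟨.ofNat 1076, .ofNat 84, .negSucc 23, .negSucc 81, .ofNat 30, .ofNat 110⟩, ⟨.negSucc 3610, .negSucc 25, .ofNat 39, .negSucc 27, .ofNat 19, .ofNat 242⟩, ⟨.negSucc 443, .ofNat 21, .negSucc 21, .negSucc 64, .ofNat 32, .ofNat 46⟩, .ofNat 573, .negSucc 72, .ofNat 0, .negSucc 72, .ofNat 1212, .ofNat 0, .ofNat 180, .ofNat 20, .negSucc 40, .ofNat 0, .ofNat 128, .ofNat 9, .ofNat 0, .ofNat 0, .ofNat 725, .ofNat 67309, .ofNat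 8381318220510752435316467427490521590867689472, .ofNat 0, .ofNat 0, .ofNat 0, .ofNat 414065485456286668814728810103451985928781824, .ofNat 0, .ofNat 0, .ofNat 0, .ofNat 0, .ofNat 0, .ofNat 0, .ofNat 0, .ofNat 17177779687062255795776130031321396171285463040, .ofNat 0, .ofNat 0, .ofNat 0⟩)
    (by decide +kernel)
theorem L00158 : Good (Phi V5.P V5.D 1 1) ⟨2, 0, 2, 0, 3, 4, 3, 3, 4, 5⟩ :=
  leafX_sound T5.ok_pp T5.Ypp.bz_eq (w := 219) (c := ⟨⟨.negSucc 1170, .negSucc 120, .negSucc 27, .negSucc 6, .ofNat 14, .ofNat 81⟩, ⟨.negSucc 62, .ofNat 81, .negSucc 288, .negSucc 8, .ofNat 6, .ofNat 15⟩, ⟨.ofNat 1029, .ofNat 148, .negSucc 46, .negSucc 27, .ofNat 9, .ofNat 102⟩, ⟨.negSucc 3558, .negSucc 73, .ofNat 41, .negSucc 25, .ofNat 29, .ofNat 238⟩, ⟨.negSucc 419, .ofNat 9, .negSucc 25, .negSucc 62, .ofNat 39, .ofNat 56⟩, .ofNat 400, .negSucc 32, .ofNat 0,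 .negSucc 32, .ofNat 604, .ofNat 0, .ofNat 374, .ofNat 13, .negSucc 52, .ofNat 0, .ofNat 128, .ofNat 12, .ofNat 0, .ofNat 0, .ofNat 751, .ofNat 17309, .ofNat 0, .ofNat 0, .ofNat 0, .ofNat 0, .ofNat 0, .ofNat 0, .ofNat 0, .ofNat 0, .ofNat 0, .ofNat 0, .ofNat 0, .ofNat 0, .ofNat 0, .ofNat 0, .ofNat 0, .ofNat 0⟩)
    (by decide +kernel)
theorem L00159 : Good (Phi V5.P V5.D 1 1) ⟨2, 0, 2, 0, 3, 5, 2, 1, 4, 5⟩ :=
  leafX_sound T5.ok_pp T5.Ypp.bz_eq (w := 213) (c := ⟨⟨.negSucc 1188, .negSucc 119, .negSucc 23, .ofNat 11, .negSucc 1, .ofNat 104⟩, ⟨.negSucc 86, .ofNat 92, .negSucc 290, .ofNat 1, .ofNat 17, .ofNat 22⟩, ⟨.ofNat 894, .ofNat 145, .negSucc 38, .negSucc 17, .ofNat 122, .ofNat 142⟩, ⟨.negSucc 3609, .negSucc 101, .ofNat 76, .ofNat 39, .negSucc 9, .ofNat 290⟩, ⟨.negSucc 557, .ofNat 58, .negSucc 59, .negSucc 6, .ofNat 125, .ofNat 67⟩, .ofNat 588,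 .negSucc 89, .ofNat 0, .negSucc 89, .ofNat 1125, .ofNat 0, .ofNat 334, .ofNat 22, .negSucc 24, .ofNat 0, .ofNat 128, .ofNat 6, .ofNat 0, .ofNat 0, .ofNat 698, .ofNat 5433, .ofNat 0, .ofNat 0, .ofNat 0, .ofNat 0, .ofNat 0, .ofNat 0, .ofNat 0, .ofNat 0, .ofNat 0, .ofNat 0, .ofNat 0, .ofNat 0, .ofNat 0, .ofNat 1847708382117928172132871321067901945905152, .ofNat 0, .ofNat 0⟩)
    (by decide +kernel)
theorem L00160 : Good (Phi V5.P V5.D 1 1) ⟨2, 0, 2, 0, 2, 3, 2, 1, 4, 5⟩ :=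
  leafX_sound T5.ok_pp T5.Ypp.bz_eq (w := 197) (c := ⟨⟨.negSucc 1181, .negSucc 128, .negSucc 8, .ofNat 81, .negSucc 11, .ofNat 111⟩, ⟨.negSucc 87, .ofNat 102, .negSucc 295, .ofNat 32, .ofNat 22, .ofNat 23⟩, ⟨.ofNat 842, .ofNat 97, .negSucc 17, .ofNat 3, .ofNat 184, .ofNat 170⟩, ⟨.negSucc 3572, .negSucc 126, .ofNat 108, .ofNat 236, .negSucc 72, .ofNat 317⟩, ⟨.negSucc 594, .ofNat 161, .negSucc 117, .ofNat 214, .ofNat 188, .ofNat 90⟩, .ofNat 584, .negSucc 90, .ofNat 0, .negSucc 90, .ofNat 1152, .ofNat 0, .ofNat 225, .ofNat 17, .negSucc 14, .ofNat 0, .ofNat 128, .ofNat 7, .ofNat 0, .ofNat 0, .ofNat 677, .ofNat 1550, .ofNat 0, .ofNat 0, .ofNat 0, .ofNat 0, .ofNat 0, .ofNat 0, .ofNat 0, .ofNat 0, .ofNat 0, .ofNat 0, .ofNat 0, .ofNat 0, .ofNat 0, .ofNat 1113151180683713354207729737751676846080, .ofNat 0, .ofNat 0⟩)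
    (by decide +kernel)
theorem L00161 : Good (Phi V5.P V5.D 1 1) ⟨2, 0, 2, 0, 2, 2, 1, 0, 3, 3⟩ :=
  leafX_sound T5.ok_pp T5.Ypp.bz_eq (w := 188) (c := ⟨⟨.negSucc 1065, .negSucc 128, .negSucc 13, .negSucc 0, .negSucc 12, .ofNat 153⟩, ⟨.negSucc 67, .ofNat 71, .negSucc 267, .negSucc 6, .ofNat 17, .ofNat 21⟩, ⟨.ofNat 1003, .ofNat 141, .negSucc 137, .ofNat 66, .ofNat 150, .ofNat 308⟩, ⟨.negSucc 3255, .negSucc 106, .ofNat 48, .ofNat 19, .negSucc 41, .ofNat 461⟩, ⟨.negSucc 477, .negSucc 13, .negSucc 14, .negSucc 58, .ofNat 142, .ofNat 72⟩, .ofNat 585, .negSucc 91, .ofNat 0, .negSucc 91, .ofNat 1149, .ofNat 0, .ofNat 216, .ofNat 25, .negSucc 17, .ofNat 0, .ofNat 128, .ofNat 1, .ofNat 0, .ofNat 0, .ofNat 921, .ofNat 1370, .ofNat 11036226650042253693892497334605971456, .ofNat 0, .ofNat 0, .ofNat 0, .ofNat 0, .ofNat 0, .ofNat 0, .ofNat 0, .ofNat 0, .ofNat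 0, .ofNat 0, .ofNat 0, .ofNat 744928754364530225508874849883485372416, .ofNat 57815574713584301398969761215794905088, .ofNat 0, .ofNat 0⟩)
    (by decide +kernel)
theorem L00162 : Good (Phi V5.P V5.D 1 1) ⟨2, 0, 2, 0, 2, 3, 1, 0, 3, 3⟩ :=
  leafX_sound T5.ok_pp T5.Ypp.bz_eq (w := 189) (c := ⟨⟨.negSucc 1059, .negSucc 122, .negSucc 5, .ofNat 97, .negSucc 31, .ofNat 1⟩, ⟨.negSucc 83, .ofNat 92, .negSucc 272, .ofNat 16, .ofNat 21, .ofNat 0⟩, ⟨.ofNat 929, .ofNat 54, .negSucc 70, .ofNat 22, .ofNat 321, .negSucc 0⟩, ⟨.negSucc 3222, .negSucc 92, .ofNat 92, .ofNat 237, .negSucc 77, .ofNat 2⟩, ⟨.negSucc 609, .ofNat 117, .negSucc 74, .ofNat 51, .ofNat 216, .ofNat 0⟩, .ofNat 399, .negSucc 29, .ofNat 0, .negSucc 29, .ofNat 603, .ofNat 0, .ofNat 244, .ofNat 5, .negSucc 6, .ofNat 0, .ofNat 128, .ofNat 10, .ofNat 0, .ofNat 0, .ofNat 704, .ofNat 3169, .ofNat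 0, .ofNat 0, .ofNat 0, .ofNat 0, .ofNat 386471203122675134861975062676892549120, .ofNat 96544844173576966412099926754261467136, .ofNat 0, .ofNat 0, .ofNat 159397557777353634640325796487000752128, .ofNat 51021578534898802795653460318402641920, .ofNat 0, .ofNat 0, .ofNat 928105636057664148994802778801644240896, .ofNat 151643053372311384376486938615396433920, .ofNat 0, .ofNat 0⟩)
    (by decide +kernel)
theorem L00163 : Good (Phi V5.P V5.D 1 1) ⟨2, 0, 2, 0, 3, 4, 1, 0, 3, 4⟩ :=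
  out_sound (S := T5.ds_pp) T5.ok_pp (w := 23) (j := 1) (by decide +kernel)
theorem L00164 : Good (Phi V5.P V5.D 1 1) ⟨2, 0, 2, 0, 3, 5, 1, 0, 3, 4⟩ :=
  out_sound (S := T5.ds_pp) T5.ok_pp (w := 28) (j := 2) (by decide +kernel)
theorem L00165 : Good (Phi V5.P V5.D 1 1) ⟨2, 0, 2, 0, 2, 2, 1, 0, 3, 5⟩ :=
  out_sound (S := T5.ds_pp) T5.ok_pp (w := 21) (j := 1) (by decide +kernel)
theorem L00166 : Good (Phi V5.P V5.D 1 1) ⟨2, 0, 2, 0, 2, 2, 1, 0, 2, 3⟩ :=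
  out_sound (S := T5.ds_pp) T5.ok_pp (w := 19) (j := 1) (by decide +kernel)
theorem L00167 : Good (Phi V5.P V5.D 1 1) ⟨2, 0, 2, 0, 2, 3, 1, 0, 1, 1⟩ :=
  out_sound (S := T5.ds_pp) T5.ok_pp (w := 22) (j := 2) (by decide +kernel)
theorem L00168 : Good (Phi V5.P V5.D 1 1) ⟨2, 0, 2, 0, 1, 1, 2, 2, 3, 0⟩ :=
  leafX_sound T5.ok_pp T5.Ypp.bz_eq (w := 177) (c := ⟨⟨.ofNat 824, .negSucc 111, .negSucc 184, .negSucc 424, .negSucc 400, .negSucc 1399⟩, ⟨.ofNat 42, .ofNat 51, .negSucc 122, .ofNat 56, .negSucc 11, .negSucc 209⟩, ⟨.negSucc 903, .ofNat 139, .ofNat 78, .ofNat 438, .ofNat 626, .ofNat 844⟩, ⟨.ofNat 2432, .negSucc 348, .negSucc 521, .negSucc 1265, .negSucc 1170, .negSucc 4045⟩, ⟨.negSucc 174, .ofNat 614, .ofNat 18, .ofNat 645, .negSucc 333, .negSucc 668⟩, .ofNat 579, .negSucc 70, .ofNat 0, .negSucc 70, .ofNat 1158, .ofNat 0, .ofNat 189, .ofNat 45,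 .negSucc 126, .ofNat 0, .ofNat 128, .ofNat 17, .ofNat 0, .ofNat 0, .ofNat 296, .ofNat 228, .ofNat 0, .ofNat 0, .ofNat 0, .ofNat 0, .ofNat 0, .ofNat 0, .ofNat 0, .ofNat 0, .ofNat 0, .ofNat 0, .ofNat 0, .ofNat 0, .ofNat 0, .ofNat 0, .ofNat 0, .ofNat 0⟩)
    (by decide +kernel)
theorem L00169 : Good (Phi V5.P V5.D 1 1) ⟨2, 0, 2, 0, 1, 1, 2, 2, 4, 2⟩ :=
  leafX_sound T5.ok_pp T5.Ypp.bz_eq (w := 182) (c := ⟨⟨.negSucc 934, .negSucc 161, .negSucc 46, .negSucc 290, .negSucc 34, .negSucc 190⟩, ⟨.negSucc 70, .ofNat 83, .negSucc 331, .ofNat 33, .ofNat 54, .negSucc 8⟩, ⟨.ofNat 372, .ofNat 212, .negSucc 26, .ofNat 44, .ofNat 345, .ofNat 307⟩, ⟨.negSucc 2802, .negSucc 271, .negSucc 41, .negSucc 869, .negSucc 135, .negSucc 570⟩, ⟨.negSucc 750, .ofNat 166, .negSucc 111, .ofNat 481, .ofNat 330, .ofNat 60⟩, .ofNat 584, .negSucc 84, .ofNat 0, .negSucc 84, .ofNat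 1138, .ofNat 0, .ofNat 149, .ofNat 32, .negSucc 55, .ofNat 0, .ofNat 128, .ofNat 7, .ofNat 0, .ofNat 0, .ofNat 193, .ofNat 307, .ofNat 0, .ofNat 0, .ofNat 0, .ofNat 0, .ofNat 0, .ofNat 0, .ofNat 0, .ofNat 0, .ofNat 0, .ofNat 0, .ofNat 0, .ofNat 0, .ofNat 0, .ofNat 0, .ofNat 0, .ofNat 0⟩)
    (by decide +kernel)
theorem L00170 : Good (Phi V5.P V5.D 1 1) ⟨2, 0, 2, 0, 1, 1, 2, 2, 4, 3⟩ :=
  leafX_sound T5.ok_pp T5.Ypp.bz_eq (w := 182) (c := ⟨⟨.negSucc 1161, .negSucc 176, .negSucc 15, .negSucc 205, .negSucc 25, .negSucc 9⟩, ⟨.negSucc 79, .ofNat 99, .negSucc 333, .ofNat 47, .ofNat 33, .ofNat 14⟩, ⟨.ofNat 648, .ofNat 322, .negSucc 38, .ofNat 88, .ofNat 271, .ofNat 168⟩, ⟨.negSucc 3493, .negSucc 268, .ofNat 10, .negSucc 628, .negSucc 60, .negSucc 9⟩, ⟨.negSucc 665, .ofNat 137, .negSucc 78, .ofNat 539, .ofNat 260, .ofNat 67⟩, .ofNat 582, .negSucc 81,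 .ofNat 0, .negSucc 81, .ofNat 1154, .ofNat 0, .ofNat 206, .ofNat 25, .negSucc 44, .ofNat 0, .ofNat 128, .ofNat 6, .ofNat 0, .ofNat 0, .ofNat 283, .ofNat 375, .ofNat 0, .ofNat 0, .ofNat 0, .ofNat 0, .ofNat 0, .ofNat 0, .ofNat 0, .ofNat 0, .ofNat 0, .ofNat 0, .ofNat 0, .ofNat 0, .ofNat 0, .ofNat 18017114653569953323863232183533568, .ofNat 0, .ofNat 0⟩)
    (by decide +kernel)
theorem L00171 : Good (Phi V5.P V5.D 1 1) ⟨2, 0, 2, 0, 2, 2, 2, 2, 4, 4⟩ :=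
  leafX_sound T5.ok_pp T5.Ypp.bz_eq (w := 198) (c := ⟨⟨.negSucc 1192, .negSucc 156, .negSucc 28, .negSucc 71, .negSucc 4, .ofNat 71⟩, ⟨.negSucc 59, .ofNat 76, .negSucc 307, .negSucc 11, .ofNat 26, .ofNat 14⟩, ⟨.ofNat 902, .ofNat 275, .negSucc 50, .negSucc 1, .ofNat 116, .ofNat 67⟩, ⟨.negSucc 3638, .negSucc 186, .ofNat 49, .negSucc 195, .negSucc 8, .ofNat 204⟩, ⟨.negSucc 447, .ofNat 1, .negSucc 31, .negSucc 27, .ofNat 139, .ofNat 58⟩, .ofNat 584, .negSucc 82, .ofNat 0, .negSucc 82, .ofNat 1137, .ofNat 0, .ofNat 352, .ofNat 24, .negSucc 92, .ofNat 0, .ofNat 128, .ofNat 9, .ofNat 0, .ofNat 0, .ofNat 995, .ofNat 2993, .ofNat 0, .ofNat 0, .ofNat 0, .ofNat 0, .ofNat 0, .ofNat 0, .ofNat 0, .ofNat 0, .ofNat 0, .ofNat 183034733688435055834670920073352314880, .ofNat 0, .ofNat 0, .ofNat 0, .ofNat 1343434469712880019572535678339280535552, .ofNat 0, .ofNat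 0⟩)
    (by decide +kernel)
theorem L00172 : Good (Phi V5.P V5.D 1 1) ⟨2, 0, 2, 0, 2, 3, 2, 2, 5, 8⟩ :=
  leafX_sound T5.ok_pp T5.Ypp.bz_eq (w := 202) (c := ⟨⟨.negSucc 1248, .negSucc 234, .ofNat 23, .negSucc 28, .negSucc 64, .ofNat 53⟩, ⟨.negSucc 62, .ofNat 86, .negSucc 337, .ofNat 72, .ofNat 40, .ofNat 7⟩, ⟨.ofNat 773, .ofNat 330, .negSucc 65, .ofNat 136, .ofNat 370, .ofNat 80⟩, ⟨.negSucc 3787, .negSucc 370, .ofNat 119, .negSucc 64, .negSucc 175, .ofNat 144⟩, ⟨.negSucc 493, .ofNat 161, .negSucc 140, .ofNat 548, .ofNat 343, .negSucc 10⟩, .ofNat 583, .negSucc 80, .ofNat 0, .negSucc 80, .ofNat 1148, .ofNat 0, .ofNat 212, .ofNat 17, .negSucc 28, .ofNat 0, .ofNat 128, .ofNat 7, .ofNat 0, .ofNat 0, .ofNat 480, .ofNat 1253, .ofNat 0, .ofNat 0, .ofNat 0, .ofNat 0, .ofNat 0, .ofNat 1637495523739305990762404369485287915520, .ofNat 0, .ofNat 0, .ofNat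 0, .ofNat 2808603596976623145428054450730969333760, .ofNat 0, .ofNat 0, .ofNat 0, .ofNat 3339775326929896437605407224659034767360, .ofNat 0, .ofNat 0⟩)
    (by decide +kernel)
theorem L00173 : Good (Phi V5.P V5.D 1 1) ⟨2, 0, 2, 0, 2, 3, 2, 2, 5, 9⟩ :=
  leafX_sound T5.ok_pp T5.Ypp.bz_eq (w := 201) (c := ⟨⟨.negSucc 1216, .negSucc 208, .ofNat 2, .ofNat 3, .negSucc 39, .ofNat 65⟩, ⟨.negSucc 54, .ofNat 78, .negSucc 319, .ofNat 59, .ofNat 31, .ofNat 10⟩, ⟨.ofNat 873, .ofNat 312, .negSucc 62, .ofNat 108, .ofNat 313, .ofNat 75⟩, ⟨.negSucc 3680, .negSucc 304, .ofNat 94, .ofNat 4, .negSucc 115, .ofNat 168⟩, ⟨.negSucc 417, .ofNat 66, .negSucc 115, .ofNat 475, .ofNat 293, .negSucc 1⟩, .ofNat 582, .negSucc 89, .ofNat 0, .negSucc 89, .ofNat 1165, .ofNat 0, .ofNat 175, .ofNat 21, .negSucc 13, .ofNat 0, .ofNat 128, .ofNat 3, .ofNat 0, .ofNat 0, .ofNat 331,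 .ofNat 607, .ofNat 0, .ofNat 0, .ofNat 0, .ofNat 0, .ofNat 0, .ofNat 0, .ofNat 0, .ofNat 0, .ofNat 0, .ofNat 2100622498092720800009771597552217489408, .ofNat 0, .ofNat 0, .ofNat 0, .ofNat 2531674312026193913849229280244706312192, .ofNat 0, .ofNat 0⟩)
    (by decide +kernel)
theorem L00174 : Good (Phi V5.P V5.D 1 1) ⟨2, 0, 2, 0, 1, 1, 2, 2, 4, 5⟩ :=
  leafX_sound T5.ok_pp T5.Ypp.bz_eq (w := 182) (c := ⟨⟨.negSucc 1135, .negSucc 149, .negSucc 15, .negSucc 75, .negSucc 7, .ofNat 73⟩, ⟨.negSucc 53, .ofNat 71, .negSucc 285, .negSucc 9, .ofNat 15, .ofNat 12⟩, ⟨.ofNat 1014, .ofNat 234, .negSucc 91, .ofNat 105, .ofNat 10, .ofNat 78⟩, ⟨.negSucc 3443, .negSucc 163, .ofNat 37, .negSucc 214, .negSucc 21, .ofNat 206⟩, ⟨.negSucc 352, .negSucc 41, .negSucc 30, .negSucc 59, .ofNat 99, .ofNat 31⟩, .ofNat 582, .negSucc 82, .ofNat 0, .negSucc 82, .ofNat 1152, .ofNat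 0, .ofNat 201, .ofNat 23, .negSucc 34, .ofNat 0, .ofNat 128, .ofNat 1, .ofNat 0, .ofNat 0, .ofNat 767, .ofNat 548, .ofNat 0, .ofNat 0, .ofNat 0, .ofNat 0, .ofNat 0, .ofNat 107784453083285291657759862472835072, .ofNat 0, .ofNat 0, .ofNat 0, .ofNat 77390801891024308453899071517622272, .ofNat 0, .ofNat 0, .ofNat 0, .ofNat 286885023215576337342466284419284992, .ofNat 0, .ofNat 0⟩)
    (by decide +kernel)
theorem L00175 : Good (Phi V5.P V5.D 1 1) ⟨2, 0, 2, 0, 2, 2, 2, 2, 3, 3⟩ :=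
  leafX_sound T5.ok_pp T5.Ypp.bz_eq (w := 192) (c := ⟨⟨.negSucc 1068, .negSucc 135, .negSucc 11, .negSucc 12, .negSucc 20, .ofNat 136⟩, ⟨.negSucc 44, .ofNat 61, .negSucc 263, .negSucc 5, .ofNat 11, .ofNat 14⟩, ⟨.ofNat 1159, .ofNat 180, .negSucc 207, .ofNat 167, .negSucc 67, .ofNat 205⟩, ⟨.negSucc 3252, .negSucc 142, .ofNat 41, .negSucc 23, .negSucc 65, .ofNat 419⟩, ⟨.negSucc 322, .negSucc 64, .ofNat 10, .negSucc 38, .ofNat 98, .ofNat 50⟩, .ofNat 399, .negSucc 29, .ofNat 0, .negSucc 29, .ofNat 603, .ofNat 0, .ofNat 146, .ofNat 12, .negSucc 17, .ofNat 0, .ofNat 128, .negSucc 9, .ofNat 0, .ofNat 0, .ofNat 1050, .ofNat 777, .ofNat 0, .ofNat 0, .ofNat 0, .ofNat 0, .ofNat 0, .ofNat 56125903348461003545792970908313321472, .ofNat 0, .ofNat 0, .ofNat 0, .ofNat 30050420096438727997117801522945589248, .ofNat 0, .ofNat 0, .ofNat 0, .ofNat 319384997138626428110254001315880370176,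 .ofNat 0, .ofNat 0⟩)
    (by decide +kernel)
theorem L00176 : Good (Phi V5.P V5.D 1 1) ⟨2, 0, 2, 0, 2, 3, 2, 2, 3, 3⟩ :=
  out_sound (S := T5.ds_pp) T5.ok_pp (w := 28) (j := 2) (by decide +kernel)
theorem L00177 : Good (Phi V5.P V5.D 1 1) ⟨2, 0, 2, 0, 4, 8, 3, 4, 4, 8⟩ :=
  out_sound (S := T5.ds_pp) T5.ok_pp (w := 29) (j := 1) (by decide +kernel)
theorem L00178 : Good (Phi V5.P V5.D 1 1) ⟨2, 0, 2, 0, 4, 8, 3, 5, 4, 8⟩ :=
  out_sound (S := T5.ds_pp) T5.ok_pp (w := 36) (j := 2) (by decide +kernel)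
theorem L00179 : Good (Phi V5.P V5.D 1 1) ⟨2, 0, 2, 0, 4, 8, 2, 2, 4, 9⟩ :=
  out_sound (S := T5.ds_pp) T5.ok_pp (w := 28) (j := 1) (by decide +kernel)
theorem L00180 : Good (Phi V5.P V5.D 1 1) ⟨2, 0, 2, 0, 4, 9, 2, 2, 3, 4⟩ :=
  out_sound (S := T5.ds_pp) T5.ok_pp (w := 32) (j := 2) (by decide +kernel)
theorem L00181 : Good (Phi V5.P V5.D 1 1) ⟨2, 0, 2, 0, 3, 4, 2, 2, 3, 5⟩ :=
  out_sound (S := T5.ds_pp) T5.ok_pp (w := 24) (j := 1) (by decide +kernel)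
theorem L00182 : Good (Phi V5.P V5.D 1 1) ⟨2, 0, 2, 0, 3, 5, 2, 2, 2, 2⟩ :=
  out_sound (S := T5.ds_pp) T5.ok_pp (w := 28) (j := 2) (by decide +kernel)
theorem L00183 : Good (Phi V5.P V5.D 1 1) ⟨2, 0, 2, 0, 2, 2, 2, 2, 2, 3⟩ :=
  out_sound (S := T5.ds_pp) T5.ok_pp (w := 20) (j := 1) (by decide +kernel)
theorem L00184 : Good (Phi V5.P V5.D 1 1) ⟨2, 0, 2, 0, 2, 3, 2, 2, 1, 1⟩ :=
  out_sound (S := T5.ds_pp) T5.ok_pp (w := 24) (j := 2) (by decide +kernel)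
theorem L00185 : Good (Phi V5.P V5.D 1 1) ⟨2, 0, 2, 0, 1, 1, 2, 3, 3, 0⟩ :=
  leafX_sound T5.ok_pp T5.Ypp.bz_eq (w := 177) (c := ⟨⟨.ofNat 333, .negSucc 266, .negSucc 68, .negSucc 445, .negSucc 471, .negSucc 1048⟩, ⟨.ofNat 13, .ofNat 87, .negSucc 169, .ofNat 88, .ofNat 49, .negSucc 170⟩, ⟨.negSucc 272, .ofNat 405, .negSucc 18, .ofNat 348, .ofNat 712, .ofNat 571⟩, ⟨.ofNat 980, .negSucc 706, .negSucc 366, .negSucc 1375, .negSucc 1435, .negSucc 2825⟩, ⟨.negSucc 1088, .ofNat 1095, .ofNat 254, .ofNat 1305, .ofNat 889, .negSucc 563⟩, .ofNat 692, .negSucc 132, .ofNat 0, .negSucc 132, .ofNat 1706, .ofNat 0, .ofNat 189, .ofNat 65, .negSucc 155, .ofNat 0, .ofNat 128, .ofNat 17, .ofNat 0, .ofNat 0, .ofNat 346, .ofNat 225, .ofNat 0, .ofNat 0, .ofNat 0, .ofNat 0, .ofNat 0, .ofNat 708101214990790223574562936717312, .ofNat 0, .ofNat 0, .ofNat 0, .ofNat 531717943736353795715025478877184,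 .ofNat 0, .ofNat 0, .ofNat 0, .ofNat 335787375467472998501626761183232, .ofNat 0, .ofNat 0⟩)
    (by decide +kernel)
theorem L00186 : Good (Phi V5.P V5.D 1 1) ⟨2, 0, 2, 0, 1, 1, 2, 3, 3, 1⟩ :=
  leafX_sound T5.ok_pp T5.Ypp.bz_eq (w := 177) (c := ⟨⟨.negSucc 915, .negSucc 325, .negSucc 56, .negSucc 444, .negSucc 81, .negSucc 170⟩, ⟨.negSucc 44, .ofNat 74, .negSucc 318, .ofNat 99, .ofNat 51, .negSucc 9⟩, ⟨.ofNat 567, .ofNat 508, .negSucc 29, .ofNat 352, .ofNat 300, .ofNat 315⟩, ⟨.negSucc 2818, .negSucc 660, .negSucc 100, .negSucc 1270, .negSucc 192, .negSucc 503⟩, ⟨.negSucc 472, .ofNat 125, .negSucc 78, .ofNat 969, .ofNat 280, .negSucc 32⟩, .ofNat 649, .negSucc 93, .ofNat 0, .negSucc 93, .ofNat 1416, .ofNat 0, .ofNat 227, .ofNat 31, .negSucc 85, .ofNat 0, .ofNat 128, .ofNat 10, .ofNat 0, .ofNat 0, .ofNat 372, .ofNat 246, .ofNat 0, .ofNat 13685797769454647891998929846272,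 .ofNat 0, .ofNat 0, .ofNat 0, .ofNat 2680736092597691955776682381541376, .ofNat 0, .ofNat 0, .ofNat 0, .ofNat 2838193075866559578426609575657472, .ofNat 0, .ofNat 0, .ofNat 0, .ofNat 4219250805991426316291906046263296, .ofNat 0, .ofNat 0⟩)
    (by decide +kernel)
theorem L00187 : Good (Phi V5.P V5.D 1 1) ⟨2, 0, 2, 0, 1, 1, 2, 3, 4, 4⟩ :=
  leafX_sound T5.ok_pp T5.Ypp.bz_eq (w := 182) (c := ⟨⟨.negSucc 1145, .negSucc 230, .ofNat 4, .negSucc 298, .negSucc 79, .ofNat 44⟩, ⟨.negSucc 36, .ofNat 53, .negSucc 301, .ofNat 22, .ofNat 24, .ofNat 11⟩, ⟨.ofNat 939, .ofNat 404, .negSucc 127, .ofNat 476, .ofNat 97, .ofNat 38⟩, ⟨.negSucc 3468, .negSucc 377, .ofNat 61, .negSucc 843, .negSucc 225, .ofNat 112⟩, ⟨.negSucc 298, .negSucc 160, .negSucc 11, .ofNat 289, .ofNat 229, .ofNat 62⟩, .ofNat 585, .negSucc 87, .ofNat 0, .negSucc 87, .ofNat 1144, .ofNat 0, .ofNat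 318, .ofNat 28, .negSucc 46, .ofNat 0, .ofNat 128, .ofNat 1, .ofNat 0, .ofNat 0, .ofNat 439, .ofNat 256, .ofNat 0, .ofNat 443407027960910524587024473653248, .ofNat 0, .ofNat 0, .ofNat 0, .ofNat 111116625927004235350758874253623296, .ofNat 0, .ofNat 0, .ofNat 0, .ofNat 60464950613015224964278578233475072, .ofNat 0, .ofNat 0, .ofNat 0, .ofNat 121300488702450962151078519348658176, .ofNat 0, .ofNat 0⟩)
    (by decide +kernel)
theorem L00188 : Good (Phi V5.P V5.D 1 1) ⟨2, 0, 2, 0, 1, 1, 2, 3, 4, 5⟩ :=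
  leafX_sound T5.ok_pp T5.Ypp.bz_eq (w := 183) (c := ⟨⟨.negSucc 1105, .negSucc 202, .ofNat 0, .negSucc 283, .negSucc 92, .ofNat 43⟩, ⟨.negSucc 24, .ofNat 43, .negSucc 283, .negSucc 27, .ofNat 13, .ofNat 11⟩, ⟨.ofNat 1025, .ofNat 308, .negSucc 197, .ofNat 729, .negSucc 23, .ofNat 17⟩, ⟨.negSucc 3384, .negSucc 295, .ofNat 53, .negSucc 678, .negSucc 244, .ofNat 152⟩, ⟨.negSucc 220, .negSucc 178, .ofNat 12, .ofNat 34, .ofNat 219, .ofNat 62⟩, .ofNat 400, .negSucc 29, .ofNat 0, .negSucc 29, .ofNat 600, .ofNat 0, .ofNat 262, .ofNat 14, .negSucc 31, .ofNat 0, .ofNat 128, .negSucc 5, .ofNat 0, .ofNat 0, .ofNat 469, .ofNat 638, .ofNat 0, .ofNat 600775305418813462197144886706176, .ofNat 0, .ofNat 0, .ofNat 0, .ofNat 201172241517063244496292718625947648, .ofNat 0, .ofNat 0, .ofNat 0, .ofNat 118470534765275078301747640245682176, .ofNat 0, .ofNat 0, .ofNat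 0, .ofNat 219452669466866808600217608945401856, .ofNat 0, .ofNat 0⟩)
    (by decide +kernel)
theorem L00189 : Good (Phi V5.P V5.D 1 1) ⟨2, 0, 2, 0, 1, 1, 2, 3, 3, 3⟩ :=
  leafX_sound T5.ok_pp T5.Ypp.bz_eq (w := 180) (c := ⟨⟨.negSucc 1069, .negSucc 188, .ofNat 1, .ofNat 1, .negSucc 54, .ofNat 112⟩, ⟨.negSucc 21, .ofNat 42, .negSucc 271, .ofNat 0, .ofNat 43, .ofNat 34⟩, ⟨.ofNat 1083, .ofNat 245, .negSucc 251, .negSucc 0, .negSucc 77, .negSucc 33⟩, ⟨.negSucc 3244, .negSucc 269, .ofNat 50, .ofNat 2, .negSucc 248, .ofNat 332⟩, ⟨.negSucc 172, .negSucc 166, .ofNat 28, .ofNat 0, .ofNat 208, .ofNat 141⟩, .ofNat 191, .negSucc 5, .ofNat 0, .negSucc 5, .ofNat 228, .ofNat 0, .ofNat 224, .ofNat 4, .negSucc 27, .ofNat 0, .ofNat 128, .negSucc 18, .ofNat 0, .ofNat 0, .ofNat 388, .ofNat 2776, .ofNat 0, .ofNat 0, .ofNat 0, .ofNat 0, .ofNat 0, .ofNat 113048626484829870441509072408674304,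 .ofNat 0, .ofNat 0, .ofNat 0, .ofNat 63154710881341591555721334550953984, .ofNat 0, .ofNat 0, .ofNat 0, .ofNat 54684021582152027871519469786365952, .ofNat 0, .ofNat 0⟩)
    (by decide +kernel)
theorem L00190 : Good (Phi V5.P V5.D 1 1) ⟨2, 0, 2, 0, 1, 1, 2, 3, 1, 1⟩ :=
  out_sound (S := T5.ds_pp) T5.ok_pp (w := 22) (j := 2) (by decide +kernel)
theorem L00191 : Good (Phi V5.P V5.D 1 1) ⟨2, 0, 2, 1, 1, 0, 2, 0, 4, 0⟩ :=
  leafX_sound T5.ok_pp T5.Ypp.bz_eq (w := 183) (c := ⟨⟨.ofNat 452, .ofNat 150, .negSucc 48, .ofNat 220, .ofNat 114, .negSucc 1157⟩, ⟨.ofNat 84, .ofNat 54, .ofNat 102, .ofNat 35, .ofNat 62, .negSucc 401⟩, ⟨.negSucc 428, .negSucc 115, .ofNat 117, .negSucc 24, .negSucc 292, .ofNat 1070⟩, ⟨.ofNat 1429, .ofNat 275, .negSucc 48, .ofNat 794, .ofNat 271, .negSucc 3507⟩, ⟨.negSucc 163, .ofNat 166, .negSucc 28, .negSucc 493, .ofNat 186, .negSucc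 93⟩, .ofNat 414, .negSucc 100, .ofNat 0, .negSucc 100, .ofNat 636, .ofNat 0, .ofNat 162, .ofNat 49, .negSucc 142, .ofNat 0, .ofNat 128, .negSucc 20, .ofNat 0, .ofNat 0, .ofNat 373, .ofNat 1730, .ofNat 0, .ofNat 0, .ofNat 0, .ofNat 0, .ofNat 0, .ofNat 0, .ofNat 0, .ofNat 0, .ofNat 0, .ofNat 0, .ofNat 0, .ofNat 0, .ofNat 594431094687895264442546077472653312, .ofNat 0, .ofNat 0, .ofNat 0⟩)
    (by decide +kernel)
theorem L00192 : Good (Phi V5.P V5.D 1 1) ⟨2, 0, 2, 1, 1, 0, 2, 1, 4, 0⟩ :=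
  leafX_sound T5.ok_pp T5.Ypp.bz_eq (w := 183) (c := ⟨⟨.ofNat 501, .ofNat 124, .negSucc 95, .ofNat 459, .negSucc 252, .negSucc 1226⟩, ⟨.ofNat 142, .ofNat 57, .negSucc 28, .ofNat 109, .negSucc 55, .negSucc 395⟩, ⟨.negSucc 556, .negSucc 41, .ofNat 118, .negSucc 376, .ofNat 229, .ofNat 1100⟩, ⟨.ofNat 1493, .ofNat 278, .negSucc 235, .ofNat 1288, .negSucc 755, .negSucc 3482⟩, ⟨.negSucc 24, .ofNat 120, .ofNat 3, .negSucc 42, .ofNat 12, .negSucc 282⟩, .ofNat 654, .negSucc 318, .ofNat 0, .negSucc 318, .ofNat 1330, .ofNat 0, .ofNat 169, .ofNat 90, .negSucc 127, .ofNat 0, .ofNat 128, .negSucc 29, .ofNat 0, .ofNat 0, .ofNat 339, .ofNat 1033, .ofNat 0, .ofNat 0, .ofNat 0, .ofNat 0, .ofNat 0, .ofNat 0, .ofNat 0, .ofNat 0, .ofNat 0, .ofNat 0, .ofNat 0, .ofNat 0, .ofNat 0, .ofNat 0, .ofNat 0, .ofNat 0⟩)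
    (by decide +kernel)
theorem L00193 : Good (Phi V5.P V5.D 1 1) ⟨2, 0, 2, 1, 1, 0, 1, 0, 4, 1⟩ :=
  leafX_sound T5.ok_pp T5.Ypp.bz_eq (w := 179) (c := ⟨⟨.negSucc 580, .negSucc 42, .negSucc 72, .ofNat 164, .ofNat 47, .negSucc 619⟩, ⟨.negSucc 195, .ofNat 97, .negSucc 217, .negSucc 3, .ofNat 37, .negSucc 176⟩, ⟨.ofNat 764, .negSucc 15, .ofNat 80, .negSucc 672, .negSucc 177, .ofNat 629⟩, ⟨.negSucc 1781, .ofNat 31, .negSucc 145, .ofNat 605, .ofNat 84, .negSucc 1740⟩, ⟨.negSucc 226, .ofNat 135, .ofNat 53, .negSucc 483, .ofNat 124, .negSucc 55⟩, .ofNat 659, .negSucc 323, .ofNat 0, .negSucc 323, .ofNat 1317, .ofNat 0, .ofNat 290, .ofNat 89, .negSucc 175, .ofNat 0, .ofNat 128, .negSucc 35, .ofNat 0, .ofNat 0, .ofNat 740, .ofNat 1466, .ofNat 0, .ofNat 0, .ofNat 0, .ofNat 0, .ofNat 0, .ofNat 0, .ofNat 0, .ofNat 0, .ofNat 0, .ofNat 0, .ofNat 0, .ofNat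 0, .ofNat 0, .ofNat 0, .ofNat 0, .ofNat 0⟩)
    (by decide +kernel)
theorem L00194 : Good (Phi V5.P V5.D 1 1) ⟨2, 0, 2, 1, 1, 0, 1, 0, 3, 1⟩ :=
  leafX_sound T5.ok_pp T5.Ypp.bz_eq (w := 174) (c := ⟨⟨.negSucc 1257, .negSucc 102, .ofNat 8, .negSucc 74, .ofNat 154, .negSucc 53⟩, ⟨.negSucc 332, .ofNat 76, .negSucc 295, .negSucc 55, .ofNat 54, .negSucc 12⟩, ⟨.ofNat 1400, .ofNat 82, .negSucc 46, .negSucc 360, .negSucc 240, .ofNat 153⟩, ⟨.negSucc 3795, .ofNat 53, .ofNat 54, .negSucc 86, .ofNat 413, .negSucc 190⟩, ⟨.ofNat 3, .negSucc 108, .negSucc 6, .negSucc 383, .ofNat 58, .negSucc 27⟩, .ofNat 869, .negSucc 654, .ofNat 0, .negSucc 654, .ofNat 2289, .ofNat 0, .ofNat 292, .ofNat 117, .negSucc 78, .ofNat 0, .ofNat 128, .negSucc 18, .ofNat 0, .ofNat 0, .ofNat 596, .ofNat 795, .ofNat 288723191793184869383958897360896, .ofNat 0, .ofNat 0, .ofNat 0, .ofNat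 0, .ofNat 0, .ofNat 0, .ofNat 0, .ofNat 0, .ofNat 0, .ofNat 0, .ofNat 0, .ofNat 35149618068310441066121386509991936, .ofNat 0, .ofNat 0, .ofNat 0⟩)
    (by decide +kernel)
theorem L00195 : Good (Phi V5.P V5.D 1 1) ⟨2, 0, 2, 1, 1, 0, 2, 0, 3, 2⟩ :=
  leafX_sound T5.ok_pp T5.Ypp.bz_eq (w := 183) (c := ⟨⟨.negSucc 1289, .negSucc 82, .negSucc 27, .negSucc 69, .ofNat 58, .ofNat 115⟩, ⟨.negSucc 394, .ofNat 100, .negSucc 310, .negSucc 56, .ofNat 66, .ofNat 28⟩, ⟨.ofNat 1498, .ofNat 91, .ofNat 51, .negSucc 500, .ofNat 40, .ofNat 13⟩, ⟨.negSucc 3961, .ofNat 26, .ofNat 1, .negSucc 44, .ofNat 212, .ofNat 275⟩, ⟨.negSucc 205, .ofNat 52, .negSucc 3, .negSucc 497, .ofNat 187, .ofNat 17⟩, .ofNat 415, .negSucc 105, .ofNat 0, .negSucc 105, .ofNat 641, .ofNat 0, .ofNat 170, .ofNat 50, .negSucc 80, .ofNat 0, .ofNat 128, .ofNat 4, .ofNat 0, .ofNat 0, .ofNat 705,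 .ofNat 40165, .ofNat 402383555462214771924853627998437376, .ofNat 0, .ofNat 0, .ofNat 0, .ofNat 1212201079370341015196821811726647296, .ofNat 0, .ofNat 424042730707147461823247155200, .ofNat 0, .ofNat 987656578320284154484126013217308672, .ofNat 0, .ofNat 0, .ofNat 0, .ofNat 1939731706123782655447458496496271360, .ofNat 0, .ofNat 0, .ofNat 0⟩)
    (by decide +kernel)
theorem L00196 : Good (Phi V5.P V5.D 1 1) ⟨2, 0, 2, 1, 1, 0, 2, 1, 4, 4⟩ :=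
  leafX_sound T5.ok_pp T5.Ypp.bz_eq (w := 186) (c := ⟨⟨.negSucc 1191, .negSucc 110, .negSucc 17, .negSucc 100, .ofNat 67, .ofNat 54⟩, ⟨.negSucc 315, .ofNat 76, .negSucc 288, .negSucc 63, .ofNat 21, .ofNat 20⟩, ⟨.ofNat 1350, .ofNat 126, .negSucc 10, .negSucc 228, .negSucc 148, .ofNat 2⟩, ⟨.negSucc 3647, .negSucc 7, .ofNat 14, .negSucc 160, .ofNat 186, .ofNat 164⟩, ⟨.negSucc 35, .ofNat 13, .negSucc 4, .negSucc 425, .ofNat 22, .ofNat 20⟩, .ofNat 412, .negSucc 100, .ofNat 0, .negSucc 100, .ofNat 648, .ofNat 0, .ofNat 155, .ofNat 48, .negSucc 73, .ofNat 0, .ofNat 128, .ofNat 0, .ofNat 0, .ofNat 0, .ofNat 646, .ofNat 7930, .ofNat 211974121740866484816425659863662592, .ofNat 0, .ofNat 2572439351662790515561204809728, .ofNat 0, .ofNat 0, .ofNat 0, .ofNat 0, .ofNat 0, .ofNat 0, .ofNat 0, .ofNat 0, .ofNat 0, .ofNat 0, .ofNat 0, .ofNat 0, .ofNat 0⟩)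
    (by decide +kernel)
theorem L00197 : Good (Phi V5.P V5.D 1 1) ⟨2, 0, 2, 1, 2, 0, 2, 1, 5, 10⟩ :=
  leafX_sound T5.ok_pp T5.Ypp.bz_eq (w := 207) (c := ⟨⟨.negSucc 1167, .negSucc 108, .negSucc 11, .negSucc 38, .ofNat 97, .ofNat 36⟩, ⟨.negSucc 304, .ofNat 57, .negSucc 275, .negSucc 27, .ofNat 36, .ofNat 10⟩, ⟨.ofNat 1451, .ofNat 124, .negSucc 11, .negSucc 55, .negSucc 319, .negSucc 36⟩, ⟨.negSucc 3521, .negSucc 31, .ofNat 4, .negSucc 52, .ofNat 252, .ofNat 91⟩, ⟨.negSucc 6, .ofNat 1, .negSucc 0, .negSucc 195, .ofNat 9, .ofNat 1⟩, .ofNat 192, .negSucc 17, .ofNat 0, .negSucc 17, .ofNat 230, .ofNat 0, .ofNat 243, .ofNat 18, .negSucc 88, .ofNat 0, .ofNat 128, .negSucc 0, .ofNat 0, .ofNat 0, .ofNat 532, .ofNat 44294, .ofNat 50344473138690751950897711021962626596864, .ofNat 0, .ofNat 0, .ofNat 0, .ofNat 201068937346516609471005067213613985431552, .ofNat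 0, .ofNat 0, .ofNat 0, .ofNat 65357271574692589706283571972227779788800, .ofNat 0, .ofNat 0, .ofNat 0, .ofNat 164082276238528869538105407587349648375808, .ofNat 0, .ofNat 0, .ofNat 0⟩)
    (by decide +kernel)
theorem L00198 : Good (Phi V5.P V5.D 1 1) ⟨2, 0, 2, 1, 2, 0, 2, 1, 5, 11⟩ :=
  leafX_sound T5.ok_pp T5.Ypp.bz_eq (w := 209) (c := ⟨⟨.negSucc 1142, .negSucc 103, .negSucc 2, .negSucc 35, .ofNat 95, .ofNat 33⟩, ⟨.negSucc 286, .ofNat 57, .negSucc 266, .negSucc 24, .ofNat 22, .ofNat 12⟩, ⟨.ofNat 1449, .ofNat 116, .negSucc 38, .negSucc 58, .negSucc 344, .negSucc 15⟩, ⟨.negSucc 3411, .negSucc 28, .ofNat 13, .negSucc 50, .ofNat 226, .ofNat 85⟩, ⟨.negSucc 12, .negSucc 0, .negSucc 0, .negSucc 188, .ofNat 14, .ofNat 5⟩, .ofNat 192, .negSucc 17, .ofNat 0, .negSucc 17, .ofNat 231, .ofNat 0, .ofNat 351, .ofNat 19, .negSucc 84, .ofNat 0, .ofNat 128, .ofNat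 0, .ofNat 0, .ofNat 0, .ofNat 553, .ofNat 129898, .ofNat 218871816949943468908688813923276458819584, .ofNat 0, .ofNat 0, .ofNat 0, .ofNat 580554722014891272558607376049060565745664, .ofNat 0, .ofNat 508869880634142417618474037303140417536, .ofNat 0, .ofNat 121856357865704228741317859344438291070976, .ofNat 0, .ofNat 0, .ofNat 0, .ofNat 313355113829281247696756930999050490085376, .ofNat 0, .ofNat 0, .ofNat 0⟩)
    (by decide +kernel)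
theorem L00199 : Good (Phi V5.P V5.D 1 1) ⟨4, 0, 2, 1, 2, 1, 3, 2, 6, 20⟩ :=
  leafX_sound T5.ok_pp T5.Ypp.bz_eq (w := 226) (c := ⟨⟨.negSucc 1198, .negSucc 1, .negSucc 26, .negSucc 51, .ofNat 33, .ofNat 19⟩, ⟨.negSucc 335, .ofNat 25, .negSucc 288, .negSucc 40, .ofNat 15, .ofNat 8⟩, ⟨.ofNat 1310, .ofNat 8, .negSucc 10, .negSucc 169, .negSucc 84, .ofNat 7⟩, ⟨.negSucc 3554, .ofNat 2, .ofNat 13, .negSucc 65, .ofNat 84, .ofNat 55⟩, ⟨.negSucc 243, .ofNat 4, .negSucc 5, .negSucc 230, .ofNat 35, .ofNat 10⟩, .ofNat 427, .negSucc 117, .ofNat 0, .negSucc 117, .ofNat 612, .ofNat 0, .ofNat 160, .ofNat 53, .negSucc 89, .ofNat 0, .ofNat 128, .ofNat 8, .ofNat 0, .ofNat 0, .ofNat 1129, .ofNat 244394, .ofNat 4168647851443214329688212837660980258401157120, .ofNat 0, .ofNat 0, .ofNat 0, .ofNat 5281194170765191794603242800319254878759157760, .ofNat 0, .ofNat 0, .ofNat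 0, .ofNat 3398103941066369505290937938547803770746568704, .ofNat 0, .ofNat 0, .ofNat 0, .ofNat 33958004207680693951846193485472194390571089920, .ofNat 0, .ofNat 0, .ofNat 0⟩)
    (by decide +kernel)
theorem L00200 : Good (Phi V5.P V5.D 1 1) ⟨4, 1, 2, 1, 2, 1, 3, 2, 6, 20⟩ :=
  leafX_sound T5.ok_pp T5.Ypp.bz_eq (w := 226) (c := ⟨⟨.negSucc 1193, .negSucc 17, .negSucc 25, .negSucc 52, .ofNat 25, .ofNat 20⟩, ⟨.negSucc 308, .ofNat 24, .negSucc 287, .negSucc 37, .ofNat 11, .ofNat 8⟩, ⟨.ofNat 1309, .ofNat 24, .negSucc 9, .negSucc 169, .negSucc 73, .ofNat 3⟩, ⟨.negSucc 3539, .negSucc 2, .ofNat 13, .negSucc 71, .ofNat 74, .ofNat 56⟩, ⟨.negSucc 229, .ofNat 5, .negSucc 6, .negSucc 228, .ofNat 24, .ofNat 9⟩, .ofNat 424, .negSucc 118, .ofNat 0, .negSucc 118, .ofNat 632, .ofNat 0, .ofNat 142, .ofNat 54, .negSucc 51, .ofNat 0, .ofNat 128, .ofNat 3, .ofNat 0,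 .ofNat 0, .ofNat 599, .ofNat 136651, .ofNat 3048507482943786975199929973547478457530712064, .ofNat 0, .ofNat 0, .ofNat 0, .ofNat 2630404456908642927380922056674384752553230336, .ofNat 0, .ofNat 0, .ofNat 0, .ofNat 0, .ofNat 0, .ofNat 0, .ofNat 0, .ofNat 10326591949235082539106603528778923430746521600, .ofNat 0, .ofNat 0, .ofNat 0⟩)
    (by decide +kernel)
theorem L00201 : Good (Phi V5.P V5.D 1 1) ⟨3, 1, 2, 1, 2, 1, 3, 2, 6, 20⟩ :=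
  leafX_sound T5.ok_pp T5.Ypp.bz_eq (w := 221) (c := ⟨⟨.negSucc 1208, .negSucc 80, .negSucc 21, .negSucc 51, .ofNat 23, .ofNat 19⟩, ⟨.negSucc 286, .ofNat 34, .negSucc 284, .negSucc 28, .ofNat 9, .ofNat 5⟩, ⟨.ofNat 1306, .ofNat 81, .negSucc 13, .negSucc 166, .negSucc 45, .ofNat 5⟩, ⟨.negSucc 3507, .negSucc 12, .ofNat 13, .negSucc 92, .ofNat 49, .ofNat 55⟩, ⟨.negSucc 227, .ofNat 13, .negSucc 7, .negSucc 213, .ofNat 20, .ofNat 6⟩, .ofNat 413, .negSucc 114, .ofNat 0, .negSucc 114, .ofNat 676, .ofNat 0, .ofNat 178, .ofNat 55, .negSucc 50, .ofNat 0, .ofNat 128, .ofNat 3, .ofNat 0, .ofNat 0, .ofNat 607, .ofNat 108664, .ofNat 202782619906254128626641026259549921881358336, .ofNat 0, .ofNat 3154982820230074718759150728932378017792, .ofNat 0, .ofNat 163791156750636819473347235598890192028565504, .ofNat 0, .ofNat 0, .ofNat 0, .ofNat 0, .ofNat 0, .ofNat 0,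 .ofNat 0, .ofNat 640785926695610229865017366108773482164649984, .ofNat 0, .ofNat 19274968807721089112092338896801032568832, .ofNat 0⟩)
    (by decide +kernel)
theorem L00202 : Good (Phi V5.P V5.D 1 1) ⟨2, 0, 2, 1, 2, 1, 4, 4, 6, 21⟩ :=
  out_sound (S := T5.ds_pp) T5.ok_pp (w := 30) (j := 1) (by decide +kernel)
theorem L00203 : Good (Phi V5.P V5.D 1 1) ⟨3, 0, 2, 1, 2, 1, 4, 5, 6, 21⟩ :=
  leafX_sound T5.ok_pp T5.Ypp.bz_eq (w := 227) (c := ⟨⟨.negSucc 1160, .negSucc 21, .negSucc 26, .negSucc 47, .ofNat 13, .ofNat 23⟩, ⟨.negSucc 323, .ofNat 49, .negSucc 284, .negSucc 37, .ofNat 6, .ofNat 10⟩, ⟨.ofNat 1258, .ofNat 30, .negSucc 24, .negSucc 142, .negSucc 40, .ofNat 3⟩, ⟨.negSucc 3461, .negSucc 6, .ofNat 22, .negSucc 52, .ofNat 34, .ofNat 57⟩, ⟨.negSucc 220, .ofNat 9, .negSucc 10, .negSucc 218, .ofNat 14, .ofNat 13⟩, .ofNat 425, .negSucc 117, .ofNat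 0, .negSucc 117, .ofNat 621, .ofNat 0, .ofNat 170, .ofNat 53, .negSucc 48, .ofNat 0, .ofNat 128, .ofNat 4, .ofNat 0, .ofNat 0, .ofNat 621, .ofNat 364964, .ofNat 4069615971859098311795555809794063926250438656, .ofNat 0, .ofNat 0, .ofNat 0, .ofNat 1930028548524205171499134493954865680823091200, .ofNat 0, .ofNat 0, .ofNat 0, .ofNat 2783631766567557962159963608307419413582184448, .ofNat 0, .ofNat 0, .ofNat 0, .ofNat 7364317126131287969365412593600742309157142528, .ofNat 0, .ofNat 0, .ofNat 0⟩)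
    (by decide +kernel)
theorem L00204 : Good (Phi V5.P V5.D 1 1) ⟨3, 1, 2, 1, 2, 1, 4, 5, 6, 21⟩ :=
  leafX_sound T5.ok_pp T5.Ypp.bz_eq (w := 227) (c := ⟨⟨.negSucc 1178, .negSucc 79, .negSucc 25, .negSucc 47, .ofNat 10, .ofNat 20⟩, ⟨.negSucc 277, .ofNat 36, .negSucc 281, .negSucc 27, .ofNat 3, .ofNat 6⟩, ⟨.ofNat 1280, .ofNat 80, .negSucc 29, .negSucc 148, .negSucc 22, .ofNat 6⟩, ⟨.negSucc 3437, .negSucc 17, .ofNat 21, .negSucc 77, .ofNat 23, .ofNat 55⟩, ⟨.negSucc 218, .ofNat 12, .negSucc 11, .negSucc 203, .ofNat 9, .ofNat 10⟩, .ofNat 413, .negSucc 114, .ofNat 0, .negSucc 114, .ofNat 676, .ofNat 0, .ofNat 204, .ofNat 55, .negSucc 40, .ofNat 0, .ofNat 128, .ofNat 2, .ofNat 0, .ofNat 0, .ofNat 516, .ofNat 269954, .ofNat 4649576833283566802788193978680916778386718720, .ofNat 0, .ofNat 0, .ofNat 0, .ofNat 0, .ofNat 0, .ofNat 0, .ofNat 0, .ofNat 0,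 .ofNat 0, .ofNat 0, .ofNat 0, .ofNat 5224886980913328814635717598025340454875168768, .ofNat 0, .ofNat 301595792754926509304770486109833208528896, .ofNat 0⟩)
    (by decide +kernel)
theorem L00205 : Good (Phi V5.P V5.D 1 1) ⟨2, 0, 2, 1, 2, 1, 3, 2, 5, 11⟩ :=
  leafX_sound T5.ok_pp T5.Ypp.bz_eq (w := 215) (c := ⟨⟨.negSucc 1115, .negSucc 100, .negSucc 19, .negSucc 34, .negSucc 14, .ofNat 38⟩, ⟨.negSucc 312, .ofNat 83, .negSucc 279, .negSucc 28, .negSucc 1, .ofNat 17⟩, ⟨.ofNat 1244, .ofNat 106, .negSucc 44, .negSucc 133, .negSucc 26, .ofNat 17⟩, ⟨.negSucc 3429, .negSucc 32, .ofNat 27, .negSucc 39, .ofNat 48, .ofNat 120⟩, ⟨.negSucc 239, .ofNat 16, .negSucc 13, .negSucc 197, .ofNat 29, .ofNat 21⟩, .ofNat 192, .negSucc 18, .ofNat 0, .negSucc 18, .ofNat 231, .ofNat 0, .ofNat 356, .ofNat 18, .negSucc 59, .ofNat 0, .ofNat 128, .ofNat 19, .ofNat 0, .ofNat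 0, .ofNat 410, .ofNat 491254, .ofNat 8464117481458065302660650940263567793848320, .ofNat 0, .ofNat 0, .ofNat 0, .ofNat 5390070596819258987235908564726242934259712, .ofNat 0, .ofNat 0, .ofNat 0, .ofNat 3064769604191057911035337128497543964000256, .ofNat 0, .ofNat 0, .ofNat 0, .ofNat 6073483646328865054082315313653927628505088, .ofNat 0, .ofNat 967271947303000670444487864191346016256, .ofNat 0⟩)
    (by decide +kernel)
theorem L00206 : Good (Phi V5.P V5.D 1 1) ⟨2, 0, 2, 1, 2, 1, 3, 3, 5, 10⟩ :=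
  leafX_sound T5.ok_pp T5.Ypp.bz_eq (w := 209) (c := ⟨⟨.negSucc 1137, .negSucc 113, .negSucc 25, .negSucc 61, .ofNat 33, .ofNat 29⟩, ⟨.negSucc 318, .ofNat 75, .negSucc 279, .negSucc 36, .ofNat 12, .ofNat 11⟩, ⟨.ofNat 1181, .ofNat 138, .negSucc 45, .negSucc 93, .negSucc 99, .negSucc 6⟩, ⟨.negSucc 3426, .negSucc 41, .ofNat 14, .negSucc 107, .ofNat 84, .ofNat 98⟩, ⟨.negSucc 210, .ofNat 3, .negSucc 11, .negSucc 207, .ofNat 18, .ofNat 11⟩, .ofNat 192, .negSucc 17, .ofNat 0, .negSucc 17, .ofNat 231, .ofNat 0, .ofNat 128, .ofNat 18, .negSucc 68, .ofNat 0, .ofNat 128, .ofNat 13, .ofNat 0, .ofNat 0, .ofNat 395, .ofNat 13712, .ofNat 104679619041635189673642461995692170674176, .ofNat 0, .ofNat 0, .ofNat 0, .ofNat 0, .ofNat 0, .ofNat 0, .ofNat 0, .ofNat 0, .ofNat 0, .ofNat 0, .ofNat 0, .ofNat 0, .ofNat 0, .ofNat 0, .ofNat 0⟩)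
    (by decide +kernel)
theorem L00207 : Good (Phi V5.P V5.D 1 1) ⟨2, 0, 2, 1, 2, 1, 3, 3, 5, 11⟩ :=
  leafX_sound T5.ok_pp T5.Ypp.bz_eq (w := 211) (c := ⟨⟨.negSucc 1111, .negSucc 112, .negSucc 14, .negSucc 46, .ofNat 29, .ofNat 27⟩, ⟨.negSucc 309, .ofNat 69, .negSucc 271, .negSucc 28, .ofNat 13, .ofNat 8⟩, ⟨.ofNat 1155, .ofNat 130, .negSucc 68, .negSucc 51, .negSucc 94, .negSucc 5⟩, ⟨.negSucc 3313, .negSucc 52, .ofNat 18, .negSucc 100, .ofNat 65, .ofNat 96⟩, ⟨.negSucc 213, .negSucc 7, .negSucc 6, .negSucc 181, .ofNat 26, .ofNat 14⟩, .ofNat 192, .negSucc 17, .ofNat 0, .negSucc 17, .ofNat 231, .ofNat 0, .ofNat 247, .ofNat 18, .negSucc 66, .ofNat 0, .ofNat 128, .ofNat 10, .ofNat 0, .ofNat 0, .ofNat 469, .ofNat 28063, .ofNat 346063938516848904003549005781001866051584, .ofNat 0, .ofNat 0, .ofNat 0, .ofNat 0, .ofNat 0, .ofNat 0, .ofNat 0, .ofNat 0,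 .ofNat 0, .ofNat 0, .ofNat 0, .ofNat 877764969146244583437454368765990123077632, .ofNat 0, .ofNat 0, .ofNat 0⟩)
    (by decide +kernel)
theorem L00208 : Good (Phi V5.P V5.D 1 1) ⟨2, 0, 2, 1, 1, 0, 1, 0, 3, 3⟩ :=
  leafX_sound T5.ok_pp T5.Ypp.bz_eq (w := 179) (c := ⟨⟨.negSucc 1080, .negSucc 108, .negSucc 11, .negSucc 107, .ofNat 84, .ofNat 164⟩, ⟨.negSucc 286, .ofNat 70, .negSucc 263, .negSucc 62, .ofNat 29, .ofNat 61⟩, ⟨.ofNat 1398, .ofNat 117, .negSucc 116, .negSucc 9, .negSucc 346, .negSucc 39⟩, ⟨.negSucc 3239, .negSucc 64, .ofNat 32, .negSucc 184, .ofNat 173, .ofNat 424⟩, ⟨.negSucc 142, .negSucc 18, .negSucc 7, .negSucc 324, .ofNat 127, .ofNat 95⟩, .ofNat 192, .negSucc 18, .ofNat 0, .negSucc 18, .ofNat 231, .ofNat 0, .ofNat 230, .ofNat 18, .negSucc 70, .ofNat 0, .ofNat 128, .ofNat 9, .ofNat 0, .ofNat 0, .ofNat 634, .ofNat 38368, .ofNat 63282192496102890070053179686387712,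 .ofNat 0, .ofNat 0, .ofNat 0, .ofNat 178193042421918269127836191321751552, .ofNat 0, .ofNat 704598256545610777703907065856, .ofNat 0, .ofNat 56492914380070546084897861836734464, .ofNat 0, .ofNat 0, .ofNat 0, .ofNat 334745742811699677723760717595672576, .ofNat 0, .ofNat 0, .ofNat 0⟩)
    (by decide +kernel)
theorem L00209 : Good (Phi V5.P V5.D 1 1) ⟨2, 0, 2, 1, 1, 0, 1, 0, 1, 1⟩ :=
  out_sound (S := T5.ds_pp) T5.ok_pp (w := 15) (j := 1) (by decide +kernel)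
theorem L00210 : Good (Phi V5.P V5.D 1 1) ⟨2, 0, 2, 1, 1, 0, 2, 2, 3, 0⟩ :=
  leafX_sound T5.ok_pp T5.Ypp.bz_eq (w := 176) (c := ⟨⟨.ofNat 20, .ofNat 115, .negSucc 145, .ofNat 261, .negSucc 137, .negSucc 1189⟩, ⟨.ofNat 0, .ofNat 102, .negSucc 146, .ofNat 48, .negSucc 17, .negSucc 331⟩, ⟨.negSucc 78, .negSucc 103, .ofNat 119, .negSucc 274, .ofNat 139, .ofNat 1158⟩, ⟨.negSucc 116, .ofNat 481, .negSucc 299, .ofNat 810, .negSucc 405, .negSucc 3320⟩, ⟨.negSucc 54, .ofNat 163, .negSucc 64, .negSucc 189, .ofNat 75, .negSucc 139⟩, .ofNat 642, .negSucc 302, .ofNat 0, .negSucc 302, .ofNat 1347, .ofNat 0, .ofNat 195, .ofNat 88, .negSucc 108, .ofNat 0, .ofNat 128, .negSucc 22, .ofNat 0, .ofNat 0, .ofNat 310, .ofNat 321, .ofNat 0, .ofNat 0, .ofNat 0, .ofNat 0, .ofNat 0, .ofNat 0, .ofNat 0, .ofNat 0, .ofNat 0, .ofNat 0, .ofNat 0, .ofNat 0, .ofNat 0, .ofNat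 0, .ofNat 0, .ofNat 0⟩)
    (by decide +kernel)
theorem L00211 : Good (Phi V5.P V5.D 1 1) ⟨2, 0, 2, 1, 1, 0, 2, 2, 3, 1⟩ :=
  leafX_sound T5.ok_pp T5.Ypp.bz_eq (w := 179) (c := ⟨⟨.negSucc 1062, .negSucc 113, .negSucc 32, .negSucc 134, .ofNat 107, .negSucc 35⟩, ⟨.negSucc 262, .ofNat 62, .negSucc 286, .negSucc 78, .ofNat 31, .negSucc 17⟩, ⟨.ofNat 1020, .ofNat 155, .ofNat 5, .negSucc 59, .negSucc 189, .ofNat 54⟩, ⟨.negSucc 3269, .negSucc 28, .negSucc 22, .negSucc 263, .ofNat 306, .negSucc 104⟩, ⟨.ofNat 49, .negSucc 34, .negSucc 43, .negSucc 459, .negSucc 21, .ofNat 17⟩, .ofNat 650, .negSucc 319, .ofNat 0, .negSucc 319, .ofNat 1360, .ofNat 0, .ofNat 446, .ofNat 90, .negSucc 169, .ofNat 0, .ofNat 128, .negSucc 31, .ofNat 0, .ofNat 0, .ofNat 938, .ofNat 2035, .ofNat 0, .ofNat 0, .ofNat 0, .ofNat 0, .ofNat 0, .ofNat 0, .ofNat 0, .ofNat 0, .ofNat 0,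 .ofNat 0, .ofNat 0, .ofNat 0, .ofNat 0, .ofNat 0, .ofNat 0, .ofNat 0⟩)
    (by decide +kernel)
theorem L00212 : Good (Phi V5.P V5.D 1 1) ⟨2, 0, 2, 1, 1, 0, 2, 2, 3, 2⟩ :=
  leafX_sound T5.ok_pp T5.Ypp.bz_eq (w := 180) (c := ⟨⟨.negSucc 1098, .negSucc 105, .negSucc 6, .negSucc 126, .ofNat 94, .ofNat 83⟩, ⟨.negSucc 281, .ofNat 57, .negSucc 267, .negSucc 74, .ofNat 31, .ofNat 32⟩, ⟨.ofNat 1153, .ofNat 116, .negSucc 43, .negSucc 19, .negSucc 295, .negSucc 126⟩, ⟨.negSucc 3333, .negSucc 34, .ofNat 21, .negSucc 256, .ofNat 246, .ofNat 234⟩, ⟨.negSucc 4, .negSucc 34, .negSucc 10, .negSucc 379, .ofNat 33, .ofNat 28⟩, .ofNat 651, .negSucc 313, .ofNat 0, .negSucc 313, .ofNat 1330, .ofNat 0, .ofNat 498, .ofNat 85, .negSucc 144, .ofNat 0, .ofNat 128, .negSucc 31, .ofNat 0, .ofNat 0, .ofNat 1530, .ofNat 3058, .ofNat 0, .ofNat 0, .ofNat 0, .ofNat 0, .ofNat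 0, .ofNat 0, .ofNat 0, .ofNat 0, .ofNat 0, .ofNat 0, .ofNat 0, .ofNat 0, .ofNat 0, .ofNat 0, .ofNat 0, .ofNat 0⟩)
    (by decide +kernel)
theorem L00213 : Good (Phi V5.P V5.D 1 1) ⟨2, 0, 2, 1, 1, 0, 2, 2, 3, 3⟩ :=
  leafX_sound T5.ok_pp T5.Ypp.bz_eq (w := 181) (c := ⟨⟨.negSucc 966, .negSucc 118, .negSucc 11, .negSucc 135, .ofNat 39, .ofNat 84⟩, ⟨.negSucc 249, .ofNat 51, .negSucc 252, .negSucc 61, .ofNat 18, .ofNat 30⟩, ⟨.ofNat 978, .ofNat 154, .negSucc 72, .ofNat 70, .negSucc 313, .negSucc 166⟩, ⟨.negSucc 2956, .negSucc 87, .ofNat 6, .negSucc 286, .ofNat 100, .ofNat 237⟩, ⟨.ofNat 15, .negSucc 74, .negSucc 10, .negSucc 309, .ofNat 50, .ofNat 18⟩, .ofNat 860, .negSucc 611, .ofNat 0, .negSucc 611, .ofNat 2158, .ofNat 0, .ofNat 294, .ofNat 108, .negSucc 54, .ofNat 0, .ofNat 128, .negSucc 18, .ofNat 0, .ofNat 0, .ofNat 1020, .ofNat 8163, .ofNat 0,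 .ofNat 0, .ofNat 0, .ofNat 0, .ofNat 0, .ofNat 0, .ofNat 0, .ofNat 0, .ofNat 78943431085238126761800204030050304, .ofNat 9845880133246091245243449395380224, .ofNat 0, .ofNat 0, .ofNat 632338706264067025235823997145317376, .ofNat 21819369897359289894120710584926208, .ofNat 11718031934168495226110160666624, .ofNat 0⟩)
    (by decide +kernel)
theorem L00214 : Good (Phi V5.P V5.D 1 1) ⟨2, 0, 2, 1, 2, 0, 2, 2, 3, 4⟩ :=
  out_sound (S := T5.ds_pp) T5.ok_pp (w := 22) (j := 1) (by decide +kernel)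
theorem L00215 : Good (Phi V5.P V5.D 1 1) ⟨2, 0, 2, 1, 3, 2, 2, 2, 4, 8⟩ :=
  out_sound (S := T5.ds_pp) T5.ok_pp (w := 26) (j := 1) (by decide +kernel)
theorem L00216 : Good (Phi V5.P V5.D 1 1) ⟨2, 0, 2, 1, 3, 3, 3, 4, 4, 8⟩ :=
  out_sound (S := T5.ds_pp) T5.ok_pp (w := 27) (j := 1) (by decide +kernel)
theorem L00217 : Good (Phi V5.P V5.D 1 1) ⟨2, 0, 2, 1, 4, 6, 3, 5, 5, 16⟩ :=
  out_sound (S := T5.ds_pp) T5.ok_pp (w := 31) (j := 1) (by decide +kernel)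
theorem L00218 : Good (Phi V5.P V5.D 1 1) ⟨2, 0, 2, 1, 4, 7, 4, 10, 5, 16⟩ :=
  out_sound (S := T5.ds_pp) T5.ok_pp (w := 32) (j := 1) (by decide +kernel)
theorem L00219 : Good (Phi V5.P V5.D 1 1) ⟨2, 0, 2, 1, 4, 7, 4, 11, 5, 16⟩ :=
  out_sound (S := T5.ds_pp) T5.ok_pp (w := 40) (j := 2) (by decide +kernel)
theorem L00220 : Good (Phi V5.P V5.D 1 1) ⟨2, 0, 2, 1, 3, 3, 3, 5, 5, 17⟩ :=
  out_sound (S := T5.ds_pp) T5.ok_pp (w := 29) (j := 1) (by decide +kernel)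
theorem L00221 : Good (Phi V5.P V5.D 1 1) ⟨2, 0, 2, 1, 2, 1, 2, 2, 4, 9⟩ :=
  out_sound (S := T5.ds_pp) T5.ok_pp (w := 24) (j := 1) (by decide +kernel)
theorem L00222 : Good (Phi V5.P V5.D 1 1) ⟨2, 0, 2, 1, 1, 0, 2, 2, 3, 5⟩ :=
  out_sound (S := T5.ds_pp) T5.ok_pp (w := 20) (j := 1) (by decide +kernel)
theorem L00223 : Good (Phi V5.P V5.D 1 1) ⟨2, 0, 2, 1, 1, 0, 2, 2, 2, 3⟩ :=
  out_sound (S := T5.ds_pp) T5.ok_pp (w := 18) (j := 1) (by decide +kernel)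
theorem L00224 : Good (Phi V5.P V5.D 1 1) ⟨2, 0, 2, 1, 2, 0, 3, 6, 2, 0⟩ :=
  leafX_sound T5.ok_pp T5.Ypp.bz_eq (w := 190) (c := ⟨⟨.negSucc 706, .negSucc 101, .negSucc 12, .negSucc 62, .ofNat 119, .negSucc 293⟩, ⟨.negSucc 162, .ofNat 46, .negSucc 231, .negSucc 36, .ofNat 32, .negSucc 90⟩, ⟨.ofNat 689, .ofNat 144, .ofNat 6, .ofNat 62, .negSucc 210, .ofNat 100⟩, ⟨.negSucc 2167, .negSucc 37, .ofNat 5, .negSucc 101, .ofNat 345, .negSucc 904⟩, ⟨.negSucc 0, .negSucc 35, .negSucc 58, .negSucc 193, .ofNat 7, .ofNat 41⟩, .ofNat 648, .negSucc 313, .ofNat 0, .negSucc 313, .ofNat 1356, .ofNat 0, .ofNat 274, .ofNat 85, .negSucc 115, .ofNat 0, .ofNat 128, .negSucc 27, .ofNat 0, .ofNat 0, .ofNat 456, .ofNat 597, .ofNat 0, .ofNat 0, .ofNat 0, .ofNat 0, .ofNat 0, .ofNat 0, .ofNat 0, .ofNat 0, .ofNat 0, .ofNat 0, .ofNat 0, .ofNat 0, .ofNat 0, .ofNat 0, .ofNat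 5091486711145880849654534532759552, .ofNat 0⟩)
    (by decide +kernel)
theorem L00225 : Good (Phi V5.P V5.D 1 1) ⟨2, 0, 2, 1, 2, 0, 3, 7, 2, 0⟩ :=
  leafX_sound T5.ok_pp T5.Ypp.bz_eq (w := 191) (c := ⟨⟨.negSucc 528, .negSucc 56, .negSucc 14, .negSucc 97, .ofNat 315, .negSucc 349⟩, ⟨.negSucc 134, .ofNat 32, .negSucc 157, .negSucc 45, .ofNat 114, .negSucc 116⟩, ⟨.ofNat 546, .ofNat 81, .ofNat 23, .ofNat 134, .negSucc 446, .negSucc 56⟩, ⟨.negSucc 1609, .ofNat 29, .negSucc 11, .negSucc 227, .ofNat 977, .negSucc 1101⟩, ⟨.negSucc 30, .negSucc 46, .negSucc 31, .negSucc 239, .ofNat 8, .ofNat 111⟩, .ofNat 420, .negSucc 113, .ofNat 0, .negSucc 113, .ofNat 642, .ofNat 0, .ofNat 324, .ofNat 52, .negSucc 282, .ofNat 0, .ofNat 128, .negSucc 53, .ofNat 0, .ofNat 0, .ofNat 693, .ofNat 988, .ofNat 0, .ofNat 0, .ofNat 0, .ofNat 0, .ofNat 0, .ofNat 0, .ofNat 0,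 .ofNat 0, .ofNat 0, .ofNat 0, .ofNat 0, .ofNat 0, .ofNat 0, .ofNat 0, .ofNat 0, .ofNat 0⟩)
    (by decide +kernel)
theorem L00226 : Good (Phi V5.P V5.D 1 1) ⟨2, 0, 2, 1, 2, 0, 3, 6, 3, 2⟩ :=
  leafX_sound T5.ok_pp T5.Ypp.bz_eq (w := 199) (c := ⟨⟨.negSucc 962, .negSucc 111, .ofNat 3, .negSucc 71, .ofNat 61, .ofNat 33⟩, ⟨.negSucc 245, .ofNat 45, .negSucc 237, .negSucc 34, .ofNat 22, .ofNat 14⟩, ⟨.ofNat 817, .ofNat 129, .negSucc 36, .ofNat 16, .negSucc 218, .negSucc 165⟩, ⟨.negSucc 2926, .negSucc 95, .ofNat 20, .negSucc 150, .ofNat 179, .ofNat 86⟩, ⟨.negSucc 4, .negSucc 13, .negSucc 11, .negSucc 148, .ofNat 16, .ofNat 22⟩, .ofNat 652, .negSucc 310, .ofNat 0, .negSucc 310, .ofNat 1316, .ofNat 0, .ofNat 382, .ofNat 83, .negSucc 84, .ofNat 0, .ofNat 128, .negSucc 21, .ofNat 0, .ofNat 0, .ofNat 683, .ofNat 6156, .ofNat 0, .ofNat 0, .ofNat 0, .ofNat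 0, .ofNat 0, .ofNat 0, .ofNat 0, .ofNat 0, .ofNat 0, .ofNat 0, .ofNat 0, .ofNat 0, .ofNat 0, .ofNat 0, .ofNat 0, .ofNat 0⟩)
    (by decide +kernel)
theorem L00227 : Good (Phi V5.P V5.D 1 1) ⟨2, 0, 2, 1, 2, 0, 3, 7, 3, 2⟩ :=
  leafX_sound T5.ok_pp T5.Ypp.bz_eq (w := 197) (c := ⟨⟨.negSucc 813, .negSucc 124, .negSucc 22, .negSucc 87, .ofNat 174, .negSucc 96⟩, ⟨.negSucc 207, .ofNat 33, .negSucc 217, .negSucc 30, .ofNat 59, .negSucc 21⟩, ⟨.ofNat 507, .ofNat 134, .negSucc 8, .ofNat 35, .negSucc 372, .negSucc 46⟩, ⟨.negSucc 2475, .negSucc 133, .negSucc 17, .negSucc 214, .ofNat 473, .negSucc 319⟩, ⟨.ofNat 25, .negSucc 45, .negSucc 94, .negSucc 134, .ofNat 81, .ofNat 69⟩, .ofNat 652, .negSucc 309, .ofNat 0, .negSucc 309, .ofNat 1311, .ofNat 0, .ofNat 274, .ofNat 83, .negSucc 93, .ofNat 0, .ofNat 128, .negSucc 26, .ofNat 0, .ofNat 0, .ofNat 550, .ofNat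 1756, .ofNat 0, .ofNat 0, .ofNat 0, .ofNat 0, .ofNat 0, .ofNat 638672914170145229749579544729315442688, .ofNat 0, .ofNat 0, .ofNat 0, .ofNat 253648409648224939026268636533667921920, .ofNat 0, .ofNat 0, .ofNat 0, .ofNat 0, .ofNat 0, .ofNat 0⟩)
    (by decide +kernel)
theorem L00228 : Good (Phi V5.P V5.D 1 1) ⟨2, 0, 2, 1, 2, 0, 2, 3, 3, 3⟩ :=
  leafX_sound T5.ok_pp T5.Ypp.bz_eq (w := 194) (c := ⟨⟨.negSucc 897, .negSucc 119, .negSucc 8, .negSucc 72, .ofNat 68, .negSucc 27⟩, ⟨.negSucc 223, .ofNat 36, .negSucc 235, .negSucc 25, .ofNat 27, .negSucc 4⟩, ⟨.ofNat 654, .ofNat 106, .negSucc 17, .negSucc 13, .negSucc 460, .negSucc 80⟩, ⟨.negSucc 2722, .negSucc 115, .negSucc 32, .negSucc 189, .ofNat 174, .negSucc 88⟩, ⟨.ofNat 29, .negSucc 37, .negSucc 50, .negSucc 87, .ofNat 74, .ofNat 33⟩, .ofNat 869, .negSucc 636, .ofNat 0, .negSucc 636, .ofNat 2209, .ofNat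 0, .ofNat 291, .ofNat 111, .negSucc 73, .ofNat 0, .ofNat 128, .negSucc 25, .ofNat 0, .ofNat 0, .ofNat 709, .ofNat 3354, .ofNat 0, .ofNat 0, .ofNat 0, .ofNat 0, .ofNat 0, .ofNat 262194373428113248982538613573680103424, .ofNat 0, .ofNat 0, .ofNat 0, .ofNat 57427800088429583797009629133374750720, .ofNat 0, .ofNat 0, .ofNat 1091743930988260871243184333838530641920, .ofNat 0, .ofNat 0, .ofNat 0⟩)
    (by decide +kernel)
theorem L00229 : Good (Phi V5.P V5.D 1 1) ⟨2, 0, 2, 1, 2, 0, 2, 3, 1, 1⟩ :=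
  leafX_sound T5.ok_pp T5.Ypp.bz_eq (w := 190) (c := ⟨⟨.negSucc 948, .negSucc 101, .ofNat 2, .ofNat 0, .ofNat 0, .ofNat 0⟩, ⟨.negSucc 234, .ofNat 42, .negSucc 240, .ofNat 0, .ofNat 0, .ofNat 0⟩, ⟨.ofNat 251, .ofNat 102, .negSucc 1, .ofNat 0, .ofNat 0, .ofNat 0⟩, ⟨.negSucc 2877, .negSucc 45, .ofNat 1, .ofNat 1, .negSucc 0, .ofNat 1⟩, ⟨.ofNat 0, .negSucc 0, .ofNat 0, .ofNat 0, .ofNat 0, .ofNat 0⟩, .ofNat 192, .negSucc 17, .ofNat 0, .negSucc 17, .ofNat 230, .ofNat 0, .ofNat 145, .ofNat 18, .negSucc 105, .ofNat 0, .ofNat 128, .negSucc 11, .ofNat 0, .ofNat 0, .ofNat 307, .ofNat 64074, .ofNat 0, .ofNat 0, .ofNat 0, .ofNat 0, .ofNat 12403229446042188980317514711439222243328, .ofNat 304122646985719921179377307184787357696, .ofNat 8342219063604509782478566719488, .ofNat 0, .ofNat 76665511752107954741213252553592012800000000, .ofNat 1597202508463769528541005111816636908699648,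 .ofNat 0, .ofNat 0, .ofNat 76665511752107954741213252553592012800000000, .ofNat 1597202315808766607055157131150677162065920, .ofNat 0, .ofNat 0⟩)
    (by decide +kernel)
theorem L00230 : Good (Phi V5.P V5.D 1 1) ⟨2, 0, 2, 1, 2, 1, 2, 3, 3, 0⟩ :=
  leafX_sound T5.ok_pp T5.Ypp.bz_eq (w := 191) (c := ⟨⟨.negSucc 394, .negSucc 109, .negSucc 68, .ofNat 87, .ofNat 271, .negSucc 549⟩, ⟨.negSucc 116, .ofNat 25, .negSucc 151, .ofNat 19, .ofNat 85, .negSucc 187⟩, ⟨.ofNat 264, .ofNat 267, .ofNat 77, .negSucc 21, .negSucc 140, .ofNat 293⟩, ⟨.negSucc 1162, .negSucc 203, .negSucc 114, .ofNat 216, .ofNat 787, .negSucc 1532⟩, ⟨.negSucc 101, .negSucc 55, .negSucc 101, .ofNat 92, .negSucc 81, .negSucc 206⟩, .ofNat 654, .negSucc 320, .ofNat 0, .negSucc 320, .ofNat 1341, .ofNat 0, .ofNat 263, .ofNat 96, .negSucc 182, .ofNat 0, .ofNat 128, .negSucc 37, .ofNat 0, .ofNat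 0, .ofNat 459, .ofNat 659, .ofNat 0, .ofNat 0, .ofNat 0, .ofNat 0, .ofNat 0, .ofNat 0, .ofNat 0, .ofNat 0, .ofNat 0, .ofNat 0, .ofNat 5125293623735082519357369450758144, .ofNat 0, .ofNat 0, .ofNat 0, .ofNat 0, .ofNat 0⟩)
    (by decide +kernel)
theorem L00231 : Good (Phi V5.P V5.D 1 1) ⟨2, 0, 2, 1, 2, 1, 2, 3, 3, 1⟩ :=
  leafX_sound T5.ok_pp T5.Ypp.bz_eq (w := 192) (c := ⟨⟨.negSucc 809, .negSucc 154, .negSucc 51, .negSucc 185, .ofNat 233, .negSucc 225⟩, ⟨.negSucc 201, .ofNat 34, .negSucc 238, .negSucc 79, .ofNat 90, .negSucc 89⟩, ⟨.ofNat 734, .ofNat 265, .ofNat 19, .ofNat 156, .negSucc 421, .ofNat 18⟩, ⟨.negSucc 2366, .negSucc 211, .negSucc 30, .negSucc 520, .ofNat 707, .negSucc 781⟩, ⟨.negSucc 316, .negSucc 118, .negSucc 128, .negSucc 147, .ofNat 36, .ofNat 278⟩, .ofNat 662, .negSucc 339, .ofNat 0, .negSucc 339, .ofNat 1360, .ofNat 0, .ofNat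 213, .ofNat 96, .negSucc 98, .ofNat 0, .ofNat 128, .negSucc 19, .ofNat 0, .ofNat 0, .ofNat 435, .ofNat 689, .ofNat 0, .ofNat 0, .ofNat 0, .ofNat 0, .ofNat 0, .ofNat 24953897526669549251773980172663914496, .ofNat 0, .ofNat 0, .ofNat 0, .ofNat 0, .ofNat 0, .ofNat 0, .ofNat 0, .ofNat 14210639623605108155656526260888141824, .ofNat 0, .ofNat 0⟩)
    (by decide +kernel)
theorem L00232 : Good (Phi V5.P V5.D 1 1) ⟨2, 0, 2, 1, 2, 1, 2, 3, 3, 2⟩ :=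
  leafX_sound T5.ok_pp T5.Ypp.bz_eq (w := 193) (c := ⟨⟨.negSucc 1004, .negSucc 190, .negSucc 13, .negSucc 159, .ofNat 107, .ofNat 48⟩, ⟨.negSucc 273, .ofNat 32, .negSucc 261, .negSucc 57, .ofNat 49, .ofNat 22⟩, ⟨.ofNat 827, .ofNat 233, .negSucc 113, .ofNat 173, .negSucc 424, .negSucc 197⟩, ⟨.negSucc 3008, .negSucc 290, .ofNat 14, .negSucc 412, .ofNat 280, .ofNat 101⟩, ⟨.negSucc 177, .negSucc 84, .negSucc 2, .negSucc 142, .ofNat 163, .ofNat 83⟩, .ofNat 654, .negSucc 315, .ofNat 0, .negSucc 315, .ofNat 1316, .ofNat 0, .ofNat 344, .ofNat 87, .negSucc 73, .ofNat 0, .ofNat 128, .negSucc 18, .ofNat 0, .ofNat 0, .ofNat 642, .ofNat 1167, .ofNat 0, .ofNat 0, .ofNat 0, .ofNat 0, .ofNat 0, .ofNat 182281159163756457065996361808375447552, .ofNat 0, .ofNat 0, .ofNat 0, .ofNat 50184165493384131254072228531436257280, .ofNat 0, .ofNat 0, .ofNat 0, .ofNat 51399008833585821102474095723789942784,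 .ofNat 97824614001924021368773217810907136, .ofNat 0⟩)
    (by decide +kernel)
theorem L00233 : Good (Phi V5.P V5.D 1 1) ⟨2, 0, 2, 1, 2, 1, 2, 3, 3, 3⟩ :=
  leafX_sound T5.ok_pp T5.Ypp.bz_eq (w := 193) (c := ⟨⟨.negSucc 951, .negSucc 181, .negSucc 1, .negSucc 123, .negSucc 21, .ofNat 58⟩, ⟨.negSucc 246, .ofNat 27, .negSucc 250, .negSucc 40, .ofNat 6, .ofNat 26⟩, ⟨.ofNat 687, .ofNat 154, .negSucc 137, .ofNat 183, .negSucc 381, .negSucc 274⟩, ⟨.negSucc 2871, .negSucc 244, .ofNat 15, .negSucc 325, .negSucc 137, .ofNat 127⟩, ⟨.negSucc 106, .negSucc 88, .negSucc 4, .negSucc 90, .ofNat 198, .ofNat 153⟩, .ofNat 413, .negSucc 101, .ofNat 0, .negSucc 101, .ofNat 643, .ofNat 0, .ofNat 264, .ofNat 47, .negSucc 46, .ofNat 0, .ofNat 128, .negSucc 23, .ofNat 0, .ofNat 0, .ofNat 657, .ofNat 1945, .ofNat 0, .ofNat 0, .ofNat 0, .ofNat 0, .ofNat 0, .ofNat 220101425930662190353277172671703941120,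 .ofNat 0, .ofNat 0, .ofNat 0, .ofNat 66817241090181906389477067925309358080, .ofNat 0, .ofNat 0, .ofNat 0, .ofNat 103380563521868048000870387463955152896, .ofNat 38198933142767111690339173386944512, .ofNat 0⟩)
    (by decide +kernel)
theorem L00234 : Good (Phi V5.P V5.D 1 1) ⟨2, 0, 2, 1, 3, 2, 4, 12, 5, 16⟩ :=
  out_sound (S := T5.ds_pp) T5.ok_pp (w := 30) (j := 1) (by decide +kernel)
theorem L00235 : Good (Phi V5.P V5.D 1 1) ⟨2, 0, 2, 1, 4, 4, 4, 13, 6, 32⟩ :=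
  out_sound (S := T5.ds_pp) T5.ok_pp (w := 34) (j := 1) (by decide +kernel)
theorem L00236 : Good (Phi V5.P V5.D 1 1) ⟨2, 0, 2, 1, 4, 5, 5, 26, 6, 32⟩ :=
  out_sound (S := T5.ds_pp) T5.ok_pp (w := 35) (j := 1) (by decide +kernel)
theorem L00237 : Good (Phi V5.P V5.D 1 1) ⟨2, 0, 2, 1, 5, 10, 5, 27, 6, 32⟩ :=
  out_sound (S := T5.ds_pp) T5.ok_pp (w := 37) (j := 1) (by decide +kernel)
theorem L00238 : Good (Phi V5.P V5.D 1 1) ⟨2, 0, 2, 1, 5, 11, 5, 27, 6, 32⟩ :=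
  out_sound (S := T5.ds_pp) T5.ok_pp (w := 46) (j := 2) (by decide +kernel)
theorem L00239 : Good (Phi V5.P V5.D 1 1) ⟨2, 0, 2, 1, 3, 2, 4, 13, 6, 33⟩ :=
  out_sound (S := T5.ds_pp) T5.ok_pp (w := 32) (j := 1) (by decide +kernel)
theorem L00240 : Good (Phi V5.P V5.D 1 1) ⟨2, 0, 2, 1, 5, 8, 5, 28, 7, 64⟩ :=
  out_sound (S := T5.ds_pp) T5.ok_pp (w := 39) (j := 1) (by decide +kernel)
theorem L00241 : Good (Phi V5.P V5.D 1 1) ⟨2, 0, 2, 1, 5, 9, 6, 56, 7, 64⟩ :=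
  out_sound (S := T5.ds_pp) T5.ok_pp (w := 40) (j := 1) (by decide +kernel)
theorem L00242 : Good (Phi V5.P V5.D 1 1) ⟨2, 0, 2, 1, 5, 9, 6, 57, 7, 64⟩ :=
  out_sound (S := T5.ds_pp) T5.ok_pp (w := 50) (j := 2) (by decide +kernel)
theorem L00243 : Good (Phi V5.P V5.D 1 1) ⟨2, 0, 2, 1, 4, 4, 5, 28, 7, 65⟩ :=
  out_sound (S := T5.ds_pp) T5.ok_pp (w := 37) (j := 1) (by decide +kernel)
theorem L00244 : Good (Phi V5.P V5.D 1 1) ⟨2, 0, 2, 1, 6, 16, 6, 58, 8, 128⟩ :=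
  out_sound (S := T5.ds_pp) T5.ok_pp (w := 44) (j := 1) (by decide +kernel)
theorem L00245 : Good (Phi V5.P V5.D 1 1) ⟨2, 0, 2, 1, 6, 17, 6, 58, 8, 128⟩ :=
  out_sound (S := T5.ds_pp) T5.ok_pp (w := 54) (j := 2) (by decide +kernel)
theorem L00246 : Good (Phi V5.P V5.D 1 1) ⟨2, 0, 2, 1, 5, 8, 6, 58, 8, 129⟩ :=
  out_sound (S := T5.ds_pp) T5.ok_pp (w := 42) (j := 1) (by decide +kernel)
theorem L00247 : Good (Phi V5.P V5.D 1 1) ⟨2, 0, 2, 1, 5, 8, 6, 58, 7, 65⟩ :=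
  out_sound (S := T5.ds_pp) T5.ok_pp (w := 40) (j := 1) (by decide +kernel)
theorem L00248 : Good (Phi V5.P V5.D 1 1) ⟨2, 0, 2, 1, 5, 8, 6, 59, 6, 32⟩ :=
  out_sound (S := T5.ds_pp) T5.ok_pp (w := 48) (j := 2) (by decide +kernel)
theorem L00249 : Good (Phi V5.P V5.D 1 1) ⟨2, 0, 2, 1, 5, 9, 5, 29, 6, 32⟩ :=
  out_sound (S := T5.ds_pp) T5.ok_pp (w := 46) (j := 2) (by decide +kernel)
theorem L00250 : Good (Phi V5.P V5.D 1 1) ⟨2, 0, 2, 1, 4, 4, 4, 14, 6, 33⟩ :=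
  out_sound (S := T5.ds_pp) T5.ok_pp (w := 34) (j := 1) (by decide +kernel)
theorem L00251 : Good (Phi V5.P V5.D 1 1) ⟨2, 0, 2, 1, 4, 4, 4, 15, 5, 16⟩ :=
  out_sound (S := T5.ds_pp) T5.ok_pp (w := 40) (j := 2) (by decide +kernel)
theorem L00252 : Good (Phi V5.P V5.D 1 1) ⟨2, 0, 2, 1, 4, 5, 3, 7, 5, 16⟩ :=
  out_sound (S := T5.ds_pp) T5.ok_pp (w := 38) (j := 2) (by decide +kernel)
theorem L00253 : Good (Phi V5.P V5.D 1 1) ⟨2, 0, 2, 1, 3, 2, 3, 6, 5, 17⟩ :=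
  out_sound (S := T5.ds_pp) T5.ok_pp (w := 29) (j := 1) (by decide +kernel)
theorem L00254 : Good (Phi V5.P V5.D 1 1) ⟨2, 0, 2, 1, 4, 4, 3, 7, 5, 17⟩ :=
  out_sound (S := T5.ds_pp) T5.ok_pp (w := 31) (j := 1) (by decide +kernel)
theorem L00255 : Good (Phi V5.P V5.D 1 1) ⟨2, 0, 2, 1, 4, 5, 3, 7, 5, 17⟩ :=
  out_sound (S := T5.ds_pp) T5.ok_pp (w := 38) (j := 2) (by decide +kernel)
theorem L00256 : Good (Phi V5.P V5.D 1 1) ⟨2, 0, 2, 1, 3, 2, 2, 3, 4, 9⟩ :=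
  out_sound (S := T5.ds_pp) T5.ok_pp (w := 26) (j := 1) (by decide +kernel)
theorem L00257 : Good (Phi V5.P V5.D 1 1) ⟨2, 0, 2, 1, 3, 2, 2, 3, 3, 5⟩ :=
  out_sound (S := T5.ds_pp) T5.ok_pp (w := 24) (j := 1) (by decide +kernel)
theorem L00258 : Good (Phi V5.P V5.D 1 1) ⟨2, 0, 2, 1, 4, 6, 5, 24, 6, 32⟩ :=
  out_sound (S := T5.ds_pp) T5.ok_pp (w := 35) (j := 1) (by decide +kernel)
theorem L00259 : Good (Phi V5.P V5.D 1 1) ⟨2, 0, 2, 1, 4, 6, 5, 25, 6, 32⟩ :=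
  out_sound (S := T5.ds_pp) T5.ok_pp (w := 44) (j := 2) (by decide +kernel)
theorem L00260 : Good (Phi V5.P V5.D 1 1) ⟨2, 0, 2, 1, 4, 6, 4, 12, 6, 33⟩ :=
  out_sound (S := T5.ds_pp) T5.ok_pp (w := 34) (j := 1) (by decide +kernel)
theorem L00261 : Good (Phi V5.P V5.D 1 1) ⟨2, 0, 2, 1, 4, 6, 4, 12, 5, 17⟩ :=
  out_sound (S := T5.ds_pp) T5.ok_pp (w := 32) (j := 1) (by decide +kernel)
theorem L00262 : Good (Phi V5.P V5.D 1 1) ⟨2, 0, 2, 1, 4, 6, 4, 13, 4, 8⟩ :=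
  out_sound (S := T5.ds_pp) T5.ok_pp (w := 38) (j := 2) (by decide +kernel)
theorem L00263 : Good (Phi V5.P V5.D 1 1) ⟨2, 0, 2, 1, 4, 6, 3, 6, 4, 9⟩ :=
  out_sound (S := T5.ds_pp) T5.ok_pp (w := 29) (j := 1) (by decide +kernel)
theorem L00264 : Good (Phi V5.P V5.D 1 1) ⟨2, 0, 2, 1, 4, 7, 3, 6, 3, 4⟩ :=
  out_sound (S := T5.ds_pp) T5.ok_pp (w := 34) (j := 2) (by decide +kernel)
theorem L00265 : Good (Phi V5.P V5.D 1 1) ⟨2, 0, 2, 1, 3, 3, 3, 7, 3, 4⟩ :=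
  out_sound (S := T5.ds_pp) T5.ok_pp (w := 32) (j := 2) (by decide +kernel)
theorem L00266 : Good (Phi V5.P V5.D 1 1) ⟨2, 0, 2, 1, 3, 3, 2, 3, 3, 5⟩ :=
  out_sound (S := T5.ds_pp) T5.ok_pp (w := 24) (j := 1) (by decide +kernel)
theorem L00267 : Good (Phi V5.P V5.D 1 1) ⟨2, 0, 2, 1, 2, 1, 2, 3, 2, 3⟩ :=
  out_sound (S := T5.ds_pp) T5.ok_pp (w := 20) (j := 1) (by decide +kernel)
theorem L00268 : Good (Phi V5.P V5.D 1 1) ⟨2, 0, 2, 1, 2, 2, 3, 0, 5, 0⟩ :=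
  leafX_sound T5.ok_pp T5.Ypp.bz_eq (w := 208) (c := ⟨⟨.ofNat 800, .ofNat 188, .negSucc 198, .ofNat 113, .ofNat 201, .negSucc 713⟩, ⟨.ofNat 135, .ofNat 54, .ofNat 79, .ofNat 85, .ofNat 111, .negSucc 261⟩, ⟨.negSucc 254, .negSucc 281, .ofNat 253, .negSucc 318, .negSucc 277, .ofNat 172⟩, ⟨.ofNat 2626, .ofNat 189, .negSucc 424, .ofNat 125, .ofNat 464, .negSucc 1932⟩, ⟨.negSucc 750, .ofNat 444, .negSucc 255, .ofNat 752, .ofNat 430, .negSucc 431⟩, .ofNat 671, .negSucc 348, .ofNat 0, .negSucc 348, .ofNat 1350, .ofNat 0, .ofNat 216, .ofNat 112, .negSucc 40, .ofNat 0, .ofNat 128, .negSucc 10, .ofNat 0, .ofNat 0, .ofNat 286, .ofNat 9828, .ofNat 0, .ofNat 0, .ofNat 0, .ofNat 0, .ofNat 0, .ofNat 0, .ofNat 0, .ofNat 0, .ofNat 0, .ofNat 0, .ofNat 0, .ofNat 0, .ofNat 52290958015761449050676002982810624196608, .ofNat 0, .ofNat 0, .ofNat 0⟩)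
    (by decide +kernel)
theorem L00269 : Good (Phi V5.P V5.D 1 1) ⟨2, 0, 2, 1, 2, 2, 3, 0, 5, 1⟩ :=
  leafX_sound T5.ok_pp T5.Ypp.bz_eq (w := 208) (c := ⟨⟨.ofNat 149, .ofNat 120, .negSucc 186, .ofNat 90, .ofNat 128, .negSucc 604⟩, ⟨.negSucc 47, .ofNat 102, .negSucc 78, .ofNat 63, .ofNat 77, .negSucc 223⟩, ⟨.negSucc 116, .negSucc 293, .ofNat 401, .negSucc 459, .negSucc 151, .ofNat 241⟩, ⟨.ofNat 678, .ofNat 186, .negSucc 348, .ofNat 148, .ofNat 295, .negSucc 1673⟩, ⟨.negSucc 945, .ofNat 451, .negSucc 203, .ofNat 409, .ofNat 258, .negSucc 219⟩, .ofNat 660, .negSucc 337, .ofNat 0, .negSucc 337, .ofNat 1363, .ofNat 0, .ofNat 238, .ofNat 105, .negSucc 79, .ofNat 0, .ofNat 128, .negSucc 15, .ofNat 0, .ofNat 0, .ofNat 492, .ofNat 12843, .ofNat 0, .ofNat 0, .ofNat 0, .ofNat 0, .ofNat 0, .ofNat 0, .ofNat 0, .ofNat 0, .ofNat 0, .ofNat 0, .ofNat 0, .ofNat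 0, .ofNat 0, .ofNat 0, .ofNat 0, .ofNat 0⟩)
    (by decide +kernel)
theorem L00270 : Good (Phi V5.P V5.D 1 1) ⟨2, 0, 2, 1, 2, 2, 3, 1, 4, 0⟩ :=
  leafX_sound T5.ok_pp T5.Ypp.bz_eq (w := 202) (c := ⟨⟨.ofNat 969, .ofNat 142, .negSucc 166, .ofNat 198, .ofNat 93, .negSucc 1405⟩, ⟨.ofNat 221, .ofNat 53, .ofNat 109, .ofNat 117, .ofNat 66, .negSucc 574⟩, ⟨.negSucc 508, .negSucc 249, .ofNat 223, .negSucc 415, .negSucc 108, .ofNat 548⟩, ⟨.ofNat 3035, .ofNat 98, .negSucc 443, .ofNat 378, .ofNat 199, .negSucc 3889⟩, ⟨.negSucc 289, .ofNat 466, .negSucc 129, .ofNat 569, .ofNat 233, .negSucc 887⟩, .ofNat 418, .negSucc 112, .ofNat 0, .negSucc 112, .ofNat 641, .ofNat 0, .ofNat 179, .ofNat 62, .negSucc 67, .ofNat 0, .ofNat 128, .negSucc 6, .ofNat 0, .ofNat 0, .ofNat 205, .ofNat 2707, .ofNat 0, .ofNat 0, .ofNat 0, .ofNat 0, .ofNat 0, .ofNat 0, .ofNat 0, .ofNat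 0, .ofNat 0, .ofNat 0, .ofNat 0, .ofNat 0, .ofNat 0, .ofNat 0, .ofNat 0, .ofNat 0⟩)
    (by decide +kernel)
theorem L00271 : Good (Phi V5.P V5.D 1 1) ⟨2, 0, 2, 1, 2, 3, 2, 0, 4, 0⟩ :=
  leafX_sound T5.ok_pp T5.Ypp.bz_eq (w := 197) (c := ⟨⟨.ofNat 889, .ofNat 158, .negSucc 236, .negSucc 563, .ofNat 313, .negSucc 1182⟩, ⟨.ofNat 287, .ofNat 24, .negSucc 101, .ofNat 33, .ofNat 128, .negSucc 444⟩, ⟨.negSucc 678, .negSucc 292, .ofNat 278, .ofNat 816, .negSucc 466, .ofNat 369⟩, ⟨.ofNat 2532, .ofNat 236, .negSucc 602, .negSucc 2110, .ofNat 782, .negSucc 3034⟩, ⟨.ofNat 395, .ofNat 728, .negSucc 612, .ofNat 1625, .ofNat 417, .negSucc 1360⟩, .ofNat 652, .negSucc 313, .ofNat 0, .negSucc 313, .ofNat 1327, .ofNat 0, .ofNat 194, .ofNat 96, .negSucc 115, .ofNat 0, .ofNat 128, .negSucc 25, .ofNat 0, .ofNat 0, .ofNat 387, .ofNat 1084, .ofNat 0, .ofNat 0, .ofNat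 0, .ofNat 0, .ofNat 0, .ofNat 0, .ofNat 0, .ofNat 0, .ofNat 0, .ofNat 0, .ofNat 0, .ofNat 0, .ofNat 0, .ofNat 0, .ofNat 0, .ofNat 0⟩)
    (by decide +kernel)
theorem L00272 : Good (Phi V5.P V5.D 1 1) ⟨2, 0, 2, 1, 1, 1, 2, 1, 4, 0⟩ :=
  leafX_sound T5.ok_pp T5.Ypp.bz_eq (w := 183) (c := ⟨⟨.ofNat 1070, .ofNat 76, .negSucc 58, .ofNat 43, .negSucc 173, .negSucc 1361⟩, ⟨.ofNat 312, .ofNat 48, .ofNat 46, .ofNat 134, .negSucc 73, .negSucc 507⟩, ⟨.negSucc 856, .negSucc 86, .ofNat 156, .negSucc 214, .ofNat 176, .ofNat 678⟩, ⟨.ofNat 3163, .ofNat 13, .negSucc 257, .negSucc 374, .negSucc 405, .negSucc 3612⟩, ⟨.negSucc 68, .ofNat 517, .ofNat 127, .ofNat 1463, .negSucc 268, .negSucc 904⟩, .ofNat 849, .negSucc 597, .ofNat 0, .negSucc 597, .ofNat 2171, .ofNat 0, .ofNat 170, .ofNat 128, .negSucc 108, .ofNat 0, .ofNat 122, .negSucc 19, .ofNat 0, .ofNat 0, .ofNat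 324, .ofNat 389, .ofNat 0, .ofNat 0, .ofNat 0, .ofNat 0, .ofNat 0, .ofNat 0, .ofNat 0, .ofNat 0, .ofNat 0, .ofNat 0, .ofNat 0, .ofNat 0, .ofNat 0, .ofNat 0, .ofNat 0, .ofNat 0⟩)
    (by decide +kernel)
theorem L00273 : Good (Phi V5.P V5.D 1 1) ⟨2, 0, 2, 1, 1, 1, 2, 0, 4, 1⟩ :=
  leafX_sound T5.ok_pp T5.Ypp.bz_eq (w := 183) (c := ⟨⟨.negSucc 413, .ofNat 16, .negSucc 134, .ofNat 54, .ofNat 68, .negSucc 725⟩, ⟨.negSucc 198, .ofNat 122, .negSucc 225, .ofNat 96, .ofNat 38, .negSucc 238⟩, ⟨.negSucc 168, .negSucc 256, .ofNat 309, .negSucc 122, .negSucc 65, .ofNat 583⟩, ⟨.negSucc 1078, .ofNat 103, .negSucc 229, .negSucc 85, .ofNat 115, .negSucc 1950⟩, ⟨.negSucc 955, .ofNat 419, .negSucc 176, .ofNat 900, .ofNat 258, .negSucc 358⟩, .ofNat 903, .negSucc 690, .ofNat 0, .negSucc 690, .ofNat 2246, .ofNat 0, .ofNat 260, .ofNat 128, .negSucc 129, .ofNat 0, .ofNat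 124, .negSucc 28, .ofNat 0, .ofNat 0, .ofNat 696, .ofNat 2451, .ofNat 217187378846458467120270586148814848, .ofNat 0, .ofNat 0, .ofNat 0, .ofNat 0, .ofNat 0, .ofNat 0, .ofNat 0, .ofNat 0, .ofNat 0, .ofNat 0, .ofNat 0, .ofNat 0, .ofNat 0, .ofNat 0, .ofNat 0⟩)
    (by decide +kernel)
theorem L00274 : Good (Phi V5.P V5.D 1 1) ⟨2, 0, 2, 1, 1, 1, 2, 1, 4, 1⟩ :=
  leafX_sound T5.ok_pp T5.Ypp.bz_eq (w := 183) (c := ⟨⟨.negSucc 232, .negSucc 35, .negSucc 123, .negSucc 72, .negSucc 64, .negSucc 787⟩, ⟨.negSucc 92, .ofNat 102, .negSucc 246, .ofNat 20, .negSucc 10, .negSucc 274⟩, ⟨.negSucc 248, .negSucc 20, .ofNat 146, .negSucc 207, .ofNat 238, .ofNat 590⟩, ⟨.negSucc 648, .negSucc 27, .negSucc 228, .negSucc 359, .negSucc 206, .negSucc 2133⟩, ⟨.negSucc 557, .ofNat 296, .negSucc 162, .ofNat 638, .ofNat 105, .negSucc 420⟩, .ofNat 671, .negSucc 348, .ofNat 0,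 .negSucc 348, .ofNat 1350, .ofNat 0, .ofNat 204, .ofNat 111, .negSucc 120, .ofNat 0, .ofNat 128, .negSucc 16, .ofNat 0, .ofNat 0, .ofNat 375, .ofNat 1215, .ofNat 0, .ofNat 0, .ofNat 0, .ofNat 0, .ofNat 0, .ofNat 0, .ofNat 105200396874582853038267336491008, .ofNat 0, .ofNat 0, .ofNat 0, .ofNat 0, .ofNat 0, .ofNat 0, .ofNat 0, .ofNat 30087422231978726471800423710720, .ofNat 0⟩)
    (by decide +kernel)
theorem L00275 : Good (Phi V5.P V5.D 1 1) ⟨2, 0, 2, 1, 2, 2, 2, 0, 4, 2⟩ :=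
  leafX_sound T5.ok_pp T5.Ypp.bz_eq (w := 199) (c := ⟨⟨.negSucc 1121, .negSucc 48, .negSucc 81, .ofNat 33, .ofNat 6, .negSucc 232⟩, ⟨.negSucc 389, .ofNat 157, .negSucc 295, .negSucc 3, .ofNat 16, .negSucc 74⟩, ⟨.ofNat 375, .negSucc 159, .ofNat 259, .negSucc 348, .ofNat 126, .ofNat 406⟩, ⟨.negSucc 3216, .ofNat 26, .negSucc 6, .ofNat 147, .negSucc 26, .negSucc 638⟩, ⟨.negSucc 862, .ofNat 279, .negSucc 80, .negSucc 94, .ofNat 134, .negSucc 44⟩, .ofNat 667, .negSucc 344, .ofNat 0, .negSucc 344, .ofNat 1348, .ofNat 0, .ofNat 370, .ofNat 97, .negSucc 84, .ofNat 0, .ofNat 128, .negSucc 2, .ofNat 0, .ofNat 0, .ofNat 615, .ofNat 6917, .ofNat 0, .ofNat 0, .ofNat 0, .ofNat 0, .ofNat 0, .ofNat 0, .ofNat 0, .ofNat 0, .ofNat 0, .ofNat 0, .ofNat 0, .ofNat 0, .ofNat 9105632647981741076462113091411020611584, .ofNat 0, .ofNat 0, .ofNat 0⟩)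
    (by decide +kernel)
theorem L00276 : Good (Phi V5.P V5.D 1 1) ⟨2, 0, 2, 1, 2, 3, 2, 0, 4, 2⟩ :=
  leafX_sound T5.ok_pp T5.Ypp.bz_eq (w := 198) (c := ⟨⟨.negSucc 1105, .negSucc 55, .negSucc 61, .ofNat 125, .negSucc 95, .negSucc 173⟩, ⟨.negSucc 365, .ofNat 154, .negSucc 307, .ofNat 71, .negSucc 24, .negSucc 77⟩, ⟨.ofNat 206, .negSucc 113, .ofNat 175, .ofNat 25, .ofNat 40, .ofNat 269⟩, ⟨.negSucc 3140, .negSucc 42, .ofNat 81, .ofNat 236, .negSucc 313, .negSucc 447⟩, ⟨.negSucc 837, .ofNat 501, .negSucc 235, .ofNat 451, .ofNat 183, .negSucc 289⟩, .ofNat 661, .negSucc 331, .ofNat 0, .negSucc 331, .ofNat 1338, .ofNat 0, .ofNat 182, .ofNat 80, .negSucc 122, .ofNat 0, .ofNat 128, .negSucc 7, .ofNat 0, .ofNat 0, .ofNat 646, .ofNat 3101, .ofNat 667848092961295763521002591735194320896, .ofNat 0, .ofNat 0, .ofNat 0, .ofNat 0, .ofNat 0, .ofNat 0, .ofNat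 0, .ofNat 0, .ofNat 0, .ofNat 0, .ofNat 0, .ofNat 0, .ofNat 0, .ofNat 0, .ofNat 0⟩)
    (by decide +kernel)
theorem L00277 : Good (Phi V5.P V5.D 1 1) ⟨2, 0, 2, 1, 1, 1, 2, 1, 4, 2⟩ :=
  leafX_sound T5.ok_pp T5.Ypp.bz_eq (w := 183) (c := ⟨⟨.negSucc 1055, .negSucc 115, .negSucc 57, .negSucc 84, .negSucc 33, .negSucc 203⟩, ⟨.negSucc 343, .ofNat 128, .negSucc 313, .negSucc 11, .ofNat 7, .negSucc 74⟩, ⟨.ofNat 371, .ofNat 85, .ofNat 116, .negSucc 235, .ofNat 232, .ofNat 293⟩, ⟨.negSucc 3157, .negSucc 119, .ofNat 25, .negSucc 188, .negSucc 112, .negSucc 481⟩, ⟨.negSucc 599, .ofNat 260, .negSucc 109, .ofNat 122, .ofNat 119, .negSucc 223⟩, .ofNat 954, .negSucc 776, .ofNat 0, .negSucc 776, .ofNat 2638, .ofNat 0, .ofNat 168, .ofNat 124, .negSucc 61, .ofNat 0, .ofNat 128, .negSucc 8, .ofNat 0, .ofNat 0, .ofNat 326, .ofNat 1228, .ofNat 0, .ofNat 0, .ofNat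 0, .ofNat 0, .ofNat 0, .ofNat 0, .ofNat 0, .ofNat 0, .ofNat 0, .ofNat 0, .ofNat 0, .ofNat 0, .ofNat 0, .ofNat 0, .ofNat 6978766186341654066184480358400, .ofNat 0⟩)
    (by decide +kernel)
theorem L00278 : Good (Phi V5.P V5.D 1 1) ⟨2, 0, 2, 1, 2, 2, 2, 0, 4, 3⟩ :=
  leafX_sound T5.ok_pp T5.Ypp.bz_eq (w := 199) (c := ⟨⟨.negSucc 1327, .negSucc 80, .negSucc 49, .negSucc 7, .ofNat 7, .ofNat 5⟩, ⟨.negSucc 432, .ofNat 136, .negSucc 311, .negSucc 15, .ofNat 10, .ofNat 4⟩, ⟨.ofNat 681, .ofNat 10, .ofNat 139, .negSucc 276, .ofNat 114, .ofNat 212⟩, ⟨.negSucc 3843, .ofNat 15, .ofNat 32, .ofNat 37, .negSucc 2, .negSucc 3⟩, ⟨.negSucc 762, .ofNat 174, .negSucc 30, .negSucc 174, .ofNat 94, .ofNat 39⟩, .ofNat 648, .negSucc 316, .ofNat 0, .negSucc 316, .ofNat 1362, .ofNat 0, .ofNat 259, .ofNat 89, .negSucc 69, .ofNat 0, .ofNat 128, .ofNat 1, .ofNat 0, .ofNat 0,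 .ofNat 618, .ofNat 8253, .ofNat 928868047680138643444302753416024686592, .ofNat 0, .ofNat 185542574272630342501731155002261504, .ofNat 0, .ofNat 0, .ofNat 0, .ofNat 0, .ofNat 0, .ofNat 0, .ofNat 0, .ofNat 0, .ofNat 0, .ofNat 20634667588616423908304854603020464291840, .ofNat 0, .ofNat 4606420989795299639511681899027234816, .ofNat 0⟩)
    (by decide +kernel)
theorem L00279 : Good (Phi V5.P V5.D 1 1) ⟨2, 0, 2, 1, 2, 3, 2, 0, 4, 3⟩ :=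
  leafX_sound T5.ok_pp T5.Ypp.bz_eq (w := 198) (c := ⟨⟨.negSucc 1309, .negSucc 66, .negSucc 32, .ofNat 147, .negSucc 89, .ofNat 28⟩, ⟨.negSucc 446, .ofNat 159, .negSucc 304, .ofNat 66, .negSucc 19, .ofNat 2⟩, ⟨.ofNat 508, .negSucc 0, .ofNat 140, .negSucc 90, .ofNat 82, .ofNat 169⟩, ⟨.negSucc 3701, .negSucc 72, .ofNat 160, .ofNat 390, .negSucc 288, .ofNat 98⟩, ⟨.negSucc 946, .ofNat 459, .negSucc 211, .ofNat 173, .ofNat 148, .negSucc 124⟩, .ofNat 668, .negSucc 342, .ofNat 0, .negSucc 342, .ofNat 1331, .ofNat 0, .ofNat 128, .ofNat 82, .negSucc 71, .ofNat 0, .ofNat 134, .ofNat 0, .ofNat 0, .ofNat 0, .ofNat 583, .ofNat 4298, .ofNat 636593930078518255951851211371250188288, .ofNat 0, .ofNat 0, .ofNat 0, .ofNat 0, .ofNat 0, .ofNat 667066332098815992769415699731841024, .ofNat 0, .ofNat 0, .ofNat 0, .ofNat 0, .ofNat 0, .ofNat 9174143689268206212004152490092310560768,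 .ofNat 0, .ofNat 0, .ofNat 0⟩)
    (by decide +kernel)
theorem L00280 : Good (Phi V5.P V5.D 1 1) ⟨2, 0, 2, 1, 1, 1, 2, 1, 4, 3⟩ :=
  leafX_sound T5.ok_pp T5.Ypp.bz_eq (w := 183) (c := ⟨⟨.negSucc 1323, .negSucc 123, .negSucc 52, .ofNat 4, .ofNat 0, .ofNat 46⟩, ⟨.negSucc 417, .ofNat 116, .negSucc 321, .ofNat 2, .ofNat 8, .ofNat 16⟩, ⟨.ofNat 661, .ofNat 184, .ofNat 112, .negSucc 221, .ofNat 151, .ofNat 150⟩, ⟨.negSucc 3873, .negSucc 94, .ofNat 25, .ofNat 19, .ofNat 16, .ofNat 135⟩, ⟨.negSucc 558, .ofNat 102, .negSucc 41, .ofNat 18, .negSucc 9, .negSucc 76⟩, .ofNat 978, .negSucc 850, .ofNat 0, .negSucc 850, .ofNat 2968, .ofNat 0, .ofNat 180, .ofNat 117, .negSucc 56, .ofNat 0, .ofNat 128, .negSucc 4, .ofNat 0, .ofNat 0, .ofNat 449, .ofNat 1214, .ofNat 0, .ofNat 0, .ofNat 0, .ofNat 0, .ofNat 0, .ofNat 0, .ofNat 0, .ofNat 0, .ofNat 0, .ofNat 0, .ofNat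 0, .ofNat 0, .ofNat 0, .ofNat 0, .ofNat 0, .ofNat 0⟩)
    (by decide +kernel)
theorem L00281 : Good (Phi V5.P V5.D 1 1) ⟨2, 0, 2, 1, 2, 2, 3, 0, 4, 4⟩ :=
  leafX_sound T5.ok_pp T5.Ypp.bz_eq (w := 208) (c := ⟨⟨.negSucc 1510, .negSucc 66, .negSucc 45, .ofNat 154, .ofNat 58, .ofNat 56⟩, ⟨.negSucc 484, .ofNat 146, .negSucc 299, .ofNat 34, .ofNat 12, .ofNat 23⟩, ⟨.ofNat 1105, .negSucc 94, .ofNat 197, .negSucc 261, .negSucc 118, .ofNat 215⟩, ⟨.negSucc 3991, .negSucc 2, .ofNat 92, .ofNat 310, .negSucc 49, .ofNat 197⟩, ⟨.negSucc 706, .ofNat 232, .negSucc 86, .negSucc 165, .ofNat 8, .ofNat 69⟩, .ofNat 418, .negSucc 113, .ofNat 0, .negSucc 113, .ofNat 645, .ofNat 0, .ofNat 272, .ofNat 40, .negSucc 57, .ofNat 0, .ofNat 128, .ofNat 15, .ofNat 0, .ofNat 0, .ofNat 497, .ofNat 318167, .ofNat 478766296825404215421639996213753626492928, .ofNat 0, .ofNat 0, .ofNat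 0, .ofNat 2566683035880365687941429790273747655065600, .ofNat 0, .ofNat 0, .ofNat 0, .ofNat 1018774442689410272035075488696839308312576, .ofNat 0, .ofNat 0, .ofNat 0, .ofNat 510395890547011558083839850639926375743488, .ofNat 0, .ofNat 70058440899231017426678114273078542336, .ofNat 0⟩)
    (by decide +kernel)
theorem L00282 : Good (Phi V5.P V5.D 1 1) ⟨2, 0, 2, 1, 2, 2, 3, 1, 4, 4⟩ :=
  leafX_sound T5.ok_pp T5.Ypp.bz_eq (w := 205) (c := ⟨⟨.negSucc 1312, .negSucc 95, .negSucc 43, .negSucc 0, .negSucc 2, .ofNat 94⟩, ⟨.negSucc 417, .ofNat 118, .negSucc 303, .negSucc 14, .ofNat 5, .ofNat 37⟩, ⟨.ofNat 951, .ofNat 47, .ofNat 110, .negSucc 236, .ofNat 18, .ofNat 111⟩, ⟨.negSucc 3842, .negSucc 16, .ofNat 61, .ofNat 92, .negSucc 22, .ofNat 236⟩, ⟨.negSucc 631, .ofNat 115, .negSucc 48, .negSucc 183, .ofNat 66, .ofNat 43⟩, .ofNat 662, .negSucc 332, .ofNat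 0, .negSucc 332, .ofNat 1334, .ofNat 0, .ofNat 145, .ofNat 88, .negSucc 41, .ofNat 0, .ofNat 128, .ofNat 2, .ofNat 0, .ofNat 0, .ofNat 556, .ofNat 22936, .ofNat 29481214531116298063658637181851795456000, .ofNat 0, .ofNat 6221835082797072389224925971550830592, .ofNat 0, .ofNat 41602452128259375390872470742705478041600, .ofNat 0, .ofNat 0, .ofNat 0, .ofNat 0, .ofNat 0, .ofNat 0, .ofNat 0, .ofNat 180010052067056933694033786060759692738560, .ofNat 0, .ofNat 110479729978842458422344755107900424192, .ofNat 0⟩)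
    (by decide +kernel)
theorem L00283 : Good (Phi V5.P V5.D 1 1) ⟨2, 0, 2, 1, 2, 3, 2, 0, 4, 4⟩ :=
  leafX_sound T5.ok_pp T5.Ypp.bz_eq (w := 198) (c := ⟨⟨.negSucc 1279, .negSucc 82, .negSucc 47, .ofNat 150, .negSucc 58, .ofNat 118⟩, ⟨.negSucc 443, .ofNat 136, .negSucc 291, .ofNat 61, .negSucc 7, .ofNat 51⟩, ⟨.ofNat 689, .ofNat 3, .ofNat 107, .negSucc 115, .ofNat 72, .ofNat 124⟩, ⟨.negSucc 3645, .negSucc 49, .ofNat 123, .ofNat 435, .negSucc 194, .ofNat 303⟩, ⟨.negSucc 882, .ofNat 260, .negSucc 205, .ofNat 66, .ofNat 103, .ofNat 58⟩, .ofNat 884, .negSucc 655, .ofNat 0, .negSucc 655, .ofNat 2194, .ofNat 0, .ofNat 179, .ofNat 101, .negSucc 29, .ofNat 0, .ofNat 128, .ofNat 2, .ofNat 0, .ofNat 0, .ofNat 558, .ofNat 2945, .ofNat 318741054066986976217078244721796579328, .ofNat 0, .ofNat 124588199927912814133332429192036352, .ofNat 0, .ofNat 0, .ofNat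 0, .ofNat 0, .ofNat 0, .ofNat 0, .ofNat 0, .ofNat 0, .ofNat 0, .ofNat 3180660169093362287522034241566213668864, .ofNat 0, .ofNat 2227442379273467207522455772844785664, .ofNat 0⟩)
    (by decide +kernel)
theorem L00284 : Good (Phi V5.P V5.D 1 1) ⟨2, 0, 2, 1, 2, 2, 2, 1, 4, 4⟩ :=
  leafX_sound T5.ok_pp T5.Ypp.bz_eq (w := 200) (c := ⟨⟨.negSucc 1289, .negSucc 102, .negSucc 36, .negSucc 18, .ofNat 23, .ofNat 78⟩, ⟨.negSucc 397, .ofNat 105, .negSucc 300, .negSucc 21, .ofNat 14, .ofNat 31⟩, ⟨.ofNat 903, .ofNat 137, .ofNat 51, .negSucc 152, .ofNat 45, .ofNat 91⟩, ⟨.negSucc 3772, .negSucc 68, .ofNat 32, .ofNat 6, .ofNat 48, .ofNat 216⟩, ⟨.negSucc 553, .ofNat 81, .negSucc 36, .negSucc 193, .ofNat 79, .ofNat 64⟩, .ofNat 416, .negSucc 104, .ofNat 0, .negSucc 104, .ofNat 638, .ofNat 0, .ofNat 394, .ofNat 48, .negSucc 96, .ofNat 0, .ofNat 128, .ofNat 15, .ofNat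 0, .ofNat 0, .ofNat 823, .ofNat 7515, .ofNat 857040938094038213188008244538714882048, .ofNat 0, .ofNat 58945057608790100420595415569661952, .ofNat 0, .ofNat 0, .ofNat 0, .ofNat 0, .ofNat 0, .ofNat 0, .ofNat 0, .ofNat 0, .ofNat 0, .ofNat 0, .ofNat 0, .ofNat 0, .ofNat 0⟩)
    (by decide +kernel)
theorem L00285 : Good (Phi V5.P V5.D 1 1) ⟨2, 0, 2, 1, 2, 3, 2, 1, 4, 4⟩ :=
  leafX_sound T5.ok_pp T5.Ypp.bz_eq (w := 197) (c := ⟨⟨.negSucc 1296, .negSucc 136, .negSucc 44, .ofNat 108, .negSucc 22, .ofNat 108⟩, ⟨.negSucc 418, .ofNat 108, .negSucc 311, .ofNat 49, .ofNat 9, .ofNat 42⟩, ⟨.ofNat 673, .ofNat 163, .ofNat 54, .ofNat 35, .ofNat 131, .ofNat 129⟩, ⟨.negSucc 3707, .negSucc 187, .ofNat 95, .ofNat 245, .negSucc 132, .ofNat 267⟩, ⟨.negSucc 789, .ofNat 223, .negSucc 192, .ofNat 220, .ofNat 204, .ofNat 107⟩, .ofNat 662, .negSucc 334, .ofNat 0, .negSucc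 334, .ofNat 1343, .ofNat 0, .ofNat 140, .ofNat 78, .negSucc 23, .ofNat 0, .ofNat 128, .ofNat 6, .ofNat 0, .ofNat 0, .ofNat 407, .ofNat 855, .ofNat 0, .ofNat 0, .ofNat 0, .ofNat 0, .ofNat 0, .ofNat 0, .ofNat 0, .ofNat 0, .ofNat 0, .ofNat 0, .ofNat 0, .ofNat 0, .ofNat 0, .ofNat 153272919740401064399239039475259539456, .ofNat 1821663758855810231493265140498825216, .ofNat 0⟩)
    (by decide +kernel)
theorem L00286 : Good (Phi V5.P V5.D 1 1) ⟨2, 0, 2, 1, 2, 2, 2, 0, 4, 5⟩ :=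
  leafX_sound T5.ok_pp T5.Ypp.bz_eq (w := 202) (c := ⟨⟨.negSucc 1269, .negSucc 89, .negSucc 32, .ofNat 40, .ofNat 14, .ofNat 124⟩, ⟨.negSucc 376, .ofNat 111, .negSucc 282, .negSucc 11, .negSucc 8, .ofNat 56⟩, ⟨.ofNat 1101, .ofNat 17, .ofNat 61, .negSucc 219, .ofNat 2, .ofNat 121⟩, ⟨.negSucc 3651, .negSucc 41, .ofNat 76, .ofNat 182, .negSucc 24, .ofNat 301⟩, ⟨.negSucc 567, .ofNat 120, .negSucc 62, .negSucc 166, .ofNat 38, .ofNat 106⟩, .ofNat 417, .negSucc 107, .ofNat 0, .negSucc 107, .ofNat 638, .ofNat 0, .ofNat 225, .ofNat 42, .negSucc 35, .ofNat 0, .ofNat 128, .ofNat 14, .ofNat 0, .ofNat 0, .ofNat 614, .ofNat 44932, .ofNat 13524846685675656871450600925288806219776, .ofNat 0, .ofNat 0, .ofNat 0, .ofNat 49306691079513110344387564477686019522560, .ofNat 0, .ofNat 0, .ofNat 0, .ofNat 15063444232663299488038634568614202572800, .ofNat 0, .ofNat 0,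 .ofNat 0, .ofNat 60934999701921653352963604427954257395712, .ofNat 0, .ofNat 6840628565101019425227101987959472128, .ofNat 0⟩)
    (by decide +kernel)
theorem L00287 : Good (Phi V5.P V5.D 1 1) ⟨2, 0, 2, 1, 2, 3, 2, 0, 4, 5⟩ :=
  leafX_sound T5.ok_pp T5.Ypp.bz_eq (w := 197) (c := ⟨⟨.negSucc 1179, .negSucc 82, .negSucc 20, .ofNat 131, .negSucc 46, .ofNat 109⟩, ⟨.negSucc 393, .ofNat 115, .negSucc 266, .ofNat 45, .negSucc 8, .ofNat 48⟩, ⟨.ofNat 847, .ofNat 13, .ofNat 58, .negSucc 96, .ofNat 34, .ofNat 140⟩, ⟨.negSucc 3343, .negSucc 64, .ofNat 129, .ofNat 400, .negSucc 178, .ofNat 294⟩, ⟨.negSucc 837, .ofNat 163, .negSucc 114, .negSucc 10, .ofNat 148, .ofNat 118⟩, .ofNat 670, .negSucc 350, .ofNat 0, .negSucc 350, .ofNat 1355, .ofNat 0, .ofNat 192, .ofNat 80, .negSucc 13, .ofNat 0, .ofNat 128, .ofNat 6, .ofNat 0, .ofNat 0, .ofNat 540, .ofNat 1178,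 .ofNat 234804057938982324440207109407431983104, .ofNat 0, .ofNat 0, .ofNat 0, .ofNat 0, .ofNat 0, .ofNat 0, .ofNat 0, .ofNat 0, .ofNat 0, .ofNat 0, .ofNat 0, .ofNat 12104104779108491819450097146620220014592, .ofNat 477998145196495245187318562399346229248, .ofNat 2439538140762017635701381814888169472, .ofNat 0⟩)
    (by decide +kernel)
theorem L00288 : Good (Phi V5.P V5.D 1 1) ⟨4, 0, 2, 1, 3, 4, 4, 4, 4, 5⟩ :=
  leafX_sound T5.ok_pp T5.Ypp.bz_eq (w := 234) (c := ⟨⟨.negSucc 1245, .negSucc 1, .negSucc 33, .negSucc 1, .ofNat 11, .ofNat 99⟩, ⟨.negSucc 381, .ofNat 28, .negSucc 287, .negSucc 9, .ofNat 8, .ofNat 46⟩, ⟨.ofNat 1112, .ofNat 0, .ofNat 22, .negSucc 102, .negSucc 36, .ofNat 93⟩, ⟨.negSucc 3618, .negSucc 4, .ofNat 40, .ofNat 36, .ofNat 19, .ofNat 270⟩, ⟨.negSucc 490, .ofNat 13, .negSucc 20, .negSucc 111, .ofNat 28, .ofNat 81⟩, .ofNat 688, .negSucc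 346, .ofNat 0, .negSucc 346, .ofNat 1232, .ofNat 0, .ofNat 128, .ofNat 99, .negSucc 33, .ofNat 0, .ofNat 149, .ofNat 2, .ofNat 0, .ofNat 0, .ofNat 732, .ofNat 218888, .ofNat 2656264763825884545381650610106412274898138300416, .ofNat 0, .ofNat 0, .ofNat 0, .ofNat 1974133307540840023726326963495865212134492209152, .ofNat 0, .ofNat 0, .ofNat 0, .ofNat 5248163676406229063641079412529963946806802907136, .ofNat 0, .ofNat 0, .ofNat 0, .ofNat 4053689246021643550910471133538955926671259074560, .ofNat 0, .ofNat 0, .ofNat 0⟩)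
    (by decide +kernel)
theorem L00289 : Good (Phi V5.P V5.D 1 1) ⟨4, 1, 2, 1, 3, 4, 4, 4, 4, 5⟩ :=
  leafX_sound T5.ok_pp T5.Ypp.bz_eq (w := 234) (c := ⟨⟨.negSucc 1242, .negSucc 17, .negSucc 31, .negSucc 5, .ofNat 7, .ofNat 97⟩, ⟨.negSucc 349, .ofNat 27, .negSucc 286, .negSucc 10, .ofNat 4, .ofNat 41⟩, ⟨.ofNat 1100, .ofNat 16, .ofNat 19, .negSucc 100, .negSucc 19, .ofNat 86⟩, ⟨.negSucc 3604, .negSucc 7, .ofNat 41, .ofNat 23, .ofNat 13, .ofNat 257⟩, ⟨.negSucc 474, .ofNat 14, .negSucc 22, .negSucc 108, .ofNat 22, .ofNat 78⟩, .ofNat 677, .negSucc 345, .ofNat 0, .negSucc 345, .ofNat 1298, .ofNat 0, .ofNat 128, .ofNat 120, .negSucc 29, .ofNat 0, .ofNat 175, .ofNat 1, .ofNat 0, .ofNat 0, .ofNat 629, .ofNat 194498, .ofNat 2638972107896036422292599274086279099291352956928, .ofNat 0, .ofNat 0, .ofNat 0, .ofNat 1890261043767489785816535824597992293364932804608,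 .ofNat 0, .ofNat 0, .ofNat 0, .ofNat 0, .ofNat 0, .ofNat 0, .ofNat 0, .ofNat 3537328077196882580111025563420227780938217553920, .ofNat 0, .ofNat 1859902068452663002690276028456754156142592, .ofNat 0⟩)
    (by decide +kernel)
theorem L00290 : Good (Phi V5.P V5.D 1 1) ⟨3, 1, 2, 1, 3, 4, 4, 4, 4, 5⟩ :=
  leafX_sound T5.ok_pp T5.Ypp.bz_eq (w := 230) (c := ⟨⟨.negSucc 1250, .negSucc 79, .negSucc 28, .negSucc 9, .ofNat 0, .ofNat 104⟩, ⟨.negSucc 317, .ofNat 42, .negSucc 284, .negSucc 8, .ofNat 1, .ofNat 37⟩, ⟨.ofNat 1101, .ofNat 63, .ofNat 14, .negSucc 105, .ofNat 6, .ofNat 73⟩, ⟨.negSucc 3594, .negSucc 21, .ofNat 42, .ofNat 4, .ofNat 4, .ofNat 273⟩, ⟨.negSucc 455, .ofNat 31, .negSucc 24, .negSucc 94, .ofNat 13, .ofNat 58⟩, .ofNat 409, .negSucc 100, .ofNat 0, .negSucc 100, .ofNat 667, .ofNat 0, .ofNat 186, .ofNat 47, .negSucc 48, .ofNat 0, .ofNat 128,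 .ofNat 10, .ofNat 0, .ofNat 0, .ofNat 622, .ofNat 156360, .ofNat 170734499761371112644593574438242080861810851840, .ofNat 0, .ofNat 1927633042846723835337158253130364814884864, .ofNat 0, .ofNat 223338276398570503776718768217109551604893220864, .ofNat 0, .ofNat 4084751960957200172633413234845276149121024, .ofNat 0, .ofNat 180392935274111604873545482657542048402030723072, .ofNat 0, .ofNat 0, .ofNat 0, .ofNat 203181435377091194728635485521380835355548188672, .ofNat 0, .ofNat 10382083231833420672555273865606254343225344, .ofNat 0⟩)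
    (by decide +kernel)
theorem L00291 : Good (Phi V5.P V5.D 1 1) ⟨3, 0, 2, 1, 3, 4, 4, 5, 4, 5⟩ :=
  leafX_sound T5.ok_pp T5.Ypp.bz_eq (w := 229) (c := ⟨⟨.negSucc 1228, .negSucc 24, .negSucc 28, .negSucc 3, .ofNat 10, .ofNat 95⟩, ⟨.negSucc 373, .ofNat 50, .negSucc 280, .negSucc 10, .ofNat 6, .ofNat 43⟩, ⟨.ofNat 1079, .ofNat 28, .negSucc 17, .negSucc 77, .negSucc 26, .ofNat 66⟩, ⟨.negSucc 3579, .negSucc 18, .ofNat 42, .ofNat 18, .ofNat 19, .ofNat 262⟩, ⟨.negSucc 463, .ofNat 13, .negSucc 23, .negSucc 95, .ofNat 21, .ofNat 72⟩, .ofNat 425, .negSucc 115, .ofNat 0, .negSucc 115, .ofNat 619, .ofNat 0, .ofNat 128, .ofNat 51, .negSucc 36, .ofNat 0, .ofNat 128, .ofNat 7, .ofNat 0, .ofNat 0, .ofNat 542, .ofNat 68195, .ofNat 40427713794861138397432809121155884692898054144, .ofNat 0, .ofNat 620719608622655268540460122442009919094784, .ofNat 0, .ofNat 0,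 .ofNat 0, .ofNat 0, .ofNat 0, .ofNat 0, .ofNat 0, .ofNat 0, .ofNat 0, .ofNat 61667048864971750876587434017099362998612393984, .ofNat 0, .ofNat 139712546520475466907362586652340358479872, .ofNat 0⟩)
    (by decide +kernel)
theorem L00292 : Good (Phi V5.P V5.D 1 1) ⟨3, 1, 2, 1, 3, 4, 4, 5, 4, 5⟩ :=
  leafX_sound T5.ok_pp T5.Ypp.bz_eq (w := 229) (c := ⟨⟨.negSucc 1247, .negSucc 80, .negSucc 26, .negSucc 8, .ofNat 4, .ofNat 95⟩, ⟨.negSucc 316, .ofNat 39, .negSucc 279, .negSucc 7, .ofNat 3, .ofNat 31⟩, ⟨.ofNat 1100, .ofNat 76, .negSucc 18, .negSucc 76, .negSucc 4, .ofNat 55⟩, ⟨.negSucc 3578, .negSucc 27, .ofNat 40, .negSucc 0, .ofNat 7, .ofNat 257⟩, ⟨.negSucc 443, .ofNat 19, .negSucc 20, .negSucc 82, .ofNat 15, .ofNat 51⟩, .ofNat 408, .negSucc 96, .ofNat 0, .negSucc 96, .ofNat 659, .ofNat 0, .ofNat 218, .ofNat 45, .negSucc 47, .ofNat 0, .ofNat 128,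 .ofNat 8, .ofNat 0, .ofNat 0, .ofNat 648, .ofNat 76956, .ofNat 66068463808180928338658746749678713557183627264, .ofNat 0, .ofNat 985534828486886630869322806549881712279552, .ofNat 0, .ofNat 0, .ofNat 0, .ofNat 0, .ofNat 0, .ofNat 0, .ofNat 0, .ofNat 27781980342062780214323781978474310346473472, .ofNat 0, .ofNat 97949172206852903443071670914141586289172938752, .ofNat 0, .ofNat 10513842491677688969894847555954493500686336, .ofNat 0⟩)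
    (by decide +kernel)
theorem L00293 : Good (Phi V5.P V5.D 1 1) ⟨2, 0, 2, 1, 3, 5, 3, 2, 4, 5⟩ :=
  leafX_sound T5.ok_pp T5.Ypp.bz_eq (w := 219) (c := ⟨⟨.negSucc 1226, .negSucc 109, .negSucc 22, .ofNat 19, .negSucc 1, .ofNat 112⟩, ⟨.negSucc 390, .ofNat 100, .negSucc 275, .ofNat 3, .ofNat 4, .ofNat 46⟩, ⟨.ofNat 963, .ofNat 84, .ofNat 0, .negSucc 69, .ofNat 14, .ofNat 81⟩, ⟨.negSucc 3563, .negSucc 71, .ofNat 73, .ofNat 85, .negSucc 17, .ofNat 294⟩, ⟨.negSucc 606, .ofNat 84, .negSucc 45, .negSucc 52, .ofNat 52, .ofNat 83⟩, .ofNat 415, .negSucc 104, .ofNat 0, .negSucc 104, .ofNat 639, .ofNat 0, .ofNat 190, .ofNat 43, .negSucc 39, .ofNat 0, .ofNat 128, .ofNat 13, .ofNat 0, .ofNat 0, .ofNat 706, .ofNat 25268, .ofNat 0, .ofNat 0, .ofNat 0, .ofNat 0, .ofNat 0, .ofNat 0, .ofNat 0, .ofNat 0, .ofNat 0, .ofNat 0, .ofNat 0, .ofNat 0, .ofNat 0, .ofNat 1823935908200303869759358939894394134724608,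 .ofNat 0, .ofNat 0⟩)
    (by decide +kernel)

end Crest.Agent.R097C5.N5pp
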