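import Crest.Agent.R097.KP7
import Crest.Agent.R097.T5Ypp

/-!
# Row 97, box cover in dimension n = 5 (generated)
-/

set_option autoImplicit false
set_option Elab.async false
set_option maxHeartbeats 0
set_option maxRecDepth 100000

open Crest.Agent.R097 Crest.Agent.R097.KA


namespace Crest.Agent.R097C5.N5pp

theorem L00294 : Good (Phi V5.P V5.D 1 1) ⟨2, 0, 2, 1, 2, 2, 3, 3, 4, 5⟩ :=
  leafX_sound T5.ok_pp T5.Ypp.bz_eq (w := 204) (c := ⟨⟨.negSucc 1198, .negSucc 120, .negSucc 10, .negSucc 12, .ofNat 18, .ofNat 84⟩, ⟨.negSucc 359, .ofNat 80, .negSucc 272, .negSucc 12, .ofNat 8, .ofNat 31⟩, ⟨.ofNat 1000, .ofNat 167, .negSucc 46, .negSucc 91, .negSucc 15, .ofNat 70⟩, ⟨.negSucc 3526, .negSucc 94, .ofNat 60, .ofNat 15, .ofNat 37, .ofNat 247⟩, ⟨.negSucc 450, .ofNat 12, .negSucc 12, .negSucc 123, .ofNat 41, .ofNat 65⟩, .ofNat 415, .negSucc 105, .ofNat 0, .negSucc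 105, .ofNat 644, .ofNat 0, .ofNat 225, .ofNat 47, .negSucc 39, .ofNat 0, .ofNat 128, .ofNat 6, .ofNat 0, .ofNat 0, .ofNat 626, .ofNat 7609, .ofNat 0, .ofNat 0, .ofNat 0, .ofNat 0, .ofNat 0, .ofNat 0, .ofNat 0, .ofNat 0, .ofNat 0, .ofNat 0, .ofNat 0, .ofNat 0, .ofNat 0, .ofNat 1407912189342283079895159195307526324224, .ofNat 0, .ofNat 0⟩)
    (by decide +kernel)
theorem L00295 : Good (Phi V5.P V5.D 1 1) ⟨2, 0, 2, 1, 2, 3, 2, 1, 4, 5⟩ :=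
  leafX_sound T5.ok_pp T5.Ypp.bz_eq (w := 197) (c := ⟨⟨.negSucc 1217, .negSucc 101, .negSucc 19, .ofNat 109, .ofNat 5, .ofNat 124⟩, ⟨.negSucc 392, .ofNat 104, .negSucc 272, .ofNat 40, .ofNat 16, .ofNat 49⟩, ⟨.ofNat 858, .ofNat 107, .ofNat 9, .negSucc 25, .ofNat 120, .ofNat 113⟩, ⟨.negSucc 3457, .negSucc 127, .ofNat 114, .ofNat 294, .negSucc 76, .ofNat 288⟩, ⟨.negSucc 705, .ofNat 138, .negSucc 121, .ofNat 134, .ofNat 195, .ofNat 137⟩, .ofNat 653, .negSucc 319, .ofNat 0, .negSucc 319, .ofNat 1341, .ofNat 0, .ofNat 266, .ofNat 76, .negSucc 20, .ofNat 0, .ofNat 128, .ofNat 8, .ofNat 0, .ofNat 0, .ofNat 840, .ofNat 1728, .ofNat 0, .ofNat 0, .ofNat 0, .ofNat 0, .ofNat 0, .ofNat 0, .ofNat 0, .ofNat 0, .ofNat 0, .ofNat 434460120643450876307773825162844045312, .ofNat 0, .ofNat 0, .ofNat 0, .ofNat 1467861202327203641280504496251564195840, .ofNat 0, .ofNat 0⟩)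
    (by decide +kernel)
theorem L00296 : Good (Phi V5.P V5.D 1 1) ⟨2, 0, 2, 1, 2, 2, 1, 0, 3, 3⟩ :=
  leafX_sound T5.ok_pp T5.Ypp.bz_eq (w := 189) (c := ⟨⟨.negSucc 1102, .negSucc 116, .negSucc 12, .ofNat 7, .negSucc 6, .ofNat 182⟩, ⟨.negSucc 344, .ofNat 75, .negSucc 260, .negSucc 3, .ofNat 18, .ofNat 64⟩, ⟨.ofNat 1072, .ofNat 116, .negSucc 115, .ofNat 13, .negSucc 8, .ofNat 35⟩, ⟨.negSucc 3252, .negSucc 73, .ofNat 51, .ofNat 62, .negSucc 31, .ofNat 461⟩, ⟨.negSucc 533, .negSucc 21, .negSucc 18, .negSucc 91, .ofNat 198, .ofNat 105⟩, .ofNat 671, .negSucc 348, .ofNat 0, .negSucc 348, .ofNat 1350, .ofNat 0, .ofNat 182, .ofNat 86, .negSucc 5, .ofNat 0, .ofNat 128, .ofNat 4, .ofNat 0, .ofNat 0, .ofNat 869, .ofNat 2825, .ofNat 25872785389350534794305018473654255616, .ofNat 0, .ofNat 0, .ofNat 0, .ofNat 0, .ofNat 0, .ofNat 0, .ofNat 0, .ofNat 0, .ofNat 0, .ofNat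 0, .ofNat 0, .ofNat 751664257582967700583567042010201194496, .ofNat 39418502969564858413086001396279410688, .ofNat 0, .ofNat 0⟩)
    (by decide +kernel)
theorem L00297 : Good (Phi V5.P V5.D 1 1) ⟨2, 0, 2, 1, 2, 3, 1, 0, 3, 3⟩ :=
  leafX_sound T5.ok_pp T5.Ypp.bz_eq (w := 189) (c := ⟨⟨.negSucc 1087, .negSucc 110, .negSucc 16, .ofNat 113, .negSucc 10, .ofNat 1⟩, ⟨.negSucc 352, .ofNat 91, .negSucc 256, .ofNat 19, .ofNat 14, .ofNat 0⟩, ⟨.ofNat 1017, .ofNat 46, .negSucc 35, .negSucc 135, .ofNat 59, .ofNat 0⟩, ⟨.negSucc 3125, .negSucc 90, .ofNat 97, .ofNat 325, .negSucc 92, .ofNat 2⟩, ⟨.negSucc 693, .ofNat 92, .negSucc 67, .negSucc 41, .ofNat 258, .ofNat 0⟩, .ofNat 413, .negSucc 103, .ofNat 0, .negSucc 103, .ofNat 647, .ofNat 0, .ofNat 249, .ofNat 39, .negSucc 14, .ofNat 0, .ofNat 128, .ofNat 16, .ofNat 0, .ofNat 0, .ofNat 874, .ofNat 3566, .ofNat 0, .ofNat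 0, .ofNat 0, .ofNat 0, .ofNat 488715636006341415731962664087996858368, .ofNat 120845559214031797652105579192727371776, .ofNat 0, .ofNat 0, .ofNat 107014734776131201259073612070330040320, .ofNat 45569207626543073594863729388898222080, .ofNat 0, .ofNat 0, .ofNat 1490226179743767593024535548294655377408, .ofNat 215760809424201423661705410745989070848, .ofNat 0, .ofNat 0⟩)
    (by decide +kernel)
theorem L00298 : Good (Phi V5.P V5.D 1 1) ⟨2, 0, 2, 1, 3, 4, 1, 0, 3, 4⟩ :=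
  out_sound (S := T5.ds_pp) T5.ok_pp (w := 23) (j := 1) (by decide +kernel)
theorem L00299 : Good (Phi V5.P V5.D 1 1) ⟨2, 0, 2, 1, 3, 5, 1, 0, 3, 4⟩ :=
  out_sound (S := T5.ds_pp) T5.ok_pp (w := 28) (j := 2) (by decide +kernel)
theorem L00300 : Good (Phi V5.P V5.D 1 1) ⟨2, 0, 2, 1, 2, 2, 1, 0, 3, 5⟩ :=
  out_sound (S := T5.ds_pp) T5.ok_pp (w := 21) (j := 1) (by decide +kernel)
theorem L00301 : Good (Phi V5.P V5.D 1 1) ⟨2, 0, 2, 1, 2, 2, 1, 0, 2, 3⟩ :=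
  out_sound (S := T5.ds_pp) T5.ok_pp (w := 19) (j := 1) (by decide +kernel)
theorem L00302 : Good (Phi V5.P V5.D 1 1) ⟨2, 0, 2, 1, 2, 3, 1, 0, 1, 1⟩ :=
  out_sound (S := T5.ds_pp) T5.ok_pp (w := 22) (j := 2) (by decide +kernel)
theorem L00303 : Good (Phi V5.P V5.D 1 1) ⟨2, 0, 2, 1, 1, 1, 2, 2, 3, 0⟩ :=
  leafX_sound T5.ok_pp T5.Ypp.bz_eq (w := 177) (c := ⟨⟨.ofNat 560, .negSucc 27, .ofNat 3, .negSucc 152, .negSucc 271, .negSucc 1568⟩, ⟨.ofNat 196, .ofNat 68, .negSucc 97, .ofNat 6, .negSucc 116, .negSucc 566⟩, ⟨.negSucc 522, .ofNat 48, .ofNat 16, .negSucc 0, .ofNat 351, .ofNat 913⟩, ⟨.ofNat 1385, .ofNat 38, .ofNat 137, .negSucc 468, .negSucc 820, .negSucc 4118⟩, ⟨.ofNat 107, .ofNat 207, .negSucc 92, .ofNat 310, .ofNat 9, .negSucc 1001⟩, .ofNat 863, .negSucc 615, .ofNat 0, .negSucc 615, .ofNat 2159, .ofNat 0, .ofNat 142, .ofNat 128, .negSucc 113, .ofNat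 0, .ofNat 122, .negSucc 16, .ofNat 0, .ofNat 0, .ofNat 309, .ofNat 217, .ofNat 0, .ofNat 0, .ofNat 0, .ofNat 0, .ofNat 0, .ofNat 0, .ofNat 1447017379603134244705085161472, .ofNat 0, .ofNat 0, .ofNat 0, .ofNat 0, .ofNat 0, .ofNat 0, .ofNat 0, .ofNat 0, .ofNat 0⟩)
    (by decide +kernel)
theorem L00304 : Good (Phi V5.P V5.D 1 1) ⟨3, 0, 2, 1, 1, 1, 2, 3, 3, 0⟩ :=
  leafX_sound T5.ok_pp T5.Ypp.bz_eq (w := 181) (c := ⟨⟨.ofNat 26, .ofNat 44, .negSucc 60, .negSucc 384, .negSucc 182, .negSucc 981⟩, ⟨.ofNat 50, .ofNat 42, .negSucc 204, .negSucc 53, .negSucc 25, .negSucc 386⟩, ⟨.negSucc 23, .negSucc 0, .negSucc 1, .ofNat 222, .ofNat 423, .ofNat 555⟩, ⟨.ofNat 102, .negSucc 38, .negSucc 227, .negSucc 1254, .negSucc 596, .negSucc 2617⟩, ⟨.negSucc 343, .ofNat 479, .ofNat 54, .ofNat 587, .ofNat 244, .negSucc 489⟩, .ofNat 1033, .negSucc 843, .ofNat 0, .negSucc 843,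 .ofNat 2443, .ofNat 0, .ofNat 158, .ofNat 128, .negSucc 115, .ofNat 0, .ofNat 118, .negSucc 15, .ofNat 0, .ofNat 0, .ofNat 276, .ofNat 117, .ofNat 0, .ofNat 0, .ofNat 0, .ofNat 0, .ofNat 0, .ofNat 0, .ofNat 0, .ofNat 0, .ofNat 0, .ofNat 0, .ofNat 0, .ofNat 0, .ofNat 0, .ofNat 0, .ofNat 0, .ofNat 0⟩)
    (by decide +kernel)
theorem L00305 : Good (Phi V5.P V5.D 1 1) ⟨3, 1, 2, 1, 1, 1, 2, 3, 3, 0⟩ :=
  leafX_sound T5.ok_pp T5.Ypp.bz_eq (w := 181) (c := ⟨⟨.ofNat 93, .negSucc 96, .negSucc 22, .negSucc 387, .negSucc 387, .negSucc 1148⟩, ⟨.ofNat 46, .ofNat 13, .negSucc 203, .ofNat 19, .negSucc 43, .negSucc 368⟩, ⟨.negSucc 101, .ofNat 211, .ofNat 50, .ofNat 145, .ofNat 702, .ofNat 802⟩, ⟨.ofNat 250, .negSucc 247, .negSucc 55, .negSucc 1423, .negSucc 1247, .negSucc 3040⟩, ⟨.negSucc 239, .ofNat 348, .negSucc 287, .ofNat 1416, .ofNat 665, .negSucc 782⟩, .ofNat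 813, .negSucc 579, .ofNat 0, .negSucc 579, .ofNat 2392, .ofNat 0, .ofNat 174, .ofNat 128, .negSucc 179, .ofNat 0, .ofNat 115, .negSucc 18, .ofNat 0, .ofNat 0, .ofNat 397, .ofNat 164, .ofNat 0, .ofNat 0, .ofNat 0, .ofNat 0, .ofNat 0, .ofNat 0, .ofNat 0, .ofNat 0, .ofNat 0, .ofNat 8978954923712841973336652858261504, .ofNat 0, .ofNat 0, .ofNat 0, .ofNat 20624556716029569312585231114436608, .ofNat 1385260663428139494309676187648, .ofNat 0⟩)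
    (by decide +kernel)
theorem L00306 : Good (Phi V5.P V5.D 1 1) ⟨2, 0, 2, 1, 1, 1, 2, 2, 4, 2⟩ :=
  leafX_sound T5.ok_pp T5.Ypp.bz_eq (w := 182) (c := ⟨⟨.negSucc 988, .negSucc 193, .negSucc 13, .negSucc 258, .negSucc 29, .negSucc 221⟩, ⟨.negSucc 331, .ofNat 111, .negSucc 321, .negSucc 53, .ofNat 21, .negSucc 44⟩, ⟨.ofNat 316, .ofNat 409, .ofNat 43, .negSucc 6, .ofNat 312, .ofNat 344⟩, ⟨.negSucc 2667, .negSucc 541, .ofNat 68, .negSucc 897, .negSucc 237, .negSucc 718⟩, ⟨.negSucc 1275, .ofNat 755, .negSucc 32, .ofNat 573, .ofNat 432, .ofNat 328⟩, .ofNat 671, .negSucc 348, .ofNat 0, .negSucc 348, .ofNat 1350, .ofNat 0, .ofNat 165, .ofNat 108, .negSucc 76, .ofNat 0, .ofNat 128, .negSucc 5, .ofNat 0, .ofNat 0, .ofNat 272, .ofNat 436, .ofNat 0, .ofNat 0, .ofNat 0, .ofNat 0, .ofNat 0, .ofNat 0, .ofNat 0, .ofNat 0, .ofNat 0, .ofNat 0, .ofNat 0, .ofNat 0, .ofNat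 0, .ofNat 0, .ofNat 11197224666677478096539417051136, .ofNat 0⟩)
    (by decide +kernel)
theorem L00307 : Good (Phi V5.P V5.D 1 1) ⟨2, 0, 2, 1, 1, 1, 2, 2, 4, 3⟩ :=
  leafX_sound T5.ok_pp T5.Ypp.bz_eq (w := 182) (c := ⟨⟨.negSucc 1239, .negSucc 177, .negSucc 43, .negSucc 106, .ofNat 27, .ofNat 13⟩, ⟨.negSucc 394, .ofNat 99, .negSucc 309, .negSucc 20, .ofNat 25, .ofNat 20⟩, ⟨.ofNat 669, .ofNat 328, .ofNat 61, .negSucc 22, .ofNat 197, .ofNat 158⟩, ⟨.negSucc 3550, .negSucc 303, .negSucc 22, .negSucc 305, .ofNat 4, .negSucc 30⟩, ⟨.negSucc 729, .ofNat 158, .ofNat 20, .ofNat 212, .ofNat 137, .ofNat 149⟩, .ofNat 855, .negSucc 602, .ofNat 0, .negSucc 602, .ofNat 2151, .ofNat 0, .ofNat 172, .ofNat 113, .negSucc 42, .ofNat 0, .ofNat 128, .negSucc 3, .ofNat 0, .ofNat 0, .ofNat 312, .ofNat 218, .ofNat 0, .ofNat 0, .ofNat 0, .ofNat 0, .ofNat 0, .ofNat 0, .ofNat 0,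 .ofNat 0, .ofNat 0, .ofNat 0, .ofNat 0, .ofNat 0, .ofNat 0, .ofNat 17457912569354220071663980481871872, .ofNat 34045869905627323536829287759872, .ofNat 0⟩)
    (by decide +kernel)
theorem L00308 : Good (Phi V5.P V5.D 1 1) ⟨2, 0, 2, 1, 1, 1, 2, 3, 4, 2⟩ :=
  leafX_sound T5.ok_pp T5.Ypp.bz_eq (w := 182) (c := ⟨⟨.negSucc 1034, .negSucc 284, .negSucc 17, .negSucc 245, .negSucc 23, .negSucc 121⟩, ⟨.negSucc 301, .ofNat 27, .negSucc 327, .ofNat 16, .ofNat 44, .negSucc 27⟩, ⟨.ofNat 584, .ofNat 488, .negSucc 14, .ofNat 241, .ofNat 250, .ofNat 176⟩, ⟨.negSucc 3020, .negSucc 576, .ofNat 23, .negSucc 951, .negSucc 137, .negSucc 357⟩, ⟨.negSucc 545, .ofNat 169, .negSucc 133, .ofNat 866, .ofNat 293, .ofNat 122⟩, .ofNat 862, .negSucc 603, .ofNat 0, .negSucc 603, .ofNat 2105, .ofNat 0, .ofNat 193, .ofNat 122, .negSucc 100, .ofNat 0, .ofNat 128, .negSucc 8, .ofNat 0,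 .ofNat 0, .ofNat 391, .ofNat 270, .ofNat 0, .ofNat 0, .ofNat 0, .ofNat 0, .ofNat 0, .ofNat 14240649679203798383093209270059008, .ofNat 32186058079778063836092691382272, .ofNat 0, .ofNat 0, .ofNat 25741085223781777286174097146904576, .ofNat 0, .ofNat 0, .ofNat 0, .ofNat 25030912051966061926981537271644160, .ofNat 180386582896553645871381132345344, .ofNat 0⟩)
    (by decide +kernel)
theorem L00309 : Good (Phi V5.P V5.D 1 1) ⟨2, 0, 2, 1, 1, 1, 2, 3, 4, 3⟩ :=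
  leafX_sound T5.ok_pp T5.Ypp.bz_eq (w := 182) (c := ⟨⟨.negSucc 1175, .negSucc 273, .ofNat 23, .negSucc 215, .negSucc 59, .ofNat 22⟩, ⟨.negSucc 346, .ofNat 39, .negSucc 330, .ofNat 50, .ofNat 32, .ofNat 10⟩, ⟨.ofNat 796, .ofNat 462, .negSucc 56, .ofNat 316, .ofNat 64, .ofNat 17⟩, ⟨.negSucc 3436, .negSucc 451, .ofNat 70, .negSucc 1000, .negSucc 292, .ofNat 98⟩, ⟨.negSucc 475, .negSucc 30, .negSucc 135, .ofNat 1248, .ofNat 431, .negSucc 41⟩, .ofNat 653, .negSucc 321, .ofNat 0, .negSucc 321, .ofNat 1349, .ofNat 0, .ofNat 133, .ofNat 95, .negSucc 54, .ofNat 0, .ofNat 128, .negSucc 0, .ofNat 0, .ofNat 0, .ofNat 328, .ofNat 274, .ofNat 0, .ofNat 0, .ofNat 0, .ofNat 0, .ofNat 0, .ofNat 22711964343951711439655993666961408, .ofNat 0, .ofNat 0, .ofNat 0, .ofNat 45156162540143521188222704998678528, .ofNat 0, .ofNat 0, .ofNat 0, .ofNat 39349066344406930237856970012884992,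 .ofNat 84532925519281186093000397160448, .ofNat 0⟩)
    (by decide +kernel)
theorem L00310 : Good (Phi V5.P V5.D 1 1) ⟨2, 0, 2, 1, 2, 2, 2, 2, 4, 4⟩ :=
  leafX_sound T5.ok_pp T5.Ypp.bz_eq (w := 198) (c := ⟨⟨.negSucc 1226, .negSucc 144, .negSucc 16, .negSucc 68, .ofNat 20, .ofNat 64⟩, ⟨.negSucc 367, .ofNat 79, .negSucc 287, .negSucc 30, .ofNat 19, .ofNat 24⟩, ⟨.ofNat 894, .ofNat 270, .negSucc 63, .negSucc 4, .ofNat 44, .ofNat 49⟩, ⟨.negSucc 3603, .negSucc 167, .ofNat 48, .negSucc 152, .ofNat 37, .ofNat 167⟩, ⟨.negSucc 456, .negSucc 5, .negSucc 6, .negSucc 109, .ofNat 110, .ofNat 55⟩, .ofNat 654, .negSucc 315, .ofNat 0, .negSucc 315, .ofNat 1318, .ofNat 0, .ofNat 222, .ofNat 88, .negSucc 55, .ofNat 0, .ofNat 128, .negSucc 3, .ofNat 0, .ofNat 0, .ofNat 607, .ofNat 2289, .ofNat 0, .ofNat 0, .ofNat 0, .ofNat 0, .ofNat 0, .ofNat 0, .ofNat 0, .ofNat 0, .ofNat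 0, .ofNat 230163750775581616350671562508964200448, .ofNat 0, .ofNat 0, .ofNat 0, .ofNat 385140727509254676495336057468484583424, .ofNat 0, .ofNat 0⟩)
    (by decide +kernel)
theorem L00311 : Good (Phi V5.P V5.D 1 1) ⟨2, 0, 2, 1, 2, 3, 2, 2, 4, 4⟩ :=
  leafX_sound T5.ok_pp T5.Ypp.bz_eq (w := 196) (c := ⟨⟨.negSucc 1307, .negSucc 185, .negSucc 4, .ofNat 76, .ofNat 14, .ofNat 119⟩, ⟨.negSucc 401, .ofNat 70, .negSucc 307, .ofNat 66, .ofNat 36, .ofNat 58⟩, ⟨.ofNat 794, .ofNat 322, .negSucc 18, .ofNat 103, .ofNat 222, .ofNat 70⟩, ⟨.negSucc 3761, .negSucc 288, .ofNat 122, .ofNat 51, .negSucc 111, .ofNat 295⟩, ⟨.negSucc 597, .ofNat 75, .negSucc 138, .ofNat 464, .ofNat 336, .ofNat 139⟩, .ofNat 671, .negSucc 348, .ofNat 0, .negSucc 348, .ofNat 1350, .ofNat 0, .ofNat 201, .ofNat 84, .negSucc 7, .ofNat 0, .ofNat 128, .ofNat 10, .ofNat 0, .ofNat 0, .ofNat 418, .ofNat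 193, .ofNat 0, .ofNat 981081229255691172951163957600583680, .ofNat 0, .ofNat 0, .ofNat 0, .ofNat 0, .ofNat 0, .ofNat 0, .ofNat 0, .ofNat 0, .ofNat 0, .ofNat 0, .ofNat 0, .ofNat 250321370436449923147987801453453377536, .ofNat 698016049845445128652324080302686208, .ofNat 0⟩)
    (by decide +kernel)
theorem L00312 : Good (Phi V5.P V5.D 1 1) ⟨2, 0, 2, 1, 1, 1, 2, 2, 4, 5⟩ :=
  leafX_sound T5.ok_pp T5.Ypp.bz_eq (w := 182) (c := ⟨⟨.negSucc 1168, .negSucc 137, .negSucc 20, .negSucc 63, .ofNat 13, .ofNat 84⟩, ⟨.negSucc 342, .ofNat 69, .negSucc 281, .negSucc 30, .ofNat 12, .ofNat 35⟩, ⟨.ofNat 952, .ofNat 259, .negSucc 63, .ofNat 33, .negSucc 77, .negSucc 0⟩, ⟨.negSucc 3446, .negSucc 140, .ofNat 35, .negSucc 93, .negSucc 3, .ofNat 231⟩, ⟨.negSucc 386, .negSucc 35, .negSucc 27, .negSucc 156, .ofNat 109, .ofNat 66⟩, .ofNat 417, .negSucc 111, .ofNat 0, .negSucc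 111, .ofNat 645, .ofNat 0, .ofNat 233, .ofNat 51, .negSucc 39, .ofNat 0, .ofNat 128, .ofNat 1, .ofNat 0, .ofNat 0, .ofNat 640, .ofNat 316, .ofNat 0, .ofNat 0, .ofNat 0, .ofNat 0, .ofNat 0, .ofNat 93660091270161899656103691894652928, .ofNat 0, .ofNat 0, .ofNat 0, .ofNat 59381308988278720390742834770083840, .ofNat 0, .ofNat 0, .ofNat 0, .ofNat 175356302464658240531781927036780544, .ofNat 0, .ofNat 0⟩)
    (by decide +kernel)
theorem L00313 : Good (Phi V5.P V5.D 1 1) ⟨2, 0, 2, 1, 1, 1, 2, 3, 3, 2⟩ :=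
  leafX_sound T5.ok_pp T5.Ypp.bz_eq (w := 177) (c := ⟨⟨.negSucc 1182, .negSucc 227, .ofNat 8, .negSucc 195, .negSucc 13, .ofNat 127⟩, ⟨.negSucc 337, .ofNat 27, .negSucc 284, .negSucc 21, .ofNat 26, .ofNat 59⟩, ⟨.ofNat 946, .ofNat 350, .negSucc 189, .ofNat 334, .negSucc 125, .negSucc 151⟩, ⟨.negSucc 3482, .negSucc 334, .ofNat 80, .negSucc 649, .negSucc 130, .ofNat 294⟩, ⟨.negSucc 314, .negSucc 176, .negSucc 30, .ofNat 251, .ofNat 263, .ofNat 186⟩, .ofNat 661, .negSucc 326, .ofNat 0, .negSucc 326, .ofNat 1315, .ofNat 0, .ofNat 225, .ofNat 90, .negSucc 40, .ofNat 0, .ofNat 128, .negSucc 7, .ofNat 0, .ofNat 0, .ofNat 499, .ofNat 197, .ofNat 0, .ofNat 43587872945930507152495581593600, .ofNat 0, .ofNat 0, .ofNat 0, .ofNat 9657743006334360071656636436971520, .ofNat 0, .ofNat 0, .ofNat 0, .ofNat 6643166828492493601936509144924160, .ofNat 0, .ofNat 0, .ofNat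 0, .ofNat 18081664379359527578576306556633088, .ofNat 901565248104655221533867769856, .ofNat 0⟩)
    (by decide +kernel)
theorem L00314 : Good (Phi V5.P V5.D 1 1) ⟨2, 0, 2, 1, 2, 2, 1, 1, 3, 3⟩ :=
  leafX_sound T5.ok_pp T5.Ypp.bz_eq (w := 188) (c := ⟨⟨.negSucc 1084, .negSucc 142, .negSucc 9, .negSucc 9, .negSucc 12, .ofNat 139⟩, ⟨.negSucc 313, .ofNat 56, .negSucc 260, .negSucc 5, .ofNat 18, .ofNat 57⟩, ⟨.ofNat 1035, .ofNat 187, .negSucc 174, .ofNat 67, .negSucc 322, .negSucc 24⟩, ⟨.negSucc 3226, .negSucc 132, .ofNat 47, .negSucc 0, .negSucc 96, .ofNat 419⟩, ⟨.negSucc 330, .negSucc 70, .negSucc 2, .negSucc 50, .ofNat 243, .ofNat 118⟩, .ofNat 415, .negSucc 106, .ofNat 0, .negSucc 106, .ofNat 643, .ofNat 0, .ofNat 216, .ofNat 48, .negSucc 18, .ofNat 0, .ofNat 128, .negSucc 4, .ofNat 0, .ofNat 0, .ofNat 669, .ofNat 753, .ofNat 0, .ofNat 0, .ofNat 0, .ofNat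 0, .ofNat 0, .ofNat 28599699971797180399311767933449928704, .ofNat 1965248019109505503552866655141888, .ofNat 0, .ofNat 0, .ofNat 11726532290235669973882889263078440960, .ofNat 0, .ofNat 0, .ofNat 0, .ofNat 31764454246915276737977027562282418176, .ofNat 0, .ofNat 0⟩)
    (by decide +kernel)
theorem L00315 : Good (Phi V5.P V5.D 1 1) ⟨2, 0, 2, 1, 2, 3, 1, 1, 3, 3⟩ :=
  out_sound (S := T5.ds_pp) T5.ok_pp (w := 26) (j := 2) (by decide +kernel)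
theorem L00316 : Good (Phi V5.P V5.D 1 1) ⟨2, 0, 2, 1, 4, 8, 3, 4, 4, 8⟩ :=
  out_sound (S := T5.ds_pp) T5.ok_pp (w := 29) (j := 1) (by decide +kernel)
theorem L00317 : Good (Phi V5.P V5.D 1 1) ⟨2, 0, 2, 1, 4, 8, 3, 5, 4, 8⟩ :=
  out_sound (S := T5.ds_pp) T5.ok_pp (w := 36) (j := 2) (by decide +kernel)
theorem L00318 : Good (Phi V5.P V5.D 1 1) ⟨2, 0, 2, 1, 4, 8, 2, 2, 4, 9⟩ :=
  out_sound (S := T5.ds_pp) T5.ok_pp (w := 28) (j := 1) (by decide +kernel)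
theorem L00319 : Good (Phi V5.P V5.D 1 1) ⟨2, 0, 2, 1, 4, 9, 2, 2, 3, 4⟩ :=
  out_sound (S := T5.ds_pp) T5.ok_pp (w := 32) (j := 2) (by decide +kernel)
theorem L00320 : Good (Phi V5.P V5.D 1 1) ⟨2, 0, 2, 1, 3, 4, 2, 3, 3, 4⟩ :=
  out_sound (S := T5.ds_pp) T5.ok_pp (w := 30) (j := 2) (by decide +kernel)
theorem L00321 : Good (Phi V5.P V5.D 1 1) ⟨2, 0, 2, 1, 3, 4, 1, 1, 3, 5⟩ :=
  out_sound (S := T5.ds_pp) T5.ok_pp (w := 28) (j := 2) (by decide +kernel)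
theorem L00322 : Good (Phi V5.P V5.D 1 1) ⟨2, 0, 2, 1, 3, 5, 1, 1, 2, 2⟩ :=
  out_sound (S := T5.ds_pp) T5.ok_pp (w := 26) (j := 2) (by decide +kernel)
theorem L00323 : Good (Phi V5.P V5.D 1 1) ⟨2, 0, 2, 1, 2, 2, 1, 1, 2, 3⟩ :=
  out_sound (S := T5.ds_pp) T5.ok_pp (w := 24) (j := 2) (by decide +kernel)
theorem L00324 : Good (Phi V5.P V5.D 1 1) ⟨2, 0, 2, 1, 2, 3, 1, 1, 1, 1⟩ :=
  out_sound (S := T5.ds_pp) T5.ok_pp (w := 22) (j := 2) (by decide +kernel)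
theorem L00325 : Good (Phi V5.P V5.D 1 1) ⟨2, 1, 1, 0, 2, 0, 2, 0, 4, 0⟩ :=
  leafX_sound T5.ok_pp T5.Ypp.bz_eq (w := 194) (c := ⟨⟨.ofNat 562, .ofNat 172, .negSucc 42, .ofNat 262, .ofNat 200, .negSucc 1501⟩, ⟨.negSucc 24, .ofNat 50, .ofNat 146, .ofNat 20, .ofNat 34, .negSucc 120⟩, ⟨.negSucc 568, .negSucc 145, .ofNat 111, .negSucc 194, .negSucc 296, .ofNat 1484⟩, ⟨.ofNat 1606, .ofNat 254, .negSucc 50, .ofNat 589, .ofNat 372, .negSucc 3880⟩, ⟨.negSucc 108, .ofNat 65, .negSucc 25, .negSucc 278, .ofNat 132, .negSucc 6⟩, .ofNat 365, .negSucc 33, .ofNat 0, .negSucc 33, .ofNat 728, .ofNat 0, .ofNat 280, .ofNat 19, .negSucc 264, .ofNat 0, .ofNat 128, .negSucc 8, .ofNat 0, .ofNat 0, .ofNat 574, .ofNat 2233, .ofNat 0, .ofNat 0, .ofNat 0, .ofNat 0, .ofNat 0, .ofNat 0, .ofNat 0, .ofNat 0, .ofNat 0, .ofNat 0, .ofNat 2500407913309753959117499162442072064, .ofNat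 0, .ofNat 0, .ofNat 0, .ofNat 0, .ofNat 0⟩)
    (by decide +kernel)
theorem L00326 : Good (Phi V5.P V5.D 1 1) ⟨2, 1, 1, 0, 2, 1, 2, 0, 4, 0⟩ :=
  leafX_sound T5.ok_pp T5.Ypp.bz_eq (w := 194) (c := ⟨⟨.ofNat 758, .ofNat 389, .negSucc 174, .ofNat 324, .ofNat 233, .negSucc 1497⟩, ⟨.negSucc 76, .ofNat 98, .ofNat 316, .ofNat 33, .ofNat 26, .negSucc 111⟩, ⟨.negSucc 621, .negSucc 334, .ofNat 322, .negSucc 215, .negSucc 262, .ofNat 981⟩, ⟨.ofNat 2114, .ofNat 514, .negSucc 310, .ofNat 826, .ofNat 495, .negSucc 3786⟩, ⟨.negSucc 430, .ofNat 111, .negSucc 97, .ofNat 134, .ofNat 373, .negSucc 305⟩, .ofNat 374, .negSucc 80, .ofNat 0, .negSucc 80, .ofNat 784, .ofNat 0, .ofNat 290, .ofNat 53, .negSucc 218, .ofNat 0, .ofNat 128, .negSucc 10, .ofNat 0, .ofNat 0, .ofNat 549, .ofNat 1827, .ofNat 0, .ofNat 0, .ofNat 0, .ofNat 0, .ofNat 0, .ofNat 0, .ofNat 0, .ofNat 0, .ofNat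 0, .ofNat 0, .ofNat 265858497924964533680041852158345216, .ofNat 0, .ofNat 0, .ofNat 0, .ofNat 0, .ofNat 0⟩)
    (by decide +kernel)
theorem L00327 : Good (Phi V5.P V5.D 1 1) ⟨2, 1, 1, 0, 1, 0, 2, 1, 4, 0⟩ :=
  leafX_sound T5.ok_pp T5.Ypp.bz_eq (w := 180) (c := ⟨⟨.ofNat 586, .ofNat 139, .ofNat 27, .ofNat 649, .negSucc 307, .negSucc 1465⟩, ⟨.ofNat 65, .ofNat 28, .ofNat 130, .ofNat 32, .negSucc 36, .negSucc 197⟩, ⟨.negSucc 599, .negSucc 103, .ofNat 143, .negSucc 659, .ofNat 299, .ofNat 1316⟩, ⟨.ofNat 1552, .ofNat 233, .ofNat 81, .ofNat 1648, .negSucc 782, .negSucc 3758⟩, ⟨.negSucc 57, .ofNat 3, .negSucc 71, .negSucc 11, .ofNat 145, .negSucc 107⟩, .ofNat 366, .negSucc 35, .ofNat 0, .negSucc 35, .ofNat 727, .ofNat 0, .ofNat 341, .ofNat 22, .negSucc 281, .ofNat 0, .ofNat 128, .negSucc 5, .ofNat 0, .ofNat 0, .ofNat 532, .ofNat 832, .ofNat 0, .ofNat 0, .ofNat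 0, .ofNat 0, .ofNat 0, .ofNat 0, .ofNat 0, .ofNat 0, .ofNat 0, .ofNat 0, .ofNat 106780059272707127319352081121280, .ofNat 0, .ofNat 0, .ofNat 0, .ofNat 100231995839662385024651426267136, .ofNat 0⟩)
    (by decide +kernel)
theorem L00328 : Good (Phi V5.P V5.D 1 1) ⟨2, 1, 1, 0, 1, 0, 1, 0, 4, 1⟩ :=
  leafX_sound T5.ok_pp T5.Ypp.bz_eq (w := 175) (c := ⟨⟨.negSucc 635, .negSucc 329, .negSucc 72, .ofNat 342, .negSucc 59, .negSucc 658⟩, ⟨.ofNat 65, .negSucc 54, .negSucc 418, .ofNat 19, .ofNat 3, .negSucc 78⟩, ⟨.ofNat 863, .ofNat 176, .ofNat 313, .negSucc 1127, .ofNat 185, .ofNat 487⟩, ⟨.negSucc 1904, .negSucc 205, .negSucc 69, .ofNat 840, .negSucc 138, .negSucc 1612⟩, ⟨.negSucc 108, .negSucc 8, .ofNat 8, .negSucc 326, .ofNat 166, .negSucc 88⟩, .ofNat 520, .negSucc 125, .ofNat 0, .negSucc 125, .ofNat 1691, .ofNat 0, .ofNat 393, .ofNat 50, .negSucc 190, .ofNat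 0, .ofNat 128, .negSucc 7, .ofNat 0, .ofNat 0, .ofNat 637, .ofNat 923, .ofNat 0, .ofNat 0, .ofNat 0, .ofNat 0, .ofNat 0, .ofNat 0, .ofNat 0, .ofNat 0, .ofNat 0, .ofNat 0, .ofNat 4206812843142481466652905963520, .ofNat 0, .ofNat 0, .ofNat 0, .ofNat 0, .ofNat 0⟩)
    (by decide +kernel)
theorem L00329 : Good (Phi V5.P V5.D 1 1) ⟨2, 1, 1, 0, 1, 0, 1, 0, 3, 1⟩ :=
  leafX_sound T5.ok_pp T5.Ypp.bz_eq (w := 172) (c := ⟨⟨.negSucc 1312, .negSucc 361, .negSucc 34, .negSucc 9, .ofNat 128, .negSucc 105⟩, ⟨.ofNat 49, .negSucc 81, .negSucc 585, .negSucc 18, .ofNat 24, .negSucc 8⟩, ⟨.ofNat 1323, .ofNat 360, .ofNat 128, .negSucc 476, .negSucc 89, .ofNat 249⟩, ⟨.negSucc 3646, .negSucc 102, .negSucc 7, .ofNat 10, .ofNat 301, .negSucc 287⟩, ⟨.ofNat 1, .ofNat 11, .negSucc 56, .negSucc 380, .ofNat 33, .negSucc 24⟩, .ofNat 522, .negSucc 136, .ofNat 0, .negSucc 136, .ofNat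 1704, .ofNat 0, .ofNat 432, .ofNat 54, .negSucc 174, .ofNat 0, .ofNat 128, .negSucc 3, .ofNat 0, .ofNat 0, .ofNat 969, .ofNat 1930, .ofNat 199430058627677995706778629701632, .ofNat 0, .ofNat 3151875834210392134364692480, .ofNat 0, .ofNat 0, .ofNat 0, .ofNat 0, .ofNat 0, .ofNat 1095640579813689619155233720500224, .ofNat 0, .ofNat 159522332291708598743856054272, .ofNat 0, .ofNat 10229453641489398251807978026958848, .ofNat 0, .ofNat 0, .ofNat 0⟩)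
    (by decide +kernel)
theorem L00330 : Good (Phi V5.P V5.D 1 1) ⟨2, 1, 1, 0, 1, 0, 2, 0, 4, 4⟩ :=
  leafX_sound T5.ok_pp T5.Ypp.bz_eq (w := 184) (c := ⟨⟨.negSucc 1410, .negSucc 348, .negSucc 45, .ofNat 12, .ofNat 56, .ofNat 19⟩, ⟨.ofNat 52, .negSucc 80, .negSucc 607, .negSucc 1, .negSucc 2, .ofNat 0⟩, ⟨.ofNat 1562, .ofNat 227, .ofNat 104, .negSucc 739, .ofNat 215, .ofNat 85⟩, ⟨.negSucc 3883, .negSucc 35, .ofNat 32, .negSucc 13, .ofNat 117, .ofNat 112⟩, ⟨.negSucc 89, .ofNat 77, .negSucc 16, .negSucc 375, .ofNat 41, .ofNat 3⟩, .ofNat 183, .negSucc 5, .ofNat 0, .negSucc 5, .ofNat 243, .ofNat 0, .ofNat 227, .ofNat 3, .negSucc 93, .ofNat 0, .ofNat 128, .ofNat 31, .ofNat 0, .ofNat 0, .ofNat 385, .ofNat 18711, .ofNat 168327037988120168323576012038209536, .ofNat 0, .ofNat 0, .ofNat 0, .ofNat 490013796553428901495028895008686080, .ofNat 0, .ofNat 0, .ofNat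 0, .ofNat 179705377692795769749817154521268224, .ofNat 0, .ofNat 0, .ofNat 0, .ofNat 712074612392151948520051417035046912, .ofNat 0, .ofNat 86964260431253282861388375523328, .ofNat 0⟩)
    (by decide +kernel)
theorem L00331 : Good (Phi V5.P V5.D 1 1) ⟨2, 1, 1, 0, 1, 0, 2, 1, 4, 4⟩ :=
  leafX_sound T5.ok_pp T5.Ypp.bz_eq (w := 182) (c := ⟨⟨.negSucc 1318, .negSucc 341, .negSucc 27, .negSucc 64, .ofNat 68, .ofNat 76⟩, ⟨.ofNat 59, .negSucc 88, .negSucc 590, .negSucc 18, .ofNat 7, .ofNat 11⟩, ⟨.ofNat 1468, .ofNat 234, .ofNat 27, .negSucc 317, .negSucc 53, .ofNat 0⟩, ⟨.negSucc 3670, .negSucc 56, .ofNat 13, .negSucc 139, .ofNat 155, .ofNat 184⟩, ⟨.negSucc 5, .ofNat 23, .negSucc 9, .negSucc 369, .negSucc 10, .ofNat 2⟩, .ofNat 374, .negSucc 80, .ofNat 0, .negSucc 80, .ofNat 784, .ofNat 0, .ofNat 226, .ofNat 46, .negSucc 103, .ofNat 0, .ofNat 128, .negSucc 0,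 .ofNat 0, .ofNat 0, .ofNat 805, .ofNat 5893, .ofNat 32134402848351317389671964715515904, .ofNat 0, .ofNat 2411206442857825764146493259776, .ofNat 0, .ofNat 0, .ofNat 0, .ofNat 119871529569931391801844515733504, .ofNat 0, .ofNat 0, .ofNat 0, .ofNat 0, .ofNat 0, .ofNat 0, .ofNat 0, .ofNat 0, .ofNat 0⟩)
    (by decide +kernel)
theorem L00332 : Good (Phi V5.P V5.D 1 1) ⟨2, 1, 1, 0, 1, 0, 2, 0, 4, 5⟩ :=
  out_sound (S := T5.ds_pp) T5.ok_pp (w := 22) (j := 1) (by decide +kernel)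
theorem L00333 : Good (Phi V5.P V5.D 1 1) ⟨2, 1, 1, 0, 2, 0, 2, 1, 4, 5⟩ :=
  leafX_sound T5.ok_pp T5.Ypp.bz_eq (w := 199) (c := ⟨⟨.negSucc 1249, .negSucc 329, .negSucc 19, .negSucc 37, .ofNat 79, .ofNat 69⟩, ⟨.ofNat 83, .negSucc 94, .negSucc 563, .negSucc 20, .negSucc 4, .ofNat 12⟩, ⟨.ofNat 1523, .ofNat 318, .negSucc 36, .negSucc 24, .negSucc 258, .negSucc 65⟩, ⟨.negSucc 3529, .negSucc 76, .ofNat 5, .negSucc 53, .ofNat 224, .ofNat 186⟩, ⟨.ofNat 2, .ofNat 7, .negSucc 0, .negSucc 187, .negSucc 3, .ofNat 6⟩, .ofNat 183, .negSucc 6, .ofNat 0, .negSucc 6, .ofNat 243, .ofNat 0, .ofNat 219, .ofNat 8, .negSucc 86, .ofNat 0, .ofNat 128, .ofNat 5, .ofNat 0, .ofNat 0, .ofNat 494, .ofNat 25860, .ofNat 813015636180036401879853696663989256192, .ofNat 0, .ofNat 0, .ofNat 0, .ofNat 2577288541425533448628161216773590351872, .ofNat 0, .ofNat 702916677271284526117888688079765504,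 .ofNat 0, .ofNat 180542302867760046132600844967412236288, .ofNat 0, .ofNat 2536556743981342156622751275377754112, .ofNat 0, .ofNat 2543854594012338878008428101807070248960, .ofNat 0, .ofNat 0, .ofNat 0⟩)
    (by decide +kernel)
theorem L00334 : Good (Phi V5.P V5.D 1 1) ⟨2, 1, 1, 0, 2, 1, 3, 2, 5, 10⟩ :=
  leafX_sound T5.ok_pp T5.Ypp.bz_eq (w := 207) (c := ⟨⟨.negSucc 1231, .negSucc 346, .negSucc 42, .negSucc 67, .ofNat 11, .ofNat 45⟩, ⟨.ofNat 53, .negSucc 81, .negSucc 570, .negSucc 22, .ofNat 6, .ofNat 15⟩, ⟨.ofNat 1361, .ofNat 255, .negSucc 36, .negSucc 185, .ofNat 14, .ofNat 30⟩, ⟨.negSucc 3478, .negSucc 60, .ofNat 28, .negSucc 134, .ofNat 17, .ofNat 110⟩, ⟨.negSucc 212, .ofNat 41, .negSucc 15, .negSucc 179, .ofNat 4, .ofNat 0⟩, .ofNat 183, .negSucc 5, .ofNat 0, .negSucc 5, .ofNat 243, .ofNat 0, .ofNat 136, .ofNat 4, .negSucc 48, .ofNat 0, .ofNat 128,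 .ofNat 14, .ofNat 0, .ofNat 0, .ofNat 269, .ofNat 23946, .ofNat 60325228874448927412092128253594939949056, .ofNat 0, .ofNat 52606100700662179501689784774531481600, .ofNat 0, .ofNat 86216587505303126080274794649279321341952, .ofNat 0, .ofNat 0, .ofNat 0, .ofNat 0, .ofNat 0, .ofNat 0, .ofNat 0, .ofNat 90115612099998016600906881264576461012992, .ofNat 0, .ofNat 642466743328856105677965994557872013312, .ofNat 0⟩)
    (by decide +kernel)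
theorem L00335 : Good (Phi V5.P V5.D 1 1) ⟨2, 1, 1, 0, 2, 1, 3, 2, 5, 11⟩ :=
  leafX_sound T5.ok_pp T5.Ypp.bz_eq (w := 210) (c := ⟨⟨.negSucc 1203, .negSucc 346, .negSucc 40, .negSucc 39, .ofNat 0, .ofNat 29⟩, ⟨.negSucc 10, .negSucc 86, .negSucc 564, .ofNat 3, .ofNat 54, .negSucc 4⟩, ⟨.ofNat 1334, .ofNat 237, .negSucc 81, .negSucc 148, .ofNat 56, .ofNat 36⟩, ⟨.negSucc 3338, .negSucc 64, .ofNat 52, .negSucc 128, .negSucc 20, .ofNat 115⟩, ⟨.negSucc 212, .ofNat 30, .negSucc 31, .negSucc 155, .negSucc 3, .ofNat 12⟩, .ofNat 182, .negSucc 4, .ofNat 0, .negSucc 4, .ofNat 244, .ofNat 0, .ofNat 128, .ofNat 2, .negSucc 19, .ofNat 0, .ofNat 128, .ofNat 6, .ofNat 0, .ofNat 0, .ofNat 128, .ofNat 119519, .ofNat 324221247254410809965871263086204971646976, .ofNat 0, .ofNat 0, .ofNat 0, .ofNat 149682158119394287889205059180854941581312, .ofNat 0, .ofNat 0, .ofNat 0,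 .ofNat 148662646528469806845678638282532651532288, .ofNat 0, .ofNat 0, .ofNat 0, .ofNat 86717412717894706741214535330286750662656, .ofNat 0, .ofNat 146367752049215803438182276117120942080, .ofNat 0⟩)
    (by decide +kernel)
theorem L00336 : Good (Phi V5.P V5.D 1 1) ⟨2, 1, 1, 0, 2, 1, 3, 3, 4, 5⟩ :=
  leafX_sound T5.ok_pp T5.Ypp.bz_eq (w := 202) (c := ⟨⟨.negSucc 1212, .negSucc 351, .negSucc 32, .negSucc 75, .ofNat 10, .ofNat 74⟩, ⟨.ofNat 55, .negSucc 82, .negSucc 556, .negSucc 17, .negSucc 1, .ofNat 8⟩, ⟨.ofNat 1289, .ofNat 311, .negSucc 100, .negSucc 38, .negSucc 23, .negSucc 8⟩, ⟨.negSucc 3414, .negSucc 91, .ofNat 40, .negSucc 176, .ofNat 30, .ofNat 192⟩, ⟨.negSucc 188, .ofNat 8, .negSucc 12, .negSucc 188, .negSucc 4, .ofNat 9⟩, .ofNat 183, .negSucc 6, .ofNat 0, .negSucc 6, .ofNat 244, .ofNat 0, .ofNat 319, .ofNat 7, .negSucc 106, .ofNat 0, .ofNat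 128, .ofNat 19, .ofNat 0, .ofNat 0, .ofNat 630, .ofNat 14872, .ofNat 3685959132489447892533929428923552104448, .ofNat 0, .ofNat 567578048355071493878464889445416960, .ofNat 0, .ofNat 0, .ofNat 0, .ofNat 0, .ofNat 0, .ofNat 0, .ofNat 0, .ofNat 28538502323825523144082682114597715968, .ofNat 0, .ofNat 14268054633614041864214048318911391203328, .ofNat 0, .ofNat 88015868624112274071312270791414906880, .ofNat 0⟩)
    (by decide +kernel)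
theorem L00337 : Good (Phi V5.P V5.D 1 1) ⟨2, 1, 1, 0, 1, 0, 1, 0, 3, 3⟩ :=
  leafX_sound T5.ok_pp T5.Ypp.bz_eq (w := 175) (c := ⟨⟨.negSucc 969, .negSucc 348, .negSucc 37, .negSucc 155, .negSucc 79, .ofNat 160⟩, ⟨.ofNat 103, .negSucc 77, .negSucc 534, .negSucc 49, .negSucc 21, .ofNat 28⟩, ⟨.ofNat 1140, .ofNat 286, .negSucc 233, .ofNat 88, .ofNat 71, .ofNat 65⟩, ⟨.negSucc 2953, .negSucc 97, .ofNat 62, .negSucc 329, .negSucc 86, .ofNat 405⟩, ⟨.ofNat 33, .negSucc 14, .negSucc 17, .negSucc 349, .negSucc 36, .ofNat 18⟩, .ofNat 183, .negSucc 6, .ofNat 0, .negSucc 6, .ofNat 242, .ofNat 0, .ofNat 128, .ofNat 6, .negSucc 38, .ofNat 0, .ofNat 130, .ofNat 5, .ofNat 0, .ofNat 0, .ofNat 338, .ofNat 12430, .ofNat 3954204582795814710911722783244288, .ofNat 0, .ofNat 0, .ofNat 0, .ofNat 10549956559955562708055117912866816, .ofNat 0, .ofNat 9075183319308094075691859968,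 .ofNat 0, .ofNat 0, .ofNat 0, .ofNat 0, .ofNat 0, .ofNat 11217857240827369020909600295092224, .ofNat 0, .ofNat 0, .ofNat 0⟩)
    (by decide +kernel)
theorem L00338 : Good (Phi V5.P V5.D 1 1) ⟨2, 1, 1, 0, 1, 0, 1, 0, 1, 1⟩ :=
  out_sound (S := T5.ds_pp) T5.ok_pp (w := 15) (j := 1) (by decide +kernel)
theorem L00339 : Good (Phi V5.P V5.D 1 1) ⟨2, 1, 1, 0, 1, 0, 2, 2, 3, 0⟩ :=
  leafX_sound T5.ok_pp T5.Ypp.bz_eq (w := 174) (c := ⟨⟨.ofNat 150, .negSucc 299, .negSucc 276, .ofNat 362, .negSucc 140, .negSucc 1265⟩, ⟨.ofNat 120, .negSucc 118, .negSucc 293, .ofNat 30, .ofNat 2, .negSucc 137⟩, ⟨.negSucc 249, .ofNat 285, .ofNat 307, .negSucc 336, .ofNat 192, .ofNat 1259⟩, ⟨.ofNat 394, .negSucc 476, .negSucc 543, .ofNat 962, .negSucc 515, .negSucc 3451⟩, ⟨.ofNat 79, .ofNat 53, .negSucc 280, .negSucc 43, .ofNat 54, .negSucc 181⟩, .ofNat 366, .negSucc 36, .ofNat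 0, .negSucc 36, .ofNat 727, .ofNat 0, .ofNat 454, .ofNat 24, .negSucc 315, .ofNat 0, .ofNat 128, .negSucc 4, .ofNat 0, .ofNat 0, .ofNat 639, .ofNat 418, .ofNat 0, .ofNat 0, .ofNat 109075866807217743723436703744, .ofNat 0, .ofNat 0, .ofNat 0, .ofNat 0, .ofNat 0, .ofNat 0, .ofNat 0, .ofNat 2794772285198969019861693366272, .ofNat 0, .ofNat 0, .ofNat 0, .ofNat 3303677132816194084776938831872, .ofNat 0⟩)
    (by decide +kernel)
theorem L00340 : Good (Phi V5.P V5.D 1 1) ⟨2, 1, 1, 0, 1, 0, 3, 6, 3, 0⟩ :=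
  leafX_sound T5.ok_pp T5.Ypp.bz_eq (w := 178) (c := ⟨⟨.negSucc 354, .negSucc 271, .negSucc 10, .ofNat 145, .negSucc 50, .negSucc 812⟩, ⟨.ofNat 87, .negSucc 26, .negSucc 372, .negSucc 6, .negSucc 11, .negSucc 106⟩, ⟨.ofNat 304, .ofNat 292, .ofNat 15, .negSucc 66, .ofNat 72, .ofNat 729⟩, ⟨.negSucc 1162, .negSucc 200, .negSucc 33, .ofNat 362, .negSucc 68, .negSucc 1982⟩, ⟨.ofNat 273, .negSucc 103, .negSucc 49, .ofNat 40, .negSucc 162, .negSucc 470⟩, .ofNat 529, .negSucc 159, .ofNat 0, .negSucc 159, .ofNat 1715, .ofNat 0, .ofNat 379, .ofNat 66, .negSucc 206, .ofNat 0, .ofNat 128, .negSucc 15, .ofNat 0, .ofNat 0, .ofNat 482, .ofNat 466, .ofNat 0, .ofNat 0, .ofNat 0, .ofNat 0, .ofNat 0, .ofNat 0, .ofNat 0, .ofNat 0, .ofNat 0, .ofNat 0, .ofNat 36690097789830654239705925681152, .ofNat 0, .ofNat 0, .ofNat 0, .ofNat 24570965779167141500957042409472, .ofNat 0⟩)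
    (by decide +kernel)
theorem L00341 : Good (Phi V5.P V5.D 1 1) ⟨2, 1, 1, 0, 1, 0, 3, 7, 3, 0⟩ :=
  leafX_sound T5.ok_pp T5.Ypp.bz_eq (w := 178) (c := ⟨⟨.negSucc 428, .negSucc 327, .negSucc 66, .negSucc 252, .ofNat 495, .negSucc 479⟩, ⟨.ofNat 51, .negSucc 51, .negSucc 264, .negSucc 46, .ofNat 45, .negSucc 54⟩, ⟨.ofNat 288, .ofNat 415, .ofNat 79, .ofNat 608, .negSucc 480, .ofNat 307⟩, ⟨.negSucc 1250, .negSucc 442, .negSucc 107, .negSucc 655, .ofNat 1246, .negSucc 1181⟩, ⟨.ofNat 55, .ofNat 39, .ofNat 64, .negSucc 249, .negSucc 7, .negSucc 268⟩, .ofNat 374, .negSucc 80, .ofNat 0, .negSucc 80, .ofNat 784, .ofNat 0, .ofNat 322, .ofNat 50, .negSucc 411, .ofNat 0, .ofNat 128, .negSucc 38, .ofNat 0, .ofNat 0, .ofNat 717, .ofNat 395, .ofNat 0, .ofNat 0, .ofNat 0, .ofNat 0, .ofNat 0, .ofNat 2391448738840915210407090619154432, .ofNat 6661044780517220015250706792448,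 .ofNat 0, .ofNat 0, .ofNat 0, .ofNat 0, .ofNat 0, .ofNat 0, .ofNat 2950607893982734785052607374163968, .ofNat 35391067936928537708520842199040, .ofNat 0⟩)
    (by decide +kernel)
theorem L00342 : Good (Phi V5.P V5.D 1 1) ⟨2, 1, 1, 0, 1, 0, 2, 2, 3, 1⟩ :=
  leafX_sound T5.ok_pp T5.Ypp.bz_eq (w := 175) (c := ⟨⟨.negSucc 1198, .negSucc 364, .negSucc 15, .negSucc 149, .ofNat 111, .negSucc 22⟩, ⟨.ofNat 59, .negSucc 77, .negSucc 560, .negSucc 27, .ofNat 10, .ofNat 1⟩, ⟨.ofNat 1125, .ofNat 392, .ofNat 8, .ofNat 31, .negSucc 143, .ofNat 100⟩, ⟨.negSucc 3353, .negSucc 188, .ofNat 29, .negSucc 328, .ofNat 290, .negSucc 63⟩, ⟨.ofNat 42, .ofNat 30, .negSucc 71, .negSucc 442, .negSucc 6, .negSucc 15⟩, .ofNat 515, .negSucc 100, .ofNat 0, .negSucc 100, .ofNat 1666, .ofNat 0, .ofNat 585, .ofNat 41, .negSucc 243, .ofNat 0, .ofNat 128, .negSucc 6, .ofNat 0, .ofNat 0,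 .ofNat 1067, .ofNat 742, .ofNat 0, .ofNat 0, .ofNat 0, .ofNat 0, .ofNat 0, .ofNat 0, .ofNat 0, .ofNat 0, .ofNat 0, .ofNat 0, .ofNat 7317346746144865414987068211200, .ofNat 0, .ofNat 0, .ofNat 0, .ofNat 0, .ofNat 0⟩)
    (by decide +kernel)
theorem L00343 : Good (Phi V5.P V5.D 1 1) ⟨2, 1, 1, 0, 1, 0, 3, 6, 3, 1⟩ :=
  leafX_sound T5.ok_pp T5.Ypp.bz_eq (w := 179) (c := ⟨⟨.negSucc 972, .negSucc 404, .negSucc 26, .negSucc 342, .ofNat 57, .negSucc 36⟩, ⟨.ofNat 66, .negSucc 78, .negSucc 534, .negSucc 52, .ofNat 8, .ofNat 7⟩, ⟨.ofNat 849, .ofNat 440, .negSucc 39, .ofNat 460, .negSucc 111, .negSucc 11⟩, ⟨.negSucc 2770, .negSucc 303, .ofNat 0, .negSucc 811, .ofNat 148, .negSucc 105⟩, ⟨.ofNat 44, .negSucc 80, .ofNat 61, .negSucc 462, .negSucc 19, .negSucc 5⟩, .ofNat 522, .negSucc 114, .ofNat 0, .negSucc 114, .ofNat 1663, .ofNat 0, .ofNat 524, .ofNat 46, .negSucc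 236, .ofNat 0, .ofNat 128, .negSucc 10, .ofNat 0, .ofNat 0, .ofNat 960, .ofNat 832, .ofNat 0, .ofNat 0, .ofNat 0, .ofNat 0, .ofNat 0, .ofNat 0, .ofNat 0, .ofNat 0, .ofNat 0, .ofNat 0, .ofNat 98586048200146970806433861337088, .ofNat 0, .ofNat 0, .ofNat 0, .ofNat 0, .ofNat 0⟩)
    (by decide +kernel)
theorem L00344 : Good (Phi V5.P V5.D 1 1) ⟨2, 1, 1, 0, 1, 0, 3, 7, 3, 1⟩ :=
  leafX_sound T5.ok_pp T5.Ypp.bz_eq (w := 179) (c := ⟨⟨.negSucc 834, .negSucc 325, .ofNat 44, .negSucc 533, .ofNat 266, .negSucc 133⟩, ⟨.ofNat 58, .negSucc 54, .negSucc 447, .negSucc 74, .ofNat 20, .negSucc 10⟩, ⟨.ofNat 658, .ofNat 378, .negSucc 68, .ofNat 756, .negSucc 407, .negSucc 30⟩, ⟨.negSucc 2328, .negSucc 233, .ofNat 135, .negSucc 1364, .ofNat 703, .negSucc 365⟩, ⟨.ofNat 3, .negSucc 25, .negSucc 15, .negSucc 506, .negSucc 8, .ofNat 35⟩, .ofNat 368, .negSucc 39, .ofNat 0, .negSucc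 39, .ofNat 729, .ofNat 0, .ofNat 549, .ofNat 26, .negSucc 375, .ofNat 0, .ofNat 128, .negSucc 9, .ofNat 0, .ofNat 0, .ofNat 1022, .ofNat 484, .ofNat 0, .ofNat 0, .ofNat 0, .ofNat 0, .ofNat 0, .ofNat 11627188605445358190091641812942848, .ofNat 81994743911978796760267602526208, .ofNat 0, .ofNat 0, .ofNat 352107283767155515793161119072256, .ofNat 31377321293031103967348385644544, .ofNat 0, .ofNat 0, .ofNat 7262479420500214640281378703278080, .ofNat 160662423062326867599061646573568, .ofNat 0⟩)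
    (by decide +kernel)
theorem L00345 : Good (Phi V5.P V5.D 1 1) ⟨2, 1, 1, 0, 2, 0, 2, 2, 3, 2⟩ :=
  leafX_sound T5.ok_pp T5.Ypp.bz_eq (w := 192) (c := ⟨⟨.negSucc 1228, .negSucc 314, .negSucc 12, .negSucc 43, .ofNat 89, .ofNat 112⟩, ⟨.ofNat 53, .negSucc 87, .negSucc 534, .negSucc 12, .ofNat 10, .ofNat 16⟩, ⟨.ofNat 1282, .ofNat 324, .negSucc 45, .ofNat 44, .negSucc 320, .negSucc 129⟩, ⟨.negSucc 3389, .negSucc 81, .ofNat 4, .negSucc 112, .ofNat 226, .ofNat 265⟩, ⟨.negSucc 6, .ofNat 3, .ofNat 2, .negSucc 179, .ofNat 4, .ofNat 10⟩, .ofNat 365, .negSucc 38, .ofNat 0, .negSucc 38, .ofNat 734, .ofNat 0, .ofNat 458, .ofNat 22, .negSucc 113, .ofNat 0, .ofNat 128, .negSucc 3, .ofNat 0, .ofNat 0, .ofNat 846, .ofNat 7507, .ofNat 0, .ofNat 0, .ofNat 0, .ofNat 0, .ofNat 0, .ofNat 0, .ofNat 493516088268848285328338833347969024, .ofNat 0, .ofNat 0, .ofNat 0, .ofNat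 144943679499849222697801479471759360, .ofNat 0, .ofNat 0, .ofNat 0, .ofNat 0, .ofNat 0⟩)
    (by decide +kernel)
theorem L00346 : Good (Phi V5.P V5.D 1 1) ⟨2, 1, 1, 0, 2, 0, 3, 6, 3, 2⟩ :=
  leafX_sound T5.ok_pp T5.Ypp.bz_eq (w := 195) (c := ⟨⟨.negSucc 1064, .negSucc 332, .negSucc 6, .negSucc 106, .ofNat 46, .ofNat 42⟩, ⟨.ofNat 67, .negSucc 86, .negSucc 504, .negSucc 16, .ofNat 5, .ofNat 2⟩, ⟨.ofNat 942, .ofNat 326, .negSucc 29, .ofNat 144, .negSucc 218, .negSucc 189⟩, ⟨.negSucc 2982, .negSucc 153, .ofNat 34, .negSucc 269, .ofNat 118, .ofNat 100⟩, ⟨.negSucc 13, .negSucc 8, .negSucc 5, .negSucc 179, .ofNat 6, .ofNat 38⟩, .ofNat 366, .negSucc 42, .ofNat 0, .negSucc 42, .ofNat 736, .ofNat 0, .ofNat 693, .ofNat 24, .negSucc 232, .ofNat 0, .ofNat 128, .negSucc 15, .ofNat 0, .ofNat 0, .ofNat 1404, .ofNat 3508, .ofNat 0, .ofNat 0, .ofNat 0, .ofNat 0, .ofNat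 0, .ofNat 0, .ofNat 0, .ofNat 0, .ofNat 0, .ofNat 0, .ofNat 1671737577001481817607818835574915072, .ofNat 0, .ofNat 0, .ofNat 0, .ofNat 0, .ofNat 0⟩)
    (by decide +kernel)
theorem L00347 : Good (Phi V5.P V5.D 1 1) ⟨2, 1, 1, 0, 2, 0, 3, 7, 3, 2⟩ :=
  leafX_sound T5.ok_pp T5.Ypp.bz_eq (w := 194) (c := ⟨⟨.negSucc 893, .negSucc 386, .ofNat 8, .negSucc 233, .ofNat 130, .negSucc 62⟩, ⟨.ofNat 73, .negSucc 95, .negSucc 462, .negSucc 39, .ofNat 23, .negSucc 1⟩, ⟨.ofNat 616, .ofNat 392, .negSucc 65, .ofNat 255, .negSucc 331, .negSucc 104⟩, ⟨.negSucc 2531, .negSucc 314, .ofNat 85, .negSucc 564, .ofNat 386, .negSucc 214⟩, ⟨.ofNat 45, .negSucc 57, .negSucc 123, .negSucc 177, .negSucc 41, .ofNat 108⟩, .ofNat 519, .negSucc 117, .ofNat 0, .negSucc 117, .ofNat 1681, .ofNat 0, .ofNat 536, .ofNat 45, .negSucc 132, .ofNat 0, .ofNat 128, .negSucc 10, .ofNat 0, .ofNat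 0, .ofNat 667, .ofNat 1248, .ofNat 0, .ofNat 0, .ofNat 0, .ofNat 0, .ofNat 0, .ofNat 0, .ofNat 0, .ofNat 0, .ofNat 0, .ofNat 0, .ofNat 1557168582409717648806723114967760896, .ofNat 0, .ofNat 0, .ofNat 0, .ofNat 1628798254774894903275648246465167360, .ofNat 0⟩)
    (by decide +kernel)
theorem L00348 : Good (Phi V5.P V5.D 1 1) ⟨2, 1, 1, 0, 2, 1, 2, 2, 3, 2⟩ :=
  leafX_sound T5.ok_pp T5.Ypp.bz_eq (w := 191) (c := ⟨⟨.negSucc 1255, .negSucc 332, .negSucc 19, .negSucc 92, .ofNat 1, .ofNat 117⟩, ⟨.ofNat 38, .negSucc 73, .negSucc 547, .negSucc 12, .negSucc 2, .ofNat 13⟩, ⟨.ofNat 1242, .ofNat 314, .negSucc 142, .ofNat 67, .negSucc 92, .negSucc 35⟩, ⟨.negSucc 3483, .negSucc 91, .ofNat 33, .negSucc 232, .ofNat 14, .ofNat 297⟩, ⟨.negSucc 201, .negSucc 14, .ofNat 5, .negSucc 190, .negSucc 11, .ofNat 26⟩, .ofNat 367, .negSucc 41, .ofNat 0, .negSucc 41, .ofNat 731,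 .ofNat 0, .ofNat 458, .ofNat 24, .negSucc 103, .ofNat 0, .ofNat 128, .ofNat 1, .ofNat 0, .ofNat 0, .ofNat 891, .ofNat 3077, .ofNat 0, .ofNat 0, .ofNat 0, .ofNat 0, .ofNat 0, .ofNat 0, .ofNat 0, .ofNat 0, .ofNat 0, .ofNat 0, .ofNat 127387907397001420247869615463464960, .ofNat 0, .ofNat 0, .ofNat 0, .ofNat 0, .ofNat 0⟩)
    (by decide +kernel)
theorem L00349 : Good (Phi V5.P V5.D 1 1) ⟨2, 1, 1, 0, 2, 1, 2, 3, 3, 2⟩ :=
  leafX_sound T5.ok_pp T5.Ypp.bz_eq (w := 190) (c := ⟨⟨.negSucc 1146, .negSucc 452, .ofNat 29, .negSucc 213, .negSucc 132, .ofNat 67⟩, ⟨.ofNat 54, .negSucc 86, .negSucc 550, .negSucc 34, .negSucc 18, .ofNat 16⟩, ⟨.ofNat 1057, .ofNat 496, .negSucc 218, .ofNat 355, .negSucc 165, .negSucc 200⟩, ⟨.negSucc 3236, .negSucc 336, .ofNat 159, .negSucc 493, .negSucc 274, .ofNat 147⟩, ⟨.negSucc 120, .negSucc 176, .negSucc 8, .negSucc 281, .negSucc 34,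 .ofNat 53⟩, .ofNat 519, .negSucc 97, .ofNat 0, .negSucc 97, .ofNat 1640, .ofNat 0, .ofNat 598, .ofNat 39, .negSucc 122, .ofNat 0, .ofNat 128, .negSucc 8, .ofNat 0, .ofNat 0, .ofNat 938, .ofNat 960, .ofNat 0, .ofNat 0, .ofNat 0, .ofNat 0, .ofNat 0, .ofNat 43361719842654833521401698253065420800, .ofNat 298602608292413040533774981666963456, .ofNat 0, .ofNat 0, .ofNat 3035396098917925258506512641655046144, .ofNat 126104360977226093952042302009507840, .ofNat 0, .ofNat 0, .ofNat 13704936963436457547014546856624521216, .ofNat 170482796497131022514362428298362880, .ofNat 0⟩)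
    (by decide +kernel)
theorem L00350 : Good (Phi V5.P V5.D 1 1) ⟨2, 1, 1, 0, 1, 0, 2, 2, 3, 3⟩ :=
  leafX_sound T5.ok_pp T5.Ypp.bz_eq (w := 177) (c := ⟨⟨.negSucc 1035, .negSucc 330, .negSucc 50, .negSucc 173, .ofNat 9, .ofNat 67⟩, ⟨.ofNat 75, .negSucc 78, .negSucc 523, .negSucc 43, .negSucc 3, .ofNat 15⟩, ⟨.ofNat 1080, .ofNat 379, .negSucc 46, .ofNat 192, .negSucc 284, .negSucc 137⟩, ⟨.negSucc 2967, .negSucc 134, .negSucc 56, .negSucc 356, .ofNat 54, .ofNat 158⟩, ⟨.ofNat 97, .negSucc 108, .negSucc 41, .negSucc 407, .negSucc 32, .ofNat 50⟩, .ofNat 516, .negSucc 130, .ofNat 0, .negSucc 130, .ofNat 1752, .ofNat 0, .ofNat 343, .ofNat 51, .negSucc 77, .ofNat 0, .ofNat 128, .negSucc 9, .ofNat 0, .ofNat 0, .ofNat 1284, .ofNat 4324, .ofNat 3551994771396686326612173680279552, .ofNat 0, .ofNat 0, .ofNat 0, .ofNat 0, .ofNat 0, .ofNat 0, .ofNat 0, .ofNat 0, .ofNat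 0, .ofNat 0, .ofNat 0, .ofNat 118261769894877526903227662395768832, .ofNat 8437553971498970705493160261320704, .ofNat 18260451764336134996633812205568, .ofNat 0⟩)
    (by decide +kernel)
theorem L00351 : Good (Phi V5.P V5.D 1 1) ⟨2, 1, 1, 0, 1, 0, 2, 3, 3, 3⟩ :=
  leafX_sound T5.ok_pp T5.Ypp.bz_eq (w := 176) (c := ⟨⟨.negSucc 969, .negSucc 362, .negSucc 50, .negSucc 297, .negSucc 31, .ofNat 48⟩, ⟨.ofNat 81, .negSucc 96, .negSucc 518, .negSucc 42, .negSucc 1, .ofNat 5⟩, ⟨.ofNat 788, .ofNat 338, .negSucc 82, .ofNat 313, .negSucc 377, .negSucc 226⟩, ⟨.negSucc 2747, .negSucc 199, .negSucc 51, .negSucc 738, .negSucc 78, .ofNat 79⟩, ⟨.ofNat 8, .negSucc 73, .negSucc 1, .negSucc 349, .ofNat 68, .ofNat 96⟩, .ofNat 374, .negSucc 80, .ofNat 0, .negSucc 80, .ofNat 784, .ofNat 0, .ofNat 465, .ofNat 45, .negSucc 106, .ofNat 0, .ofNat 128, .negSucc 30, .ofNat 0, .ofNat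 0, .ofNat 971, .ofNat 1278, .ofNat 0, .ofNat 0, .ofNat 0, .ofNat 0, .ofNat 0, .ofNat 13225572646685645855491272686436352, .ofNat 0, .ofNat 0, .ofNat 0, .ofNat 866342902984727353257899906301952, .ofNat 2671816440594458863745368064000, .ofNat 0, .ofNat 4704492949943830045237604276764672, .ofNat 7380348965607797963971516847620096, .ofNat 1464725418253330445121620017152, .ofNat 0⟩)
    (by decide +kernel)
theorem L00352 : Good (Phi V5.P V5.D 1 1) ⟨2, 1, 1, 0, 1, 0, 1, 1, 1, 1⟩ :=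
  leafX_sound T5.ok_pp T5.Ypp.bz_eq (w := 172) (c := ⟨⟨.negSucc 1050, .negSucc 318, .ofNat 1, .ofNat 1, .negSucc 0, .ofNat 1⟩, ⟨.ofNat 64, .negSucc 90, .negSucc 492, .ofNat 0, .ofNat 0, .ofNat 0⟩, ⟨.ofNat 354, .ofNat 319, .negSucc 0, .ofNat 0, .ofNat 0, .ofNat 0⟩, ⟨.negSucc 2923, .negSucc 142, .ofNat 1, .ofNat 1, .negSucc 0, .ofNat 1⟩, ⟨.ofNat 1, .negSucc 0, .ofNat 0, .ofNat 0, .ofNat 0, .ofNat 0⟩, .ofNat 183, .negSucc 5, .ofNat 0, .negSucc 5, .ofNat 243, .ofNat 0, .ofNat 157, .ofNat 6, .negSucc 119, .ofNat 0, .ofNat 128, .negSucc 3, .ofNat 0, .ofNat 0, .ofNat 327, .ofNat 4402, .ofNat 4569620594507929965329960140800000000, .ofNat 175754539725966008917112272812244992, .ofNat 32508628368904771835265024, .ofNat 0, .ofNat 13768137011145988031710477154254848, .ofNat 674876244598285669954583009427456, .ofNat 37528379568506420257095680, .ofNat 0, .ofNat 292455718048507517781117449011200000000,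 .ofNat 13795087141296458521927193521301749760, .ofNat 0, .ofNat 0, .ofNat 292455718048507517781117449011200000000, .ofNat 13795092230332560332328665164034342912, .ofNat 0, .ofNat 0⟩)
    (by decide +kernel)
theorem L00353 : Good (Phi V5.P V5.D 1 1) ⟨2, 1, 2, 0, 3, 4, 3, 0, 4, 0⟩ :=
  leafX_sound T5.ok_pp T5.Ypp.bz_eq (w := 216) (c := ⟨⟨.ofNat 1153, .ofNat 398, .negSucc 135, .ofNat 88, .ofNat 179, .negSucc 1547⟩, ⟨.negSucc 16, .ofNat 98, .ofNat 162, .ofNat 24, .ofNat 16, .negSucc 167⟩, ⟨.negSucc 769, .negSucc 298, .ofNat 214, .negSucc 238, .negSucc 159, .ofNat 442⟩, ⟨.ofNat 3074, .ofNat 429, .negSucc 294, .ofNat 272, .ofNat 427, .negSucc 3899⟩, ⟨.negSucc 205, .ofNat 129, .negSucc 123, .ofNat 343, .ofNat 310, .negSucc 640⟩, .ofNat 367, .negSucc 32, .ofNat 0, .negSucc 32, .ofNat 735, .ofNat 0, .ofNat 309, .ofNat 6, .negSucc 106, .ofNat 0, .ofNat 128, .ofNat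 9, .ofNat 0, .ofNat 0, .ofNat 405, .ofNat 6642, .ofNat 0, .ofNat 0, .ofNat 0, .ofNat 0, .ofNat 108860848483097875585681236876265903571861504, .ofNat 0, .ofNat 0, .ofNat 0, .ofNat 0, .ofNat 0, .ofNat 0, .ofNat 0, .ofNat 0, .ofNat 0, .ofNat 0, .ofNat 0⟩)
    (by decide +kernel)
theorem L00354 : Good (Phi V5.P V5.D 1 1) ⟨2, 1, 2, 0, 3, 5, 3, 0, 4, 0⟩ :=
  leafX_sound T5.ok_pp T5.Ypp.bz_eq (w := 216) (c := ⟨⟨.ofNat 1324, .ofNat 242, .negSucc 116, .ofNat 12, .ofNat 169, .negSucc 1590⟩, ⟨.ofNat 65, .ofNat 43, .ofNat 96, .ofNat 9, .ofNat 56, .negSucc 186⟩, ⟨.negSucc 968, .negSucc 409, .ofNat 232, .negSucc 382, .negSucc 61, .ofNat 265⟩, ⟨.ofNat 3501, .ofNat 188, .negSucc 367, .negSucc 21, .ofNat 422, .negSucc 3954⟩, ⟨.ofNat 362, .ofNat 232, .negSucc 309, .ofNat 859, .ofNat 234, .negSucc 991⟩, .ofNat 367, .negSucc 32, .ofNat 0, .negSucc 32, .ofNat 735, .ofNat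 0, .ofNat 232, .negSucc 16, .negSucc 76, .ofNat 0, .ofNat 128, .ofNat 4, .ofNat 0, .ofNat 0, .ofNat 270, .ofNat 5721, .ofNat 0, .ofNat 0, .ofNat 0, .ofNat 0, .ofNat 0, .ofNat 0, .ofNat 0, .ofNat 0, .ofNat 0, .ofNat 0, .ofNat 0, .ofNat 0, .ofNat 0, .ofNat 0, .ofNat 105064426876407978833095468131500462964736, .ofNat 0⟩)
    (by decide +kernel)
theorem L00355 : Good (Phi V5.P V5.D 1 1) ⟨2, 1, 2, 0, 2, 2, 3, 1, 4, 0⟩ :=
  leafX_sound T5.ok_pp T5.Ypp.bz_eq (w := 202) (c := ⟨⟨.ofNat 1303, .ofNat 419, .negSucc 108, .ofNat 162, .ofNat 47, .negSucc 1647⟩, ⟨.ofNat 19, .ofNat 44, .ofNat 162, .ofNat 71, .ofNat 27, .negSucc 208⟩, ⟨.negSucc 891, .negSucc 404, .ofNat 136, .negSucc 520, .ofNat 10, .ofNat 583⟩, ⟨.ofNat 3599, .ofNat 360, .negSucc 311, .ofNat 342, .ofNat 103, .negSucc 4101⟩, ⟨.ofNat 167, .ofNat 103, .negSucc 296, .ofNat 1287, .ofNat 262, .negSucc 1042⟩,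 .ofNat 367, .negSucc 28, .ofNat 0, .negSucc 28, .ofNat 721, .ofNat 0, .ofNat 272, .ofNat 11, .negSucc 112, .ofNat 0, .ofNat 128, .ofNat 8, .ofNat 0, .ofNat 0, .ofNat 273, .ofNat 2180, .ofNat 0, .ofNat 0, .ofNat 0, .ofNat 0, .ofNat 0, .ofNat 0, .ofNat 0, .ofNat 0, .ofNat 0, .ofNat 0, .ofNat 0, .ofNat 0, .ofNat 0, .ofNat 0, .ofNat 23124165339885525035421272651096653824, .ofNat 0⟩)
    (by decide +kernel)
theorem L00356 : Good (Phi V5.P V5.D 1 1) ⟨2, 1, 2, 0, 2, 2, 2, 0, 4, 1⟩ :=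
  leafX_sound T5.ok_pp T5.Ypp.bz_eq (w := 198) (c := ⟨⟨.negSucc 160, .negSucc 163, .negSucc 71, .ofNat 3, .ofNat 95, .negSucc 1017⟩, ⟨.ofNat 27, .negSucc 16, .negSucc 154, .ofNat 23, .ofNat 12, .negSucc 88⟩, ⟨.negSucc 503, .negSucc 204, .ofNat 228, .negSucc 734, .ofNat 389, .ofNat 691⟩, ⟨.negSucc 620, .negSucc 35, .negSucc 96, .negSucc 14, .ofNat 246, .negSucc 2477⟩, ⟨.negSucc 711, .ofNat 363, .negSucc 204, .ofNat 681, .ofNat 185, .negSucc 175⟩, .ofNat 517, .negSucc 109, .ofNat 0, .negSucc 109, .ofNat 1691, .ofNat 0, .ofNat 387, .ofNat 38, .negSucc 113, .ofNat 0, .ofNat 128, .ofNat 5, .ofNat 0, .ofNat 0, .ofNat 492, .ofNat 3699, .ofNat 1506098661007105131927703700942201290752, .ofNat 0, .ofNat 0, .ofNat 0, .ofNat 0, .ofNat 0, .ofNat 0, .ofNat 0, .ofNat 5040605927928365690145958673486192836608, .ofNat 0, .ofNat 0, .ofNat 0, .ofNat 0, .ofNat 0, .ofNat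 1940576777259870468243666076245688320, .ofNat 0⟩)
    (by decide +kernel)
theorem L00357 : Good (Phi V5.P V5.D 1 1) ⟨2, 1, 2, 0, 2, 2, 2, 1, 3, 0⟩ :=
  leafX_sound T5.ok_pp T5.Ypp.bz_eq (w := 192) (c := ⟨⟨.ofNat 1471, .ofNat 205, .negSucc 174, .ofNat 45, .negSucc 208, .negSucc 2683⟩, ⟨.ofNat 138, .negSucc 58, .ofNat 107, .negSucc 8, .ofNat 10, .negSucc 275⟩, ⟨.negSucc 1101, .negSucc 188, .ofNat 156, .negSucc 355, .ofNat 303, .ofNat 1534⟩, ⟨.ofNat 3553, .ofNat 266, .negSucc 319, .ofNat 257, .negSucc 372, .negSucc 6572⟩, ⟨.ofNat 642, .ofNat 141, .negSucc 402, .ofNat 669, .ofNat 157, .negSucc 1434⟩, .ofNat 514, .negSucc 97, .ofNat 0, .negSucc 97, .ofNat 1679, .ofNat 0, .ofNat 374, .ofNat 50, .negSucc 141, .ofNat 0, .ofNat 128, .ofNat 2, .ofNat 0, .ofNat 0, .ofNat 383, .ofNat 694, .ofNat 0, .ofNat 0, .ofNat 0, .ofNat 0, .ofNat 0, .ofNat 0, .ofNat 0, .ofNat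 0, .ofNat 0, .ofNat 0, .ofNat 0, .ofNat 0, .ofNat 0, .ofNat 0, .ofNat 100042317682850658573107713743519744, .ofNat 0⟩)
    (by decide +kernel)
theorem L00358 : Good (Phi V5.P V5.D 1 1) ⟨2, 1, 2, 0, 2, 3, 4, 0, 3, 0⟩ :=
  leafX_sound T5.ok_pp T5.Ypp.bz_eq (w := 201) (c := ⟨⟨.ofNat 1070, .negSucc 50, .negSucc 143, .negSucc 259, .ofNat 59, .negSucc 2247⟩, ⟨.ofNat 246, .negSucc 63, .negSucc 152, .ofNat 91, .negSucc 10, .negSucc 251⟩, ⟨.negSucc 1573, .negSucc 246, .ofNat 398, .ofNat 1293, .negSucc 42, .ofNat 630⟩, ⟨.ofNat 2750, .negSucc 125, .negSucc 596, .negSucc 935, .ofNat 23, .negSucc 5331⟩, ⟨.ofNat 1695, .ofNat 416, .negSucc 909, .ofNat 1760, .negSucc 42, .negSucc 1650⟩, .ofNat 516, .negSucc 107, .ofNat 0, .negSucc 107, .ofNat 1678, .ofNat 0, .ofNat 373, .ofNat 2, .negSucc 220, .ofNat 0, .ofNat 128, .negSucc 10, .ofNat 0, .ofNat 0, .ofNat 691, .ofNat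 5762, .ofNat 13706879683254321970287803932691356712960, .ofNat 0, .ofNat 0, .ofNat 0, .ofNat 0, .ofNat 0, .ofNat 24704312999446644697978614755343990784, .ofNat 0, .ofNat 0, .ofNat 0, .ofNat 0, .ofNat 0, .ofNat 0, .ofNat 0, .ofNat 0, .ofNat 0⟩)
    (by decide +kernel)
theorem L00359 : Good (Phi V5.P V5.D 1 1) ⟨2, 1, 2, 0, 2, 3, 4, 1, 3, 0⟩ :=
  leafX_sound T5.ok_pp T5.Ypp.bz_eq (w := 201) (c := ⟨⟨.ofNat 1266, .negSucc 220, .negSucc 102, .negSucc 319, .ofNat 69, .negSucc 2282⟩, ⟨.ofNat 210, .negSucc 72, .negSucc 99, .ofNat 156, .ofNat 33, .negSucc 274⟩, ⟨.negSucc 1477, .negSucc 219, .ofNat 228, .ofNat 1089, .negSucc 10, .ofNat 796⟩, ⟨.ofNat 3039, .negSucc 352, .negSucc 464, .negSucc 967, .ofNat 262, .negSucc 5600⟩, ⟨.ofNat 1669, .ofNat 449, .negSucc 706, .ofNat 1634, .ofNat 182, .negSucc 1834⟩, .ofNat 517, .negSucc 120, .ofNat 0, .negSucc 120, .ofNat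 1717, .ofNat 0, .ofNat 326, .ofNat 22, .negSucc 244, .ofNat 0, .ofNat 128, .negSucc 8, .ofNat 0, .ofNat 0, .ofNat 699, .ofNat 2261, .ofNat 0, .ofNat 0, .ofNat 0, .ofNat 0, .ofNat 0, .ofNat 0, .ofNat 20591847298882458051364405894015090688, .ofNat 0, .ofNat 0, .ofNat 0, .ofNat 0, .ofNat 0, .ofNat 0, .ofNat 0, .ofNat 0, .ofNat 0⟩)
    (by decide +kernel)
theorem L00360 : Good (Phi V5.P V5.D 1 1) ⟨2, 1, 2, 0, 2, 3, 3, 1, 3, 0⟩ :=
  leafX_sound T5.ok_pp T5.Ypp.bz_eq (w := 197) (c := ⟨⟨.ofNat 1521, .negSucc 97, .negSucc 58, .negSucc 285, .negSucc 152, .negSucc 2606⟩, ⟨.ofNat 308, .negSucc 111, .negSucc 100, .ofNat 66, .negSucc 17, .negSucc 281⟩, ⟨.negSucc 1591, .negSucc 271, .ofNat 159, .ofNat 851, .ofNat 154, .ofNat 1141⟩, ⟨.ofNat 3436, .negSucc 123, .negSucc 327, .negSucc 810, .negSucc 216, .negSucc 6155⟩, ⟨.ofNat 1830, .ofNat 211, .negSucc 463, .ofNat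 1816, .negSucc 176, .negSucc 2011⟩, .ofNat 514, .negSucc 104, .ofNat 0, .negSucc 104, .ofNat 1707, .ofNat 0, .ofNat 355, .ofNat 29, .negSucc 290, .ofNat 0, .ofNat 128, .negSucc 2, .ofNat 0, .ofNat 0, .ofNat 708, .ofNat 1465, .ofNat 0, .ofNat 0, .ofNat 0, .ofNat 0, .ofNat 0, .ofNat 0, .ofNat 0, .ofNat 0, .ofNat 0, .ofNat 0, .ofNat 0, .ofNat 0, .ofNat 0, .ofNat 0, .ofNat 0, .ofNat 0⟩)
    (by decide +kernel)
theorem L00361 : Good (Phi V5.P V5.D 1 1) ⟨2, 1, 2, 0, 2, 3, 2, 1, 3, 0⟩ :=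
  leafX_sound T5.ok_pp T5.Ypp.bz_eq (w := 193) (c := ⟨⟨.ofNat 1449, .negSucc 187, .negSucc 71, .negSucc 333, .negSucc 327, .negSucc 2537⟩, ⟨.ofNat 257, .negSucc 83, .negSucc 58, .negSucc 3, .negSucc 52, .negSucc 247⟩, ⟨.negSucc 1461, .negSucc 136, .ofNat 76, .ofNat 461, .ofNat 583, .ofNat 1373⟩, ⟨.ofNat 3624, .negSucc 520, .negSucc 461, .negSucc 1117, .negSucc 643, .negSucc 6063⟩, ⟨.ofNat 2030, .ofNat 34, .negSucc 446, .ofNat 1102, .negSucc 370, .negSucc 1994⟩, .ofNat 511, .negSucc 112, .ofNat 0, .negSucc 112, .ofNat 1733, .ofNat 0, .ofNat 390, .ofNat 64, .negSucc 282, .ofNat 0, .ofNat 128, .ofNat 2, .ofNat 0, .ofNat 0, .ofNat 560, .ofNat 663, .ofNat 0, .ofNat 0, .ofNat 0, .ofNat 0, .ofNat 0, .ofNat 0, .ofNat 0, .ofNat 0, .ofNat 0, .ofNat 0, .ofNat 0, .ofNat 0, .ofNat 0, .ofNat 0, .ofNat 0, .ofNat 0⟩)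
    (by decide +kernel)
theorem L00362 : Good (Phi V5.P V5.D 1 1) ⟨2, 1, 2, 0, 2, 2, 2, 0, 4, 2⟩ :=
  leafX_sound T5.ok_pp T5.Ypp.bz_eq (w := 198) (c := ⟨⟨.negSucc 1078, .negSucc 340, .ofNat 3, .negSucc 33, .negSucc 30, .negSucc 306⟩, ⟨.ofNat 48, .negSucc 57, .negSucc 288, .ofNat 17, .ofNat 2, .negSucc 49⟩, ⟨.negSucc 45, .negSucc 15, .ofNat 171, .negSucc 499, .ofNat 569, .ofNat 463⟩, ⟨.negSucc 3075, .negSucc 49, .ofNat 81, .negSucc 94, .negSucc 109, .negSucc 730⟩, ⟨.negSucc 582, .ofNat 473, .negSucc 211, .ofNat 339, .negSucc 5, .negSucc 88⟩, .ofNat 515, .negSucc 104, .ofNat 0, .negSucc 104, .ofNat 1698, .ofNat 0, .ofNat 340, .ofNat 34, .negSucc 104, .ofNat 0, .ofNat 128, .ofNat 8, .ofNat 0, .ofNat 0, .ofNat 523, .ofNat 5392, .ofNat 1251117746179284557312754080195484319744, .ofNat 0, .ofNat 0, .ofNat 0, .ofNat 0, .ofNat 0, .ofNat 0, .ofNat 0, .ofNat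 8470539983617784513492146932983867113472, .ofNat 0, .ofNat 0, .ofNat 0, .ofNat 6446157311072093418943030326843137851392, .ofNat 0, .ofNat 348557601873819063685897509591318528, .ofNat 0⟩)
    (by decide +kernel)
theorem L00363 : Good (Phi V5.P V5.D 1 1) ⟨2, 1, 2, 0, 2, 2, 2, 1, 4, 2⟩ :=
  leafX_sound T5.ok_pp T5.Ypp.bz_eq (w := 198) (c := ⟨⟨.negSucc 942, .negSucc 457, .negSucc 64, .negSucc 176, .negSucc 41, .negSucc 312⟩, ⟨.ofNat 70, .negSucc 91, .negSucc 301, .negSucc 0, .negSucc 4, .negSucc 20⟩, ⟨.ofNat 238, .ofNat 268, .ofNat 111, .negSucc 263, .ofNat 415, .ofNat 444⟩, ⟨.negSucc 2761, .negSucc 294, .negSucc 85, .negSucc 438, .negSucc 109, .negSucc 775⟩, ⟨.negSucc 392, .ofNat 164, .negSucc 122, .ofNat 240, .negSucc 67, .negSucc 83⟩, .ofNat 511, .negSucc 103, .ofNat 0, .negSucc 103, .ofNat 1712, .ofNat 0, .ofNat 347, .ofNat 44, .negSucc 145, .ofNat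 0, .ofNat 128, .ofNat 6, .ofNat 0, .ofNat 0, .ofNat 528, .ofNat 2825, .ofNat 0, .ofNat 0, .ofNat 0, .ofNat 0, .ofNat 0, .ofNat 0, .ofNat 0, .ofNat 0, .ofNat 0, .ofNat 0, .ofNat 0, .ofNat 0, .ofNat 0, .ofNat 0, .ofNat 0, .ofNat 0⟩)
    (by decide +kernel)
theorem L00364 : Good (Phi V5.P V5.D 1 1) ⟨2, 1, 2, 0, 3, 6, 3, 0, 4, 2⟩ :=
  leafX_sound T5.ok_pp T5.Ypp.bz_eq (w := 217) (c := ⟨⟨.negSucc 1134, .negSucc 287, .ofNat 43, .ofNat 63, .negSucc 78, .negSucc 280⟩, ⟨.ofNat 138, .negSucc 105, .negSucc 328, .ofNat 32, .negSucc 28, .negSucc 46⟩, ⟨.negSucc 536, .negSucc 98, .ofNat 176, .ofNat 143, .ofNat 294, .ofNat 510⟩, ⟨.negSucc 3118, .ofNat 2, .ofNat 84, .ofNat 60, .negSucc 231, .negSucc 676⟩, ⟨.ofNat 43, .ofNat 645, .negSucc 532, .ofNat 801, .negSucc 33, .negSucc 367⟩, .ofNat 364, .negSucc 34, .ofNat 0, .negSucc 34, .ofNat 735, .ofNat 0, .ofNat 243, .negSucc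 30, .negSucc 114, .ofNat 0, .ofNat 128, .ofNat 19, .ofNat 0, .ofNat 0, .ofNat 393, .ofNat 10434, .ofNat 76296198816730104470650996372751360341311488, .ofNat 0, .ofNat 0, .ofNat 0, .ofNat 0, .ofNat 0, .ofNat 0, .ofNat 0, .ofNat 263471641150579843875669400938040870528090112, .ofNat 0, .ofNat 0, .ofNat 0, .ofNat 0, .ofNat 0, .ofNat 0, .ofNat 0⟩)
    (by decide +kernel)
theorem L00365 : Good (Phi V5.P V5.D 1 1) ⟨2, 1, 2, 0, 3, 6, 3, 1, 4, 2⟩ :=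
  leafX_sound T5.ok_pp T5.Ypp.bz_eq (w := 217) (c := ⟨⟨.negSucc 1158, .negSucc 368, .ofNat 46, .ofNat 26, .negSucc 101, .negSucc 271⟩, ⟨.ofNat 94, .negSucc 77, .negSucc 341, .ofNat 48, .negSucc 16, .negSucc 37⟩, ⟨.negSucc 250, .ofNat 82, .ofNat 101, .ofNat 42, .ofNat 275, .ofNat 521⟩, ⟨.negSucc 3242, .negSucc 126, .ofNat 77, .ofNat 13, .negSucc 224, .negSucc 663⟩, ⟨.ofNat 64, .ofNat 561, .negSucc 451, .ofNat 608, .negSucc 85, .negSucc 307⟩, .ofNat 517, .negSucc 88, .ofNat 0, .negSucc 88, .ofNat 1647, .ofNat 0, .ofNat 433, .ofNat 9, .negSucc 124, .ofNat 0, .ofNat 128, .ofNat 8, .ofNat 0, .ofNat 0, .ofNat 485, .ofNat 7644, .ofNat 0, .ofNat 0, .ofNat 0, .ofNat 0, .ofNat 0, .ofNat 0, .ofNat 0, .ofNat 0, .ofNat 0, .ofNat 0, .ofNat 0, .ofNat 0, .ofNat 0, .ofNat 0, .ofNat 0, .ofNat 0⟩)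
    (by decide +kernel)
theorem L00366 : Good (Phi V5.P V5.D 1 1) ⟨2, 1, 2, 0, 3, 7, 2, 0, 4, 2⟩ :=
  leafX_sound T5.ok_pp T5.Ypp.bz_eq (w := 212) (c := ⟨⟨.negSucc 1164, .negSucc 249, .ofNat 102, .ofNat 158, .negSucc 228, .negSucc 217⟩, ⟨.ofNat 193, .negSucc 122, .negSucc 371, .ofNat 49, .negSucc 31, .negSucc 34⟩, ⟨.negSucc 200, .ofNat 60, .ofNat 97, .ofNat 109, .ofNat 361, .ofNat 356⟩, ⟨.negSucc 3193, .ofNat 26, .ofNat 97, .ofNat 325, .negSucc 545, .negSucc 519⟩, ⟨.ofNat 1022, .ofNat 784, .negSucc 791, .ofNat 750, .negSucc 215, .negSucc 521⟩, .ofNat 515, .negSucc 90, .ofNat 0, .negSucc 90, .ofNat 1674, .ofNat 0, .ofNat 441, .negSucc 4, .negSucc 131, .ofNat 0, .ofNat 128, .ofNat 3, .ofNat 0, .ofNat 0, .ofNat 526, .ofNat 4959, .ofNat 0, .ofNat 0, .ofNat 0, .ofNat 0, .ofNat 0, .ofNat 0, .ofNat 0, .ofNat 0, .ofNat 0, .ofNat 0, .ofNat 0, .ofNat 0, .ofNat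 16959768298858327868212356713693608018968576, .ofNat 0, .ofNat 0, .ofNat 0⟩)
    (by decide +kernel)
theorem L00367 : Good (Phi V5.P V5.D 1 1) ⟨2, 1, 2, 0, 2, 3, 2, 1, 4, 2⟩ :=
  leafX_sound T5.ok_pp T5.Ypp.bz_eq (w := 198) (c := ⟨⟨.negSucc 1194, .negSucc 504, .negSucc 15, .ofNat 25, .negSucc 214, .negSucc 217⟩, ⟨.ofNat 85, .negSucc 105, .negSucc 368, .ofNat 69, .negSucc 25, .negSucc 6⟩, ⟨.ofNat 13, .ofNat 253, .ofNat 84, .ofNat 75, .ofNat 527, .ofNat 433⟩, ⟨.negSucc 3314, .negSucc 390, .negSucc 89, .negSucc 29, .negSucc 510, .negSucc 587⟩, ⟨.negSucc 76, .ofNat 617, .negSucc 416, .ofNat 1269, .negSucc 171, .negSucc 299⟩, .ofNat 510, .negSucc 67, .ofNat 0, .negSucc 67, .ofNat 1643, .ofNat 0, .ofNat 465, .ofNat 14, .negSucc 126, .ofNat 0, .ofNat 128, .ofNat 8, .ofNat 0, .ofNat 0, .ofNat 389, .ofNat 1926, .ofNat 0, .ofNat 0, .ofNat 0, .ofNat 0, .ofNat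 0, .ofNat 0, .ofNat 0, .ofNat 0, .ofNat 0, .ofNat 0, .ofNat 0, .ofNat 0, .ofNat 0, .ofNat 0, .ofNat 3382056011363125889791744676953325568, .ofNat 0⟩)
    (by decide +kernel)
theorem L00368 : Good (Phi V5.P V5.D 1 1) ⟨2, 1, 2, 0, 2, 2, 2, 0, 4, 3⟩ :=
  leafX_sound T5.ok_pp T5.Ypp.bz_eq (w := 198) (c := ⟨⟨.negSucc 1345, .negSucc 375, .negSucc 15, .negSucc 39, .negSucc 69, .ofNat 35⟩, ⟨.ofNat 55, .negSucc 76, .negSucc 319, .negSucc 1, .negSucc 23, .ofNat 8⟩, ⟨.ofNat 380, .ofNat 122, .ofNat 98, .negSucc 368, .ofNat 470, .ofNat 230⟩, ⟨.negSucc 3785, .negSucc 56, .ofNat 48, .negSucc 109, .negSucc 147, .ofNat 77⟩, ⟨.negSucc 434, .ofNat 232, .negSucc 67, .ofNat 119, .negSucc 18, .negSucc 77⟩, .ofNat 518, .negSucc 106, .ofNat 0, .negSucc 106, .ofNat 1730, .ofNat 0, .ofNat 278, .ofNat 35, .negSucc 56, .ofNat 0, .ofNat 128, .ofNat 7, .ofNat 0, .ofNat 0, .ofNat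 439, .ofNat 4802, .ofNat 857853060517196353921376786253877346304, .ofNat 0, .ofNat 0, .ofNat 0, .ofNat 0, .ofNat 0, .ofNat 0, .ofNat 0, .ofNat 0, .ofNat 0, .ofNat 0, .ofNat 0, .ofNat 7317824323987033473879357255555523543040, .ofNat 0, .ofNat 0, .ofNat 0⟩)
    (by decide +kernel)
theorem L00369 : Good (Phi V5.P V5.D 1 1) ⟨2, 1, 2, 0, 2, 3, 2, 0, 4, 3⟩ :=
  leafX_sound T5.ok_pp T5.Ypp.bz_eq (w := 198) (c := ⟨⟨.negSucc 1385, .negSucc 321, .ofNat 52, .ofNat 189, .negSucc 161, .ofNat 16⟩, ⟨.ofNat 89, .negSucc 92, .negSucc 327, .ofNat 47, .negSucc 32, .negSucc 14⟩, ⟨.ofNat 95, .ofNat 46, .ofNat 80, .ofNat 60, .ofNat 442, .ofNat 241⟩, ⟨.negSucc 3853, .ofNat 18, .ofNat 120, .ofNat 388, .negSucc 342, .ofNat 45⟩, ⟨.negSucc 174, .ofNat 527, .negSucc 360, .ofNat 985, .negSucc 67, .negSucc 175⟩, .ofNat 519, .negSucc 103, .ofNat 0, .negSucc 103, .ofNat 1651, .ofNat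 0, .ofNat 265, .ofNat 13, .negSucc 47, .ofNat 0, .ofNat 128, .ofNat 4, .ofNat 0, .ofNat 0, .ofNat 325, .ofNat 2867, .ofNat 491832943883054612284837108110426374144, .ofNat 0, .ofNat 0, .ofNat 0, .ofNat 0, .ofNat 0, .ofNat 0, .ofNat 0, .ofNat 0, .ofNat 0, .ofNat 0, .ofNat 0, .ofNat 3523088202712975002473526618378588913664, .ofNat 0, .ofNat 1396925662007007302985555729490903040, .ofNat 0⟩)
    (by decide +kernel)
theorem L00370 : Good (Phi V5.P V5.D 1 1) ⟨2, 1, 2, 0, 1, 1, 2, 1, 4, 3⟩ :=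
  leafX_sound T5.ok_pp T5.Ypp.bz_eq (w := 183) (c := ⟨⟨.negSucc 1445, .negSucc 388, .negSucc 7, .negSucc 58, .negSucc 60, .ofNat 100⟩, ⟨.ofNat 27, .negSucc 88, .negSucc 323, .ofNat 33, .negSucc 0, .ofNat 22⟩, ⟨.ofNat 649, .ofNat 231, .ofNat 47, .negSucc 194, .ofNat 413, .ofNat 233⟩, ⟨.negSucc 3945, .negSucc 88, .ofNat 12, .negSucc 232, .negSucc 144, .ofNat 182⟩, ⟨.negSucc 715, .ofNat 343, .negSucc 132, .ofNat 928, .ofNat 113, .ofNat 89⟩, .ofNat 517, .negSucc 100, .ofNat 0, .negSucc 100, .ofNat 1664, .ofNat 0, .ofNat 187, .ofNat 32, .negSucc 38, .ofNat 0, .ofNat 128, .ofNat 3, .ofNat 0, .ofNat 0, .ofNat 225, .ofNat 785, .ofNat 0, .ofNat 0, .ofNat 0, .ofNat 0, .ofNat 0, .ofNat 0, .ofNat 188094353620423624557651732463616, .ofNat 0, .ofNat 0, .ofNat 0, .ofNat 0, .ofNat 0, .ofNat 0, .ofNat 0, .ofNat 79814493260293625038107272282112, .ofNat 0⟩)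
    (by decide +kernel)
theorem L00371 : Good (Phi V5.P V5.D 1 1) ⟨2, 1, 2, 0, 2, 2, 2, 0, 4, 4⟩ :=
  leafX_sound T5.ok_pp T5.Ypp.bz_eq (w := 198) (c := ⟨⟨.negSucc 1298, .negSucc 357, .negSucc 1, .negSucc 37, .negSucc 93, .ofNat 96⟩, ⟨.ofNat 34, .negSucc 70, .negSucc 290, .ofNat 0, .negSucc 0, .negSucc 6⟩, ⟨.ofNat 689, .ofNat 133, .ofNat 47, .negSucc 320, .ofNat 368, .ofNat 131⟩, ⟨.negSucc 3680, .negSucc 36, .ofNat 53, .negSucc 82, .negSucc 201, .ofNat 260⟩, ⟨.negSucc 499, .ofNat 195, .negSucc 52, .ofNat 97, .ofNat 33, .negSucc 68⟩, .ofNat 366, .negSucc 32, .ofNat 0, .negSucc 32, .ofNat 726, .ofNat 0, .ofNat 137, .ofNat 10, .negSucc 28, .ofNat 0, .ofNat 128, .ofNat 8, .ofNat 0, .ofNat 0, .ofNat 247, .ofNat 4839, .ofNat 1135145365802274386128036465398677241856, .ofNat 0, .ofNat 0, .ofNat 0, .ofNat 0, .ofNat 0, .ofNat 0, .ofNat 0, .ofNat 0, .ofNat 0,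 .ofNat 0, .ofNat 0, .ofNat 4528607686135625505849773081107225378816, .ofNat 0, .ofNat 0, .ofNat 0⟩)
    (by decide +kernel)
theorem L00372 : Good (Phi V5.P V5.D 1 1) ⟨2, 1, 2, 0, 2, 3, 2, 0, 4, 4⟩ :=
  leafX_sound T5.ok_pp T5.Ypp.bz_eq (w := 197) (c := ⟨⟨.negSucc 1388, .negSucc 271, .ofNat 36, .ofNat 195, .negSucc 165, .ofNat 140⟩, ⟨.ofNat 56, .negSucc 77, .negSucc 316, .ofNat 53, .negSucc 28, .ofNat 24⟩, ⟨.ofNat 350, .ofNat 49, .ofNat 22, .ofNat 74, .ofNat 426, .ofNat 170⟩, ⟨.negSucc 3761, .ofNat 64, .ofNat 105, .ofNat 367, .negSucc 408, .ofNat 349⟩, ⟨.negSucc 485, .ofNat 541, .negSucc 303, .ofNat 915, .negSucc 39, .negSucc 40⟩, .ofNat 367, .negSucc 35, .ofNat 0, .negSucc 35, .ofNat 728, .ofNat 0, .ofNat 162, .negSucc 3, .negSucc 19, .ofNat 0, .ofNat 128, .ofNat 6, .ofNat 0, .ofNat 0, .ofNat 242, .ofNat 1458, .ofNat 223211356056123257825327300383495684096,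 .ofNat 0, .ofNat 0, .ofNat 0, .ofNat 0, .ofNat 0, .ofNat 0, .ofNat 0, .ofNat 0, .ofNat 0, .ofNat 0, .ofNat 0, .ofNat 0, .ofNat 17672072907998543139852450691935109120, .ofNat 0, .ofNat 0⟩)
    (by decide +kernel)
theorem L00373 : Good (Phi V5.P V5.D 1 1) ⟨2, 1, 2, 0, 2, 2, 2, 1, 4, 4⟩ :=
  leafX_sound T5.ok_pp T5.Ypp.bz_eq (w := 199) (c := ⟨⟨.negSucc 1370, .negSucc 382, .negSucc 18, .negSucc 52, .negSucc 29, .ofNat 107⟩, ⟨.ofNat 39, .negSucc 75, .negSucc 306, .negSucc 0, .ofNat 0, .ofNat 4⟩, ⟨.ofNat 984, .ofNat 215, .ofNat 39, .negSucc 219, .ofNat 270, .ofNat 92⟩, ⟨.negSucc 3832, .negSucc 91, .ofNat 36, .negSucc 125, .negSucc 75, .ofNat 269⟩, ⟨.negSucc 394, .ofNat 85, .negSucc 71, .ofNat 37, .negSucc 19, .ofNat 3⟩, .ofNat 519, .negSucc 120, .ofNat 0, .negSucc 120, .ofNat 1697, .ofNat 0, .ofNat 358, .ofNat 44, .negSucc 94, .ofNat 0, .ofNat 128, .ofNat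 6, .ofNat 0, .ofNat 0, .ofNat 872, .ofNat 5938, .ofNat 1370051870016377269577030933336679251968, .ofNat 0, .ofNat 0, .ofNat 0, .ofNat 0, .ofNat 0, .ofNat 0, .ofNat 0, .ofNat 0, .ofNat 0, .ofNat 0, .ofNat 0, .ofNat 0, .ofNat 0, .ofNat 0, .ofNat 0⟩)
    (by decide +kernel)
theorem L00374 : Good (Phi V5.P V5.D 1 1) ⟨2, 1, 2, 0, 2, 3, 2, 1, 4, 4⟩ :=
  leafX_sound T5.ok_pp T5.Ypp.bz_eq (w := 197) (c := ⟨⟨.negSucc 1456, .negSucc 373, .ofNat 28, .ofNat 112, .negSucc 133, .ofNat 152⟩, ⟨.ofNat 48, .negSucc 86, .negSucc 331, .ofNat 64, .negSucc 5, .ofNat 5⟩, ⟨.ofNat 744, .ofNat 193, .negSucc 10, .ofNat 53, .ofNat 433, .ofNat 117⟩, ⟨.negSucc 3995, .negSucc 89, .ofNat 101, .ofNat 183, .negSucc 320, .ofNat 366⟩, ⟨.negSucc 372, .ofNat 284, .negSucc 214, .ofNat 906, .negSucc 21, .negSucc 73⟩, .ofNat 518, .negSucc 112, .ofNat 0, .negSucc 112, .ofNat 1682, .ofNat 0,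 .ofNat 293, .ofNat 28, .negSucc 29, .ofNat 0, .ofNat 128, .ofNat 3, .ofNat 0, .ofNat 0, .ofNat 433, .ofNat 707, .ofNat 0, .ofNat 0, .ofNat 0, .ofNat 0, .ofNat 0, .ofNat 0, .ofNat 0, .ofNat 0, .ofNat 0, .ofNat 0, .ofNat 0, .ofNat 0, .ofNat 0, .ofNat 202024966116863728815751944133675057152, .ofNat 0, .ofNat 0⟩)
    (by decide +kernel)
theorem L00375 : Good (Phi V5.P V5.D 1 1) ⟨2, 1, 2, 0, 2, 2, 2, 0, 4, 5⟩ :=
  leafX_sound T5.ok_pp T5.Ypp.bz_eq (w := 201) (c := ⟨⟨.negSucc 1286, .negSucc 329, .ofNat 1, .ofNat 31, .negSucc 59, .ofNat 124⟩, ⟨.ofNat 16, .negSucc 67, .negSucc 282, .ofNat 22, .negSucc 1, .ofNat 5⟩, ⟨.ofNat 774, .ofNat 78, .ofNat 19, .negSucc 195, .ofNat 356, .ofNat 110⟩, ⟨.negSucc 3576, .negSucc 25, .ofNat 81, .ofNat 62, .negSucc 156, .ofNat 321⟩, ⟨.negSucc 577, .ofNat 174, .negSucc 117, .ofNat 165, .ofNat 37, .ofNat 3⟩, .ofNat 367, .negSucc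 32, .ofNat 0, .negSucc 32, .ofNat 723, .ofNat 0, .ofNat 155, .ofNat 8, .negSucc 20, .ofNat 0, .ofNat 128, .ofNat 7, .ofNat 0, .ofNat 0, .ofNat 353, .ofNat 29744, .ofNat 10239606215251900008483777851025738694656, .ofNat 0, .ofNat 0, .ofNat 0, .ofNat 24858382234032442085391025295746511405056, .ofNat 0, .ofNat 0, .ofNat 0, .ofNat 22937044713889570097245117033980740239360, .ofNat 0, .ofNat 0, .ofNat 0, .ofNat 19277838717855139570556754866599559692288, .ofNat 0, .ofNat 94271685413052390316192204536676352, .ofNat 0⟩)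
    (by decide +kernel)
theorem L00376 : Good (Phi V5.P V5.D 1 1) ⟨2, 1, 2, 0, 2, 3, 2, 0, 4, 5⟩ :=
  leafX_sound T5.ok_pp T5.Ypp.bz_eq (w := 196) (c := ⟨⟨.negSucc 1244, .negSucc 314, .ofNat 12, .ofNat 102, .negSucc 84, .ofNat 120⟩, ⟨.ofNat 43, .negSucc 75, .negSucc 280, .ofNat 13, .negSucc 0, .ofNat 4⟩, ⟨.ofNat 585, .ofNat 4, .ofNat 18, .negSucc 29, .ofNat 371, .ofNat 132⟩, ⟨.negSucc 3454, .negSucc 4, .ofNat 97, .ofNat 255, .negSucc 244, .ofNat 320⟩, ⟨.negSucc 439, .ofNat 288, .negSucc 179, .ofNat 465, .ofNat 39, .negSucc 16⟩, .ofNat 367, .negSucc 32, .ofNat 0, .negSucc 32, .ofNat 720, .ofNat 0, .ofNat 136, .ofNat 3, .negSucc 12, .ofNat 0, .ofNat 128, .ofNat 7, .ofNat 0, .ofNat 0, .ofNat 370, .ofNat 1042, .ofNat 370925663479457667433603886414483685376, .ofNat 0, .ofNat 0, .ofNat 0, .ofNat 0, .ofNat 0, .ofNat 0, .ofNat 0, .ofNat 0, .ofNat 0, .ofNat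 0, .ofNat 0, .ofNat 5780337160449695815868208337832753758208, .ofNat 249365233605700280442832609211939028992, .ofNat 0, .ofNat 0⟩)
    (by decide +kernel)
theorem L00377 : Good (Phi V5.P V5.D 1 1) ⟨2, 1, 2, 0, 2, 2, 3, 2, 4, 5⟩ :=
  leafX_sound T5.ok_pp T5.Ypp.bz_eq (w := 203) (c := ⟨⟨.negSucc 1295, .negSucc 347, .negSucc 10, .negSucc 19, .negSucc 33, .ofNat 128⟩, ⟨.ofNat 14, .negSucc 77, .negSucc 272, .ofNat 5, .ofNat 8, .ofNat 17⟩, ⟨.ofNat 1111, .ofNat 159, .negSucc 13, .negSucc 191, .ofNat 171, .ofNat 59⟩, ⟨.negSucc 3609, .negSucc 47, .ofNat 56, .negSucc 52, .negSucc 79, .ofNat 298⟩, ⟨.negSucc 438, .ofNat 112, .negSucc 42, .ofNat 30, .ofNat 11, .negSucc 17⟩, .ofNat 183, .negSucc 5, .ofNat 0, .negSucc 5, .ofNat 243, .ofNat 0, .ofNat 208, .negSucc 3, .negSucc 41, .ofNat 0, .ofNat 128, .ofNat 20, .ofNat 0, .ofNat 0, .ofNat 355, .ofNat 5505, .ofNat 13514503890538548232287218918197718679552,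 .ofNat 0, .ofNat 0, .ofNat 0, .ofNat 0, .ofNat 0, .ofNat 0, .ofNat 0, .ofNat 0, .ofNat 0, .ofNat 0, .ofNat 0, .ofNat 0, .ofNat 0, .ofNat 0, .ofNat 0⟩)
    (by decide +kernel)
theorem L00378 : Good (Phi V5.P V5.D 1 1) ⟨2, 1, 2, 0, 2, 2, 3, 3, 4, 5⟩ :=
  leafX_sound T5.ok_pp T5.Ypp.bz_eq (w := 203) (c := ⟨⟨.negSucc 1292, .negSucc 355, .negSucc 16, .negSucc 53, .negSucc 13, .ofNat 106⟩, ⟨.ofNat 37, .negSucc 71, .negSucc 287, .negSucc 15, .negSucc 1, .ofNat 8⟩, ⟨.ofNat 1198, .ofNat 256, .negSucc 45, .negSucc 83, .ofNat 90, .ofNat 43⟩, ⟨.negSucc 3610, .negSucc 89, .ofNat 41, .negSucc 112, .negSucc 35, .ofNat 263⟩, ⟨.negSucc 390, .ofNat 34, .negSucc 28, .negSucc 20, .negSucc 8, .ofNat 30⟩, .ofNat 367, .negSucc 27, .ofNat 0, .negSucc 27, .ofNat 715, .ofNat 0, .ofNat 250, .ofNat 12, .negSucc 43, .ofNat 0, .ofNat 128, .ofNat 7, .ofNat 0, .ofNat 0, .ofNat 672,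 .ofNat 6440, .ofNat 0, .ofNat 0, .ofNat 0, .ofNat 0, .ofNat 0, .ofNat 0, .ofNat 0, .ofNat 0, .ofNat 0, .ofNat 0, .ofNat 0, .ofNat 0, .ofNat 0, .ofNat 2200363762557822069119462464142404747264, .ofNat 0, .ofNat 0⟩)
    (by decide +kernel)
theorem L00379 : Good (Phi V5.P V5.D 1 1) ⟨2, 1, 2, 0, 2, 3, 2, 1, 4, 5⟩ :=
  leafX_sound T5.ok_pp T5.Ypp.bz_eq (w := 196) (c := ⟨⟨.negSucc 1326, .negSucc 336, .ofNat 8, .ofNat 95, .negSucc 86, .ofNat 137⟩, ⟨.ofNat 23, .negSucc 61, .negSucc 284, .ofNat 45, .negSucc 9, .ofNat 14⟩, ⟨.ofNat 948, .ofNat 127, .negSucc 17, .negSucc 45, .ofNat 386, .ofNat 88⟩, ⟨.negSucc 3648, .negSucc 69, .ofNat 78, .ofNat 208, .negSucc 189, .ofNat 307⟩, ⟨.negSucc 299, .ofNat 114, .negSucc 79, .ofNat 380, .negSucc 150, .negSucc 0⟩, .ofNat 617, .negSucc 227, .ofNat 0, .negSucc 227, .ofNat 2986, .ofNat 0, .ofNat 235, .ofNat 49, .negSucc 8, .ofNat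 0, .ofNat 128, .ofNat 1, .ofNat 0, .ofNat 0, .ofNat 449, .ofNat 649, .ofNat 0, .ofNat 0, .ofNat 0, .ofNat 0, .ofNat 0, .ofNat 0, .ofNat 0, .ofNat 0, .ofNat 0, .ofNat 0, .ofNat 0, .ofNat 0, .ofNat 0, .ofNat 451284666973866512623635577109408120832, .ofNat 0, .ofNat 0⟩)
    (by decide +kernel)
theorem L00380 : Good (Phi V5.P V5.D 1 1) ⟨2, 1, 2, 0, 2, 2, 1, 0, 3, 3⟩ :=
  leafX_sound T5.ok_pp T5.Ypp.bz_eq (w := 189) (c := ⟨⟨.negSucc 1077, .negSucc 345, .negSucc 12, .negSucc 26, .negSucc 143, .ofNat 205⟩, ⟨.ofNat 45, .negSucc 74, .negSucc 261, .negSucc 3, .negSucc 12, .ofNat 17⟩, ⟨.ofNat 832, .ofNat 198, .negSucc 120, .ofNat 8, .ofNat 554, .ofNat 107⟩, ⟨.negSucc 3089, .negSucc 88, .ofNat 34, .negSucc 59, .negSucc 324, .ofNat 524⟩, ⟨.negSucc 213, .negSucc 1, .negSucc 39, .negSucc 44, .negSucc 154, .ofNat 39⟩, .ofNat 365, .negSucc 36, .ofNat 0, .negSucc 36,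 .ofNat 735, .ofNat 0, .ofNat 128, .ofNat 17, .negSucc 22, .ofNat 0, .ofNat 128, .ofNat 2, .ofNat 0, .ofNat 0, .ofNat 770, .ofNat 1716, .ofNat 17182032901305308029907114310770884608, .ofNat 0, .ofNat 0, .ofNat 0, .ofNat 69160256034076950067542336586165256192, .ofNat 7598386810659292639861235858335072256, .ofNat 0, .ofNat 0, .ofNat 0, .ofNat 0, .ofNat 0, .ofNat 0, .ofNat 542936827606782578490321498459315634176, .ofNat 39306958205260937979379168363910529024, .ofNat 0, .ofNat 0⟩)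
    (by decide +kernel)
theorem L00381 : Good (Phi V5.P V5.D 1 1) ⟨2, 1, 2, 0, 2, 3, 1, 0, 3, 3⟩ :=
  leafX_sound T5.ok_pp T5.Ypp.bz_eq (w := 187) (c := ⟨⟨.negSucc 1122, .negSucc 307, .negSucc 0, .ofNat 6, .negSucc 145, .ofNat 1⟩, ⟨.ofNat 86, .negSucc 61, .negSucc 272, .negSucc 67, .negSucc 93, .ofNat 0⟩, ⟨.ofNat 761, .ofNat 27, .negSucc 69, .negSucc 87, .ofNat 725, .negSucc 0⟩, ⟨.negSucc 3189, .negSucc 39, .ofNat 87, .ofNat 175, .negSucc 304, .ofNat 2⟩, ⟨.negSucc 333, .ofNat 144, .negSucc 112, .ofNat 166, .negSucc 43, .ofNat 0⟩, .ofNat 183, .negSucc 5, .ofNat 0, .negSucc 5, .ofNat 243, .ofNat 0, .ofNat 139, .negSucc 8, .negSucc 4, .ofNat 0, .ofNat 128, .ofNat 9, .ofNat 0, .ofNat 0, .ofNat 287, .ofNat 985, .ofNat 0, .ofNat 0, .ofNat 0, .ofNat 0, .ofNat 49334862556256886338158917037487816704, .ofNat 17002254018078077237150252572665184256, .ofNat 225274205391048021637001994305536,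 .ofNat 0, .ofNat 111012009355614933807540939366355435520, .ofNat 24677955666611305388180743830911320064, .ofNat 0, .ofNat 0, .ofNat 103307294331511976030922340764154331136, .ofNat 17960414446623168385935441595008548864, .ofNat 0, .ofNat 0⟩)
    (by decide +kernel)
theorem L00382 : Good (Phi V5.P V5.D 1 1) ⟨2, 1, 2, 0, 3, 4, 1, 0, 3, 4⟩ :=
  out_sound (S := T5.ds_pp) T5.ok_pp (w := 23) (j := 1) (by decide +kernel)
theorem L00383 : Good (Phi V5.P V5.D 1 1) ⟨2, 1, 2, 0, 3, 5, 1, 0, 3, 4⟩ :=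
  out_sound (S := T5.ds_pp) T5.ok_pp (w := 28) (j := 2) (by decide +kernel)
theorem L00384 : Good (Phi V5.P V5.D 1 1) ⟨2, 1, 2, 0, 2, 2, 1, 0, 3, 5⟩ :=
  out_sound (S := T5.ds_pp) T5.ok_pp (w := 21) (j := 1) (by decide +kernel)
theorem L00385 : Good (Phi V5.P V5.D 1 1) ⟨2, 1, 2, 0, 2, 2, 1, 0, 2, 3⟩ :=
  out_sound (S := T5.ds_pp) T5.ok_pp (w := 19) (j := 1) (by decide +kernel)
theorem L00386 : Good (Phi V5.P V5.D 1 1) ⟨2, 1, 2, 0, 2, 3, 1, 0, 1, 1⟩ :=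
  out_sound (S := T5.ds_pp) T5.ok_pp (w := 22) (j := 2) (by decide +kernel)
theorem L00387 : Good (Phi V5.P V5.D 1 1) ⟨3, 2, 3, 2, 2, 2, 3, 0, 4, 0⟩ :=
  leafX_sound T5.ok_pp T5.Ypp.bz_eq (w := 210) (c := ⟨⟨.ofNat 1070, .ofNat 95, .negSucc 105, .ofNat 73, .ofNat 196, .negSucc 1495⟩, ⟨.ofNat 200, .ofNat 10, .ofNat 33, .ofNat 57, .ofNat 53, .negSucc 351⟩, ⟨.negSucc 480, .negSucc 183, .ofNat 141, .negSucc 588, .negSucc 138, .ofNat 380⟩, ⟨.ofNat 2947, .ofNat 76, .negSucc 244, .ofNat 39, .ofNat 469, .negSucc 3818⟩, ⟨.negSucc 266, .ofNat 57, .negSucc 189, .ofNat 812, .ofNat 269, .negSucc 699⟩, .ofNat 583, .negSucc 295, .ofNat 0, .negSucc 295, .ofNat 1794, .ofNat 0, .ofNat 328, .ofNat 125, .negSucc 92, .ofNat 0, .ofNat 128, .negSucc 11, .ofNat 0, .ofNat 0, .ofNat 495, .ofNat 13781, .ofNat 0, .ofNat 0, .ofNat 0, .ofNat 0, .ofNat 0, .ofNat 0, .ofNat 0, .ofNat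 0, .ofNat 0, .ofNat 0, .ofNat 104754025490244595879998397626728841216, .ofNat 0, .ofNat 0, .ofNat 0, .ofNat 75036021727306881526071081890780020736, .ofNat 0⟩)
    (by decide +kernel)
theorem L00388 : Good (Phi V5.P V5.D 1 1) ⟨3, 2, 3, 2, 2, 2, 3, 1, 4, 0⟩ :=
  leafX_sound T5.ok_pp T5.Ypp.bz_eq (w := 210) (c := ⟨⟨.ofNat 1243, .ofNat 165, .negSucc 70, .ofNat 112, .ofNat 81, .negSucc 1614⟩, ⟨.ofNat 260, .negSucc 2, .ofNat 69, .ofNat 61, .ofNat 24, .negSucc 371⟩, ⟨.negSucc 737, .negSucc 168, .ofNat 111, .negSucc 485, .negSucc 82, .ofNat 606⟩, ⟨.ofNat 3367, .ofNat 167, .negSucc 149, .ofNat 81, .ofNat 168, .negSucc 4012⟩, ⟨.ofNat 14, .ofNat 84, .negSucc 214, .ofNat 1107, .ofNat 240, .negSucc 1004⟩, .ofNat 580, .negSucc 291, .ofNat 0, .negSucc 291, .ofNat 1798, .ofNat 0, .ofNat 289, .ofNat 128, .negSucc 106, .ofNat 0, .ofNat 127, .negSucc 12, .ofNat 0, .ofNat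 0, .ofNat 384, .ofNat 5775, .ofNat 0, .ofNat 0, .ofNat 0, .ofNat 0, .ofNat 0, .ofNat 0, .ofNat 0, .ofNat 0, .ofNat 0, .ofNat 0, .ofNat 88781666370977855408981684093844455424, .ofNat 0, .ofNat 0, .ofNat 0, .ofNat 43271106129346610928755040285800529920, .ofNat 0⟩)
    (by decide +kernel)
theorem L00389 : Good (Phi V5.P V5.D 1 1) ⟨3, 2, 3, 2, 2, 2, 2, 0, 4, 1⟩ :=
  leafX_sound T5.ok_pp T5.Ypp.bz_eq (w := 205) (c := ⟨⟨.negSucc 337, .negSucc 70, .negSucc 15, .ofNat 53, .ofNat 94, .negSucc 889⟩, ⟨.negSucc 88, .ofNat 20, .negSucc 91, .ofNat 27, .ofNat 25, .negSucc 196⟩, ⟨.negSucc 213, .negSucc 92, .ofNat 241, .negSucc 677, .ofNat 236, .ofNat 555⟩, ⟨.negSucc 863, .ofNat 7, .ofNat 18, .ofNat 73, .ofNat 196, .negSucc 2299⟩, ⟨.negSucc 723, .ofNat 129, .negSucc 89, .ofNat 377, .ofNat 188, .negSucc 153⟩, .ofNat 744, .negSucc 645, .ofNat 0, .negSucc 645, .ofNat 3501,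 .ofNat 0, .ofNat 316, .ofNat 128, .negSucc 112, .ofNat 0, .ofNat 93, .negSucc 12, .ofNat 0, .ofNat 0, .ofNat 583, .ofNat 4357, .ofNat 0, .ofNat 0, .ofNat 0, .ofNat 0, .ofNat 0, .ofNat 0, .ofNat 0, .ofNat 0, .ofNat 0, .ofNat 0, .ofNat 3918188526997454951478925311984271360, .ofNat 0, .ofNat 0, .ofNat 0, .ofNat 0, .ofNat 0⟩)
    (by decide +kernel)
theorem L00390 : Good (Phi V5.P V5.D 1 1) ⟨3, 2, 3, 2, 2, 3, 2, 0, 4, 0⟩ :=
  leafX_sound T5.ok_pp T5.Ypp.bz_eq (w := 205) (c := ⟨⟨.ofNat 892, .ofNat 183, .ofNat 5, .negSucc 791, .ofNat 336, .negSucc 1152⟩, ⟨.ofNat 250, .negSucc 30, .negSucc 10, .negSucc 76, .ofNat 80, .negSucc 276⟩, ⟨.negSucc 1077, .negSucc 151, .ofNat 93, .ofNat 1510, .negSucc 316, .ofNat 214⟩, ⟨.ofNat 2185, .ofNat 366, .ofNat 23, .negSucc 2418, .ofNat 801, .negSucc 2740⟩, ⟨.ofNat 921, .ofNat 208, .negSucc 332, .ofNat 1769, .ofNat 355, .negSucc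 1239⟩, .ofNat 580, .negSucc 285, .ofNat 0, .negSucc 285, .ofNat 1778, .ofNat 0, .ofNat 581, .ofNat 116, .negSucc 383, .ofNat 0, .ofNat 128, .negSucc 58, .ofNat 0, .ofNat 0, .ofNat 1094, .ofNat 2619, .ofNat 0, .ofNat 0, .ofNat 0, .ofNat 0, .ofNat 0, .ofNat 0, .ofNat 0, .ofNat 0, .ofNat 0, .ofNat 0, .ofNat 3107077612096764294733152837775130624, .ofNat 0, .ofNat 0, .ofNat 0, .ofNat 0, .ofNat 0⟩)
    (by decide +kernel)
theorem L00391 : Good (Phi V5.P V5.D 1 1) ⟨3, 2, 3, 2, 2, 3, 2, 0, 4, 1⟩ :=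
  leafX_sound T5.ok_pp T5.Ypp.bz_eq (w := 204) (c := ⟨⟨.negSucc 397, .ofNat 30, .negSucc 23, .negSucc 54, .negSucc 0, .negSucc 752⟩, ⟨.negSucc 61, .ofNat 2, .negSucc 111, .ofNat 45, .ofNat 2, .negSucc 166⟩, ⟨.negSucc 710, .negSucc 100, .ofNat 115, .ofNat 669, .ofNat 89, .ofNat 406⟩, ⟨.negSucc 1141, .ofNat 205, .negSucc 37, .negSucc 399, .ofNat 12, .negSucc 1866⟩, ⟨.negSucc 123, .ofNat 301, .negSucc 224, .ofNat 1386, .ofNat 6, .negSucc 412⟩, .ofNat 751, .negSucc 672, .ofNat 0, .negSucc 672, .ofNat 3576, .ofNat 0, .ofNat 271, .ofNat 128, .negSucc 200, .ofNat 0, .ofNat 94, .negSucc 28, .ofNat 0, .ofNat 0, .ofNat 691, .ofNat 2821, .ofNat 0, .ofNat 0, .ofNat 0, .ofNat 0, .ofNat 0, .ofNat 0, .ofNat 0, .ofNat 0, .ofNat 0, .ofNat 0, .ofNat 2420062607956336388211514079514198016, .ofNat 0, .ofNat 0, .ofNat 0, .ofNat 0, .ofNat 0⟩)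
    (by decide +kernel)
theorem L00392 : Good (Phi V5.P V5.D 1 1) ⟨3, 2, 3, 2, 1, 1, 2, 1, 3, 0⟩ :=
  leafX_sound T5.ok_pp T5.Ypp.bz_eq (w := 185) (c := ⟨⟨.ofNat 1291, .negSucc 13, .negSucc 17, .negSucc 369, .negSucc 94, .negSucc 2449⟩, ⟨.ofNat 263, .ofNat 14, .ofNat 39, .negSucc 3, .negSucc 28, .negSucc 552⟩, ⟨.negSucc 1188, .negSucc 21, .ofNat 100, .ofNat 181, .ofNat 360, .ofNat 1395⟩, ⟨.ofNat 3390, .negSucc 28, .negSucc 60, .negSucc 1277, .negSucc 311, .negSucc 6232⟩, ⟨.ofNat 2, .ofNat 262, .ofNat 58, .ofNat 1552, .ofNat 9, .negSucc 910⟩, .ofNat 746, .negSucc 663, .ofNat 0, .negSucc 663, .ofNat 3595, .ofNat 0, .ofNat 250, .ofNat 128, .negSucc 216, .ofNat 0, .ofNat 85, .negSucc 29, .ofNat 0, .ofNat 0, .ofNat 620, .ofNat 371, .ofNat 0, .ofNat 0, .ofNat 0, .ofNat 0, .ofNat 0, .ofNat 0, .ofNat 0, .ofNat 0, .ofNat 0, .ofNat 0, .ofNat 2313481317215802960500179861504,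 .ofNat 0, .ofNat 0, .ofNat 0, .ofNat 0, .ofNat 0⟩)
    (by decide +kernel)
theorem L00393 : Good (Phi V5.P V5.D 1 1) ⟨3, 2, 3, 3, 1, 1, 1, 0, 3, 0⟩ :=
  out_sound (S := T5.ds_pp) T5.ok_pp (w := 45) (j := 3) (by decide +kernel)
theorem L00394 : Good (Phi V5.P V5.D 1 1) ⟨3, 3, 2, 1, 1, 1, 1, 0, 3, 0⟩ :=
  out_sound (S := T5.ds_pp) T5.ok_pp (w := 43) (j := 3) (by decide +kernel)
theorem L00395 : Good (Phi V5.P V5.D 1 1) ⟨2, 1, 3, 2, 2, 2, 1, 0, 4, 2⟩ :=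
  leafX_sound T5.ok_pp T5.Ypp.bz_eq (w := 197) (c := ⟨⟨.negSucc 1134, .negSucc 216, .negSucc 23, .ofNat 6, .negSucc 76, .negSucc 291⟩, ⟨.negSucc 245, .ofNat 34, .negSucc 144, .ofNat 6, .negSucc 11, .negSucc 59⟩, ⟨.ofNat 156, .ofNat 17, .ofNat 99, .negSucc 438, .ofNat 742, .ofNat 440⟩, ⟨.negSucc 3028, .ofNat 53, .negSucc 4, .negSucc 22, .negSucc 225, .negSucc 741⟩, ⟨.negSucc 655, .ofNat 343, .negSucc 17, .ofNat 137, .ofNat 118, .negSucc 99⟩, .ofNat 579, .negSucc 280, .ofNat 0, .negSucc 280, .ofNat 1765, .ofNat 0, .ofNat 455, .ofNat 106, .negSucc 190, .ofNat 0, .ofNat 128, .negSucc 7, .ofNat 0, .ofNat 0, .ofNat 946, .ofNat 2272, .ofNat 545768170002397369928625068994543484928, .ofNat 0, .ofNat 5161345634324502911151191422402560, .ofNat 0, .ofNat 0, .ofNat 0, .ofNat 0, .ofNat 0, .ofNat 0, .ofNat 0, .ofNat 4531743653466844486691097817391300608, .ofNat 0,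 .ofNat 0, .ofNat 0, .ofNat 0, .ofNat 0⟩)
    (by decide +kernel)
theorem L00396 : Good (Phi V5.P V5.D 1 1) ⟨2, 1, 3, 2, 2, 3, 2, 0, 4, 2⟩ :=
  leafX_sound T5.ok_pp T5.Ypp.bz_eq (w := 202) (c := ⟨⟨.negSucc 1107, .negSucc 293, .negSucc 23, .ofNat 125, .negSucc 162, .negSucc 225⟩, ⟨.negSucc 215, .negSucc 17, .negSucc 159, .ofNat 67, .negSucc 30, .negSucc 60⟩, ⟨.negSucc 150, .negSucc 98, .ofNat 68, .ofNat 198, .ofNat 320, .ofNat 394⟩, ⟨.negSucc 3011, .negSucc 161, .ofNat 39, .ofNat 132, .negSucc 436, .negSucc 558⟩, ⟨.negSucc 399, .ofNat 508, .negSucc 307, .ofNat 959, .ofNat 63, .negSucc 216⟩, .ofNat 582, .negSucc 286, .ofNat 0, .negSucc 286, .ofNat 1762, .ofNat 0, .ofNat 419, .ofNat 86, .negSucc 139, .ofNat 0, .ofNat 128, .negSucc 7, .ofNat 0, .ofNat 0, .ofNat 614, .ofNat 6224, .ofNat 10934077989827547206127003986601892118528, .ofNat 0, .ofNat 0, .ofNat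 0, .ofNat 0, .ofNat 0, .ofNat 105398636325774566411307156534993092608, .ofNat 0, .ofNat 0, .ofNat 0, .ofNat 25743283151596947699151379442291441664, .ofNat 0, .ofNat 5892739962783518093095730826632050507776, .ofNat 0, .ofNat 25302375260941302430717245502617812992, .ofNat 0⟩)
    (by decide +kernel)
theorem L00397 : Good (Phi V5.P V5.D 1 1) ⟨2, 1, 3, 2, 2, 3, 2, 1, 4, 2⟩ :=
  leafX_sound T5.ok_pp T5.Ypp.bz_eq (w := 200) (c := ⟨⟨.negSucc 1216, .negSucc 335, .negSucc 14, .ofNat 41, .negSucc 172, .negSucc 245⟩, ⟨.negSucc 230, .negSucc 42, .negSucc 173, .ofNat 47, .negSucc 31, .negSucc 58⟩, ⟨.ofNat 135, .ofNat 195, .ofNat 47, .ofNat 76, .ofNat 422, .ofNat 419⟩, ⟨.negSucc 3300, .negSucc 181, .ofNat 32, .negSucc 126, .negSucc 456, .negSucc 625⟩, ⟨.negSucc 497, .ofNat 583, .negSucc 107, .ofNat 1110, .ofNat 35, .negSucc 142⟩, .ofNat 753, .negSucc 666, .ofNat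 0, .negSucc 666, .ofNat 3524, .ofNat 0, .ofNat 334, .ofNat 128, .negSucc 94, .ofNat 0, .ofNat 100, .negSucc 10, .ofNat 0, .ofNat 0, .ofNat 339, .ofNat 1133, .ofNat 0, .ofNat 0, .ofNat 0, .ofNat 0, .ofNat 0, .ofNat 0, .ofNat 0, .ofNat 0, .ofNat 0, .ofNat 0, .ofNat 21798576478715610822935156295464910848, .ofNat 0, .ofNat 0, .ofNat 0, .ofNat 10050539008902415837452322473060073472, .ofNat 0⟩)
    (by decide +kernel)
theorem L00398 : Good (Phi V5.P V5.D 1 1) ⟨2, 1, 3, 3, 1, 1, 1, 0, 4, 2⟩ :=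
  out_sound (S := T5.ds_pp) T5.ok_pp (w := 39) (j := 3) (by decide +kernel)
theorem L00399 : Good (Phi V5.P V5.D 1 1) ⟨2, 1, 3, 2, 2, 2, 1, 0, 4, 3⟩ :=
  leafX_sound T5.ok_pp T5.Ypp.bz_eq (w := 197) (c := ⟨⟨.negSucc 1390, .negSucc 316, .negSucc 10, .negSucc 27, .negSucc 54, .ofNat 11⟩, ⟨.negSucc 287, .ofNat 4, .negSucc 156, .negSucc 7, .negSucc 8, .ofNat 3⟩, ⟨.ofNat 579, .ofNat 143, .ofNat 58, .negSucc 310, .ofNat 526, .ofNat 261⟩, ⟨.negSucc 3754, .negSucc 91, .ofNat 47, .negSucc 59, .negSucc 152, .ofNat 24⟩, ⟨.negSucc 534, .ofNat 154, .negSucc 77, .negSucc 44, .ofNat 74, .ofNat 2⟩, .ofNat 579, .negSucc 283, .ofNat 0, .negSucc 283, .ofNat 1779, .ofNat 0, .ofNat 565, .ofNat 102, .negSucc 166, .ofNat 0, .ofNat 128, .negSucc 3, .ofNat 0, .ofNat 0, .ofNat 1163, .ofNat 3305, .ofNat 509106419505976115115355291731709919232, .ofNat 0, .ofNat 20508435480388341852275587124559872,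 .ofNat 0, .ofNat 0, .ofNat 0, .ofNat 0, .ofNat 0, .ofNat 0, .ofNat 0, .ofNat 5900245087670165530903808734954258432, .ofNat 0, .ofNat 18802674010422518112224527675865580961792, .ofNat 0, .ofNat 7290362009819722477657091043089186816, .ofNat 0⟩)
    (by decide +kernel)
theorem L00400 : Good (Phi V5.P V5.D 1 1) ⟨2, 1, 3, 2, 2, 3, 2, 0, 4, 3⟩ :=
  leafX_sound T5.ok_pp T5.Ypp.bz_eq (w := 201) (c := ⟨⟨.negSucc 1361, .negSucc 242, .ofNat 3, .ofNat 180, .negSucc 168, .ofNat 18⟩, ⟨.negSucc 275, .ofNat 7, .negSucc 159, .ofNat 62, .negSucc 30, .negSucc 3⟩, ⟨.ofNat 256, .ofNat 103, .ofNat 66, .ofNat 57, .ofNat 339, .ofNat 198⟩, ⟨.negSucc 3669, .ofNat 8, .ofNat 90, .ofNat 336, .negSucc 442, .ofNat 82⟩, ⟨.negSucc 504, .ofNat 402, .negSucc 190, .ofNat 685, .ofNat 35, .negSucc 175⟩, .ofNat 752, .negSucc 680, .ofNat 0, .negSucc 680, .ofNat 3625, .ofNat 0, .ofNat 339,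 .ofNat 128, .negSucc 66, .ofNat 0, .ofNat 114, .negSucc 6, .ofNat 0, .ofNat 0, .ofNat 495, .ofNat 5185, .ofNat 7530192130470692602198966275563413569536, .ofNat 0, .ofNat 0, .ofNat 0, .ofNat 0, .ofNat 0, .ofNat 0, .ofNat 0, .ofNat 0, .ofNat 0, .ofNat 57870106953382303533742935495418052608, .ofNat 0, .ofNat 65847974055241488195370028000706117500928, .ofNat 0, .ofNat 16014628963735270647587622668711493632, .ofNat 0⟩)
    (by decide +kernel)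
theorem L00401 : Good (Phi V5.P V5.D 1 1) ⟨2, 1, 3, 2, 2, 3, 2, 1, 4, 3⟩ :=
  leafX_sound T5.ok_pp T5.Ypp.bz_eq (w := 201) (c := ⟨⟨.negSucc 1499, .negSucc 325, .ofNat 10, .ofNat 72, .negSucc 129, .ofNat 69⟩, ⟨.negSucc 306, .negSucc 1, .negSucc 159, .ofNat 46, .negSucc 22, .ofNat 10⟩, ⟨.ofNat 597, .ofNat 249, .ofNat 20, .ofNat 17, .ofNat 368, .ofNat 181⟩, ⟨.negSucc 4027, .negSucc 142, .ofNat 81, .ofNat 9, .negSucc 345, .ofNat 191⟩, ⟨.negSucc 571, .ofNat 437, .negSucc 91, .ofNat 847, .ofNat 37, .negSucc 66⟩, .ofNat 763, .negSucc 680, .ofNat 0, .negSucc 680, .ofNat 3473, .ofNat 0, .ofNat 284, .ofNat 128, .negSucc 57, .ofNat 0, .ofNat 111, .negSucc 5, .ofNat 0, .ofNat 0, .ofNat 380, .ofNat 1583, .ofNat 0, .ofNat 0, .ofNat 0, .ofNat 0, .ofNat 0, .ofNat 0, .ofNat 0, .ofNat 0, .ofNat 0, .ofNat 0, .ofNat 26758500225527298549921251026798641152, .ofNat 0, .ofNat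 0, .ofNat 0, .ofNat 0, .ofNat 0⟩)
    (by decide +kernel)
theorem L00402 : Good (Phi V5.P V5.D 1 1) ⟨2, 1, 3, 3, 1, 1, 1, 0, 4, 3⟩ :=
  out_sound (S := T5.ds_pp) T5.ok_pp (w := 39) (j := 3) (by decide +kernel)
theorem L00403 : Good (Phi V5.P V5.D 1 1) ⟨3, 2, 3, 2, 2, 2, 2, 0, 4, 4⟩ :=
  leafX_sound T5.ok_pp T5.Ypp.bz_eq (w := 208) (c := ⟨⟨.negSucc 1396, .negSucc 141, .negSucc 9, .negSucc 0, .negSucc 35, .ofNat 99⟩, ⟨.negSucc 291, .ofNat 5, .negSucc 148, .negSucc 3, .negSucc 4, .ofNat 22⟩, ⟨.ofNat 881, .ofNat 78, .ofNat 48, .negSucc 305, .ofNat 195, .ofNat 133⟩, ⟨.negSucc 3740, .negSucc 14, .ofNat 38, .ofNat 11, .negSucc 123, .ofNat 254⟩, ⟨.negSucc 568, .ofNat 67, .negSucc 39, .negSucc 62, .ofNat 96, .ofNat 11⟩, .ofNat 584, .negSucc 287, .ofNat 0, .negSucc 287, .ofNat 1753, .ofNat 0, .ofNat 272, .ofNat 96, .negSucc 60, .ofNat 0, .ofNat 128, .ofNat 1,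 .ofNat 0, .ofNat 0, .ofNat 693, .ofNat 27182, .ofNat 884247538485344073539145877543081710977024, .ofNat 0, .ofNat 264792116750933508761872010840113152, .ofNat 0, .ofNat 0, .ofNat 0, .ofNat 0, .ofNat 0, .ofNat 0, .ofNat 0, .ofNat 0, .ofNat 0, .ofNat 5039717893047523821315208911178308327047168, .ofNat 0, .ofNat 6912994060340624821619931167806455808, .ofNat 0⟩)
    (by decide +kernel)
theorem L00404 : Good (Phi V5.P V5.D 1 1) ⟨3, 2, 3, 2, 2, 3, 2, 0, 4, 4⟩ :=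
  leafX_sound T5.ok_pp T5.Ypp.bz_eq (w := 206) (c := ⟨⟨.negSucc 1340, .negSucc 131, .negSucc 15, .ofNat 153, .negSucc 117, .ofNat 111⟩, ⟨.negSucc 284, .ofNat 4, .negSucc 150, .ofNat 52, .negSucc 14, .ofNat 22⟩, ⟨.ofNat 465, .ofNat 29, .ofNat 67, .ofNat 22, .ofNat 357, .ofNat 133⟩, ⟨.negSucc 3576, .negSucc 15, .ofNat 42, .ofNat 293, .negSucc 336, .ofNat 292⟩, ⟨.negSucc 707, .ofNat 178, .negSucc 94, .ofNat 539, .ofNat 147, .negSucc 12⟩, .ofNat 752, .negSucc 683, .ofNat 0, .negSucc 683, .ofNat 3632, .ofNat 0, .ofNat 286, .ofNat 128, .negSucc 36, .ofNat 0, .ofNat 121, .negSucc 0, .ofNat 0, .ofNat 0, .ofNat 588, .ofNat 7376, .ofNat 174644313821270614110948344458079606145024, .ofNat 0, .ofNat 21186922974041242700193195934875648, .ofNat 0, .ofNat 0, .ofNat 0, .ofNat 0, .ofNat 0, .ofNat 0, .ofNat 0, .ofNat 0, .ofNat 0, .ofNat 29672335980096913858667376438806166110208,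 .ofNat 5472433083317413459932009232082300567552, .ofNat 0, .ofNat 0⟩)
    (by decide +kernel)
theorem L00405 : Good (Phi V5.P V5.D 1 1) ⟨3, 2, 3, 2, 2, 2, 2, 1, 4, 4⟩ :=
  leafX_sound T5.ok_pp T5.Ypp.bz_eq (w := 207) (c := ⟨⟨.negSucc 1410, .negSucc 144, .negSucc 0, .negSucc 45, .negSucc 3, .ofNat 88⟩, ⟨.negSucc 292, .ofNat 4, .negSucc 145, .negSucc 8, .ofNat 2, .ofNat 20⟩, ⟨.ofNat 1026, .ofNat 111, .ofNat 0, .negSucc 171, .ofNat 167, .ofNat 81⟩, ⟨.negSucc 3801, .negSucc 14, .ofNat 45, .negSucc 117, .negSucc 10, .ofNat 221⟩, ⟨.negSucc 433, .negSucc 10, .negSucc 0, .negSucc 43, .negSucc 1, .ofNat 12⟩, .ofNat 845, .negSucc 959, .ofNat 0, .negSucc 959, .ofNat 4904, .ofNat 0, .ofNat 261, .ofNat 128, .negSucc 84, .ofNat 0, .ofNat 94, .negSucc 9, .ofNat 0, .ofNat 0, .ofNat 907, .ofNat 8395, .ofNat 277041890416055631029743176259278538276864, .ofNat 0, .ofNat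 87217045443627443421215879931625472, .ofNat 0, .ofNat 0, .ofNat 0, .ofNat 0, .ofNat 0, .ofNat 0, .ofNat 0, .ofNat 8959538168040533618076269803714117632, .ofNat 0, .ofNat 0, .ofNat 0, .ofNat 0, .ofNat 0⟩)
    (by decide +kernel)
theorem L00406 : Good (Phi V5.P V5.D 1 1) ⟨3, 2, 3, 2, 2, 3, 2, 1, 4, 4⟩ :=
  leafX_sound T5.ok_pp T5.Ypp.bz_eq (w := 205) (c := ⟨⟨.negSucc 1453, .negSucc 153, .negSucc 0, .ofNat 108, .negSucc 100, .ofNat 143⟩, ⟨.negSucc 299, .ofNat 1, .negSucc 148, .ofNat 45, .negSucc 14, .ofNat 25⟩, ⟨.ofNat 769, .ofNat 122, .ofNat 38, .ofNat 59, .ofNat 350, .ofNat 102⟩, ⟨.negSucc 3900, .negSucc 62, .ofNat 54, .ofNat 153, .negSucc 276, .ofNat 382⟩, ⟨.negSucc 578, .ofNat 149, .negSucc 57, .ofNat 627, .ofNat 93, .negSucc 20⟩, .ofNat 744, .negSucc 661, .ofNat 0, .negSucc 661, .ofNat 3614, .ofNat 0, .ofNat 259, .ofNat 128, .negSucc 34, .ofNat 0,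 .ofNat 122, .negSucc 0, .ofNat 0, .ofNat 0, .ofNat 592, .ofNat 1715, .ofNat 0, .ofNat 0, .ofNat 0, .ofNat 0, .ofNat 0, .ofNat 0, .ofNat 0, .ofNat 0, .ofNat 0, .ofNat 0, .ofNat 0, .ofNat 0, .ofNat 0, .ofNat 48199596005502161710888723530188475858944, .ofNat 0, .ofNat 0⟩)
    (by decide +kernel)
theorem L00407 : Good (Phi V5.P V5.D 1 1) ⟨3, 2, 3, 2, 1, 1, 2, 0, 4, 5⟩ :=
  leafX_sound T5.ok_pp T5.Ypp.bz_eq (w := 191) (c := ⟨⟨.negSucc 1312, .negSucc 127, .negSucc 1, .ofNat 159, .negSucc 95, .ofNat 114⟩, ⟨.negSucc 276, .ofNat 7, .negSucc 132, .ofNat 37, .negSucc 19, .ofNat 23⟩, ⟨.ofNat 833, .ofNat 34, .ofNat 41, .negSucc 304, .ofNat 285, .ofNat 82⟩, ⟨.negSucc 3509, .negSucc 6, .ofNat 62, .ofNat 361, .negSucc 247, .ofNat 302⟩, ⟨.negSucc 657, .ofNat 95, .negSucc 80, .ofNat 285, .ofNat 21, .ofNat 2⟩, .ofNat 577, .negSucc 286, .ofNat 0, .negSucc 286, .ofNat 1803,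 .ofNat 0, .ofNat 225, .ofNat 86, .negSucc 37, .ofNat 0, .ofNat 128, .ofNat 4, .ofNat 0, .ofNat 0, .ofNat 968, .ofNat 3001, .ofNat 45857221927962314451728014989907197952, .ofNat 0, .ofNat 0, .ofNat 0, .ofNat 0, .ofNat 0, .ofNat 0, .ofNat 0, .ofNat 0, .ofNat 0, .ofNat 0, .ofNat 0, .ofNat 1272529019871873199723720479930968965120, .ofNat 37977981491419585157649745160280473600, .ofNat 81546541044568939255815324303360, .ofNat 0⟩)
    (by decide +kernel)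
theorem L00408 : Good (Phi V5.P V5.D 1 1) ⟨3, 2, 3, 2, 2, 2, 2, 1, 4, 5⟩ :=
  leafX_sound T5.ok_pp T5.Ypp.bz_eq (w := 208) (c := ⟨⟨.negSucc 1323, .negSucc 147, .negSucc 10, .negSucc 15, .negSucc 14, .ofNat 107⟩, ⟨.negSucc 272, .negSucc 0, .negSucc 139, .negSucc 5, .ofNat 0, .ofNat 22⟩, ⟨.ofNat 1113, .ofNat 113, .negSucc 1, .negSucc 122, .ofNat 125, .ofNat 13⟩, ⟨.negSucc 3581, .negSucc 38, .ofNat 37, .negSucc 18, .negSucc 43, .ofNat 277⟩, ⟨.negSucc 431, .ofNat 17, .negSucc 14, .negSucc 81, .ofNat 38, .ofNat 23⟩, .ofNat 599, .negSucc 351, .ofNat 0, .negSucc 351, .ofNat 1901, .ofNat 0, .ofNat 379, .ofNat 115, .negSucc 94, .ofNat 0, .ofNat 128, .negSucc 4, .ofNat 0, .ofNat 0, .ofNat 1650, .ofNat 19991, .ofNat 725625194725080545931697362307554541043712, .ofNat 0, .ofNat 261246375511668211563690768306536448, .ofNat 0, .ofNat 0, .ofNat 0, .ofNat 0, .ofNat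 0, .ofNat 0, .ofNat 0, .ofNat 6139654136077117519058394266776633344, .ofNat 0, .ofNat 0, .ofNat 0, .ofNat 0, .ofNat 0⟩)
    (by decide +kernel)
theorem L00409 : Good (Phi V5.P V5.D 1 1) ⟨3, 2, 3, 2, 2, 3, 2, 1, 4, 5⟩ :=
  leafX_sound T5.ok_pp T5.Ypp.bz_eq (w := 204) (c := ⟨⟨.negSucc 1328, .negSucc 140, .ofNat 0, .ofNat 100, .negSucc 57, .ofNat 123⟩, ⟨.negSucc 278, .ofNat 4, .negSucc 133, .ofNat 34, .negSucc 8, .ofNat 26⟩, ⟨.ofNat 921, .ofNat 71, .negSucc 16, .ofNat 30, .ofNat 286, .ofNat 117⟩, ⟨.negSucc 3566, .negSucc 48, .ofNat 60, .ofNat 195, .negSucc 162, .ofNat 322⟩, ⟨.negSucc 514, .ofNat 72, .negSucc 74, .ofNat 391, .ofNat 59, .ofNat 41⟩, .ofNat 672, .negSucc 459, .ofNat 0, .negSucc 459, .ofNat 2590, .ofNat 0, .ofNat 312, .ofNat 112, .negSucc 14, .ofNat 0, .ofNat 128, .ofNat 2, .ofNat 0, .ofNat 0, .ofNat 614, .ofNat 604, .ofNat 0, .ofNat 0, .ofNat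 0, .ofNat 0, .ofNat 0, .ofNat 0, .ofNat 0, .ofNat 0, .ofNat 0, .ofNat 0, .ofNat 0, .ofNat 0, .ofNat 0, .ofNat 100912983419836275629476344802252733546496, .ofNat 1409163182062944388630489682910642176, .ofNat 0⟩)
    (by decide +kernel)
theorem L00410 : Good (Phi V5.P V5.D 1 1) ⟨3, 3, 3, 2, 1, 1, 1, 0, 3, 2⟩ :=
  out_sound (S := T5.ds_pp) T5.ok_pp (w := 45) (j := 3) (by decide +kernel)
theorem L00411 : Good (Phi V5.P V5.D 1 1) ⟨2, 1, 3, 3, 1, 1, 1, 0, 3, 2⟩ :=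
  out_sound (S := T5.ds_pp) T5.ok_pp (w := 39) (j := 3) (by decide +kernel)
theorem L00412 : Good (Phi V5.P V5.D 1 1) ⟨2, 1, 2, 1, 2, 2, 1, 0, 3, 3⟩ :=
  leafX_sound T5.ok_pp T5.Ypp.bz_eq (w := 191) (c := ⟨⟨.negSucc 1173, .negSucc 277, .negSucc 8, .negSucc 5, .negSucc 74, .ofNat 199⟩, ⟨.negSucc 238, .negSucc 3, .negSucc 259, .negSucc 4, .negSucc 15, .ofNat 44⟩, ⟨.ofNat 1001, .ofNat 172, .negSucc 139, .negSucc 32, .ofNat 245, .negSucc 65⟩, ⟨.negSucc 3205, .negSucc 74, .ofNat 56, .ofNat 6, .negSucc 168, .ofNat 508⟩, ⟨.negSucc 398, .ofNat 6, .negSucc 9, .negSucc 61, .ofNat 20, .ofNat 76⟩, .ofNat 388, .negSucc 138, .ofNat 0, .negSucc 138, .ofNat 854, .ofNat 0, .ofNat 223, .ofNat 70, .negSucc 14, .ofNat 0, .ofNat 128, .ofNat 7, .ofNat 0, .ofNat 0, .ofNat 1285, .ofNat 7053, .ofNat 58688957099404770036713972083703414784, .ofNat 0, .ofNat 3285999020333702952113105673388032,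 .ofNat 0, .ofNat 39488830336504047529116433532271460352, .ofNat 9483810527535902056461439653017288704, .ofNat 0, .ofNat 0, .ofNat 0, .ofNat 0, .ofNat 0, .ofNat 0, .ofNat 1712278894540790305927432359887578857472, .ofNat 91099324298828648682909855796556726272, .ofNat 17095844110635900737880159596576768, .ofNat 0⟩)
    (by decide +kernel)
theorem L00413 : Good (Phi V5.P V5.D 1 1) ⟨2, 1, 2, 1, 2, 3, 1, 0, 3, 3⟩ :=
  leafX_sound T5.ok_pp T5.Ypp.bz_eq (w := 190) (c := ⟨⟨.negSucc 1162, .negSucc 261, .negSucc 8, .ofNat 100, .negSucc 90, .ofNat 1⟩, ⟨.negSucc 243, .ofNat 6, .negSucc 259, .ofNat 25, .negSucc 15, .ofNat 0⟩, ⟨.ofNat 822, .ofNat 45, .negSucc 41, .negSucc 87, .ofNat 491, .negSucc 0⟩, ⟨.negSucc 3123, .negSucc 58, .ofNat 103, .ofNat 228, .negSucc 257, .ofNat 2⟩, ⟨.negSucc 510, .ofNat 120, .negSucc 90, .ofNat 93, .ofNat 96, .ofNat 0⟩, .ofNat 385, .negSucc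 82, .ofNat 0, .negSucc 82, .ofNat 741, .ofNat 0, .ofNat 175, .ofNat 33, .negSucc 13, .ofNat 0, .ofNat 128, .ofNat 11, .ofNat 0, .ofNat 0, .ofNat 856, .ofNat 4803, .ofNat 0, .ofNat 0, .ofNat 0, .ofNat 0, .ofNat 481704025066047296381174239684294868992, .ofNat 117027662871054409707061285950196809728, .ofNat 65251037424402145550088895733956608, .ofNat 0, .ofNat 0, .ofNat 36119508320730457710350609000385478656, .ofNat 87292279737299927796973605295751168, .ofNat 0, .ofNat 1000660363728446678959732468607491244032, .ofNat 150134568354311753072365767058631163904, .ofNat 79435345589398383440457381443534848, .ofNat 0⟩)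
    (by decide +kernel)
theorem L00414 : Good (Phi V5.P V5.D 1 1) ⟨2, 1, 2, 1, 3, 4, 1, 0, 3, 4⟩ :=
  out_sound (S := T5.ds_pp) T5.ok_pp (w := 23) (j := 1) (by decide +kernel)
theorem L00415 : Good (Phi V5.P V5.D 1 1) ⟨2, 1, 2, 1, 3, 5, 1, 0, 3, 4⟩ :=
  out_sound (S := T5.ds_pp) T5.ok_pp (w := 28) (j := 2) (by decide +kernel)
theorem L00416 : Good (Phi V5.P V5.D 1 1) ⟨2, 1, 2, 1, 2, 2, 1, 0, 3, 5⟩ :=
  out_sound (S := T5.ds_pp) T5.ok_pp (w := 21) (j := 1) (by decide +kernel)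
theorem L00417 : Good (Phi V5.P V5.D 1 1) ⟨2, 1, 2, 1, 2, 2, 1, 0, 2, 3⟩ :=
  out_sound (S := T5.ds_pp) T5.ok_pp (w := 19) (j := 1) (by decide +kernel)
theorem L00418 : Good (Phi V5.P V5.D 1 1) ⟨2, 1, 2, 1, 2, 3, 1, 0, 1, 1⟩ :=
  out_sound (S := T5.ds_pp) T5.ok_pp (w := 22) (j := 2) (by decide +kernel)
theorem L00419 : Good (Phi V5.P V5.D 1 1) ⟨2, 1, 2, 0, 1, 1, 2, 2, 4, 0⟩ :=
  leafX_sound T5.ok_pp T5.Ypp.bz_eq (w := 183) (c := ⟨⟨.ofNat 1222, .negSucc 10, .negSucc 120, .negSucc 656, .negSucc 822, .negSucc 1093⟩, ⟨.ofNat 183, .negSucc 81, .negSucc 3, .negSucc 34, .negSucc 64, .negSucc 166⟩, ⟨.negSucc 970, .negSucc 91, .ofNat 52, .ofNat 487, .ofNat 911, .ofNat 509⟩, ⟨.ofNat 3083, .negSucc 207, .negSucc 438, .negSucc 1667, .negSucc 2008, .negSucc 2640⟩, ⟨.ofNat 291, .ofNat 593, .ofNat 9, .ofNat 1349, .negSucc 216, .negSucc 1019⟩, .ofNat 515, .negSucc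 98, .ofNat 0, .negSucc 98, .ofNat 1675, .ofNat 0, .ofNat 480, .ofNat 81, .negSucc 323, .ofNat 0, .ofNat 128, .ofNat 5, .ofNat 0, .ofNat 0, .ofNat 569, .ofNat 438, .ofNat 0, .ofNat 0, .ofNat 0, .ofNat 0, .ofNat 0, .ofNat 0, .ofNat 0, .ofNat 0, .ofNat 0, .ofNat 0, .ofNat 0, .ofNat 0, .ofNat 0, .ofNat 0, .ofNat 0, .ofNat 0⟩)
    (by decide +kernel)
theorem L00420 : Good (Phi V5.P V5.D 1 1) ⟨2, 1, 2, 0, 1, 1, 2, 3, 4, 0⟩ :=
  leafX_sound T5.ok_pp T5.Ypp.bz_eq (w := 183) (c := ⟨⟨.ofNat 319, .negSucc 496, .negSucc 5, .negSucc 672, .negSucc 710, .negSucc 725⟩, ⟨.ofNat 170, .negSucc 155, .negSucc 255, .ofNat 48, .ofNat 36, .negSucc 112⟩, ⟨.negSucc 1, .ofNat 410, .negSucc 49, .ofNat 343, .ofNat 1024, .ofNat 257⟩, ⟨.ofNat 839, .negSucc 956, .negSucc 344, .negSucc 1823, .negSucc 1888, .negSucc 1671⟩, ⟨.negSucc 434, .ofNat 1204, .ofNat 22, .ofNat 2085, .ofNat 1073,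 .negSucc 720⟩, .ofNat 514, .negSucc 84, .ofNat 0, .negSucc 84, .ofNat 1645, .ofNat 0, .ofNat 398, .ofNat 86, .negSucc 437, .ofNat 0, .ofNat 128, .ofNat 15, .ofNat 0, .ofNat 0, .ofNat 707, .ofNat 234, .ofNat 0, .ofNat 0, .ofNat 0, .ofNat 0, .ofNat 0, .ofNat 0, .ofNat 0, .ofNat 0, .ofNat 0, .ofNat 0, .ofNat 0, .ofNat 0, .ofNat 0, .ofNat 43396928547616632857868427096752128, .ofNat 765672418745110801809053732306944, .ofNat 0⟩)
    (by decide +kernel)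
theorem L00421 : Good (Phi V5.P V5.D 1 1) ⟨2, 1, 2, 0, 1, 1, 1, 1, 4, 1⟩ :=
  leafX_sound T5.ok_pp T5.Ypp.bz_eq (w := 178) (c := ⟨⟨.ofNat 32, .negSucc 523, .negSucc 121, .negSucc 567, .negSucc 955, .negSucc 874⟩, ⟨.ofNat 108, .negSucc 91, .negSucc 241, .ofNat 21, .negSucc 95, .negSucc 85⟩, ⟨.negSucc 314, .ofNat 403, .ofNat 183, .ofNat 47, .ofNat 1685, .ofNat 693⟩, ⟨.negSucc 12, .negSucc 719, .negSucc 478, .negSucc 1561, .negSucc 2584, .negSucc 2095⟩, ⟨.negSucc 887, .ofNat 529, .ofNat 78, .ofNat 1929, .ofNat 1388, .negSucc 602⟩, .ofNat 512, .negSucc 104, .ofNat 0, .negSucc 104, .ofNat 1710, .ofNat 0, .ofNat 374, .ofNat 72, .negSucc 333, .ofNat 0, .ofNat 128, .ofNat 8, .ofNat 0, .ofNat 0, .ofNat 650, .ofNat 199, .ofNat 0, .ofNat 0, .ofNat 0, .ofNat 0, .ofNat 0, .ofNat 2001847879535823304250805863841792, .ofNat 3994157291976739301922458042368, .ofNat 0,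 .ofNat 0, .ofNat 3504419223594646080753142201319424, .ofNat 0, .ofNat 0, .ofNat 0, .ofNat 8326080429032797615352777403269120, .ofNat 35636725071879132856134989250560, .ofNat 0⟩)
    (by decide +kernel)
theorem L00422 : Good (Phi V5.P V5.D 1 1) ⟨2, 1, 2, 0, 1, 1, 2, 2, 4, 2⟩ :=
  leafX_sound T5.ok_pp T5.Ypp.bz_eq (w := 183) (c := ⟨⟨.negSucc 957, .negSucc 660, .negSucc 95, .negSucc 564, .negSucc 161, .negSucc 209⟩, ⟨.ofNat 141, .negSucc 168, .negSucc 373, .negSucc 6, .negSucc 13, .negSucc 34⟩, ⟨.ofNat 538, .ofNat 484, .ofNat 95, .ofNat 27, .ofNat 553, .ofNat 301⟩, ⟨.negSucc 2770, .negSucc 715, .negSucc 202, .negSucc 1488, .negSucc 411, .negSucc 525⟩, ⟨.negSucc 808, .ofNat 433, .ofNat 176, .ofNat 1405, .ofNat 255, .negSucc 251⟩, .ofNat 516, .negSucc 100, .ofNat 0, .negSucc 100, .ofNat 1678, .ofNat 0, .ofNat 249, .ofNat 49, .negSucc 108, .ofNat 0, .ofNat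 128, .ofNat 4, .ofNat 0, .ofNat 0, .ofNat 323, .ofNat 431, .ofNat 0, .ofNat 0, .ofNat 0, .ofNat 0, .ofNat 0, .ofNat 0, .ofNat 188971172452745886838718537400320, .ofNat 0, .ofNat 0, .ofNat 0, .ofNat 0, .ofNat 0, .ofNat 0, .ofNat 0, .ofNat 0, .ofNat 0⟩)
    (by decide +kernel)
theorem L00423 : Good (Phi V5.P V5.D 1 1) ⟨2, 1, 2, 0, 1, 1, 2, 3, 4, 2⟩ :=
  leafX_sound T5.ok_pp T5.Ypp.bz_eq (w := 182) (c := ⟨⟨.negSucc 1185, .negSucc 752, .ofNat 18, .negSucc 673, .negSucc 310, .negSucc 44⟩, ⟨.ofNat 118, .negSucc 180, .negSucc 420, .ofNat 49, .ofNat 17, .negSucc 7⟩, ⟨.ofNat 990, .ofNat 659, .negSucc 15, .ofNat 232, .ofNat 738, .ofNat 174⟩, ⟨.negSucc 3268, .negSucc 863, .negSucc 69, .negSucc 1896, .negSucc 819, .negSucc 122⟩, ⟨.negSucc 752, .ofNat 188, .ofNat 157, .ofNat 2021, .ofNat 407, .negSucc 103⟩, .ofNat 522, .negSucc 97, .ofNat 0, .negSucc 97, .ofNat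 1623, .ofNat 0, .ofNat 291, .ofNat 53, .negSucc 171, .ofNat 0, .ofNat 128, .ofNat 7, .ofNat 0, .ofNat 0, .ofNat 502, .ofNat 148, .ofNat 0, .ofNat 504199018591754989448127412436992, .ofNat 0, .ofNat 0, .ofNat 0, .ofNat 15373441579842736145184379302313984, .ofNat 0, .ofNat 0, .ofNat 0, .ofNat 0, .ofNat 0, .ofNat 0, .ofNat 0, .ofNat 0, .ofNat 0, .ofNat 0⟩)
    (by decide +kernel)
theorem L00424 : Good (Phi V5.P V5.D 1 1) ⟨2, 1, 2, 0, 1, 1, 2, 2, 4, 3⟩ :=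
  leafX_sound T5.ok_pp T5.Ypp.bz_eq (w := 182) (c := ⟨⟨.negSucc 1353, .negSucc 490, .negSucc 10, .negSucc 277, .negSucc 157, .ofNat 119⟩, ⟨.ofNat 53, .negSucc 91, .negSucc 349, .ofNat 24, .negSucc 10, .ofNat 15⟩, ⟨.ofNat 919, .ofNat 439, .negSucc 6, .ofNat 47, .ofNat 475, .ofNat 101⟩, ⟨.negSucc 3740, .negSucc 309, .negSucc 40, .negSucc 816, .negSucc 356, .ofNat 268⟩, ⟨.negSucc 572, .ofNat 132, .negSucc 58, .ofNat 1187, .ofNat 27, .negSucc 36⟩, .ofNat 518, .negSucc 106, .ofNat 0, .negSucc 106, .ofNat 1730, .ofNat 0, .ofNat 262, .ofNat 45, .negSucc 67, .ofNat 0, .ofNat 128, .ofNat 3, .ofNat 0, .ofNat 0, .ofNat 324, .ofNat 372, .ofNat 0, .ofNat 0, .ofNat 0, .ofNat 0, .ofNat 0, .ofNat 0, .ofNat 0, .ofNat 0, .ofNat 0, .ofNat 0, .ofNat 0, .ofNat 0, .ofNat 0, .ofNat 14832913986704681209773220662607872, .ofNat 0, .ofNat 0⟩)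
    (by decide +kernel)
theorem L00425 : Good (Phi V5.P V5.D 1 1) ⟨2, 1, 2, 0, 1, 1, 2, 3, 4, 3⟩ :=
  leafX_sound T5.ok_pp T5.Ypp.bz_eq (w := 183) (c := ⟨⟨.negSucc 1265, .negSucc 706, .ofNat 20, .negSucc 609, .negSucc 322, .negSucc 8⟩, ⟨.ofNat 115, .negSucc 158, .negSucc 368, .ofNat 2, .negSucc 64, .negSucc 26⟩, ⟨.ofNat 1145, .ofNat 714, .negSucc 60, .ofNat 380, .ofNat 534, .ofNat 109⟩, ⟨.negSucc 3653, .negSucc 688, .ofNat 79, .negSucc 1685, .negSucc 683, .ofNat 29⟩, ⟨.negSucc 353, .negSucc 0, .ofNat 47, .ofNat 1418, .negSucc 120, .negSucc 385⟩, .ofNat 517, .negSucc 91, .ofNat 0, .negSucc 91, .ofNat 1640, .ofNat 0, .ofNat 280, .ofNat 41, .negSucc 90, .ofNat 0, .ofNat 128, .ofNat 3, .ofNat 0, .ofNat 0, .ofNat 442, .ofNat 492, .ofNat 0, .ofNat 0, .ofNat 0, .ofNat 0, .ofNat 0, .ofNat 73488106835286950785277328797728768, .ofNat 5797614247174956384732070281216,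 .ofNat 0, .ofNat 0, .ofNat 68800745078559437899136542510678016, .ofNat 0, .ofNat 0, .ofNat 0, .ofNat 48950273186971945414852934669172736, .ofNat 0, .ofNat 0⟩)
    (by decide +kernel)

end Crest.Agent.R097C5.N5pp
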