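import Crest.Agent.R097.KP7
import Crest.Agent.R097.T5Ypp

/-!
# Row 97, box cover in dimension n = 5 (generated)
-/

set_option autoImplicit false
set_option Elab.async false
set_option maxHeartbeats 0
set_option maxRecDepth 100000

open Crest.Agent.R097 Crest.Agent.R097.KA


namespace Crest.Agent.R097C5.N5pp

theorem L00426 : Good (Phi V5.P V5.D 1 1) ⟨2, 1, 2, 0, 2, 2, 2, 2, 4, 4⟩ :=
  leafX_sound T5.ok_pp T5.Ypp.bz_eq (w := 199) (c := ⟨⟨.negSucc 1313, .negSucc 475, .negSucc 22, .negSucc 154, .negSucc 77, .ofNat 107⟩, ⟨.ofNat 54, .negSucc 89, .negSucc 314, .negSucc 23, .negSucc 12, .ofNat 15⟩, ⟨.ofNat 1099, .ofNat 416, .negSucc 19, .ofNat 28, .ofNat 259, .ofNat 47⟩, ⟨.negSucc 3717, .negSucc 283, .ofNat 35, .negSucc 337, .negSucc 169, .ofNat 235⟩, ⟨.negSucc 334, .negSucc 19, .negSucc 41, .negSucc 40, .negSucc 78, .ofNat 0⟩, .ofNat 517, .negSucc 117, .ofNat 0,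 .negSucc 117, .ofNat 1706, .ofNat 0, .ofNat 370, .ofNat 47, .negSucc 110, .ofNat 0, .ofNat 128, .ofNat 1, .ofNat 0, .ofNat 0, .ofNat 933, .ofNat 2857, .ofNat 0, .ofNat 0, .ofNat 0, .ofNat 0, .ofNat 0, .ofNat 64686353798169844148969021864979464192, .ofNat 0, .ofNat 0, .ofNat 0, .ofNat 0, .ofNat 0, .ofNat 0, .ofNat 0, .ofNat 1064575761639050773371241383949810794496, .ofNat 0, .ofNat 0⟩)
    (by decide +kernel)
theorem L00427 : Good (Phi V5.P V5.D 1 1) ⟨2, 1, 2, 0, 2, 3, 2, 2, 4, 4⟩ :=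
  leafX_sound T5.ok_pp T5.Ypp.bz_eq (w := 196) (c := ⟨⟨.negSucc 1548, .negSucc 471, .ofNat 43, .ofNat 57, .negSucc 111, .ofNat 182⟩, ⟨.ofNat 62, .negSucc 109, .negSucc 345, .ofNat 54, .negSucc 4, .ofNat 5⟩, ⟨.ofNat 1078, .ofNat 343, .negSucc 10, .ofNat 104, .ofNat 544, .ofNat 107⟩, ⟨.negSucc 4202, .negSucc 257, .ofNat 64, .ofNat 15, .negSucc 319, .ofNat 439⟩, ⟨.negSucc 471, .ofNat 148, .negSucc 71, .ofNat 1199, .ofNat 109, .negSucc 32⟩, .ofNat 514, .negSucc 100, .ofNat 0, .negSucc 100, .ofNat 1684, .ofNat 0, .ofNat 266, .ofNat 31, .negSucc 23, .ofNat 0, .ofNat 128, .ofNat 2, .ofNat 0, .ofNat 0, .ofNat 434, .ofNat 248, .ofNat 0, .ofNat 0, .ofNat 0, .ofNat 0, .ofNat 0, .ofNat 0, .ofNat 0, .ofNat 0, .ofNat 0, .ofNat 0, .ofNat 0, .ofNat 0, .ofNat 0, .ofNat 337081502079906825309618373180472164352, .ofNat 0, .ofNat 0⟩)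
    (by decide +kernel)
theorem L00428 : Good (Phi V5.P V5.D 1 1) ⟨2, 1, 2, 0, 1, 1, 2, 2, 4, 5⟩ :=
  leafX_sound T5.ok_pp T5.Ypp.bz_eq (w := 183) (c := ⟨⟨.negSucc 1262, .negSucc 407, .negSucc 13, .negSucc 174, .negSucc 86, .ofNat 92⟩, ⟨.ofNat 47, .negSucc 87, .negSucc 294, .negSucc 8, .negSucc 0, .ofNat 2⟩, ⟨.ofNat 1235, .ofNat 332, .negSucc 100, .ofNat 122, .ofNat 176, .ofNat 19⟩, ⟨.negSucc 3567, .negSucc 171, .ofNat 58, .negSucc 408, .negSucc 223, .ofNat 249⟩, ⟨.negSucc 325, .negSucc 84, .negSucc 44, .ofNat 37, .negSucc 35, .ofNat 4⟩, .ofNat 514, .negSucc 111, .ofNat 0, .negSucc 111, .ofNat 1713, .ofNat 0, .ofNat 281, .ofNat 42, .negSucc 53, .ofNat 0, .ofNat 128, .negSucc 0, .ofNat 0, .ofNat 0, .ofNat 1054, .ofNat 971, .ofNat 0, .ofNat 0, .ofNat 0, .ofNat 0, .ofNat 0, .ofNat 207763403147620060797436296469413888, .ofNat 0, .ofNat 0, .ofNat 0, .ofNat 95533905931649309656735648055296000,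 .ofNat 0, .ofNat 0, .ofNat 0, .ofNat 500955552084987354389922004911259648, .ofNat 0, .ofNat 0⟩)
    (by decide +kernel)
theorem L00429 : Good (Phi V5.P V5.D 1 1) ⟨2, 1, 2, 0, 1, 1, 2, 3, 4, 4⟩ :=
  leafX_sound T5.ok_pp T5.Ypp.bz_eq (w := 182) (c := ⟨⟨.negSucc 1348, .negSucc 555, .negSucc 28, .negSucc 454, .negSucc 224, .ofNat 71⟩, ⟨.ofNat 55, .negSucc 109, .negSucc 330, .negSucc 37, .negSucc 16, .ofNat 4⟩, ⟨.ofNat 1318, .ofNat 563, .negSucc 121, .ofNat 630, .ofNat 240, .negSucc 33⟩, ⟨.negSucc 3789, .negSucc 431, .ofNat 38, .negSucc 1180, .negSucc 588, .ofNat 174⟩, ⟨.negSucc 356, .negSucc 193, .negSucc 6, .ofNat 177, .negSucc 142, .negSucc 6⟩, .ofNat 366, .negSucc 29, .ofNat 0, .negSucc 29, .ofNat 723, .ofNat 0, .ofNat 246, .ofNat 18, .negSucc 50, .ofNat 0, .ofNat 128, .ofNat 1, .ofNat 0, .ofNat 0, .ofNat 381, .ofNat 305, .ofNat 0, .ofNat 1061537478866274441613395917537280,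 .ofNat 0, .ofNat 0, .ofNat 0, .ofNat 67201403555924088853489816856166400, .ofNat 0, .ofNat 0, .ofNat 0, .ofNat 61368048755111865080277339169882112, .ofNat 0, .ofNat 0, .ofNat 0, .ofNat 76222674574088967534712402638536704, .ofNat 0, .ofNat 0⟩)
    (by decide +kernel)
theorem L00430 : Good (Phi V5.P V5.D 1 1) ⟨2, 1, 2, 0, 1, 1, 2, 3, 4, 5⟩ :=
  leafX_sound T5.ok_pp T5.Ypp.bz_eq (w := 183) (c := ⟨⟨.negSucc 1305, .negSucc 483, .negSucc 15, .negSucc 392, .negSucc 225, .ofNat 73⟩, ⟨.ofNat 43, .negSucc 90, .negSucc 300, .negSucc 76, .negSucc 23, .ofNat 8⟩, ⟨.ofNat 1362, .ofNat 462, .negSucc 205, .ofNat 809, .ofNat 91, .negSucc 76⟩, ⟨.negSucc 3670, .negSucc 327, .ofNat 57, .negSucc 897, .negSucc 550, .ofNat 178⟩, ⟨.negSucc 351, .negSucc 194, .ofNat 10, .negSucc 231, .negSucc 97, .ofNat 37⟩, .ofNat 367, .negSucc 27, .ofNat 0, .negSucc 27, .ofNat 716, .ofNat 0, .ofNat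 244, .ofNat 15, .negSucc 27, .ofNat 0, .ofNat 128, .negSucc 3, .ofNat 0, .ofNat 0, .ofNat 373, .ofNat 467, .ofNat 0, .ofNat 1741469171067726836982701860323328, .ofNat 0, .ofNat 0, .ofNat 0, .ofNat 138487778995371842182495446339944448, .ofNat 280654793152490431921973121515520, .ofNat 0, .ofNat 0, .ofNat 91476405117357871985946092860604416, .ofNat 0, .ofNat 0, .ofNat 0, .ofNat 127639009684818501586344734672027648, .ofNat 81341860936124527377440013549568, .ofNat 0⟩)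
    (by decide +kernel)
theorem L00431 : Good (Phi V5.P V5.D 1 1) ⟨2, 1, 2, 0, 2, 2, 2, 2, 3, 3⟩ :=
  leafX_sound T5.ok_pp T5.Ypp.bz_eq (w := 193) (c := ⟨⟨.negSucc 1177, .negSucc 373, .negSucc 13, .negSucc 77, .negSucc 105, .ofNat 163⟩, ⟨.ofNat 37, .negSucc 77, .negSucc 265, .negSucc 13, .negSucc 10, .ofNat 13⟩, ⟨.ofNat 1359, .ofNat 275, .negSucc 259, .ofNat 181, .ofNat 65, .ofNat 49⟩, ⟨.negSucc 3327, .negSucc 150, .ofNat 33, .negSucc 147, .negSucc 235, .ofNat 437⟩, ⟨.negSucc 335, .negSucc 70, .ofNat 1, .negSucc 76, .negSucc 57, .ofNat 47⟩, .ofNat 365, .negSucc 35, .ofNat 0, .negSucc 35, .ofNat 733, .ofNat 0, .ofNat 298, .ofNat 18, .negSucc 25, .ofNat 0, .ofNat 128, .negSucc 10, .ofNat 0, .ofNat 0, .ofNat 1285, .ofNat 1305, .ofNat 0, .ofNat 0, .ofNat 0, .ofNat 0, .ofNat 0, .ofNat 135273684483318026316243103189372502016, .ofNat 0, .ofNat 0, .ofNat 0, .ofNat 33061001584563675876833525053192667136,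 .ofNat 0, .ofNat 0, .ofNat 0, .ofNat 513867125153258861177996370948900519936, .ofNat 0, .ofNat 0⟩)
    (by decide +kernel)
theorem L00432 : Good (Phi V5.P V5.D 1 1) ⟨2, 1, 2, 0, 2, 2, 2, 3, 3, 3⟩ :=
  leafX_sound T5.ok_pp T5.Ypp.bz_eq (w := 193) (c := ⟨⟨.negSucc 1250, .negSucc 438, .negSucc 11, .negSucc 210, .negSucc 214, .ofNat 79⟩, ⟨.ofNat 45, .negSucc 93, .negSucc 289, .negSucc 3, .negSucc 64, .ofNat 0⟩, ⟨.ofNat 1345, .ofNat 393, .negSucc 289, .ofNat 452, .negSucc 57, .negSucc 195⟩, ⟨.negSucc 3509, .negSucc 286, .ofNat 55, .negSucc 343, .negSucc 487, .ofNat 347⟩, ⟨.negSucc 325, .negSucc 187, .ofNat 29, .negSucc 170, .negSucc 50, .ofNat 73⟩, .ofNat 182, .negSucc 4, .ofNat 0, .negSucc 4, .ofNat 243, .ofNat 0, .ofNat 281, .ofNat 3, .negSucc 15, .ofNat 0, .ofNat 128, .negSucc 9, .ofNat 0, .ofNat 0, .ofNat 215, .ofNat 1192, .ofNat 0, .ofNat 0, .ofNat 0, .ofNat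 0, .ofNat 0, .ofNat 204953648998299974707409297722669268992, .ofNat 0, .ofNat 0, .ofNat 0, .ofNat 50482247420395196698367097380385325056, .ofNat 0, .ofNat 0, .ofNat 0, .ofNat 76707474406784867660265802838520627200, .ofNat 0, .ofNat 0⟩)
    (by decide +kernel)
theorem L00433 : Good (Phi V5.P V5.D 1 1) ⟨2, 1, 2, 0, 2, 3, 1, 1, 3, 3⟩ :=
  out_sound (S := T5.ds_pp) T5.ok_pp (w := 26) (j := 2) (by decide +kernel)
theorem L00434 : Good (Phi V5.P V5.D 1 1) ⟨2, 1, 2, 0, 4, 8, 3, 4, 4, 8⟩ :=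
  out_sound (S := T5.ds_pp) T5.ok_pp (w := 29) (j := 1) (by decide +kernel)
theorem L00435 : Good (Phi V5.P V5.D 1 1) ⟨2, 1, 2, 0, 4, 8, 3, 5, 4, 8⟩ :=
  out_sound (S := T5.ds_pp) T5.ok_pp (w := 36) (j := 2) (by decide +kernel)
theorem L00436 : Good (Phi V5.P V5.D 1 1) ⟨2, 1, 2, 0, 4, 8, 2, 2, 4, 9⟩ :=
  out_sound (S := T5.ds_pp) T5.ok_pp (w := 28) (j := 1) (by decide +kernel)
theorem L00437 : Good (Phi V5.P V5.D 1 1) ⟨2, 1, 2, 0, 4, 9, 2, 2, 3, 4⟩ :=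
  out_sound (S := T5.ds_pp) T5.ok_pp (w := 32) (j := 2) (by decide +kernel)
theorem L00438 : Good (Phi V5.P V5.D 1 1) ⟨2, 1, 2, 0, 3, 4, 2, 3, 3, 4⟩ :=
  out_sound (S := T5.ds_pp) T5.ok_pp (w := 30) (j := 2) (by decide +kernel)
theorem L00439 : Good (Phi V5.P V5.D 1 1) ⟨2, 1, 2, 0, 3, 4, 1, 1, 3, 5⟩ :=
  out_sound (S := T5.ds_pp) T5.ok_pp (w := 28) (j := 2) (by decide +kernel)
theorem L00440 : Good (Phi V5.P V5.D 1 1) ⟨2, 1, 2, 0, 3, 5, 1, 1, 2, 2⟩ :=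
  out_sound (S := T5.ds_pp) T5.ok_pp (w := 26) (j := 2) (by decide +kernel)
theorem L00441 : Good (Phi V5.P V5.D 1 1) ⟨2, 1, 2, 0, 2, 2, 1, 1, 2, 3⟩ :=
  out_sound (S := T5.ds_pp) T5.ok_pp (w := 24) (j := 2) (by decide +kernel)
theorem L00442 : Good (Phi V5.P V5.D 1 1) ⟨2, 1, 2, 0, 2, 3, 1, 1, 1, 1⟩ :=
  out_sound (S := T5.ds_pp) T5.ok_pp (w := 22) (j := 2) (by decide +kernel)
theorem L00443 : Good (Phi V5.P V5.D 1 1) ⟨2, 1, 2, 1, 1, 1, 2, 2, 3, 0⟩ :=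
  leafX_sound T5.ok_pp T5.Ypp.bz_eq (w := 178) (c := ⟨⟨.ofNat 923, .negSucc 191, .ofNat 106, .negSucc 587, .negSucc 460, .negSucc 1843⟩, ⟨.ofNat 202, .negSucc 8, .negSucc 98, .negSucc 77, .negSucc 80, .negSucc 426⟩, ⟨.negSucc 784, .ofNat 109, .negSucc 180, .ofNat 252, .ofNat 678, .ofNat 1175⟩, ⟨.ofNat 2409, .negSucc 463, .ofNat 165, .negSucc 1796, .negSucc 1238, .negSucc 4664⟩, ⟨.ofNat 113, .ofNat 559, .negSucc 51, .ofNat 1229, .negSucc 27, .negSucc 1071⟩, .ofNat 578, .negSucc 279, .ofNat 0, .negSucc 279, .ofNat 1771, .ofNat 0, .ofNat 305, .ofNat 128, .negSucc 258, .ofNat 0, .ofNat 125, .negSucc 19, .ofNat 0, .ofNat 0, .ofNat 530, .ofNat 431, .ofNat 0, .ofNat 0, .ofNat 323464220500064342893102366720, .ofNat 0, .ofNat 0, .ofNat 0, .ofNat 20943026204481785447105540653056, .ofNat 0, .ofNat 0, .ofNat 0, .ofNat 7474119792661033057181704912896, .ofNat 0, .ofNat 0,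 .ofNat 0, .ofNat 24248655442563686603568598482944, .ofNat 0⟩)
    (by decide +kernel)
theorem L00444 : Good (Phi V5.P V5.D 1 1) ⟨2, 1, 2, 1, 1, 1, 2, 3, 3, 0⟩ :=
  leafX_sound T5.ok_pp T5.Ypp.bz_eq (w := 178) (c := ⟨⟨.ofNat 179, .negSucc 326, .ofNat 123, .negSucc 643, .negSucc 504, .negSucc 1385⟩, ⟨.ofNat 53, .negSucc 140, .negSucc 227, .negSucc 28, .negSucc 57, .negSucc 300⟩, ⟨.negSucc 31, .ofNat 403, .ofNat 19, .ofNat 208, .ofNat 878, .ofNat 981⟩, ⟨.ofNat 537, .negSucc 436, .ofNat 234, .negSucc 2197, .negSucc 1644, .negSucc 3507⟩, ⟨.negSucc 533, .ofNat 281, .negSucc 86, .ofNat 2257, .ofNat 1249, .negSucc 667⟩, .ofNat 579, .negSucc 282, .ofNat 0, .negSucc 282, .ofNat 1773, .ofNat 0, .ofNat 276, .ofNat 128, .negSucc 308, .ofNat 0, .ofNat 121, .negSucc 16, .ofNat 0, .ofNat 0, .ofNat 572, .ofNat 184, .ofNat 0, .ofNat 0, .ofNat 333944579010092986769858363392, .ofNat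 0, .ofNat 0, .ofNat 0, .ofNat 11132847468114971818283293999104, .ofNat 0, .ofNat 0, .ofNat 408749422287294904147760344203264, .ofNat 5369430719968265823912753889280, .ofNat 0, .ofNat 0, .ofNat 2542063904928071572454958432256000, .ofNat 21267781960350470093640552153088, .ofNat 0⟩)
    (by decide +kernel)
theorem L00445 : Good (Phi V5.P V5.D 1 1) ⟨3, 2, 2, 1, 1, 1, 1, 1, 4, 2⟩ :=
  leafX_sound T5.ok_pp T5.Ypp.bz_eq (w := 183) (c := ⟨⟨.negSucc 1164, .negSucc 213, .ofNat 83, .negSucc 437, .negSucc 450, .negSucc 91⟩, ⟨.negSucc 211, .negSucc 50, .negSucc 389, .negSucc 32, .negSucc 52, .negSucc 30⟩, ⟨.ofNat 654, .ofNat 224, .negSucc 42, .ofNat 85, .ofNat 1095, .ofNat 200⟩, ⟨.negSucc 3114, .negSucc 176, .ofNat 288, .negSucc 1471, .negSucc 1340, .negSucc 204⟩, ⟨.negSucc 820, .ofNat 273, .negSucc 33, .ofNat 1588, .ofNat 959, .negSucc 180⟩, .ofNat 581, .negSucc 288, .ofNat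 0, .negSucc 288, .ofNat 1780, .ofNat 0, .ofNat 253, .ofNat 117, .negSucc 165, .ofNat 0, .ofNat 128, .negSucc 8, .ofNat 0, .ofNat 0, .ofNat 510, .ofNat 354, .ofNat 0, .ofNat 0, .ofNat 0, .ofNat 0, .ofNat 0, .ofNat 58430931179451505313154796361875456, .ofNat 3091875417331188279050103685120, .ofNat 0, .ofNat 0, .ofNat 108948846693499717366649653032910848, .ofNat 720414632146656040612461019136, .ofNat 0, .ofNat 0, .ofNat 118352914997568345575103135190351872, .ofNat 8538585642590355196567533649920, .ofNat 0⟩)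
    (by decide +kernel)
theorem L00446 : Good (Phi V5.P V5.D 1 1) ⟨3, 2, 2, 1, 1, 1, 1, 1, 4, 3⟩ :=
  leafX_sound T5.ok_pp T5.Ypp.bz_eq (w := 183) (c := ⟨⟨.negSucc 1415, .negSucc 186, .ofNat 37, .negSucc 218, .negSucc 211, .ofNat 73⟩, ⟨.negSucc 293, .negSucc 4, .negSucc 328, .negSucc 0, .negSucc 21, .ofNat 8⟩, ⟨.ofNat 895, .ofNat 323, .ofNat 109, .ofNat 127, .ofNat 719, .ofNat 55⟩, ⟨.negSucc 3782, .negSucc 134, .ofNat 178, .negSucc 816, .negSucc 625, .ofNat 228⟩, ⟨.negSucc 742, .ofNat 262, .ofNat 10, .ofNat 1086, .ofNat 490, .negSucc 152⟩, .ofNat 674, .negSucc 465, .ofNat 0, .negSucc 465, .ofNat 2595, .ofNat 0, .ofNat 259, .ofNat 128, .negSucc 106, .ofNat 0, .ofNat 122, .negSucc 7, .ofNat 0, .ofNat 0, .ofNat 630, .ofNat 473, .ofNat 0, .ofNat 0, .ofNat 178006163279494627729956929536, .ofNat 0, .ofNat 0, .ofNat 257303865324945311488900583011647488, .ofNat 2375213246461586536214449618944,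 .ofNat 0, .ofNat 0, .ofNat 204990419886841623312933983723978752, .ofNat 4237694122312255166419348488192, .ofNat 0, .ofNat 0, .ofNat 425445478189854958075480007069663232, .ofNat 10690041065689672555725066338304, .ofNat 0⟩)
    (by decide +kernel)
theorem L00447 : Good (Phi V5.P V5.D 1 1) ⟨3, 3, 2, 1, 1, 1, 1, 1, 3, 1⟩ :=
  out_sound (S := T5.ds_pp) T5.ok_pp (w := 43) (j := 3) (by decide +kernel)
theorem L00448 : Good (Phi V5.P V5.D 1 1) ⟨2, 1, 2, 1, 1, 1, 2, 2, 4, 4⟩ :=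
  leafX_sound T5.ok_pp T5.Ypp.bz_eq (w := 182) (c := ⟨⟨.negSucc 1389, .negSucc 341, .ofNat 2, .negSucc 151, .negSucc 50, .ofNat 89⟩, ⟨.negSucc 284, .negSucc 9, .negSucc 295, .negSucc 14, .negSucc 7, .ofNat 17⟩, ⟨.ofNat 1126, .ofNat 344, .negSucc 77, .ofNat 103, .ofNat 201, .ofNat 10⟩, ⟨.negSucc 3748, .negSucc 176, .ofNat 88, .negSucc 492, .negSucc 133, .ofNat 243⟩, ⟨.negSucc 453, .ofNat 51, .negSucc 103, .ofNat 442, .ofNat 8, .negSucc 15⟩, .ofNat 580, .negSucc 282, .ofNat 0, .negSucc 282, .ofNat 1766, .ofNat 0, .ofNat 158, .ofNat 96, .negSucc 41, .ofNat 0, .ofNat 128, .negSucc 0, .ofNat 0, .ofNat 0, .ofNat 464, .ofNat 407, .ofNat 0, .ofNat 0, .ofNat 0, .ofNat 0, .ofNat 0, .ofNat 19758983281540858235186032450469888, .ofNat 128206211670267079825391911698432, .ofNat 0, .ofNat 0, .ofNat 0, .ofNat 0, .ofNat 0, .ofNat 0, .ofNat 72247370270412243177406797950484480,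 .ofNat 358170386709783024786484469170176, .ofNat 0⟩)
    (by decide +kernel)
theorem L00449 : Good (Phi V5.P V5.D 1 1) ⟨2, 1, 2, 1, 1, 1, 2, 2, 4, 5⟩ :=
  leafX_sound T5.ok_pp T5.Ypp.bz_eq (w := 183) (c := ⟨⟨.negSucc 1310, .negSucc 326, .ofNat 16, .negSucc 120, .negSucc 51, .ofNat 84⟩, ⟨.negSucc 267, .negSucc 8, .negSucc 271, .negSucc 22, .negSucc 8, .ofNat 16⟩, ⟨.ofNat 1173, .ofNat 303, .negSucc 175, .ofNat 183, .ofNat 69, .negSucc 10⟩, ⟨.negSucc 3538, .negSucc 176, .ofNat 116, .negSucc 311, .negSucc 136, .ofNat 222⟩, ⟨.negSucc 394, .negSucc 38, .ofNat 6, .negSucc 51, .ofNat 3, .ofNat 18⟩, .ofNat 578, .negSucc 277, .ofNat 0, .negSucc 277, .ofNat 1763, .ofNat 0, .ofNat 344, .ofNat 94, .negSucc 51, .ofNat 0, .ofNat 128, .negSucc 4, .ofNat 0, .ofNat 0, .ofNat 1040, .ofNat 729, .ofNat 0, .ofNat 0, .ofNat 0, .ofNat 0, .ofNat 0, .ofNat 245760338787821747524906040778817536,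 .ofNat 1486010254935345612135837321920512, .ofNat 0, .ofNat 0, .ofNat 150696458248269107259495846965673984, .ofNat 1315971469524606354061519136751616, .ofNat 0, .ofNat 0, .ofNat 488634006016538346754157086649614336, .ofNat 1145683434919152340877124304896000, .ofNat 0⟩)
    (by decide +kernel)
theorem L00450 : Good (Phi V5.P V5.D 1 1) ⟨2, 1, 2, 1, 1, 1, 2, 3, 3, 2⟩ :=
  leafX_sound T5.ok_pp T5.Ypp.bz_eq (w := 179) (c := ⟨⟨.negSucc 1384, .negSucc 446, .negSucc 35, .negSucc 384, .negSucc 175, .ofNat 133⟩, ⟨.negSucc 279, .negSucc 43, .negSucc 303, .negSucc 67, .negSucc 34, .ofNat 31⟩, ⟨.ofNat 1232, .ofNat 490, .negSucc 116, .ofNat 648, .ofNat 94, .negSucc 179⟩, ⟨.negSucc 3749, .negSucc 358, .ofNat 16, .negSucc 1052, .negSucc 475, .ofNat 327⟩, ⟨.negSucc 410, .negSucc 224, .ofNat 19, .ofNat 132, .ofNat 40, .ofNat 92⟩, .ofNat 577, .negSucc 286, .ofNat 0, .negSucc 286,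 .ofNat 1803, .ofNat 0, .ofNat 431, .ofNat 103, .negSucc 78, .ofNat 0, .ofNat 128, .negSucc 9, .ofNat 0, .ofNat 0, .ofNat 854, .ofNat 757, .ofNat 0, .ofNat 0, .ofNat 911012810996932074789641650176, .ofNat 0, .ofNat 0, .ofNat 39848846071970356227969190436274176, .ofNat 81121283270308055866808240963584, .ofNat 0, .ofNat 0, .ofNat 27970112108433948564041221548277760, .ofNat 28576899710329844718710420406272, .ofNat 0, .ofNat 0, .ofNat 50653707963856504969839742304649216, .ofNat 22166715590861186075224686198784, .ofNat 0⟩)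
    (by decide +kernel)
theorem L00451 : Good (Phi V5.P V5.D 1 1) ⟨2, 1, 2, 1, 1, 1, 1, 1, 3, 3⟩ :=
  leafX_sound T5.ok_pp T5.Ypp.bz_eq (w := 175) (c := ⟨⟨.negSucc 1229, .negSucc 303, .ofNat 4, .negSucc 80, .negSucc 117, .ofNat 172⟩, ⟨.negSucc 250, .negSucc 9, .negSucc 254, .negSucc 20, .negSucc 21, .ofNat 38⟩, ⟨.ofNat 1183, .ofNat 257, .negSucc 210, .ofNat 268, .negSucc 135, .negSucc 126⟩, ⟨.negSucc 3328, .negSucc 129, .ofNat 68, .negSucc 173, .negSucc 320, .ofNat 439⟩, ⟨.negSucc 361, .negSucc 66, .ofNat 40, .negSucc 151, .ofNat 34, .ofNat 80⟩, .ofNat 578, .negSucc 287, .ofNat 0, .negSucc 287, .ofNat 1804, .ofNat 0, .ofNat 390, .ofNat 96, .negSucc 46, .ofNat 0, .ofNat 128, .negSucc 10, .ofNat 0, .ofNat 0, .ofNat 1914, .ofNat 1133, .ofNat 0, .ofNat 55749523717402550122725089738752, .ofNat 14121606110441991319008051200, .ofNat 0, .ofNat 0, .ofNat 35981527939202918921245194918559744,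 .ofNat 4912339127817240318253509640192, .ofNat 0, .ofNat 0, .ofNat 10561232715178285667736489688039424, .ofNat 5379681572089804615519821627392, .ofNat 0, .ofNat 0, .ofNat 76179259994470543721875136296517632, .ofNat 6101246524746694345547684249600, .ofNat 0⟩)
    (by decide +kernel)
theorem L00452 : Good (Phi V5.P V5.D 1 1) ⟨2, 1, 2, 1, 4, 8, 3, 4, 4, 8⟩ :=
  out_sound (S := T5.ds_pp) T5.ok_pp (w := 29) (j := 1) (by decide +kernel)
theorem L00453 : Good (Phi V5.P V5.D 1 1) ⟨2, 1, 2, 1, 4, 8, 3, 5, 4, 8⟩ :=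
  out_sound (S := T5.ds_pp) T5.ok_pp (w := 36) (j := 2) (by decide +kernel)
theorem L00454 : Good (Phi V5.P V5.D 1 1) ⟨2, 1, 2, 1, 4, 8, 2, 2, 4, 9⟩ :=
  out_sound (S := T5.ds_pp) T5.ok_pp (w := 28) (j := 1) (by decide +kernel)
theorem L00455 : Good (Phi V5.P V5.D 1 1) ⟨2, 1, 2, 1, 4, 9, 2, 2, 3, 4⟩ :=
  out_sound (S := T5.ds_pp) T5.ok_pp (w := 32) (j := 2) (by decide +kernel)
theorem L00456 : Good (Phi V5.P V5.D 1 1) ⟨2, 1, 2, 1, 3, 4, 2, 3, 3, 4⟩ :=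
  out_sound (S := T5.ds_pp) T5.ok_pp (w := 30) (j := 2) (by decide +kernel)
theorem L00457 : Good (Phi V5.P V5.D 1 1) ⟨2, 1, 2, 1, 3, 4, 1, 1, 3, 5⟩ :=
  out_sound (S := T5.ds_pp) T5.ok_pp (w := 28) (j := 2) (by decide +kernel)
theorem L00458 : Good (Phi V5.P V5.D 1 1) ⟨2, 1, 2, 1, 3, 5, 1, 1, 2, 2⟩ :=
  out_sound (S := T5.ds_pp) T5.ok_pp (w := 26) (j := 2) (by decide +kernel)
theorem L00459 : Good (Phi V5.P V5.D 1 1) ⟨2, 1, 2, 1, 2, 2, 1, 1, 2, 3⟩ :=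
  out_sound (S := T5.ds_pp) T5.ok_pp (w := 24) (j := 2) (by decide +kernel)
theorem L00460 : Good (Phi V5.P V5.D 1 1) ⟨2, 1, 2, 1, 2, 3, 1, 1, 1, 1⟩ :=
  out_sound (S := T5.ds_pp) T5.ok_pp (w := 22) (j := 2) (by decide +kernel)
theorem L00461 : Good (Phi V5.P V5.D 1 1) ⟨2, 0, 3, 4, 1, 0, 4, 0, 3, 0⟩ :=
  leafX_sound T5.ok_pp T5.Ypp.bz_eq (w := 191) (c := ⟨⟨.ofNat 449, .ofNat 190, .ofNat 10, .negSucc 5, .ofNat 43, .negSucc 1834⟩, ⟨.ofNat 208, .ofNat 149, .negSucc 3, .negSucc 40, .ofNat 49, .negSucc 941⟩, ⟨.negSucc 344, .negSucc 329, .negSucc 128, .ofNat 105, .negSucc 62, .ofNat 1706⟩, ⟨.ofNat 1396, .ofNat 429, .ofNat 77, .ofNat 352, .ofNat 106, .negSucc 5520⟩, ⟨.negSucc 96, .ofNat 167, .ofNat 16, .negSucc 707, .ofNat 38, .ofNat 18⟩, .ofNat 818, .negSucc 585, .ofNat 0, .negSucc 585, .ofNat 1499, .ofNat 0, .ofNat 133, .ofNat 123, .negSucc 150, .ofNat 0, .ofNat 128,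 .negSucc 58, .ofNat 0, .ofNat 0, .ofNat 701, .ofNat 8854, .ofNat 0, .ofNat 0, .ofNat 0, .ofNat 0, .ofNat 0, .ofNat 0, .ofNat 5528773767722202848664630406938624, .ofNat 0, .ofNat 0, .ofNat 0, .ofNat 7335689762781484350011530635378688, .ofNat 0, .ofNat 0, .ofNat 0, .ofNat 0, .ofNat 0⟩)
    (by decide +kernel)
theorem L00462 : Good (Phi V5.P V5.D 1 1) ⟨2, 0, 3, 4, 1, 1, 4, 0, 3, 0⟩ :=
  leafX_sound T5.ok_pp T5.Ypp.bz_eq (w := 190) (c := ⟨⟨.ofNat 543, .ofNat 81, .negSucc 103, .ofNat 34, .ofNat 77, .negSucc 1905⟩, ⟨.ofNat 239, .ofNat 106, .negSucc 87, .ofNat 56, .ofNat 46, .negSucc 1007⟩, ⟨.negSucc 84, .negSucc 422, .ofNat 93, .negSucc 127, .negSucc 144, .ofNat 835⟩, ⟨.ofNat 2112, .ofNat 41, .negSucc 239, .negSucc 422, .ofNat 99, .negSucc 5329⟩, ⟨.negSucc 994, .ofNat 405, .ofNat 60, .ofNat 988, .ofNat 253, .negSucc 683⟩, .ofNat 1560, .negSucc 1718, .ofNat 0, .negSucc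 1718, .ofNat 3550, .ofNat 0, .ofNat 153, .ofNat 128, .negSucc 44, .ofNat 0, .ofNat 95, .negSucc 20, .ofNat 0, .ofNat 0, .ofNat 316, .ofNat 3837, .ofNat 0, .ofNat 0, .ofNat 45256926823226804380329687646208, .ofNat 0, .ofNat 0, .ofNat 0, .ofNat 0, .ofNat 0, .ofNat 0, .ofNat 0, .ofNat 2564998472005977376531908189487104, .ofNat 0, .ofNat 0, .ofNat 0, .ofNat 4812082686696584591234624342982656, .ofNat 0⟩)
    (by decide +kernel)
theorem L00463 : Good (Phi V5.P V5.D 1 1) ⟨2, 0, 3, 4, 1, 0, 4, 0, 3, 1⟩ :=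
  leafX_sound T5.ok_pp T5.Ypp.bz_eq (w := 194) (c := ⟨⟨.negSucc 1170, .ofNat 37, .negSucc 17, .negSucc 23, .negSucc 13, .negSucc 612⟩, ⟨.negSucc 602, .ofNat 139, .negSucc 141, .negSucc 51, .ofNat 3, .negSucc 310⟩, ⟨.ofNat 1144, .negSucc 67, .ofNat 40, .negSucc 559, .ofNat 314, .negSucc 527⟩, ⟨.negSucc 3414, .ofNat 122, .negSucc 12, .ofNat 306, .negSucc 128, .negSucc 1603⟩, ⟨.negSucc 150, .ofNat 91, .ofNat 3, .negSucc 775, .ofNat 133, .negSucc 189⟩, .ofNat 812, .negSucc 576, .ofNat 0, .negSucc 576, .ofNat 1494, .ofNat 0, .ofNat 128, .ofNat 168, .negSucc 219, .ofNat 0, .ofNat 176, .negSucc 70, .ofNat 0, .ofNat 0, .ofNat 1480, .ofNat 61483, .ofNat 769192927966574515795244899276316213248, .ofNat 0, .ofNat 0, .ofNat 0, .ofNat 1769384739260974448097375837173655273472, .ofNat 0, .ofNat 5735651894227228658816443333214208, .ofNat 0, .ofNat 1789072577578529309443664751672879480832,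 .ofNat 0, .ofNat 0, .ofNat 0, .ofNat 0, .ofNat 0, .ofNat 0, .ofNat 0⟩)
    (by decide +kernel)
theorem L00464 : Good (Phi V5.P V5.D 1 1) ⟨2, 0, 3, 4, 1, 1, 4, 0, 3, 1⟩ :=
  leafX_sound T5.ok_pp T5.Ypp.bz_eq (w := 191) (c := ⟨⟨.negSucc 1306, .ofNat 84, .negSucc 33, .ofNat 162, .negSucc 70, .negSucc 76⟩, ⟨.negSucc 728, .ofNat 209, .negSucc 132, .ofNat 92, .negSucc 29, .negSucc 54⟩, ⟨.ofNat 740, .negSucc 214, .ofNat 149, .negSucc 299, .ofNat 35, .ofNat 278⟩, ⟨.negSucc 3313, .ofNat 83, .ofNat 88, .ofNat 338, .negSucc 258, .negSucc 76⟩, ⟨.negSucc 1230, .ofNat 419, .negSucc 110, .ofNat 286, .ofNat 104, .negSucc 305⟩, .ofNat 1983, .negSucc 2430, .ofNat 0, .negSucc 2430, .ofNat 4848, .ofNat 0, .ofNat 128, .ofNat 312, .negSucc 46, .ofNat 0, .ofNat 244, .negSucc 15, .ofNat 0, .ofNat 0, .ofNat 508, .ofNat 8726, .ofNat 34972485244839427886121444861676617728, .ofNat 0, .ofNat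 216855088057576676032493595394048, .ofNat 0, .ofNat 246136562270325152721060611329217265664, .ofNat 0, .ofNat 9718155652021726756482519863918592, .ofNat 0, .ofNat 0, .ofNat 0, .ofNat 0, .ofNat 0, .ofNat 271756207285244370008479756752672260096, .ofNat 0, .ofNat 2390022102170031136979346046058496, .ofNat 0⟩)
    (by decide +kernel)
theorem L00465 : Good (Phi V5.P V5.D 1 1) ⟨2, 0, 3, 4, 1, 0, 4, 0, 3, 2⟩ :=
  out_sound (S := T5.ds_pp) T5.ok_pp (w := 22) (j := 1) (by decide +kernel)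
theorem L00466 : Good (Phi V5.P V5.D 1 1) ⟨2, 0, 3, 4, 1, 1, 4, 0, 3, 2⟩ :=
  leafX_sound T5.ok_pp T5.Ypp.bz_eq (w := 192) (c := ⟨⟨.negSucc 1572, .ofNat 61, .negSucc 23, .ofNat 387, .negSucc 19, .ofNat 205⟩, ⟨.negSucc 856, .ofNat 194, .negSucc 116, .ofNat 183, .negSucc 6, .ofNat 115⟩, ⟨.ofNat 1431, .negSucc 28, .ofNat 109, .negSucc 775, .ofNat 0, .ofNat 235⟩, ⟨.negSucc 4152, .ofNat 16, .ofNat 109, .ofNat 1211, .negSucc 90, .ofNat 518⟩, ⟨.negSucc 1097, .ofNat 395, .negSucc 68, .negSucc 144, .ofNat 54, .ofNat 159⟩, .ofNat 1319, .negSucc 1333, .ofNat 0, .negSucc 1333, .ofNat 2882, .ofNat 0, .ofNat 128, .ofNat 166, .negSucc 31, .ofNat 0, .ofNat 152, .ofNat 2, .ofNat 0, .ofNat 0, .ofNat 880, .ofNat 16512, .ofNat 85858786757315480687694991768237899776, .ofNat 0, .ofNat 0, .ofNat 0, .ofNat 0, .ofNat 0, .ofNat 0, .ofNat 0, .ofNat 0, .ofNat 0, .ofNat 0, .ofNat 0, .ofNat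 941493785116443083546513049162914725888, .ofNat 3158025491242442835922698833183637504, .ofNat 23656742782356118066319736830951424, .ofNat 0⟩)
    (by decide +kernel)
theorem L00467 : Good (Phi V5.P V5.D 1 1) ⟨2, 0, 3, 4, 1, 0, 4, 0, 3, 3⟩ :=
  out_sound (S := T5.ds_pp) T5.ok_pp (w := 22) (j := 1) (by decide +kernel)
theorem L00468 : Good (Phi V5.P V5.D 1 1) ⟨2, 0, 3, 4, 2, 2, 4, 0, 3, 3⟩ :=
  out_sound (S := T5.ds_pp) T5.ok_pp (w := 24) (j := 1) (by decide +kernel)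
theorem L00469 : Good (Phi V5.P V5.D 1 1) ⟨2, 0, 3, 4, 3, 6, 4, 0, 3, 3⟩ :=
  out_sound (S := T5.ds_pp) T5.ok_pp (w := 26) (j := 1) (by decide +kernel)
theorem L00470 : Good (Phi V5.P V5.D 1 1) ⟨2, 0, 3, 4, 3, 7, 4, 0, 3, 3⟩ :=
  out_sound (S := T5.ds_pp) T5.ok_pp (w := 34) (j := 2) (by decide +kernel)
theorem L00471 : Good (Phi V5.P V5.D 1 1) ⟨2, 0, 3, 5, 0, 0, 4, 0, 1, 0⟩ :=
  out_sound (S := T5.ds_pp) T5.ok_pp (w := 39) (j := 3) (by decide +kernel)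
theorem L00472 : Good (Phi V5.P V5.D 1 1) ⟨2, 0, 2, 2, 1, 0, 4, 0, 1, 1⟩ :=
  out_sound (S := T5.ds_pp) T5.ok_pp (w := 18) (j := 1) (by decide +kernel)
theorem L00473 : Good (Phi V5.P V5.D 1 1) ⟨2, 0, 2, 2, 2, 2, 4, 0, 1, 1⟩ :=
  out_sound (S := T5.ds_pp) T5.ok_pp (w := 20) (j := 1) (by decide +kernel)
theorem L00474 : Good (Phi V5.P V5.D 1 1) ⟨2, 0, 2, 2, 2, 3, 4, 0, 1, 1⟩ :=
  out_sound (S := T5.ds_pp) T5.ok_pp (w := 28) (j := 2) (by decide +kernel)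
theorem L00475 : Good (Phi V5.P V5.D 1 1) ⟨3, 0, 2, 2, 1, 0, 4, 1, 3, 0⟩ :=
  leafX_sound T5.ok_pp T5.Ypp.bz_eq (w := 191) (c := ⟨⟨.ofNat 526, .ofNat 44, .negSucc 330, .ofNat 113, .ofNat 39, .negSucc 1954⟩, ⟨.ofNat 251, .ofNat 23, .negSucc 154, .ofNat 36, .ofNat 24, .negSucc 986⟩, ⟨.negSucc 459, .negSucc 94, .ofNat 402, .ofNat 104, .negSucc 119, .ofNat 1837⟩, ⟨.ofNat 1599, .ofNat 90, .negSucc 708, .ofNat 574, .ofNat 108, .negSucc 5820⟩, ⟨.negSucc 23, .ofNat 39, .negSucc 439, .negSucc 474, .ofNat 16, .negSucc 128⟩, .ofNat 812, .negSucc 576, .ofNat 0, .negSucc 576, .ofNat 1496, .ofNat 0, .ofNat 129, .ofNat 123, .negSucc 157, .ofNat 0, .ofNat 128, .negSucc 62, .ofNat 0, .ofNat 0, .ofNat 623, .ofNat 2823, .ofNat 0, .ofNat 0, .ofNat 0, .ofNat 0, .ofNat 0, .ofNat 0, .ofNat 1089540180854298649353707411472384, .ofNat 0, .ofNat 0, .ofNat 0, .ofNat 541521300851820288851955391922176,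 .ofNat 0, .ofNat 0, .ofNat 0, .ofNat 0, .ofNat 0⟩)
    (by decide +kernel)
theorem L00476 : Good (Phi V5.P V5.D 1 1) ⟨3, 0, 2, 2, 1, 0, 4, 1, 3, 1⟩ :=
  leafX_sound T5.ok_pp T5.Ypp.bz_eq (w := 193) (c := ⟨⟨.negSucc 1193, .ofNat 12, .negSucc 50, .negSucc 33, .ofNat 11, .negSucc 343⟩, ⟨.negSucc 605, .ofNat 71, .negSucc 314, .negSucc 53, .ofNat 6, .negSucc 165⟩, ⟨.ofNat 1453, .negSucc 13, .ofNat 161, .negSucc 629, .ofNat 2, .ofNat 436⟩, ⟨.negSucc 3557, .ofNat 68, .negSucc 50, .ofNat 242, .negSucc 0, .negSucc 1037⟩, ⟨.negSucc 72, .ofNat 26, .ofNat 5, .negSucc 680, .ofNat 59, .ofNat 53⟩, .ofNat 1353, .negSucc 1386, .ofNat 0, .negSucc 1386, .ofNat 2955, .ofNat 0, .ofNat 128, .ofNat 223, .negSucc 156, .ofNat 0, .ofNat 187, .negSucc 66, .ofNat 0, .ofNat 0, .ofNat 1210, .ofNat 12355, .ofNat 0, .ofNat 0, .ofNat 0, .ofNat 0, .ofNat 815087659347201874377150074995534200832,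 .ofNat 0, .ofNat 2760380999784219935186438280183808, .ofNat 0, .ofNat 0, .ofNat 0, .ofNat 0, .ofNat 0, .ofNat 0, .ofNat 0, .ofNat 0, .ofNat 0⟩)
    (by decide +kernel)
theorem L00477 : Good (Phi V5.P V5.D 1 1) ⟨3, 0, 2, 2, 1, 0, 4, 1, 2, 1⟩ :=
  out_sound (S := T5.ds_pp) T5.ok_pp (w := 20) (j := 1) (by decide +kernel)
theorem L00478 : Good (Phi V5.P V5.D 1 1) ⟨3, 0, 2, 2, 1, 0, 4, 1, 1, 1⟩ :=
  out_sound (S := T5.ds_pp) T5.ok_pp (w := 18) (j := 1) (by decide +kernel)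
theorem L00479 : Good (Phi V5.P V5.D 1 1) ⟨3, 0, 2, 2, 1, 1, 4, 1, 3, 0⟩ :=
  leafX_sound T5.ok_pp T5.Ypp.bz_eq (w := 191) (c := ⟨⟨.ofNat 657, .ofNat 137, .negSucc 33, .negSucc 24, .ofNat 95, .negSucc 2061⟩, ⟨.ofNat 305, .ofNat 80, .negSucc 75, .ofNat 31, .ofNat 45, .negSucc 1071⟩, ⟨.negSucc 299, .negSucc 193, .ofNat 305, .negSucc 105, .negSucc 89, .ofNat 979⟩, ⟨.ofNat 2168, .ofNat 434, .ofNat 517, .negSucc 676, .ofNat 225, .negSucc 5591⟩, ⟨.negSucc 445, .negSucc 25, .negSucc 792, .ofNat 1154, .ofNat 101, .negSucc 1076⟩, .ofNat 1318, .negSucc 1334, .ofNat 0, .negSucc 1334, .ofNat 2894, .ofNat 0, .ofNat 200, .ofNat 128, .negSucc 70, .ofNat 0, .ofNat 98, .negSucc 30, .ofNat 0, .ofNat 0, .ofNat 424, .ofNat 2137, .ofNat 0, .ofNat 0, .ofNat 0, .ofNat 0, .ofNat 0, .ofNat 0, .ofNat 0, .ofNat 0, .ofNat 0, .ofNat 0, .ofNat 757541640152229998263473404903424, .ofNat 0,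 .ofNat 0, .ofNat 0, .ofNat 0, .ofNat 0⟩)
    (by decide +kernel)
theorem L00480 : Good (Phi V5.P V5.D 1 1) ⟨3, 0, 2, 2, 1, 1, 4, 1, 3, 1⟩ :=
  leafX_sound T5.ok_pp T5.Ypp.bz_eq (w := 192) (c := ⟨⟨.negSucc 1399, .ofNat 53, .negSucc 2, .ofNat 198, .negSucc 22, .negSucc 86⟩, ⟨.negSucc 756, .ofNat 107, .negSucc 258, .ofNat 93, .negSucc 7, .negSucc 54⟩, ⟨.ofNat 800, .negSucc 54, .ofNat 174, .negSucc 413, .negSucc 19, .ofNat 351⟩, ⟨.negSucc 3786, .ofNat 106, .ofNat 363, .ofNat 653, .negSucc 114, .negSucc 141⟩, ⟨.negSucc 832, .ofNat 146, .negSucc 281, .negSucc 126, .ofNat 92, .negSucc 237⟩, .ofNat 1322, .negSucc 1337, .ofNat 0, .negSucc 1337, .ofNat 2887, .ofNat 0, .ofNat 128, .ofNat 164, .negSucc 35, .ofNat 0, .ofNat 138, .negSucc 9, .ofNat 0, .ofNat 0, .ofNat 380, .ofNat 6145, .ofNat 0, .ofNat 0, .ofNat 37147856346966026027916956008448, .ofNat 0, .ofNat 0, .ofNat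 0, .ofNat 0, .ofNat 0, .ofNat 0, .ofNat 0, .ofNat 0, .ofNat 0, .ofNat 48485571345516663553010259525493587968, .ofNat 0, .ofNat 1264049908824327797471957485617152, .ofNat 0⟩)
    (by decide +kernel)
theorem L00481 : Good (Phi V5.P V5.D 1 1) ⟨3, 0, 2, 2, 2, 2, 4, 1, 3, 2⟩ :=
  leafX_sound T5.ok_pp T5.Ypp.bz_eq (w := 212) (c := ⟨⟨.negSucc 1443, .ofNat 14, .negSucc 63, .ofNat 77, .negSucc 3, .ofNat 172⟩, ⟨.negSucc 768, .ofNat 85, .negSucc 298, .ofNat 24, .negSucc 1, .ofNat 97⟩, ⟨.ofNat 1177, .negSucc 91, .ofNat 291, .negSucc 172, .negSucc 50, .ofNat 271⟩, ⟨.negSucc 3995, .ofNat 20, .ofNat 46, .ofNat 377, .negSucc 27, .ofNat 424⟩, ⟨.negSucc 684, .ofNat 94, .negSucc 28, .negSucc 290, .ofNat 30, .ofNat 176⟩, .ofNat 451, .negSucc 174, .ofNat 0, .negSucc 174, .ofNat 653, .ofNat 0, .ofNat 342, .ofNat 67, .negSucc 113, .ofNat 0, .ofNat 128, .ofNat 20, .ofNat 0, .ofNat 0,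 .ofNat 1030, .ofNat 473774, .ofNat 15332821115665841651985045601873116734160896, .ofNat 0, .ofNat 0, .ofNat 0, .ofNat 30388256509179950507994089039623035467857920, .ofNat 0, .ofNat 0, .ofNat 0, .ofNat 30821351531750857209406514310159174543081472, .ofNat 0, .ofNat 13710907838214042325566880661081423872, .ofNat 0, .ofNat 25909999951722267352635585011151957437448192, .ofNat 0, .ofNat 91913421572450170263797606249968697344, .ofNat 0⟩)
    (by decide +kernel)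
theorem L00482 : Good (Phi V5.P V5.D 1 1) ⟨3, 0, 2, 2, 2, 3, 4, 1, 3, 2⟩ :=
  leafX_sound T5.ok_pp T5.Ypp.bz_eq (w := 207) (c := ⟨⟨.negSucc 1379, .ofNat 17, .negSucc 50, .ofNat 173, .negSucc 13, .ofNat 214⟩, ⟨.negSucc 760, .ofNat 86, .negSucc 249, .ofNat 82, .negSucc 3, .ofNat 118⟩, ⟨.ofNat 989, .negSucc 26, .ofNat 178, .negSucc 312, .negSucc 17, .ofNat 226⟩, ⟨.negSucc 3627, .negSucc 22, .ofNat 170, .ofNat 605, .negSucc 62, .ofNat 559⟩, ⟨.negSucc 1033, .ofNat 173, .negSucc 120, .negSucc 170, .ofNat 45, .ofNat 155⟩, .ofNat 816, .negSucc 582, .ofNat 0, .negSucc 582, .ofNat 1497, .ofNat 0, .ofNat 128, .ofNat 217, .negSucc 78, .ofNat 0, .ofNat 253, .ofNat 11, .ofNat 0, .ofNat 0, .ofNat 1695, .ofNat 15783, .ofNat 88413714661565748779868787954521011650560, .ofNat 0, .ofNat 3944391577846413906182354625061978112, .ofNat 0, .ofNat 0, .ofNat 6105933696745805358370370263050268704768,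 .ofNat 12859958719138942935732506382674427904, .ofNat 0, .ofNat 0, .ofNat 12262792455501585669301574054809171918848, .ofNat 123253355927928208200169596936446279680, .ofNat 0, .ofNat 0, .ofNat 50127177630632236708015787835801783500800, .ofNat 180389912513606382873421882138917076992, .ofNat 0⟩)
    (by decide +kernel)
theorem L00483 : Good (Phi V5.P V5.D 1 1) ⟨3, 0, 2, 2, 2, 2, 4, 1, 3, 3⟩ :=
  out_sound (S := T5.ds_pp) T5.ok_pp (w := 24) (j := 1) (by decide +kernel)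
theorem L00484 : Good (Phi V5.P V5.D 1 1) ⟨3, 0, 2, 2, 3, 6, 4, 1, 3, 3⟩ :=
  out_sound (S := T5.ds_pp) T5.ok_pp (w := 26) (j := 1) (by decide +kernel)
theorem L00485 : Good (Phi V5.P V5.D 1 1) ⟨3, 0, 2, 2, 3, 7, 4, 1, 3, 3⟩ :=
  out_sound (S := T5.ds_pp) T5.ok_pp (w := 34) (j := 2) (by decide +kernel)
theorem L00486 : Good (Phi V5.P V5.D 1 1) ⟨3, 0, 2, 2, 2, 2, 4, 1, 1, 1⟩ :=
  out_sound (S := T5.ds_pp) T5.ok_pp (w := 20) (j := 1) (by decide +kernel)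
theorem L00487 : Good (Phi V5.P V5.D 1 1) ⟨3, 0, 2, 2, 2, 3, 4, 1, 1, 1⟩ :=
  out_sound (S := T5.ds_pp) T5.ok_pp (w := 28) (j := 2) (by decide +kernel)
theorem L00488 : Good (Phi V5.P V5.D 1 1) ⟨3, 1, 2, 2, 0, 0, 4, 1, 0, 0⟩ :=
  out_sound (S := T5.ds_pp) T5.ok_pp (w := 43) (j := 3) (by decide +kernel)
theorem L00489 : Good (Phi V5.P V5.D 1 1) ⟨2, 0, 2, 3, 0, 0, 3, 0, 0, 0⟩ :=
  out_sound (S := T5.ds_pp) T5.ok_pp (w := 37) (j := 3) (by decide +kernel)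
theorem L00490 : Good (Phi V5.P V5.D 1 1) ⟨2, 1, 1, 1, 0, 0, 3, 0, 0, 0⟩ :=
  out_sound (S := T5.ds_pp) T5.ok_pp (w := 35) (j := 3) (by decide +kernel)
theorem L00491 : Good (Phi V5.P V5.D 1 1) ⟨2, 0, 3, 4, 1, 0, 4, 2, 3, 0⟩ :=
  leafX_sound T5.ok_pp T5.Ypp.bz_eq (w := 190) (c := ⟨⟨.ofNat 540, .ofNat 110, .negSucc 18, .ofNat 128, .negSucc 43, .negSucc 1891⟩, ⟨.ofNat 268, .ofNat 82, .negSucc 11, .ofNat 39, .negSucc 23, .negSucc 952⟩, ⟨.negSucc 525, .ofNat 114, .ofNat 197, .negSucc 43, .negSucc 53, .ofNat 1745⟩, ⟨.ofNat 1604, .ofNat 131, .ofNat 110, .ofNat 603, .negSucc 99, .negSucc 5557⟩, ⟨.negSucc 27, .ofNat 401, .negSucc 153, .negSucc 440, .negSucc 39, .negSucc 161⟩, .ofNat 1309, .negSucc 1323, .ofNat 0, .negSucc 1323, .ofNat 2886, .ofNat 0, .ofNat 128, .ofNat 230, .negSucc 180, .ofNat 0, .ofNat 193, .negSucc 81, .ofNat 0, .ofNat 0, .ofNat 779, .ofNat 3477,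 .ofNat 0, .ofNat 0, .ofNat 0, .ofNat 0, .ofNat 0, .ofNat 0, .ofNat 9116447040723770602568473492062208, .ofNat 0, .ofNat 0, .ofNat 0, .ofNat 16559044581897508348250820790190080, .ofNat 0, .ofNat 0, .ofNat 0, .ofNat 0, .ofNat 0⟩)
    (by decide +kernel)
theorem L00492 : Good (Phi V5.P V5.D 1 1) ⟨2, 0, 3, 4, 1, 0, 4, 2, 3, 1⟩ :=
  leafX_sound T5.ok_pp T5.Ypp.bz_eq (w := 192) (c := ⟨⟨.negSucc 1218, .ofNat 9, .negSucc 33, .negSucc 67, .ofNat 18, .negSucc 137⟩, ⟨.negSucc 617, .ofNat 139, .negSucc 166, .negSucc 67, .ofNat 9, .negSucc 63⟩, ⟨.ofNat 1459, .ofNat 65, .ofNat 77, .negSucc 586, .negSucc 73, .ofNat 324⟩, ⟨.negSucc 3640, .ofNat 45, .negSucc 47, .ofNat 134, .ofNat 38, .negSucc 459⟩, ⟨.negSucc 51, .ofNat 107, .negSucc 14, .negSucc 660, .ofNat 26, .ofNat 100⟩, .ofNat 820, .negSucc 586, .ofNat 0, .negSucc 586, .ofNat 1495, .ofNat 0, .ofNat 128, .ofNat 142, .negSucc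 71, .ofNat 0, .ofNat 150, .negSucc 22, .ofNat 0, .ofNat 0, .ofNat 569, .ofNat 11071, .ofNat 0, .ofNat 0, .ofNat 0, .ofNat 0, .ofNat 0, .ofNat 0, .ofNat 8117944723299652125960336442392576, .ofNat 0, .ofNat 0, .ofNat 0, .ofNat 10071328189824070475571930970718208, .ofNat 0, .ofNat 0, .ofNat 0, .ofNat 0, .ofNat 0⟩)
    (by decide +kernel)
theorem L00493 : Good (Phi V5.P V5.D 1 1) ⟨2, 1, 3, 4, 1, 0, 4, 2, 2, 0⟩ :=
  out_sound (S := T5.ds_pp) T5.ok_pp (w := 39) (j := 3) (by decide +kernel)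
theorem L00494 : Good (Phi V5.P V5.D 1 1) ⟨1, 0, 3, 4, 1, 0, 4, 2, 3, 2⟩ :=
  leafX_sound T5.ok_pp T5.Ypp.bz_eq (w := 204) (c := ⟨⟨.negSucc 1373, .ofNat 25, .negSucc 25, .negSucc 0, .negSucc 0, .ofNat 1⟩, ⟨.negSucc 725, .ofNat 293, .negSucc 158, .ofNat 0, .ofNat 0, .ofNat 0⟩, ⟨.ofNat 1122, .negSucc 76, .ofNat 73, .ofNat 1, .ofNat 1, .negSucc 0⟩, ⟨.negSucc 3839, .ofNat 165, .negSucc 1, .negSucc 1, .negSucc 1, .ofNat 2⟩, ⟨.negSucc 581, .ofNat 155, .ofNat 4, .ofNat 0, .ofNat 0, .ofNat 0⟩, .ofNat 196, .negSucc 28, .ofNat 0, .negSucc 28, .ofNat 230, .ofNat 0, .ofNat 161, .ofNat 26, .negSucc 104, .ofNat 0, .ofNat 128, .ofNat 40, .ofNat 0, .ofNat 0, .ofNat 435, .ofNat 1000000000, .ofNat 598949310563343396415728535574937600000000, .ofNat 0, .ofNat 0, .ofNat 0, .ofNat 0, .ofNat 0, .ofNat 0, .ofNat 0, .ofNat 0, .ofNat 0, .ofNat 0, .ofNat 0, .ofNat 7580720951887653186591611167101157376,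 .ofNat 0, .ofNat 0, .ofNat 0⟩)
    (by decide +kernel)
theorem L00495 : Good (Phi V5.P V5.D 1 1) ⟨1, 0, 3, 4, 1, 0, 4, 2, 3, 3⟩ :=
  out_sound (S := T5.ds_pp) T5.ok_pp (w := 22) (j := 1) (by decide +kernel)
theorem L00496 : Good (Phi V5.P V5.D 1 1) ⟨1, 0, 3, 4, 1, 0, 4, 2, 1, 1⟩ :=
  out_sound (S := T5.ds_pp) T5.ok_pp (w := 18) (j := 1) (by decide +kernel)
theorem L00497 : Good (Phi V5.P V5.D 1 1) ⟨2, 0, 3, 4, 1, 1, 4, 2, 3, 0⟩ :=
  leafX_sound T5.ok_pp T5.Ypp.bz_eq (w := 190) (c := ⟨⟨.ofNat 754, .ofNat 132, .ofNat 124, .negSucc 36, .ofNat 62, .negSucc 2114⟩, ⟨.ofNat 354, .ofNat 189, .ofNat 58, .ofNat 18, .ofNat 42, .negSucc 1134⟩, ⟨.negSucc 447, .negSucc 175, .ofNat 81, .negSucc 237, .negSucc 41, .ofNat 1085⟩, ⟨.ofNat 2353, .negSucc 290, .ofNat 243, .negSucc 521, .ofNat 255, .negSucc 5561⟩, ⟨.negSucc 217, .ofNat 1183, .ofNat 193, .ofNat 839, .negSucc 121, .negSucc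 1379⟩, .ofNat 1975, .negSucc 2420, .ofNat 0, .negSucc 2420, .ofNat 4833, .ofNat 0, .ofNat 128, .ofNat 167, .negSucc 73, .ofNat 0, .ofNat 122, .negSucc 32, .ofNat 0, .ofNat 0, .ofNat 398, .ofNat 1397, .ofNat 0, .ofNat 0, .ofNat 0, .ofNat 0, .ofNat 0, .ofNat 0, .ofNat 733708624905965609279966171627520, .ofNat 0, .ofNat 0, .ofNat 0, .ofNat 5978953252971339449557135801712640, .ofNat 0, .ofNat 0, .ofNat 0, .ofNat 3809834561303266258031832714969088, .ofNat 0⟩)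
    (by decide +kernel)
theorem L00498 : Good (Phi V5.P V5.D 1 1) ⟨2, 0, 3, 4, 1, 1, 4, 2, 3, 1⟩ :=
  leafX_sound T5.ok_pp T5.Ypp.bz_eq (w := 191) (c := ⟨⟨.negSucc 1368, .ofNat 31, .negSucc 36, .ofNat 124, .negSucc 0, .negSucc 63⟩, ⟨.negSucc 739, .ofNat 182, .negSucc 142, .ofNat 43, .ofNat 3, .negSucc 33⟩, ⟨.ofNat 740, .negSucc 45, .ofNat 134, .negSucc 422, .negSucc 22, .ofNat 376⟩, ⟨.negSucc 3730, .negSucc 38, .negSucc 55, .ofNat 585, .negSucc 48, .negSucc 152⟩, ⟨.negSucc 761, .ofNat 363, .ofNat 109, .negSucc 431, .ofNat 85, .negSucc 72⟩, .ofNat 1701, .negSucc 1958, .ofNat 0, .negSucc 1958, .ofNat 4006, .ofNat 0, .ofNat 128, .ofNat 230, .negSucc 31, .ofNat 0, .ofNat 179, .negSucc 10, .ofNat 0, .ofNat 0, .ofNat 316, .ofNat 4795, .ofNat 0, .ofNat 0, .ofNat 0, .ofNat 0, .ofNat 0, .ofNat 0, .ofNat 6669909426254985771348462938357760, .ofNat 0, .ofNat 0, .ofNat 0,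 .ofNat 0, .ofNat 0, .ofNat 0, .ofNat 0, .ofNat 2431495401138947544442210235711488, .ofNat 0⟩)
    (by decide +kernel)
theorem L00499 : Good (Phi V5.P V5.D 1 1) ⟨3, 0, 3, 4, 1, 1, 4, 2, 4, 4⟩ :=
  leafX_sound T5.ok_pp T5.Ypp.bz_eq (w := 201) (c := ⟨⟨.negSucc 1419, .negSucc 22, .negSucc 51, .ofNat 195, .negSucc 4, .ofNat 85⟩, ⟨.negSucc 757, .ofNat 60, .negSucc 155, .ofNat 77, .ofNat 1, .ofNat 46⟩, ⟨.ofNat 1125, .negSucc 12, .ofNat 71, .negSucc 440, .negSucc 12, .ofNat 119⟩, ⟨.negSucc 3909, .negSucc 93, .negSucc 5, .ofNat 805, .negSucc 40, .ofNat 208⟩, ⟨.negSucc 709, .ofNat 100, .negSucc 72, .negSucc 440, .ofNat 56, .ofNat 88⟩, .ofNat 1067, .negSucc 945, .ofNat 0, .negSucc 945, .ofNat 2177, .ofNat 0, .ofNat 128, .ofNat 199, .negSucc 29, .ofNat 0, .ofNat 189, .negSucc 2, .ofNat 0, .ofNat 0, .ofNat 562, .ofNat 10709, .ofNat 2937290072092992069557283318095526494208,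 .ofNat 0, .ofNat 2322453668314509193084730045628416, .ofNat 0, .ofNat 0, .ofNat 0, .ofNat 0, .ofNat 0, .ofNat 0, .ofNat 0, .ofNat 0, .ofNat 0, .ofNat 0, .ofNat 15557619362718097577100372655546040320, .ofNat 213343309871986271109706546302418944, .ofNat 0⟩)
    (by decide +kernel)
theorem L00500 : Good (Phi V5.P V5.D 1 1) ⟨3, 0, 3, 4, 1, 1, 4, 2, 4, 5⟩ :=
  leafX_sound T5.ok_pp T5.Ypp.bz_eq (w := 199) (c := ⟨⟨.negSucc 1404, .negSucc 1, .negSucc 22, .ofNat 286, .negSucc 1, .ofNat 121⟩, ⟨.negSucc 751, .ofNat 69, .negSucc 124, .ofNat 127, .ofNat 1, .ofNat 69⟩, ⟨.ofNat 1280, .negSucc 23, .ofNat 76, .negSucc 476, .negSucc 41, .ofNat 115⟩, ⟨.negSucc 3886, .negSucc 36, .ofNat 67, .ofNat 1055, .negSucc 30, .ofNat 289⟩, ⟨.negSucc 665, .ofNat 103, .negSucc 49, .negSucc 392, .ofNat 45, .ofNat 137⟩, .ofNat 814, .negSucc 580, .ofNat 0, .negSucc 580, .ofNat 1497, .ofNat 0, .ofNat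 128, .ofNat 121, .negSucc 18, .ofNat 0, .ofNat 141, .ofNat 7, .ofNat 0, .ofNat 0, .ofNat 706, .ofNat 3670, .ofNat 2474223939031227786908504133366255190016, .ofNat 0, .ofNat 3062015851425113845955292381052928, .ofNat 0, .ofNat 0, .ofNat 0, .ofNat 0, .ofNat 0, .ofNat 0, .ofNat 0, .ofNat 0, .ofNat 0, .ofNat 18136241350837130857268986878252346769408, .ofNat 250338057076207349941271410781278175232, .ofNat 92390059297631047867692923096137728, .ofNat 0⟩)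
    (by decide +kernel)
theorem L00501 : Good (Phi V5.P V5.D 1 1) ⟨3, 1, 3, 4, 1, 1, 4, 2, 3, 2⟩ :=
  out_sound (S := T5.ds_pp) T5.ok_pp (w := 45) (j := 3) (by decide +kernel)
theorem L00502 : Good (Phi V5.P V5.D 1 1) ⟨3, 0, 3, 4, 2, 2, 4, 2, 3, 3⟩ :=
  out_sound (S := T5.ds_pp) T5.ok_pp (w := 24) (j := 1) (by decide +kernel)
theorem L00503 : Good (Phi V5.P V5.D 1 1) ⟨3, 0, 3, 4, 4, 12, 4, 2, 5, 12⟩ :=
  out_sound (S := T5.ds_pp) T5.ok_pp (w := 32) (j := 1) (by decide +kernel)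
theorem L00504 : Good (Phi V5.P V5.D 1 1) ⟨3, 0, 3, 4, 4, 13, 4, 2, 5, 12⟩ :=
  out_sound (S := T5.ds_pp) T5.ok_pp (w := 40) (j := 2) (by decide +kernel)
theorem L00505 : Good (Phi V5.P V5.D 1 1) ⟨3, 0, 3, 4, 3, 6, 4, 2, 5, 13⟩ :=
  out_sound (S := T5.ds_pp) T5.ok_pp (w := 38) (j := 2) (by decide +kernel)
theorem L00506 : Good (Phi V5.P V5.D 1 1) ⟨3, 0, 3, 4, 3, 6, 4, 2, 4, 7⟩ :=
  out_sound (S := T5.ds_pp) T5.ok_pp (w := 36) (j := 2) (by decide +kernel)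
theorem L00507 : Good (Phi V5.P V5.D 1 1) ⟨3, 0, 3, 4, 3, 7, 4, 2, 3, 3⟩ :=
  out_sound (S := T5.ds_pp) T5.ok_pp (w := 34) (j := 2) (by decide +kernel)
theorem L00508 : Good (Phi V5.P V5.D 1 1) ⟨3, 1, 3, 4, 1, 1, 4, 2, 3, 3⟩ :=
  out_sound (S := T5.ds_pp) T5.ok_pp (w := 45) (j := 3) (by decide +kernel)
theorem L00509 : Good (Phi V5.P V5.D 1 1) ⟨2, 1, 3, 4, 1, 1, 4, 2, 1, 0⟩ :=
  out_sound (S := T5.ds_pp) T5.ok_pp (w := 39) (j := 3) (by decide +kernel)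
theorem L00510 : Good (Phi V5.P V5.D 1 1) ⟨1, 0, 3, 4, 2, 2, 4, 2, 1, 1⟩ :=
  out_sound (S := T5.ds_pp) T5.ok_pp (w := 20) (j := 1) (by decide +kernel)
theorem L00511 : Good (Phi V5.P V5.D 1 1) ⟨1, 0, 3, 4, 2, 3, 4, 2, 1, 1⟩ :=
  out_sound (S := T5.ds_pp) T5.ok_pp (w := 28) (j := 2) (by decide +kernel)
theorem L00512 : Good (Phi V5.P V5.D 1 1) ⟨1, 0, 3, 5, 0, 0, 4, 2, 0, 0⟩ :=
  out_sound (S := T5.ds_pp) T5.ok_pp (w := 33) (j := 3) (by decide +kernel)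
theorem L00513 : Good (Phi V5.P V5.D 1 1) ⟨1, 0, 2, 3, 0, 0, 4, 2, 0, 0⟩ :=
  out_sound (S := T5.ds_pp) T5.ok_pp (w := 31) (j := 3) (by decide +kernel)
theorem L00514 : Good (Phi V5.P V5.D 1 1) ⟨2, 0, 3, 4, 0, 0, 5, 6, 3, 0⟩ :=
  leafX_sound T5.ok_pp T5.Ypp.bz_eq (w := 179) (c := ⟨⟨.ofNat 481, .ofNat 136, .ofNat 71, .ofNat 183, .ofNat 15, .negSucc 1865⟩, ⟨.ofNat 258, .ofNat 88, .negSucc 26, .ofNat 68, .negSucc 0, .negSucc 965⟩, ⟨.negSucc 232, .negSucc 213, .negSucc 103, .negSucc 629, .negSucc 10, .ofNat 1488⟩, ⟨.ofNat 1450, .ofNat 341, .ofNat 235, .ofNat 700, .ofNat 36, .negSucc 5430⟩, ⟨.negSucc 2, .ofNat 117, .ofNat 28, .negSucc 305, .ofNat 18, .negSucc 370⟩, .ofNat 815, .negSucc 580, .ofNat 0, .negSucc 580, .ofNat 1496, .ofNat 0, .ofNat 191, .ofNat 127, .negSucc 105, .ofNat 0, .ofNat 128, .negSucc 38, .ofNat 0, .ofNat 0, .ofNat 411, .ofNat 821, .ofNat 0, .ofNat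 0, .ofNat 0, .ofNat 0, .ofNat 0, .ofNat 0, .ofNat 1250340482297709464305929289728, .ofNat 0, .ofNat 0, .ofNat 0, .ofNat 2381649313368280817379596828672, .ofNat 0, .ofNat 0, .ofNat 0, .ofNat 2155182084908837040849732763648, .ofNat 0⟩)
    (by decide +kernel)
theorem L00515 : Good (Phi V5.P V5.D 1 1) ⟨2, 0, 3, 4, 0, 0, 5, 6, 3, 1⟩ :=
  leafX_sound T5.ok_pp T5.Ypp.bz_eq (w := 181) (c := ⟨⟨.negSucc 1338, .ofNat 50, .ofNat 16, .ofNat 7, .ofNat 34, .negSucc 66⟩, ⟨.negSucc 684, .ofNat 174, .negSucc 125, .negSucc 50, .ofNat 18, .negSucc 34⟩, ⟨.ofNat 1371, .negSucc 18, .ofNat 106, .negSucc 1083, .negSucc 19, .ofNat 341⟩, ⟨.negSucc 3944, .ofNat 109, .ofNat 148, .ofNat 539, .ofNat 64, .negSucc 202⟩, ⟨.negSucc 155, .ofNat 189, .negSucc 1, .negSucc 1021, .ofNat 65, .negSucc 2⟩, .ofNat 1709, .negSucc 1966, .ofNat 0, .negSucc 1966, .ofNat 4002, .ofNat 0, .ofNat 128, .ofNat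 304, .negSucc 53, .ofNat 0, .ofNat 244, .negSucc 21, .ofNat 0, .ofNat 0, .ofNat 491, .ofNat 3439, .ofNat 0, .ofNat 0, .ofNat 0, .ofNat 0, .ofNat 0, .ofNat 0, .ofNat 14049424397647251862994582241280, .ofNat 0, .ofNat 0, .ofNat 0, .ofNat 0, .ofNat 0, .ofNat 0, .ofNat 0, .ofNat 0, .ofNat 0⟩)
    (by decide +kernel)
theorem L00516 : Good (Phi V5.P V5.D 1 1) ⟨3, 0, 3, 4, 1, 0, 5, 6, 3, 2⟩ :=
  leafX_sound T5.ok_pp T5.Ypp.bz_eq (w := 203) (c := ⟨⟨.negSucc 1261, .ofNat 3, .negSucc 22, .negSucc 113, .ofNat 8, .ofNat 119⟩, ⟨.negSucc 630, .ofNat 69, .negSucc 158, .negSucc 93, .ofNat 4, .ofNat 74⟩, ⟨.ofNat 1778, .negSucc 5, .ofNat 58, .negSucc 655, .negSucc 21, .ofNat 195⟩, ⟨.negSucc 3833, .ofNat 39, .negSucc 0, .negSucc 9, .ofNat 16, .ofNat 307⟩, ⟨.ofNat 81, .ofNat 31, .ofNat 1, .negSucc 657, .ofNat 12, .ofNat 117⟩, .ofNat 450, .negSucc 174, .ofNat 0, .negSucc 174, .ofNat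 654, .ofNat 0, .ofNat 191, .ofNat 75, .negSucc 68, .ofNat 0, .ofNat 128, .ofNat 5, .ofNat 0, .ofNat 0, .ofNat 674, .ofNat 103895, .ofNat 75686438453252926245930382280933700009984, .ofNat 0, .ofNat 0, .ofNat 0, .ofNat 96973717840748697696621913408119846731776, .ofNat 0, .ofNat 38888826457097138449315888139075584, .ofNat 0, .ofNat 270991281430162555260970805380418765848576, .ofNat 0, .ofNat 1172629512029831252230253983039488, .ofNat 0, .ofNat 468907527275503532306106117130636171935744, .ofNat 0, .ofNat 30939462759240325193316770068299776, .ofNat 0⟩)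
    (by decide +kernel)
theorem L00517 : Good (Phi V5.P V5.D 1 1) ⟨3, 0, 3, 4, 1, 1, 5, 6, 4, 4⟩ :=
  leafX_sound T5.ok_pp T5.Ypp.bz_eq (w := 204) (c := ⟨⟨.negSucc 1441, .ofNat 14, .negSucc 11, .ofNat 171, .ofNat 7, .ofNat 97⟩, ⟨.negSucc 770, .ofNat 84, .negSucc 127, .ofNat 64, .ofNat 5, .ofNat 54⟩, ⟨.ofNat 1090, .ofNat 11, .ofNat 96, .negSucc 418, .negSucc 9, .ofNat 88⟩, ⟨.negSucc 4010, .ofNat 21, .ofNat 83, .ofNat 749, .ofNat 22, .ofNat 251⟩, ⟨.negSucc 645, .ofNat 98, .negSucc 9, .negSucc 476, .negSucc 0, .ofNat 78⟩, .ofNat 1736, .negSucc 2006, .ofNat 0, .negSucc 2006, .ofNat 4056, .ofNat 0, .ofNat 128, .ofNat 294, .negSucc 28, .ofNat 0, .ofNat 240, .negSucc 6, .ofNat 0, .ofNat 0, .ofNat 570, .ofNat 5643, .ofNat 10776344891623179196290507975888209969152, .ofNat 0, .ofNat 18561477547474679241807737984647168, .ofNat 0, .ofNat 0, .ofNat 0, .ofNat 0, .ofNat 0,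 .ofNat 0, .ofNat 0, .ofNat 0, .ofNat 0, .ofNat 0, .ofNat 449124284225837054998938536142614560768, .ofNat 2387333857118665527735885312609484800, .ofNat 0⟩)
    (by decide +kernel)
theorem L00518 : Good (Phi V5.P V5.D 1 1) ⟨3, 0, 3, 4, 1, 1, 5, 6, 4, 5⟩ :=
  leafX_sound T5.ok_pp T5.Ypp.bz_eq (w := 204) (c := ⟨⟨.negSucc 1378, .negSucc 2, .negSucc 21, .ofNat 242, .ofNat 1, .ofNat 120⟩, ⟨.negSucc 732, .ofNat 67, .negSucc 130, .ofNat 103, .ofNat 2, .ofNat 68⟩, ⟨.ofNat 1196, .negSucc 12, .ofNat 61, .negSucc 402, .negSucc 23, .ofNat 103⟩, ⟨.negSucc 3827, .negSucc 19, .ofNat 57, .ofNat 903, .negSucc 5, .ofNat 296⟩, ⟨.negSucc 620, .ofNat 75, .negSucc 41, .negSucc 366, .ofNat 18, .ofNat 124⟩, .ofNat 1333, .negSucc 1352, .ofNat 0, .negSucc 1352, .ofNat 2901, .ofNat 0, .ofNat 128, .ofNat 158, .negSucc 18, .ofNat 0, .ofNat 141, .ofNat 0, .ofNat 0, .ofNat 0, .ofNat 828, .ofNat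 5009, .ofNat 26882121673151597943263531245322696130560, .ofNat 0, .ofNat 53460005302472729582013373655023616, .ofNat 0, .ofNat 0, .ofNat 0, .ofNat 0, .ofNat 0, .ofNat 0, .ofNat 0, .ofNat 0, .ofNat 0, .ofNat 0, .ofNat 1325761194872417257483987703178041753600, .ofNat 1208123599631556904453272439994974208, .ofNat 0⟩)
    (by decide +kernel)
theorem L00519 : Good (Phi V5.P V5.D 1 1) ⟨3, 1, 3, 4, 0, 0, 5, 6, 3, 2⟩ :=
  out_sound (S := T5.ds_pp) T5.ok_pp (w := 45) (j := 3) (by decide +kernel)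
theorem L00520 : Good (Phi V5.P V5.D 1 1) ⟨3, 0, 3, 4, 1, 0, 5, 6, 3, 3⟩ :=
  out_sound (S := T5.ds_pp) T5.ok_pp (w := 23) (j := 1) (by decide +kernel)
theorem L00521 : Good (Phi V5.P V5.D 1 1) ⟨3, 0, 3, 4, 2, 2, 5, 6, 3, 3⟩ :=
  out_sound (S := T5.ds_pp) T5.ok_pp (w := 25) (j := 1) (by decide +kernel)
theorem L00522 : Good (Phi V5.P V5.D 1 1) ⟨3, 0, 3, 4, 5, 24, 5, 6, 5, 12⟩ :=
  out_sound (S := T5.ds_pp) T5.ok_pp (w := 35) (j := 1) (by decide +kernel)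
theorem L00523 : Good (Phi V5.P V5.D 1 1) ⟨3, 0, 3, 4, 8, 200, 6, 12, 9, 192⟩ :=
  out_sound (S := T5.ds_pp) T5.ok_pp (w := 50) (j := 1) (by decide +kernel)
theorem L00524 : Good (Phi V5.P V5.D 1 1) ⟨3, 0, 3, 4, 8, 200, 6, 13, 9, 192⟩ :=
  out_sound (S := T5.ds_pp) T5.ok_pp (w := 60) (j := 2) (by decide +kernel)
theorem L00525 : Good (Phi V5.P V5.D 1 1) ⟨3, 0, 3, 4, 8, 201, 5, 6, 9, 192⟩ :=
  out_sound (S := T5.ds_pp) T5.ok_pp (w := 58) (j := 2) (by decide +kernel)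
theorem L00526 : Good (Phi V5.P V5.D 1 1) ⟨3, 0, 3, 4, 7, 100, 5, 6, 9, 193⟩ :=
  out_sound (S := T5.ds_pp) T5.ok_pp (w := 56) (j := 2) (by decide +kernel)
theorem L00527 : Good (Phi V5.P V5.D 1 1) ⟨3, 0, 3, 4, 7, 101, 5, 6, 8, 96⟩ :=
  out_sound (S := T5.ds_pp) T5.ok_pp (w := 54) (j := 2) (by decide +kernel)
theorem L00528 : Good (Phi V5.P V5.D 1 1) ⟨3, 0, 3, 4, 6, 50, 5, 6, 8, 97⟩ :=
  out_sound (S := T5.ds_pp) T5.ok_pp (w := 52) (j := 2) (by decide +kernel)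
theorem L00529 : Good (Phi V5.P V5.D 1 1) ⟨3, 0, 3, 4, 6, 51, 5, 6, 7, 48⟩ :=
  out_sound (S := T5.ds_pp) T5.ok_pp (w := 50) (j := 2) (by decide +kernel)
theorem L00530 : Good (Phi V5.P V5.D 1 1) ⟨3, 0, 3, 4, 5, 25, 5, 6, 7, 49⟩ :=
  out_sound (S := T5.ds_pp) T5.ok_pp (w := 48) (j := 2) (by decide +kernel)
theorem L00531 : Good (Phi V5.P V5.D 1 1) ⟨3, 0, 3, 4, 5, 25, 5, 6, 6, 25⟩ :=
  out_sound (S := T5.ds_pp) T5.ok_pp (w := 46) (j := 2) (by decide +kernel)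
theorem L00532 : Good (Phi V5.P V5.D 1 1) ⟨3, 0, 3, 4, 4, 13, 5, 6, 5, 12⟩ :=
  out_sound (S := T5.ds_pp) T5.ok_pp (w := 42) (j := 2) (by decide +kernel)
theorem L00533 : Good (Phi V5.P V5.D 1 1) ⟨3, 0, 3, 4, 3, 6, 5, 6, 5, 13⟩ :=
  out_sound (S := T5.ds_pp) T5.ok_pp (w := 40) (j := 2) (by decide +kernel)
theorem L00534 : Good (Phi V5.P V5.D 1 1) ⟨3, 0, 3, 4, 3, 6, 5, 6, 4, 7⟩ :=
  out_sound (S := T5.ds_pp) T5.ok_pp (w := 38) (j := 2) (by decide +kernel)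
theorem L00535 : Good (Phi V5.P V5.D 1 1) ⟨3, 0, 3, 4, 3, 7, 5, 6, 3, 3⟩ :=
  out_sound (S := T5.ds_pp) T5.ok_pp (w := 36) (j := 2) (by decide +kernel)
theorem L00536 : Good (Phi V5.P V5.D 1 1) ⟨3, 1, 3, 4, 0, 0, 5, 6, 3, 3⟩ :=
  out_sound (S := T5.ds_pp) T5.ok_pp (w := 45) (j := 3) (by decide +kernel)
theorem L00537 : Good (Phi V5.P V5.D 1 1) ⟨2, 0, 3, 4, 1, 0, 5, 6, 1, 1⟩ :=
  out_sound (S := T5.ds_pp) T5.ok_pp (w := 19) (j := 1) (by decide +kernel)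
theorem L00538 : Good (Phi V5.P V5.D 1 1) ⟨2, 0, 3, 4, 2, 2, 5, 6, 1, 1⟩ :=
  out_sound (S := T5.ds_pp) T5.ok_pp (w := 21) (j := 1) (by decide +kernel)
theorem L00539 : Good (Phi V5.P V5.D 1 1) ⟨2, 0, 3, 4, 2, 3, 5, 6, 1, 1⟩ :=
  out_sound (S := T5.ds_pp) T5.ok_pp (w := 30) (j := 2) (by decide +kernel)
theorem L00540 : Good (Phi V5.P V5.D 1 1) ⟨2, 0, 3, 5, 0, 0, 5, 6, 0, 0⟩ :=
  out_sound (S := T5.ds_pp) T5.ok_pp (w := 39) (j := 3) (by decide +kernel)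
theorem L00541 : Good (Phi V5.P V5.D 1 1) ⟨2, 0, 2, 3, 0, 0, 5, 6, 0, 0⟩ :=
  out_sound (S := T5.ds_pp) T5.ok_pp (w := 37) (j := 3) (by decide +kernel)
theorem L00542 : Good (Phi V5.P V5.D 1 1) ⟨2, 1, 1, 1, 0, 0, 5, 6, 0, 0⟩ :=
  out_sound (S := T5.ds_pp) T5.ok_pp (w := 35) (j := 3) (by decide +kernel)
theorem L00543 : Good (Phi V5.P V5.D 1 1) ⟨5, 0, 3, 4, 1, 0, 6, 14, 2, 0⟩ :=
  leafX_sound T5.ok_pp T5.Ypp.bz_eq (w := 204) (c := ⟨⟨.ofNat 11, .ofNat 8, .negSucc 106, .ofNat 39, .negSucc 30, .negSucc 1448⟩, ⟨.ofNat 33, .ofNat 7, .negSucc 166, .ofNat 1, .negSucc 16, .negSucc 765⟩, ⟨.negSucc 34, .ofNat 32, .ofNat 176, .negSucc 260, .ofNat 58, .ofNat 1492⟩, ⟨.ofNat 52, .ofNat 64, .negSucc 163, .ofNat 414, .negSucc 72, .negSucc 4452⟩, ⟨.ofNat 25, .negSucc 78, .negSucc 201, .negSucc 580, .negSucc 54, .ofNat 128⟩, .ofNat 1093, .negSucc 962, .ofNat 0, .negSucc 962, .ofNat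 2137, .ofNat 0, .ofNat 128, .ofNat 179, .negSucc 62, .ofNat 0, .ofNat 165, .negSucc 26, .ofNat 0, .ofNat 0, .ofNat 396, .ofNat 1202, .ofNat 0, .ofNat 0, .ofNat 0, .ofNat 0, .ofNat 0, .ofNat 0, .ofNat 0, .ofNat 0, .ofNat 0, .ofNat 0, .ofNat 1210084487490750586505562301661184, .ofNat 0, .ofNat 0, .ofNat 0, .ofNat 429800984958854810393891611607040, .ofNat 0⟩)
    (by decide +kernel)
theorem L00544 : Good (Phi V5.P V5.D 1 1) ⟨5, 0, 3, 4, 1, 0, 6, 14, 2, 1⟩ :=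
  leafX_sound T5.ok_pp T5.Ypp.bz_eq (w := 211) (c := ⟨⟨.negSucc 1239, .ofNat 4, .negSucc 18, .negSucc 130, .ofNat 4, .ofNat 269⟩, ⟨.negSucc 619, .ofNat 16, .negSucc 157, .negSucc 100, .ofNat 2, .ofNat 152⟩, ⟨.ofNat 1713, .negSucc 6, .ofNat 41, .negSucc 601, .negSucc 15, .ofNat 340⟩, ⟨.negSucc 3774, .ofNat 8, .ofNat 0, .negSucc 54, .ofNat 10, .ofNat 666⟩, ⟨.ofNat 70, .ofNat 5, .negSucc 0, .negSucc 630, .ofNat 5, .ofNat 218⟩, .ofNat 835, .negSucc 602, .ofNat 0, .negSucc 602, .ofNat 1485, .ofNat 0, .ofNat 153, .ofNat 122, .negSucc 95, .ofNat 0, .ofNat 128, .negSucc 22, .ofNat 0, .ofNat 0, .ofNat 1249, .ofNat 99446, .ofNat 13587632344007430364900793899848929539784704, .ofNat 0, .ofNat 0, .ofNat 0, .ofNat 48689226289178453068007563178149256198356992, .ofNat 0, .ofNat 0, .ofNat 0, .ofNat 67344808632021132114703602095581136150331392, .ofNat 0, .ofNat 0, .ofNat 0, .ofNat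 56865620570622683515832680757280397953335296, .ofNat 0, .ofNat 0, .ofNat 0⟩)
    (by decide +kernel)
theorem L00545 : Good (Phi V5.P V5.D 1 1) ⟨5, 0, 3, 4, 1, 0, 6, 14, 1, 1⟩ :=
  out_sound (S := T5.ds_pp) T5.ok_pp (w := 20) (j := 1) (by decide +kernel)
theorem L00546 : Good (Phi V5.P V5.D 1 1) ⟨5, 0, 3, 4, 1, 1, 6, 14, 3, 0⟩ :=
  leafX_sound T5.ok_pp T5.Ypp.bz_eq (w := 210) (c := ⟨⟨.ofNat 829, .ofNat 120, .ofNat 37, .ofNat 23, .negSucc 10, .negSucc 2237⟩, ⟨.ofNat 438, .ofNat 73, .negSucc 18, .ofNat 45, .negSucc 1, .negSucc 1244⟩, ⟨.negSucc 519, .negSucc 93, .ofNat 26, .negSucc 270, .ofNat 1, .ofNat 1193⟩, ⟨.ofNat 2528, .ofNat 344, .negSucc 12, .negSucc 315, .negSucc 99, .negSucc 5923⟩, ⟨.negSucc 110, .ofNat 12, .ofNat 299, .ofNat 731, .ofNat 137, .negSucc 1444⟩, .ofNat 1826, .negSucc 2100, .ofNat 0, .negSucc 2100, .ofNat 4085, .ofNat 0, .ofNat 128, .ofNat 132,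 .negSucc 64, .ofNat 0, .ofNat 99, .negSucc 29, .ofNat 0, .ofNat 0, .ofNat 310, .ofNat 1243, .ofNat 0, .ofNat 0, .ofNat 0, .ofNat 0, .ofNat 0, .ofNat 0, .ofNat 0, .ofNat 0, .ofNat 0, .ofNat 0, .ofNat 15888056377641307825100682485039104, .ofNat 0, .ofNat 0, .ofNat 0, .ofNat 0, .ofNat 0⟩)
    (by decide +kernel)
theorem L00547 : Good (Phi V5.P V5.D 1 1) ⟨5, 0, 3, 4, 1, 1, 6, 14, 3, 1⟩ :=
  leafX_sound T5.ok_pp T5.Ypp.bz_eq (w := 211) (c := ⟨⟨.negSucc 1394, .ofNat 23, .ofNat 11, .ofNat 103, .negSucc 4, .negSucc 47⟩, ⟨.negSucc 741, .ofNat 28, .negSucc 127, .ofNat 32, .negSucc 1, .negSucc 26⟩, ⟨.ofNat 746, .negSucc 6, .ofNat 57, .negSucc 416, .negSucc 1, .ofNat 355⟩, ⟨.negSucc 3856, .ofNat 53, .ofNat 176, .ofNat 518, .negSucc 22, .negSucc 125⟩, ⟨.negSucc 658, .ofNat 22, .negSucc 61, .negSucc 404, .ofNat 18, .negSucc 38⟩, .ofNat 1778, .negSucc 2024, .ofNat 0, .negSucc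 2024, .ofNat 3971, .ofNat 0, .ofNat 128, .ofNat 316, .negSucc 41, .ofNat 0, .ofNat 252, .negSucc 14, .ofNat 0, .ofNat 0, .ofNat 391, .ofNat 5697, .ofNat 0, .ofNat 0, .ofNat 0, .ofNat 0, .ofNat 0, .ofNat 0, .ofNat 0, .ofNat 0, .ofNat 0, .ofNat 0, .ofNat 0, .ofNat 0, .ofNat 0, .ofNat 0, .ofNat 0, .ofNat 0⟩)
    (by decide +kernel)
theorem L00548 : Good (Phi V5.P V5.D 1 1) ⟨5, 0, 3, 4, 1, 1, 6, 14, 4, 4⟩ :=
  leafX_sound T5.ok_pp T5.Ypp.bz_eq (w := 216) (c := ⟨⟨.negSucc 1434, .ofNat 7, .negSucc 11, .ofNat 151, .ofNat 5, .ofNat 101⟩, ⟨.negSucc 762, .ofNat 19, .negSucc 131, .ofNat 54, .ofNat 3, .ofNat 58⟩, ⟨.ofNat 1096, .negSucc 1, .ofNat 64, .negSucc 422, .negSucc 7, .ofNat 83⟩, ⟨.negSucc 3988, .ofNat 1, .ofNat 96, .ofNat 715, .ofNat 5, .ofNat 249⟩, ⟨.negSucc 634, .ofNat 31, .negSucc 46, .negSucc 502, .ofNat 19, .ofNat 98⟩, .ofNat 1369, .negSucc 1378, .ofNat 0, .negSucc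 1378, .ofNat 2864, .ofNat 0, .ofNat 128, .ofNat 265, .negSucc 25, .ofNat 0, .ofNat 232, .negSucc 4, .ofNat 0, .ofNat 0, .ofNat 524, .ofNat 7117, .ofNat 24147139529708595581891822934463825947131904, .ofNat 0, .ofNat 0, .ofNat 0, .ofNat 0, .ofNat 0, .ofNat 0, .ofNat 0, .ofNat 0, .ofNat 0, .ofNat 0, .ofNat 0, .ofNat 0, .ofNat 457743455523801490047578610848379485290496, .ofNat 548427637205916933363509841635573760, .ofNat 0⟩)
    (by decide +kernel)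
theorem L00549 : Good (Phi V5.P V5.D 1 1) ⟨5, 0, 3, 4, 2, 2, 6, 14, 4, 5⟩ :=
  leafX_sound T5.ok_pp T5.Ypp.bz_eq (w := 234) (c := ⟨⟨.negSucc 1325, .ofNat 1, .negSucc 21, .ofNat 64, .ofNat 2, .ofNat 125⟩, ⟨.negSucc 698, .ofNat 16, .negSucc 136, .ofNat 18, .ofNat 1, .ofNat 73⟩, ⟨.ofNat 1191, .negSucc 10, .ofNat 62, .negSucc 209, .negSucc 15, .ofNat 87⟩, ⟨.negSucc 3727, .negSucc 3, .ofNat 33, .ofNat 335, .ofNat 1, .ofNat 308⟩, ⟨.negSucc 511, .ofNat 10, .negSucc 20, .negSucc 268, .ofNat 7, .ofNat 125⟩, .ofNat 832, .negSucc 597, .ofNat 0, .negSucc 597, .ofNat 1479, .ofNat 0, .ofNat 128, .ofNat 168, .negSucc 37, .ofNat 0, .ofNat 185, .ofNat 0, .ofNat 0, .ofNat 0, .ofNat 942, .ofNat 110214, .ofNat 3322442609623557055942888633390791308767257427968, .ofNat 0, .ofNat 0, .ofNat 0, .ofNat 10909501959562164480409097505874781923989205811200, .ofNat 0, .ofNat 29535869703287202593048922438608900587520,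 .ofNat 0, .ofNat 0, .ofNat 0, .ofNat 0, .ofNat 0, .ofNat 0, .ofNat 0, .ofNat 0, .ofNat 0⟩)
    (by decide +kernel)
theorem L00550 : Good (Phi V5.P V5.D 1 1) ⟨5, 0, 3, 4, 2, 3, 6, 14, 4, 5⟩ :=
  leafX_sound T5.ok_pp T5.Ypp.bz_eq (w := 231) (c := ⟨⟨.negSucc 1262, .ofNat 2, .negSucc 21, .ofNat 130, .ofNat 2, .ofNat 128⟩, ⟨.negSucc 683, .ofNat 15, .negSucc 128, .ofNat 59, .ofNat 2, .ofNat 75⟩, ⟨.ofNat 970, .ofNat 0, .ofNat 57, .negSucc 208, .negSucc 9, .ofNat 99⟩, ⟨.negSucc 3393, .negSucc 11, .ofNat 63, .ofNat 497, .ofNat 1, .ofNat 303⟩, ⟨.negSucc 791, .ofNat 23, .negSucc 49, .negSucc 204, .ofNat 9, .ofNat 149⟩, .ofNat 1401, .negSucc 1426, .ofNat 0, .negSucc 1426, .ofNat 2924, .ofNat 0, .ofNat 128, .ofNat 180, .negSucc 18, .ofNat 0, .ofNat 161, .ofNat 2, .ofNat 0, .ofNat 0, .ofNat 993, .ofNat 14930, .ofNat 0, .ofNat 0, .ofNat 0, .ofNat 0, .ofNat 0, .ofNat 0, .ofNat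 0, .ofNat 0, .ofNat 0, .ofNat 10316865114271747330292051664435173838959935488, .ofNat 0, .ofNat 0, .ofNat 0, .ofNat 16984895903598266783946498453161970246231261184, .ofNat 59921431780732189002679312077387687002112, .ofNat 0⟩)
    (by decide +kernel)
theorem L00551 : Good (Phi V5.P V5.D 1 1) ⟨5, 0, 3, 4, 2, 2, 6, 14, 3, 3⟩ :=
  out_sound (S := T5.ds_pp) T5.ok_pp (w := 26) (j := 1) (by decide +kernel)
theorem L00552 : Good (Phi V5.P V5.D 1 1) ⟨5, 0, 3, 4, 2, 3, 6, 14, 3, 3⟩ :=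
  leafX_sound T5.ok_pp T5.Ypp.bz_eq (w := 226) (c := ⟨⟨.negSucc 1125, .negSucc 0, .negSucc 16, .ofNat 0, .ofNat 2, .ofNat 1⟩, ⟨.negSucc 604, .ofNat 13, .negSucc 121, .ofNat 0, .ofNat 1, .ofNat 0⟩, ⟨.ofNat 1079, .negSucc 8, .ofNat 30, .ofNat 0, .negSucc 18, .negSucc 0⟩, ⟨.negSucc 3045, .negSucc 9, .ofNat 48, .ofNat 1, .negSucc 0, .ofNat 2⟩, ⟨.negSucc 663, .ofNat 9, .negSucc 28, .ofNat 0, .ofNat 10, .ofNat 0⟩, .ofNat 196, .negSucc 29, .ofNat 0, .negSucc 29, .ofNat 228, .ofNat 0, .ofNat 207, .ofNat 16, .negSucc 27, .ofNat 0, .ofNat 128, .ofNat 39, .ofNat 0, .ofNat 0, .ofNat 513, .ofNat 12985, .ofNat 0, .ofNat 0, .ofNat 0, .ofNat 0, .ofNat 2375596348934239282643285603567060689457327898624, .ofNat 5409281912413804862793165291095320787576422400, .ofNat 512631644109787855850345475624193228800, .ofNat 0, .ofNat 772269340358513904074432675080048655498104274944, .ofNat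 1531460257542453829124960224097263581023698944, .ofNat 0, .ofNat 0, .ofNat 234126709716569910623766038143784164943881830400, .ofNat 1012546190972928666391832586522543222520020992, .ofNat 609264923162241181932922630821659017216, .ofNat 0⟩)
    (by decide +kernel)
theorem L00553 : Good (Phi V5.P V5.D 1 1) ⟨5, 0, 3, 4, 2, 2, 6, 14, 1, 1⟩ :=
  out_sound (S := T5.ds_pp) T5.ok_pp (w := 22) (j := 1) (by decide +kernel)
theorem L00554 : Good (Phi V5.P V5.D 1 1) ⟨5, 0, 3, 4, 2, 3, 6, 14, 1, 1⟩ :=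
  out_sound (S := T5.ds_pp) T5.ok_pp (w := 32) (j := 2) (by decide +kernel)
theorem L00555 : Good (Phi V5.P V5.D 1 1) ⟨5, 1, 3, 4, 0, 0, 6, 14, 3, 0⟩ :=
  leafX_sound T5.ok_pp T5.Ypp.bz_eq (w := 195) (c := ⟨⟨.ofNat 397, .ofNat 124, .ofNat 442, .ofNat 249, .ofNat 66, .negSucc 1934⟩, ⟨.ofNat 209, .ofNat 67, .ofNat 222, .ofNat 115, .ofNat 39, .negSucc 1023⟩, ⟨.negSucc 411, .ofNat 103, .negSucc 563, .negSucc 578, .ofNat 58, .ofNat 1663⟩, ⟨.ofNat 1210, .ofNat 345, .ofNat 1135, .ofNat 790, .ofNat 85, .negSucc 5390⟩, ⟨.negSucc 67, .ofNat 41, .ofNat 416, .negSucc 74, .ofNat 217, .negSucc 745⟩, .ofNat 2019, .negSucc 2479, .ofNat 0, .negSucc 2479, .ofNat 4900, .ofNat 0, .ofNat 154, .ofNat 128, .negSucc 104, .ofNat 0, .ofNat 98, .negSucc 48, .ofNat 0, .ofNat 0, .ofNat 446, .ofNat 551, .ofNat 0, .ofNat 0, .ofNat 0, .ofNat 0, .ofNat 0, .ofNat 0, .ofNat 0, .ofNat 0, .ofNat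 0, .ofNat 0, .ofNat 1269029007930156396851260030976, .ofNat 0, .ofNat 0, .ofNat 0, .ofNat 0, .ofNat 0⟩)
    (by decide +kernel)
theorem L00556 : Good (Phi V5.P V5.D 1 1) ⟨5, 1, 3, 4, 0, 0, 6, 14, 3, 1⟩ :=
  leafX_sound T5.ok_pp T5.Ypp.bz_eq (w := 197) (c := ⟨⟨.negSucc 1254, .ofNat 12, .ofNat 67, .negSucc 43, .negSucc 7, .negSucc 102⟩, ⟨.negSucc 624, .ofNat 27, .negSucc 98, .negSucc 75, .negSucc 3, .negSucc 52⟩, ⟨.ofNat 1336, .negSucc 20, .ofNat 41, .negSucc 1019, .negSucc 10, .ofNat 352⟩, ⟨.negSucc 3734, .ofNat 21, .ofNat 284, .ofNat 376, .negSucc 26, .negSucc 282⟩, ⟨.negSucc 73, .ofNat 49, .ofNat 18, .negSucc 1009, .ofNat 4, .negSucc 39⟩, .ofNat 1994, .negSucc 2441, .ofNat 0, .negSucc 2441, .ofNat 4846, .ofNat 0, .ofNat 128, .ofNat 208, .negSucc 58, .ofNat 0, .ofNat 164, .negSucc 23, .ofNat 0, .ofNat 0, .ofNat 500, .ofNat 4811, .ofNat 0, .ofNat 0, .ofNat 0,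 .ofNat 0, .ofNat 0, .ofNat 0, .ofNat 0, .ofNat 0, .ofNat 0, .ofNat 0, .ofNat 849106738983045417915029389312, .ofNat 0, .ofNat 0, .ofNat 0, .ofNat 0, .ofNat 0⟩)
    (by decide +kernel)
theorem L00557 : Good (Phi V5.P V5.D 1 1) ⟨5, 1, 3, 4, 1, 0, 6, 14, 3, 2⟩ :=
  leafX_sound T5.ok_pp T5.Ypp.bz_eq (w := 215) (c := ⟨⟨.negSucc 1244, .ofNat 0, .negSucc 18, .negSucc 120, .ofNat 4, .ofNat 127⟩, ⟨.negSucc 609, .ofNat 17, .negSucc 155, .negSucc 92, .ofNat 2, .ofNat 71⟩, ⟨.ofNat 1723, .ofNat 0, .ofNat 43, .negSucc 623, .negSucc 12, .ofNat 177⟩, ⟨.negSucc 3775, .ofNat 9, .ofNat 0, .negSucc 43, .ofNat 11, .ofNat 324⟩, ⟨.ofNat 71, .ofNat 7, .ofNat 3, .negSucc 625, .ofNat 4, .ofNat 111⟩, .ofNat 450, .negSucc 172, .ofNat 0, .negSucc 172, .ofNat 653, .ofNat 0, .ofNat 134, .ofNat 74, .negSucc 82, .ofNat 0, .ofNat 128, .ofNat 2, .ofNat 0, .ofNat 0, .ofNat 800, .ofNat 77284, .ofNat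 100447072246207981639733104316543788010962944, .ofNat 0, .ofNat 0, .ofNat 0, .ofNat 160656286146421547088882668597028061720870912, .ofNat 0, .ofNat 1480910076830109496711711297634304, .ofNat 0, .ofNat 379463491693241013906042584534647251933331456, .ofNat 0, .ofNat 10262708213618271240065016406212608, .ofNat 0, .ofNat 865988613913808154775915654904072841918939136, .ofNat 0, .ofNat 105096060238811509000871705946619904, .ofNat 0⟩)
    (by decide +kernel)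
theorem L00558 : Good (Phi V5.P V5.D 1 1) ⟨5, 1, 3, 4, 1, 1, 6, 14, 4, 4⟩ :=
  leafX_sound T5.ok_pp T5.Ypp.bz_eq (w := 216) (c := ⟨⟨.negSucc 1415, .negSucc 6, .negSucc 35, .ofNat 151, .negSucc 1, .ofNat 101⟩, ⟨.negSucc 733, .ofNat 15, .negSucc 148, .ofNat 51, .ofNat 0, .ofNat 56⟩, ⟨.ofNat 1076, .negSucc 2, .ofNat 54, .negSucc 391, .negSucc 2, .ofNat 90⟩, ⟨.negSucc 3940, .negSucc 19, .ofNat 19, .ofNat 669, .negSucc 6, .ofNat 252⟩, ⟨.negSucc 610, .ofNat 12, .negSucc 58, .negSucc 448, .ofNat 2, .ofNat 93⟩, .ofNat 1056, .negSucc 923, .ofNat 0, .negSucc 923, .ofNat 2141, .ofNat 0, .ofNat 128, .ofNat 209, .negSucc 27, .ofNat 0, .ofNat 199, .negSucc 3, .ofNat 0, .ofNat 0, .ofNat 493, .ofNat 6641, .ofNat 29902874278317939673723610709781411637755904, .ofNat 0, .ofNat 19929672206268828407716369464819712, .ofNat 0, .ofNat 0, .ofNat 0, .ofNat 0, .ofNat 0, .ofNat 0, .ofNat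 0, .ofNat 0, .ofNat 0, .ofNat 0, .ofNat 387986547233888327525085603175655960215552, .ofNat 241264801978729026996818251331141632, .ofNat 0⟩)
    (by decide +kernel)
theorem L00559 : Good (Phi V5.P V5.D 1 1) ⟨5, 1, 4, 8, 1, 1, 6, 14, 4, 5⟩ :=
  leafX_sound T5.ok_pp T5.Ypp.bz_eq (w := 218) (c := ⟨⟨.negSucc 1356, .negSucc 1, .negSucc 10, .ofNat 208, .ofNat 4, .ofNat 115⟩, ⟨.negSucc 703, .ofNat 16, .negSucc 65, .ofNat 85, .ofNat 2, .ofNat 64⟩, ⟨.ofNat 1154, .negSucc 0, .ofNat 25, .negSucc 376, .negSucc 4, .ofNat 87⟩, ⟨.negSucc 3774, .negSucc 4, .ofNat 25, .ofNat 792, .negSucc 0, .ofNat 287⟩, ⟨.negSucc 590, .ofNat 13, .negSucc 22, .negSucc 350, .ofNat 21, .ofNat 111⟩, .ofNat 1707, .negSucc 1963, .ofNat 0, .negSucc 1963, .ofNat 4003, .ofNat 0, .ofNat 128, .ofNat 284, .negSucc 18, .ofNat 0, .ofNat 237, .negSucc 0, .ofNat 0, .ofNat 0, .ofNat 800, .ofNat 2777, .ofNat 269047366149064461327469230184498181366087680,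 .ofNat 0, .ofNat 0, .ofNat 0, .ofNat 0, .ofNat 0, .ofNat 0, .ofNat 0, .ofNat 0, .ofNat 0, .ofNat 0, .ofNat 0, .ofNat 0, .ofNat 10785011879497799492453300589083416938414080, .ofNat 1698759893277743755986155775513853952, .ofNat 0⟩)
    (by decide +kernel)
theorem L00560 : Good (Phi V5.P V5.D 1 1) ⟨5, 1, 4, 9, 1, 1, 6, 14, 4, 5⟩ :=
  out_sound (S := T5.ds_pp) T5.ok_pp (w := 59) (j := 3) (by decide +kernel)
theorem L00561 : Good (Phi V5.P V5.D 1 1) ⟨5, 1, 3, 4, 1, 0, 6, 14, 3, 3⟩ :=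
  out_sound (S := T5.ds_pp) T5.ok_pp (w := 24) (j := 1) (by decide +kernel)
theorem L00562 : Good (Phi V5.P V5.D 1 1) ⟨5, 1, 3, 4, 2, 2, 6, 14, 3, 3⟩ :=
  out_sound (S := T5.ds_pp) T5.ok_pp (w := 26) (j := 1) (by decide +kernel)
theorem L00563 : Good (Phi V5.P V5.D 1 1) ⟨5, 1, 3, 4, 2, 3, 6, 14, 3, 3⟩ :=
  leafX_sound T5.ok_pp T5.Ypp.bz_eq (w := 227) (c := ⟨⟨.negSucc 1126, .negSucc 3, .negSucc 15, .ofNat 0, .ofNat 1, .ofNat 1⟩, ⟨.negSucc 591, .ofNat 13, .negSucc 121, .ofNat 0, .ofNat 1, .ofNat 0⟩, ⟨.ofNat 1067, .negSucc 4, .ofNat 25, .ofNat 0, .negSucc 13, .negSucc 0⟩, ⟨.negSucc 3054, .negSucc 9, .ofNat 50, .ofNat 1, .negSucc 1, .ofNat 2⟩, ⟨.negSucc 653, .ofNat 10, .negSucc 31, .ofNat 0, .ofNat 10, .ofNat 0⟩, .ofNat 450, .negSucc 173, .ofNat 0, .negSucc 173, .ofNat 653, .ofNat 0, .ofNat 352, .ofNat 63, .negSucc 15, .ofNat 0, .ofNat 128, .ofNat 20, .ofNat 0, .ofNat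 0, .ofNat 846, .ofNat 40556, .ofNat 0, .ofNat 0, .ofNat 0, .ofNat 0, .ofNat 11756335893433185668093952099462523594493000679424, .ofNat 27506304165873944603828540533632654943409143808, .ofNat 5867687834571478374998088502266229161984, .ofNat 0, .ofNat 3939710563249772505352524390743384547247809101824, .ofNat 8363164425653419763945832381374430287358853120, .ofNat 156207002236359481736248888382554374144, .ofNat 0, .ofNat 715731836442812465953198676359008469761243742208, .ofNat 3473373512087096582919588814173465568673267712, .ofNat 1465746014128244449054642515675457781760, .ofNat 0⟩)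
    (by decide +kernel)
theorem L00564 : Good (Phi V5.P V5.D 1 1) ⟨5, 1, 3, 4, 1, 0, 6, 14, 1, 1⟩ :=
  out_sound (S := T5.ds_pp) T5.ok_pp (w := 20) (j := 1) (by decide +kernel)
theorem L00565 : Good (Phi V5.P V5.D 1 1) ⟨5, 1, 3, 4, 2, 2, 6, 14, 1, 1⟩ :=
  out_sound (S := T5.ds_pp) T5.ok_pp (w := 22) (j := 1) (by decide +kernel)
theorem L00566 : Good (Phi V5.P V5.D 1 1) ⟨5, 1, 3, 4, 2, 3, 6, 14, 1, 1⟩ :=
  out_sound (S := T5.ds_pp) T5.ok_pp (w := 32) (j := 2) (by decide +kernel)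
theorem L00567 : Good (Phi V5.P V5.D 1 1) ⟨4, 0, 3, 4, 1, 0, 6, 15, 2, 0⟩ :=
  leafX_sound T5.ok_pp T5.Ypp.bz_eq (w := 199) (c := ⟨⟨.negSucc 75, .ofNat 51, .negSucc 78, .negSucc 30, .ofNat 41, .negSucc 1323⟩, ⟨.negSucc 6, .ofNat 40, .negSucc 170, .negSucc 47, .ofNat 16, .negSucc 691⟩, ⟨.ofNat 25, .ofNat 40, .ofNat 85, .negSucc 238, .ofNat 36, .ofNat 1410⟩, ⟨.negSucc 170, .ofNat 157, .negSucc 185, .ofNat 172, .ofNat 132, .negSucc 4050⟩, ⟨.negSucc 57, .negSucc 0, .ofNat 44, .negSucc 505, .negSucc 47, .ofNat 71⟩, .ofNat 1085, .negSucc 959, .ofNat 0, .negSucc 959, .ofNat 2158, .ofNat 0, .ofNat 128, .ofNat 170, .negSucc 69, .ofNat 0, .ofNat 156, .negSucc 29, .ofNat 0, .ofNat 0, .ofNat 385, .ofNat 902, .ofNat 0, .ofNat 0, .ofNat 0, .ofNat 0, .ofNat 0, .ofNat 0, .ofNat 0, .ofNat 0, .ofNat 0, .ofNat 0, .ofNat 4211478244235309130793583365849088, .ofNat 0, .ofNat 0, .ofNat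 0, .ofNat 1061488721220974015165795257024512, .ofNat 0⟩)
    (by decide +kernel)
theorem L00568 : Good (Phi V5.P V5.D 1 1) ⟨4, 0, 3, 4, 1, 0, 6, 15, 2, 1⟩ :=
  leafX_sound T5.ok_pp T5.Ypp.bz_eq (w := 206) (c := ⟨⟨.negSucc 1247, .ofNat 0, .negSucc 17, .negSucc 112, .ofNat 6, .ofNat 212⟩, ⟨.negSucc 628, .ofNat 30, .negSucc 158, .negSucc 84, .ofNat 4, .ofNat 112⟩, ⟨.ofNat 1552, .negSucc 14, .ofNat 19, .negSucc 415, .negSucc 12, .ofNat 66⟩, ⟨.negSucc 3752, .ofNat 13, .negSucc 1, .negSucc 63, .ofNat 16, .ofNat 496⟩, ⟨.negSucc 1, .ofNat 2, .negSucc 7, .negSucc 529, .ofNat 5, .ofNat 182⟩, .ofNat 1564, .negSucc 1695, .ofNat 0, .negSucc 1695, .ofNat 3343, .ofNat 0, .ofNat 128, .ofNat 195, .negSucc 41, .ofNat 0, .ofNat 159, .negSucc 17, .ofNat 0, .ofNat 0, .ofNat 1274, .ofNat 56815, .ofNat 1040703470021742612776892434931724402556928, .ofNat 0, .ofNat 695223734834489700792292482220032,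 .ofNat 0, .ofNat 1928488839983496456525345662404146671648768, .ofNat 0, .ofNat 0, .ofNat 0, .ofNat 4413634789180653599274475083174591340740608, .ofNat 0, .ofNat 5571311608457673806298744059068416, .ofNat 0, .ofNat 1464277270881331654709340894860149524529152, .ofNat 0, .ofNat 0, .ofNat 0⟩)
    (by decide +kernel)
theorem L00569 : Good (Phi V5.P V5.D 1 1) ⟨4, 0, 3, 4, 1, 0, 6, 15, 1, 1⟩ :=
  out_sound (S := T5.ds_pp) T5.ok_pp (w := 20) (j := 1) (by decide +kernel)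
theorem L00570 : Good (Phi V5.P V5.D 1 1) ⟨5, 0, 3, 4, 2, 2, 6, 15, 3, 0⟩ :=
  leafX_sound T5.ok_pp T5.Ypp.bz_eq (w := 225) (c := ⟨⟨.ofNat 805, .ofNat 47, .negSucc 28, .ofNat 43, .ofNat 42, .negSucc 2164⟩, ⟨.ofNat 426, .ofNat 24, .negSucc 28, .ofNat 22, .ofNat 37, .negSucc 1198⟩, ⟨.negSucc 506, .negSucc 41, .ofNat 99, .negSucc 280, .ofNat 12, .ofNat 1188⟩, ⟨.ofNat 2430, .ofNat 77, .ofNat 119, .ofNat 114, .ofNat 3, .negSucc 5928⟩, ⟨.negSucc 76, .ofNat 146, .negSucc 293, .ofNat 45, .ofNat 245, .negSucc 1070⟩, .ofNat 1370, .negSucc 1382, .ofNat 0, .negSucc 1382, .ofNat 2873, .ofNat 0, .ofNat 128, .ofNat 287, .negSucc 46, .ofNat 0, .ofNat 225, .negSucc 20, .ofNat 0, .ofNat 0, .ofNat 239, .ofNat 3430, .ofNat 0, .ofNat 0, .ofNat 0, .ofNat 0, .ofNat 0, .ofNat 0, .ofNat 0, .ofNat 0, .ofNat 0, .ofNat 0, .ofNat 0, .ofNat 0, .ofNat 0, .ofNat 0, .ofNat 52468783972058704872790392525731921920,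 .ofNat 0⟩)
    (by decide +kernel)
theorem L00571 : Good (Phi V5.P V5.D 1 1) ⟨5, 0, 3, 4, 2, 2, 6, 15, 3, 1⟩ :=
  leafX_sound T5.ok_pp T5.Ypp.bz_eq (w := 225) (c := ⟨⟨.negSucc 1285, .ofNat 6, .negSucc 72, .negSucc 42, .negSucc 6, .negSucc 74⟩, ⟨.negSucc 683, .ofNat 19, .negSucc 177, .negSucc 38, .negSucc 3, .negSucc 34⟩, ⟨.ofNat 691, .negSucc 5, .ofNat 120, .negSucc 194, .negSucc 4, .ofNat 384⟩, ⟨.negSucc 3556, .ofNat 24, .negSucc 106, .ofNat 33, .negSucc 5, .negSucc 253⟩, ⟨.negSucc 614, .negSucc 19, .negSucc 18, .negSucc 310, .negSucc 26, .ofNat 56⟩, .ofNat 2038, .negSucc 2440, .ofNat 0, .negSucc 2440, .ofNat 4665, .ofNat 0, .ofNat 128, .ofNat 209, .negSucc 27, .ofNat 0, .ofNat 163, .negSucc 10, .ofNat 0, .ofNat 0, .ofNat 266, .ofNat 6601, .ofNat 0, .ofNat 0, .ofNat 0, .ofNat 0, .ofNat 0, .ofNat 0, .ofNat 0, .ofNat 0, .ofNat 0, .ofNat 0, .ofNat 985219825611572930102497464418899591168,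 .ofNat 0, .ofNat 0, .ofNat 0, .ofNat 188001577624091997763593312134215237632, .ofNat 0⟩)
    (by decide +kernel)
theorem L00572 : Good (Phi V5.P V5.D 1 1) ⟨5, 0, 3, 4, 2, 2, 6, 15, 4, 4⟩ :=
  leafX_sound T5.ok_pp T5.Ypp.bz_eq (w := 233) (c := ⟨⟨.negSucc 1377, .negSucc 1, .negSucc 29, .ofNat 3, .negSucc 0, .ofNat 100⟩, ⟨.negSucc 728, .ofNat 15, .negSucc 151, .negSucc 13, .ofNat 0, .ofNat 58⟩, ⟨.ofNat 1073, .negSucc 1, .ofNat 77, .negSucc 198, .negSucc 7, .ofNat 85⟩, ⟨.negSucc 3843, .negSucc 10, .ofNat 3, .ofNat 163, .negSucc 3, .ofNat 244⟩, ⟨.negSucc 588, .ofNat 10, .negSucc 5, .negSucc 293, .ofNat 5, .ofNat 104⟩, .ofNat 1821, .negSucc 2089, .ofNat 0, .negSucc 2089, .ofNat 4062, .ofNat 0, .ofNat 128, .ofNat 285, .negSucc 23, .ofNat 0, .ofNat 230, .negSucc 7, .ofNat 0, .ofNat 0, .ofNat 414, .ofNat 64490, .ofNat 1148224482516029831775203115987375975655471579136,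 .ofNat 0, .ofNat 1999654567433995520226222296568390746112, .ofNat 0, .ofNat 0, .ofNat 0, .ofNat 8365836333550686490342586984681210642432, .ofNat 0, .ofNat 0, .ofNat 0, .ofNat 0, .ofNat 0, .ofNat 946761214675013180746831676163265221840636739584, .ofNat 0, .ofNat 28371635616894062698957735624952017584128, .ofNat 0⟩)
    (by decide +kernel)
theorem L00573 : Good (Phi V5.P V5.D 1 1) ⟨5, 0, 3, 4, 2, 2, 6, 15, 4, 5⟩ :=
  leafX_sound T5.ok_pp T5.Ypp.bz_eq (w := 234) (c := ⟨⟨.negSucc 1313, .ofNat 1, .negSucc 20, .ofNat 52, .ofNat 2, .ofNat 125⟩, ⟨.negSucc 691, .ofNat 15, .negSucc 135, .ofNat 11, .ofNat 2, .ofNat 73⟩, ⟨.ofNat 1171, .negSucc 5, .ofNat 51, .negSucc 204, .negSucc 13, .ofNat 85⟩, ⟨.negSucc 3683, .negSucc 1, .ofNat 34, .ofNat 285, .ofNat 1, .ofNat 306⟩, ⟨.negSucc 519, .ofNat 10, .negSucc 18, .negSucc 252, .ofNat 9, .ofNat 127⟩, .ofNat 1369, .negSucc 1379,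 .ofNat 0, .negSucc 1379, .ofNat 2862, .ofNat 0, .ofNat 128, .ofNat 232, .negSucc 21, .ofNat 0, .ofNat 204, .negSucc 2, .ofNat 0, .ofNat 0, .ofNat 732, .ofNat 107953, .ofNat 3164938196808441365346690202156025801000586575872, .ofNat 0, .ofNat 0, .ofNat 0, .ofNat 7966024252827874305583562172833442040167463387136, .ofNat 0, .ofNat 98157849561490129179468232728768145260544, .ofNat 0, .ofNat 0, .ofNat 0, .ofNat 0, .ofNat 0, .ofNat 5090307249553606052610437300535726744847633088512, .ofNat 0, .ofNat 0, .ofNat 0⟩)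
    (by decide +kernel)
theorem L00574 : Good (Phi V5.P V5.D 1 1) ⟨5, 0, 3, 4, 2, 2, 6, 15, 3, 3⟩ :=
  leafX_sound T5.ok_pp T5.Ypp.bz_eq (w := 234) (c := ⟨⟨.negSucc 1132, .negSucc 0, .negSucc 15, .negSucc 0, .ofNat 1, .ofNat 1⟩, ⟨.negSucc 607, .ofNat 13, .negSucc 123, .ofNat 0, .ofNat 1, .ofNat 0⟩, ⟨.ofNat 1072, .negSucc 6, .ofNat 22, .ofNat 1, .negSucc 16, .negSucc 0⟩, ⟨.negSucc 3080, .negSucc 8, .ofNat 44, .negSucc 1, .ofNat 0, .ofNat 2⟩, ⟨.negSucc 639, .ofNat 8, .negSucc 25, .ofNat 0, .ofNat 10, .ofNat 0⟩, .ofNat 196, .negSucc 29, .ofNat 0, .negSucc 29, .ofNat 228, .ofNat 0, .ofNat 139, .ofNat 17, .negSucc 29, .ofNat 0, .ofNat 128, .ofNat 35, .ofNat 0, .ofNat 0, .ofNat 496, .ofNat 2108104, .ofNat 18468172606073225593143481028501189668280003985408, .ofNat 0, .ofNat 0, .ofNat 0, .ofNat 13983341402641937874857079459414741903233129644032, .ofNat 0, .ofNat 141557356909756564806012629103411200000,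 .ofNat 0, .ofNat 6895207080476530876449185845108425367523524870144, .ofNat 0, .ofNat 0, .ofNat 0, .ofNat 2617995353516378130514439299653440278959818276864, .ofNat 0, .ofNat 611058802129336623582160032972316606464, .ofNat 0⟩)
    (by decide +kernel)
theorem L00575 : Good (Phi V5.P V5.D 1 1) ⟨5, 0, 3, 4, 2, 2, 6, 15, 1, 1⟩ :=
  out_sound (S := T5.ds_pp) T5.ok_pp (w := 22) (j := 1) (by decide +kernel)
theorem L00576 : Good (Phi V5.P V5.D 1 1) ⟨5, 0, 3, 4, 2, 3, 6, 15, 3, 0⟩ :=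
  leafX_sound T5.ok_pp T5.Ypp.bz_eq (w := 224) (c := ⟨⟨.ofNat 937, .ofNat 33, .negSucc 127, .negSucc 55, .negSucc 15, .negSucc 2177⟩, ⟨.ofNat 516, .ofNat 18, .negSucc 101, .ofNat 2, .negSucc 4, .negSucc 1228⟩, ⟨.negSucc 796, .negSucc 4, .ofNat 146, .negSucc 14, .negSucc 20, .ofNat 1158⟩, ⟨.ofNat 2501, .negSucc 4, .negSucc 555, .negSucc 419, .ofNat 56, .negSucc 5512⟩, ⟨.ofNat 569, .ofNat 233, .ofNat 383, .ofNat 466, .negSucc 223, .negSucc 1907⟩, .ofNat 1815, .negSucc 2079, .ofNat 0, .negSucc 2079, .ofNat 4043, .ofNat 0, .ofNat 128, .ofNat 172, .negSucc 86, .ofNat 0, .ofNat 127, .negSucc 39, .ofNat 0, .ofNat 0, .ofNat 355, .ofNat 1482, .ofNat 0, .ofNat 0, .ofNat 0, .ofNat 0, .ofNat 0, .ofNat 0, .ofNat 0, .ofNat 0, .ofNat 0, .ofNat 0, .ofNat 0, .ofNat 0, .ofNat 0, .ofNat 0, .ofNat 0, .ofNat 0⟩)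
    (by decide +kernel)
theorem L00577 : Good (Phi V5.P V5.D 1 1) ⟨5, 0, 3, 4, 2, 3, 6, 15, 3, 1⟩ :=
  leafX_sound T5.ok_pp T5.Ypp.bz_eq (w := 225) (c := ⟨⟨.negSucc 1386, .negSucc 1, .negSucc 53, .ofNat 92, .negSucc 0, .ofNat 4⟩, ⟨.negSucc 747, .ofNat 17, .negSucc 160, .ofNat 40, .negSucc 0, .negSucc 4⟩, ⟨.ofNat 565, .ofNat 4, .ofNat 99, .negSucc 208, .negSucc 0, .ofNat 309⟩, ⟨.negSucc 3730, .negSucc 43, .negSucc 2, .ofNat 360, .negSucc 6, .ofNat 58⟩, ⟨.negSucc 845, .ofNat 62, .negSucc 72, .negSucc 165, .ofNat 12, .negSucc 113⟩, .ofNat 1379, .negSucc 1395, .ofNat 0, .negSucc 1395, .ofNat 2888, .ofNat 0, .ofNat 128, .ofNat 229, .negSucc 33, .ofNat 0, .ofNat 194, .negSucc 10, .ofNat 0, .ofNat 0, .ofNat 274, .ofNat 4569, .ofNat 0, .ofNat 0, .ofNat 0, .ofNat 0, .ofNat 0, .ofNat 0, .ofNat 0, .ofNat 0, .ofNat 0, .ofNat 0, .ofNat 0, .ofNat 0, .ofNat 0, .ofNat 0, .ofNat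 71450202191738581044995265518370816000, .ofNat 0⟩)
    (by decide +kernel)
theorem L00578 : Good (Phi V5.P V5.D 1 1) ⟨5, 0, 3, 4, 2, 3, 6, 15, 3, 2⟩ :=
  leafX_sound T5.ok_pp T5.Ypp.bz_eq (w := 224) (c := ⟨⟨.negSucc 1385, .ofNat 4, .negSucc 27, .ofNat 129, .ofNat 0, .ofNat 253⟩, ⟨.negSucc 753, .ofNat 18, .negSucc 138, .ofNat 59, .ofNat 1, .ofNat 147⟩, ⟨.ofNat 874, .ofNat 3, .ofNat 65, .negSucc 190, .negSucc 6, .ofNat 161⟩, ⟨.negSucc 3698, .negSucc 7, .ofNat 62, .ofNat 478, .negSucc 4, .ofNat 606⟩, ⟨.negSucc 914, .ofNat 27, .negSucc 62, .negSucc 175, .ofNat 9, .ofNat 275⟩, .ofNat 1402, .negSucc 1427, .ofNat 0, .negSucc 1427, .ofNat 2926, .ofNat 0, .ofNat 128, .ofNat 348, .negSucc 32, .ofNat 0, .ofNat 309, .negSucc 3, .ofNat 0, .ofNat 0, .ofNat 871, .ofNat 1663, .ofNat 0, .ofNat 0, .ofNat 0, .ofNat 0, .ofNat 0, .ofNat 0, .ofNat 0, .ofNat 0, .ofNat 0, .ofNat 0,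 .ofNat 0, .ofNat 0, .ofNat 0, .ofNat 935418388881580451826233551142732903957397504, .ofNat 924279528389236281427324456808147320832, .ofNat 0⟩)
    (by decide +kernel)
theorem L00579 : Good (Phi V5.P V5.D 1 1) ⟨5, 0, 3, 4, 2, 3, 6, 15, 3, 3⟩ :=
  leafX_sound T5.ok_pp T5.Ypp.bz_eq (w := 227) (c := ⟨⟨.negSucc 1133, .negSucc 1, .negSucc 15, .ofNat 118, .ofNat 1, .ofNat 1⟩, ⟨.negSucc 607, .ofNat 12, .negSucc 122, .ofNat 55, .ofNat 1, .ofNat 0⟩, ⟨.ofNat 1072, .negSucc 5, .ofNat 22, .negSucc 133, .negSucc 15, .negSucc 0⟩, ⟨.negSucc 3080, .negSucc 9, .ofNat 46, .ofNat 428, .negSucc 1, .ofNat 1⟩, ⟨.negSucc 640, .ofNat 8, .negSucc 27, .negSucc 148, .ofNat 11, .ofNat 0⟩, .ofNat 454, .negSucc 178, .ofNat 0, .negSucc 178, .ofNat 648, .ofNat 0, .ofNat 182, .ofNat 64, .negSucc 13, .ofNat 0, .ofNat 128, .ofNat 14, .ofNat 0, .ofNat 0, .ofNat 646, .ofNat 32954, .ofNat 0, .ofNat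 0, .ofNat 0, .ofNat 0, .ofNat 6819791046745287219206384569450730042499281190912, .ofNat 9539583288874775045988913098935962507507924992, .ofNat 482177417028607222947299644536740904960, .ofNat 0, .ofNat 3453249093321194107532389567184451688082970771456, .ofNat 6697931664738850292310634976373405360343482368, .ofNat 393053064881117858487372824229978308608, .ofNat 0, .ofNat 0, .ofNat 3196274864939888891448494681341050033849499648, .ofNat 1680008688767125868137915543085436108800, .ofNat 0⟩)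
    (by decide +kernel)
theorem L00580 : Good (Phi V5.P V5.D 1 1) ⟨5, 0, 3, 4, 2, 3, 6, 15, 1, 1⟩ :=
  out_sound (S := T5.ds_pp) T5.ok_pp (w := 32) (j := 2) (by decide +kernel)
theorem L00581 : Good (Phi V5.P V5.D 1 1) ⟨5, 1, 3, 4, 1, 1, 6, 15, 3, 0⟩ :=
  leafX_sound T5.ok_pp T5.Ypp.bz_eq (w := 210) (c := ⟨⟨.ofNat 942, .negSucc 54, .negSucc 521, .ofNat 19, .ofNat 24, .negSucc 2164⟩, ⟨.ofNat 466, .negSucc 21, .negSucc 285, .ofNat 56, .ofNat 4, .negSucc 1138⟩, ⟨.negSucc 611, .ofNat 60, .ofNat 290, .negSucc 279, .negSucc 41, .ofNat 1166⟩, ⟨.ofNat 2787, .negSucc 145, .negSucc 1396, .negSucc 436, .ofNat 73, .negSucc 5769⟩, ⟨.ofNat 32, .negSucc 29, .negSucc 212, .ofNat 958, .ofNat 6, .negSucc 1367⟩, .ofNat 2023, .negSucc 2489, .ofNat 0, .negSucc 2489, .ofNat 4930, .ofNat 0, .ofNat 135, .ofNat 128, .negSucc 79, .ofNat 0, .ofNat 93, .negSucc 34, .ofNat 0, .ofNat 0, .ofNat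 369, .ofNat 887, .ofNat 0, .ofNat 0, .ofNat 0, .ofNat 0, .ofNat 0, .ofNat 0, .ofNat 0, .ofNat 0, .ofNat 0, .ofNat 0, .ofNat 23701058895661602507363828954562560, .ofNat 0, .ofNat 0, .ofNat 0, .ofNat 0, .ofNat 0⟩)
    (by decide +kernel)
theorem L00582 : Good (Phi V5.P V5.D 1 1) ⟨5, 1, 3, 4, 1, 1, 6, 15, 3, 1⟩ :=
  leafX_sound T5.ok_pp T5.Ypp.bz_eq (w := 211) (c := ⟨⟨.negSucc 1360, .negSucc 16, .negSucc 77, .ofNat 61, .ofNat 24, .negSucc 33⟩, ⟨.negSucc 707, .ofNat 10, .negSucc 175, .ofNat 10, .ofNat 14, .negSucc 18⟩, ⟨.ofNat 725, .negSucc 3, .ofNat 121, .negSucc 385, .negSucc 4, .ofNat 343⟩, ⟨.negSucc 3779, .negSucc 29, .negSucc 90, .ofNat 367, .ofNat 63, .negSucc 75⟩, ⟨.negSucc 614, .negSucc 24, .negSucc 64, .negSucc 369, .ofNat 21, .negSucc 46⟩, .ofNat 2029, .negSucc 2498, .ofNat 0, .negSucc 2498, .ofNat 4941, .ofNat 0, .ofNat 128, .ofNat 300, .negSucc 39, .ofNat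 0, .ofNat 234, .negSucc 13, .ofNat 0, .ofNat 0, .ofNat 368, .ofNat 5685, .ofNat 0, .ofNat 0, .ofNat 0, .ofNat 0, .ofNat 0, .ofNat 0, .ofNat 0, .ofNat 0, .ofNat 0, .ofNat 0, .ofNat 74164534089061749134425859083468800, .ofNat 0, .ofNat 0, .ofNat 0, .ofNat 8195465988262071959713333735587840, .ofNat 0⟩)
    (by decide +kernel)
theorem L00583 : Good (Phi V5.P V5.D 1 1) ⟨5, 1, 3, 4, 1, 1, 6, 15, 4, 4⟩ :=
  leafX_sound T5.ok_pp T5.Ypp.bz_eq (w := 216) (c := ⟨⟨.negSucc 1401, .negSucc 2, .negSucc 10, .ofNat 121, .negSucc 1, .ofNat 100⟩, ⟨.negSucc 726, .ofNat 17, .negSucc 133, .ofNat 37, .negSucc 0, .ofNat 55⟩, ⟨.ofNat 1066, .ofNat 8, .ofNat 61, .negSucc 381, .negSucc 7, .ofNat 84⟩, ⟨.negSucc 3904, .negSucc 13, .ofNat 89, .ofNat 589, .negSucc 9, .ofNat 255⟩, ⟨.negSucc 599, .ofNat 25, .negSucc 42, .negSucc 459, .ofNat 8, .ofNat 84⟩, .ofNat 1063, .negSucc 934, .ofNat 0,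 .negSucc 934, .ofNat 2157, .ofNat 0, .ofNat 128, .ofNat 204, .negSucc 25, .ofNat 0, .ofNat 192, .negSucc 3, .ofNat 0, .ofNat 0, .ofNat 469, .ofNat 5798, .ofNat 25509829696237800608319861404318072158814208, .ofNat 0, .ofNat 26043404549571970064761076150435840, .ofNat 0, .ofNat 0, .ofNat 0, .ofNat 0, .ofNat 0, .ofNat 0, .ofNat 0, .ofNat 0, .ofNat 0, .ofNat 0, .ofNat 406501114582625253515655019548680386510848, .ofNat 422191270874487738981576802979282944, .ofNat 0⟩)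
    (by decide +kernel)
theorem L00584 : Good (Phi V5.P V5.D 1 1) ⟨5, 1, 3, 4, 2, 2, 6, 15, 4, 5⟩ :=
  leafX_sound T5.ok_pp T5.Ypp.bz_eq (w := 234) (c := ⟨⟨.negSucc 1311, .negSucc 3, .negSucc 18, .ofNat 53, .ofNat 1, .ofNat 122⟩, ⟨.negSucc 677, .ofNat 15, .negSucc 136, .ofNat 15, .ofNat 1, .ofNat 67⟩, ⟨.ofNat 1157, .negSucc 3, .ofNat 48, .negSucc 195, .negSucc 10, .ofNat 82⟩, ⟨.negSucc 3686, .negSucc 7, .ofNat 37, .ofNat 287, .negSucc 0, .ofNat 303⟩, ⟨.negSucc 505, .ofNat 9, .negSucc 19, .negSucc 251, .ofNat 7, .ofNat 117⟩, .ofNat 815, .negSucc 581, .ofNat 0, .negSucc 581, .ofNat 1496, .ofNat 0, .ofNat 128, .ofNat 130, .negSucc 36, .ofNat 0, .ofNat 143, .ofNat 0, .ofNat 0, .ofNat 0, .ofNat 923, .ofNat 96615, .ofNat 3062563752162392004894794615428108258437924651008, .ofNat 0, .ofNat 0, .ofNat 0, .ofNat 8739993921228300398765230169467043901842495897600, .ofNat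 0, .ofNat 22866176179661933075096748481062117572608, .ofNat 0, .ofNat 12447141315961979048187619417259313747989115174912, .ofNat 0, .ofNat 19933841014485482467404314594743228039168, .ofNat 0, .ofNat 0, .ofNat 0, .ofNat 0, .ofNat 0⟩)
    (by decide +kernel)
theorem L00585 : Good (Phi V5.P V5.D 1 1) ⟨5, 1, 3, 4, 2, 3, 6, 15, 4, 5⟩ :=
  leafX_sound T5.ok_pp T5.Ypp.bz_eq (w := 230) (c := ⟨⟨.negSucc 1258, .negSucc 2, .negSucc 18, .ofNat 126, .negSucc 0, .ofNat 125⟩, ⟨.negSucc 663, .ofNat 15, .negSucc 127, .ofNat 55, .ofNat 0, .ofNat 70⟩, ⟨.ofNat 951, .ofNat 3, .ofNat 51, .negSucc 163, .negSucc 6, .ofNat 95⟩, ⟨.negSucc 3396, .negSucc 10, .ofNat 61, .ofNat 460, .negSucc 5, .ofNat 305⟩, ⟨.negSucc 763, .ofNat 18, .negSucc 45, .negSucc 166, .ofNat 9, .ofNat 132⟩, .ofNat 812, .negSucc 575, .ofNat 0, .negSucc 575, .ofNat 1488, .ofNat 0, .ofNat 128, .ofNat 135, .negSucc 13,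 .ofNat 0, .ofNat 155, .ofNat 4, .ofNat 0, .ofNat 0, .ofNat 501, .ofNat 4620, .ofNat 0, .ofNat 0, .ofNat 0, .ofNat 0, .ofNat 0, .ofNat 0, .ofNat 0, .ofNat 0, .ofNat 0, .ofNat 0, .ofNat 0, .ofNat 0, .ofNat 0, .ofNat 4368489106033840447136866010130746216477097984, .ofNat 14001290533237985093398600044183136763904, .ofNat 0⟩)
    (by decide +kernel)
theorem L00586 : Good (Phi V5.P V5.D 1 1) ⟨5, 1, 3, 4, 1, 1, 6, 15, 3, 3⟩ :=
  leafX_sound T5.ok_pp T5.Ypp.bz_eq (w := 209) (c := ⟨⟨.negSucc 1134, .negSucc 3, .negSucc 15, .ofNat 0, .ofNat 1, .ofNat 1⟩, ⟨.negSucc 594, .ofNat 13, .negSucc 123, .ofNat 0, .ofNat 1, .ofNat 0⟩, ⟨.ofNat 1064, .negSucc 3, .ofNat 18, .ofNat 0, .negSucc 13, .negSucc 0⟩, ⟨.negSucc 3091, .negSucc 8, .ofNat 46, .ofNat 0, .negSucc 0, .ofNat 2⟩, ⟨.negSucc 631, .ofNat 8, .negSucc 27, .ofNat 0, .ofNat 10, .ofNat 0⟩, .ofNat 195, .negSucc 28, .ofNat 0,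 .negSucc 28, .ofNat 229, .ofNat 0, .ofNat 140, .ofNat 16, .negSucc 29, .ofNat 0, .ofNat 128, .ofNat 35, .ofNat 0, .ofNat 0, .ofNat 494, .ofNat 1159, .ofNat 2919425799663341705659536342918994799362048, .ofNat 0, .ofNat 0, .ofNat 0, .ofNat 69506460947345656048511278618978737698373632, .ofNat 97593738984384872704751545947386151960576, .ofNat 4988733956545096779250698781982720, .ofNat 0, .ofNat 0, .ofNat 24859415760064539693962090289014427877376, .ofNat 12635667073595834494534887279689728, .ofNat 0, .ofNat 78428846322744691065468869825923944913305600, .ofNat 121076422981838200188143225623005259366400, .ofNat 32233865178624412062678853722570752, .ofNat 0⟩)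
    (by decide +kernel)
theorem L00587 : Good (Phi V5.P V5.D 1 1) ⟨5, 1, 3, 4, 2, 2, 6, 15, 1, 1⟩ :=
  out_sound (S := T5.ds_pp) T5.ok_pp (w := 22) (j := 1) (by decide +kernel)
theorem L00588 : Good (Phi V5.P V5.D 1 1) ⟨5, 1, 3, 4, 2, 3, 6, 15, 1, 1⟩ :=
  out_sound (S := T5.ds_pp) T5.ok_pp (w := 32) (j := 2) (by decide +kernel)
theorem L00589 : Good (Phi V5.P V5.D 1 1) ⟨5, 2, 5, 16, 1, 0, 5, 7, 2, 0⟩ :=
  leafX_sound T5.ok_pp T5.Ypp.bz_eq (w := 205) (c := ⟨⟨.negSucc 103, .ofNat 21, .ofNat 18, .negSucc 6, .ofNat 12, .negSucc 1316⟩, ⟨.negSucc 51, .ofNat 26, .negSucc 27, .negSucc 31, .ofNat 6, .negSucc 629⟩, ⟨.ofNat 129, .negSucc 32, .ofNat 7, .negSucc 315, .ofNat 12, .ofNat 1427⟩, ⟨.negSucc 267, .ofNat 57, .ofNat 54, .ofNat 206, .ofNat 37, .negSucc 3943⟩, ⟨.negSucc 58, .ofNat 52, .ofNat 8, .negSucc 476, .ofNat 1, .negSucc 2⟩, .ofNat 1270, .negSucc 1292, .ofNat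 0, .negSucc 1292, .ofNat 2925, .ofNat 0, .ofNat 128, .ofNat 175, .negSucc 60, .ofNat 0, .ofNat 147, .negSucc 25, .ofNat 0, .ofNat 0, .ofNat 362, .ofNat 945, .ofNat 0, .ofNat 0, .ofNat 0, .ofNat 0, .ofNat 0, .ofNat 0, .ofNat 0, .ofNat 0, .ofNat 0, .ofNat 0, .ofNat 0, .ofNat 0, .ofNat 0, .ofNat 0, .ofNat 0, .ofNat 0⟩)
    (by decide +kernel)
theorem L00590 : Good (Phi V5.P V5.D 1 1) ⟨5, 2, 5, 16, 1, 0, 5, 7, 2, 1⟩ :=
  leafX_sound T5.ok_pp T5.Ypp.bz_eq (w := 212) (c := ⟨⟨.negSucc 1257, .negSucc 5, .negSucc 2, .negSucc 101, .ofNat 7, .ofNat 199⟩, ⟨.negSucc 605, .ofNat 14, .negSucc 38, .negSucc 74, .ofNat 3, .ofNat 100⟩, ⟨.ofNat 1572, .negSucc 0, .ofNat 24, .negSucc 432, .negSucc 36, .ofNat 130⟩, ⟨.negSucc 3753, .ofNat 5, .ofNat 0, .negSucc 54, .ofNat 20, .ofNat 454⟩, ⟨.negSucc 5, .negSucc 1, .ofNat 2, .negSucc 510, .ofNat 2, .ofNat 168⟩, .ofNat 1923, .negSucc 2405,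 .ofNat 0, .negSucc 2405, .ofNat 4957, .ofNat 0, .ofNat 128, .ofNat 160, .negSucc 38, .ofNat 0, .ofNat 124, .negSucc 14, .ofNat 0, .ofNat 0, .ofNat 1177, .ofNat 56635, .ofNat 109429587550102726018715531993174861452148736, .ofNat 0, .ofNat 0, .ofNat 0, .ofNat 228884434150395421075885623760222734390394880, .ofNat 0, .ofNat 0, .ofNat 0, .ofNat 416010129794682688888619275210504221642194944, .ofNat 0, .ofNat 264931017488954833326976958201856, .ofNat 0, .ofNat 0, .ofNat 0, .ofNat 0, .ofNat 0⟩)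
    (by decide +kernel)
theorem L00591 : Good (Phi V5.P V5.D 1 1) ⟨5, 2, 5, 16, 1, 0, 5, 7, 1, 1⟩ :=
  out_sound (S := T5.ds_pp) T5.ok_pp (w := 19) (j := 1) (by decide +kernel)
theorem L00592 : Good (Phi V5.P V5.D 1 1) ⟨5, 2, 5, 16, 1, 1, 5, 7, 3, 0⟩ :=
  leafX_sound T5.ok_pp T5.Ypp.bz_eq (w := 212) (c := ⟨⟨.ofNat 954, .negSucc 32, .negSucc 64, .ofNat 28, .negSucc 2, .negSucc 2202⟩, ⟨.ofNat 461, .ofNat 0, .negSucc 38, .ofNat 43, .ofNat 1, .negSucc 1123⟩, ⟨.negSucc 627, .ofNat 46, .ofNat 43, .negSucc 346, .ofNat 2, .ofNat 1195⟩, ⟨.ofNat 2795, .negSucc 200, .negSucc 294, .negSucc 222, .negSucc 1, .negSucc 5883⟩, ⟨.ofNat 94, .ofNat 203, .ofNat 173, .ofNat 624, .negSucc 4, .negSucc 1366⟩, .ofNat 1888, .negSucc 2347, .ofNat 0, .negSucc 2347, .ofNat 4887, .ofNat 0, .ofNat 165, .ofNat 128, .negSucc 110, .ofNat 0, .ofNat 91, .negSucc 45, .ofNat 0, .ofNat 0, .ofNat 513,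 .ofNat 1411, .ofNat 0, .ofNat 0, .ofNat 0, .ofNat 0, .ofNat 0, .ofNat 0, .ofNat 0, .ofNat 0, .ofNat 0, .ofNat 0, .ofNat 5964822306798821209133871135719424, .ofNat 0, .ofNat 0, .ofNat 0, .ofNat 0, .ofNat 0⟩)
    (by decide +kernel)
theorem L00593 : Good (Phi V5.P V5.D 1 1) ⟨5, 2, 5, 16, 1, 1, 5, 7, 3, 1⟩ :=
  leafX_sound T5.ok_pp T5.Ypp.bz_eq (w := 213) (c := ⟨⟨.negSucc 1411, .negSucc 2, .ofNat 7, .ofNat 92, .ofNat 10, .ofNat 13⟩, ⟨.negSucc 717, .ofNat 20, .negSucc 29, .ofNat 27, .ofNat 7, .ofNat 11⟩, ⟨.ofNat 713, .negSucc 7, .ofNat 22, .negSucc 376, .ofNat 12, .ofNat 352⟩, ⟨.negSucc 3872, .ofNat 8, .ofNat 46, .ofNat 445, .ofNat 15, .negSucc 1⟩, ⟨.negSucc 701, .ofNat 5, .negSucc 2, .negSucc 355, .ofNat 31, .ofNat 85⟩, .ofNat 1806, .negSucc 2205, .ofNat 0, .negSucc 2205, .ofNat 4629, .ofNat 0, .ofNat 128, .ofNat 242, .negSucc 30, .ofNat 0, .ofNat 186, .negSucc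 9, .ofNat 0, .ofNat 0, .ofNat 283, .ofNat 4435, .ofNat 0, .ofNat 0, .ofNat 0, .ofNat 0, .ofNat 0, .ofNat 0, .ofNat 0, .ofNat 0, .ofNat 0, .ofNat 0, .ofNat 0, .ofNat 0, .ofNat 0, .ofNat 0, .ofNat 676673693653762502658865296834560, .ofNat 0⟩)
    (by decide +kernel)
theorem L00594 : Good (Phi V5.P V5.D 1 1) ⟨5, 2, 5, 16, 1, 1, 5, 7, 4, 4⟩ :=
  leafX_sound T5.ok_pp T5.Ypp.bz_eq (w := 217) (c := ⟨⟨.negSucc 1423, .negSucc 1, .ofNat 16, .ofNat 147, .negSucc 0, .ofNat 98⟩, ⟨.negSucc 718, .ofNat 19, .negSucc 22, .ofNat 51, .ofNat 1, .ofNat 51⟩, ⟨.ofNat 1056, .negSucc 1, .ofNat 21, .negSucc 349, .negSucc 3, .ofNat 83⟩, ⟨.negSucc 3942, .negSucc 1, .ofNat 62, .ofNat 612, .negSucc 11, .ofNat 261⟩, ⟨.negSucc 628, .ofNat 25, .ofNat 19, .negSucc 371, .ofNat 21, .ofNat 67⟩, .ofNat 1026, .negSucc 900, .ofNat 0, .negSucc 900, .ofNat 2183, .ofNat 0, .ofNat 128, .ofNat 175, .negSucc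 22, .ofNat 0, .ofNat 164, .negSucc 2, .ofNat 0, .ofNat 0, .ofNat 407, .ofNat 3834, .ofNat 156344378378915921392379524334333658249822208, .ofNat 0, .ofNat 0, .ofNat 0, .ofNat 0, .ofNat 0, .ofNat 0, .ofNat 0, .ofNat 0, .ofNat 0, .ofNat 0, .ofNat 0, .ofNat 0, .ofNat 4761509571048713807432627827110725797543936, .ofNat 140820462762789448580522051968696320, .ofNat 0⟩)
    (by decide +kernel)
theorem L00595 : Good (Phi V5.P V5.D 1 1) ⟨5, 2, 5, 16, 2, 2, 5, 7, 4, 5⟩ :=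
  leafX_sound T5.ok_pp T5.Ypp.bz_eq (w := 236) (c := ⟨⟨.negSucc 1310, .negSucc 4, .negSucc 3, .ofNat 49, .ofNat 1, .ofNat 118⟩, ⟨.negSucc 657, .ofNat 16, .negSucc 32, .ofNat 10, .ofNat 1, .ofNat 63⟩, ⟨.ofNat 1157, .ofNat 1, .ofNat 13, .negSucc 193, .negSucc 15, .ofNat 84⟩, ⟨.negSucc 3661, .negSucc 0, .ofNat 12, .ofNat 255, .negSucc 5, .ofNat 299⟩, ⟨.negSucc 516, .ofNat 11, .negSucc 6, .negSucc 231, .ofNat 17, .ofNat 109⟩, .ofNat 794, .negSucc 560, .ofNat 0, .negSucc 560, .ofNat 1516, .ofNat 0, .ofNat 137, .ofNat 116, .negSucc 25, .ofNat 0, .ofNat 128, .ofNat 1, .ofNat 0, .ofNat 0, .ofNat 663, .ofNat 122615, .ofNat 33179234137124632070815613669697809256912668065792, .ofNat 0, .ofNat 0, .ofNat 0, .ofNat 86174946581103871682994567093794997334115499376640, .ofNat 0, .ofNat 2975077786985785456129229193019505246208, .ofNat 0, .ofNat 93941875570863245104432644107957637101527328882688,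 .ofNat 0, .ofNat 0, .ofNat 0, .ofNat 0, .ofNat 0, .ofNat 0, .ofNat 0⟩)
    (by decide +kernel)
theorem L00596 : Good (Phi V5.P V5.D 1 1) ⟨5, 2, 5, 16, 2, 3, 5, 7, 4, 5⟩ :=
  leafX_sound T5.ok_pp T5.Ypp.bz_eq (w := 233) (c := ⟨⟨.negSucc 1263, .negSucc 3, .negSucc 2, .ofNat 129, .negSucc 0, .ofNat 124⟩, ⟨.negSucc 649, .ofNat 18, .negSucc 30, .ofNat 57, .ofNat 1, .ofNat 66⟩, ⟨.ofNat 948, .ofNat 14, .ofNat 17, .negSucc 133, .negSucc 8, .ofNat 96⟩, ⟨.negSucc 3394, .negSucc 11, .ofNat 11, .ofNat 430, .negSucc 10, .ofNat 300⟩, ⟨.negSucc 776, .ofNat 31, .ofNat 1, .negSucc 100, .ofNat 19, .ofNat 134⟩, .ofNat 1934, .negSucc 2426, .ofNat 0, .negSucc 2426, .ofNat 5023, .ofNat 0, .ofNat 128, .ofNat 204, .negSucc 17, .ofNat 0, .ofNat 166, .negSucc 0, .ofNat 0, .ofNat 0, .ofNat 818, .ofNat 9983, .ofNat 0, .ofNat 0, .ofNat 0, .ofNat 0, .ofNat 0, .ofNat 0, .ofNat 0, .ofNat 0,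 .ofNat 0, .ofNat 0, .ofNat 0, .ofNat 0, .ofNat 0, .ofNat 196189527633300238519096219430468248815781543936, .ofNat 3204043750331086259270461554690483027968, .ofNat 0⟩)
    (by decide +kernel)
theorem L00597 : Good (Phi V5.P V5.D 1 1) ⟨5, 2, 5, 16, 1, 1, 5, 7, 3, 3⟩ :=
  leafX_sound T5.ok_pp T5.Ypp.bz_eq (w := 212) (c := ⟨⟨.negSucc 1139, .negSucc 6, .negSucc 3, .ofNat 0, .ofNat 1, .ofNat 1⟩, ⟨.negSucc 582, .ofNat 14, .negSucc 30, .ofNat 0, .ofNat 2, .ofNat 0⟩, ⟨.ofNat 1067, .negSucc 0, .ofNat 4, .ofNat 0, .negSucc 19, .negSucc 0⟩, ⟨.negSucc 3097, .negSucc 8, .ofNat 12, .ofNat 0, .negSucc 3, .ofNat 2⟩, ⟨.negSucc 631, .ofNat 9, .negSucc 6, .ofNat 0, .ofNat 18, .ofNat 0⟩, .ofNat 445, .negSucc 167, .ofNat 0, .negSucc 167, .ofNat 660, .ofNat 0, .ofNat 153, .ofNat 62, .negSucc 16, .ofNat 0, .ofNat 128, .ofNat 15, .ofNat 0, .ofNat 0, .ofNat 728, .ofNat 3561, .ofNat 70835267399857481421436315531859896119066624,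 .ofNat 0, .ofNat 0, .ofNat 0, .ofNat 1560989698662958647278114731358117883004583936, .ofNat 4696180205348227688222381874555626425679872, .ofNat 0, .ofNat 0, .ofNat 353767673639617326140152678157402892434145280, .ofNat 2537920671364858131016020440349549571080192, .ofNat 0, .ofNat 0, .ofNat 1233226863812887652667322625546910231433314304, .ofNat 4233903404281718542866354471132424432517120, .ofNat 0, .ofNat 0⟩)
    (by decide +kernel)
theorem L00598 : Good (Phi V5.P V5.D 1 1) ⟨5, 2, 5, 16, 2, 2, 5, 7, 1, 1⟩ :=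
  out_sound (S := T5.ds_pp) T5.ok_pp (w := 21) (j := 1) (by decide +kernel)
theorem L00599 : Good (Phi V5.P V5.D 1 1) ⟨5, 2, 5, 16, 2, 3, 5, 7, 1, 1⟩ :=
  out_sound (S := T5.ds_pp) T5.ok_pp (w := 30) (j := 2) (by decide +kernel)
theorem L00600 : Good (Phi V5.P V5.D 1 1) ⟨5, 2, 5, 17, 0, 0, 5, 7, 0, 0⟩ :=
  out_sound (S := T5.ds_pp) T5.ok_pp (w := 61) (j := 3) (by decide +kernel)
theorem L00601 : Good (Phi V5.P V5.D 1 1) ⟨5, 3, 4, 8, 0, 0, 5, 7, 0, 0⟩ :=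
  out_sound (S := T5.ds_pp) T5.ok_pp (w := 59) (j := 3) (by decide +kernel)
theorem L00602 : Good (Phi V5.P V5.D 1 1) ⟨4, 1, 4, 9, 0, 0, 5, 7, 0, 0⟩ :=
  out_sound (S := T5.ds_pp) T5.ok_pp (w := 53) (j := 3) (by decide +kernel)
theorem L00603 : Good (Phi V5.P V5.D 1 1) ⟨3, 1, 3, 4, 0, 0, 5, 7, 0, 0⟩ :=
  out_sound (S := T5.ds_pp) T5.ok_pp (w := 45) (j := 3) (by decide +kernel)
theorem L00604 : Good (Phi V5.P V5.D 1 1) ⟨2, 0, 3, 5, 0, 0, 5, 7, 0, 0⟩ :=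
  out_sound (S := T5.ds_pp) T5.ok_pp (w := 39) (j := 3) (by decide +kernel)
theorem L00605 : Good (Phi V5.P V5.D 1 1) ⟨2, 1, 2, 2, 0, 0, 5, 7, 0, 0⟩ :=
  out_sound (S := T5.ds_pp) T5.ok_pp (w := 37) (j := 3) (by decide +kernel)
theorem L00606 : Good (Phi V5.P V5.D 1 1) ⟨1, 0, 2, 3, 0, 0, 5, 7, 0, 0⟩ :=
  out_sound (S := T5.ds_pp) T5.ok_pp (w := 31) (j := 3) (by decide +kernel)
theorem L00607 : Good (Phi V5.P V5.D 1 1) ⟨1, 0, 1, 1, 0, 0, 2, 1, 3, 0⟩ :=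
  leafX_sound T5.ok_pp T5.Ypp.bz_eq (w := 157) (c := ⟨⟨.ofNat 618, .negSucc 400, .negSucc 986, .ofNat 332, .negSucc 104, .negSucc 1875⟩, ⟨.ofNat 327, .negSucc 124, .negSucc 495, .ofNat 147, .negSucc 50, .negSucc 986⟩, ⟨.negSucc 328, .ofNat 66, .ofNat 399, .negSucc 697, .ofNat 60, .ofNat 1489⟩, ⟨.ofNat 1734, .negSucc 1442, .negSucc 1522, .ofNat 1117, .negSucc 428, .negSucc 5352⟩, ⟨.ofNat 206, .ofNat 697, .negSucc 2497, .negSucc 213, .ofNat 191, .negSucc 513⟩, .ofNat 1339, .negSucc 1361, .ofNat 0, .negSucc 1361, .ofNat 2913, .ofNat 0, .ofNat 128, .ofNat 158, .negSucc 98, .ofNat 0, .ofNat 128, .negSucc 42, .ofNat 0, .ofNat 0, .ofNat 360, .ofNat 355, .ofNat 0, .ofNat 0, .ofNat 42270013496120757444411392, .ofNat 0, .ofNat 0, .ofNat 0, .ofNat 844851127159056099860021248, .ofNat 0, .ofNat 0, .ofNat 0, .ofNat 1445596319682590194542837760, .ofNat 0, .ofNat 0, .ofNat 0,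 .ofNat 1337497052429039671831429120, .ofNat 0⟩)
    (by decide +kernel)
theorem L00608 : Good (Phi V5.P V5.D 1 1) ⟨2, 0, 1, 1, 1, 0, 2, 1, 3, 1⟩ :=
  leafX_sound T5.ok_pp T5.Ypp.bz_eq (w := 176) (c := ⟨⟨.negSucc 1173, .negSucc 49, .negSucc 19, .negSucc 135, .ofNat 100, .negSucc 64⟩, ⟨.negSucc 593, .ofNat 95, .negSucc 585, .negSucc 94, .ofNat 52, .negSucc 32⟩, ⟨.ofNat 1247, .ofNat 146, .ofNat 85, .negSucc 312, .negSucc 186, .ofNat 169⟩, ⟨.negSucc 3513, .negSucc 43, .ofNat 87, .negSucc 150, .ofNat 282, .negSucc 208⟩, ⟨.negSucc 49, .ofNat 31, .ofNat 125, .negSucc 498, .ofNat 37, .ofNat 20⟩, .ofNat 1328, .negSucc 1350, .ofNat 0, .negSucc 1350, .ofNat 2915, .ofNat 0, .ofNat 128, .ofNat 148, .negSucc 65, .ofNat 0, .ofNat 125, .negSucc 27, .ofNat 0, .ofNat 0, .ofNat 490, .ofNat 3263, .ofNat 0, .ofNat 0, .ofNat 0, .ofNat 0, .ofNat 0, .ofNat 0, .ofNat 8044396293419720183544889212928,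 .ofNat 0, .ofNat 0, .ofNat 0, .ofNat 10276810465705802839367155187712, .ofNat 0, .ofNat 0, .ofNat 0, .ofNat 9629024642753681774376724201472, .ofNat 0⟩)
    (by decide +kernel)
theorem L00609 : Good (Phi V5.P V5.D 1 1) ⟨2, 0, 1, 1, 1, 1, 2, 1, 3, 1⟩ :=
  leafX_sound T5.ok_pp T5.Ypp.bz_eq (w := 175) (c := ⟨⟨.negSucc 1346, .ofNat 75, .negSucc 365, .ofNat 1, .ofNat 11, .negSucc 13⟩, ⟨.negSucc 720, .ofNat 199, .negSucc 753, .negSucc 16, .ofNat 13, .negSucc 6⟩, ⟨.ofNat 692, .ofNat 17, .ofNat 93, .negSucc 274, .ofNat 53, .ofNat 304⟩, ⟨.negSucc 3665, .ofNat 87, .negSucc 506, .ofNat 161, .negSucc 19, .negSucc 88⟩, ⟨.negSucc 753, .ofNat 383, .negSucc 331, .negSucc 312, .ofNat 112, .ofNat 70⟩, .ofNat 1340, .negSucc 1361, .ofNat 0, .negSucc 1361, .ofNat 2909, .ofNat 0, .ofNat 128, .ofNat 218, .negSucc 42, .ofNat 0, .ofNat 180, .negSucc 13, .ofNat 0, .ofNat 0, .ofNat 331,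 .ofNat 953, .ofNat 0, .ofNat 0, .ofNat 206887857988957273186551988224, .ofNat 0, .ofNat 0, .ofNat 0, .ofNat 4714313198462380537314268938240, .ofNat 0, .ofNat 0, .ofNat 0, .ofNat 4378594254411042698744825905152, .ofNat 0, .ofNat 0, .ofNat 0, .ofNat 6186643759192134346035678937088, .ofNat 0⟩)
    (by decide +kernel)
theorem L00610 : Good (Phi V5.P V5.D 1 1) ⟨2, 1, 1, 1, 0, 0, 2, 1, 3, 1⟩ :=
  out_sound (S := T5.ds_pp) T5.ok_pp (w := 35) (j := 3) (by decide +kernel)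
theorem L00611 : Good (Phi V5.P V5.D 1 1) ⟨2, 0, 1, 1, 1, 0, 2, 1, 4, 4⟩ :=
  leafX_sound T5.ok_pp T5.Ypp.bz_eq (w := 183) (c := ⟨⟨.negSucc 1224, .negSucc 47, .negSucc 65, .negSucc 122, .ofNat 83, .ofNat 58⟩, ⟨.negSucc 614, .ofNat 82, .negSucc 625, .negSucc 83, .ofNat 42, .ofNat 29⟩, ⟨.ofNat 1464, .negSucc 32, .negSucc 76, .negSucc 247, .negSucc 233, .negSucc 32⟩, ⟨.negSucc 3674, .negSucc 9, .ofNat 29, .negSucc 144, .ofNat 231, .ofNat 171⟩, ⟨.negSucc 16, .negSucc 42, .negSucc 83, .negSucc 452, .ofNat 28, .ofNat 17⟩, .ofNat 812, .negSucc 578, .ofNat 0, .negSucc 578, .ofNat 1496, .ofNat 0, .ofNat 128, .ofNat 130, .negSucc 77, .ofNat 0, .ofNat 139, .negSucc 25, .ofNat 0, .ofNat 0, .ofNat 901, .ofNat 12717, .ofNat 35916679747195685130863965785554944, .ofNat 0, .ofNat 14514694002303706603919410987008, .ofNat 0, .ofNat 0, .ofNat 0, .ofNat 1105693373649634197966210421751808,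 .ofNat 0, .ofNat 0, .ofNat 0, .ofNat 1092675000077809697039722917920768, .ofNat 0, .ofNat 446266027131814033186251588314857472, .ofNat 0, .ofNat 1148243809405209842368921288572928, .ofNat 0⟩)
    (by decide +kernel)
theorem L00612 : Good (Phi V5.P V5.D 1 1) ⟨2, 0, 1, 1, 2, 0, 2, 1, 5, 10⟩ :=
  leafX_sound T5.ok_pp T5.Ypp.bz_eq (w := 204) (c := ⟨⟨.negSucc 1181, .negSucc 38, .negSucc 8, .negSucc 44, .ofNat 92, .ofNat 30⟩, ⟨.negSucc 593, .ofNat 78, .negSucc 541, .negSucc 32, .ofNat 47, .ofNat 16⟩, ⟨.ofNat 1484, .ofNat 46, .negSucc 34, .negSucc 97, .negSucc 340, .negSucc 28⟩, ⟨.negSucc 3544, .negSucc 17, .ofNat 7, .negSucc 35, .ofNat 271, .ofNat 89⟩, ⟨.negSucc 9, .ofNat 0, .ofNat 0, .negSucc 198, .ofNat 10, .ofNat 3⟩, .ofNat 450, .negSucc 174, .ofNat 0, .negSucc 174, .ofNat 654, .ofNat 0, .ofNat 176, .ofNat 72, .negSucc 37, .ofNat 0, .ofNat 128, .negSucc 9, .ofNat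 0, .ofNat 0, .ofNat 413, .ofNat 49366, .ofNat 4371944877088508803150931827351925817344, .ofNat 0, .ofNat 69364265722001280910823713701432918016, .ofNat 0, .ofNat 3320158871235773426513530780018043518976, .ofNat 0, .ofNat 1077206607848399297716473062749118660608, .ofNat 0, .ofNat 0, .ofNat 0, .ofNat 307664830565575241157385845875782189056, .ofNat 0, .ofNat 15457058643337519131945081108707672064000, .ofNat 0, .ofNat 345403242300198457767619255506493767680, .ofNat 0⟩)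
    (by decide +kernel)
theorem L00613 : Good (Phi V5.P V5.D 1 1) ⟨2, 0, 1, 1, 2, 0, 2, 1, 5, 11⟩ :=
  leafX_sound T5.ok_pp T5.Ypp.bz_eq (w := 206) (c := ⟨⟨.negSucc 1138, .negSucc 39, .ofNat 0, .negSucc 44, .ofNat 78, .ofNat 32⟩, ⟨.negSucc 574, .ofNat 78, .negSucc 525, .negSucc 31, .ofNat 42, .ofNat 16⟩, ⟨.ofNat 1464, .ofNat 51, .negSucc 71, .negSucc 106, .negSucc 344, .negSucc 46⟩, ⟨.negSucc 3432, .negSucc 16, .ofNat 14, .negSucc 36, .ofNat 245, .ofNat 90⟩, ⟨.negSucc 14, .negSucc 1, .ofNat 6, .negSucc 190, .ofNat 16, .ofNat 6⟩, .ofNat 449, .negSucc 173, .ofNat 0, .negSucc 173, .ofNat 654, .ofNat 0, .ofNat 222, .ofNat 71, .negSucc 40, .ofNat 0, .ofNat 128, .negSucc 10, .ofNat 0, .ofNat 0, .ofNat 491, .ofNat 200648, .ofNat 41846789666734866858524393407463351648256, .ofNat 0, .ofNat 15066938503983657237497506927397044224, .ofNat 0, .ofNat 34959201168390521056462039091577347899392,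 .ofNat 0, .ofNat 2555665117210815940254335042080890421248, .ofNat 0, .ofNat 5929902503101191891204289345033418571776, .ofNat 0, .ofNat 1231115645170879533686815044458212491264, .ofNat 0, .ofNat 50642441607696888654692387018454280962048, .ofNat 0, .ofNat 581968487644247784218703991782955286528, .ofNat 0⟩)
    (by decide +kernel)
theorem L00614 : Good (Phi V5.P V5.D 1 1) ⟨2, 0, 1, 1, 2, 1, 4, 4, 6, 20⟩ :=
  leafX_sound T5.ok_pp T5.Ypp.bz_eq (w := 221) (c := ⟨⟨.negSucc 1236, .negSucc 17, .negSucc 74, .negSucc 43, .ofNat 18, .ofNat 23⟩, ⟨.negSucc 635, .ofNat 116, .negSucc 585, .negSucc 35, .ofNat 9, .ofNat 12⟩, ⟨.ofNat 1347, .ofNat 18, .ofNat 52, .negSucc 191, .negSucc 57, .ofNat 7⟩, ⟨.negSucc 3594, .ofNat 15, .ofNat 26, .negSucc 1, .ofNat 38, .ofNat 62⟩, ⟨.negSucc 228, .ofNat 31, .negSucc 15, .negSucc 258, .ofNat 16, .ofNat 14⟩, .ofNat 196, .negSucc 28, .ofNat 0,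 .negSucc 28, .ofNat 230, .ofNat 0, .ofNat 226, .ofNat 28, .negSucc 117, .ofNat 0, .ofNat 128, .ofNat 39, .ofNat 0, .ofNat 0, .ofNat 676, .ofNat 503993, .ofNat 58135627365880604816033104933686787639869440, .ofNat 0, .ofNat 719076501013921591515255180302936742821888, .ofNat 0, .ofNat 66393638753658633940288620756374135534256128, .ofNat 0, .ofNat 7207213636993610048529419440886685420748800, .ofNat 0, .ofNat 40614916005086630686901759283741234716213248, .ofNat 0, .ofNat 1449475168639075701285524035609869972144128, .ofNat 0, .ofNat 18342968415982013247029272335153195827331072, .ofNat 0, .ofNat 3213253488907316360380488477380636745662464, .ofNat 0⟩)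
    (by decide +kernel)
theorem L00615 : Good (Phi V5.P V5.D 1 1) ⟨2, 0, 1, 1, 2, 1, 4, 5, 6, 20⟩ :=
  leafX_sound T5.ok_pp T5.Ypp.bz_eq (w := 219) (c := ⟨⟨.negSucc 1201, .negSucc 20, .negSucc 51, .negSucc 60, .ofNat 15, .ofNat 22⟩, ⟨.negSucc 617, .ofNat 105, .negSucc 575, .negSucc 43, .ofNat 9, .ofNat 12⟩, ⟨.ofNat 1265, .ofNat 39, .negSucc 28, .negSucc 160, .negSucc 56, .negSucc 3⟩, ⟨.negSucc 3499, .ofNat 8, .ofNat 25, .negSucc 60, .ofNat 38, .ofNat 58⟩, ⟨.negSucc 227, .ofNat 14, .negSucc 14, .negSucc 237, .ofNat 16, .ofNat 10⟩, .ofNat 450, .negSucc 173, .ofNat 0, .negSucc 173, .ofNat 652, .ofNat 0, .ofNat 229, .ofNat 73, .negSucc 44, .ofNat 0, .ofNat 128, .negSucc 1, .ofNat 0, .ofNat 0, .ofNat 543, .ofNat 142242, .ofNat 8415784354546017597165631978253643858051072, .ofNat 0, .ofNat 432620535192938423610712998227592528003072, .ofNat 0, .ofNat 12627087379113133539366555992473642773512192,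 .ofNat 0, .ofNat 22844318713539411460274759294528232378859520, .ofNat 0, .ofNat 2123091222545464812775115055475418604765184, .ofNat 0, .ofNat 11242531646173120701780481600100906488037376, .ofNat 0, .ofNat 13003864477616611555205043552892762858717184, .ofNat 0, .ofNat 4077799524440570628856682056487075483484160, .ofNat 0⟩)
    (by decide +kernel)
theorem L00616 : Good (Phi V5.P V5.D 1 1) ⟨2, 0, 1, 1, 2, 1, 4, 4, 6, 21⟩ :=
  out_sound (S := T5.ds_pp) T5.ok_pp (w := 30) (j := 1) (by decide +kernel)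
theorem L00617 : Good (Phi V5.P V5.D 1 1) ⟨3, 0, 1, 1, 2, 1, 4, 5, 6, 21⟩ :=
  leafX_sound T5.ok_pp T5.Ypp.bz_eq (w := 224) (c := ⟨⟨.negSucc 1189, .negSucc 13, .negSucc 59, .negSucc 49, .ofNat 16, .ofNat 21⟩, ⟨.negSucc 610, .ofNat 51, .negSucc 566, .negSucc 36, .ofNat 8, .ofNat 12⟩, ⟨.ofNat 1256, .ofNat 19, .negSucc 44, .negSucc 147, .negSucc 59, .ofNat 1⟩, ⟨.negSucc 3460, .negSucc 2, .ofNat 34, .negSucc 34, .ofNat 38, .ofNat 59⟩, ⟨.negSucc 224, .ofNat 6, .negSucc 17, .negSucc 227, .ofNat 16, .ofNat 12⟩, .ofNat 450, .negSucc 174, .ofNat 0, .negSucc 174, .ofNat 654, .ofNat 0, .ofNat 252, .ofNat 74, .negSucc 38, .ofNat 0, .ofNat 128, .negSucc 0, .ofNat 0, .ofNat 0, .ofNat 515, .ofNat 397695, .ofNat 572524591065576137894658901787545145998049280, .ofNat 0, .ofNat 72876456983431626225768663383155664748544, .ofNat 0, .ofNat 0, .ofNat 0, .ofNat 1453213601215061656968004364380945130717184,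 .ofNat 0, .ofNat 0, .ofNat 0, .ofNat 1057445596673715297824854975654481954340864, .ofNat 0, .ofNat 524401914398986455206971203012164070896828416, .ofNat 0, .ofNat 842273196523597122849448522240343175856128, .ofNat 0⟩)
    (by decide +kernel)
theorem L00618 : Good (Phi V5.P V5.D 1 1) ⟨3, 1, 1, 1, 2, 1, 4, 5, 6, 21⟩ :=
  out_sound (S := T5.ds_pp) T5.ok_pp (w := 41) (j := 3) (by decide +kernel)
theorem L00619 : Good (Phi V5.P V5.D 1 1) ⟨2, 0, 1, 1, 2, 1, 3, 2, 5, 11⟩ :=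
  leafX_sound T5.ok_pp T5.Ypp.bz_eq (w := 212) (c := ⟨⟨.negSucc 1203, .negSucc 26, .negSucc 47, .negSucc 31, .ofNat 35, .ofNat 44⟩, ⟨.negSucc 613, .ofNat 102, .negSucc 557, .negSucc 30, .ofNat 16, .ofNat 25⟩, ⟨.ofNat 1304, .ofNat 32, .negSucc 75, .negSucc 131, .negSucc 120, .ofNat 0⟩, ⟨.negSucc 3461, .negSucc 11, .ofNat 51, .negSucc 4, .ofNat 70, .ofNat 124⟩, ⟨.negSucc 239, .ofNat 8, .negSucc 24, .negSucc 215, .ofNat 34, .ofNat 27⟩, .ofNat 196, .negSucc 28, .ofNat 0, .negSucc 28, .ofNat 229, .ofNat 0, .ofNat 272, .ofNat 28, .negSucc 57, .ofNat 0, .ofNat 128, .ofNat 16, .ofNat 0, .ofNat 0, .ofNat 396, .ofNat 598452, .ofNat 1398521983409622931610038060854078345314304, .ofNat 0, .ofNat 1375027334588586597902325393985680441344, .ofNat 0, .ofNat 1702969603017180339892592719751227742617600, .ofNat 0, .ofNat 26081323455580511516862263493451407425536, .ofNat 0, .ofNat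 390319249727852640803255352588874419273728, .ofNat 0, .ofNat 3868506210507710745494741395354639400960, .ofNat 0, .ofNat 458747115903926651919262841670392120082432, .ofNat 0, .ofNat 5796476163855334975689132222243017850880, .ofNat 0⟩)
    (by decide +kernel)
theorem L00620 : Good (Phi V5.P V5.D 1 1) ⟨2, 0, 1, 1, 2, 1, 3, 3, 4, 5⟩ :=
  leafX_sound T5.ok_pp T5.Ypp.bz_eq (w := 203) (c := ⟨⟨.negSucc 1179, .negSucc 36, .negSucc 37, .negSucc 63, .ofNat 31, .ofNat 79⟩, ⟨.negSucc 607, .ofNat 90, .negSucc 545, .negSucc 41, .ofNat 17, .ofNat 43⟩, ⟨.ofNat 1175, .ofNat 95, .negSucc 55, .negSucc 96, .negSucc 137, .negSucc 53⟩, ⟨.negSucc 3431, .negSucc 29, .ofNat 23, .negSucc 82, .ofNat 81, .ofNat 220⟩, ⟨.negSucc 227, .negSucc 0, .ofNat 19, .negSucc 204, .ofNat 20, .ofNat 37⟩, .ofNat 824, .negSucc 593, .ofNat 0, .negSucc 593, .ofNat 1506, .ofNat 0, .ofNat 156, .ofNat 121, .negSucc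 36, .ofNat 0, .ofNat 128, .negSucc 11, .ofNat 0, .ofNat 0, .ofNat 606, .ofNat 35685, .ofNat 3962779919153203067679728440638317789184, .ofNat 0, .ofNat 9251856725611295138517802751564447744, .ofNat 0, .ofNat 0, .ofNat 0, .ofNat 1078337148285174887726193803923361366016, .ofNat 0, .ofNat 0, .ofNat 0, .ofNat 572870520844038771855605786298017644544, .ofNat 0, .ofNat 11925219277117853568410053939065016811520, .ofNat 0, .ofNat 201799782051660485173960012869465538560, .ofNat 0⟩)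
    (by decide +kernel)
theorem L00621 : Good (Phi V5.P V5.D 1 1) ⟨2, 0, 2, 2, 2, 2, 2, 1, 4, 4⟩ :=
  leafX_sound T5.ok_pp T5.Ypp.bz_eq (w := 200) (c := ⟨⟨.negSucc 1370, .negSucc 26, .negSucc 33, .negSucc 8, .ofNat 49, .ofNat 101⟩, ⟨.negSucc 723, .ofNat 120, .negSucc 287, .negSucc 17, .ofNat 29, .ofNat 55⟩, ⟨.ofNat 1053, .ofNat 109, .ofNat 108, .negSucc 149, .negSucc 108, .ofNat 28⟩, ⟨.negSucc 3841, .negSucc 30, .ofNat 64, .ofNat 113, .ofNat 99, .ofNat 274⟩, ⟨.negSucc 557, .ofNat 67, .ofNat 10, .negSucc 273, .ofNat 88, .ofNat 57⟩, .ofNat 1317, .negSucc 1334, .ofNat 0, .negSucc 1334, .ofNat 2896, .ofNat 0, .ofNat 128, .ofNat 147, .negSucc 47, .ofNat 0, .ofNat 124, .negSucc 14, .ofNat 0, .ofNat 0, .ofNat 688, .ofNat 8276, .ofNat 923743964543840182646620195218664718336, .ofNat 0, .ofNat 213445580977856244338859312068689920, .ofNat 0, .ofNat 0, .ofNat 0, .ofNat 51967138334848610205285884903028686848,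 .ofNat 0, .ofNat 0, .ofNat 0, .ofNat 11706481944001356150722741595831009280, .ofNat 0, .ofNat 0, .ofNat 0, .ofNat 35242231430905528398054664655813476352, .ofNat 0⟩)
    (by decide +kernel)

end Crest.Agent.R097C5.N5pp
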