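import Crest.Agent.R097.KP7
import Crest.Agent.R097.T5Ypp

/-!
# Row 97, box cover in dimension n = 5 (generated)
-/

set_option autoImplicit false
set_option Elab.async false
set_option maxHeartbeats 0
set_option maxRecDepth 100000

open Crest.Agent.R097 Crest.Agent.R097.KA


namespace Crest.Agent.R097C5.N5pp

theorem L00622 : Good (Phi V5.P V5.D 1 1) ⟨4, 0, 2, 2, 3, 4, 4, 4, 4, 5⟩ :=
  leafX_sound T5.ok_pp T5.Ypp.bz_eq (w := 234) (c := ⟨⟨.negSucc 1277, .negSucc 1, .negSucc 33, .negSucc 5, .ofNat 10, .ofNat 107⟩, ⟨.negSucc 671, .ofNat 28, .negSucc 281, .negSucc 9, .ofNat 6, .ofNat 60⟩, ⟨.ofNat 1148, .negSucc 2, .ofNat 43, .negSucc 89, .negSucc 50, .ofNat 51⟩, ⟨.negSucc 3588, .negSucc 1, .ofNat 44, .ofNat 47, .ofNat 18, .ofNat 280⟩, ⟨.negSucc 496, .ofNat 9, .negSucc 15, .negSucc 126, .ofNat 22, .ofNat 83⟩, .ofNat 451, .negSucc 175, .ofNat 0, .negSucc 175, .ofNat 650,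 .ofNat 0, .ofNat 146, .ofNat 72, .negSucc 28, .ofNat 0, .ofNat 128, .ofNat 4, .ofNat 0, .ofNat 0, .ofNat 408, .ofNat 144310, .ofNat 1566032146453763328503963888131077874992516431872, .ofNat 0, .ofNat 489455654823361441721476940307702053076992, .ofNat 0, .ofNat 0, .ofNat 0, .ofNat 7359140948537109939152622449212959659917312, .ofNat 0, .ofNat 0, .ofNat 0, .ofNat 9290331569561971190519995156418673160224768, .ofNat 0, .ofNat 1289160220561621291384307955574559197442036727808, .ofNat 0, .ofNat 5361238669201261738882415689497667480584192, .ofNat 0⟩)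
    (by decide +kernel)
theorem L00623 : Good (Phi V5.P V5.D 1 1) ⟨4, 1, 2, 2, 3, 4, 4, 4, 4, 5⟩ :=
  leafX_sound T5.ok_pp T5.Ypp.bz_eq (w := 235) (c := ⟨⟨.negSucc 1279, .negSucc 12, .negSucc 31, .negSucc 5, .ofNat 10, .ofNat 103⟩, ⟨.negSucc 641, .ofNat 29, .negSucc 281, .negSucc 8, .ofNat 6, .ofNat 54⟩, ⟨.ofNat 1136, .ofNat 10, .ofNat 27, .negSucc 87, .negSucc 36, .ofNat 47⟩, ⟨.negSucc 3582, .negSucc 4, .ofNat 27, .ofNat 39, .ofNat 18, .ofNat 268⟩, ⟨.negSucc 492, .ofNat 11, .ofNat 10, .negSucc 115, .ofNat 21, .ofNat 78⟩, .ofNat 1916, .negSucc 2396, .ofNat 0, .negSucc 2396, .ofNat 4978, .ofNat 0, .ofNat 128, .ofNat 210, .negSucc 21, .ofNat 0, .ofNat 165, .negSucc 6, .ofNat 0, .ofNat 0, .ofNat 471, .ofNat 280172, .ofNat 4031513471813953707152837304477050253964249923584, .ofNat 0, .ofNat 1461669215361805574327634670905456657956864, .ofNat 0, .ofNat 0, .ofNat 0, .ofNat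 36833926829140135080072490473990930070241280, .ofNat 0, .ofNat 0, .ofNat 0, .ofNat 78778677825294159032868831622864356692197376, .ofNat 0, .ofNat 2392781575952977231065483441261564265666898296832, .ofNat 0, .ofNat 14615568469173645796921826982142625198374912, .ofNat 0⟩)
    (by decide +kernel)
theorem L00624 : Good (Phi V5.P V5.D 1 1) ⟨3, 1, 2, 2, 3, 4, 4, 4, 4, 5⟩ :=
  out_sound (S := T5.ds_pp) T5.ok_pp (w := 43) (j := 3) (by decide +kernel)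
theorem L00625 : Good (Phi V5.P V5.D 1 1) ⟨2, 0, 2, 2, 3, 4, 4, 5, 5, 10⟩ :=
  leafX_sound T5.ok_pp T5.Ypp.bz_eq (w := 230) (c := ⟨⟨.negSucc 1263, .negSucc 24, .negSucc 32, .negSucc 8, .ofNat 14, .ofNat 50⟩, ⟨.negSucc 664, .ofNat 111, .negSucc 282, .negSucc 9, .ofNat 9, .ofNat 28⟩, ⟨.ofNat 1087, .ofNat 56, .ofNat 23, .negSucc 72, .negSucc 45, .ofNat 9⟩, ⟨.negSucc 3557, .negSucc 16, .ofNat 38, .ofNat 31, .ofNat 29, .ofNat 131⟩, ⟨.negSucc 478, .ofNat 32, .negSucc 12, .negSucc 114, .ofNat 23, .ofNat 35⟩, .ofNat 451, .negSucc 175, .ofNat 0, .negSucc 175, .ofNat 653, .ofNat 0, .ofNat 207, .ofNat 73, .negSucc 49, .ofNat 0, .ofNat 128, .ofNat 4, .ofNat 0, .ofNat 0, .ofNat 651, .ofNat 70812, .ofNat 18921300270054368160858290766938055029674737664, .ofNat 0, .ofNat 225342386698588735716288304328969632939507712, .ofNat 0, .ofNat 0, .ofNat 0, .ofNat 17959830382618169501312962817648188087861248000,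 .ofNat 0, .ofNat 0, .ofNat 0, .ofNat 7074621810574254609613074961819534771533905920, .ofNat 0, .ofNat 31288986010118228272957008544988790974253629440, .ofNat 0, .ofNat 2564898471297551699764796227379035462252363776, .ofNat 0⟩)
    (by decide +kernel)
theorem L00626 : Good (Phi V5.P V5.D 1 1) ⟨2, 0, 2, 2, 3, 4, 4, 5, 5, 11⟩ :=
  leafX_sound T5.ok_pp T5.Ypp.bz_eq (w := 230) (c := ⟨⟨.negSucc 1213, .negSucc 30, .negSucc 27, .negSucc 3, .ofNat 9, .ofNat 53⟩, ⟨.negSucc 638, .ofNat 104, .negSucc 269, .negSucc 5, .ofNat 7, .ofNat 28⟩, ⟨.ofNat 1097, .ofNat 34, .negSucc 25, .negSucc 56, .negSucc 46, .ofNat 6⟩, ⟨.negSucc 3425, .negSucc 26, .ofNat 46, .ofNat 43, .ofNat 20, .ofNat 134⟩, ⟨.negSucc 450, .ofNat 12, .negSucc 18, .negSucc 96, .ofNat 25, .ofNat 38⟩, .ofNat 822, .negSucc 590, .ofNat 0, .negSucc 590, .ofNat 1503, .ofNat 0, .ofNat 128, .ofNat 129, .negSucc 20, .ofNat 0,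 .ofNat 138, .negSucc 3, .ofNat 0, .ofNat 0, .ofNat 494, .ofNat 76166, .ofNat 51301441195669079152961129254192327380766294016, .ofNat 0, .ofNat 2920169130625896777496880425232949558902784, .ofNat 0, .ofNat 4810195809607973841389199455260909274780401664, .ofNat 0, .ofNat 14540770089885103572673094516676962774339813376, .ofNat 0, .ofNat 0, .ofNat 0, .ofNat 7417353343911524359399445698913791389303046144, .ofNat 0, .ofNat 18663901298900344767248579752462593132167430144, .ofNat 0, .ofNat 1338221142410252070072815014825150239523995648, .ofNat 0⟩)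
    (by decide +kernel)
theorem L00627 : Good (Phi V5.P V5.D 1 1) ⟨2, 0, 2, 2, 3, 5, 3, 2, 4, 5⟩ :=
  leafX_sound T5.ok_pp T5.Ypp.bz_eq (w := 219) (c := ⟨⟨.negSucc 1283, .negSucc 29, .negSucc 38, .ofNat 28, .ofNat 17, .ofNat 116⟩, ⟨.negSucc 684, .ofNat 112, .negSucc 272, .ofNat 10, .ofNat 13, .ofNat 65⟩, ⟨.ofNat 1046, .ofNat 21, .ofNat 22, .negSucc 72, .negSucc 68, .ofNat 40⟩, ⟨.negSucc 3531, .negSucc 48, .ofNat 60, .ofNat 133, .ofNat 14, .ofNat 293⟩, ⟨.negSucc 644, .ofNat 41, .negSucc 41, .negSucc 93, .ofNat 71, .ofNat 103⟩, .ofNat 822, .negSucc 590, .ofNat 0, .negSucc 590, .ofNat 1503, .ofNat 0, .ofNat 128, .ofNat 129, .negSucc 34, .ofNat 0, .ofNat 141, .negSucc 1, .ofNat 0, .ofNat 0, .ofNat 933, .ofNat 24301, .ofNat 119439848307800705990608031218605006941847552, .ofNat 0, .ofNat 57999428496277733011993034391427160735744, .ofNat 0, .ofNat 0, .ofNat 0, .ofNat 19154962381803579404665574827552528331177984,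 .ofNat 0, .ofNat 0, .ofNat 0, .ofNat 13201191891574828069919848744642115570499584, .ofNat 0, .ofNat 0, .ofNat 0, .ofNat 6422750004046019273698957527777507750707200, .ofNat 0⟩)
    (by decide +kernel)
theorem L00628 : Good (Phi V5.P V5.D 1 1) ⟨2, 0, 2, 2, 2, 2, 3, 3, 4, 5⟩ :=
  leafX_sound T5.ok_pp T5.Ypp.bz_eq (w := 204) (c := ⟨⟨.negSucc 1246, .negSucc 49, .negSucc 41, .ofNat 3, .ofNat 26, .ofNat 98⟩, ⟨.negSucc 654, .ofNat 94, .negSucc 279, .negSucc 5, .ofNat 16, .ofNat 54⟩, ⟨.ofNat 1017, .ofNat 103, .negSucc 34, .negSucc 79, .negSucc 65, .negSucc 5⟩, ⟨.negSucc 3512, .negSucc 47, .ofNat 19, .ofNat 85, .ofNat 52, .ofNat 241⟩, ⟨.negSucc 466, .negSucc 40, .negSucc 42, .negSucc 149, .ofNat 49, .ofNat 94⟩, .ofNat 2060, .negSucc 2549, .ofNat 0, .negSucc 2549, .ofNat 5016, .ofNat 0, .ofNat 128, .ofNat 178, .negSucc 22, .ofNat 0, .ofNat 142, .negSucc 7, .ofNat 0, .ofNat 0,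 .ofNat 549, .ofNat 8585, .ofNat 0, .ofNat 0, .ofNat 0, .ofNat 0, .ofNat 0, .ofNat 0, .ofNat 1346853167742922055153222605466685669376, .ofNat 0, .ofNat 0, .ofNat 1956052597924450361565852020764456255488, .ofNat 772535707661153902670307928421160714240, .ofNat 0, .ofNat 0, .ofNat 831710813828069875582692511582550753280, .ofNat 463160315887814265419285367346887131136, .ofNat 0⟩)
    (by decide +kernel)
theorem L00629 : Good (Phi V5.P V5.D 1 1) ⟨2, 0, 2, 2, 2, 3, 2, 1, 3, 2⟩ :=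
  leafX_sound T5.ok_pp T5.Ypp.bz_eq (w := 193) (c := ⟨⟨.negSucc 1391, .negSucc 19, .negSucc 15, .ofNat 128, .ofNat 22, .ofNat 263⟩, ⟨.negSucc 758, .ofNat 135, .negSucc 254, .ofNat 64, .ofNat 25, .ofNat 150⟩, ⟨.ofNat 797, .ofNat 146, .ofNat 98, .negSucc 75, .ofNat 38, .ofNat 201⟩, ⟨.negSucc 3691, .negSucc 69, .ofNat 106, .ofNat 391, .negSucc 49, .ofNat 600⟩, ⟨.negSucc 968, .ofNat 138, .ofNat 45, .negSucc 17, .ofNat 231, .ofNat 342⟩, .ofNat 1951, .negSucc 2364, .ofNat 0, .negSucc 2364, .ofNat 4688, .ofNat 0, .ofNat 128, .ofNat 249, .negSucc 33, .ofNat 0, .ofNat 206, .negSucc 3, .ofNat 0, .ofNat 0, .ofNat 1064, .ofNat 955, .ofNat 0, .ofNat 0, .ofNat 2803522955117191163908613348524032, .ofNat 0, .ofNat 0, .ofNat 17969408102885298305378913277978869760, .ofNat 516603170969031548732430473163177984, .ofNat 0, .ofNat 0, .ofNat 0, .ofNat 0, .ofNat 0, .ofNat 0, .ofNat 166114724894086323108742941889022394368,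 .ofNat 757712550601904085633651651479863296, .ofNat 0⟩)
    (by decide +kernel)
theorem L00630 : Good (Phi V5.P V5.D 1 1) ⟨2, 0, 2, 3, 1, 1, 2, 1, 3, 2⟩ :=
  out_sound (S := T5.ds_pp) T5.ok_pp (w := 37) (j := 3) (by decide +kernel)
theorem L00631 : Good (Phi V5.P V5.D 1 1) ⟨2, 0, 2, 2, 1, 0, 2, 1, 3, 3⟩ :=
  leafX_sound T5.ok_pp T5.Ypp.bz_eq (w := 184) (c := ⟨⟨.negSucc 1075, .negSucc 47, .negSucc 15, .negSucc 101, .ofNat 50, .ofNat 164⟩, ⟨.negSucc 551, .ofNat 80, .negSucc 260, .negSucc 66, .ofNat 32, .ofNat 86⟩, ⟨.ofNat 1263, .ofNat 51, .negSucc 111, .negSucc 81, .negSucc 258, .negSucc 119⟩, ⟨.negSucc 3198, .negSucc 50, .ofNat 28, .negSucc 131, .ofNat 117, .ofNat 423⟩, ⟨.negSucc 108, .negSucc 24, .negSucc 8, .negSucc 325, .ofNat 88, .ofNat 106⟩, .ofNat 449, .negSucc 172, .ofNat 0, .negSucc 172, .ofNat 653, .ofNat 0, .ofNat 141, .ofNat 72, .negSucc 24, .ofNat 0, .ofNat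 128, .negSucc 3, .ofNat 0, .ofNat 0, .ofNat 411, .ofNat 45783, .ofNat 559957255317449511334067807748882432, .ofNat 0, .ofNat 0, .ofNat 0, .ofNat 691633720529595067047892022051471360, .ofNat 0, .ofNat 74642696524832861034815338577920, .ofNat 0, .ofNat 970875647534010260452034133979299840, .ofNat 0, .ofNat 0, .ofNat 0, .ofNat 958062964598552107151725637293572096, .ofNat 0, .ofNat 28490271849785453751010792046592, .ofNat 0⟩)
    (by decide +kernel)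
theorem L00632 : Good (Phi V5.P V5.D 1 1) ⟨2, 0, 2, 2, 2, 2, 2, 1, 3, 3⟩ :=
  leafX_sound T5.ok_pp T5.Ypp.bz_eq (w := 195) (c := ⟨⟨.negSucc 1163, .negSucc 40, .negSucc 4, .ofNat 20, .ofNat 26, .ofNat 178⟩, ⟨.negSucc 612, .ofNat 87, .negSucc 250, .ofNat 4, .ofNat 20, .ofNat 100⟩, ⟨.ofNat 1111, .ofNat 55, .negSucc 95, .negSucc 38, .negSucc 178, .negSucc 37⟩, ⟨.negSucc 3256, .negSucc 50, .ofNat 83, .ofNat 125, .ofNat 12, .ofNat 445⟩, ⟨.negSucc 483, .negSucc 7, .negSucc 5, .negSucc 125, .ofNat 137, .ofNat 170⟩, .ofNat 1536, .negSucc 1686, .ofNat 0, .negSucc 1686, .ofNat 3524, .ofNat 0, .ofNat 128, .ofNat 158, .negSucc 19, .ofNat 0, .ofNat 132, .negSucc 6, .ofNat 0, .ofNat 0, .ofNat 918, .ofNat 9576, .ofNat 691984048439628648650348110950501974016, .ofNat 0, .ofNat 8313525360431897912926249292922880, .ofNat 0, .ofNat 0, .ofNat 0, .ofNat 2474582575800854664890951157430616064,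 .ofNat 0, .ofNat 0, .ofNat 102938418900098936966790529106233524224, .ofNat 1628085047488545236471890161298309120, .ofNat 0, .ofNat 5015815640142710621157825650881151893504, .ofNat 168961136901849695814123231780985110528, .ofNat 939853553398124102363032749615349760, .ofNat 0⟩)
    (by decide +kernel)
theorem L00633 : Good (Phi V5.P V5.D 1 1) ⟨2, 0, 2, 2, 2, 3, 2, 1, 3, 3⟩ :=
  leafX_sound T5.ok_pp T5.Ypp.bz_eq (w := 195) (c := ⟨⟨.negSucc 1130, .negSucc 40, .negSucc 31, .ofNat 122, .ofNat 26, .ofNat 1⟩, ⟨.negSucc 605, .ofNat 98, .negSucc 246, .ofNat 53, .ofNat 22, .ofNat 0⟩, ⟨.ofNat 1048, .ofNat 27, .ofNat 16, .negSucc 119, .negSucc 169, .ofNat 0⟩, ⟨.negSucc 3077, .negSucc 97, .ofNat 88, .ofNat 386, .negSucc 15, .ofNat 1⟩, ⟨.negSucc 629, .ofNat 58, .negSucc 55, .negSucc 105, .ofNat 176, .ofNat 0⟩, .ofNat 818, .negSucc 585, .ofNat 0, .negSucc 585, .ofNat 1498, .ofNat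 0, .ofNat 134, .ofNat 113, .negSucc 11, .ofNat 0, .ofNat 128, .ofNat 9, .ofNat 0, .ofNat 0, .ofNat 1054, .ofNat 8646, .ofNat 0, .ofNat 0, .ofNat 0, .ofNat 0, .ofNat 4376322912255796821491150672363100569600, .ofNat 641962527748086237694487553286028132352, .ofNat 2244374871197777279917285906952749056, .ofNat 0, .ofNat 6381153246196333307263130146466246426624, .ofNat 757778670304365673278653755115840733184, .ofNat 404126488688792995557408162342502400, .ofNat 0, .ofNat 0, .ofNat 941684535187135637365609742549498462208, .ofNat 0, .ofNat 0⟩)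
    (by decide +kernel)
theorem L00634 : Good (Phi V5.P V5.D 1 1) ⟨2, 0, 2, 3, 0, 0, 2, 1, 3, 3⟩ :=
  out_sound (S := T5.ds_pp) T5.ok_pp (w := 37) (j := 3) (by decide +kernel)
theorem L00635 : Good (Phi V5.P V5.D 1 1) ⟨2, 1, 1, 1, 0, 0, 2, 1, 2, 1⟩ :=
  out_sound (S := T5.ds_pp) T5.ok_pp (w := 35) (j := 3) (by decide +kernel)
theorem L00636 : Good (Phi V5.P V5.D 1 1) ⟨1, 0, 2, 2, 1, 0, 2, 1, 1, 1⟩ :=
  out_sound (S := T5.ds_pp) T5.ok_pp (w := 16) (j := 1) (by decide +kernel)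
theorem L00637 : Good (Phi V5.P V5.D 1 1) ⟨1, 0, 2, 2, 3, 4, 2, 1, 3, 4⟩ :=
  out_sound (S := T5.ds_pp) T5.ok_pp (w := 24) (j := 1) (by decide +kernel)
theorem L00638 : Good (Phi V5.P V5.D 1 1) ⟨1, 0, 2, 2, 3, 5, 2, 1, 3, 4⟩ :=
  out_sound (S := T5.ds_pp) T5.ok_pp (w := 30) (j := 2) (by decide +kernel)
theorem L00639 : Good (Phi V5.P V5.D 1 1) ⟨1, 0, 2, 2, 2, 2, 2, 1, 3, 5⟩ :=
  out_sound (S := T5.ds_pp) T5.ok_pp (w := 22) (j := 1) (by decide +kernel)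
theorem L00640 : Good (Phi V5.P V5.D 1 1) ⟨1, 0, 2, 2, 2, 2, 2, 1, 2, 3⟩ :=
  out_sound (S := T5.ds_pp) T5.ok_pp (w := 20) (j := 1) (by decide +kernel)
theorem L00641 : Good (Phi V5.P V5.D 1 1) ⟨1, 0, 2, 2, 2, 3, 2, 1, 1, 1⟩ :=
  out_sound (S := T5.ds_pp) T5.ok_pp (w := 24) (j := 2) (by decide +kernel)
theorem L00642 : Good (Phi V5.P V5.D 1 1) ⟨1, 0, 2, 3, 0, 0, 2, 1, 1, 1⟩ :=
  out_sound (S := T5.ds_pp) T5.ok_pp (w := 31) (j := 3) (by decide +kernel)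
theorem L00643 : Good (Phi V5.P V5.D 1 1) ⟨3, 0, 3, 4, 1, 0, 2, 2, 3, 0⟩ :=
  leafX_sound T5.ok_pp T5.Ypp.bz_eq (w := 185) (c := ⟨⟨.negSucc 62, .ofNat 19, .ofNat 1, .ofNat 174, .negSucc 105, .negSucc 1090⟩, ⟨.negSucc 31, .ofNat 42, .negSucc 35, .ofNat 64, .negSucc 53, .negSucc 552⟩, ⟨.ofNat 49, .ofNat 32, .ofNat 8, .negSucc 271, .ofNat 94, .ofNat 1003⟩, ⟨.negSucc 232, .ofNat 148, .negSucc 109, .ofNat 711, .negSucc 311, .negSucc 3223⟩, ⟨.ofNat 75, .negSucc 130, .ofNat 232, .negSucc 382, .negSucc 25, .negSucc 58⟩, .ofNat 1684, .negSucc 1939, .ofNat 0, .negSucc 1939, .ofNat 3997, .ofNat 0, .ofNat 128, .ofNat 232, .negSucc 137, .ofNat 0, .ofNat 186, .negSucc 65, .ofNat 0, .ofNat 0, .ofNat 449, .ofNat 727, .ofNat 0, .ofNat 0, .ofNat 0, .ofNat 0, .ofNat 0, .ofNat 0, .ofNat 6822223707810262660188945252352, .ofNat 0, .ofNat 0, .ofNat 0, .ofNat 12499827636456052274143283904512,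 .ofNat 0, .ofNat 0, .ofNat 0, .ofNat 0, .ofNat 0⟩)
    (by decide +kernel)
theorem L00644 : Good (Phi V5.P V5.D 1 1) ⟨3, 0, 3, 4, 1, 0, 2, 2, 3, 1⟩ :=
  leafX_sound T5.ok_pp T5.Ypp.bz_eq (w := 187) (c := ⟨⟨.negSucc 1093, .negSucc 27, .negSucc 3, .negSucc 159, .ofNat 116, .negSucc 26⟩, ⟨.negSucc 552, .ofNat 37, .negSucc 132, .negSucc 101, .ofNat 62, .negSucc 12⟩, ⟨.ofNat 1117, .ofNat 39, .ofNat 12, .negSucc 137, .negSucc 238, .ofNat 11⟩, ⟨.negSucc 3268, .negSucc 53, .ofNat 16, .negSucc 270, .ofNat 329, .negSucc 82⟩, ⟨.negSucc 36, .ofNat 18, .ofNat 1, .negSucc 414, .ofNat 36, .ofNat 3⟩, .ofNat 1716, .negSucc 1981, .ofNat 0, .negSucc 1981, .ofNat 4034, .ofNat 0, .ofNat 128, .ofNat 203, .negSucc 99, .ofNat 0, .ofNat 163, .negSucc 45, .ofNat 0, .ofNat 0, .ofNat 647, .ofNat 3184, .ofNat 0, .ofNat 0, .ofNat 0, .ofNat 0, .ofNat 0, .ofNat 0, .ofNat 0, .ofNat 0, .ofNat 0, .ofNat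 0, .ofNat 0, .ofNat 0, .ofNat 0, .ofNat 0, .ofNat 0, .ofNat 0⟩)
    (by decide +kernel)
theorem L00645 : Good (Phi V5.P V5.D 1 1) ⟨3, 0, 3, 4, 1, 0, 3, 6, 3, 0⟩ :=
  leafX_sound T5.ok_pp T5.Ypp.bz_eq (w := 190) (c := ⟨⟨.negSucc 431, .ofNat 130, .ofNat 61, .ofNat 19, .ofNat 42, .negSucc 660⟩, ⟨.negSucc 210, .ofNat 101, .negSucc 67, .negSucc 8, .ofNat 23, .negSucc 342⟩, ⟨.ofNat 359, .negSucc 59, .ofNat 48, .negSucc 42, .negSucc 51, .ofNat 529⟩, ⟨.negSucc 1390, .ofNat 495, .ofNat 326, .ofNat 267, .ofNat 63, .negSucc 1845⟩, ⟨.ofNat 158, .negSucc 152, .negSucc 225, .negSucc 421, .ofNat 117, .negSucc 211⟩, .ofNat 2011, .negSucc 2472, .ofNat 0, .negSucc 2472, .ofNat 4900, .ofNat 0, .ofNat 128, .ofNat 231, .negSucc 126, .ofNat 0, .ofNat 182, .negSucc 60, .ofNat 0, .ofNat 0, .ofNat 391, .ofNat 973, .ofNat 0, .ofNat 0, .ofNat 0, .ofNat 0, .ofNat 0, .ofNat 0, .ofNat 12169305371168125905126081691648,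 .ofNat 0, .ofNat 0, .ofNat 0, .ofNat 143142281570511175478048691585024, .ofNat 0, .ofNat 0, .ofNat 0, .ofNat 80890297127358459190106793181184, .ofNat 0⟩)
    (by decide +kernel)
theorem L00646 : Good (Phi V5.P V5.D 1 1) ⟨3, 0, 3, 4, 2, 0, 3, 7, 3, 0⟩ :=
  leafX_sound T5.ok_pp T5.Ypp.bz_eq (w := 204) (c := ⟨⟨.negSucc 586, .ofNat 23, .negSucc 37, .negSucc 89, .ofNat 413, .negSucc 217⟩, ⟨.negSucc 292, .ofNat 34, .negSucc 84, .negSucc 62, .ofNat 205, .negSucc 109⟩, ⟨.ofNat 544, .negSucc 2, .ofNat 36, .ofNat 156, .negSucc 468, .ofNat 22⟩, ⟨.negSucc 1753, .ofNat 72, .negSucc 79, .negSucc 101, .ofNat 1216, .negSucc 659⟩, ⟨.negSucc 15, .ofNat 29, .negSucc 29, .negSucc 329, .ofNat 17, .ofNat 24⟩, .ofNat 1585, .negSucc 1777, .ofNat 0, .negSucc 1777, .ofNat 3574, .ofNat 0, .ofNat 128, .ofNat 204, .negSucc 224, .ofNat 0, .ofNat 161, .negSucc 115, .ofNat 0, .ofNat 0, .ofNat 599,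 .ofNat 1852, .ofNat 0, .ofNat 0, .ofNat 0, .ofNat 0, .ofNat 0, .ofNat 0, .ofNat 0, .ofNat 0, .ofNat 0, .ofNat 0, .ofNat 1732551474840238501956176125926309888, .ofNat 0, .ofNat 0, .ofNat 0, .ofNat 0, .ofNat 0⟩)
    (by decide +kernel)
theorem L00647 : Good (Phi V5.P V5.D 1 1) ⟨3, 0, 3, 4, 2, 1, 3, 7, 3, 0⟩ :=
  leafX_sound T5.ok_pp T5.Ypp.bz_eq (w := 203) (c := ⟨⟨.negSucc 521, .negSucc 16, .negSucc 39, .negSucc 114, .ofNat 315, .negSucc 334⟩, ⟨.negSucc 273, .ofNat 20, .negSucc 79, .negSucc 67, .ofNat 159, .negSucc 173⟩, ⟨.ofNat 522, .ofNat 78, .ofNat 22, .ofNat 113, .negSucc 268, .ofNat 28⟩, ⟨.negSucc 1482, .negSucc 67, .negSucc 78, .negSucc 245, .ofNat 949, .negSucc 918⟩, ⟨.negSucc 179, .ofNat 75, .ofNat 28, .negSucc 183, .negSucc 36, .negSucc 149⟩, .ofNat 1322, .negSucc 1340, .ofNat 0, .negSucc 1340, .ofNat 2901, .ofNat 0, .ofNat 128, .ofNat 209, .negSucc 186, .ofNat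 0, .ofNat 173, .negSucc 82, .ofNat 0, .ofNat 0, .ofNat 493, .ofNat 1319, .ofNat 0, .ofNat 0, .ofNat 0, .ofNat 0, .ofNat 0, .ofNat 714242388391467996173567021589664366592, .ofNat 880553372851574542962954649538134016, .ofNat 0, .ofNat 0, .ofNat 0, .ofNat 808321178021005185708735492574412800, .ofNat 0, .ofNat 0, .ofNat 0, .ofNat 0, .ofNat 0⟩)
    (by decide +kernel)
theorem L00648 : Good (Phi V5.P V5.D 1 1) ⟨3, 0, 3, 4, 1, 0, 2, 3, 3, 1⟩ :=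
  leafX_sound T5.ok_pp T5.Ypp.bz_eq (w := 185) (c := ⟨⟨.negSucc 900, .ofNat 13, .ofNat 46, .negSucc 219, .ofNat 415, .negSucc 151⟩, ⟨.negSucc 450, .ofNat 46, .negSucc 74, .negSucc 131, .ofNat 211, .negSucc 80⟩, ⟨.ofNat 884, .ofNat 10, .negSucc 40, .ofNat 94, .negSucc 702, .negSucc 37⟩, ⟨.negSucc 2655, .ofNat 37, .ofNat 211, .negSucc 499, .ofNat 1227, .negSucc 498⟩, ⟨.negSucc 102, .ofNat 66, .negSucc 124, .negSucc 322, .ofNat 49, .ofNat 87⟩, .ofNat 1064, .negSucc 935, .ofNat 0, .negSucc 935, .ofNat 2155, .ofNat 0, .ofNat 128, .ofNat 144, .negSucc 78, .ofNat 0, .ofNat 133, .negSucc 34, .ofNat 0, .ofNat 0, .ofNat 386, .ofNat 755, .ofNat 0, .ofNat 0, .ofNat 32608138009120237135851421696, .ofNat 0, .ofNat 0, .ofNat 547657782678579136983005276414148608, .ofNat 2484902948622822534214057984000, .ofNat 0, .ofNat 0, .ofNat 357349726063061680995262693415845888, .ofNat 1359864373309224303149252083712,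 .ofNat 0, .ofNat 0, .ofNat 223128584410479047550650187631296512, .ofNat 5031276298132423450393258754048, .ofNat 0⟩)
    (by decide +kernel)
theorem L00649 : Good (Phi V5.P V5.D 1 1) ⟨3, 0, 3, 5, 1, 0, 1, 1, 2, 0⟩ :=
  out_sound (S := T5.ds_pp) T5.ok_pp (w := 45) (j := 3) (by decide +kernel)
theorem L00650 : Good (Phi V5.P V5.D 1 1) ⟨3, 1, 2, 2, 1, 0, 1, 1, 2, 0⟩ :=
  out_sound (S := T5.ds_pp) T5.ok_pp (w := 43) (j := 3) (by decide +kernel)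
theorem L00651 : Good (Phi V5.P V5.D 1 1) ⟨2, 0, 2, 3, 1, 0, 1, 1, 2, 0⟩ :=
  out_sound (S := T5.ds_pp) T5.ok_pp (w := 37) (j := 3) (by decide +kernel)
theorem L00652 : Good (Phi V5.P V5.D 1 1) ⟨2, 1, 1, 1, 1, 0, 1, 1, 2, 0⟩ :=
  out_sound (S := T5.ds_pp) T5.ok_pp (w := 35) (j := 3) (by decide +kernel)
theorem L00653 : Good (Phi V5.P V5.D 1 1) ⟨2, 0, 2, 2, 1, 0, 2, 2, 3, 2⟩ :=
  leafX_sound T5.ok_pp T5.Ypp.bz_eq (w := 180) (c := ⟨⟨.negSucc 1117, .negSucc 55, .negSucc 7, .negSucc 136, .ofNat 95, .ofNat 92⟩, ⟨.negSucc 562, .ofNat 70, .negSucc 262, .negSucc 85, .ofNat 49, .ofNat 47⟩, ⟨.ofNat 1169, .ofNat 75, .negSucc 28, .negSucc 115, .negSucc 309, .negSucc 155⟩, ⟨.negSucc 3343, .negSucc 51, .ofNat 9, .negSucc 225, .ofNat 269, .ofNat 257⟩, ⟨.negSucc 29, .negSucc 44, .ofNat 22, .negSucc 365, .ofNat 36, .ofNat 32⟩, .ofNat 1008, .negSucc 952, .ofNat 0, .negSucc 952, .ofNat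 2128, .ofNat 0, .ofNat 128, .ofNat 129, .negSucc 53, .ofNat 0, .ofNat 106, .negSucc 24, .ofNat 0, .ofNat 0, .ofNat 587, .ofNat 3912, .ofNat 0, .ofNat 0, .ofNat 0, .ofNat 0, .ofNat 0, .ofNat 0, .ofNat 56057423990314485455270384238592, .ofNat 0, .ofNat 0, .ofNat 0, .ofNat 20217012155205819820350816387072, .ofNat 0, .ofNat 0, .ofNat 0, .ofNat 44004221853999159093029148557312, .ofNat 0⟩)
    (by decide +kernel)
theorem L00654 : Good (Phi V5.P V5.D 1 1) ⟨2, 0, 2, 2, 1, 0, 3, 6, 3, 2⟩ :=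
  leafX_sound T5.ok_pp T5.Ypp.bz_eq (w := 183) (c := ⟨⟨.negSucc 972, .negSucc 52, .ofNat 4, .negSucc 179, .ofNat 67, .ofNat 29⟩, ⟨.negSucc 490, .ofNat 63, .negSucc 239, .negSucc 104, .ofNat 36, .ofNat 18⟩, ⟨.ofNat 813, .ofNat 96, .negSucc 45, .negSucc 17, .negSucc 225, .negSucc 165⟩, ⟨.negSucc 2903, .negSucc 79, .ofNat 38, .negSucc 410, .ofNat 190, .ofNat 60⟩, ⟨.negSucc 41, .ofNat 8, .ofNat 1, .negSucc 249, .ofNat 23, .ofNat 47⟩, .ofNat 813, .negSucc 579, .ofNat 0, .negSucc 579, .ofNat 1498, .ofNat 0, .ofNat 178, .ofNat 119, .negSucc 63, .ofNat 0, .ofNat 128, .negSucc 26, .ofNat 0, .ofNat 0, .ofNat 558, .ofNat 2298, .ofNat 0, .ofNat 0, .ofNat 0, .ofNat 0, .ofNat 0, .ofNat 56840697955548819091005004023070720, .ofNat 799179655476575390680525345652736, .ofNat 0, .ofNat 0, .ofNat 0, .ofNat 402506422540187778871431268401152, .ofNat 0, .ofNat 0, .ofNat 0, .ofNat 539295833925049064915211948916736,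 .ofNat 0⟩)
    (by decide +kernel)
theorem L00655 : Good (Phi V5.P V5.D 1 1) ⟨2, 0, 2, 2, 1, 0, 3, 7, 3, 2⟩ :=
  leafX_sound T5.ok_pp T5.Ypp.bz_eq (w := 183) (c := ⟨⟨.negSucc 827, .negSucc 72, .negSucc 25, .negSucc 273, .ofNat 152, .negSucc 49⟩, ⟨.negSucc 418, .ofNat 38, .negSucc 236, .negSucc 145, .ofNat 82, .negSucc 17⟩, ⟨.ofNat 521, .ofNat 74, .ofNat 14, .ofNat 94, .negSucc 345, .negSucc 132⟩, ⟨.negSucc 2463, .negSucc 110, .ofNat 2, .negSucc 749, .ofNat 397, .negSucc 189⟩, ⟨.negSucc 52, .negSucc 23, .negSucc 132, .negSucc 138, .ofNat 115, .ofNat 77⟩, .ofNat 1058, .negSucc 929, .ofNat 0, .negSucc 929, .ofNat 2154, .ofNat 0, .ofNat 156, .ofNat 128, .negSucc 65, .ofNat 0, .ofNat 119, .negSucc 30, .ofNat 0, .ofNat 0, .ofNat 434, .ofNat 1309, .ofNat 0, .ofNat 0, .ofNat 0, .ofNat 0, .ofNat 0, .ofNat 77411632517432873367302961094459392, .ofNat 455476309588193881712294321192960,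 .ofNat 0, .ofNat 0, .ofNat 59878391016538468676152536246255616, .ofNat 180763776566865598355261603446784, .ofNat 0, .ofNat 0, .ofNat 35001129239761674779994631245398016, .ofNat 274785340781286037352115435732992, .ofNat 0⟩)
    (by decide +kernel)
theorem L00656 : Good (Phi V5.P V5.D 1 1) ⟨2, 0, 2, 2, 1, 0, 1, 1, 3, 3⟩ :=
  leafX_sound T5.ok_pp T5.Ypp.bz_eq (w := 175) (c := ⟨⟨.negSucc 1022, .negSucc 47, .ofNat 1, .negSucc 97, .ofNat 159, .ofNat 24⟩, ⟨.negSucc 516, .ofNat 61, .negSucc 246, .negSucc 60, .ofNat 93, .ofNat 12⟩, ⟨.ofNat 1107, .negSucc 9, .negSucc 140, .negSucc 172, .negSucc 871, .negSucc 97⟩, ⟨.negSucc 3034, .negSucc 38, .ofNat 48, .negSucc 182, .ofNat 367, .ofNat 68⟩, ⟨.negSucc 73, .negSucc 29, .negSucc 29, .negSucc 223, .ofNat 206, .ofNat 10⟩, .ofNat 1333, .negSucc 1351, .ofNat 0, .negSucc 1351, .ofNat 2896, .ofNat 0, .ofNat 128, .ofNat 209, .negSucc 49,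 .ofNat 0, .ofNat 181, .negSucc 26, .ofNat 0, .ofNat 0, .ofNat 682, .ofNat 1123, .ofNat 225835009560519586843487937495040, .ofNat 0, .ofNat 9464653416999492899653550080, .ofNat 0, .ofNat 0, .ofNat 4671270778193347250311250390810624, .ofNat 2163108248760546989559672471552, .ofNat 0, .ofNat 0, .ofNat 0, .ofNat 0, .ofNat 0, .ofNat 48299106620141330594311580724232192, .ofNat 3875105005811018922616836595908608, .ofNat 942499971544663244562443010048, .ofNat 0⟩)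
    (by decide +kernel)
theorem L00657 : Good (Phi V5.P V5.D 1 1) ⟨2, 0, 2, 3, 1, 0, 1, 1, 2, 1⟩ :=
  out_sound (S := T5.ds_pp) T5.ok_pp (w := 37) (j := 3) (by decide +kernel)
theorem L00658 : Good (Phi V5.P V5.D 1 1) ⟨2, 1, 1, 1, 1, 0, 1, 1, 2, 1⟩ :=
  out_sound (S := T5.ds_pp) T5.ok_pp (w := 35) (j := 3) (by decide +kernel)
theorem L00659 : Good (Phi V5.P V5.D 1 1) ⟨1, 0, 1, 1, 1, 0, 1, 1, 1, 1⟩ :=
  leafX_sound T5.ok_pp T5.Ypp.bz_eq (w := 161) (c := ⟨⟨.negSucc 959, .negSucc 70, .negSucc 2, .ofNat 0, .ofNat 0, .ofNat 0⟩, ⟨.negSucc 479, .ofNat 127, .negSucc 480, .ofNat 0, .ofNat 0, .ofNat 0⟩, ⟨.ofNat 262, .ofNat 70, .ofNat 3, .ofNat 0, .ofNat 0, .ofNat 0⟩, ⟨.negSucc 2882, .negSucc 31, .negSucc 0, .ofNat 1, .negSucc 0, .ofNat 1⟩, ⟨.ofNat 0, .ofNat 0, .ofNat 0, .ofNat 0, .ofNat 0, .ofNat 0⟩, .ofNat 196, .negSucc 28, .ofNat 0, .negSucc 28, .ofNat 229, .ofNat 0, .ofNat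 141, .ofNat 28, .negSucc 102, .ofNat 0, .ofNat 128, .negSucc 17, .ofNat 0, .ofNat 0, .ofNat 302, .ofNat 9864, .ofNat 0, .ofNat 0, .ofNat 0, .ofNat 0, .ofNat 1774772071156135158619757728497664, .ofNat 86842177177484696942177272463360, .ofNat 7552167064289520053573910528, .ofNat 0, .ofNat 496813375911881961365937812668416, .ofNat 24892500872240071894075728461824, .ofNat 1786615185441862923931615232, .ofNat 0, .ofNat 683625164735361691677100366364672, .ofNat 33333448701905443936396149522432, .ofNat 4012802495723030757800673280, .ofNat 0⟩)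
    (by decide +kernel)
theorem L00660 : Good (Phi V5.P V5.D 1 1) ⟨3, 0, 2, 2, 1, 1, 2, 2, 3, 0⟩ :=
  leafX_sound T5.ok_pp T5.Ypp.bz_eq (w := 182) (c := ⟨⟨.ofNat 257, .ofNat 340, .ofNat 137, .negSucc 52, .negSucc 163, .negSucc 1515⟩, ⟨.ofNat 116, .ofNat 205, .negSucc 47, .negSucc 25, .negSucc 81, .negSucc 783⟩, ⟨.negSucc 347, .negSucc 106, .ofNat 89, .negSucc 266, .ofNat 272, .ofNat 1006⟩, ⟨.ofNat 764, .ofNat 802, .ofNat 579, .negSucc 126, .negSucc 427, .negSucc 4125⟩, ⟨.negSucc 20, .ofNat 399, .negSucc 205, .negSucc 52, .negSucc 141, .negSucc 722⟩, .ofNat 1700, .negSucc 1961, .ofNat 0, .negSucc 1961, .ofNat 4016, .ofNat 0, .ofNat 128, .ofNat 270, .negSucc 118, .ofNat 0, .ofNat 200, .negSucc 45, .ofNat 0, .ofNat 0, .ofNat 372, .ofNat 506, .ofNat 0, .ofNat 0, .ofNat 0, .ofNat 0, .ofNat 0, .ofNat 0, .ofNat 761467040731776338273364869120, .ofNat 0, .ofNat 0, .ofNat 0,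 .ofNat 3452405361293485666528355418112, .ofNat 0, .ofNat 0, .ofNat 0, .ofNat 2569575218345402685632729317376, .ofNat 0⟩)
    (by decide +kernel)
theorem L00661 : Good (Phi V5.P V5.D 1 1) ⟨3, 0, 2, 2, 1, 1, 2, 3, 3, 0⟩ :=
  leafX_sound T5.ok_pp T5.Ypp.bz_eq (w := 182) (c := ⟨⟨.negSucc 194, .ofNat 29, .ofNat 204, .negSucc 198, .negSucc 73, .negSucc 922⟩, ⟨.negSucc 145, .ofNat 94, .negSucc 134, .negSucc 58, .negSucc 3, .negSucc 460⟩, ⟨.ofNat 5, .ofNat 316, .negSucc 252, .negSucc 43, .ofNat 266, .ofNat 665⟩, ⟨.negSucc 160, .negSucc 332, .ofNat 575, .negSucc 1024, .negSucc 414, .negSucc 2659⟩, ⟨.negSucc 873, .ofNat 833, .negSucc 65, .ofNat 853, .ofNat 402, .negSucc 82⟩, .ofNat 1749, .negSucc 2031, .ofNat 0, .negSucc 2031, .ofNat 4103, .ofNat 0, .ofNat 128, .ofNat 276, .negSucc 177, .ofNat 0, .ofNat 207, .negSucc 63, .ofNat 0, .ofNat 0, .ofNat 485, .ofNat 302, .ofNat 0,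 .ofNat 0, .ofNat 27249586948545162305402306560, .ofNat 0, .ofNat 0, .ofNat 0, .ofNat 0, .ofNat 0, .ofNat 0, .ofNat 41014821517569513126926033474289664, .ofNat 3371177603071872766809020039168, .ofNat 0, .ofNat 0, .ofNat 26819355828013415774890982151028736, .ofNat 3823585828219159965482470080512, .ofNat 0⟩)
    (by decide +kernel)
theorem L00662 : Good (Phi V5.P V5.D 1 1) ⟨3, 0, 2, 3, 1, 1, 1, 1, 3, 0⟩ :=
  out_sound (S := T5.ds_pp) T5.ok_pp (w := 43) (j := 3) (by decide +kernel)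
theorem L00663 : Good (Phi V5.P V5.D 1 1) ⟨3, 0, 3, 4, 1, 1, 1, 1, 4, 2⟩ :=
  leafX_sound T5.ok_pp T5.Ypp.bz_eq (w := 186) (c := ⟨⟨.negSucc 1152, .negSucc 53, .negSucc 38, .negSucc 171, .ofNat 90, .negSucc 118⟩, ⟨.negSucc 630, .ofNat 47, .negSucc 172, .negSucc 64, .ofNat 90, .negSucc 50⟩, ⟨.ofNat 502, .ofNat 228, .ofNat 9, .ofNat 42, .ofNat 328, .ofNat 188⟩, ⟨.negSucc 3028, .negSucc 196, .negSucc 71, .negSucc 710, .negSucc 135, .negSucc 422⟩, ⟨.negSucc 909, .ofNat 202, .negSucc 41, .ofNat 403, .ofNat 830, .ofNat 147⟩, .ofNat 1585, .negSucc 1777, .ofNat 0, .negSucc 1777, .ofNat 3574, .ofNat 0, .ofNat 128, .ofNat 273, .negSucc 105, .ofNat 0, .ofNat 201, .negSucc 40, .ofNat 0, .ofNat 0, .ofNat 452, .ofNat 414, .ofNat 0, .ofNat 0, .ofNat 0, .ofNat 0, .ofNat 0, .ofNat 340562849126786979624989854862934016, .ofNat 370166667900437891220691222528, .ofNat 0, .ofNat 0, .ofNat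 1866594563449126813731602855448543232, .ofNat 1878040290983850852756540620800, .ofNat 0, .ofNat 0, .ofNat 781423335600195703840751152823009280, .ofNat 7096850896757332286671113158656, .ofNat 0⟩)
    (by decide +kernel)
theorem L00664 : Good (Phi V5.P V5.D 1 1) ⟨3, 0, 3, 4, 1, 1, 1, 1, 4, 3⟩ :=
  leafX_sound T5.ok_pp T5.Ypp.bz_eq (w := 186) (c := ⟨⟨.negSucc 1356, .negSucc 52, .negSucc 6, .negSucc 15, .ofNat 164, .ofNat 52⟩, ⟨.negSucc 725, .ofNat 41, .negSucc 139, .negSucc 0, .ofNat 115, .ofNat 31⟩, ⟨.ofNat 765, .ofNat 181, .ofNat 89, .negSucc 2, .ofNat 16, .ofNat 60⟩, ⟨.negSucc 3664, .negSucc 145, .negSucc 29, .negSucc 152, .ofNat 184, .ofNat 78⟩, ⟨.negSucc 815, .ofNat 70, .ofNat 140, .ofNat 184, .ofNat 607, .ofNat 153⟩, .ofNat 1319, .negSucc 1336, .ofNat 0, .negSucc 1336, .ofNat 2896, .ofNat 0, .ofNat 128, .ofNat 264, .negSucc 96, .ofNat 0, .ofNat 220, .negSucc 26,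 .ofNat 0, .ofNat 0, .ofNat 759, .ofNat 393, .ofNat 0, .ofNat 0, .ofNat 0, .ofNat 0, .ofNat 0, .ofNat 952037833954329589991193895306788864, .ofNat 0, .ofNat 0, .ofNat 0, .ofNat 3624592113688830331300634412141510656, .ofNat 5967558319208683503565349584896, .ofNat 0, .ofNat 0, .ofNat 4532119012506077403411456169059811328, .ofNat 19912575477475022355127513120768, .ofNat 0⟩)
    (by decide +kernel)
theorem L00665 : Good (Phi V5.P V5.D 1 1) ⟨3, 0, 3, 5, 1, 1, 1, 1, 3, 1⟩ :=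
  out_sound (S := T5.ds_pp) T5.ok_pp (w := 45) (j := 3) (by decide +kernel)
theorem L00666 : Good (Phi V5.P V5.D 1 1) ⟨3, 0, 2, 3, 1, 1, 1, 1, 3, 1⟩ :=
  out_sound (S := T5.ds_pp) T5.ok_pp (w := 43) (j := 3) (by decide +kernel)
theorem L00667 : Good (Phi V5.P V5.D 1 1) ⟨3, 0, 2, 2, 2, 2, 1, 1, 4, 4⟩ :=
  leafX_sound T5.ok_pp T5.Ypp.bz_eq (w := 198) (c := ⟨⟨.negSucc 1292, .negSucc 37, .negSucc 22, .negSucc 42, .ofNat 126, .ofNat 88⟩, ⟨.negSucc 680, .ofNat 41, .negSucc 293, .negSucc 27, .ofNat 85, .ofNat 51⟩, ⟨.ofNat 937, .ofNat 112, .negSucc 96, .negSucc 37, .negSucc 251, .negSucc 22⟩, ⟨.negSucc 3622, .negSucc 60, .ofNat 67, .negSucc 67, .ofNat 168, .ofNat 204⟩, ⟨.negSucc 522, .negSucc 22, .negSucc 74, .negSucc 119, .ofNat 408, .ofNat 114⟩, .ofNat 994, .negSucc 872, .ofNat 0, .negSucc 872, .ofNat 1876, .ofNat 0, .ofNat 129, .ofNat 128, .negSucc 64, .ofNat 0, .ofNat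 112, .negSucc 22, .ofNat 0, .ofNat 0, .ofNat 742, .ofNat 1093, .ofNat 0, .ofNat 0, .ofNat 0, .ofNat 0, .ofNat 0, .ofNat 1350919308351613342653412760818286592000, .ofNat 0, .ofNat 0, .ofNat 0, .ofNat 1146016023848234758874926190678945824768, .ofNat 46545531780514619682320044976504832, .ofNat 0, .ofNat 0, .ofNat 2518135007650021724284576856471993581568, .ofNat 0, .ofNat 0⟩)
    (by decide +kernel)
theorem L00668 : Good (Phi V5.P V5.D 1 1) ⟨3, 0, 2, 2, 2, 3, 1, 1, 4, 4⟩ :=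
  leafX_sound T5.ok_pp T5.Ypp.bz_eq (w := 197) (c := ⟨⟨.negSucc 1343, .negSucc 61, .negSucc 3, .ofNat 109, .ofNat 101, .ofNat 133⟩, ⟨.negSucc 719, .ofNat 36, .negSucc 270, .ofNat 74, .ofNat 98, .ofNat 76⟩, ⟨.ofNat 782, .ofNat 190, .ofNat 102, .ofNat 101, .ofNat 219, .ofNat 50⟩, ⟨.negSucc 3654, .negSucc 183, .ofNat 81, .ofNat 131, .negSucc 98, .ofNat 329⟩, ⟨.negSucc 765, .ofNat 80, .ofNat 27, .ofNat 383, .ofNat 814, .ofNat 143⟩, .ofNat 1057, .negSucc 925, .ofNat 0, .negSucc 925, .ofNat 2145, .ofNat 0, .ofNat 128, .ofNat 292, .negSucc 37, .ofNat 0, .ofNat 278, .ofNat 2, .ofNat 0, .ofNat 0, .ofNat 782, .ofNat 382, .ofNat 0, .ofNat 2411710099482188505669994526948720640, .ofNat 906412449641700899174547300810752, .ofNat 0, .ofNat 0, .ofNat 972896968756411146975964658776787648512, .ofNat 0, .ofNat 0, .ofNat 0, .ofNat 4618471927731924655346662102863295021056, .ofNat 0, .ofNat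 0, .ofNat 0, .ofNat 4639139479392570047697599551054419066880, .ofNat 124774977049838040159474490946879488, .ofNat 0⟩)
    (by decide +kernel)
theorem L00669 : Good (Phi V5.P V5.D 1 1) ⟨3, 0, 2, 2, 1, 1, 1, 1, 4, 5⟩ :=
  leafX_sound T5.ok_pp T5.Ypp.bz_eq (w := 184) (c := ⟨⟨.negSucc 1206, .negSucc 46, .negSucc 25, .ofNat 0, .ofNat 90, .ofNat 85⟩, ⟨.negSucc 631, .ofNat 33, .negSucc 274, .negSucc 7, .ofNat 62, .ofNat 47⟩, ⟨.ofNat 954, .ofNat 68, .negSucc 160, .ofNat 4, .negSucc 359, .negSucc 57⟩, ⟨.negSucc 3411, .negSucc 92, .ofNat 26, .ofNat 77, .ofNat 103, .ofNat 213⟩, ⟨.negSucc 424, .negSucc 8, .negSucc 15, .negSucc 159, .ofNat 312, .ofNat 75⟩, .ofNat 1714, .negSucc 1973, .ofNat 0, .negSucc 1973, .ofNat 4011, .ofNat 0, .ofNat 128, .ofNat 231, .negSucc 53, .ofNat 0, .ofNat 187, .negSucc 20, .ofNat 0, .ofNat 0, .ofNat 1333, .ofNat 1163, .ofNat 0, .ofNat 0, .ofNat 0, .ofNat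 0, .ofNat 0, .ofNat 704300948341741457703361398802743296, .ofNat 971874534972016827846895861760, .ofNat 0, .ofNat 0, .ofNat 1496621189511544140738575282785484800, .ofNat 33982974610514906020527988539392, .ofNat 0, .ofNat 0, .ofNat 3344513727769034496611706501152636928, .ofNat 27255479565675822885055854804992, .ofNat 0⟩)
    (by decide +kernel)
theorem L00670 : Good (Phi V5.P V5.D 1 1) ⟨3, 0, 2, 3, 1, 1, 1, 1, 3, 2⟩ :=
  out_sound (S := T5.ds_pp) T5.ok_pp (w := 43) (j := 3) (by decide +kernel)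
theorem L00671 : Good (Phi V5.P V5.D 1 1) ⟨3, 0, 1, 1, 1, 1, 1, 1, 3, 3⟩ :=
  leafX_sound T5.ok_pp T5.Ypp.bz_eq (w := 175) (c := ⟨⟨.negSucc 1115, .negSucc 50, .negSucc 58, .ofNat 7, .ofNat 68, .ofNat 161⟩, ⟨.negSucc 581, .ofNat 25, .negSucc 526, .negSucc 1, .ofNat 56, .ofNat 89⟩, ⟨.ofNat 908, .ofNat 78, .negSucc 296, .ofNat 42, .negSucc 531, .negSucc 171⟩, ⟨.negSucc 3184, .negSucc 86, .ofNat 30, .ofNat 90, .ofNat 23, .ofNat 410⟩, ⟨.negSucc 347, .negSucc 34, .negSucc 38, .negSucc 134, .ofNat 372, .ofNat 138⟩, .ofNat 813, .negSucc 579, .ofNat 0, .negSucc 579, .ofNat 1498, .ofNat 0, .ofNat 135, .ofNat 118, .negSucc 21, .ofNat 0, .ofNat 128, .negSucc 8, .ofNat 0, .ofNat 0, .ofNat 770, .ofNat 726, .ofNat 0, .ofNat 0, .ofNat 0, .ofNat 0, .ofNat 0, .ofNat 11660223788478916318915386461388800, .ofNat 0, .ofNat 0, .ofNat 0, .ofNat 9448818829217468642261500707209216, .ofNat 119938764400817809903841181696,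 .ofNat 0, .ofNat 0, .ofNat 23472863734391246523070342034882560, .ofNat 114643441969628890020217618432, .ofNat 0⟩)
    (by decide +kernel)
theorem L00672 : Good (Phi V5.P V5.D 1 1) ⟨3, 0, 1, 1, 4, 8, 3, 4, 4, 8⟩ :=
  out_sound (S := T5.ds_pp) T5.ok_pp (w := 29) (j := 1) (by decide +kernel)
theorem L00673 : Good (Phi V5.P V5.D 1 1) ⟨3, 0, 1, 1, 4, 8, 3, 5, 4, 8⟩ :=
  out_sound (S := T5.ds_pp) T5.ok_pp (w := 36) (j := 2) (by decide +kernel)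
theorem L00674 : Good (Phi V5.P V5.D 1 1) ⟨3, 0, 1, 1, 4, 8, 2, 2, 4, 9⟩ :=
  out_sound (S := T5.ds_pp) T5.ok_pp (w := 28) (j := 1) (by decide +kernel)
theorem L00675 : Good (Phi V5.P V5.D 1 1) ⟨3, 0, 1, 1, 4, 9, 2, 2, 3, 4⟩ :=
  out_sound (S := T5.ds_pp) T5.ok_pp (w := 32) (j := 2) (by decide +kernel)
theorem L00676 : Good (Phi V5.P V5.D 1 1) ⟨3, 0, 1, 1, 3, 4, 2, 3, 3, 4⟩ :=
  out_sound (S := T5.ds_pp) T5.ok_pp (w := 30) (j := 2) (by decide +kernel)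
theorem L00677 : Good (Phi V5.P V5.D 1 1) ⟨3, 0, 1, 1, 3, 4, 1, 1, 3, 5⟩ :=
  out_sound (S := T5.ds_pp) T5.ok_pp (w := 28) (j := 2) (by decide +kernel)
theorem L00678 : Good (Phi V5.P V5.D 1 1) ⟨3, 0, 1, 1, 3, 5, 1, 1, 2, 2⟩ :=
  out_sound (S := T5.ds_pp) T5.ok_pp (w := 26) (j := 2) (by decide +kernel)
theorem L00679 : Good (Phi V5.P V5.D 1 1) ⟨3, 0, 1, 1, 2, 2, 1, 1, 2, 3⟩ :=
  out_sound (S := T5.ds_pp) T5.ok_pp (w := 24) (j := 2) (by decide +kernel)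
theorem L00680 : Good (Phi V5.P V5.D 1 1) ⟨3, 0, 1, 1, 2, 3, 1, 1, 1, 1⟩ :=
  out_sound (S := T5.ds_pp) T5.ok_pp (w := 22) (j := 2) (by decide +kernel)
theorem L00681 : Good (Phi V5.P V5.D 1 1) ⟨3, 1, 1, 1, 1, 1, 1, 1, 0, 0⟩ :=
  out_sound (S := T5.ds_pp) T5.ok_pp (w := 41) (j := 3) (by decide +kernel)
theorem L00682 : Good (Phi V5.P V5.D 1 1) ⟨2, 1, 1, 1, 1, 1, 1, 1, 0, 0⟩ :=
  out_sound (S := T5.ds_pp) T5.ok_pp (w := 35) (j := 3) (by decide +kernel)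
theorem L00683 : Good (Phi V5.P V5.D 1 1) ⟨2, 2, 2, 0, 2, 0, 3, 0, 4, 0⟩ :=
  leafX_sound T5.ok_pp T5.Ypp.bz_eq (w := 201) (c := ⟨⟨.ofNat 928, .ofNat 546, .ofNat 64, .ofNat 210, .ofNat 320, .negSucc 2549⟩, ⟨.ofNat 90, .ofNat 247, .ofNat 121, .ofNat 6, .ofNat 94, .negSucc 572⟩, ⟨.negSucc 924, .negSucc 566, .ofNat 12, .negSucc 135, .negSucc 366, .ofNat 2537⟩, ⟨.ofNat 1987, .ofNat 616, .ofNat 38, .ofNat 575, .ofNat 488, .negSucc 4809⟩, ⟨.negSucc 151, .negSucc 69, .ofNat 36, .negSucc 217, .negSucc 17, .ofNat 371⟩, .ofNat 324, .negSucc 82, .ofNat 0, .negSucc 82, .ofNat 732, .ofNat 0, .ofNat 140, .ofNat 54, .negSucc 188, .ofNat 0, .ofNat 128, .negSucc 21, .ofNat 0, .ofNat 0, .ofNat 353, .ofNat 1560, .ofNat 0, .ofNat 0, .ofNat 0, .ofNat 0, .ofNat 0, .ofNat 0, .ofNat 0, .ofNat 0, .ofNat 0, .ofNat 0, .ofNat 0, .ofNat 0, .ofNat 14682701566030451995298202120050880544768, .ofNat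 0, .ofNat 0, .ofNat 0⟩)
    (by decide +kernel)
theorem L00684 : Good (Phi V5.P V5.D 1 1) ⟨2, 2, 2, 0, 2, 1, 3, 0, 4, 0⟩ :=
  leafX_sound T5.ok_pp T5.Ypp.bz_eq (w := 200) (c := ⟨⟨.ofNat 1153, .ofNat 575, .negSucc 55, .ofNat 528, .ofNat 361, .negSucc 2172⟩, ⟨.ofNat 5, .ofNat 277, .ofNat 220, .ofNat 148, .ofNat 126, .negSucc 472⟩, ⟨.negSucc 949, .negSucc 392, .ofNat 146, .negSucc 262, .negSucc 257, .ofNat 1338⟩, ⟨.ofNat 2565, .ofNat 594, .negSucc 149, .ofNat 960, .ofNat 567, .negSucc 4186⟩, ⟨.negSucc 364, .ofNat 66, .negSucc 89, .ofNat 147, .ofNat 129, .ofNat 0⟩, .ofNat 322, .negSucc 84, .ofNat 0, .negSucc 84, .ofNat 715, .ofNat 0, .ofNat 165, .ofNat 65, .negSucc 117, .ofNat 0, .ofNat 128, .negSucc 7, .ofNat 0, .ofNat 0, .ofNat 259, .ofNat 1204, .ofNat 0, .ofNat 0, .ofNat 0, .ofNat 0, .ofNat 0, .ofNat 0, .ofNat 0, .ofNat 0, .ofNat 0, .ofNat 0, .ofNat 0, .ofNat 0, .ofNat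 0, .ofNat 0, .ofNat 0, .ofNat 0⟩)
    (by decide +kernel)
theorem L00685 : Good (Phi V5.P V5.D 1 1) ⟨2, 2, 2, 0, 1, 0, 3, 1, 4, 0⟩ :=
  leafX_sound T5.ok_pp T5.Ypp.bz_eq (w := 187) (c := ⟨⟨.ofNat 1042, .ofNat 651, .negSucc 315, .ofNat 1040, .ofNat 151, .negSucc 2332⟩, ⟨.ofNat 38, .ofNat 243, .ofNat 122, .ofNat 188, .ofNat 100, .negSucc 451⟩, ⟨.negSucc 988, .negSucc 545, .ofNat 236, .negSucc 520, .negSucc 144, .ofNat 1864⟩, ⟨.ofNat 2253, .ofNat 696, .negSucc 298, .ofNat 1945, .ofNat 160, .negSucc 4729⟩, ⟨.negSucc 183, .negSucc 166, .ofNat 8, .ofNat 223, .ofNat 130, .ofNat 15⟩, .ofNat 323, .negSucc 90, .ofNat 0, .negSucc 90, .ofNat 757, .ofNat 0, .ofNat 187, .ofNat 65, .negSucc 357, .ofNat 0, .ofNat 128, .negSucc 37, .ofNat 0, .ofNat 0, .ofNat 601, .ofNat 827, .ofNat 0, .ofNat 0, .ofNat 0, .ofNat 0, .ofNat 0, .ofNat 0, .ofNat 0, .ofNat 0, .ofNat 0, .ofNat 0, .ofNat 0,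 .ofNat 0, .ofNat 0, .ofNat 0, .ofNat 0, .ofNat 0⟩)
    (by decide +kernel)
theorem L00686 : Good (Phi V5.P V5.D 1 1) ⟨2, 2, 2, 0, 1, 0, 2, 0, 4, 1⟩ :=
  leafX_sound T5.ok_pp T5.Ypp.bz_eq (w := 183) (c := ⟨⟨.negSucc 883, .negSucc 417, .negSucc 86, .ofNat 673, .negSucc 35, .negSucc 990⟩, ⟨.ofNat 38, .negSucc 307, .negSucc 206, .ofNat 108, .negSucc 5, .negSucc 200⟩, ⟨.ofNat 1078, .ofNat 305, .ofNat 157, .negSucc 1512, .ofNat 73, .ofNat 886⟩, ⟨.negSucc 2094, .negSucc 154, .negSucc 62, .ofNat 1454, .negSucc 83, .negSucc 1953⟩, ⟨.negSucc 230, .ofNat 188, .ofNat 25, .negSucc 390, .ofNat 199, .ofNat 42⟩, .ofNat 323, .negSucc 93, .ofNat 0, .negSucc 93, .ofNat 728, .ofNat 0, .ofNat 300, .ofNat 64, .negSucc 210, .ofNat 0, .ofNat 128, .negSucc 19, .ofNat 0, .ofNat 0, .ofNat 490, .ofNat 1949, .ofNat 0, .ofNat 0, .ofNat 0, .ofNat 0, .ofNat 0, .ofNat 0, .ofNat 0, .ofNat 0, .ofNat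 0, .ofNat 0, .ofNat 0, .ofNat 0, .ofNat 0, .ofNat 0, .ofNat 0, .ofNat 0⟩)
    (by decide +kernel)
theorem L00687 : Good (Phi V5.P V5.D 1 1) ⟨2, 2, 2, 0, 1, 0, 2, 1, 4, 0⟩ :=
  leafX_sound T5.ok_pp T5.Ypp.bz_eq (w := 182) (c := ⟨⟨.ofNat 958, .ofNat 490, .negSucc 40, .ofNat 1210, .negSucc 446, .negSucc 2404⟩, ⟨.ofNat 83, .ofNat 243, .ofNat 99, .ofNat 223, .negSucc 104, .negSucc 487⟩, ⟨.negSucc 981, .negSucc 431, .ofNat 82, .negSucc 729, .ofNat 381, .ofNat 1945⟩, ⟨.ofNat 2178, .ofNat 526, .negSucc 22, .ofNat 2248, .negSucc 985, .negSucc 4903⟩, ⟨.negSucc 122, .negSucc 220, .negSucc 33, .ofNat 266, .ofNat 117, .ofNat 156⟩, .ofNat 321, .negSucc 85, .ofNat 0, .negSucc 85, .ofNat 716, .ofNat 0, .ofNat 196, .ofNat 63, .negSucc 397, .ofNat 0, .ofNat 128, .negSucc 42, .ofNat 0, .ofNat 0, .ofNat 592, .ofNat 281, .ofNat 0, .ofNat 0, .ofNat 0, .ofNat 0, .ofNat 0, .ofNat 0, .ofNat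 0, .ofNat 0, .ofNat 0, .ofNat 0, .ofNat 0, .ofNat 0, .ofNat 0, .ofNat 0, .ofNat 0, .ofNat 0⟩)
    (by decide +kernel)
theorem L00688 : Good (Phi V5.P V5.D 1 1) ⟨2, 2, 2, 0, 1, 0, 2, 1, 4, 1⟩ :=
  leafX_sound T5.ok_pp T5.Ypp.bz_eq (w := 183) (c := ⟨⟨.negSucc 997, .negSucc 590, .negSucc 53, .ofNat 661, .negSucc 195, .negSucc 818⟩, ⟨.ofNat 41, .negSucc 357, .negSucc 253, .ofNat 141, .negSucc 55, .negSucc 162⟩, ⟨.ofNat 1136, .ofNat 404, .ofNat 91, .negSucc 1290, .ofNat 235, .ofNat 812⟩, ⟨.negSucc 2261, .negSucc 381, .negSucc 63, .ofNat 1338, .negSucc 337, .negSucc 1680⟩, ⟨.negSucc 9, .ofNat 147, .negSucc 23, .negSucc 245, .negSucc 16, .negSucc 31⟩, .ofNat 320, .negSucc 84, .ofNat 0, .negSucc 84, .ofNat 709, .ofNat 0, .ofNat 373, .ofNat 59, .negSucc 242, .ofNat 0, .ofNat 128, .negSucc 21, .ofNat 0, .ofNat 0, .ofNat 491, .ofNat 857, .ofNat 0, .ofNat 0, .ofNat 0, .ofNat 0,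 .ofNat 0, .ofNat 0, .ofNat 0, .ofNat 0, .ofNat 0, .ofNat 0, .ofNat 0, .ofNat 0, .ofNat 0, .ofNat 0, .ofNat 256911348714239986831903873302528, .ofNat 0⟩)
    (by decide +kernel)
theorem L00689 : Good (Phi V5.P V5.D 1 1) ⟨2, 2, 2, 0, 1, 0, 2, 0, 3, 1⟩ :=
  leafX_sound T5.ok_pp T5.Ypp.bz_eq (w := 178) (c := ⟨⟨.negSucc 1750, .negSucc 644, .negSucc 20, .ofNat 89, .ofNat 133, .negSucc 149⟩, ⟨.ofNat 0, .negSucc 486, .negSucc 321, .ofNat 7, .ofNat 20, .negSucc 28⟩, ⟨.ofNat 1842, .ofNat 318, .ofNat 104, .negSucc 1247, .ofNat 139, .ofNat 352⟩, ⟨.negSucc 3912, .negSucc 114, .negSucc 6, .ofNat 219, .ofNat 243, .negSucc 298⟩, ⟨.negSucc 26, .ofNat 146, .negSucc 32, .negSucc 280, .negSucc 7, .negSucc 23⟩, .ofNat 321, .negSucc 87, .ofNat 0, .negSucc 87, .ofNat 715, .ofNat 0, .ofNat 538, .ofNat 58, .negSucc 235, .ofNat 0, .ofNat 128, .negSucc 11, .ofNat 0, .ofNat 0, .ofNat 968, .ofNat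 1710, .ofNat 20365461700423155068015856001744896, .ofNat 0, .ofNat 0, .ofNat 0, .ofNat 0, .ofNat 0, .ofNat 0, .ofNat 0, .ofNat 0, .ofNat 0, .ofNat 0, .ofNat 0, .ofNat 815665680529652338157414544870211584, .ofNat 0, .ofNat 0, .ofNat 0⟩)
    (by decide +kernel)
theorem L00690 : Good (Phi V5.P V5.D 1 1) ⟨2, 2, 2, 0, 1, 0, 2, 1, 3, 1⟩ :=
  leafX_sound T5.ok_pp T5.Ypp.bz_eq (w := 178) (c := ⟨⟨.negSucc 1636, .negSucc 654, .negSucc 56, .negSucc 57, .ofNat 19, .negSucc 36⟩, ⟨.ofNat 24, .negSucc 482, .negSucc 328, .negSucc 38, .negSucc 11, .negSucc 6⟩, ⟨.ofNat 1626, .ofNat 531, .ofNat 147, .negSucc 606, .ofNat 4, .ofNat 232⟩, ⟨.negSucc 3728, .negSucc 139, .negSucc 78, .negSucc 29, .ofNat 57, .negSucc 65⟩, ⟨.negSucc 144, .ofNat 250, .ofNat 160, .negSucc 142, .ofNat 43, .negSucc 147⟩, .ofNat 456, .negSucc 277, .ofNat 0, .negSucc 277, .ofNat 1681, .ofNat 0, .ofNat 411, .ofNat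 121, .negSucc 162, .ofNat 0, .ofNat 128, .negSucc 22, .ofNat 0, .ofNat 0, .ofNat 674, .ofNat 935, .ofNat 0, .ofNat 0, .ofNat 0, .ofNat 0, .ofNat 0, .ofNat 0, .ofNat 0, .ofNat 0, .ofNat 0, .ofNat 0, .ofNat 0, .ofNat 0, .ofNat 0, .ofNat 0, .ofNat 0, .ofNat 0⟩)
    (by decide +kernel)
theorem L00691 : Good (Phi V5.P V5.D 1 1) ⟨3, 4, 2, 0, 1, 0, 2, 0, 3, 2⟩ :=
  leafX_sound T5.ok_pp T5.Ypp.bz_eq (w := 187) (c := ⟨⟨.negSucc 1797, .negSucc 267, .negSucc 18, .ofNat 14, .ofNat 59, .ofNat 99⟩, ⟨.negSucc 65, .negSucc 172, .negSucc 312, .negSucc 2, .ofNat 22, .ofNat 6⟩, ⟨.ofNat 1623, .ofNat 155, .ofNat 68, .negSucc 864, .ofNat 486, .ofNat 31⟩, ⟨.negSucc 3939, .negSucc 18, .ofNat 6, .ofNat 44, .ofNat 85, .ofNat 252⟩, ⟨.negSucc 60, .ofNat 42, .negSucc 14, .negSucc 293, .ofNat 32, .negSucc 39⟩, .ofNat 331, .negSucc 60, .ofNat 0, .negSucc 60, .ofNat 768, .ofNat 0, .ofNat 654, .ofNat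 40, .negSucc 278, .ofNat 0, .ofNat 128, .ofNat 18, .ofNat 0, .ofNat 0, .ofNat 1789, .ofNat 49761, .ofNat 9093346267418472638148534258515312640, .ofNat 0, .ofNat 0, .ofNat 0, .ofNat 112120460160236785883554823297849884672, .ofNat 0, .ofNat 0, .ofNat 0, .ofNat 12537015753878287620946402957202554880, .ofNat 0, .ofNat 6847178795188453408202725261312, .ofNat 0, .ofNat 154390522114096369237748139296523550720, .ofNat 0, .ofNat 0, .ofNat 0⟩)
    (by decide +kernel)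
theorem L00692 : Good (Phi V5.P V5.D 1 1) ⟨3, 4, 2, 0, 1, 0, 2, 1, 4, 4⟩ :=
  leafX_sound T5.ok_pp T5.Ypp.bz_eq (w := 190) (c := ⟨⟨.negSucc 1674, .negSucc 276, .ofNat 7, .negSucc 99, .ofNat 41, .ofNat 94⟩, ⟨.negSucc 42, .negSucc 168, .negSucc 293, .negSucc 22, .ofNat 4, .ofNat 14⟩, ⟨.ofNat 1783, .ofNat 239, .negSucc 12, .negSucc 366, .ofNat 58, .negSucc 68⟩, ⟨.negSucc 3721, .negSucc 63, .ofNat 34, .negSucc 162, .ofNat 85, .ofNat 199⟩, ⟨.ofNat 21, .ofNat 19, .ofNat 4, .negSucc 339, .negSucc 33, .negSucc 9⟩, .ofNat 330, .negSucc 60, .ofNat 0, .negSucc 60, .ofNat 765, .ofNat 0, .ofNat 566, .ofNat 40, .negSucc 217, .ofNat 0, .ofNat 128, .ofNat 0, .ofNat 0, .ofNat 0, .ofNat 1453, .ofNat 9222, .ofNat 8749344867325505147810309316009787392, .ofNat 0, .ofNat 1333807045852727516144580165632, .ofNat 0, .ofNat 0, .ofNat 0, .ofNat 0, .ofNat 0, .ofNat 0, .ofNat 0, .ofNat 442220835016755365611725616316416,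 .ofNat 0, .ofNat 0, .ofNat 0, .ofNat 0, .ofNat 0⟩)
    (by decide +kernel)
theorem L00693 : Good (Phi V5.P V5.D 1 1) ⟨3, 4, 2, 0, 1, 0, 3, 2, 4, 5⟩ :=
  leafX_sound T5.ok_pp T5.Ypp.bz_eq (w := 195) (c := ⟨⟨.negSucc 1507, .negSucc 263, .negSucc 15, .negSucc 143, .negSucc 15, .ofNat 110⟩, ⟨.negSucc 14, .negSucc 166, .negSucc 286, .negSucc 30, .negSucc 12, .ofNat 16⟩, ⟨.ofNat 1767, .ofNat 160, .ofNat 7, .negSucc 437, .ofNat 122, .ofNat 17⟩, ⟨.negSucc 3360, .negSucc 33, .ofNat 17, .negSucc 287, .negSucc 25, .ofNat 236⟩, ⟨.ofNat 8, .ofNat 20, .negSucc 12, .negSucc 329, .negSucc 19, .negSucc 7⟩, .ofNat 173, .negSucc 8, .ofNat 0, .negSucc 8, .ofNat 247, .ofNat 0, .ofNat 215, .ofNat 9, .negSucc 92, .ofNat 0, .ofNat 128, .ofNat 22, .ofNat 0, .ofNat 0, .ofNat 486, .ofNat 19273, .ofNat 191926117397272296740786618985191833600, .ofNat 0, .ofNat 0, .ofNat 0, .ofNat 1156847285140739536237238684174698676224,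 .ofNat 0, .ofNat 719179872998626480163747600007168, .ofNat 0, .ofNat 0, .ofNat 0, .ofNat 0, .ofNat 0, .ofNat 1229615696207952817130012021678734835712, .ofNat 0, .ofNat 0, .ofNat 0⟩)
    (by decide +kernel)
theorem L00694 : Good (Phi V5.P V5.D 1 1) ⟨3, 4, 2, 0, 1, 0, 3, 3, 4, 5⟩ :=
  leafX_sound T5.ok_pp T5.Ypp.bz_eq (w := 195) (c := ⟨⟨.negSucc 1513, .negSucc 258, .negSucc 8, .negSucc 165, .ofNat 5, .ofNat 97⟩, ⟨.negSucc 29, .negSucc 164, .negSucc 276, .negSucc 30, .ofNat 0, .ofNat 13⟩, ⟨.ofNat 1601, .ofNat 192, .negSucc 31, .negSucc 84, .ofNat 55, .negSucc 24⟩, ⟨.negSucc 3390, .negSucc 29, .ofNat 16, .negSucc 293, .ofNat 12, .ofNat 197⟩, ⟨.ofNat 11, .ofNat 10, .negSucc 16, .negSucc 352, .negSucc 10, .negSucc 5⟩, .ofNat 463, .negSucc 231, .ofNat 0, .negSucc 231, .ofNat 2000, .ofNat 0, .ofNat 329, .ofNat 106, .negSucc 101, .ofNat 0, .ofNat 128, .negSucc 8, .ofNat 0,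 .ofNat 0, .ofNat 1042, .ofNat 19039, .ofNat 172974971762848877743092111573239463936, .ofNat 0, .ofNat 0, .ofNat 0, .ofNat 0, .ofNat 0, .ofNat 0, .ofNat 0, .ofNat 0, .ofNat 0, .ofNat 0, .ofNat 0, .ofNat 2956378060251016999535930459966477959168, .ofNat 0, .ofNat 11482545349679278560824588217876480, .ofNat 0⟩)
    (by decide +kernel)
theorem L00695 : Good (Phi V5.P V5.D 1 1) ⟨3, 5, 2, 0, 1, 0, 2, 0, 3, 2⟩ :=
  leafX_sound T5.ok_pp T5.Ypp.bz_eq (w := 187) (c := ⟨⟨.negSucc 2057, .negSucc 345, .negSucc 15, .ofNat 52, .ofNat 20, .ofNat 77⟩, ⟨.negSucc 219, .negSucc 296, .negSucc 309, .negSucc 2, .negSucc 3, .ofNat 19⟩, ⟨.ofNat 2005, .ofNat 130, .ofNat 74, .negSucc 1120, .ofNat 452, .negSucc 30⟩, ⟨.negSucc 4015, .negSucc 46, .ofNat 4, .ofNat 152, .ofNat 70, .ofNat 181⟩, ⟨.negSucc 7, .ofNat 41, .negSucc 5, .negSucc 268, .negSucc 5, .negSucc 40⟩, .ofNat 314, .negSucc 101, .ofNat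 0, .negSucc 101, .ofNat 676, .ofNat 0, .ofNat 300, .ofNat 67, .negSucc 111, .ofNat 0, .ofNat 128, .negSucc 1, .ofNat 0, .ofNat 0, .ofNat 665, .ofNat 30092, .ofNat 4838622807798724952493572355384147968, .ofNat 0, .ofNat 0, .ofNat 0, .ofNat 39837587731798423104478858376667725824, .ofNat 0, .ofNat 1457870758473445746381823148032, .ofNat 0, .ofNat 3768474103007541875268978890260873216, .ofNat 0, .ofNat 5395560909483615436336185475072, .ofNat 0, .ofNat 42722428288158807594173928168595914752, .ofNat 0, .ofNat 0, .ofNat 0⟩)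
    (by decide +kernel)
theorem L00696 : Good (Phi V5.P V5.D 1 1) ⟨3, 5, 2, 0, 1, 0, 2, 1, 4, 4⟩ :=
  leafX_sound T5.ok_pp T5.Ypp.bz_eq (w := 189) (c := ⟨⟨.negSucc 1953, .negSucc 353, .negSucc 1, .negSucc 126, .ofNat 4, .ofNat 153⟩, ⟨.negSucc 205, .negSucc 300, .negSucc 296, .negSucc 55, .negSucc 7, .ofNat 49⟩, ⟨.ofNat 2026, .ofNat 313, .negSucc 32, .negSucc 515, .ofNat 122, .negSucc 66⟩, ⟨.negSucc 3802, .negSucc 53, .ofNat 12, .negSucc 148, .ofNat 23, .ofNat 268⟩, ⟨.ofNat 32, .ofNat 53, .ofNat 1, .negSucc 287, .negSucc 16, .negSucc 76⟩, .ofNat 460, .negSucc 338, .ofNat 0, .negSucc 338, .ofNat 1546, .ofNat 0, .ofNat 162, .ofNat 128, .negSucc 113, .ofNat 0, .ofNat 121, .negSucc 21, .ofNat 0, .ofNat 0, .ofNat 777, .ofNat 2760, .ofNat 1880074150831604553830813930073620480, .ofNat 0, .ofNat 931821846564790281371786412032, .ofNat 0, .ofNat 0, .ofNat 0, .ofNat 248180094943978274443364543758336,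 .ofNat 0, .ofNat 0, .ofNat 0, .ofNat 0, .ofNat 0, .ofNat 0, .ofNat 0, .ofNat 0, .ofNat 0⟩)
    (by decide +kernel)
theorem L00697 : Good (Phi V5.P V5.D 1 1) ⟨3, 5, 2, 0, 1, 0, 3, 2, 5, 10⟩ :=
  leafX_sound T5.ok_pp T5.Ypp.bz_eq (w := 200) (c := ⟨⟨.negSucc 1712, .negSucc 328, .negSucc 20, .negSucc 198, .negSucc 41, .ofNat 70⟩, ⟨.negSucc 160, .negSucc 291, .negSucc 287, .negSucc 57, .negSucc 14, .ofNat 15⟩, ⟨.ofNat 1969, .ofNat 163, .ofNat 9, .negSucc 558, .ofNat 193, .negSucc 14⟩, ⟨.negSucc 3359, .negSucc 36, .ofNat 11, .negSucc 288, .negSucc 73, .ofNat 134⟩, ⟨.ofNat 38, .ofNat 20, .negSucc 10, .negSucc 320, .negSucc 34, .negSucc 13⟩, .ofNat 166, .negSucc 20, .ofNat 0, .negSucc 20, .ofNat 236, .ofNat 0, .ofNat 200, .ofNat 25, .negSucc 100, .ofNat 0, .ofNat 128, .ofNat 18, .ofNat 0, .ofNat 0, .ofNat 494, .ofNat 14606, .ofNat 949010977855369107090729659559734935552, .ofNat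 0, .ofNat 3903625216471428216895159314415616, .ofNat 0, .ofNat 7984347273323397226902230352745614802944, .ofNat 0, .ofNat 12475923955835649811907950378221568, .ofNat 0, .ofNat 0, .ofNat 0, .ofNat 0, .ofNat 0, .ofNat 7988168757393479146992210010426358890496, .ofNat 0, .ofNat 111513779117328724356779104570179584, .ofNat 0⟩)
    (by decide +kernel)
theorem L00698 : Good (Phi V5.P V5.D 1 1) ⟨3, 5, 2, 0, 1, 0, 3, 3, 5, 10⟩ :=
  leafX_sound T5.ok_pp T5.Ypp.bz_eq (w := 200) (c := ⟨⟨.negSucc 1754, .negSucc 338, .negSucc 7, .negSucc 208, .negSucc 8, .ofNat 57⟩, ⟨.negSucc 171, .negSucc 283, .negSucc 282, .negSucc 68, .negSucc 2, .ofNat 11⟩, ⟨.ofNat 1881, .ofNat 262, .negSucc 18, .negSucc 195, .ofNat 51, .negSucc 43⟩, ⟨.negSucc 3435, .negSucc 65, .ofNat 19, .negSucc 289, .negSucc 6, .ofNat 107⟩, ⟨.ofNat 24, .ofNat 15, .ofNat 0, .negSucc 354, .negSucc 29, .negSucc 8⟩, .ofNat 314,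 .negSucc 103, .ofNat 0, .negSucc 103, .ofNat 685, .ofNat 0, .ofNat 233, .ofNat 68, .negSucc 115, .ofNat 0, .ofNat 128, .negSucc 9, .ofNat 0, .ofNat 0, .ofNat 871, .ofNat 11839, .ofNat 698369130102878358780049441359422029824, .ofNat 0, .ofNat 3886287344579190035398447484370944, .ofNat 0, .ofNat 0, .ofNat 0, .ofNat 0, .ofNat 0, .ofNat 0, .ofNat 0, .ofNat 0, .ofNat 0, .ofNat 0, .ofNat 0, .ofNat 0, .ofNat 0⟩)
    (by decide +kernel)
theorem L00699 : Good (Phi V5.P V5.D 1 1) ⟨3, 5, 2, 0, 1, 0, 2, 1, 5, 11⟩ :=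
  leafX_sound T5.ok_pp T5.Ypp.bz_eq (w := 195) (c := ⟨⟨.negSucc 1572, .negSucc 332, .negSucc 8, .negSucc 249, .negSucc 123, .ofNat 87⟩, ⟨.negSucc 102, .negSucc 289, .negSucc 270, .negSucc 97, .negSucc 57, .ofNat 32⟩, ⟨.ofNat 1568, .ofNat 235, .negSucc 18, .negSucc 95, .ofNat 276, .negSucc 22⟩, ⟨.negSucc 3173, .negSucc 59, .ofNat 10, .negSucc 328, .negSucc 141, .ofNat 137⟩, ⟨.ofNat 76, .ofNat 11, .ofNat 1, .negSucc 372, .negSucc 76, .negSucc 11⟩, .ofNat 315, .negSucc 105, .ofNat 0, .negSucc 105, .ofNat 680, .ofNat 0, .ofNat 188, .ofNat 69, .negSucc 49, .ofNat 0, .ofNat 128, .negSucc 4, .ofNat 0, .ofNat 0, .ofNat 439, .ofNat 7686, .ofNat 72383940835327118984516807254047981568, .ofNat 0, .ofNat 108481862522861257222941571022848, .ofNat 0, .ofNat 626164884955830528565089152053238824960, .ofNat 0, .ofNat 0, .ofNat 0, .ofNat 0, .ofNat 0, .ofNat 0, .ofNat 0, .ofNat 760413515340388903687832639267682648064,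 .ofNat 0, .ofNat 0, .ofNat 0⟩)
    (by decide +kernel)
theorem L00700 : Good (Phi V5.P V5.D 1 1) ⟨2, 2, 2, 0, 1, 0, 1, 0, 3, 3⟩ :=
  leafX_sound T5.ok_pp T5.Ypp.bz_eq (w := 178) (c := ⟨⟨.negSucc 1338, .negSucc 570, .negSucc 22, .negSucc 179, .negSucc 54, .ofNat 161⟩, ⟨.ofNat 43, .negSucc 449, .negSucc 279, .negSucc 43, .negSucc 25, .negSucc 26⟩, ⟨.ofNat 1195, .ofNat 384, .negSucc 108, .negSucc 57, .ofNat 453, .negSucc 57⟩, ⟨.negSucc 3161, .negSucc 57, .ofNat 11, .negSucc 259, .negSucc 60, .ofNat 369⟩, ⟨.ofNat 821, .ofNat 142, .ofNat 50, .negSucc 622, .negSucc 690, .ofNat 268⟩, .ofNat 461, .negSucc 302, .ofNat 0, .negSucc 302, .ofNat 1907, .ofNat 0, .ofNat 128, .ofNat 139, .negSucc 10, .ofNat 0, .ofNat 137, .negSucc 0, .ofNat 0, .ofNat 0, .ofNat 266, .ofNat 10079, .ofNat 22953805365763227522456845901889536, .ofNat 0, .ofNat 216182435929064407742126489600, .ofNat 0,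 .ofNat 53068656526703704066612773896847360, .ofNat 0, .ofNat 353872013910075959685045813248, .ofNat 0, .ofNat 133404373907277567187929042469781504, .ofNat 0, .ofNat 0, .ofNat 0, .ofNat 42522330181919779581800182854975488, .ofNat 0, .ofNat 0, .ofNat 0⟩)
    (by decide +kernel)
theorem L00701 : Good (Phi V5.P V5.D 1 1) ⟨2, 2, 2, 0, 1, 0, 1, 0, 1, 1⟩ :=
  out_sound (S := T5.ds_pp) T5.ok_pp (w := 15) (j := 1) (by decide +kernel)
theorem L00702 : Good (Phi V5.P V5.D 1 1) ⟨3, 6, 3, 0, 1, 0, 1, 0, 4, 0⟩ :=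
  out_sound (S := T5.ds_pp) T5.ok_pp (w := 45) (j := 3) (by decide +kernel)
theorem L00703 : Good (Phi V5.P V5.D 1 1) ⟨3, 6, 3, 1, 1, 0, 3, 0, 4, 0⟩ :=
  leafX_sound T5.ok_pp T5.Ypp.bz_eq (w := 195) (c := ⟨⟨.ofNat 1276, .ofNat 25, .ofNat 86, .ofNat 1167, .ofNat 384, .negSucc 2842⟩, ⟨.ofNat 325, .ofNat 108, .ofNat 148, .ofNat 411, .ofNat 172, .negSucc 1016⟩, ⟨.negSucc 1225, .ofNat 79, .ofNat 16, .negSucc 481, .negSucc 277, .ofNat 2064⟩, ⟨.ofNat 2199, .negSucc 206, .ofNat 131, .ofNat 1922, .ofNat 558, .negSucc 4632⟩, ⟨.negSucc 158, .ofNat 16, .ofNat 0, .negSucc 128, .ofNat 193, .negSucc 106⟩, .ofNat 536, .negSucc 446, .ofNat 0, .negSucc 446, .ofNat 1260, .ofNat 0, .ofNat 204, .ofNat 128, .negSucc 333, .ofNat 0, .ofNat 128, .negSucc 109, .ofNat 0, .ofNat 0, .ofNat 616, .ofNat 2572, .ofNat 0, .ofNat 0, .ofNat 230610983696311341538818127822848, .ofNat 0, .ofNat 990467930711030523094735276062990663680,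 .ofNat 0, .ofNat 2221590875533025384289874848251904, .ofNat 0, .ofNat 0, .ofNat 0, .ofNat 8742838494730587151966391437885440, .ofNat 0, .ofNat 0, .ofNat 0, .ofNat 14121468534990653395928918259662848, .ofNat 0⟩)
    (by decide +kernel)
theorem L00704 : Good (Phi V5.P V5.D 1 1) ⟨3, 6, 3, 1, 1, 0, 3, 1, 4, 0⟩ :=
  leafX_sound T5.ok_pp T5.Ypp.bz_eq (w := 195) (c := ⟨⟨.ofNat 1744, .ofNat 624, .negSucc 17, .ofNat 1375, .ofNat 69, .negSucc 3354⟩, ⟨.ofNat 458, .ofNat 390, .ofNat 154, .ofNat 469, .ofNat 22, .negSucc 1169⟩, ⟨.negSucc 1545, .negSucc 709, .negSucc 142, .negSucc 514, .negSucc 34, .ofNat 2609⟩, ⟨.ofNat 2943, .ofNat 680, .ofNat 19, .ofNat 2227, .ofNat 113, .negSucc 5584⟩, ⟨.ofNat 57, .negSucc 156, .negSucc 275, .ofNat 43, .ofNat 90, .negSucc 3⟩, .ofNat 437, .negSucc 292, .ofNat 0, .negSucc 292, .ofNat 910, .ofNat 0, .ofNat 184, .ofNat 116, .negSucc 412, .ofNat 0,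 .ofNat 128, .negSucc 128, .ofNat 0, .ofNat 0, .ofNat 641, .ofNat 1253, .ofNat 0, .ofNat 0, .ofNat 0, .ofNat 0, .ofNat 0, .ofNat 0, .ofNat 6601851851216298479776681823305728, .ofNat 0, .ofNat 0, .ofNat 0, .ofNat 9370906185627954540022597832146944, .ofNat 0, .ofNat 0, .ofNat 0, .ofNat 10694362627800379951018324386643968, .ofNat 0⟩)
    (by decide +kernel)
theorem L00705 : Good (Phi V5.P V5.D 1 1) ⟨3, 6, 3, 1, 1, 0, 2, 1, 4, 0⟩ :=
  leafX_sound T5.ok_pp T5.Ypp.bz_eq (w := 191) (c := ⟨⟨.ofNat 1986, .negSucc 17, .ofNat 43, .ofNat 1563, .negSucc 656, .negSucc 3809⟩, ⟨.ofNat 610, .ofNat 222, .ofNat 72, .ofNat 526, .negSucc 187, .negSucc 1308⟩, ⟨.negSucc 1824, .ofNat 119, .negSucc 256, .negSucc 787, .ofNat 722, .ofNat 3252⟩, ⟨.ofNat 3342, .negSucc 199, .ofNat 62, .ofNat 2495, .negSucc 1185, .negSucc 6217⟩, ⟨.negSucc 82, .negSucc 572, .negSucc 55, .ofNat 225, .ofNat 284, .negSucc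 116⟩, .ofNat 536, .negSucc 446, .ofNat 0, .negSucc 446, .ofNat 1260, .ofNat 0, .ofNat 168, .ofNat 127, .negSucc 412, .ofNat 0, .ofNat 128, .negSucc 139, .ofNat 0, .ofNat 0, .ofNat 577, .ofNat 448, .ofNat 0, .ofNat 0, .ofNat 4448877122794631729006430388224, .ofNat 0, .ofNat 0, .ofNat 0, .ofNat 659252819417603816643930104004608, .ofNat 0, .ofNat 0, .ofNat 0, .ofNat 538787763747973889607185494704128, .ofNat 0, .ofNat 0, .ofNat 0, .ofNat 1285058546369872405843377205018624, .ofNat 0⟩)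
    (by decide +kernel)
theorem L00706 : Good (Phi V5.P V5.D 1 1) ⟨3, 6, 2, 0, 1, 0, 1, 0, 4, 1⟩ :=
  leafX_sound T5.ok_pp T5.Ypp.bz_eq (w := 182) (c := ⟨⟨.negSucc 1385, .negSucc 280, .ofNat 74, .ofNat 871, .negSucc 520, .negSucc 1303⟩, ⟨.negSucc 306, .negSucc 309, .negSucc 171, .ofNat 277, .negSucc 161, .negSucc 436⟩, ⟨.ofNat 1141, .negSucc 525, .ofNat 654, .negSucc 2089, .ofNat 659, .ofNat 1002⟩, ⟨.negSucc 2241, .ofNat 13, .ofNat 70, .ofNat 1495, .negSucc 890, .negSucc 2131⟩, ⟨.negSucc 206, .negSucc 13, .ofNat 156, .negSucc 236, .ofNat 132, .negSucc 14⟩, .ofNat 621, .negSucc 669, .ofNat 0, .negSucc 669, .ofNat 2017, .ofNat 0, .ofNat 128, .ofNat 153, .negSucc 155, .ofNat 0, .ofNat 115, .negSucc 47, .ofNat 0, .ofNat 0, .ofNat 363, .ofNat 241, .ofNat 39295507215380063830347246735458304, .ofNat 0, .ofNat 515212372475524895653532532736, .ofNat 0, .ofNat 0, .ofNat 0, .ofNat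 21310291257905503535826359812096, .ofNat 0, .ofNat 0, .ofNat 0, .ofNat 26286663415905523897360696999936, .ofNat 0, .ofNat 0, .ofNat 0, .ofNat 3490862700370213499682078851072, .ofNat 0⟩)
    (by decide +kernel)
theorem L00707 : Good (Phi V5.P V5.D 1 1) ⟨3, 6, 2, 0, 1, 0, 1, 0, 3, 1⟩ :=
  leafX_sound T5.ok_pp T5.Ypp.bz_eq (w := 178) (c := ⟨⟨.negSucc 2321, .negSucc 393, .negSucc 71, .ofNat 4, .negSucc 86, .ofNat 61⟩, ⟨.negSucc 489, .negSucc 409, .negSucc 335, .negSucc 23, .negSucc 41, .ofNat 16⟩, ⟨.ofNat 2068, .negSucc 152, .ofNat 256, .negSucc 1001, .ofNat 377, .ofNat 101⟩, ⟨.negSucc 3904, .negSucc 45, .negSucc 97, .ofNat 92, .negSucc 131, .ofNat 112⟩, ⟨.ofNat 59, .ofNat 20, .negSucc 17, .negSucc 221, .negSucc 4, .negSucc 50⟩, .ofNat 540, .negSucc 428, .ofNat 0, .negSucc 428, .ofNat 1266, .ofNat 0, .ofNat 209, .ofNat 108, .negSucc 175, .ofNat 0, .ofNat 128, .negSucc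 39, .ofNat 0, .ofNat 0, .ofNat 688, .ofNat 1115, .ofNat 15076728933319736286734549942009856, .ofNat 0, .ofNat 34151009065265316746649141248, .ofNat 0, .ofNat 0, .ofNat 0, .ofNat 513120574868441312918637641728, .ofNat 0, .ofNat 0, .ofNat 0, .ofNat 669036870538965893935565635584, .ofNat 0, .ofNat 587844950361826751708852061170827264, .ofNat 0, .ofNat 1109254789860079602458983137280, .ofNat 0⟩)
    (by decide +kernel)
theorem L00708 : Good (Phi V5.P V5.D 1 1) ⟨3, 7, 2, 0, 1, 0, 1, 0, 2, 0⟩ :=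
  out_sound (S := T5.ds_pp) T5.ok_pp (w := 43) (j := 3) (by decide +kernel)
theorem L00709 : Good (Phi V5.P V5.D 1 1) ⟨3, 6, 2, 0, 2, 0, 1, 0, 3, 2⟩ :=
  leafX_sound T5.ok_pp T5.Ypp.bz_eq (w := 195) (c := ⟨⟨.negSucc 2449, .negSucc 383, .ofNat 16, .negSucc 47, .ofNat 151, .ofNat 300⟩, ⟨.negSucc 565, .negSucc 369, .negSucc 280, .negSucc 31, .ofNat 46, .ofNat 100⟩, ⟨.ofNat 2750, .ofNat 335, .negSucc 31, .negSucc 185, .negSucc 370, .negSucc 245⟩, ⟨.negSucc 4092, .negSucc 81, .ofNat 34, .negSucc 24, .ofNat 262, .ofNat 497⟩, ⟨.ofNat 55, .ofNat 10, .ofNat 14, .negSucc 151, .negSucc 52, .negSucc 30⟩, .ofNat 493, .negSucc 353, .ofNat 0, .negSucc 353, .ofNat 1092, .ofNat 0, .ofNat 154, .ofNat 101, .negSucc 65, .ofNat 0, .ofNat 128, .negSucc 16, .ofNat 0, .ofNat 0, .ofNat 566, .ofNat 4731, .ofNat 276189888850745147718572988004263002112, .ofNat 0, .ofNat 242785189382379058767939653074944,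 .ofNat 0, .ofNat 1378801133594592537401154583169842806784, .ofNat 0, .ofNat 15716264117980464703116509781688320, .ofNat 0, .ofNat 0, .ofNat 0, .ofNat 42475132342466673192275310221983744, .ofNat 0, .ofNat 4824492005110258077444123646621739122688, .ofNat 0, .ofNat 5718468025855659711514792983265280, .ofNat 0⟩)
    (by decide +kernel)
theorem L00710 : Good (Phi V5.P V5.D 1 1) ⟨3, 6, 2, 0, 2, 1, 2, 0, 3, 2⟩ :=
  leafX_sound T5.ok_pp T5.Ypp.bz_eq (w := 201) (c := ⟨⟨.negSucc 2197, .negSucc 376, .negSucc 23, .negSucc 48, .negSucc 129, .ofNat 272⟩, ⟨.negSucc 480, .negSucc 397, .negSucc 307, .negSucc 30, .negSucc 44, .ofNat 86⟩, ⟨.ofNat 1524, .ofNat 70, .ofNat 95, .negSucc 725, .ofNat 587, .ofNat 2⟩, ⟨.negSucc 3647, .negSucc 22, .negSucc 5, .negSucc 33, .negSucc 213, .ofNat 465⟩, ⟨.negSucc 143, .ofNat 35, .negSucc 11, .negSucc 127, .ofNat 38, .negSucc 92⟩, .ofNat 625, .negSucc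 679, .ofNat 0, .negSucc 679, .ofNat 2031, .ofNat 0, .ofNat 156, .ofNat 128, .negSucc 65, .ofNat 0, .ofNat 98, .negSucc 14, .ofNat 0, .ofNat 0, .ofNat 479, .ofNat 44033, .ofNat 20562487903764000606206094455574393520128, .ofNat 0, .ofNat 13177711841436674848231145739386880, .ofNat 0, .ofNat 25362408862958366820836615671572059914240, .ofNat 0, .ofNat 1793203209635079065904853403228438528, .ofNat 0, .ofNat 69903302652323155596825508076966171901952, .ofNat 0, .ofNat 1247803835242610771322276387468869632, .ofNat 0, .ofNat 120008749144250784853415823110584664064000, .ofNat 0, .ofNat 680934364054490740296635063145070592, .ofNat 0⟩)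
    (by decide +kernel)
theorem L00711 : Good (Phi V5.P V5.D 1 1) ⟨3, 6, 2, 0, 2, 1, 2, 1, 4, 4⟩ :=
  leafX_sound T5.ok_pp T5.Ypp.bz_eq (w := 204) (c := ⟨⟨.negSucc 2280, .negSucc 461, .ofNat 12, .negSucc 154, .negSucc 104, .ofNat 148⟩, ⟨.negSucc 509, .negSucc 431, .negSucc 289, .negSucc 70, .negSucc 45, .ofNat 50⟩, ⟨.ofNat 1970, .ofNat 313, .negSucc 45, .negSucc 340, .ofNat 352, .negSucc 37⟩, ⟨.negSucc 3805, .negSucc 152, .ofNat 53, .negSucc 190, .negSucc 145, .ofNat 253⟩, ⟨.negSucc 59, .ofNat 45, .negSucc 16, .negSucc 171, .negSucc 72, .negSucc 37⟩, .ofNat 473, .negSucc 378, .ofNat 0, .negSucc 378, .ofNat 1267, .ofNat 0, .ofNat 150, .ofNat 128, .negSucc 153, .ofNat 0, .ofNat 117, .negSucc 32, .ofNat 0, .ofNat 0, .ofNat 1019, .ofNat 6475, .ofNat 18482056454208169100906277151479433265152, .ofNat 0, .ofNat 587002105127763307219017421450903552, .ofNat 0, .ofNat 0, .ofNat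 0, .ofNat 9939906333519041319037075747168583680, .ofNat 0, .ofNat 0, .ofNat 0, .ofNat 26199270250834987522474787489529724928, .ofNat 0, .ofNat 137828490782114847502895341316570232127488, .ofNat 0, .ofNat 13145230646786875681461294118532546560, .ofNat 0⟩)
    (by decide +kernel)
theorem L00712 : Good (Phi V5.P V5.D 1 1) ⟨3, 6, 2, 0, 2, 1, 3, 2, 4, 5⟩ :=
  leafX_sound T5.ok_pp T5.Ypp.bz_eq (w := 211) (c := ⟨⟨.negSucc 2112, .negSucc 373, .negSucc 19, .negSucc 125, .negSucc 67, .ofNat 170⟩, ⟨.negSucc 466, .negSucc 393, .negSucc 288, .negSucc 59, .negSucc 26, .ofNat 57⟩, ⟨.ofNat 1860, .ofNat 149, .ofNat 19, .negSucc 350, .ofNat 232, .negSucc 59⟩, ⟨.negSucc 3518, .negSucc 35, .ofNat 6, .negSucc 146, .negSucc 96, .ofNat 288⟩, ⟨.negSucc 100, .ofNat 25, .negSucc 11, .negSucc 163, .negSucc 35, .negSucc 31⟩, .ofNat 314, .negSucc 143, .ofNat 0, .negSucc 143, .ofNat 613, .ofNat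 0, .ofNat 302, .ofNat 90, .negSucc 147, .ofNat 0, .ofNat 128, .negSucc 12, .ofNat 0, .ofNat 0, .ofNat 1120, .ofNat 69782, .ofNat 1765722848861111206057885556890159831580672, .ofNat 0, .ofNat 43686580002308023435926244396636307456, .ofNat 0, .ofNat 10430925501269000423907809748230908332212224, .ofNat 0, .ofNat 27960522752476042214114484192328810496, .ofNat 0, .ofNat 5854299020740710688414684407797702706855936, .ofNat 0, .ofNat 755559310177771419363177234602070638592, .ofNat 0, .ofNat 13808164701385769129887643908022387423051776, .ofNat 0, .ofNat 213778988725193069357076979816199094272, .ofNat 0⟩)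
    (by decide +kernel)
theorem L00713 : Good (Phi V5.P V5.D 1 1) ⟨3, 6, 2, 0, 2, 1, 3, 3, 4, 5⟩ :=
  leafX_sound T5.ok_pp T5.Ypp.bz_eq (w := 210) (c := ⟨⟨.negSucc 2140, .negSucc 336, .negSucc 33, .negSucc 180, .negSucc 57, .ofNat 163⟩, ⟨.negSucc 479, .negSucc 381, .negSucc 294, .negSucc 79, .negSucc 22, .ofNat 55⟩, ⟨.ofNat 1997, .ofNat 125, .ofNat 18, .negSucc 155, .ofNat 134, .negSucc 113⟩, ⟨.negSucc 3559, .ofNat 27, .negSucc 14, .negSucc 226, .negSucc 79, .ofNat 277⟩, ⟨.negSucc 120, .ofNat 23, .negSucc 7, .negSucc 197, .negSucc 40, .negSucc 28⟩, .ofNat 315, .negSucc 145, .ofNat 0, .negSucc 145, .ofNat 614, .ofNat 0, .ofNat 209, .ofNat 90, .negSucc 122, .ofNat 0, .ofNat 128, .negSucc 17, .ofNat 0, .ofNat 0, .ofNat 958, .ofNat 20916, .ofNat 504472379109097374666765123097023655968768, .ofNat 0, .ofNat 25074839558494052059808691820496420864, .ofNat 0, .ofNat 548733315895181114552053571718768389783552,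 .ofNat 0, .ofNat 574658853054904230094280546086106955776, .ofNat 0, .ofNat 549094205338574483339370516708621025280000, .ofNat 0, .ofNat 1034871361177299326422206269750901735424, .ofNat 0, .ofNat 2657415082592640200451869027868564470628352, .ofNat 0, .ofNat 343639837032086603031932936101533057024, .ofNat 0⟩)
    (by decide +kernel)
theorem L00714 : Good (Phi V5.P V5.D 1 1) ⟨3, 6, 2, 0, 1, 0, 2, 0, 3, 3⟩ :=
  out_sound (S := T5.ds_pp) T5.ok_pp (w := 20) (j := 1) (by decide +kernel)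
theorem L00715 : Good (Phi V5.P V5.D 1 1) ⟨3, 6, 2, 0, 1, 0, 2, 1, 3, 3⟩ :=
  leafX_sound T5.ok_pp T5.Ypp.bz_eq (w := 187) (c := ⟨⟨.negSucc 1695, .negSucc 393, .negSucc 11, .negSucc 350, .negSucc 186, .ofNat 322⟩, ⟨.negSucc 307, .negSucc 404, .negSucc 265, .negSucc 164, .negSucc 82, .ofNat 110⟩, ⟨.ofNat 1819, .ofNat 251, .negSucc 111, .negSucc 145, .ofNat 326, .negSucc 196⟩, ⟨.negSucc 2960, .negSucc 71, .ofNat 27, .negSucc 412, .negSucc 241, .ofNat 524⟩, ⟨.ofNat 179, .negSucc 2, .negSucc 7, .negSucc 438, .negSucc 135, .negSucc 35⟩, .ofNat 473, .negSucc 378, .ofNat 0, .negSucc 378, .ofNat 1265, .ofNat 0, .ofNat 138, .ofNat 128, .negSucc 65, .ofNat 0, .ofNat 120, .negSucc 17, .ofNat 0, .ofNat 0, .ofNat 804, .ofNat 25430, .ofNat 8143908654455011733835950127755296768, .ofNat 0, .ofNat 1605024680854221163425116979200, .ofNat 0, .ofNat 25645112648449674954679090668514574336,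 .ofNat 0, .ofNat 59239382850709707818326873341952, .ofNat 0, .ofNat 38052970588971751858747449326748827648, .ofNat 0, .ofNat 96856101068958136592210069553152, .ofNat 0, .ofNat 31671395599282786057123006339742695424, .ofNat 0, .ofNat 8238581986395551987209108193280, .ofNat 0⟩)
    (by decide +kernel)
theorem L00716 : Good (Phi V5.P V5.D 1 1) ⟨3, 7, 2, 0, 1, 0, 1, 0, 2, 1⟩ :=
  out_sound (S := T5.ds_pp) T5.ok_pp (w := 43) (j := 3) (by decide +kernel)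
theorem L00717 : Good (Phi V5.P V5.D 1 1) ⟨2, 3, 2, 0, 1, 0, 1, 0, 1, 1⟩ :=
  out_sound (S := T5.ds_pp) T5.ok_pp (w := 15) (j := 1) (by decide +kernel)
theorem L00718 : Good (Phi V5.P V5.D 1 1) ⟨2, 2, 3, 0, 1, 0, 2, 2, 4, 0⟩ :=
  leafX_sound T5.ok_pp T5.Ypp.bz_eq (w := 185) (c := ⟨⟨.ofNat 158, .negSucc 430, .ofNat 20, .ofNat 1040, .negSucc 345, .negSucc 1342⟩, ⟨.ofNat 58, .negSucc 121, .negSucc 31, .ofNat 152, .negSucc 13, .negSucc 175⟩, ⟨.negSucc 268, .ofNat 407, .negSucc 49, .negSucc 812, .ofNat 418, .ofNat 1318⟩, ⟨.ofNat 362, .negSucc 543, .negSucc 11, .ofNat 2060, .negSucc 959, .negSucc 2707⟩, ⟨.negSucc 136, .ofNat 182, .ofNat 71, .ofNat 141, .ofNat 37, .ofNat 57⟩, .ofNat 319, .negSucc 68, .ofNat 0, .negSucc 68, .ofNat 699, .ofNat 0, .ofNat 254, .ofNat 53, .negSucc 450, .ofNat 0, .ofNat 128, .negSucc 38, .ofNat 0, .ofNat 0, .ofNat 635, .ofNat 180, .ofNat 0, .ofNat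 0, .ofNat 0, .ofNat 0, .ofNat 0, .ofNat 0, .ofNat 0, .ofNat 0, .ofNat 0, .ofNat 0, .ofNat 0, .ofNat 0, .ofNat 0, .ofNat 0, .ofNat 2233785547711342540978027744985088, .ofNat 0⟩)
    (by decide +kernel)
theorem L00719 : Good (Phi V5.P V5.D 1 1) ⟨2, 3, 3, 0, 1, 0, 2, 2, 4, 0⟩ :=
  out_sound (S := T5.ds_pp) T5.ok_pp (w := 39) (j := 3) (by decide +kernel)
theorem L00720 : Good (Phi V5.P V5.D 1 1) ⟨1, 1, 3, 0, 1, 0, 2, 2, 4, 1⟩ :=
  leafX_sound T5.ok_pp T5.Ypp.bz_eq (w := 181) (c := ⟨⟨.negSucc 1096, .negSucc 1593, .ofNat 11, .ofNat 324, .negSucc 0, .negSucc 524⟩, ⟨.ofNat 44, .negSucc 863, .negSucc 121, .ofNat 32, .negSucc 4, .negSucc 93⟩, ⟨.ofNat 922, .ofNat 1526, .ofNat 18, .negSucc 522, .ofNat 118, .ofNat 590⟩, ⟨.negSucc 2419, .negSucc 1294, .negSucc 37, .ofNat 625, .negSucc 90, .negSucc 1021⟩, ⟨.ofNat 41, .ofNat 192, .ofNat 34, .negSucc 184, .negSucc 48, .negSucc 121⟩,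 .ofNat 300, .negSucc 92, .ofNat 0, .negSucc 92, .ofNat 560, .ofNat 0, .ofNat 399, .ofNat 64, .negSucc 433, .ofNat 0, .ofNat 128, .negSucc 60, .ofNat 0, .ofNat 0, .ofNat 734, .ofNat 229, .ofNat 0, .ofNat 0, .ofNat 31346404753873875749625353207808, .ofNat 0, .ofNat 0, .ofNat 0, .ofNat 1191398811642715095276761481478144, .ofNat 0, .ofNat 0, .ofNat 0, .ofNat 2870368590791149348421682683969536, .ofNat 0, .ofNat 0, .ofNat 0, .ofNat 2017974209084488509747053142736896, .ofNat 0⟩)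
    (by decide +kernel)
theorem L00721 : Good (Phi V5.P V5.D 1 1) ⟨3, 4, 3, 0, 1, 0, 2, 3, 3, 0⟩ :=
  leafX_sound T5.ok_pp T5.Ypp.bz_eq (w := 185) (c := ⟨⟨.negSucc 676, .negSucc 357, .negSucc 22, .negSucc 201, .ofNat 616, .negSucc 794⟩, ⟨.ofNat 31, .negSucc 131, .negSucc 94, .negSucc 32, .ofNat 69, .negSucc 109⟩, ⟨.ofNat 575, .ofNat 352, .ofNat 25, .ofNat 434, .negSucc 556, .ofNat 671⟩, ⟨.negSucc 1583, .negSucc 385, .negSucc 20, .negSucc 412, .ofNat 1258, .negSucc 1602⟩, ⟨.negSucc 104, .ofNat 151, .negSucc 28, .negSucc 118, .negSucc 49, .ofNat 31⟩, .ofNat 452, .negSucc 182, .ofNat 0, .negSucc 182, .ofNat 1846, .ofNat 0, .ofNat 465, .ofNat 92, .negSucc 661, .ofNat 0, .ofNat 128, .negSucc 59, .ofNat 0, .ofNat 0, .ofNat 1190, .ofNat 416, .ofNat 0, .ofNat 0, .ofNat 0, .ofNat 0, .ofNat 0, .ofNat 451112412356108694057579134853316608, .ofNat 0, .ofNat 0, .ofNat 0, .ofNat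 0, .ofNat 0, .ofNat 0, .ofNat 0, .ofNat 0, .ofNat 0, .ofNat 0⟩)
    (by decide +kernel)
theorem L00722 : Good (Phi V5.P V5.D 1 1) ⟨3, 5, 4, 0, 1, 0, 2, 3, 3, 0⟩ :=
  leafX_sound T5.ok_pp T5.Ypp.bz_eq (w := 187) (c := ⟨⟨.negSucc 1215, .negSucc 424, .ofNat 24, .negSucc 268, .ofNat 584, .negSucc 630⟩, ⟨.negSucc 87, .negSucc 233, .negSucc 52, .negSucc 57, .ofNat 81, .negSucc 134⟩, ⟨.ofNat 1090, .ofNat 400, .negSucc 69, .ofNat 567, .negSucc 455, .ofNat 508⟩, ⟨.negSucc 2341, .negSucc 384, .ofNat 89, .negSucc 544, .ofNat 1051, .negSucc 1145⟩, ⟨.ofNat 85, .ofNat 3, .ofNat 7, .negSucc 37, .negSucc 29, .negSucc 210⟩, .ofNat 418, .negSucc 192, .ofNat 0, .negSucc 192, .ofNat 1278, .ofNat 0, .ofNat 382, .ofNat 90, .negSucc 506, .ofNat 0, .ofNat 128, .negSucc 72, .ofNat 0, .ofNat 0, .ofNat 807, .ofNat 159, .ofNat 0, .ofNat 0, .ofNat 0, .ofNat 0, .ofNat 0, .ofNat 0, .ofNat 0, .ofNat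 0, .ofNat 0, .ofNat 0, .ofNat 22997359817459100089460788822016, .ofNat 0, .ofNat 0, .ofNat 4067544189339069632997038090117709824, .ofNat 51393928479243094379509850308608, .ofNat 0⟩)
    (by decide +kernel)
theorem L00723 : Good (Phi V5.P V5.D 1 1) ⟨3, 5, 4, 1, 1, 0, 2, 3, 3, 0⟩ :=
  leafX_sound T5.ok_pp T5.Ypp.bz_eq (w := 187) (c := ⟨⟨.negSucc 965, .negSucc 836, .ofNat 30, .negSucc 332, .ofNat 318, .negSucc 689⟩, ⟨.negSucc 77, .negSucc 354, .negSucc 57, .negSucc 78, .ofNat 57, .negSucc 176⟩, ⟨.ofNat 875, .ofNat 805, .negSucc 32, .ofNat 545, .negSucc 152, .ofNat 515⟩, ⟨.negSucc 1927, .negSucc 1085, .ofNat 73, .negSucc 599, .ofNat 566, .negSucc 1208⟩, ⟨.negSucc 16, .ofNat 186, .ofNat 44, .negSucc 124, .ofNat 11, .negSucc 164⟩, .ofNat 493, .negSucc 379, .ofNat 0, .negSucc 379, .ofNat 1881, .ofNat 0, .ofNat 200, .ofNat 128, .negSucc 338, .ofNat 0, .ofNat 115, .negSucc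 66, .ofNat 0, .ofNat 0, .ofNat 522, .ofNat 110, .ofNat 0, .ofNat 0, .ofNat 0, .ofNat 0, .ofNat 0, .ofNat 0, .ofNat 0, .ofNat 0, .ofNat 0, .ofNat 0, .ofNat 0, .ofNat 0, .ofNat 0, .ofNat 1639250891019975805729278647192256512, .ofNat 23402041167132254415491380019200, .ofNat 0⟩)
    (by decide +kernel)
theorem L00724 : Good (Phi V5.P V5.D 1 1) ⟨2, 3, 3, 0, 1, 0, 2, 3, 3, 0⟩ :=
  out_sound (S := T5.ds_pp) T5.ok_pp (w := 39) (j := 3) (by decide +kernel)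
theorem L00725 : Good (Phi V5.P V5.D 1 1) ⟨2, 2, 3, 0, 1, 0, 2, 2, 3, 1⟩ :=
  leafX_sound T5.ok_pp T5.Ypp.bz_eq (w := 181) (c := ⟨⟨.negSucc 1654, .negSucc 723, .ofNat 9, .negSucc 233, .ofNat 84, .ofNat 130⟩, ⟨.negSucc 3, .negSucc 459, .negSucc 153, .negSucc 50, .ofNat 0, .ofNat 13⟩, ⟨.ofNat 1607, .ofNat 702, .ofNat 16, .negSucc 0, .negSucc 100, .negSucc 78⟩, ⟨.negSucc 3717, .negSucc 309, .ofNat 25, .negSucc 395, .ofNat 187, .ofNat 253⟩, ⟨.negSucc 16, .ofNat 224, .ofNat 35, .negSucc 330, .ofNat 27, .negSucc 98⟩, .ofNat 439, .negSucc 207, .ofNat 0, .negSucc 207, .ofNat 1541, .ofNat 0, .ofNat 236, .ofNat 95, .negSucc 118, .ofNat 0, .ofNat 128, .negSucc 12, .ofNat 0, .ofNat 0, .ofNat 431, .ofNat 566, .ofNat 0, .ofNat 0, .ofNat 0, .ofNat 0, .ofNat 0, .ofNat 0, .ofNat 0, .ofNat 0, .ofNat 0, .ofNat 0, .ofNat 0, .ofNat 0, .ofNat 0, .ofNat 0, .ofNat 30132260765080494407905150238720,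 .ofNat 0⟩)
    (by decide +kernel)
theorem L00726 : Good (Phi V5.P V5.D 1 1) ⟨3, 4, 3, 0, 1, 0, 2, 3, 3, 1⟩ :=
  leafX_sound T5.ok_pp T5.Ypp.bz_eq (w := 185) (c := ⟨⟨.negSucc 1350, .negSucc 319, .negSucc 6, .negSucc 666, .ofNat 277, .negSucc 0⟩, ⟨.negSucc 12, .negSucc 157, .negSucc 135, .negSucc 87, .ofNat 13, .negSucc 7⟩, ⟨.ofNat 1176, .ofNat 386, .ofNat 29, .ofNat 860, .negSucc 414, .negSucc 56⟩, ⟨.negSucc 3017, .negSucc 208, .negSucc 18, .negSucc 1318, .ofNat 646, .negSucc 2⟩, ⟨.ofNat 98, .negSucc 62, .negSucc 21, .negSucc 488, .ofNat 45, .negSucc 91⟩, .ofNat 452, .negSucc 168, .ofNat 0, .negSucc 168, .ofNat 1844, .ofNat 0, .ofNat 757, .ofNat 81, .negSucc 366, .ofNat 0, .ofNat 128, .negSucc 29, .ofNat 0, .ofNat 0, .ofNat 1134, .ofNat 428, .ofNat 0, .ofNat 0, .ofNat 0, .ofNat 0, .ofNat 0, .ofNat 0, .ofNat 0, .ofNat 0, .ofNat 0, .ofNat 805158331647073420461015869029351424,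 .ofNat 0, .ofNat 0, .ofNat 0, .ofNat 0, .ofNat 0, .ofNat 0⟩)
    (by decide +kernel)
theorem L00727 : Good (Phi V5.P V5.D 1 1) ⟨3, 5, 3, 0, 2, 0, 2, 3, 3, 1⟩ :=
  leafX_sound T5.ok_pp T5.Ypp.bz_eq (w := 199) (c := ⟨⟨.negSucc 1654, .negSucc 425, .ofNat 11, .negSucc 277, .ofNat 173, .negSucc 35⟩, ⟨.negSucc 151, .negSucc 289, .negSucc 140, .negSucc 66, .ofNat 26, .negSucc 13⟩, ⟨.ofNat 1605, .ofNat 419, .negSucc 18, .ofNat 389, .negSucc 404, .negSucc 111⟩, ⟨.negSucc 3215, .negSucc 244, .ofNat 34, .negSucc 485, .ofNat 347, .negSucc 68⟩, ⟨.ofNat 62, .negSucc 5, .negSucc 22, .negSucc 163, .negSucc 106, .negSucc 62⟩, .ofNat 430, .negSucc 232, .ofNat 0, .negSucc 232, .ofNat 1358, .ofNat 0, .ofNat 414, .ofNat 99, .negSucc 284, .ofNat 0, .ofNat 128, .negSucc 49, .ofNat 0, .ofNat 0, .ofNat 789, .ofNat 385, .ofNat 0, .ofNat 0, .ofNat 0, .ofNat 0, .ofNat 0, .ofNat 0, .ofNat 0, .ofNat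 0, .ofNat 0, .ofNat 2360988705059528046630850063209773137920, .ofNat 253358507968917111694900918889742336, .ofNat 0, .ofNat 0, .ofNat 0, .ofNat 0, .ofNat 0⟩)
    (by decide +kernel)
theorem L00728 : Good (Phi V5.P V5.D 1 1) ⟨3, 5, 3, 0, 2, 1, 2, 3, 3, 1⟩ :=
  leafX_sound T5.ok_pp T5.Ypp.bz_eq (w := 199) (c := ⟨⟨.negSucc 1811, .negSucc 577, .negSucc 11, .negSucc 754, .negSucc 616, .ofNat 44⟩, ⟨.negSucc 166, .negSucc 402, .negSucc 161, .negSucc 189, .negSucc 154, .ofNat 13⟩, ⟨.ofNat 1765, .ofNat 518, .ofNat 29, .ofNat 620, .ofNat 596, .negSucc 109⟩, ⟨.negSucc 3515, .negSucc 389, .ofNat 0, .negSucc 1284, .negSucc 1045, .ofNat 72⟩, ⟨.negSucc 307, .ofNat 81, .ofNat 139, .negSucc 162, .ofNat 23, .negSucc 143⟩, .ofNat 427, .negSucc 225, .ofNat 0, .negSucc 225, .ofNat 1349, .ofNat 0, .ofNat 275, .ofNat 111, .negSucc 197, .ofNat 0, .ofNat 128, .negSucc 27, .ofNat 0, .ofNat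 0, .ofNat 483, .ofNat 193, .ofNat 0, .ofNat 0, .ofNat 5755753975355470809653474580496384, .ofNat 0, .ofNat 0, .ofNat 3381389792228348148674984768926908416000, .ofNat 80248738012757275560322264587042816, .ofNat 0, .ofNat 0, .ofNat 2329577856835124871619393682608381493248, .ofNat 425959239114072408170454232080580608, .ofNat 0, .ofNat 0, .ofNat 2377809722207963716200712428850593660928, .ofNat 0, .ofNat 0⟩)
    (by decide +kernel)
theorem L00729 : Good (Phi V5.P V5.D 1 1) ⟨2, 3, 3, 0, 1, 0, 1, 1, 3, 1⟩ :=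
  out_sound (S := T5.ds_pp) T5.ok_pp (w := 39) (j := 3) (by decide +kernel)
theorem L00730 : Good (Phi V5.P V5.D 1 1) ⟨2, 2, 4, 2, 1, 0, 3, 4, 4, 0⟩ :=
  leafX_sound T5.ok_pp T5.Ypp.bz_eq (w := 192) (c := ⟨⟨.ofNat 517, .negSucc 141, .negSucc 49, .ofNat 1157, .negSucc 380, .negSucc 2133⟩, ⟨.ofNat 141, .negSucc 34, .negSucc 27, .ofNat 242, .negSucc 70, .negSucc 475⟩, ⟨.negSucc 527, .ofNat 161, .ofNat 25, .negSucc 951, .ofNat 370, .ofNat 1989⟩, ⟨.ofNat 912, .negSucc 82, .negSucc 88, .ofNat 2233, .negSucc 838, .negSucc 4102⟩, ⟨.negSucc 148, .ofNat 86, .negSucc 148, .negSucc 90, .ofNat 144, .ofNat 275⟩, .ofNat 324, .negSucc 104, .ofNat 0, .negSucc 104, .ofNat 732, .ofNat 0, .ofNat 186, .ofNat 73, .negSucc 398, .ofNat 0, .ofNat 128, .negSucc 57, .ofNat 0, .ofNat 0, .ofNat 551, .ofNat 232, .ofNat 0, .ofNat 0, .ofNat 0, .ofNat 0, .ofNat 0, .ofNat 0, .ofNat 3131651241731002026045243071135744,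 .ofNat 0, .ofNat 0, .ofNat 0, .ofNat 0, .ofNat 0, .ofNat 0, .ofNat 0, .ofNat 0, .ofNat 0⟩)
    (by decide +kernel)
theorem L00731 : Good (Phi V5.P V5.D 1 1) ⟨2, 3, 4, 2, 1, 0, 3, 4, 4, 0⟩ :=
  leafX_sound T5.ok_pp T5.Ypp.bz_eq (w := 193) (c := ⟨⟨.ofNat 401, .negSucc 1461, .ofNat 142, .ofNat 1888, .negSucc 382, .negSucc 2795⟩, ⟨.ofNat 172, .negSucc 475, .ofNat 0, .ofNat 617, .negSucc 123, .negSucc 905⟩, ⟨.negSucc 401, .negSucc 1495, .ofNat 2, .negSucc 1464, .ofNat 399, .ofNat 2556⟩, ⟨.ofNat 651, .negSucc 1753, .ofNat 215, .ofNat 3022, .negSucc 634, .negSucc 4563⟩, ⟨.ofNat 42, .negSucc 1632, .ofNat 26, .ofNat 379, .ofNat 12, .negSucc 164⟩, .ofNat 667, .negSucc 772, .ofNat 0, .negSucc 772, .ofNat 2434, .ofNat 0, .ofNat 203, .ofNat 128, .negSucc 452, .ofNat 0, .ofNat 101, .negSucc 135, .ofNat 0, .ofNat 0, .ofNat 655, .ofNat 252, .ofNat 0, .ofNat 0, .ofNat 2017706788103127326929018240892928,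 .ofNat 0, .ofNat 0, .ofNat 0, .ofNat 122334386648251976431837966535491584, .ofNat 0, .ofNat 0, .ofNat 0, .ofNat 228855824993860464445783368936718336, .ofNat 0, .ofNat 0, .ofNat 0, .ofNat 82295234515981931407537890859679744, .ofNat 0⟩)
    (by decide +kernel)
theorem L00732 : Good (Phi V5.P V5.D 1 1) ⟨1, 1, 4, 2, 1, 0, 3, 4, 4, 1⟩ :=
  leafX_sound T5.ok_pp T5.Ypp.bz_eq (w := 188) (c := ⟨⟨.negSucc 1164, .negSucc 1555, .negSucc 29, .ofNat 457, .negSucc 52, .negSucc 577⟩, ⟨.negSucc 86, .negSucc 875, .negSucc 74, .ofNat 86, .negSucc 10, .negSucc 126⟩, ⟨.ofNat 1195, .ofNat 1354, .ofNat 26, .negSucc 814, .ofNat 117, .ofNat 606⟩, ⟨.negSucc 2637, .negSucc 1217, .negSucc 40, .ofNat 933, .negSucc 122, .negSucc 1148⟩, ⟨.negSucc 31, .ofNat 227, .ofNat 0, .negSucc 181, .negSucc 1, .negSucc 41⟩, .ofNat 309, .negSucc 121, .ofNat 0, .negSucc 121, .ofNat 606, .ofNat 0, .ofNat 317, .ofNat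 81, .negSucc 368, .ofNat 0, .ofNat 128, .negSucc 67, .ofNat 0, .ofNat 0, .ofNat 635, .ofNat 268, .ofNat 0, .ofNat 0, .ofNat 1126747006296164598016124200681472, .ofNat 0, .ofNat 0, .ofNat 0, .ofNat 28666692179157997332154415532998656, .ofNat 0, .ofNat 0, .ofNat 0, .ofNat 105454014577025665964970486030925824, .ofNat 0, .ofNat 0, .ofNat 0, .ofNat 66716915675519603751756641230389248, .ofNat 0⟩)
    (by decide +kernel)
theorem L00733 : Good (Phi V5.P V5.D 1 1) ⟨2, 2, 4, 2, 1, 0, 3, 4, 3, 1⟩ :=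
  leafX_sound T5.ok_pp T5.Ypp.bz_eq (w := 188) (c := ⟨⟨.negSucc 1617, .negSucc 700, .negSucc 32, .negSucc 216, .ofNat 69, .ofNat 72⟩, ⟨.negSucc 146, .negSucc 489, .negSucc 80, .negSucc 67, .ofNat 19, .ofNat 15⟩, ⟨.ofNat 1618, .ofNat 620, .ofNat 39, .negSucc 118, .negSucc 70, .ofNat 5⟩, ⟨.negSucc 3637, .negSucc 261, .negSucc 66, .negSucc 319, .ofNat 122, .ofNat 135⟩, ⟨.negSucc 112, .ofNat 294, .ofNat 38, .negSucc 211, .ofNat 14, .negSucc 80⟩, .ofNat 473, .negSucc 329, .ofNat 0, .negSucc 329, .ofNat 1846, .ofNat 0, .ofNat 269, .ofNat 128, .negSucc 140, .ofNat 0, .ofNat 117, .negSucc 23, .ofNat 0, .ofNat 0, .ofNat 547, .ofNat 797, .ofNat 0, .ofNat 0, .ofNat 0, .ofNat 0, .ofNat 0, .ofNat 0, .ofNat 0, .ofNat 0, .ofNat 0, .ofNat 0, .ofNat 0, .ofNat 0, .ofNat 0, .ofNat 0, .ofNat 0, .ofNat 0⟩)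
    (by decide +kernel)
theorem L00734 : Good (Phi V5.P V5.D 1 1) ⟨2, 3, 4, 2, 1, 0, 3, 4, 3, 1⟩ :=
  leafX_sound T5.ok_pp T5.Ypp.bz_eq (w := 189) (c := ⟨⟨.negSucc 2317, .negSucc 134, .negSucc 81, .negSucc 276, .negSucc 27, .ofNat 125⟩, ⟨.negSucc 643, .negSucc 538, .negSucc 108, .negSucc 118, .negSucc 14, .ofNat 28⟩, ⟨.ofNat 2266, .negSucc 443, .ofNat 127, .negSucc 253, .ofNat 87, .negSucc 16⟩, ⟨.negSucc 3907, .ofNat 795, .negSucc 115, .negSucc 364, .negSucc 26, .ofNat 243⟩, ⟨.ofNat 149, .ofNat 304, .negSucc 32, .negSucc 291, .negSucc 60, .negSucc 121⟩, .ofNat 634, .negSucc 697, .ofNat 0, .negSucc 697, .ofNat 2224, .ofNat 0, .ofNat 191, .ofNat 128, .negSucc 157, .ofNat 0, .ofNat 104, .negSucc 43, .ofNat 0, .ofNat 0, .ofNat 521, .ofNat 1255, .ofNat 0, .ofNat 0, .ofNat 23097995502729744362419987152896, .ofNat 0, .ofNat 0, .ofNat 0, .ofNat 7059401247197048958732477384359936,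 .ofNat 0, .ofNat 0, .ofNat 0, .ofNat 13109157134321407802147921719197696, .ofNat 0, .ofNat 0, .ofNat 0, .ofNat 2801230376451515014633657515114496, .ofNat 0⟩)
    (by decide +kernel)
theorem L00735 : Good (Phi V5.P V5.D 1 1) ⟨2, 2, 4, 2, 1, 0, 3, 5, 4, 0⟩ :=
  leafX_sound T5.ok_pp T5.Ypp.bz_eq (w := 192) (c := ⟨⟨.negSucc 109, .negSucc 563, .negSucc 87, .ofNat 1069, .negSucc 317, .negSucc 1338⟩, ⟨.ofNat 53, .negSucc 258, .negSucc 40, .ofNat 223, .negSucc 69, .negSucc 280⟩, ⟨.ofNat 82, .ofNat 539, .ofNat 75, .negSucc 900, .ofNat 377, .ofNat 1245⟩, ⟨.negSucc 445, .negSucc 580, .negSucc 205, .ofNat 2045, .negSucc 596, .negSucc 2568⟩, ⟨.negSucc 353, .ofNat 421, .negSucc 14, .negSucc 33, .ofNat 177, .ofNat 323⟩, .ofNat 470, .negSucc 331, .ofNat 0, .negSucc 331, .ofNat 1802, .ofNat 0, .ofNat 134, .ofNat 128, .negSucc 276, .ofNat 0, .ofNat 112, .negSucc 51, .ofNat 0, .ofNat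 0, .ofNat 442, .ofNat 156, .ofNat 0, .ofNat 0, .ofNat 0, .ofNat 0, .ofNat 0, .ofNat 0, .ofNat 0, .ofNat 0, .ofNat 0, .ofNat 0, .ofNat 0, .ofNat 0, .ofNat 0, .ofNat 0, .ofNat 0, .ofNat 0⟩)
    (by decide +kernel)
theorem L00736 : Good (Phi V5.P V5.D 1 1) ⟨2, 2, 4, 2, 1, 0, 3, 5, 4, 1⟩ :=
  leafX_sound T5.ok_pp T5.Ypp.bz_eq (w := 193) (c := ⟨⟨.negSucc 1139, .negSucc 881, .negSucc 28, .ofNat 150, .ofNat 56, .negSucc 397⟩, ⟨.negSucc 79, .negSucc 464, .negSucc 76, .ofNat 19, .ofNat 14, .negSucc 76⟩, ⟨.ofNat 1108, .ofNat 834, .ofNat 20, .negSucc 319, .negSucc 22, .ofNat 376⟩, ⟨.negSucc 2599, .negSucc 776, .negSucc 55, .ofNat 364, .ofNat 86, .negSucc 805⟩, ⟨.negSucc 45, .ofNat 173, .ofNat 15, .negSucc 203, .ofNat 11, .negSucc 72⟩, .ofNat 326, .negSucc 102, .ofNat 0, .negSucc 102, .ofNat 751, .ofNat 0, .ofNat 318, .ofNat 73, .negSucc 384, .ofNat 0, .ofNat 128, .negSucc 45,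 .ofNat 0, .ofNat 0, .ofNat 709, .ofNat 733, .ofNat 0, .ofNat 0, .ofNat 0, .ofNat 0, .ofNat 0, .ofNat 0, .ofNat 0, .ofNat 0, .ofNat 0, .ofNat 0, .ofNat 0, .ofNat 0, .ofNat 0, .ofNat 0, .ofNat 0, .ofNat 0⟩)
    (by decide +kernel)
theorem L00737 : Good (Phi V5.P V5.D 1 1) ⟨2, 2, 4, 2, 1, 0, 3, 5, 3, 1⟩ :=
  leafX_sound T5.ok_pp T5.Ypp.bz_eq (w := 188) (c := ⟨⟨.negSucc 1451, .negSucc 810, .negSucc 31, .negSucc 491, .ofNat 30, .ofNat 112⟩, ⟨.negSucc 97, .negSucc 521, .negSucc 80, .negSucc 140, .ofNat 1, .ofNat 25⟩, ⟨.ofNat 1401, .ofNat 767, .ofNat 35, .ofNat 345, .negSucc 46, .negSucc 79⟩, ⟨.negSucc 3345, .negSucc 446, .negSucc 53, .negSucc 816, .ofNat 69, .ofNat 196⟩, ⟨.negSucc 199, .ofNat 316, .negSucc 44, .negSucc 49, .ofNat 38, .negSucc 20⟩, .ofNat 474, .negSucc 335, .ofNat 0, .negSucc 335, .ofNat 1867, .ofNat 0, .ofNat 171, .ofNat 128, .negSucc 135, .ofNat 0, .ofNat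 114, .negSucc 22, .ofNat 0, .ofNat 0, .ofNat 487, .ofNat 590, .ofNat 0, .ofNat 0, .ofNat 0, .ofNat 0, .ofNat 0, .ofNat 0, .ofNat 0, .ofNat 0, .ofNat 0, .ofNat 0, .ofNat 0, .ofNat 0, .ofNat 0, .ofNat 0, .ofNat 0, .ofNat 0⟩)
    (by decide +kernel)
theorem L00738 : Good (Phi V5.P V5.D 1 1) ⟨3, 6, 4, 2, 1, 0, 3, 5, 3, 0⟩ :=
  leafX_sound T5.ok_pp T5.Ypp.bz_eq (w := 192) (c := ⟨⟨.negSucc 662, .negSucc 611, .negSucc 172, .ofNat 616, .negSucc 160, .negSucc 1895⟩, ⟨.negSucc 121, .negSucc 401, .negSucc 111, .ofNat 187, .negSucc 63, .negSucc 634⟩, ⟨.ofNat 666, .ofNat 525, .ofNat 121, .negSucc 689, .ofNat 218, .ofNat 1848⟩, ⟨.negSucc 1191, .negSucc 470, .negSucc 288, .ofNat 1069, .negSucc 248, .negSucc 3068⟩, ⟨.ofNat 257, .ofNat 51, .ofNat 67, .ofNat 8, .negSucc 129, .negSucc 390⟩, .ofNat 549, .negSucc 455, .ofNat 0, .negSucc 455, .ofNat 1302, .ofNat 0, .ofNat 232, .ofNat 118,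 .negSucc 294, .ofNat 0, .ofNat 128, .negSucc 94, .ofNat 0, .ofNat 0, .ofNat 452, .ofNat 271, .ofNat 0, .ofNat 0, .ofNat 0, .ofNat 0, .ofNat 0, .ofNat 0, .ofNat 0, .ofNat 0, .ofNat 0, .ofNat 0, .ofNat 840878210850946257070966079225856, .ofNat 0, .ofNat 0, .ofNat 0, .ofNat 361562182995054871543355300380672, .ofNat 0⟩)
    (by decide +kernel)
theorem L00739 : Good (Phi V5.P V5.D 1 1) ⟨3, 6, 4, 2, 1, 0, 3, 5, 3, 1⟩ :=
  leafX_sound T5.ok_pp T5.Ypp.bz_eq (w := 193) (c := ⟨⟨.negSucc 2230, .negSucc 443, .negSucc 81, .negSucc 659, .ofNat 0, .ofNat 230⟩, ⟨.negSucc 615, .negSucc 394, .negSucc 109, .negSucc 252, .negSucc 7, .ofNat 65⟩, ⟨.ofNat 2128, .ofNat 94, .ofNat 153, .ofNat 319, .ofNat 43, .negSucc 176⟩, ⟨.negSucc 3760, .negSucc 108, .negSucc 125, .negSucc 959, .ofNat 24, .ofNat 404⟩, ⟨.ofNat 128, .negSucc 55, .negSucc 11, .negSucc 388, .negSucc 74, .negSucc 80⟩, .ofNat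 668, .negSucc 773, .ofNat 0, .negSucc 773, .ofNat 2427, .ofNat 0, .ofNat 148, .ofNat 128, .negSucc 134, .ofNat 0, .ofNat 105, .negSucc 38, .ofNat 0, .ofNat 0, .ofNat 419, .ofNat 717, .ofNat 0, .ofNat 0, .ofNat 0, .ofNat 0, .ofNat 0, .ofNat 0, .ofNat 834853830838880447639995692351488, .ofNat 0, .ofNat 0, .ofNat 0, .ofNat 1910849342853331021849751835377664, .ofNat 0, .ofNat 0, .ofNat 0, .ofNat 240398874457083526780358599114752, .ofNat 0⟩)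
    (by decide +kernel)
theorem L00740 : Good (Phi V5.P V5.D 1 1) ⟨3, 7, 4, 2, 1, 0, 3, 5, 2, 0⟩ :=
  out_sound (S := T5.ds_pp) T5.ok_pp (w := 47) (j := 3) (by decide +kernel)
theorem L00741 : Good (Phi V5.P V5.D 1 1) ⟨2, 2, 4, 2, 1, 0, 3, 6, 4, 0⟩ :=
  leafX_sound T5.ok_pp T5.Ypp.bz_eq (w := 192) (c := ⟨⟨.negSucc 570, .negSucc 784, .negSucc 48, .ofNat 656, .negSucc 89, .negSucc 871⟩, ⟨.negSucc 37, .negSucc 357, .negSucc 52, .ofNat 171, .negSucc 8, .negSucc 189⟩, ⟨.ofNat 516, .ofNat 729, .ofNat 37, .negSucc 429, .ofNat 152, .ofNat 848⟩, ⟨.negSucc 1267, .negSucc 856, .negSucc 141, .ofNat 1153, .negSucc 241, .negSucc 1701⟩, ⟨.negSucc 59, .ofNat 284, .ofNat 23, .ofNat 102, .negSucc 113, .negSucc 118⟩, .ofNat 328, .negSucc 101, .ofNat 0, .negSucc 101, .ofNat 759, .ofNat 0, .ofNat 205, .ofNat 72, .negSucc 394, .ofNat 0, .ofNat 128, .negSucc 54, .ofNat 0, .ofNat 0, .ofNat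 549, .ofNat 256, .ofNat 0, .ofNat 0, .ofNat 0, .ofNat 0, .ofNat 0, .ofNat 0, .ofNat 10296512561868025381893107383009280, .ofNat 0, .ofNat 0, .ofNat 0, .ofNat 0, .ofNat 0, .ofNat 0, .ofNat 0, .ofNat 0, .ofNat 0⟩)
    (by decide +kernel)
theorem L00742 : Good (Phi V5.P V5.D 1 1) ⟨2, 2, 4, 2, 1, 0, 3, 7, 4, 0⟩ :=
  leafX_sound T5.ok_pp T5.Ypp.bz_eq (w := 192) (c := ⟨⟨.negSucc 724, .negSucc 934, .negSucc 24, .negSucc 98, .ofNat 543, .negSucc 349⟩, ⟨.negSucc 61, .negSucc 359, .negSucc 37, .negSucc 1, .ofNat 91, .negSucc 82⟩, ⟨.ofNat 577, .ofNat 998, .ofNat 61, .ofNat 547, .negSucc 468, .ofNat 261⟩, ⟨.negSucc 1614, .negSucc 1260, .negSucc 91, .negSucc 303, .ofNat 1068, .negSucc 635⟩, ⟨.negSucc 255, .ofNat 532, .negSucc 181, .ofNat 378, .ofNat 183, .ofNat 68⟩, .ofNat 473, .negSucc 336, .ofNat 0, .negSucc 336, .ofNat 1867, .ofNat 0, .ofNat 162, .ofNat 128, .negSucc 338, .ofNat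 0, .ofNat 110, .negSucc 62, .ofNat 0, .ofNat 0, .ofNat 493, .ofNat 95, .ofNat 0, .ofNat 0, .ofNat 0, .ofNat 0, .ofNat 0, .ofNat 0, .ofNat 0, .ofNat 0, .ofNat 0, .ofNat 0, .ofNat 0, .ofNat 0, .ofNat 0, .ofNat 4538014477257056896674143353985564672, .ofNat 0, .ofNat 0⟩)
    (by decide +kernel)
theorem L00743 : Good (Phi V5.P V5.D 1 1) ⟨2, 3, 4, 2, 1, 0, 2, 3, 4, 0⟩ :=
  leafX_sound T5.ok_pp T5.Ypp.bz_eq (w := 189) (c := ⟨⟨.negSucc 1445, .negSucc 2759, .ofNat 115, .ofNat 666, .negSucc 66, .negSucc 1046⟩, ⟨.negSucc 388, .negSucc 1004, .negSucc 40, .ofNat 252, .negSucc 30, .negSucc 350⟩, ⟨.ofNat 1315, .ofNat 1536, .negSucc 76, .negSucc 393, .ofNat 249, .ofNat 1011⟩, ⟨.negSucc 2435, .negSucc 3657, .ofNat 208, .ofNat 997, .negSucc 89, .negSucc 1683⟩, ⟨.ofNat 79, .ofNat 647, .negSucc 65, .ofNat 266, .negSucc 72, .negSucc 119⟩, .ofNat 633, .negSucc 694, .ofNat 0, .negSucc 694,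 .ofNat 2220, .ofNat 0, .ofNat 176, .ofNat 128, .negSucc 491, .ofNat 0, .ofNat 103, .negSucc 149, .ofNat 0, .ofNat 0, .ofNat 661, .ofNat 116, .ofNat 0, .ofNat 0, .ofNat 37901476895767245254765985136640, .ofNat 0, .ofNat 0, .ofNat 473419950133194932450980798341840896, .ofNat 3537369795100125735364099758358528, .ofNat 0, .ofNat 0, .ofNat 0, .ofNat 5110291842487740977704005353340928, .ofNat 0, .ofNat 0, .ofNat 0, .ofNat 1984127659177625428915332178771968, .ofNat 0⟩)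
    (by decide +kernel)
theorem L00744 : Good (Phi V5.P V5.D 1 1) ⟨3, 4, 4, 2, 1, 0, 2, 3, 4, 1⟩ :=
  leafX_sound T5.ok_pp T5.Ypp.bz_eq (w := 193) (c := ⟨⟨.negSucc 1224, .negSucc 376, .ofNat 18, .negSucc 314, .ofNat 766, .negSucc 236⟩, ⟨.negSucc 131, .negSucc 152, .negSucc 52, .negSucc 65, .ofNat 132, .negSucc 49⟩, ⟨.ofNat 1079, .ofNat 392, .negSucc 40, .ofNat 587, .negSucc 772, .ofNat 179⟩, ⟨.negSucc 2734, .negSucc 422, .ofNat 72, .negSucc 637, .ofNat 1613, .negSucc 455⟩, ⟨.negSucc 80, .ofNat 15, .ofNat 34, .negSucc 178, .negSucc 113, .ofNat 70⟩, .ofNat 483, .negSucc 320, .ofNat 0, .negSucc 320, .ofNat 2230, .ofNat 0, .ofNat 356, .ofNat 128, .negSucc 454, .ofNat 0, .ofNat 108, .negSucc 63, .ofNat 0, .ofNat 0, .ofNat 903, .ofNat 385, .ofNat 0, .ofNat 0, .ofNat 0, .ofNat 0, .ofNat 0, .ofNat 72770756652245806808121132207310897152, .ofNat 0, .ofNat 0, .ofNat 0, .ofNat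 34347093764017170408601553755424423936, .ofNat 0, .ofNat 0, .ofNat 0, .ofNat 0, .ofNat 0, .ofNat 0⟩)
    (by decide +kernel)
theorem L00745 : Good (Phi V5.P V5.D 1 1) ⟨3, 5, 4, 2, 1, 0, 2, 3, 4, 1⟩ :=
  leafX_sound T5.ok_pp T5.Ypp.bz_eq (w := 192) (c := ⟨⟨.negSucc 1499, .negSucc 555, .negSucc 38, .negSucc 519, .ofNat 598, .negSucc 276⟩, ⟨.negSucc 242, .negSucc 317, .negSucc 83, .negSucc 143, .ofNat 135, .negSucc 86⟩, ⟨.ofNat 1298, .ofNat 520, .ofNat 114, .ofNat 740, .negSucc 550, .ofNat 286⟩, ⟨.negSucc 2845, .negSucc 554, .negSucc 98, .negSucc 999, .ofNat 1118, .negSucc 534⟩, ⟨.negSucc 160, .ofNat 203, .ofNat 99, .negSucc 101, .negSucc 126, .ofNat 60⟩, .ofNat 462, .negSucc 340, .ofNat 0, .negSucc 340, .ofNat 1610, .ofNat 0, .ofNat 224, .ofNat 128, .negSucc 317, .ofNat 0, .ofNat 112, .negSucc 66, .ofNat 0, .ofNat 0, .ofNat 551, .ofNat 112, .ofNat 0, .ofNat 0, .ofNat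 0, .ofNat 0, .ofNat 0, .ofNat 0, .ofNat 0, .ofNat 0, .ofNat 0, .ofNat 16122140130020371330879069764993417216, .ofNat 0, .ofNat 0, .ofNat 0, .ofNat 0, .ofNat 0, .ofNat 0⟩)
    (by decide +kernel)
theorem L00746 : Good (Phi V5.P V5.D 1 1) ⟨2, 3, 4, 2, 1, 0, 2, 3, 4, 1⟩ :=
  leafX_sound T5.ok_pp T5.Ypp.bz_eq (w := 189) (c := ⟨⟨.negSucc 1937, .ofNat 259, .negSucc 145, .negSucc 944, .ofNat 218, .negSucc 153⟩, ⟨.negSucc 526, .negSucc 406, .negSucc 123, .negSucc 311, .ofNat 42, .negSucc 61⟩, ⟨.ofNat 1764, .negSucc 641, .ofNat 150, .ofNat 991, .negSucc 123, .ofNat 162⟩, ⟨.negSucc 3239, .ofNat 1325, .negSucc 226, .negSucc 1558, .ofNat 405, .negSucc 231⟩, ⟨.ofNat 127, .ofNat 397, .negSucc 35, .negSucc 242, .negSucc 57, .negSucc 153⟩, .ofNat 512, .negSucc 351, .ofNat 0, .negSucc 351, .ofNat 854, .ofNat 0, .ofNat 283, .ofNat 96, .negSucc 427, .ofNat 0, .ofNat 128, .negSucc 154,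 .ofNat 0, .ofNat 0, .ofNat 628, .ofNat 132, .ofNat 0, .ofNat 0, .ofNat 211567755932814084421159214907392, .ofNat 0, .ofNat 0, .ofNat 2216057541542642987405297131209097216, .ofNat 2166385333196593443980243982352384, .ofNat 0, .ofNat 0, .ofNat 260367280098629401234638923861327872, .ofNat 2601178400951290801042346955767808, .ofNat 0, .ofNat 0, .ofNat 0, .ofNat 8444055950325003956098139020066816, .ofNat 0⟩)
    (by decide +kernel)
theorem L00747 : Good (Phi V5.P V5.D 1 1) ⟨2, 2, 4, 2, 2, 0, 2, 3, 3, 1⟩ :=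
  leafX_sound T5.ok_pp T5.Ypp.bz_eq (w := 197) (c := ⟨⟨.negSucc 1211, .negSucc 774, .negSucc 101, .negSucc 254, .ofNat 255, .negSucc 118⟩, ⟨.negSucc 85, .negSucc 450, .negSucc 97, .negSucc 56, .ofNat 45, .negSucc 33⟩, ⟨.ofNat 1160, .ofNat 732, .ofNat 109, .ofNat 364, .negSucc 502, .negSucc 14⟩, ⟨.negSucc 2772, .negSucc 522, .negSucc 186, .negSucc 477, .ofNat 541, .negSucc 247⟩, ⟨.negSucc 98, .ofNat 291, .negSucc 45, .negSucc 173, .ofNat 129, .ofNat 28⟩, .ofNat 471, .negSucc 330, .ofNat 0, .negSucc 330, .ofNat 1819, .ofNat 0, .ofNat 260, .ofNat 128, .negSucc 178, .ofNat 0, .ofNat 120, .negSucc 33, .ofNat 0, .ofNat 0, .ofNat 524, .ofNat 303, .ofNat 0, .ofNat 0, .ofNat 0, .ofNat 0, .ofNat 0, .ofNat 0, .ofNat 0, .ofNat 0, .ofNat 0, .ofNat 996469436622159157164124605958626213888, .ofNat 0, .ofNat 0, .ofNat 0, .ofNat 0, .ofNat 0, .ofNat 0⟩)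
    (by decide +kernel)
theorem L00748 : Good (Phi V5.P V5.D 1 1) ⟨3, 4, 4, 2, 2, 1, 2, 3, 3, 1⟩ :=
  leafX_sound T5.ok_pp T5.Ypp.bz_eq (w := 202) (c := ⟨⟨.negSucc 1486, .negSucc 410, .ofNat 5, .negSucc 452, .negSucc 280, .negSucc 42⟩, ⟨.negSucc 156, .negSucc 209, .negSucc 76, .negSucc 78, .negSucc 49, .negSucc 9⟩, ⟨.ofNat 1445, .ofNat 420, .negSucc 26, .ofNat 463, .ofNat 217, .negSucc 37⟩, ⟨.negSucc 3298, .negSucc 272, .ofNat 30, .negSucc 884, .negSucc 540, .negSucc 116⟩, ⟨.negSucc 196, .ofNat 15, .ofNat 26, .negSucc 195, .negSucc 128, .negSucc 97⟩, .ofNat 485, .negSucc 328, .ofNat 0, .negSucc 328, .ofNat 2308, .ofNat 0, .ofNat 262, .ofNat 128, .negSucc 178, .ofNat 0, .ofNat 102, .negSucc 23, .ofNat 0, .ofNat 0, .ofNat 507, .ofNat 428, .ofNat 0, .ofNat 0, .ofNat 0, .ofNat 0, .ofNat 0, .ofNat 31529409899661434222690245793526778429440, .ofNat 0, .ofNat 0, .ofNat 0,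 .ofNat 27942214010441664407683368738763810275328, .ofNat 0, .ofNat 0, .ofNat 0, .ofNat 19770625112934780878349934350345242148864, .ofNat 0, .ofNat 0⟩)
    (by decide +kernel)
theorem L00749 : Good (Phi V5.P V5.D 1 1) ⟨3, 5, 4, 2, 2, 1, 2, 3, 3, 1⟩ :=
  leafX_sound T5.ok_pp T5.Ypp.bz_eq (w := 201) (c := ⟨⟨.negSucc 1770, .negSucc 637, .negSucc 5, .negSucc 699, .negSucc 655, .ofNat 41⟩, ⟨.negSucc 263, .negSucc 430, .negSucc 96, .negSucc 219, .negSucc 196, .negSucc 0⟩, ⟨.ofNat 1781, .ofNat 541, .ofNat 8, .ofNat 585, .ofNat 562, .negSucc 143⟩, ⟨.negSucc 3505, .negSucc 453, .ofNat 1, .negSucc 1130, .negSucc 1081, .ofNat 109⟩, ⟨.negSucc 35, .ofNat 62, .negSucc 56, .negSucc 346, .negSucc 146, .negSucc 222⟩, .ofNat 460, .negSucc 337, .ofNat 0, .negSucc 337, .ofNat 1546, .ofNat 0, .ofNat 208, .ofNat 128, .negSucc 147, .ofNat 0, .ofNat 111, .negSucc 29, .ofNat 0, .ofNat 0, .ofNat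 396, .ofNat 161, .ofNat 0, .ofNat 0, .ofNat 0, .ofNat 0, .ofNat 0, .ofNat 16746061472652200606130110025600340066304, .ofNat 65854096795738077536440476328001536, .ofNat 0, .ofNat 0, .ofNat 14622092499096333006738907167942913294336, .ofNat 0, .ofNat 0, .ofNat 0, .ofNat 12601926855528574323242805771592978661376, .ofNat 0, .ofNat 0⟩)
    (by decide +kernel)
theorem L00750 : Good (Phi V5.P V5.D 1 1) ⟨4, 12, 4, 2, 2, 0, 2, 3, 3, 1⟩ :=
  leafX_sound T5.ok_pp T5.Ypp.bz_eq (w := 206) (c := ⟨⟨.negSucc 2176, .negSucc 19, .negSucc 71, .negSucc 371, .ofNat 172, .ofNat 152⟩, ⟨.negSucc 612, .negSucc 122, .negSucc 98, .negSucc 141, .ofNat 45, .ofNat 46⟩, ⟨.ofNat 2097, .ofNat 39, .ofNat 82, .ofNat 459, .negSucc 391, .negSucc 307⟩, ⟨.negSucc 3640, .ofNat 201, .negSucc 98, .negSucc 540, .ofNat 313, .ofNat 248⟩, ⟨.ofNat 68, .ofNat 42, .negSucc 30, .negSucc 252, .negSucc 86, .negSucc 5⟩,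 .ofNat 597, .negSucc 578, .ofNat 0, .negSucc 578, .ofNat 1774, .ofNat 0, .ofNat 240, .ofNat 128, .negSucc 254, .ofNat 0, .ofNat 128, .negSucc 79, .ofNat 0, .ofNat 0, .ofNat 636, .ofNat 434, .ofNat 0, .ofNat 0, .ofNat 0, .ofNat 0, .ofNat 0, .ofNat 484240009258637606462645460279501466370048, .ofNat 117556055820144449641346264803049472, .ofNat 0, .ofNat 0, .ofNat 338347111756946928400201639063103756828672, .ofNat 241260412529562908832126916148330496, .ofNat 0, .ofNat 0, .ofNat 0, .ofNat 0, .ofNat 0⟩)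
    (by decide +kernel)
theorem L00751 : Good (Phi V5.P V5.D 1 1) ⟨4, 12, 4, 2, 2, 1, 2, 3, 3, 1⟩ :=
  leafX_sound T5.ok_pp T5.Ypp.bz_eq (w := 206) (c := ⟨⟨.negSucc 2281, .negSucc 187, .negSucc 11, .negSucc 916, .negSucc 893, .ofNat 49⟩, ⟨.negSucc 623, .negSucc 243, .negSucc 98, .negSucc 336, .negSucc 324, .negSucc 6⟩, ⟨.ofNat 2270, .ofNat 176, .ofNat 10, .ofNat 709, .ofNat 768, .negSucc 203⟩, ⟨.negSucc 3821, .negSucc 25, .ofNat 6, .negSucc 1388, .negSucc 1379, .ofNat 160⟩, ⟨.ofNat 54, .ofNat 227, .negSucc 36, .negSucc 406, .negSucc 348, .negSucc 268⟩, .ofNat 518, .negSucc 450, .ofNat 0, .negSucc 450, .ofNat 1550, .ofNat 0, .ofNat 222, .ofNat 128, .negSucc 189, .ofNat 0, .ofNat 109, .negSucc 51, .ofNat 0, .ofNat 0, .ofNat 446, .ofNat 186, .ofNat 0, .ofNat 3159618276868031392958308074690906685440, .ofNat 7400451075108017943889376538787840, .ofNat 0, .ofNat 0, .ofNat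 350328510635944448758235730338822645350400, .ofNat 73388535906565238288461404185821184, .ofNat 0, .ofNat 0, .ofNat 231751774129978113178472708229412430020608, .ofNat 150436486221166967836624440266850304, .ofNat 0, .ofNat 0, .ofNat 286213487539344392261069419786490922139648, .ofNat 52458588438302817485438392261935104, .ofNat 0⟩)
    (by decide +kernel)
theorem L00752 : Good (Phi V5.P V5.D 1 1) ⟨4, 13, 4, 2, 1, 0, 2, 3, 3, 1⟩ :=
  out_sound (S := T5.ds_pp) T5.ok_pp (w := 53) (j := 3) (by decide +kernel)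
theorem L00753 : Good (Phi V5.P V5.D 1 1) ⟨3, 7, 4, 2, 1, 0, 2, 3, 3, 1⟩ :=
  out_sound (S := T5.ds_pp) T5.ok_pp (w := 47) (j := 3) (by decide +kernel)
theorem L00754 : Good (Phi V5.P V5.D 1 1) ⟨2, 2, 4, 3, 1, 0, 2, 2, 4, 0⟩ :=
  leafX_sound T5.ok_pp T5.Ypp.bz_eq (w := 188) (c := ⟨⟨.ofNat 514, .negSucc 539, .ofNat 178, .ofNat 1211, .negSucc 666, .negSucc 1673⟩, ⟨.ofNat 198, .negSucc 247, .ofNat 79, .ofNat 308, .negSucc 193, .negSucc 417⟩, ⟨.negSucc 590, .ofNat 476, .negSucc 158, .negSucc 877, .ofNat 710, .ofNat 1634⟩, ⟨.ofNat 715, .negSucc 518, .ofNat 140, .ofNat 2305, .negSucc 1281, .negSucc 3177⟩, ⟨.negSucc 255, .negSucc 6, .ofNat 267, .negSucc 152, .ofNat 155, .ofNat 434⟩, .ofNat 500, .negSucc 443, .ofNat 0, .negSucc 443, .ofNat 1962, .ofNat 0, .ofNat 128, .ofNat 166, .negSucc 291, .ofNat 0, .ofNat 118, .negSucc 67, .ofNat 0, .ofNat 0, .ofNat 448, .ofNat 146, .ofNat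 0, .ofNat 0, .ofNat 0, .ofNat 0, .ofNat 0, .ofNat 0, .ofNat 0, .ofNat 0, .ofNat 0, .ofNat 0, .ofNat 0, .ofNat 0, .ofNat 0, .ofNat 0, .ofNat 0, .ofNat 0⟩)
    (by decide +kernel)
theorem L00755 : Good (Phi V5.P V5.D 1 1) ⟨2, 2, 4, 3, 1, 0, 2, 2, 4, 1⟩ :=
  leafX_sound T5.ok_pp T5.Ypp.bz_eq (w := 188) (c := ⟨⟨.negSucc 968, .negSucc 1020, .ofNat 11, .ofNat 173, .ofNat 20, .negSucc 489⟩, ⟨.negSucc 70, .negSucc 525, .negSucc 80, .ofNat 20, .ofNat 5, .negSucc 128⟩, ⟨.ofNat 900, .ofNat 959, .ofNat 11, .negSucc 441, .ofNat 52, .ofNat 505⟩, ⟨.negSucc 2272, .negSucc 1086, .ofNat 71, .ofNat 387, .ofNat 4, .negSucc 941⟩, ⟨.negSucc 448, .ofNat 875, .negSucc 256, .negSucc 158, .ofNat 43, .ofNat 42⟩, .ofNat 497, .negSucc 437, .ofNat 0, .negSucc 437, .ofNat 1947, .ofNat 0, .ofNat 128, .ofNat 131, .negSucc 141, .ofNat 0, .ofNat 94, .negSucc 31, .ofNat 0, .ofNat 0, .ofNat 302, .ofNat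 330, .ofNat 0, .ofNat 0, .ofNat 0, .ofNat 0, .ofNat 0, .ofNat 0, .ofNat 0, .ofNat 0, .ofNat 0, .ofNat 0, .ofNat 0, .ofNat 0, .ofNat 0, .ofNat 0, .ofNat 0, .ofNat 0⟩)
    (by decide +kernel)
theorem L00756 : Good (Phi V5.P V5.D 1 1) ⟨3, 4, 4, 3, 1, 0, 2, 3, 3, 0⟩ :=
  leafX_sound T5.ok_pp T5.Ypp.bz_eq (w := 187) (c := ⟨⟨.negSucc 631, .negSucc 310, .negSucc 507, .negSucc 192, .ofNat 289, .negSucc 854⟩, ⟨.negSucc 85, .negSucc 130, .negSucc 177, .negSucc 41, .ofNat 58, .negSucc 178⟩, ⟨.ofNat 520, .ofNat 318, .ofNat 564, .ofNat 467, .negSucc 206, .ofNat 745⟩, ⟨.negSucc 1463, .negSucc 305, .negSucc 1053, .negSucc 381, .ofNat 585, .negSucc 1722⟩, ⟨.negSucc 5, .negSucc 32, .ofNat 273, .ofNat 45, .negSucc 50, .negSucc 83⟩, .ofNat 526, .negSucc 492, .ofNat 0, .negSucc 492, .ofNat 2766, .ofNat 0, .ofNat 204, .ofNat 128, .negSucc 339, .ofNat 0, .ofNat 79, .negSucc 61, .ofNat 0,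 .ofNat 0, .ofNat 626, .ofNat 281, .ofNat 0, .ofNat 0, .ofNat 0, .ofNat 0, .ofNat 0, .ofNat 1072710260462151086836538879577686016, .ofNat 0, .ofNat 0, .ofNat 0, .ofNat 397478062177046808565472747059150848, .ofNat 12282165180145898421818713178112, .ofNat 0, .ofNat 0, .ofNat 0, .ofNat 0, .ofNat 0⟩)
    (by decide +kernel)
theorem L00757 : Good (Phi V5.P V5.D 1 1) ⟨4, 10, 4, 3, 1, 0, 2, 3, 3, 0⟩ :=
  leafX_sound T5.ok_pp T5.Ypp.bz_eq (w := 191) (c := ⟨⟨.negSucc 1055, .negSucc 160, .negSucc 108, .negSucc 346, .ofNat 519, .negSucc 816⟩, ⟨.negSucc 218, .negSucc 107, .negSucc 79, .negSucc 98, .ofNat 132, .negSucc 221⟩, ⟨.ofNat 1015, .ofNat 66, .ofNat 106, .ofNat 596, .negSucc 420, .ofNat 665⟩, ⟨.negSucc 2062, .negSucc 93, .negSucc 185, .negSucc 608, .ofNat 951, .negSucc 1494⟩, ⟨.negSucc 17, .ofNat 64, .negSucc 91, .negSucc 188, .ofNat 8, .negSucc 28⟩, .ofNat 622, .negSucc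 804, .ofNat 0, .negSucc 804, .ofNat 3384, .ofNat 0, .ofNat 128, .ofNat 161, .negSucc 326, .ofNat 0, .ofNat 86, .negSucc 78, .ofNat 0, .ofNat 0, .ofNat 539, .ofNat 149, .ofNat 0, .ofNat 0, .ofNat 0, .ofNat 0, .ofNat 0, .ofNat 9513145673171274918195359975200522240, .ofNat 0, .ofNat 0, .ofNat 0, .ofNat 0, .ofNat 0, .ofNat 0, .ofNat 0, .ofNat 0, .ofNat 0, .ofNat 0⟩)
    (by decide +kernel)
theorem L00758 : Good (Phi V5.P V5.D 1 1) ⟨4, 11, 4, 3, 1, 0, 2, 3, 3, 0⟩ :=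
  leafX_sound T5.ok_pp T5.Ypp.bz_eq (w := 191) (c := ⟨⟨.negSucc 1053, .negSucc 338, .negSucc 90, .negSucc 383, .negSucc 28, .negSucc 921⟩, ⟨.negSucc 237, .negSucc 193, .negSucc 100, .negSucc 120, .negSucc 19, .negSucc 305⟩, ⟨.ofNat 972, .ofNat 307, .ofNat 84, .ofNat 595, .ofNat 175, .ofNat 831⟩, ⟨.negSucc 1943, .negSucc 367, .negSucc 145, .negSucc 713, .negSucc 11, .negSucc 1553⟩, ⟨.ofNat 137, .ofNat 74, .negSucc 71, .ofNat 168, .negSucc 175, .negSucc 266⟩, .ofNat 599, .negSucc 683, .ofNat 0, .negSucc 683, .ofNat 2404, .ofNat 0, .ofNat 133, .ofNat 128, .negSucc 282, .ofNat 0, .ofNat 83, .negSucc 81, .ofNat 0, .ofNat 0, .ofNat 428, .ofNat 76, .ofNat 0, .ofNat 0, .ofNat 0, .ofNat 0, .ofNat 0, .ofNat 0, .ofNat 0, .ofNat 0, .ofNat 0, .ofNat 5473830232332404321358039276629000192, .ofNat 0, .ofNat 0, .ofNat 0, .ofNat 0, .ofNat 0, .ofNat 0⟩)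
    (by decide +kernel)
theorem L00759 : Good (Phi V5.P V5.D 1 1) ⟨2, 2, 4, 3, 1, 0, 2, 2, 3, 1⟩ :=
  leafX_sound T5.ok_pp T5.Ypp.bz_eq (w := 184) (c := ⟨⟨.negSucc 1594, .negSucc 647, .negSucc 95, .negSucc 410, .ofNat 40, .ofNat 107⟩, ⟨.negSucc 184, .negSucc 494, .negSucc 114, .negSucc 137, .ofNat 10, .ofNat 18⟩, ⟨.ofNat 1598, .ofNat 505, .ofNat 201, .ofNat 96, .negSucc 8, .negSucc 28⟩, ⟨.negSucc 3645, .negSucc 154, .negSucc 150, .negSucc 626, .ofNat 75, .ofNat 222⟩, ⟨.negSucc 39, .ofNat 242, .negSucc 32, .negSucc 229, .ofNat 31, .negSucc 129⟩, .ofNat 497, .negSucc 436, .ofNat 0, .negSucc 436, .ofNat 1955, .ofNat 0, .ofNat 140, .ofNat 128, .negSucc 129, .ofNat 0, .ofNat 94, .negSucc 27, .ofNat 0, .ofNat 0, .ofNat 439, .ofNat 498, .ofNat 0, .ofNat 0, .ofNat 0, .ofNat 0, .ofNat 0, .ofNat 0, .ofNat 0, .ofNat 0, .ofNat 0, .ofNat 0, .ofNat 0, .ofNat 0, .ofNat 0, .ofNat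 0, .ofNat 0, .ofNat 0⟩)
    (by decide +kernel)
theorem L00760 : Good (Phi V5.P V5.D 1 1) ⟨2, 2, 4, 3, 2, 0, 2, 3, 3, 1⟩ :=
  leafX_sound T5.ok_pp T5.Ypp.bz_eq (w := 197) (c := ⟨⟨.negSucc 1400, .negSucc 739, .ofNat 76, .negSucc 317, .ofNat 293, .ofNat 62⟩, ⟨.negSucc 200, .negSucc 437, .negSucc 64, .negSucc 73, .ofNat 71, .ofNat 8⟩, ⟨.ofNat 1330, .ofNat 716, .negSucc 44, .ofNat 414, .negSucc 552, .negSucc 173⟩, ⟨.negSucc 3128, .negSucc 540, .ofNat 228, .negSucc 574, .ofNat 601, .ofNat 117⟩, ⟨.negSucc 224, .ofNat 599, .negSucc 388, .negSucc 210, .negSucc 79, .ofNat 80⟩, .ofNat 498, .negSucc 440, .ofNat 0, .negSucc 440, .ofNat 1931, .ofNat 0, .ofNat 143, .ofNat 128, .negSucc 139, .ofNat 0, .ofNat 99, .negSucc 33, .ofNat 0, .ofNat 0, .ofNat 398, .ofNat 185, .ofNat 0, .ofNat 0, .ofNat 57384048705665302718190701726662656, .ofNat 0, .ofNat 0, .ofNat 0, .ofNat 0, .ofNat 0,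 .ofNat 0, .ofNat 0, .ofNat 0, .ofNat 0, .ofNat 0, .ofNat 0, .ofNat 0, .ofNat 0⟩)
    (by decide +kernel)
theorem L00761 : Good (Phi V5.P V5.D 1 1) ⟨3, 4, 4, 3, 2, 1, 2, 3, 3, 1⟩ :=
  leafX_sound T5.ok_pp T5.Ypp.bz_eq (w := 202) (c := ⟨⟨.negSucc 1317, .negSucc 523, .negSucc 136, .negSucc 573, .negSucc 303, .negSucc 89⟩, ⟨.negSucc 190, .negSucc 220, .negSucc 180, .negSucc 127, .negSucc 72, .negSucc 20⟩, ⟨.ofNat 1309, .ofNat 510, .ofNat 146, .ofNat 543, .ofNat 230, .negSucc 30⟩, ⟨.negSucc 2993, .negSucc 521, .negSucc 171, .negSucc 1064, .negSucc 556, .negSucc 166⟩, ⟨.negSucc 93, .negSucc 3, .negSucc 84, .negSucc 356, .negSucc 84, .negSucc 134⟩, .ofNat 616, .negSucc 808, .ofNat 0, .negSucc 808, .ofNat 4207, .ofNat 0, .ofNat 148, .ofNat 128, .negSucc 147, .ofNat 0, .ofNat 60, .negSucc 27, .ofNat 0, .ofNat 0, .ofNat 427, .ofNat 271, .ofNat 0, .ofNat 0, .ofNat 0, .ofNat 0,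 .ofNat 0, .ofNat 12587856424941999280925122855197095231488, .ofNat 83163969624850229498962941099114496, .ofNat 0, .ofNat 0, .ofNat 12874323096186706842897558380416086310912, .ofNat 569048983882978344704310800585588736, .ofNat 0, .ofNat 0, .ofNat 0, .ofNat 0, .ofNat 0⟩)
    (by decide +kernel)
theorem L00762 : Good (Phi V5.P V5.D 1 1) ⟨3, 5, 4, 3, 2, 1, 2, 3, 3, 1⟩ :=
  leafX_sound T5.ok_pp T5.Ypp.bz_eq (w := 201) (c := ⟨⟨.negSucc 1926, .negSucc 618, .ofNat 13, .negSucc 677, .negSucc 534, .ofNat 147⟩, ⟨.negSucc 421, .negSucc 424, .negSucc 89, .negSucc 199, .negSucc 154, .ofNat 54⟩, ⟨.ofNat 1944, .ofNat 564, .negSucc 46, .ofNat 566, .ofNat 454, .negSucc 307⟩, ⟨.negSucc 3690, .negSucc 481, .ofNat 51, .negSucc 1168, .negSucc 956, .ofNat 275⟩, ⟨.negSucc 180, .ofNat 299, .negSucc 110, .negSucc 99, .ofNat 66, .negSucc 270⟩, .ofNat 506, .negSucc 475, .ofNat 0, .negSucc 475,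 .ofNat 1932, .ofNat 0, .ofNat 128, .ofNat 136, .negSucc 132, .ofNat 0, .ofNat 92, .negSucc 31, .ofNat 0, .ofNat 0, .ofNat 327, .ofNat 133, .ofNat 0, .ofNat 0, .ofNat 0, .ofNat 0, .ofNat 0, .ofNat 8412064578538036968960018253592888606720, .ofNat 0, .ofNat 0, .ofNat 0, .ofNat 11613658813481819457381462789160970485760, .ofNat 0, .ofNat 0, .ofNat 0, .ofNat 8094929001882689479476923623024667656192, .ofNat 0, .ofNat 0⟩)
    (by decide +kernel)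
theorem L00763 : Good (Phi V5.P V5.D 1 1) ⟨3, 6, 4, 3, 2, 0, 1, 1, 4, 0⟩ :=
  leafX_sound T5.ok_pp T5.Ypp.bz_eq (w := 203) (c := ⟨⟨.ofNat 91, .negSucc 179, .negSucc 112, .ofNat 711, .negSucc 1147, .negSucc 1893⟩, ⟨.ofNat 63, .negSucc 207, .negSucc 57, .ofNat 264, .negSucc 421, .negSucc 671⟩, ⟨.negSucc 206, .ofNat 120, .ofNat 99, .negSucc 475, .ofNat 1218, .ofNat 1832⟩, ⟨.ofNat 86, .ofNat 38, .negSucc 176, .ofNat 1198, .negSucc 1903, .negSucc 2959⟩, ⟨.ofNat 139, .ofNat 33, .negSucc 104, .negSucc 235, .negSucc 3, .negSucc 142⟩, .ofNat 632, .negSucc 693, .ofNat 0, .negSucc 693, .ofNat 2052, .ofNat 0, .ofNat 141, .ofNat 128, .negSucc 620, .ofNat 0, .ofNat 101, .negSucc 213, .ofNat 0, .ofNat 0, .ofNat 847, .ofNat 203, .ofNat 0, .ofNat 0, .ofNat 0, .ofNat 0, .ofNat 0, .ofNat 0, .ofNat 608556501160415753476793953501052928, .ofNat 0, .ofNat 0, .ofNat 0, .ofNat 2926062506085196367889842062074314752,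 .ofNat 0, .ofNat 0, .ofNat 0, .ofNat 1118562398561638479898113386999709696, .ofNat 0⟩)
    (by decide +kernel)
theorem L00764 : Good (Phi V5.P V5.D 1 1) ⟨3, 6, 4, 3, 2, 0, 1, 1, 4, 1⟩ :=
  leafX_sound T5.ok_pp T5.Ypp.bz_eq (w := 203) (c := ⟨⟨.negSucc 2132, .negSucc 802, .ofNat 17, .ofNat 175, .ofNat 315, .negSucc 449⟩, ⟨.negSucc 670, .negSucc 507, .negSucc 66, .ofNat 54, .ofNat 97, .negSucc 162⟩, ⟨.ofNat 1995, .ofNat 801, .negSucc 4, .negSucc 100, .negSucc 321, .ofNat 469⟩, ⟨.negSucc 3573, .negSucc 769, .ofNat 31, .ofNat 309, .ofNat 567, .negSucc 735⟩, ⟨.ofNat 67, .ofNat 34, .negSucc 18, .negSucc 107, .negSucc 58, .negSucc 23⟩, .ofNat 565, .negSucc 505, .ofNat 0, .negSucc 505, .ofNat 1367, .ofNat 0, .ofNat 241, .ofNat 128, .negSucc 500, .ofNat 0, .ofNat 128, .negSucc 183, .ofNat 0, .ofNat 0, .ofNat 906, .ofNat 406, .ofNat 0, .ofNat 0, .ofNat 0, .ofNat 0, .ofNat 0,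 .ofNat 20674200848155395082108278846491883208704, .ofNat 195906775527347746200023224794742784, .ofNat 0, .ofNat 0, .ofNat 2388814968255671848855601360534889299968, .ofNat 915229477675248957584952703812894720, .ofNat 0, .ofNat 0, .ofNat 0, .ofNat 4982659772103617984167928036727980032, .ofNat 0⟩)
    (by decide +kernel)

end Crest.Agent.R097C5.N5pp
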