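import Crest.Agent.R097.KP7
import Crest.Agent.R097.T5Ypp

/-!
# Row 97, box cover in dimension n = 5 (generated)
-/

set_option autoImplicit false
set_option Elab.async false
set_option maxHeartbeats 0
set_option maxRecDepth 100000

open Crest.Agent.R097 Crest.Agent.R097.KA


namespace Crest.Agent.R097C5.N5pp

theorem L00765 : Good (Phi V5.P V5.D 1 1) ⟨3, 6, 4, 3, 2, 0, 1, 1, 3, 1⟩ :=
  leafX_sound T5.ok_pp T5.Ypp.bz_eq (w := 198) (c := ⟨⟨.negSucc 2546, .negSucc 474, .negSucc 1, .negSucc 109, .ofNat 193, .ofNat 289⟩, ⟨.negSucc 813, .negSucc 408, .negSucc 82, .negSucc 50, .ofNat 57, .ofNat 99⟩, ⟨.ofNat 2522, .ofNat 502, .ofNat 25, .ofNat 46, .negSucc 466, .negSucc 286⟩, ⟨.negSucc 4229, .negSucc 183, .ofNat 1, .negSucc 144, .ofNat 363, .ofNat 460⟩, ⟨.ofNat 50, .negSucc 65, .negSucc 17, .negSucc 130, .negSucc 104, .negSucc 13⟩, .ofNat 478, .negSucc 389, .ofNat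 0, .negSucc 389, .ofNat 1277, .ofNat 0, .ofNat 222, .ofNat 128, .negSucc 183, .ofNat 0, .ofNat 120, .negSucc 57, .ofNat 0, .ofNat 0, .ofNat 539, .ofNat 221, .ofNat 0, .ofNat 0, .ofNat 220144515259944398745288289812480, .ofNat 0, .ofNat 0, .ofNat 4544970313951499669477052192079246000128, .ofNat 3534082560419319328543098282180608, .ofNat 0, .ofNat 0, .ofNat 1503045359306122517915922839936144769024, .ofNat 34980043657320171558000513626669056, .ofNat 0, .ofNat 0, .ofNat 5383802467133318448274156580935397539840, .ofNat 3838458555364645913674320378331136, .ofNat 0⟩)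
    (by decide +kernel)
theorem L00766 : Good (Phi V5.P V5.D 1 1) ⟨4, 12, 4, 3, 2, 1, 2, 2, 3, 0⟩ :=
  leafX_sound T5.ok_pp T5.Ypp.bz_eq (w := 205) (c := ⟨⟨.ofNat 586, .negSucc 415, .ofNat 41, .ofNat 309, .negSucc 430, .negSucc 3022⟩, ⟨.ofNat 251, .negSucc 214, .negSucc 10, .ofNat 110, .negSucc 149, .negSucc 1090⟩, ⟨.negSucc 434, .ofNat 286, .ofNat 30, .negSucc 437, .ofNat 597, .ofNat 2572⟩, ⟨.ofNat 937, .negSucc 635, .ofNat 11, .ofNat 498, .negSucc 698, .negSucc 4861⟩, ⟨.ofNat 61, .ofNat 542, .ofNat 200, .ofNat 53, .negSucc 127, .negSucc 410⟩, .ofNat 632, .negSucc 694, .ofNat 0, .negSucc 694, .ofNat 2072, .ofNat 0, .ofNat 128, .ofNat 159, .negSucc 210, .ofNat 0, .ofNat 113, .negSucc 66, .ofNat 0, .ofNat 0, .ofNat 337, .ofNat 129, .ofNat 0, .ofNat 0, .ofNat 0, .ofNat 0, .ofNat 0, .ofNat 0, .ofNat 33697437794601784413350642235473920, .ofNat 0, .ofNat 0, .ofNat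 0, .ofNat 148540251744594963926539586901114880, .ofNat 0, .ofNat 0, .ofNat 0, .ofNat 99933513883221916201575749009801216, .ofNat 0⟩)
    (by decide +kernel)
theorem L00767 : Good (Phi V5.P V5.D 1 1) ⟨4, 12, 4, 3, 2, 1, 2, 3, 3, 0⟩ :=
  leafX_sound T5.ok_pp T5.Ypp.bz_eq (w := 205) (c := ⟨⟨.negSucc 597, .negSucc 916, .ofNat 295, .negSucc 621, .negSucc 937, .negSucc 1952⟩, ⟨.negSucc 119, .negSucc 420, .ofNat 17, .negSucc 199, .negSucc 337, .negSucc 729⟩, ⟨.ofNat 755, .ofNat 880, .negSucc 285, .ofNat 485, .ofNat 1098, .ofNat 1611⟩, ⟨.negSucc 1039, .negSucc 1277, .ofNat 529, .negSucc 1136, .negSucc 1579, .negSucc 3097⟩, ⟨.ofNat 45, .ofNat 121, .negSucc 117, .ofNat 320, .ofNat 115, .negSucc 329⟩, .ofNat 603, .negSucc 612, .ofNat 0, .negSucc 612, .ofNat 1776, .ofNat 0, .ofNat 135, .ofNat 128, .negSucc 346, .ofNat 0, .ofNat 99, .negSucc 114, .ofNat 0, .ofNat 0, .ofNat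 466, .ofNat 79, .ofNat 0, .ofNat 0, .ofNat 5913966640110017205955596243697664, .ofNat 0, .ofNat 0, .ofNat 11064817873225279969079616278290524798976, .ofNat 9429581777562253616438657496907776, .ofNat 0, .ofNat 0, .ofNat 19683890503278430083112885095588090085376, .ofNat 76537929217292156462545886339137536, .ofNat 0, .ofNat 0, .ofNat 111488583219540721110844705305681981341696, .ofNat 84077894742475658221164460081414144, .ofNat 0⟩)
    (by decide +kernel)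
theorem L00768 : Good (Phi V5.P V5.D 1 1) ⟨4, 13, 4, 3, 2, 1, 1, 1, 3, 0⟩ :=
  out_sound (S := T5.ds_pp) T5.ok_pp (w := 53) (j := 3) (by decide +kernel)
theorem L00769 : Good (Phi V5.P V5.D 1 1) ⟨4, 12, 4, 3, 2, 1, 2, 2, 3, 1⟩ :=
  leafX_sound T5.ok_pp T5.Ypp.bz_eq (w := 207) (c := ⟨⟨.negSucc 2343, .negSucc 83, .negSucc 80, .negSucc 387, .negSucc 235, .ofNat 91⟩, ⟨.negSucc 738, .negSucc 178, .negSucc 109, .negSucc 151, .negSucc 95, .ofNat 19⟩, ⟨.ofNat 2106, .negSucc 74, .ofNat 97, .negSucc 49, .ofNat 435, .ofNat 48⟩, ⟨.negSucc 3906, .ofNat 201, .negSucc 129, .negSucc 581, .negSucc 330, .ofNat 191⟩, ⟨.negSucc 28, .negSucc 7, .ofNat 20, .negSucc 124, .negSucc 157, .negSucc 127⟩, .ofNat 710, .negSucc 862, .ofNat 0, .negSucc 862, .ofNat 2480, .ofNat 0, .ofNat 128, .ofNat 147, .negSucc 134, .ofNat 0, .ofNat 105, .negSucc 40, .ofNat 0, .ofNat 0, .ofNat 417, .ofNat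 880, .ofNat 0, .ofNat 0, .ofNat 0, .ofNat 0, .ofNat 0, .ofNat 0, .ofNat 256965828955975076808344001604222976, .ofNat 0, .ofNat 0, .ofNat 0, .ofNat 609170816834995740405754963630751744, .ofNat 0, .ofNat 0, .ofNat 0, .ofNat 82470315711584440589029971144474624, .ofNat 0⟩)
    (by decide +kernel)
theorem L00770 : Good (Phi V5.P V5.D 1 1) ⟨4, 12, 4, 3, 2, 1, 3, 6, 3, 1⟩ :=
  leafX_sound T5.ok_pp T5.Ypp.bz_eq (w := 211) (c := ⟨⟨.negSucc 2483, .negSucc 244, .negSucc 4, .negSucc 821, .negSucc 290, .ofNat 178⟩, ⟨.negSucc 783, .negSucc 242, .negSucc 85, .negSucc 317, .negSucc 114, .ofNat 39⟩, ⟨.ofNat 2395, .ofNat 215, .ofNat 5, .ofNat 584, .ofNat 292, .negSucc 251⟩, ⟨.negSucc 4130, .negSucc 40, .negSucc 4, .negSucc 1228, .negSucc 440, .ofNat 359⟩, ⟨.negSucc 2, .negSucc 34, .ofNat 23, .negSucc 353, .negSucc 121, .negSucc 226⟩, .ofNat 475, .negSucc 383, .ofNat 0, .negSucc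 383, .ofNat 1273, .ofNat 0, .ofNat 211, .ofNat 128, .negSucc 172, .ofNat 0, .ofNat 110, .negSucc 48, .ofNat 0, .ofNat 0, .ofNat 448, .ofNat 635, .ofNat 0, .ofNat 0, .ofNat 0, .ofNat 0, .ofNat 0, .ofNat 0, .ofNat 1776214943047654482470515193902268416, .ofNat 0, .ofNat 0, .ofNat 0, .ofNat 5628465640380970067763747063641145344, .ofNat 0, .ofNat 0, .ofNat 0, .ofNat 0, .ofNat 0⟩)
    (by decide +kernel)
theorem L00771 : Good (Phi V5.P V5.D 1 1) ⟨4, 12, 4, 3, 2, 1, 3, 7, 3, 1⟩ :=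
  leafX_sound T5.ok_pp T5.Ypp.bz_eq (w := 210) (c := ⟨⟨.negSucc 2388, .negSucc 500, .negSucc 40, .negSucc 1407, .negSucc 1025, .ofNat 181⟩, ⟨.negSucc 705, .negSucc 389, .negSucc 115, .negSucc 559, .negSucc 401, .ofNat 21⟩, ⟨.ofNat 2435, .ofNat 399, .ofNat 16, .ofNat 1116, .ofNat 827, .negSucc 430⟩, ⟨.negSucc 4062, .negSucc 363, .negSucc 64, .negSucc 2102, .negSucc 1566, .ofNat 468⟩, ⟨.ofNat 74, .negSucc 109, .ofNat 80, .negSucc 523, .negSucc 254, .negSucc 461⟩, .ofNat 634, .negSucc 694, .ofNat 0, .negSucc 694, .ofNat 2043, .ofNat 0, .ofNat 145, .ofNat 128, .negSucc 161, .ofNat 0, .ofNat 93, .negSucc 52, .ofNat 0, .ofNat 0, .ofNat 352, .ofNat 130, .ofNat 0, .ofNat 18437906238545000597040610298601767174144, .ofNat 143029708929397166084982083009118208, .ofNat 0, .ofNat 0, .ofNat 874363218654821544819093176982645673820160, .ofNat 842321743045366209514094559393480704,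 .ofNat 0, .ofNat 0, .ofNat 777501975645710170732007288056087465426944, .ofNat 2001507464303468201668251804554493952, .ofNat 0, .ofNat 0, .ofNat 1238088446720994288759677272870943220301824, .ofNat 1068775637461311163148446039856381952, .ofNat 0⟩)
    (by decide +kernel)
theorem L00772 : Good (Phi V5.P V5.D 1 1) ⟨4, 13, 4, 3, 2, 1, 1, 1, 3, 1⟩ :=
  out_sound (S := T5.ds_pp) T5.ok_pp (w := 53) (j := 3) (by decide +kernel)
theorem L00773 : Good (Phi V5.P V5.D 1 1) ⟨3, 7, 4, 3, 1, 0, 1, 1, 2, 0⟩ :=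
  out_sound (S := T5.ds_pp) T5.ok_pp (w := 47) (j := 3) (by decide +kernel)
theorem L00774 : Good (Phi V5.P V5.D 1 1) ⟨2, 2, 2, 0, 2, 0, 2, 2, 3, 2⟩ :=
  leafX_sound T5.ok_pp T5.Ypp.bz_eq (w := 194) (c := ⟨⟨.negSucc 1578, .negSucc 580, .negSucc 29, .negSucc 87, .ofNat 64, .ofNat 203⟩, ⟨.negSucc 36, .negSucc 419, .negSucc 293, .negSucc 16, .ofNat 13, .ofNat 61⟩, ⟨.ofNat 1658, .ofNat 545, .ofNat 14, .ofNat 35, .negSucc 280, .negSucc 234⟩, ⟨.negSucc 3510, .negSucc 147, .negSucc 16, .negSucc 128, .ofNat 139, .ofNat 375⟩, ⟨.negSucc 3, .ofNat 42, .ofNat 15, .negSucc 170, .negSucc 4, .negSucc 28⟩, .ofNat 322, .negSucc 92, .ofNat 0, .negSucc 92, .ofNat 719, .ofNat 0, .ofNat 220, .ofNat 59, .negSucc 67, .ofNat 0, .ofNat 128, .negSucc 8, .ofNat 0, .ofNat 0, .ofNat 425, .ofNat 2778, .ofNat 62513034801648085188061813745779736576, .ofNat 0, .ofNat 0, .ofNat 0, .ofNat 0,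 .ofNat 0, .ofNat 0, .ofNat 0, .ofNat 0, .ofNat 0, .ofNat 0, .ofNat 0, .ofNat 0, .ofNat 0, .ofNat 354451212705017643694957609466462208, .ofNat 0⟩)
    (by decide +kernel)
theorem L00775 : Good (Phi V5.P V5.D 1 1) ⟨2, 2, 2, 0, 2, 1, 3, 4, 3, 2⟩ :=
  leafX_sound T5.ok_pp T5.Ypp.bz_eq (w := 198) (c := ⟨⟨.negSucc 1658, .negSucc 629, .negSucc 31, .negSucc 179, .negSucc 35, .ofNat 250⟩, ⟨.negSucc 44, .negSucc 479, .negSucc 291, .negSucc 51, .negSucc 5, .ofNat 83⟩, ⟨.ofNat 1620, .ofNat 480, .negSucc 27, .ofNat 46, .ofNat 62, .negSucc 131⟩, ⟨.negSucc 3663, .negSucc 149, .ofNat 14, .negSucc 294, .negSucc 52, .ofNat 442⟩, ⟨.negSucc 176, .ofNat 26, .ofNat 33, .negSucc 194, .negSucc 36, .negSucc 32⟩, .ofNat 320, .negSucc 87, .ofNat 0, .negSucc 87, .ofNat 704, .ofNat 0, .ofNat 208, .ofNat 59, .negSucc 51, .ofNat 0, .ofNat 128, .negSucc 2, .ofNat 0, .ofNat 0, .ofNat 333, .ofNat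 2284, .ofNat 0, .ofNat 0, .ofNat 0, .ofNat 0, .ofNat 0, .ofNat 0, .ofNat 517480440423836959129517071630598144, .ofNat 0, .ofNat 0, .ofNat 0, .ofNat 0, .ofNat 0, .ofNat 0, .ofNat 0, .ofNat 3954268740453965031581337236776419328, .ofNat 0⟩)
    (by decide +kernel)
theorem L00776 : Good (Phi V5.P V5.D 1 1) ⟨2, 2, 2, 0, 2, 1, 3, 5, 3, 2⟩ :=
  leafX_sound T5.ok_pp T5.Ypp.bz_eq (w := 197) (c := ⟨⟨.negSucc 1609, .negSucc 695, .negSucc 0, .negSucc 257, .negSucc 78, .ofNat 180⟩, ⟨.negSucc 27, .negSucc 482, .negSucc 271, .negSucc 57, .negSucc 18, .ofNat 21⟩, ⟨.ofNat 1580, .ofNat 626, .negSucc 130, .ofNat 257, .ofNat 60, .negSucc 183⟩, ⟨.negSucc 3583, .negSucc 249, .ofNat 58, .negSucc 464, .negSucc 141, .ofNat 371⟩, ⟨.negSucc 146, .negSucc 28, .ofNat 22, .negSucc 289, .negSucc 76, .negSucc 41⟩, .ofNat 169, .negSucc 15, .ofNat 0, .negSucc 15, .ofNat 241, .ofNat 0, .ofNat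 261, .ofNat 21, .negSucc 83, .ofNat 0, .ofNat 128, .ofNat 0, .ofNat 0, .ofNat 0, .ofNat 312, .ofNat 896, .ofNat 0, .ofNat 0, .ofNat 0, .ofNat 0, .ofNat 0, .ofNat 0, .ofNat 0, .ofNat 0, .ofNat 0, .ofNat 0, .ofNat 0, .ofNat 0, .ofNat 0, .ofNat 0, .ofNat 1797346015907367412866004962989047808, .ofNat 0⟩)
    (by decide +kernel)
theorem L00777 : Good (Phi V5.P V5.D 1 1) ⟨4, 12, 2, 0, 1, 0, 3, 4, 3, 2⟩ :=
  leafX_sound T5.ok_pp T5.Ypp.bz_eq (w := 192) (c := ⟨⟨.negSucc 2180, .negSucc 174, .negSucc 57, .negSucc 353, .negSucc 1, .ofNat 303⟩, ⟨.negSucc 475, .negSucc 180, .negSucc 307, .negSucc 160, .negSucc 3, .ofNat 104⟩, ⟨.ofNat 2260, .ofNat 165, .negSucc 0, .negSucc 4, .negSucc 18, .negSucc 288⟩, ⟨.negSucc 3675, .negSucc 19, .negSucc 57, .negSucc 432, .ofNat 6, .ofNat 508⟩, ⟨.ofNat 63, .ofNat 29, .negSucc 24, .negSucc 408, .negSucc 26, .negSucc 43⟩, .ofNat 423, .negSucc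 259, .ofNat 0, .negSucc 259, .ofNat 969, .ofNat 0, .ofNat 218, .ofNat 102, .negSucc 74, .ofNat 0, .ofNat 128, .negSucc 16, .ofNat 0, .ofNat 0, .ofNat 473, .ofNat 2549, .ofNat 20786450636017225142523141722266927104, .ofNat 0, .ofNat 584186084354662283189338243072, .ofNat 0, .ofNat 0, .ofNat 0, .ofNat 37012446678542803199718225608704, .ofNat 0, .ofNat 0, .ofNat 0, .ofNat 270513912360197979836200133853184, .ofNat 0, .ofNat 0, .ofNat 0, .ofNat 105108982309186079581916981362688, .ofNat 0⟩)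
    (by decide +kernel)
theorem L00778 : Good (Phi V5.P V5.D 1 1) ⟨4, 12, 2, 0, 1, 0, 3, 5, 3, 2⟩ :=
  leafX_sound T5.ok_pp T5.Ypp.bz_eq (w := 192) (c := ⟨⟨.negSucc 2134, .negSucc 237, .ofNat 42, .negSucc 579, .negSucc 62, .ofNat 262⟩, ⟨.negSucc 466, .negSucc 210, .negSucc 263, .negSucc 251, .negSucc 27, .ofNat 94⟩, ⟨.ofNat 2090, .ofNat 223, .negSucc 54, .ofNat 423, .negSucc 1, .negSucc 313⟩, ⟨.negSucc 3579, .negSucc 101, .ofNat 77, .negSucc 764, .negSucc 79, .ofNat 427⟩, ⟨.ofNat 8, .negSucc 5, .ofNat 45, .negSucc 523, .negSucc 56, .negSucc 12⟩, .ofNat 423, .negSucc 259, .ofNat 0, .negSucc 259, .ofNat 969, .ofNat 0, .ofNat 211, .ofNat 103, .negSucc 73, .ofNat 0, .ofNat 128, .negSucc 18, .ofNat 0, .ofNat 0, .ofNat 410, .ofNat 1543, .ofNat 0, .ofNat 0, .ofNat 0, .ofNat 0, .ofNat 0, .ofNat 0, .ofNat 45316655946118656736807561986048, .ofNat 0, .ofNat 0, .ofNat 0,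 .ofNat 217424275897687050557590274572288, .ofNat 0, .ofNat 0, .ofNat 0, .ofNat 72213601749969539956558429945856, .ofNat 0⟩)
    (by decide +kernel)
theorem L00779 : Good (Phi V5.P V5.D 1 1) ⟨4, 13, 2, 0, 1, 0, 2, 2, 3, 2⟩ :=
  out_sound (S := T5.ds_pp) T5.ok_pp (w := 49) (j := 3) (by decide +kernel)
theorem L00780 : Good (Phi V5.P V5.D 1 1) ⟨3, 7, 2, 0, 1, 0, 2, 2, 3, 2⟩ :=
  out_sound (S := T5.ds_pp) T5.ok_pp (w := 43) (j := 3) (by decide +kernel)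
theorem L00781 : Good (Phi V5.P V5.D 1 1) ⟨3, 4, 2, 0, 1, 0, 2, 2, 3, 3⟩ :=
  leafX_sound T5.ok_pp T5.Ypp.bz_eq (w := 184) (c := ⟨⟨.negSucc 1319, .negSucc 265, .ofNat 39, .negSucc 298, .negSucc 67, .ofNat 151⟩, ⟨.negSucc 16, .negSucc 155, .negSucc 246, .negSucc 48, .negSucc 13, .ofNat 25⟩, ⟨.ofNat 1305, .ofNat 252, .negSucc 140, .ofNat 377, .negSucc 111, .negSucc 230⟩, ⟨.negSucc 2960, .negSucc 74, .ofNat 84, .negSucc 571, .negSucc 121, .ofNat 299⟩, ⟨.ofNat 14, .ofNat 6, .ofNat 9, .negSucc 417, .negSucc 20, .ofNat 27⟩, .ofNat 462, .negSucc 218, .ofNat 0, .negSucc 218, .ofNat 1987, .ofNat 0, .ofNat 346, .ofNat 99, .negSucc 65, .ofNat 0, .ofNat 128, .negSucc 9, .ofNat 0, .ofNat 0, .ofNat 896, .ofNat 3082, .ofNat 670862185894650351373964223386222592, .ofNat 0, .ofNat 133590703292210681173084471296, .ofNat 0, .ofNat 0, .ofNat 0, .ofNat 0, .ofNat 0, .ofNat 0, .ofNat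 0, .ofNat 0, .ofNat 0, .ofNat 11773318397884583277560077052589113344, .ofNat 399281450001135070228879649609351168, .ofNat 0, .ofNat 0⟩)
    (by decide +kernel)
theorem L00782 : Good (Phi V5.P V5.D 1 1) ⟨3, 5, 2, 0, 1, 0, 2, 2, 3, 3⟩ :=
  leafX_sound T5.ok_pp T5.Ypp.bz_eq (w := 184) (c := ⟨⟨.negSucc 1507, .negSucc 360, .ofNat 8, .negSucc 389, .negSucc 109, .ofNat 191⟩, ⟨.negSucc 124, .negSucc 284, .negSucc 254, .negSucc 118, .negSucc 30, .ofNat 34⟩, ⟨.ofNat 1517, .ofNat 386, .negSucc 111, .ofNat 370, .negSucc 62, .negSucc 345⟩, ⟨.negSucc 2985, .negSucc 115, .ofNat 29, .negSucc 590, .negSucc 168, .ofNat 351⟩, ⟨.ofNat 52, .negSucc 18, .ofNat 17, .negSucc 454, .negSucc 80, .ofNat 31⟩, .ofNat 449, .negSucc 302, .ofNat 0, .negSucc 302, .ofNat 1525, .ofNat 0, .ofNat 210, .ofNat 124, .negSucc 69, .ofNat 0, .ofNat 128, .negSucc 16, .ofNat 0, .ofNat 0, .ofNat 854, .ofNat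 2654, .ofNat 606740915582479201296937390597734400, .ofNat 0, .ofNat 0, .ofNat 0, .ofNat 1996666451797576941598626835188416512, .ofNat 115934342799260507769227210131505152, .ofNat 5694311865513756174869405368320, .ofNat 0, .ofNat 0, .ofNat 0, .ofNat 0, .ofNat 0, .ofNat 8685225097269119937644832283028357120, .ofNat 404033082907362102907477766686375936, .ofNat 7931520784547193741168844210176, .ofNat 0⟩)
    (by decide +kernel)
theorem L00783 : Good (Phi V5.P V5.D 1 1) ⟨3, 6, 2, 0, 1, 0, 2, 2, 3, 3⟩ :=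
  leafX_sound T5.ok_pp T5.Ypp.bz_eq (w := 184) (c := ⟨⟨.negSucc 1816, .negSucc 353, .negSucc 52, .negSucc 422, .negSucc 132, .ofNat 225⟩, ⟨.negSucc 368, .negSucc 381, .negSucc 281, .negSucc 188, .negSucc 53, .ofNat 76⟩, ⟨.ofNat 1927, .ofNat 369, .negSucc 72, .ofNat 142, .negSucc 9, .negSucc 368⟩, ⟨.negSucc 3081, .negSucc 4, .negSucc 54, .negSucc 522, .negSucc 184, .ofNat 371⟩, ⟨.ofNat 54, .negSucc 62, .negSucc 2, .negSucc 475, .negSucc 89, .negSucc 0⟩, .ofNat 524, .negSucc 402, .ofNat 0, .negSucc 402, .ofNat 1207, .ofNat 0, .ofNat 163, .ofNat 103, .negSucc 49, .ofNat 0, .ofNat 128, .negSucc 18, .ofNat 0, .ofNat 0, .ofNat 528, .ofNat 1723, .ofNat 356291758423686068288920741706989568, .ofNat 0, .ofNat 771971325468996107635718619136, .ofNat 0, .ofNat 0, .ofNat 0, .ofNat 9707218452129334416803073359872, .ofNat 0, .ofNat 0, .ofNat 0, .ofNat 25764027364235395090846920474624,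 .ofNat 0, .ofNat 2820138149814838208746294452733083648, .ofNat 90986116854165531808381584321544192, .ofNat 50470249786712722009827586342912, .ofNat 0⟩)
    (by decide +kernel)
theorem L00784 : Good (Phi V5.P V5.D 1 1) ⟨3, 7, 2, 0, 1, 0, 2, 2, 3, 3⟩ :=
  out_sound (S := T5.ds_pp) T5.ok_pp (w := 43) (j := 3) (by decide +kernel)
theorem L00785 : Good (Phi V5.P V5.D 1 1) ⟨2, 2, 2, 0, 2, 0, 2, 3, 3, 2⟩ :=
  leafX_sound T5.ok_pp T5.Ypp.bz_eq (w := 192) (c := ⟨⟨.negSucc 1285, .negSucc 619, .ofNat 19, .negSucc 316, .negSucc 178, .ofNat 28⟩, ⟨.ofNat 20, .negSucc 389, .negSucc 266, .negSucc 64, .negSucc 51, .negSucc 8⟩, ⟨.ofNat 1190, .ofNat 616, .negSucc 84, .ofNat 356, .negSucc 196, .negSucc 185⟩, ⟨.negSucc 2926, .negSucc 279, .ofNat 87, .negSucc 587, .negSucc 257, .ofNat 59⟩, ⟨.negSucc 51, .ofNat 57, .ofNat 24, .negSucc 196, .ofNat 68, .ofNat 28⟩, .ofNat 322, .negSucc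 81, .ofNat 0, .negSucc 81, .ofNat 716, .ofNat 0, .ofNat 362, .ofNat 52, .negSucc 121, .ofNat 0, .ofNat 128, .negSucc 16, .ofNat 0, .ofNat 0, .ofNat 515, .ofNat 445, .ofNat 0, .ofNat 0, .ofNat 0, .ofNat 0, .ofNat 0, .ofNat 0, .ofNat 0, .ofNat 0, .ofNat 0, .ofNat 27740577751146194401730112964335239168, .ofNat 0, .ofNat 0, .ofNat 0, .ofNat 0, .ofNat 0, .ofNat 0⟩)
    (by decide +kernel)
theorem L00786 : Good (Phi V5.P V5.D 1 1) ⟨2, 2, 2, 0, 3, 2, 2, 3, 3, 2⟩ :=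
  leafX_sound T5.ok_pp T5.Ypp.bz_eq (w := 206) (c := ⟨⟨.negSucc 1527, .negSucc 790, .negSucc 26, .negSucc 206, .negSucc 415, .ofNat 111⟩, ⟨.ofNat 18, .negSucc 524, .negSucc 325, .negSucc 63, .negSucc 73, .ofNat 17⟩, ⟨.ofNat 1542, .ofNat 750, .negSucc 127, .ofNat 227, .ofNat 66, .negSucc 287⟩, ⟨.negSucc 3471, .negSucc 367, .ofNat 43, .negSucc 344, .negSucc 759, .ofNat 222⟩, ⟨.negSucc 199, .negSucc 40, .ofNat 4, .negSucc 153, .negSucc 36, .negSucc 45⟩, .ofNat 322, .negSucc 86, .ofNat 0, .negSucc 86, .ofNat 721, .ofNat 0, .ofNat 254, .ofNat 58, .negSucc 70, .ofNat 0, .ofNat 128, .negSucc 10, .ofNat 0, .ofNat 0, .ofNat 342, .ofNat 466, .ofNat 0, .ofNat 0, .ofNat 0, .ofNat 0, .ofNat 0, .ofNat 247198307454932445631415616380664794841088, .ofNat 343775710484155446034173921845823143936, .ofNat 0, .ofNat 0, .ofNat 162489855751836026934552387840104235794432, .ofNat 0,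 .ofNat 0, .ofNat 0, .ofNat 47714430432944382743650652227179915509760, .ofNat 761524741852619416394392176671888244736, .ofNat 0⟩)
    (by decide +kernel)
theorem L00787 : Good (Phi V5.P V5.D 1 1) ⟨2, 2, 2, 0, 3, 3, 2, 3, 3, 2⟩ :=
  leafX_sound T5.ok_pp T5.Ypp.bz_eq (w := 205) (c := ⟨⟨.negSucc 1748, .negSucc 889, .negSucc 27, .negSucc 166, .negSucc 588, .ofNat 217⟩, ⟨.negSucc 20, .negSucc 604, .negSucc 303, .negSucc 41, .negSucc 150, .ofNat 45⟩, ⟨.ofNat 1774, .ofNat 790, .negSucc 182, .ofNat 200, .ofNat 332, .negSucc 326⟩, ⟨.negSucc 3936, .negSucc 395, .ofNat 55, .negSucc 280, .negSucc 998, .ofNat 427⟩, ⟨.negSucc 329, .negSucc 86, .ofNat 42, .negSucc 148, .negSucc 191, .negSucc 104⟩, .ofNat 321, .negSucc 81, .ofNat 0, .negSucc 81, .ofNat 715, .ofNat 0, .ofNat 174, .ofNat 57, .negSucc 37, .ofNat 0, .ofNat 128, .negSucc 5, .ofNat 0, .ofNat 0, .ofNat 226, .ofNat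 262, .ofNat 0, .ofNat 3292865104761070569493458513387535204352, .ofNat 0, .ofNat 0, .ofNat 0, .ofNat 90237531488591693170304394296186791526400, .ofNat 0, .ofNat 0, .ofNat 0, .ofNat 124375983578196766284828411878188580339712, .ofNat 0, .ofNat 0, .ofNat 0, .ofNat 28322378712659958661736841721399472029696, .ofNat 0, .ofNat 0⟩)
    (by decide +kernel)
theorem L00788 : Good (Phi V5.P V5.D 1 1) ⟨2, 2, 2, 0, 1, 0, 3, 6, 3, 3⟩ :=
  leafX_sound T5.ok_pp T5.Ypp.bz_eq (w := 182) (c := ⟨⟨.negSucc 1167, .negSucc 697, .negSucc 25, .negSucc 670, .negSucc 129, .ofNat 159⟩, ⟨.ofNat 72, .negSucc 464, .negSucc 279, .negSucc 186, .negSucc 32, .ofNat 40⟩, ⟨.ofNat 988, .ofNat 715, .negSucc 118, .ofNat 682, .negSucc 45, .negSucc 375⟩, ⟨.negSucc 2795, .negSucc 290, .ofNat 22, .negSucc 1095, .negSucc 204, .ofNat 242⟩, ⟨.ofNat 66, .negSucc 55, .negSucc 21, .negSucc 585, .negSucc 15,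 .ofNat 29⟩, .ofNat 321, .negSucc 93, .ofNat 0, .negSucc 93, .ofNat 719, .ofNat 0, .ofNat 189, .ofNat 60, .negSucc 59, .ofNat 0, .ofNat 128, .negSucc 14, .ofNat 0, .ofNat 0, .ofNat 475, .ofNat 688, .ofNat 0, .ofNat 0, .ofNat 0, .ofNat 0, .ofNat 0, .ofNat 0, .ofNat 0, .ofNat 0, .ofNat 0, .ofNat 0, .ofNat 0, .ofNat 0, .ofNat 577099080066262768717463339902435328, .ofNat 46047217227372121389189089502167040, .ofNat 28788502834084946129046896377856, .ofNat 0⟩)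
    (by decide +kernel)
theorem L00789 : Good (Phi V5.P V5.D 1 1) ⟨2, 2, 2, 0, 1, 0, 3, 7, 3, 3⟩ :=
  leafX_sound T5.ok_pp T5.Ypp.bz_eq (w := 182) (c := ⟨⟨.negSucc 1098, .negSucc 767, .negSucc 44, .negSucc 941, .negSucc 240, .ofNat 27⟩, ⟨.ofNat 76, .negSucc 496, .negSucc 308, .negSucc 196, .negSucc 22, .ofNat 23⟩, ⟨.ofNat 761, .ofNat 792, .negSucc 74, .ofNat 774, .ofNat 10, .negSucc 211⟩, ⟨.negSucc 2647, .negSucc 378, .negSucc 13, .negSucc 1693, .negSucc 473, .ofNat 28⟩, ⟨.negSucc 31, .negSucc 83, .ofNat 30, .negSucc 454, .ofNat 135, .ofNat 58⟩, .ofNat 321, .negSucc 84, .ofNat 0, .negSucc 84, .ofNat 715, .ofNat 0, .ofNat 211, .ofNat 54, .negSucc 74, .ofNat 0, .ofNat 128, .negSucc 17, .ofNat 0, .ofNat 0, .ofNat 416, .ofNat 448, .ofNat 0, .ofNat 1050038392121687895628809100066816, .ofNat 2638441611648076368800236175360, .ofNat 0, .ofNat 0, .ofNat 46590022662785679622038093085802496,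 .ofNat 0, .ofNat 0, .ofNat 0, .ofNat 38145540858763757185553523321864192, .ofNat 0, .ofNat 0, .ofNat 102604476621705302810579542088876032, .ofNat 61941045656265801768588302625013760, .ofNat 0, .ofNat 0⟩)
    (by decide +kernel)
theorem L00790 : Good (Phi V5.P V5.D 1 1) ⟨4, 12, 2, 0, 1, 0, 3, 6, 3, 2⟩ :=
  leafX_sound T5.ok_pp T5.Ypp.bz_eq (w := 191) (c := ⟨⟨.negSucc 1984, .negSucc 311, .ofNat 102, .negSucc 1050, .negSucc 223, .ofNat 239⟩, ⟨.negSucc 371, .negSucc 249, .negSucc 271, .negSucc 446, .negSucc 90, .ofNat 81⟩, ⟨.ofNat 1961, .ofNat 258, .negSucc 195, .ofNat 922, .ofNat 112, .negSucc 393⟩, ⟨.negSucc 3401, .negSucc 186, .ofNat 201, .negSucc 1432, .negSucc 314, .ofNat 400⟩, ⟨.negSucc 16, .negSucc 71, .ofNat 193, .negSucc 810, .negSucc 139, .negSucc 20⟩, .ofNat 475, .negSucc 381, .ofNat 0, .negSucc 381, .ofNat 1262, .ofNat 0, .ofNat 195, .ofNat 128, .negSucc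 83, .ofNat 0, .ofNat 120, .negSucc 27, .ofNat 0, .ofNat 0, .ofNat 414, .ofNat 939, .ofNat 0, .ofNat 0, .ofNat 0, .ofNat 0, .ofNat 0, .ofNat 0, .ofNat 41943733977426611514969669238784, .ofNat 0, .ofNat 0, .ofNat 0, .ofNat 158794767727014326781251806035968, .ofNat 0, .ofNat 0, .ofNat 0, .ofNat 20682948908903621525282909847552, .ofNat 0⟩)
    (by decide +kernel)
theorem L00791 : Good (Phi V5.P V5.D 1 1) ⟨4, 12, 2, 0, 1, 0, 3, 7, 3, 2⟩ :=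
  leafX_sound T5.ok_pp T5.Ypp.bz_eq (w := 191) (c := ⟨⟨.negSucc 1835, .negSucc 215, .ofNat 73, .negSucc 1673, .negSucc 336, .ofNat 161⟩, ⟨.negSucc 314, .negSucc 252, .negSucc 284, .negSucc 681, .negSucc 118, .ofNat 56⟩, ⟨.ofNat 1705, .ofNat 190, .negSucc 197, .ofNat 1522, .ofNat 131, .negSucc 381⟩, ⟨.negSucc 3154, .ofNat 26, .ofNat 152, .negSucc 2367, .negSucc 520, .ofNat 255⟩, ⟨.ofNat 112, .negSucc 16, .ofNat 29, .negSucc 1088, .negSucc 82, .ofNat 15⟩, .ofNat 475, .negSucc 383, .ofNat 0, .negSucc 383, .ofNat 1275, .ofNat 0, .ofNat 270, .ofNat 128, .negSucc 161, .ofNat 0, .ofNat 119, .negSucc 54, .ofNat 0, .ofNat 0, .ofNat 596, .ofNat 395, .ofNat 0, .ofNat 437508696218747427549866986253058048, .ofNat 4020535820751899427055528312832, .ofNat 0, .ofNat 0, .ofNat 24734134831778841213973504105507717120, .ofNat 49876463247617212798455898963968, .ofNat 0, .ofNat 0,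 .ofNat 12118115858434006143011360630969991168, .ofNat 75635075156812022734889729130496, .ofNat 0, .ofNat 0, .ofNat 16367096962940594674129122564264427520, .ofNat 0, .ofNat 0⟩)
    (by decide +kernel)
theorem L00792 : Good (Phi V5.P V5.D 1 1) ⟨4, 13, 2, 0, 1, 0, 2, 3, 3, 2⟩ :=
  out_sound (S := T5.ds_pp) T5.ok_pp (w := 49) (j := 3) (by decide +kernel)
theorem L00793 : Good (Phi V5.P V5.D 1 1) ⟨3, 7, 2, 0, 1, 0, 2, 3, 3, 2⟩ :=
  out_sound (S := T5.ds_pp) T5.ok_pp (w := 43) (j := 3) (by decide +kernel)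
theorem L00794 : Good (Phi V5.P V5.D 1 1) ⟨2, 3, 2, 0, 2, 0, 2, 3, 3, 3⟩ :=
  leafX_sound T5.ok_pp T5.Ypp.bz_eq (w := 193) (c := ⟨⟨.negSucc 1774, .negSucc 1040, .ofNat 88, .negSucc 502, .negSucc 421, .ofNat 82⟩, ⟨.negSucc 353, .negSucc 810, .negSucc 240, .negSucc 198, .negSucc 147, .ofNat 28⟩, ⟨.ofNat 1594, .ofNat 1062, .negSucc 157, .ofNat 421, .ofNat 49, .negSucc 203⟩, ⟨.negSucc 2973, .negSucc 618, .ofNat 144, .negSucc 728, .negSucc 675, .ofNat 129⟩, ⟨.negSucc 6, .negSucc 120, .ofNat 48, .negSucc 272, .negSucc 38, .ofNat 12⟩, .ofNat 473, .negSucc 377, .ofNat 0, .negSucc 377, .ofNat 1259, .ofNat 0, .ofNat 200, .ofNat 128, .negSucc 75, .ofNat 0, .ofNat 124, .negSucc 27, .ofNat 0, .ofNat 0, .ofNat 422, .ofNat 906, .ofNat 41218569517812864716948213609481109504, .ofNat 0, .ofNat 18600488928719191083118672306241536, .ofNat 0, .ofNat 0, .ofNat 90039433204236781130360223267666526208,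 .ofNat 1012894295828637510047655471035187200, .ofNat 0, .ofNat 0, .ofNat 76232859367357994888873096903823196160, .ofNat 3549664687224242136191692066191835136, .ofNat 0, .ofNat 0, .ofNat 4281842471912316307520861758786895872, .ofNat 296779313736650812814611373921140736, .ofNat 0⟩)
    (by decide +kernel)
theorem L00795 : Good (Phi V5.P V5.D 1 1) ⟨2, 3, 2, 0, 2, 1, 2, 3, 3, 3⟩ :=
  leafX_sound T5.ok_pp T5.Ypp.bz_eq (w := 194) (c := ⟨⟨.negSucc 2121, .negSucc 952, .negSucc 48, .negSucc 441, .negSucc 718, .ofNat 203⟩, ⟨.negSucc 478, .negSucc 951, .negSucc 297, .negSucc 198, .negSucc 273, .ofNat 75⟩, ⟨.ofNat 2108, .ofNat 1025, .negSucc 244, .ofNat 312, .ofNat 258, .negSucc 422⟩, ⟨.negSucc 3515, .negSucc 259, .negSucc 18, .negSucc 551, .negSucc 1081, .ofNat 313⟩, ⟨.negSucc 224, .ofNat 12, .negSucc 8, .negSucc 494, .negSucc 265, .ofNat 47⟩, .ofNat 471, .negSucc 373,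 .ofNat 0, .negSucc 373, .ofNat 1250, .ofNat 0, .ofNat 186, .ofNat 128, .negSucc 59, .ofNat 0, .ofNat 123, .negSucc 26, .ofNat 0, .ofNat 0, .ofNat 555, .ofNat 894, .ofNat 0, .ofNat 1137690553267979204767728434988187648, .ofNat 234346231184574776582308246629384192, .ofNat 0, .ofNat 0, .ofNat 94043188520989553989623241884756344832, .ofNat 1944697062801235850326935236968972288, .ofNat 0, .ofNat 0, .ofNat 96862643920479457817321345328294658048, .ofNat 3839688619951051186241127869122084864, .ofNat 0, .ofNat 0, .ofNat 77605863871937329143439160607921668096, .ofNat 275076995498565685396909742612283392, .ofNat 0⟩)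
    (by decide +kernel)
theorem L00796 : Good (Phi V5.P V5.D 1 1) ⟨1, 1, 2, 0, 1, 0, 1, 1, 1, 1⟩ :=
  leafX_sound T5.ok_pp T5.Ypp.bz_eq (w := 171) (c := ⟨⟨.negSucc 1379, .negSucc 1226, .negSucc 16, .ofNat 1, .negSucc 0, .ofNat 1⟩, ⟨.ofNat 20, .negSucc 925, .negSucc 263, .ofNat 0, .ofNat 0, .ofNat 0⟩, ⟨.ofNat 683, .ofNat 1226, .ofNat 18, .negSucc 0, .ofNat 1, .negSucc 0⟩, ⟨.negSucc 3066, .negSucc 558, .negSucc 5, .ofNat 2, .negSucc 1, .ofNat 2⟩, ⟨.negSucc 4, .ofNat 16, .ofNat 2, .ofNat 0, .ofNat 0, .ofNat 0⟩, .ofNat 167, .negSucc 18, .ofNat 0, .negSucc 18, .ofNat 237, .ofNat 0, .ofNat 163, .ofNat 23, .negSucc 139, .ofNat 0, .ofNat 128, .negSucc 14, .ofNat 0, .ofNat 0, .ofNat 333, .ofNat 1751, .ofNat 2284810297253964982664980070400000000, .ofNat 87877160999666295343554440055488512, .ofNat 280563233340136584732737536, .ofNat 0, .ofNat 4745026259944689274534171498250240,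 .ofNat 233126755353904535979760665231360, .ofNat 2697232588444146161294508032, .ofNat 0, .ofNat 146227859024253758890558724505600000000, .ofNat 6897544012399395154706014231685234688, .ofNat 2253891352703531285668167680, .ofNat 0, .ofNat 4225463849105108198880523453464576, .ofNat 208667188798189526783763626852352, .ofNat 3112520004569989679788589056, .ofNat 0⟩)
    (by decide +kernel)
theorem L00797 : Good (Phi V5.P V5.D 1 1) ⟨2, 2, 2, 0, 3, 4, 4, 0, 5, 0⟩ :=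
  leafX_sound T5.ok_pp T5.Ypp.bz_eq (w := 225) (c := ⟨⟨.ofNat 1700, .ofNat 692, .negSucc 107, .ofNat 132, .ofNat 143, .negSucc 1141⟩, ⟨.ofNat 90, .ofNat 397, .ofNat 251, .ofNat 40, .ofNat 17, .negSucc 245⟩, ⟨.negSucc 1040, .negSucc 358, .ofNat 140, .negSucc 310, .negSucc 129, .ofNat 267⟩, ⟨.ofNat 3608, .ofNat 602, .negSucc 234, .ofNat 185, .ofNat 313, .negSucc 2180⟩, ⟨.negSucc 58, .negSucc 124, .negSucc 163, .ofNat 305, .ofNat 166, .negSucc 221⟩, .ofNat 323, .negSucc 90, .ofNat 0, .negSucc 90, .ofNat 757, .ofNat 0, .ofNat 186, .ofNat 84, .negSucc 61, .ofNat 0, .ofNat 128, .negSucc 2, .ofNat 0, .ofNat 0, .ofNat 201, .ofNat 7225, .ofNat 0, .ofNat 0, .ofNat 0, .ofNat 0, .ofNat 2236836823727590677315323085887115141515837440, .ofNat 0, .ofNat 0, .ofNat 0, .ofNat 0, .ofNat 0, .ofNat 0, .ofNat 0, .ofNat 0, .ofNat 0, .ofNat 0, .ofNat 0⟩)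
    (by decide +kernel)
theorem L00798 : Good (Phi V5.P V5.D 1 1) ⟨2, 2, 2, 0, 3, 5, 4, 0, 5, 0⟩ :=
  leafX_sound T5.ok_pp T5.Ypp.bz_eq (w := 225) (c := ⟨⟨.ofNat 1898, .ofNat 662, .negSucc 95, .negSucc 79, .ofNat 268, .negSucc 1352⟩, ⟨.ofNat 212, .ofNat 425, .ofNat 144, .negSucc 15, .ofNat 72, .negSucc 324⟩, ⟨.negSucc 1317, .negSucc 593, .ofNat 189, .negSucc 750, .negSucc 44, .ofNat 265⟩, ⟨.ofNat 3907, .ofNat 417, .negSucc 221, .negSucc 305, .ofNat 465, .negSucc 2372⟩, ⟨.ofNat 484, .negSucc 143, .negSucc 370, .ofNat 866, .ofNat 110, .negSucc 334⟩, .ofNat 322, .negSucc 89, .ofNat 0, .negSucc 89, .ofNat 719, .ofNat 0, .ofNat 183, .ofNat 66, .negSucc 81, .ofNat 0, .ofNat 128, .negSucc 6, .ofNat 0, .ofNat 0, .ofNat 232, .ofNat 5359, .ofNat 0, .ofNat 0, .ofNat 0, .ofNat 0, .ofNat 2521034878592014304443748529277812795601059840, .ofNat 0, .ofNat 0, .ofNat 0, .ofNat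 0, .ofNat 0, .ofNat 0, .ofNat 0, .ofNat 0, .ofNat 0, .ofNat 0, .ofNat 0⟩)
    (by decide +kernel)
theorem L00799 : Good (Phi V5.P V5.D 1 1) ⟨2, 2, 2, 0, 2, 2, 4, 1, 5, 0⟩ :=
  leafX_sound T5.ok_pp T5.Ypp.bz_eq (w := 211) (c := ⟨⟨.ofNat 1780, .ofNat 932, .negSucc 159, .ofNat 137, .ofNat 209, .negSucc 1130⟩, ⟨.ofNat 44, .ofNat 567, .ofNat 219, .ofNat 55, .ofNat 74, .negSucc 234⟩, ⟨.negSucc 981, .negSucc 581, .ofNat 57, .negSucc 946, .negSucc 81, .ofNat 245⟩, ⟨.ofNat 4035, .ofNat 695, .negSucc 327, .ofNat 2, .ofNat 312, .negSucc 2232⟩, ⟨.ofNat 228, .negSucc 243, .negSucc 239, .ofNat 1304, .ofNat 48, .negSucc 545⟩, .ofNat 322, .negSucc 85, .ofNat 0, .negSucc 85, .ofNat 724, .ofNat 0, .ofNat 346, .ofNat 80, .negSucc 135, .ofNat 0, .ofNat 128, .negSucc 7, .ofNat 0, .ofNat 0, .ofNat 317, .ofNat 3427, .ofNat 0, .ofNat 0, .ofNat 0, .ofNat 0, .ofNat 0, .ofNat 0, .ofNat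 0, .ofNat 0, .ofNat 0, .ofNat 0, .ofNat 15923197047642271577108863684025669124096, .ofNat 0, .ofNat 0, .ofNat 0, .ofNat 0, .ofNat 0⟩)
    (by decide +kernel)
theorem L00800 : Good (Phi V5.P V5.D 1 1) ⟨2, 2, 2, 0, 2, 2, 3, 1, 6, 0⟩ :=
  leafX_sound T5.ok_pp T5.Ypp.bz_eq (w := 211) (c := ⟨⟨.ofNat 1830, .ofNat 1364, .negSucc 51, .ofNat 103, .ofNat 200, .negSucc 731⟩, ⟨.negSucc 19, .ofNat 785, .ofNat 316, .ofNat 49, .ofNat 64, .negSucc 195⟩, ⟨.negSucc 1129, .negSucc 662, .ofNat 13, .negSucc 771, .negSucc 78, .ofNat 180⟩, ⟨.ofNat 4187, .ofNat 1217, .negSucc 185, .negSucc 39, .ofNat 365, .negSucc 1359⟩, ⟨.ofNat 458, .negSucc 358, .negSucc 326, .ofNat 1378, .ofNat 200, .negSucc 295⟩, .ofNat 320, .negSucc 94, .ofNat 0, .negSucc 94, .ofNat 709, .ofNat 0, .ofNat 275, .ofNat 108, .negSucc 152, .ofNat 0, .ofNat 128, .negSucc 13, .ofNat 0, .ofNat 0, .ofNat 257, .ofNat 1505,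 .ofNat 0, .ofNat 0, .ofNat 8321367106344786641864280512234254237696, .ofNat 0, .ofNat 0, .ofNat 0, .ofNat 0, .ofNat 0, .ofNat 0, .ofNat 0, .ofNat 73472717850302344466415333823411927384064, .ofNat 0, .ofNat 0, .ofNat 0, .ofNat 0, .ofNat 0⟩)
    (by decide +kernel)
theorem L00801 : Good (Phi V5.P V5.D 1 1) ⟨2, 2, 2, 0, 2, 2, 3, 1, 6, 1⟩ :=
  leafX_sound T5.ok_pp T5.Ypp.bz_eq (w := 211) (c := ⟨⟨.ofNat 1341, .ofNat 903, .negSucc 136, .ofNat 161, .ofNat 158, .negSucc 651⟩, ⟨.ofNat 4, .ofNat 482, .ofNat 189, .ofNat 54, .ofNat 54, .negSucc 108⟩, ⟨.negSucc 992, .negSucc 530, .ofNat 97, .negSucc 811, .negSucc 0, .ofNat 183⟩, ⟨.ofNat 3120, .ofNat 780, .negSucc 345, .ofNat 105, .ofNat 243, .negSucc 1248⟩, ⟨.ofNat 53, .negSucc 331, .negSucc 279, .ofNat 1291, .ofNat 176, .negSucc 240⟩, .ofNat 321, .negSucc 82, .ofNat 0, .negSucc 82, .ofNat 716, .ofNat 0, .ofNat 399, .ofNat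 86, .negSucc 261, .ofNat 0, .ofNat 128, .negSucc 12, .ofNat 0, .ofNat 0, .ofNat 460, .ofNat 1413, .ofNat 0, .ofNat 0, .ofNat 0, .ofNat 0, .ofNat 0, .ofNat 0, .ofNat 0, .ofNat 0, .ofNat 0, .ofNat 0, .ofNat 0, .ofNat 0, .ofNat 0, .ofNat 0, .ofNat 0, .ofNat 0⟩)
    (by decide +kernel)
theorem L00802 : Good (Phi V5.P V5.D 1 1) ⟨2, 2, 2, 0, 2, 2, 2, 0, 5, 1⟩ :=
  leafX_sound T5.ok_pp T5.Ypp.bz_eq (w := 202) (c := ⟨⟨.ofNat 730, .ofNat 195, .negSucc 86, .ofNat 52, .ofNat 337, .negSucc 1103⟩, ⟨.ofNat 41, .ofNat 146, .ofNat 11, .ofNat 92, .ofNat 58, .negSucc 206⟩, ⟨.negSucc 896, .negSucc 412, .ofNat 342, .negSucc 1031, .ofNat 300, .ofNat 364⟩, ⟨.ofNat 1657, .ofNat 133, .negSucc 222, .negSucc 146, .ofNat 649, .negSucc 2122⟩, ⟨.negSucc 441, .ofNat 215, .negSucc 422, .ofNat 1082, .ofNat 96, .ofNat 9⟩, .ofNat 321, .negSucc 85, .ofNat 0, .negSucc 85, .ofNat 712, .ofNat 0,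 .ofNat 356, .ofNat 71, .negSucc 192, .ofNat 0, .ofNat 128, .negSucc 3, .ofNat 0, .ofNat 0, .ofNat 411, .ofNat 1303, .ofNat 0, .ofNat 0, .ofNat 0, .ofNat 0, .ofNat 0, .ofNat 0, .ofNat 0, .ofNat 0, .ofNat 0, .ofNat 0, .ofNat 0, .ofNat 0, .ofNat 0, .ofNat 0, .ofNat 0, .ofNat 0⟩)
    (by decide +kernel)
theorem L00803 : Good (Phi V5.P V5.D 1 1) ⟨2, 2, 2, 0, 2, 2, 2, 0, 4, 1⟩ :=
  leafX_sound T5.ok_pp T5.Ypp.bz_eq (w := 196) (c := ⟨⟨.negSucc 193, .negSucc 391, .negSucc 23, .ofNat 135, .negSucc 37, .negSucc 1348⟩, ⟨.ofNat 84, .negSucc 237, .negSucc 200, .ofNat 124, .negSucc 25, .negSucc 259⟩, ⟨.negSucc 606, .negSucc 279, .ofNat 259, .negSucc 1070, .ofNat 810, .ofNat 783⟩, ⟨.negSucc 446, .negSucc 224, .negSucc 7, .negSucc 86, .negSucc 40, .negSucc 2613⟩, ⟨.negSucc 664, .ofNat 312, .negSucc 450, .ofNat 978, .ofNat 195, .ofNat 132⟩, .ofNat 323, .negSucc 90, .ofNat 0,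 .negSucc 90, .ofNat 757, .ofNat 0, .ofNat 274, .ofNat 68, .negSucc 156, .ofNat 0, .ofNat 128, .ofNat 4, .ofNat 0, .ofNat 0, .ofNat 392, .ofNat 1198, .ofNat 391562825719458377400036676854838460416, .ofNat 0, .ofNat 0, .ofNat 0, .ofNat 0, .ofNat 0, .ofNat 0, .ofNat 0, .ofNat 0, .ofNat 0, .ofNat 0, .ofNat 0, .ofNat 0, .ofNat 0, .ofNat 0, .ofNat 0⟩)
    (by decide +kernel)
theorem L00804 : Good (Phi V5.P V5.D 1 1) ⟨3, 4, 2, 0, 3, 6, 3, 0, 4, 0⟩ :=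
  leafX_sound T5.ok_pp T5.Ypp.bz_eq (w := 220) (c := ⟨⟨.ofNat 1681, .ofNat 186, .negSucc 217, .negSucc 147, .ofNat 281, .negSucc 1906⟩, ⟨.ofNat 237, .ofNat 83, .negSucc 28, .ofNat 9, .ofNat 58, .negSucc 293⟩, ⟨.negSucc 2102, .negSucc 336, .ofNat 494, .ofNat 267, .negSucc 56, .ofNat 554⟩, ⟨.ofNat 3574, .ofNat 38, .negSucc 613, .negSucc 618, .ofNat 605, .negSucc 3825⟩, ⟨.ofNat 1898, .negSucc 25, .negSucc 860, .ofNat 1318, .ofNat 48, .negSucc 1029⟩, .ofNat 332, .negSucc 68, .ofNat 0, .negSucc 68, .ofNat 780, .ofNat 0, .ofNat 390, .ofNat 4, .negSucc 482, .ofNat 0, .ofNat 128, .negSucc 21, .ofNat 0, .ofNat 0, .ofNat 886, .ofNat 2691, .ofNat 0, .ofNat 0, .ofNat 0, .ofNat 0, .ofNat 0, .ofNat 0, .ofNat 447015616025748254890275432607245198688256, .ofNat 0, .ofNat 0, .ofNat 0, .ofNat 137059896144280524211817223367543824056320, .ofNat 0, .ofNat 0, .ofNat 0, .ofNat 0, .ofNat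 0⟩)
    (by decide +kernel)
theorem L00805 : Good (Phi V5.P V5.D 1 1) ⟨3, 4, 2, 0, 3, 6, 3, 1, 4, 0⟩ :=
  leafX_sound T5.ok_pp T5.Ypp.bz_eq (w := 220) (c := ⟨⟨.ofNat 1940, .ofNat 311, .negSucc 184, .negSucc 135, .ofNat 55, .negSucc 2011⟩, ⟨.ofNat 258, .ofNat 160, .ofNat 31, .ofNat 12, .ofNat 0, .negSucc 365⟩, ⟨.negSucc 2080, .negSucc 337, .ofNat 251, .ofNat 93, .ofNat 153, .ofNat 810⟩, ⟨.ofNat 4154, .ofNat 231, .negSucc 589, .negSucc 609, .ofNat 111, .negSucc 4021⟩, ⟨.ofNat 1884, .ofNat 1, .negSucc 601, .ofNat 1352, .negSucc 20, .negSucc 1394⟩, .ofNat 332, .negSucc 66, .ofNat 0, .negSucc 66, .ofNat 776, .ofNat 0, .ofNat 293, .ofNat 51, .negSucc 354, .ofNat 0, .ofNat 128, .negSucc 11, .ofNat 0, .ofNat 0, .ofNat 498, .ofNat 1837, .ofNat 0, .ofNat 0, .ofNat 0, .ofNat 0, .ofNat 0, .ofNat 0, .ofNat 0, .ofNat 0, .ofNat 0, .ofNat 0, .ofNat 154895122949959535930301643666311572619264,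 .ofNat 0, .ofNat 0, .ofNat 0, .ofNat 462855949875223403132794791903968695943168, .ofNat 0⟩)
    (by decide +kernel)
theorem L00806 : Good (Phi V5.P V5.D 1 1) ⟨3, 4, 2, 0, 3, 7, 2, 0, 4, 0⟩ :=
  leafX_sound T5.ok_pp T5.Ypp.bz_eq (w := 216) (c := ⟨⟨.ofNat 878, .ofNat 186, .negSucc 227, .negSucc 431, .ofNat 250, .negSucc 1118⟩, ⟨.ofNat 232, .ofNat 77, .negSucc 177, .negSucc 24, .ofNat 8, .negSucc 176⟩, ⟨.negSucc 1048, .negSucc 301, .ofNat 391, .ofNat 1309, .negSucc 228, .ofNat 41⟩, ⟨.ofNat 1708, .ofNat 164, .negSucc 776, .negSucc 1000, .ofNat 567, .negSucc 2234⟩, ⟨.ofNat 3351, .ofNat 86, .negSucc 813, .ofNat 502, .negSucc 400, .negSucc 1131⟩, .ofNat 460, .negSucc 199, .ofNat 0, .negSucc 199, .ofNat 1937, .ofNat 0, .ofNat 397, .ofNat 112, .negSucc 322, .ofNat 0, .ofNat 128, .negSucc 30, .ofNat 0, .ofNat 0, .ofNat 575, .ofNat 1608, .ofNat 0, .ofNat 0, .ofNat 0, .ofNat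 0, .ofNat 0, .ofNat 0, .ofNat 0, .ofNat 0, .ofNat 0, .ofNat 0, .ofNat 56160819203799047380053263211678333403136, .ofNat 0, .ofNat 0, .ofNat 0, .ofNat 23293646665966199828006330704193296269312, .ofNat 0⟩)
    (by decide +kernel)
theorem L00807 : Good (Phi V5.P V5.D 1 1) ⟨3, 5, 2, 0, 3, 6, 4, 0, 4, 0⟩ :=
  leafX_sound T5.ok_pp T5.Ypp.bz_eq (w := 223) (c := ⟨⟨.ofNat 2209, .ofNat 252, .negSucc 270, .negSucc 95, .ofNat 123, .negSucc 2360⟩, ⟨.ofNat 607, .ofNat 241, .negSucc 99, .ofNat 47, .ofNat 17, .negSucc 704⟩, ⟨.negSucc 2886, .negSucc 305, .ofNat 592, .ofNat 175, .ofNat 84, .ofNat 1002⟩, ⟨.ofNat 3816, .ofNat 85, .negSucc 519, .negSucc 457, .ofNat 191, .negSucc 3985⟩, ⟨.ofNat 1575, .negSucc 42, .negSucc 892, .ofNat 1217, .ofNat 138, .negSucc 472⟩, .ofNat 455, .negSucc 322, .ofNat 0, .negSucc 322, .ofNat 1516, .ofNat 0, .ofNat 165, .ofNat 128, .negSucc 181, .ofNat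 0, .ofNat 100, .negSucc 36, .ofNat 0, .ofNat 0, .ofNat 385, .ofNat 2202, .ofNat 0, .ofNat 0, .ofNat 0, .ofNat 0, .ofNat 5560204026433107709476940458706356027088961536, .ofNat 0, .ofNat 1813926985857032326846875822912757005549568, .ofNat 0, .ofNat 0, .ofNat 0, .ofNat 0, .ofNat 0, .ofNat 0, .ofNat 0, .ofNat 0, .ofNat 0⟩)
    (by decide +kernel)
theorem L00808 : Good (Phi V5.P V5.D 1 1) ⟨3, 5, 2, 0, 3, 6, 4, 1, 4, 0⟩ :=
  leafX_sound T5.ok_pp T5.Ypp.bz_eq (w := 223) (c := ⟨⟨.ofNat 2511, .ofNat 266, .negSucc 136, .negSucc 152, .ofNat 142, .negSucc 2735⟩, ⟨.ofNat 573, .ofNat 303, .negSucc 25, .ofNat 28, .ofNat 79, .negSucc 763⟩, ⟨.negSucc 2702, .negSucc 386, .ofNat 291, .ofNat 56, .ofNat 66, .ofNat 1200⟩, ⟨.ofNat 4346, .ofNat 145, .negSucc 339, .negSucc 554, .ofNat 224, .negSucc 4614⟩, ⟨.ofNat 1923, .negSucc 267, .negSucc 517, .ofNat 1088, .negSucc 216, .negSucc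 763⟩, .ofNat 458, .negSucc 328, .ofNat 0, .negSucc 328, .ofNat 1544, .ofNat 0, .ofNat 129, .ofNat 128, .negSucc 155, .ofNat 0, .ofNat 90, .negSucc 29, .ofNat 0, .ofNat 0, .ofNat 287, .ofNat 1097, .ofNat 0, .ofNat 0, .ofNat 247848738590325379117542435287726215397376, .ofNat 0, .ofNat 0, .ofNat 0, .ofNat 0, .ofNat 0, .ofNat 0, .ofNat 0, .ofNat 0, .ofNat 0, .ofNat 0, .ofNat 0, .ofNat 0, .ofNat 0⟩)
    (by decide +kernel)
theorem L00809 : Good (Phi V5.P V5.D 1 1) ⟨4, 10, 2, 0, 3, 6, 3, 1, 4, 0⟩ :=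
  leafX_sound T5.ok_pp T5.Ypp.bz_eq (w := 224) (c := ⟨⟨.ofNat 2669, .ofNat 88, .negSucc 271, .negSucc 139, .ofNat 58, .negSucc 2663⟩, ⟨.ofNat 599, .ofNat 125, .negSucc 11, .negSucc 5, .negSucc 22, .negSucc 623⟩, ⟨.negSucc 2687, .negSucc 90, .ofNat 307, .ofNat 75, .ofNat 242, .ofNat 1202⟩, ⟨.ofNat 4797, .negSucc 43, .negSucc 657, .negSucc 517, .ofNat 143, .negSucc 4704⟩, ⟨.ofNat 2047, .negSucc 129, .negSucc 678, .ofNat 1220, .ofNat 33, .negSucc 1503⟩, .ofNat 456, .negSucc 306, .ofNat 0, .negSucc 306, .ofNat 1720, .ofNat 0, .ofNat 172, .ofNat 128, .negSucc 226, .ofNat 0, .ofNat 84, .negSucc 35, .ofNat 0, .ofNat 0, .ofNat 365, .ofNat 935, .ofNat 0, .ofNat 0, .ofNat 0, .ofNat 0, .ofNat 0, .ofNat 0, .ofNat 0, .ofNat 0, .ofNat 0, .ofNat 0, .ofNat 128699139334875482085987717013879662837760, .ofNat 0, .ofNat 0, .ofNat 0, .ofNat 0, .ofNat 0⟩)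
    (by decide +kernel)
theorem L00810 : Good (Phi V5.P V5.D 1 1) ⟨4, 11, 3, 0, 3, 6, 3, 1, 4, 0⟩ :=
  leafX_sound T5.ok_pp T5.Ypp.bz_eq (w := 227) (c := ⟨⟨.ofNat 3103, .ofNat 200, .negSucc 18, .negSucc 106, .ofNat 317, .negSucc 3539⟩, ⟨.ofNat 787, .ofNat 225, .ofNat 53, .ofNat 106, .ofNat 103, .negSucc 993⟩, ⟨.negSucc 2940, .negSucc 183, .ofNat 10, .negSucc 33, .ofNat 184, .ofNat 1763⟩, ⟨.ofNat 5189, .ofNat 99, .negSucc 173, .negSucc 492, .ofNat 503, .negSucc 5798⟩, ⟨.ofNat 1910, .negSucc 112, .negSucc 303, .ofNat 1235, .ofNat 28, .negSucc 1253⟩, .ofNat 420, .negSucc 224, .ofNat 0, .negSucc 224, .ofNat 1181, .ofNat 0, .ofNat 147, .ofNat 128, .negSucc 185, .ofNat 0, .ofNat 112, .negSucc 26, .ofNat 0, .ofNat 0, .ofNat 266, .ofNat 1009, .ofNat 0, .ofNat 0, .ofNat 20651485660594091514419358758903834738688, .ofNat 0, .ofNat 0, .ofNat 0, .ofNat 56483172696194840618995469152174993309696,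 .ofNat 0, .ofNat 0, .ofNat 0, .ofNat 0, .ofNat 0, .ofNat 0, .ofNat 0, .ofNat 0, .ofNat 0⟩)
    (by decide +kernel)
theorem L00811 : Good (Phi V5.P V5.D 1 1) ⟨4, 11, 3, 1, 3, 6, 3, 1, 4, 0⟩ :=
  leafX_sound T5.ok_pp T5.Ypp.bz_eq (w := 227) (c := ⟨⟨.ofNat 3079, .ofNat 177, .negSucc 247, .negSucc 138, .ofNat 169, .negSucc 3345⟩, ⟨.ofNat 923, .ofNat 216, .negSucc 48, .ofNat 14, .ofNat 45, .negSucc 1046⟩, ⟨.negSucc 2971, .negSucc 194, .ofNat 229, .ofNat 65, .ofNat 223, .ofNat 1693⟩, ⟨.ofNat 5049, .ofNat 61, .negSucc 423, .negSucc 607, .ofNat 293, .negSucc 5499⟩, ⟨.ofNat 1650, .negSucc 118, .negSucc 418, .ofNat 1118, .ofNat 30, .negSucc 1050⟩, .ofNat 473, .negSucc 381, .ofNat 0, .negSucc 381, .ofNat 1520, .ofNat 0, .ofNat 128, .ofNat 229, .negSucc 311, .ofNat 0, .ofNat 137, .negSucc 71, .ofNat 0, .ofNat 0, .ofNat 448, .ofNat 1527, .ofNat 0, .ofNat 0, .ofNat 0, .ofNat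 0, .ofNat 0, .ofNat 0, .ofNat 0, .ofNat 0, .ofNat 0, .ofNat 0, .ofNat 0, .ofNat 0, .ofNat 0, .ofNat 0, .ofNat 0, .ofNat 0⟩)
    (by decide +kernel)
theorem L00812 : Good (Phi V5.P V5.D 1 1) ⟨3, 5, 2, 0, 3, 7, 3, 0, 4, 0⟩ :=
  leafX_sound T5.ok_pp T5.Ypp.bz_eq (w := 219) (c := ⟨⟨.ofNat 1256, .ofNat 285, .negSucc 339, .negSucc 343, .ofNat 529, .negSucc 1517⟩, ⟨.ofNat 483, .ofNat 348, .negSucc 312, .negSucc 41, .ofNat 111, .negSucc 445⟩, ⟨.negSucc 1541, .negSucc 313, .ofNat 651, .ofNat 1692, .negSucc 541, .ofNat 82⟩, ⟨.ofNat 1882, .ofNat 144, .negSucc 761, .negSucc 794, .ofNat 962, .negSucc 2510⟩, ⟨.ofNat 3135, .negSucc 304, .negSucc 767, .ofNat 446, .negSucc 179, .negSucc 286⟩, .ofNat 449, .negSucc 302, .ofNat 0, .negSucc 302, .ofNat 1525, .ofNat 0, .ofNat 162, .ofNat 128, .negSucc 205, .ofNat 0, .ofNat 107, .negSucc 40, .ofNat 0, .ofNat 0, .ofNat 321, .ofNat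 600, .ofNat 0, .ofNat 0, .ofNat 9510035208911902471512737973030782763008, .ofNat 0, .ofNat 257243105467099091228252371044965278170480640, .ofNat 0, .ofNat 67036556841645143441152077765444043276288, .ofNat 0, .ofNat 0, .ofNat 0, .ofNat 0, .ofNat 0, .ofNat 0, .ofNat 0, .ofNat 0, .ofNat 0⟩)
    (by decide +kernel)
theorem L00813 : Good (Phi V5.P V5.D 1 1) ⟨4, 10, 2, 0, 3, 7, 3, 1, 4, 0⟩ :=
  leafX_sound T5.ok_pp T5.Ypp.bz_eq (w := 223) (c := ⟨⟨.ofNat 1782, .ofNat 148, .negSucc 201, .negSucc 229, .ofNat 76, .negSucc 1836⟩, ⟨.ofNat 506, .ofNat 169, .negSucc 170, .negSucc 7, .negSucc 23, .negSucc 418⟩, ⟨.negSucc 1825, .negSucc 98, .ofNat 213, .ofNat 1226, .negSucc 9, .ofNat 412⟩, ⟨.ofNat 3006, .ofNat 103, .negSucc 699, .negSucc 597, .ofNat 194, .negSucc 3260⟩, ⟨.ofNat 3236, .negSucc 387, .negSucc 569, .ofNat 623, .negSucc 36, .negSucc 1143⟩, .ofNat 456, .negSucc 306,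 .ofNat 0, .negSucc 306, .ofNat 1725, .ofNat 0, .ofNat 212, .ofNat 128, .negSucc 293, .ofNat 0, .ofNat 86, .negSucc 48, .ofNat 0, .ofNat 0, .ofNat 403, .ofNat 882, .ofNat 0, .ofNat 0, .ofNat 0, .ofNat 0, .ofNat 0, .ofNat 0, .ofNat 0, .ofNat 0, .ofNat 0, .ofNat 0, .ofNat 62988766781250541162281965493930713677824, .ofNat 0, .ofNat 0, .ofNat 0, .ofNat 0, .ofNat 0⟩)
    (by decide +kernel)
theorem L00814 : Good (Phi V5.P V5.D 1 1) ⟨4, 11, 2, 0, 3, 7, 3, 1, 4, 0⟩ :=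
  leafX_sound T5.ok_pp T5.Ypp.bz_eq (w := 223) (c := ⟨⟨.ofNat 2490, .ofNat 114, .negSucc 479, .ofNat 34, .ofNat 179, .negSucc 2542⟩, ⟨.ofNat 891, .ofNat 203, .negSucc 256, .ofNat 67, .negSucc 21, .negSucc 754⟩, ⟨.negSucc 2395, .negSucc 67, .ofNat 439, .ofNat 1255, .negSucc 45, .ofNat 826⟩, ⟨.ofNat 3822, .ofNat 14, .negSucc 1093, .negSucc 164, .ofNat 358, .negSucc 4114⟩, ⟨.ofNat 2966, .negSucc 91, .negSucc 445, .ofNat 792, .ofNat 262, .negSucc 1418⟩, .ofNat 459, .negSucc 341, .ofNat 0, .negSucc 341, .ofNat 1422, .ofNat 0, .ofNat 128, .ofNat 150, .negSucc 167, .ofNat 0, .ofNat 97, .negSucc 36, .ofNat 0, .ofNat 0, .ofNat 210, .ofNat 343, .ofNat 0, .ofNat 0, .ofNat 7690504470487886863211331941707827642368, .ofNat 0, .ofNat 0, .ofNat 0, .ofNat 19987313146564086397649905025255173259264, .ofNat 0, .ofNat 0, .ofNat 0, .ofNat 0, .ofNat 0, .ofNat 0, .ofNat 0, .ofNat 14143859707294868454154865731195220525056,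 .ofNat 0⟩)
    (by decide +kernel)
theorem L00815 : Good (Phi V5.P V5.D 1 1) ⟨3, 4, 2, 0, 2, 3, 3, 0, 5, 2⟩ :=
  leafX_sound T5.ok_pp T5.Ypp.bz_eq (w := 211) (c := ⟨⟨.negSucc 284, .ofNat 38, .negSucc 53, .ofNat 11, .ofNat 18, .negSucc 650⟩, ⟨.ofNat 79, .negSucc 3, .negSucc 238, .ofNat 66, .negSucc 3, .negSucc 90⟩, ⟨.negSucc 1611, .negSucc 206, .ofNat 449, .ofNat 1227, .ofNat 131, .ofNat 321⟩, ⟨.negSucc 584, .ofNat 78, .negSucc 255, .negSucc 287, .ofNat 83, .negSucc 1397⟩, ⟨.ofNat 1070, .ofNat 230, .negSucc 1002, .ofNat 2232, .negSucc 195, .negSucc 189⟩, .ofNat 333, .negSucc 73, .ofNat 0, .negSucc 73, .ofNat 795, .ofNat 0, .ofNat 549, .negSucc 25, .negSucc 356, .ofNat 0, .ofNat 128, .ofNat 0, .ofNat 0, .ofNat 0, .ofNat 617, .ofNat 4569, .ofNat 0, .ofNat 0, .ofNat 0, .ofNat 0, .ofNat 0, .ofNat 0, .ofNat 0, .ofNat 0, .ofNat 2743385172162485971035163900411328994476032,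 .ofNat 0, .ofNat 0, .ofNat 0, .ofNat 0, .ofNat 0, .ofNat 0, .ofNat 0⟩)
    (by decide +kernel)
theorem L00816 : Good (Phi V5.P V5.D 1 1) ⟨3, 5, 2, 0, 2, 3, 3, 0, 5, 2⟩ :=
  leafX_sound T5.ok_pp T5.Ypp.bz_eq (w := 210) (c := ⟨⟨.negSucc 297, .negSucc 20, .negSucc 52, .ofNat 278, .negSucc 51, .negSucc 786⟩, ⟨.ofNat 113, .ofNat 65, .negSucc 301, .ofNat 201, .negSucc 42, .negSucc 183⟩, ⟨.negSucc 1815, .negSucc 177, .ofNat 456, .ofNat 1120, .ofNat 167, .ofNat 459⟩, ⟨.negSucc 630, .negSucc 125, .negSucc 145, .negSucc 55, .negSucc 9, .negSucc 1428⟩, ⟨.ofNat 1240, .ofNat 150, .negSucc 942, .ofNat 2251, .negSucc 265, .ofNat 52⟩, .ofNat 314, .negSucc 103, .ofNat 0, .negSucc 103, .ofNat 685, .ofNat 0, .ofNat 540, .ofNat 2, .negSucc 338, .ofNat 0, .ofNat 128, .negSucc 12, .ofNat 0, .ofNat 0, .ofNat 521, .ofNat 2608, .ofNat 433463992434381496508692484502393077104640, .ofNat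 0, .ofNat 4140980219722465324656799280497950720, .ofNat 0, .ofNat 0, .ofNat 0, .ofNat 0, .ofNat 0, .ofNat 328799059802984565669740562938884314365952, .ofNat 0, .ofNat 1407707755040306304146800837655200268288, .ofNat 0, .ofNat 463566686642363509770379867456301359431680, .ofNat 0, .ofNat 0, .ofNat 0⟩)
    (by decide +kernel)
theorem L00817 : Good (Phi V5.P V5.D 1 1) ⟨2, 2, 2, 0, 2, 3, 3, 1, 5, 2⟩ :=
  leafX_sound T5.ok_pp T5.Ypp.bz_eq (w := 205) (c := ⟨⟨.negSucc 198, .negSucc 242, .negSucc 113, .ofNat 272, .negSucc 111, .negSucc 759⟩, ⟨.ofNat 103, .negSucc 10, .negSucc 293, .ofNat 151, .negSucc 45, .negSucc 145⟩, ⟨.negSucc 1377, .negSucc 117, .ofNat 324, .ofNat 659, .ofNat 289, .ofNat 478⟩, ⟨.negSucc 462, .negSucc 408, .negSucc 309, .ofNat 126, .negSucc 177, .negSucc 1438⟩, ⟨.ofNat 921, .ofNat 282, .negSucc 533, .ofNat 1695, .negSucc 296, .ofNat 29⟩, .ofNat 453,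 .negSucc 262, .ofNat 0, .negSucc 262, .ofNat 1680, .ofNat 0, .ofNat 227, .ofNat 128, .negSucc 166, .ofNat 0, .ofNat 119, .negSucc 17, .ofNat 0, .ofNat 0, .ofNat 301, .ofNat 719, .ofNat 0, .ofNat 0, .ofNat 0, .ofNat 0, .ofNat 0, .ofNat 0, .ofNat 0, .ofNat 0, .ofNat 0, .ofNat 0, .ofNat 0, .ofNat 0, .ofNat 0, .ofNat 0, .ofNat 0, .ofNat 0⟩)
    (by decide +kernel)
theorem L00818 : Good (Phi V5.P V5.D 1 1) ⟨3, 4, 2, 0, 2, 3, 3, 0, 5, 3⟩ :=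
  leafX_sound T5.ok_pp T5.Ypp.bz_eq (w := 211) (c := ⟨⟨.negSucc 1080, .negSucc 58, .ofNat 143, .ofNat 344, .negSucc 129, .negSucc 376⟩, ⟨.ofNat 45, .negSucc 76, .negSucc 312, .ofNat 107, .negSucc 11, .negSucc 58⟩, ⟨.negSucc 1078, .negSucc 66, .ofNat 251, .ofNat 711, .ofNat 239, .ofNat 319⟩, ⟨.negSucc 2296, .ofNat 47, .ofNat 140, .ofNat 364, .negSucc 234, .negSucc 794⟩, ⟨.ofNat 1015, .ofNat 157, .negSucc 969, .ofNat 2182, .negSucc 120, .negSucc 193⟩, .ofNat 333, .negSucc 73, .ofNat 0, .negSucc 73, .ofNat 795, .ofNat 0, .ofNat 365, .negSucc 26, .negSucc 219, .ofNat 0, .ofNat 128, .ofNat 6, .ofNat 0, .ofNat 0, .ofNat 447, .ofNat 5116, .ofNat 1194659318383848908309178413103658047635456, .ofNat 0, .ofNat 0, .ofNat 0, .ofNat 0, .ofNat 0, .ofNat 1130285395853713379333788262312041250816, .ofNat 0, .ofNat 0, .ofNat 0, .ofNat 0, .ofNat 0, .ofNat 0, .ofNat 0, .ofNat 0,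 .ofNat 0⟩)
    (by decide +kernel)
theorem L00819 : Good (Phi V5.P V5.D 1 1) ⟨3, 5, 2, 0, 2, 3, 3, 0, 5, 3⟩ :=
  leafX_sound T5.ok_pp T5.Ypp.bz_eq (w := 211) (c := ⟨⟨.negSucc 1148, .negSucc 133, .ofNat 67, .ofNat 681, .negSucc 227, .negSucc 471⟩, ⟨.ofNat 5, .ofNat 0, .negSucc 395, .ofNat 303, .negSucc 73, .negSucc 135⟩, ⟨.negSucc 1246, .negSucc 1, .ofNat 258, .ofNat 603, .ofNat 302, .ofNat 366⟩, ⟨.negSucc 2305, .negSucc 116, .ofNat 90, .ofNat 706, .negSucc 364, .negSucc 799⟩, ⟨.ofNat 1264, .ofNat 221, .negSucc 861, .ofNat 1933, .negSucc 135, .negSucc 43⟩, .ofNat 453, .negSucc 317, .ofNat 0, .negSucc 317, .ofNat 1493, .ofNat 0, .ofNat 283, .ofNat 120, .negSucc 164, .ofNat 0, .ofNat 128, .negSucc 23, .ofNat 0, .ofNat 0, .ofNat 415, .ofNat 4335, .ofNat 483329579612870353869124402213412726112256, .ofNat 0, .ofNat 0, .ofNat 0, .ofNat 0, .ofNat 0, .ofNat 0, .ofNat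 0, .ofNat 0, .ofNat 0, .ofNat 6161094865726693352122465893945043845120, .ofNat 0, .ofNat 0, .ofNat 0, .ofNat 0, .ofNat 0⟩)
    (by decide +kernel)
theorem L00820 : Good (Phi V5.P V5.D 1 1) ⟨2, 2, 2, 0, 2, 3, 3, 1, 5, 3⟩ :=
  leafX_sound T5.ok_pp T5.Ypp.bz_eq (w := 206) (c := ⟨⟨.negSucc 1091, .negSucc 386, .ofNat 83, .ofNat 658, .negSucc 280, .negSucc 639⟩, ⟨.ofNat 52, .negSucc 149, .negSucc 368, .ofNat 260, .negSucc 59, .negSucc 175⟩, ⟨.negSucc 791, .ofNat 94, .ofNat 202, .ofNat 248, .ofNat 379, .ofNat 456⟩, ⟨.negSucc 2312, .negSucc 327, .ofNat 34, .ofNat 717, .negSucc 477, .negSucc 1158⟩, ⟨.ofNat 729, .ofNat 346, .negSucc 527, .ofNat 1272, .ofNat 181, .ofNat 332⟩, .ofNat 460, .negSucc 293, .ofNat 0, .negSucc 293, .ofNat 1690, .ofNat 0, .ofNat 260, .ofNat 128, .negSucc 125, .ofNat 0, .ofNat 125, .negSucc 13, .ofNat 0, .ofNat 0, .ofNat 265, .ofNat 726, .ofNat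 0, .ofNat 0, .ofNat 113779086796513330488858261972282507264, .ofNat 0, .ofNat 0, .ofNat 0, .ofNat 0, .ofNat 0, .ofNat 0, .ofNat 0, .ofNat 0, .ofNat 0, .ofNat 0, .ofNat 0, .ofNat 0, .ofNat 0⟩)
    (by decide +kernel)
theorem L00821 : Good (Phi V5.P V5.D 1 1) ⟨3, 4, 2, 0, 2, 2, 2, 1, 4, 0⟩ :=
  leafX_sound T5.ok_pp T5.Ypp.bz_eq (w := 201) (c := ⟨⟨.ofNat 1891, .ofNat 490, .ofNat 23, .ofNat 242, .negSucc 361, .negSucc 2217⟩, ⟨.ofNat 94, .ofNat 218, .ofNat 215, .ofNat 94, .negSucc 36, .negSucc 327⟩, ⟨.negSucc 1348, .negSucc 305, .ofNat 28, .negSucc 528, .ofNat 429, .ofNat 1022⟩, ⟨.ofNat 4240, .ofNat 510, .negSucc 96, .ofNat 268, .negSucc 868, .negSucc 4573⟩, ⟨.ofNat 573, .ofNat 12, .negSucc 100, .ofNat 985, .ofNat 84, .negSucc 1141⟩, .ofNat 332, .negSucc 62, .ofNat 0, .negSucc 62, .ofNat 773, .ofNat 0, .ofNat 274, .ofNat 75, .negSucc 405, .ofNat 0, .ofNat 128, .negSucc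 7, .ofNat 0, .ofNat 0, .ofNat 598, .ofNat 452, .ofNat 0, .ofNat 0, .ofNat 0, .ofNat 0, .ofNat 0, .ofNat 0, .ofNat 289189164047791280930849007696084992, .ofNat 0, .ofNat 0, .ofNat 0, .ofNat 0, .ofNat 0, .ofNat 0, .ofNat 0, .ofNat 0, .ofNat 0⟩)
    (by decide +kernel)
theorem L00822 : Good (Phi V5.P V5.D 1 1) ⟨3, 4, 2, 0, 2, 3, 2, 1, 4, 0⟩ :=
  leafX_sound T5.ok_pp T5.Ypp.bz_eq (w := 202) (c := ⟨⟨.ofNat 2053, .ofNat 433, .negSucc 201, .negSucc 929, .negSucc 602, .negSucc 1861⟩, ⟨.ofNat 269, .ofNat 152, .negSucc 4, .negSucc 71, .negSucc 87, .negSucc 311⟩, ⟨.negSucc 1993, .negSucc 288, .ofNat 205, .ofNat 1235, .ofNat 665, .ofNat 562⟩, ⟨.ofNat 4279, .ofNat 414, .negSucc 737, .negSucc 2111, .negSucc 1115, .negSucc 3556⟩, ⟨.ofNat 2137, .ofNat 41, .ofNat 235, .ofNat 1260, .negSucc 1083, .negSucc 1468⟩, .ofNat 472, .negSucc 266, .ofNat 0, .negSucc 266, .ofNat 2141, .ofNat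 0, .ofNat 222, .ofNat 128, .negSucc 341, .ofNat 0, .ofNat 80, .negSucc 34, .ofNat 0, .ofNat 0, .ofNat 458, .ofNat 460, .ofNat 0, .ofNat 0, .ofNat 0, .ofNat 0, .ofNat 0, .ofNat 0, .ofNat 0, .ofNat 0, .ofNat 0, .ofNat 0, .ofNat 265667777465181167399237873479712768, .ofNat 0, .ofNat 0, .ofNat 0, .ofNat 0, .ofNat 0⟩)
    (by decide +kernel)
theorem L00823 : Good (Phi V5.P V5.D 1 1) ⟨3, 4, 2, 0, 1, 1, 2, 1, 4, 1⟩ :=
  leafX_sound T5.ok_pp T5.Ypp.bz_eq (w := 187) (c := ⟨⟨.negSucc 142, .negSucc 105, .ofNat 36, .negSucc 196, .negSucc 523, .negSucc 1269⟩, ⟨.ofNat 123, .negSucc 97, .negSucc 258, .ofNat 48, .negSucc 88, .negSucc 187⟩, ⟨.negSucc 670, .ofNat 161, .ofNat 52, .negSucc 62, .ofNat 707, .ofNat 896⟩, ⟨.negSucc 252, .negSucc 12, .negSucc 45, .negSucc 789, .negSucc 1043, .negSucc 2603⟩, ⟨.negSucc 403, .ofNat 303, .negSucc 38, .ofNat 2146, .negSucc 437, .negSucc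 124⟩, .ofNat 463, .negSucc 226, .ofNat 0, .negSucc 226, .ofNat 1988, .ofNat 0, .ofNat 487, .ofNat 128, .negSucc 307, .ofNat 0, .ofNat 117, .negSucc 20, .ofNat 0, .ofNat 0, .ofNat 574, .ofNat 691, .ofNat 0, .ofNat 0, .ofNat 0, .ofNat 0, .ofNat 0, .ofNat 0, .ofNat 0, .ofNat 0, .ofNat 0, .ofNat 0, .ofNat 90864049242547635479992000839680, .ofNat 0, .ofNat 0, .ofNat 0, .ofNat 0, .ofNat 0⟩)
    (by decide +kernel)
theorem L00824 : Good (Phi V5.P V5.D 1 1) ⟨3, 5, 2, 0, 2, 2, 3, 2, 4, 0⟩ :=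
  leafX_sound T5.ok_pp T5.Ypp.bz_eq (w := 205) (c := ⟨⟨.ofNat 2621, .ofNat 822, .negSucc 73, .ofNat 433, .negSucc 24, .negSucc 3297⟩, ⟨.ofNat 436, .ofNat 523, .ofNat 180, .ofNat 200, .negSucc 15, .negSucc 941⟩, ⟨.negSucc 1797, .negSucc 475, .ofNat 90, .negSucc 541, .ofNat 149, .ofNat 1496⟩, ⟨.ofNat 4981, .ofNat 776, .negSucc 203, .ofNat 410, .negSucc 89, .negSucc 5721⟩, ⟨.ofNat 637, .ofNat 10, .negSucc 346, .ofNat 1084, .ofNat 145, .negSucc 1147⟩, .ofNat 315, .negSucc 104, .ofNat 0, .negSucc 104, .ofNat 681, .ofNat 0, .ofNat 211, .ofNat 123, .negSucc 347, .ofNat 0, .ofNat 128, .negSucc 35, .ofNat 0, .ofNat 0, .ofNat 437, .ofNat 478, .ofNat 0, .ofNat 0, .ofNat 998143112414969459357007188924039168, .ofNat 0, .ofNat 0, .ofNat 0, .ofNat 1281812702018603528127680361984425984, .ofNat 0, .ofNat 0, .ofNat 0, .ofNat 0, .ofNat 0, .ofNat 0, .ofNat 0, .ofNat 0, .ofNat 0⟩)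
    (by decide +kernel)
theorem L00825 : Good (Phi V5.P V5.D 1 1) ⟨3, 5, 2, 0, 2, 2, 3, 3, 4, 0⟩ :=
  leafX_sound T5.ok_pp T5.Ypp.bz_eq (w := 205) (c := ⟨⟨.ofNat 2786, .ofNat 558, .ofNat 2, .ofNat 99, .negSucc 532, .negSucc 3283⟩, ⟨.ofNat 628, .ofNat 364, .ofNat 162, .ofNat 50, .negSucc 186, .negSucc 986⟩, ⟨.negSucc 1878, .negSucc 289, .ofNat 43, .negSucc 318, .ofNat 427, .ofNat 1679⟩, ⟨.ofNat 5077, .ofNat 555, .negSucc 132, .negSucc 59, .negSucc 948, .negSucc 5569⟩, ⟨.ofNat 574, .ofNat 31, .negSucc 246, .ofNat 948, .ofNat 86, .negSucc 850⟩, .ofNat 451, .negSucc 309, .ofNat 0, .negSucc 309, .ofNat 1483, .ofNat 0, .ofNat 128, .ofNat 188, .negSucc 225, .ofNat 0, .ofNat 124, .negSucc 41, .ofNat 0, .ofNat 0, .ofNat 305, .ofNat 311, .ofNat 0, .ofNat 0, .ofNat 924880242210652333466125339763671040, .ofNat 0, .ofNat 0, .ofNat 0, .ofNat 4954401540886307470011544364723994624,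 .ofNat 0, .ofNat 0, .ofNat 0, .ofNat 0, .ofNat 0, .ofNat 0, .ofNat 0, .ofNat 0, .ofNat 0⟩)
    (by decide +kernel)
theorem L00826 : Good (Phi V5.P V5.D 1 1) ⟨4, 10, 2, 0, 3, 6, 2, 1, 5, 0⟩ :=
  leafX_sound T5.ok_pp T5.Ypp.bz_eq (w := 224) (c := ⟨⟨.ofNat 2851, .ofNat 487, .negSucc 286, .negSucc 472, .negSucc 704, .negSucc 1474⟩, ⟨.ofNat 574, .ofNat 235, .ofNat 63, .negSucc 60, .negSucc 158, .negSucc 359⟩, ⟨.negSucc 2396, .negSucc 253, .ofNat 63, .ofNat 209, .ofNat 948, .ofNat 626⟩, ⟨.ofNat 5149, .ofNat 548, .negSucc 754, .negSucc 1056, .negSucc 1329, .negSucc 2504⟩, ⟨.ofNat 2196, .ofNat 84, .negSucc 460, .ofNat 914, .negSucc 209, .negSucc 1222⟩, .ofNat 447, .negSucc 275, .ofNat 0, .negSucc 275, .ofNat 1620, .ofNat 0, .ofNat 128, .ofNat 134, .negSucc 254, .ofNat 0, .ofNat 79, .negSucc 38, .ofNat 0, .ofNat 0, .ofNat 299, .ofNat 417, .ofNat 0, .ofNat 0, .ofNat 0,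 .ofNat 0, .ofNat 0, .ofNat 0, .ofNat 0, .ofNat 0, .ofNat 0, .ofNat 0, .ofNat 0, .ofNat 0, .ofNat 0, .ofNat 0, .ofNat 307607895703127820248297155420197350277120, .ofNat 0⟩)
    (by decide +kernel)
theorem L00827 : Good (Phi V5.P V5.D 1 1) ⟨4, 10, 2, 0, 3, 7, 2, 1, 5, 0⟩ :=
  leafX_sound T5.ok_pp T5.Ypp.bz_eq (w := 225) (c := ⟨⟨.ofNat 2043, .ofNat 756, .negSucc 598, .negSucc 386, .negSucc 847, .negSucc 1102⟩, ⟨.ofNat 499, .ofNat 295, .negSucc 187, .negSucc 27, .negSucc 208, .negSucc 291⟩, ⟨.negSucc 1815, .negSucc 454, .ofNat 236, .ofNat 1055, .ofNat 668, .ofNat 271⟩, ⟨.ofNat 3480, .ofNat 1049, .negSucc 1572, .negSucc 739, .negSucc 1494, .negSucc 1762⟩, ⟨.ofNat 3153, .ofNat 237, .ofNat 456, .ofNat 133, .negSucc 744, .negSucc 1349⟩, .ofNat 442, .negSucc 257, .ofNat 0, .negSucc 257, .ofNat 1581, .ofNat 0, .ofNat 166, .ofNat 128, .negSucc 330, .ofNat 0, .ofNat 72,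 .negSucc 49, .ofNat 0, .ofNat 0, .ofNat 343, .ofNat 468, .ofNat 0, .ofNat 0, .ofNat 0, .ofNat 0, .ofNat 0, .ofNat 0, .ofNat 0, .ofNat 0, .ofNat 0, .ofNat 0, .ofNat 0, .ofNat 0, .ofNat 0, .ofNat 0, .ofNat 0, .ofNat 0⟩)
    (by decide +kernel)
theorem L00828 : Good (Phi V5.P V5.D 1 1) ⟨4, 11, 3, 0, 3, 6, 3, 2, 5, 0⟩ :=
  leafX_sound T5.ok_pp T5.Ypp.bz_eq (w := 232) (c := ⟨⟨.ofNat 3574, .ofNat 656, .negSucc 232, .negSucc 437, .negSucc 39, .negSucc 2174⟩, ⟨.ofNat 903, .ofNat 398, .ofNat 9, .negSucc 21, .negSucc 1, .negSucc 656⟩, ⟨.negSucc 2789, .negSucc 330, .ofNat 56, .ofNat 163, .ofNat 368, .ofNat 951⟩, ⟨.ofNat 5956, .ofNat 732, .negSucc 508, .negSucc 952, .negSucc 88, .negSucc 3466⟩, ⟨.ofNat 2204, .negSucc 27, .negSucc 243, .ofNat 955, .ofNat 57, .negSucc 1246⟩, .ofNat 426, .negSucc 244, .ofNat 0, .negSucc 244, .ofNat 1219, .ofNat 0, .ofNat 128, .ofNat 138, .negSucc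 261, .ofNat 0, .ofNat 91, .negSucc 47, .ofNat 0, .ofNat 0, .ofNat 290, .ofNat 894, .ofNat 0, .ofNat 0, .ofNat 857273011628751641544690090418330245529600, .ofNat 0, .ofNat 0, .ofNat 0, .ofNat 4725679560073482192188059443526253668204544, .ofNat 0, .ofNat 0, .ofNat 0, .ofNat 10278921176564374264538636854385716536279040, .ofNat 0, .ofNat 0, .ofNat 0, .ofNat 0, .ofNat 0⟩)
    (by decide +kernel)
theorem L00829 : Good (Phi V5.P V5.D 1 1) ⟨4, 11, 3, 0, 3, 6, 3, 3, 5, 0⟩ :=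
  leafX_sound T5.ok_pp T5.Ypp.bz_eq (w := 232) (c := ⟨⟨.ofNat 3514, .ofNat 885, .negSucc 226, .negSucc 623, .negSucc 675, .negSucc 2287⟩, ⟨.ofNat 906, .ofNat 451, .ofNat 18, .negSucc 61, .negSucc 168, .negSucc 695⟩, ⟨.negSucc 2462, .negSucc 468, .ofNat 56, .ofNat 369, .ofNat 665, .ofNat 1021⟩, ⟨.ofNat 5884, .ofNat 1142, .negSucc 552, .negSucc 1295, .negSucc 1175, .negSucc 3691⟩, ⟨.ofNat 2216, .ofNat 115, .negSucc 200, .ofNat 673, .negSucc 16, .negSucc 1148⟩, .ofNat 428, .negSucc 249, .ofNat 0, .negSucc 249, .ofNat 1241, .ofNat 0, .ofNat 128, .ofNat 178, .negSucc 348, .ofNat 0, .ofNat 106, .negSucc 66, .ofNat 0, .ofNat 0, .ofNat 321, .ofNat 451, .ofNat 0, .ofNat 0, .ofNat 806831116163223728718570267103913974956032, .ofNat 0, .ofNat 0, .ofNat 0, .ofNat 3244424868628701789020284059423137792524288, .ofNat 0, .ofNat 0, .ofNat 0, .ofNat 12022275854229251110243525047588879738077184,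 .ofNat 0, .ofNat 0, .ofNat 0, .ofNat 0, .ofNat 0⟩)
    (by decide +kernel)
theorem L00830 : Good (Phi V5.P V5.D 1 1) ⟨4, 11, 3, 1, 3, 6, 2, 1, 5, 0⟩ :=
  leafX_sound T5.ok_pp T5.Ypp.bz_eq (w := 228) (c := ⟨⟨.ofNat 3279, .ofNat 987, .negSucc 240, .negSucc 593, .negSucc 400, .negSucc 2202⟩, ⟨.ofNat 923, .ofNat 506, .negSucc 12, .negSucc 99, .negSucc 103, .negSucc 704⟩, ⟨.negSucc 2627, .negSucc 594, .ofNat 67, .ofNat 247, .ofNat 812, .ofNat 1035⟩, ⟨.ofNat 5413, .ofNat 1311, .negSucc 478, .negSucc 1343, .negSucc 860, .negSucc 3476⟩, ⟨.ofNat 1878, .ofNat 54, .negSucc 213, .ofNat 869, .ofNat 146, .negSucc 1070⟩, .ofNat 474, .negSucc 384, .ofNat 0, .negSucc 384, .ofNat 1532, .ofNat 0, .ofNat 128, .ofNat 228, .negSucc 446, .ofNat 0, .ofNat 124, .negSucc 107, .ofNat 0, .ofNat 0, .ofNat 458, .ofNat 443, .ofNat 0, .ofNat 0, .ofNat 0, .ofNat 0, .ofNat 0, .ofNat 0, .ofNat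 0, .ofNat 0, .ofNat 0, .ofNat 0, .ofNat 0, .ofNat 0, .ofNat 0, .ofNat 0, .ofNat 0, .ofNat 0⟩)
    (by decide +kernel)
theorem L00831 : Good (Phi V5.P V5.D 1 1) ⟨4, 11, 2, 0, 4, 14, 2, 1, 5, 0⟩ :=
  leafX_sound T5.ok_pp T5.Ypp.bz_eq (w := 238) (c := ⟨⟨.ofNat 3236, .ofNat 793, .negSucc 1055, .negSucc 289, .negSucc 1017, .negSucc 1938⟩, ⟨.ofNat 961, .ofNat 441, .negSucc 321, .negSucc 7, .negSucc 303, .negSucc 570⟩, ⟨.negSucc 2560, .negSucc 394, .ofNat 477, .ofNat 544, .ofNat 1039, .ofNat 781⟩, ⟨.ofNat 5225, .ofNat 1075, .negSucc 2279, .negSucc 600, .negSucc 1771, .negSucc 3116⟩, ⟨.ofNat 3119, .ofNat 64, .negSucc 51, .ofNat 315, .negSucc 118, .negSucc 1313⟩, .ofNat 441, .negSucc 292, .ofNat 0, .negSucc 292, .ofNat 1325, .ofNat 0, .ofNat 128, .ofNat 137, .negSucc 282, .ofNat 0, .ofNat 79, .negSucc 60, .ofNat 0, .ofNat 0, .ofNat 256, .ofNat 269, .ofNat 0, .ofNat 0,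 .ofNat 269490362285806834970675882715116005878661120, .ofNat 0, .ofNat 0, .ofNat 0, .ofNat 991288085459113518307191869789803038984110080, .ofNat 0, .ofNat 0, .ofNat 0, .ofNat 2882390459896102571538666591116319774944002048, .ofNat 0, .ofNat 0, .ofNat 0, .ofNat 611486527488774790499672810709847755087413248, .ofNat 0⟩)
    (by decide +kernel)
theorem L00832 : Good (Phi V5.P V5.D 1 1) ⟨4, 11, 3, 0, 4, 15, 3, 2, 5, 0⟩ :=
  leafX_sound T5.ok_pp T5.Ypp.bz_eq (w := 245) (c := ⟨⟨.ofNat 2318, .ofNat 1026, .negSucc 647, .ofNat 439, .negSucc 2, .negSucc 1419⟩, ⟨.ofNat 772, .ofNat 486, .negSucc 124, .ofNat 117, .negSucc 31, .negSucc 452⟩, ⟨.negSucc 1531, .negSucc 500, .ofNat 360, .ofNat 498, .ofNat 68, .ofNat 261⟩, ⟨.ofNat 3525, .ofNat 1429, .negSucc 1360, .ofNat 720, .ofNat 51, .negSucc 2198⟩, ⟨.ofNat 3424, .ofNat 57, .negSucc 27, .ofNat 159, .negSucc 306, .negSucc 1080⟩,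 .ofNat 475, .negSucc 332, .ofNat 0, .negSucc 332, .ofNat 1582, .ofNat 0, .ofNat 128, .ofNat 189, .negSucc 323, .ofNat 0, .ofNat 106, .negSucc 68, .ofNat 0, .ofNat 0, .ofNat 310, .ofNat 331, .ofNat 0, .ofNat 0, .ofNat 15117467843153268114777402965018208258096103424, .ofNat 0, .ofNat 0, .ofNat 0, .ofNat 57176764428321857407923499501775158609107222528, .ofNat 0, .ofNat 0, .ofNat 0, .ofNat 387890601178063853894997294276725130454284369920, .ofNat 0, .ofNat 0, .ofNat 0, .ofNat 0, .ofNat 0⟩)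
    (by decide +kernel)
theorem L00833 : Good (Phi V5.P V5.D 1 1) ⟨4, 11, 3, 0, 4, 15, 3, 3, 5, 0⟩ :=
  leafX_sound T5.ok_pp T5.Ypp.bz_eq (w := 246) (c := ⟨⟨.ofNat 2117, .ofNat 1091, .negSucc 624, .ofNat 826, .negSucc 877, .negSucc 1510⟩, ⟨.ofNat 680, .ofNat 527, .negSucc 93, .ofNat 229, .negSucc 243, .negSucc 499⟩, ⟨.negSucc 1190, .negSucc 398, .ofNat 262, .ofNat 139, .ofNat 450, .ofNat 248⟩, ⟨.ofNat 3264, .ofNat 1469, .negSucc 1357, .ofNat 1354, .negSucc 1445, .negSucc 2307⟩, ⟨.ofNat 3075, .ofNat 514, .negSucc 36, .ofNat 187, .negSucc 366, .negSucc 1195⟩, .ofNat 477, .negSucc 337, .ofNat 0, .negSucc 337, .ofNat 1595, .ofNat 0, .ofNat 128, .ofNat 246, .negSucc 288, .ofNat 0, .ofNat 126, .negSucc 60, .ofNat 0, .ofNat 0, .ofNat 239, .ofNat 405, .ofNat 0, .ofNat 0, .ofNat 19987313484140000272342095292993296897006370816, .ofNat 0, .ofNat 0, .ofNat 0, .ofNat 61754185526037267577811663500446303257901400064,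 .ofNat 0, .ofNat 0, .ofNat 0, .ofNat 287672460382849164218060148117779351251397378048, .ofNat 0, .ofNat 0, .ofNat 0, .ofNat 136511896543593954988454132497524280858918256640, .ofNat 0⟩)
    (by decide +kernel)
theorem L00834 : Good (Phi V5.P V5.D 1 1) ⟨4, 11, 3, 1, 4, 15, 2, 1, 5, 0⟩ :=
  leafX_sound T5.ok_pp T5.Ypp.bz_eq (w := 242) (c := ⟨⟨.ofNat 1743, .ofNat 944, .negSucc 434, .ofNat 613, .negSucc 812, .negSucc 1415⟩, ⟨.ofNat 634, .ofNat 501, .negSucc 173, .ofNat 215, .negSucc 259, .negSucc 498⟩, ⟨.negSucc 1171, .negSucc 376, .ofNat 129, .ofNat 271, .ofNat 466, .ofNat 340⟩, ⟨.ofNat 2362, .ofNat 1252, .negSucc 1046, .ofNat 968, .negSucc 1365, .negSucc 2115⟩, ⟨.ofNat 2942, .ofNat 322, .ofNat 324, .ofNat 224, .negSucc 157, .negSucc 990⟩, .ofNat 550, .negSucc 546, .ofNat 0, .negSucc 546, .ofNat 2020, .ofNat 0, .ofNat 128, .ofNat 289, .negSucc 415, .ofNat 0, .ofNat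 144, .negSucc 105, .ofNat 0, .ofNat 0, .ofNat 395, .ofNat 407, .ofNat 0, .ofNat 0, .ofNat 1697980362590738724097576289112676544997752832, .ofNat 0, .ofNat 0, .ofNat 0, .ofNat 0, .ofNat 0, .ofNat 0, .ofNat 0, .ofNat 18357846133707127091712913380823136128263520256, .ofNat 0, .ofNat 0, .ofNat 0, .ofNat 0, .ofNat 0⟩)
    (by decide +kernel)
theorem L00835 : Good (Phi V5.P V5.D 1 1) ⟨4, 10, 2, 0, 2, 3, 2, 1, 5, 1⟩ :=
  leafX_sound T5.ok_pp T5.Ypp.bz_eq (w := 210) (c := ⟨⟨.ofNat 1008, .ofNat 15, .negSucc 231, .ofNat 41, .negSucc 838, .negSucc 1099⟩, ⟨.ofNat 296, .ofNat 63, .negSucc 181, .ofNat 77, .negSucc 192, .negSucc 259⟩, ⟨.negSucc 1824, .ofNat 137, .ofNat 178, .ofNat 697, .ofNat 829, .ofNat 502⟩, ⟨.ofNat 1884, .negSucc 68, .negSucc 661, .negSucc 298, .negSucc 1515, .negSucc 1985⟩, ⟨.ofNat 1017, .ofNat 151, .negSucc 50, .ofNat 1577, .negSucc 570, .negSucc 487⟩,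 .ofNat 455, .negSucc 302, .ofNat 0, .negSucc 302, .ofNat 1710, .ofNat 0, .ofNat 191, .ofNat 128, .negSucc 291, .ofNat 0, .ofNat 76, .negSucc 43, .ofNat 0, .ofNat 0, .ofNat 350, .ofNat 485, .ofNat 0, .ofNat 0, .ofNat 0, .ofNat 0, .ofNat 0, .ofNat 0, .ofNat 0, .ofNat 0, .ofNat 0, .ofNat 0, .ofNat 8320635051400912844497628313365250048, .ofNat 0, .ofNat 0, .ofNat 0, .ofNat 0, .ofNat 0⟩)
    (by decide +kernel)
theorem L00836 : Good (Phi V5.P V5.D 1 1) ⟨4, 11, 2, 0, 2, 3, 2, 1, 5, 1⟩ :=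
  leafX_sound T5.ok_pp T5.Ypp.bz_eq (w := 209) (c := ⟨⟨.ofNat 1224, .ofNat 148, .negSucc 335, .ofNat 354, .negSucc 1144, .negSucc 1504⟩, ⟨.ofNat 437, .ofNat 150, .negSucc 236, .ofNat 209, .negSucc 331, .negSucc 427⟩, ⟨.negSucc 1853, .ofNat 1, .ofNat 357, .ofNat 408, .ofNat 963, .ofNat 650⟩, ⟨.ofNat 2144, .ofNat 125, .negSucc 887, .ofNat 212, .negSucc 2028, .negSucc 2543⟩, ⟨.ofNat 700, .ofNat 11, .ofNat 223, .ofNat 1535, .negSucc 94, .negSucc 268⟩, .ofNat 441, .negSucc 292, .ofNat 0, .negSucc 292, .ofNat 1325, .ofNat 0, .ofNat 167, .ofNat 128, .negSucc 304, .ofNat 0, .ofNat 81, .negSucc 56, .ofNat 0, .ofNat 0, .ofNat 308, .ofNat 209, .ofNat 0, .ofNat 0, .ofNat 542410337884021962562372253931012096, .ofNat 0, .ofNat 0, .ofNat 0, .ofNat 4044547601238087582474148909145915392, .ofNat 0, .ofNat 0, .ofNat 0, .ofNat 4755926181386177366120308465547083776, .ofNat 0, .ofNat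 0, .ofNat 0, .ofNat 0, .ofNat 0⟩)
    (by decide +kernel)
theorem L00837 : Good (Phi V5.P V5.D 1 1) ⟨3, 5, 2, 0, 2, 2, 2, 1, 4, 1⟩ :=
  leafX_sound T5.ok_pp T5.Ypp.bz_eq (w := 200) (c := ⟨⟨.ofNat 209, .negSucc 350, .negSucc 238, .negSucc 417, .negSucc 636, .negSucc 1722⟩, ⟨.ofNat 257, .negSucc 279, .negSucc 289, .negSucc 43, .negSucc 168, .negSucc 450⟩, ⟨.negSucc 687, .ofNat 119, .ofNat 301, .negSucc 336, .ofNat 992, .ofNat 1242⟩, ⟨.ofNat 274, .negSucc 287, .negSucc 348, .negSucc 948, .negSucc 1147, .negSucc 3074⟩, ⟨.negSucc 588, .ofNat 46, .negSucc 18, .ofNat 940, .ofNat 244, .ofNat 63⟩, .ofNat 456, .negSucc 323, .ofNat 0, .negSucc 323, .ofNat 1520, .ofNat 0, .ofNat 185, .ofNat 128, .negSucc 142, .ofNat 0, .ofNat 90, .negSucc 22, .ofNat 0, .ofNat 0, .ofNat 265, .ofNat 502, .ofNat 0, .ofNat 0, .ofNat 0, .ofNat 0, .ofNat 0, .ofNat 0, .ofNat 620132104046522048302115449171083264,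 .ofNat 0, .ofNat 0, .ofNat 0, .ofNat 0, .ofNat 0, .ofNat 0, .ofNat 0, .ofNat 0, .ofNat 0⟩)
    (by decide +kernel)
theorem L00838 : Good (Phi V5.P V5.D 1 1) ⟨3, 5, 2, 0, 2, 3, 2, 1, 5, 2⟩ :=
  leafX_sound T5.ok_pp T5.Ypp.bz_eq (w := 205) (c := ⟨⟨.negSucc 206, .negSucc 475, .negSucc 80, .ofNat 692, .negSucc 1256, .negSucc 1179⟩, ⟨.ofNat 142, .negSucc 90, .negSucc 319, .ofNat 296, .negSucc 349, .negSucc 315⟩, ⟨.negSucc 999, .ofNat 283, .ofNat 213, .negSucc 17, .ofNat 1068, .ofNat 622⟩, ⟨.negSucc 405, .negSucc 751, .negSucc 443, .ofNat 823, .negSucc 2218, .negSucc 2114⟩, ⟨.ofNat 306, .ofNat 430, .ofNat 166, .ofNat 1290, .negSucc 14, .ofNat 264⟩, .ofNat 446, .negSucc 291, .ofNat 0, .negSucc 291, .ofNat 1483, .ofNat 0, .ofNat 151, .ofNat 128, .negSucc 235, .ofNat 0, .ofNat 89, .negSucc 33, .ofNat 0, .ofNat 0, .ofNat 302, .ofNat 281, .ofNat 0, .ofNat 0, .ofNat 0,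 .ofNat 0, .ofNat 0, .ofNat 0, .ofNat 11546083499218543444966563820257411072, .ofNat 0, .ofNat 0, .ofNat 0, .ofNat 0, .ofNat 0, .ofNat 0, .ofNat 0, .ofNat 0, .ofNat 0⟩)
    (by decide +kernel)
theorem L00839 : Good (Phi V5.P V5.D 1 1) ⟨3, 5, 2, 0, 2, 3, 2, 1, 5, 3⟩ :=
  leafX_sound T5.ok_pp T5.Ypp.bz_eq (w := 206) (c := ⟨⟨.negSucc 1834, .negSucc 428, .ofNat 140, .ofNat 1129, .negSucc 1405, .negSucc 432⟩, ⟨.negSucc 147, .negSucc 124, .negSucc 454, .ofNat 401, .negSucc 363, .negSucc 92⟩, ⟨.ofNat 46, .ofNat 244, .ofNat 43, .negSucc 511, .ofNat 1264, .ofNat 415⟩, ⟨.negSucc 3343, .negSucc 491, .ofNat 9, .ofNat 1520, .negSucc 2473, .negSucc 859⟩, ⟨.ofNat 357, .ofNat 453, .ofNat 3, .ofNat 1346, .ofNat 122, .ofNat 353⟩, .ofNat 444, .negSucc 287, .ofNat 0, .negSucc 287, .ofNat 1423, .ofNat 0, .ofNat 237, .ofNat 128, .negSucc 216, .ofNat 0, .ofNat 106, .negSucc 27, .ofNat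 0, .ofNat 0, .ofNat 329, .ofNat 403, .ofNat 0, .ofNat 0, .ofNat 1541881191605222282069888411008761856, .ofNat 0, .ofNat 0, .ofNat 0, .ofNat 0, .ofNat 0, .ofNat 0, .ofNat 0, .ofNat 0, .ofNat 0, .ofNat 0, .ofNat 0, .ofNat 0, .ofNat 0⟩)
    (by decide +kernel)
theorem L00840 : Good (Phi V5.P V5.D 1 1) ⟨2, 2, 2, 0, 2, 2, 2, 0, 4, 2⟩ :=
  leafX_sound T5.ok_pp T5.Ypp.bz_eq (w := 197) (c := ⟨⟨.negSucc 1289, .negSucc 567, .ofNat 62, .negSucc 28, .negSucc 263, .negSucc 382⟩, ⟨.ofNat 45, .negSucc 398, .negSucc 326, .ofNat 32, .negSucc 53, .negSucc 70⟩, ⟨.negSucc 266, .ofNat 65, .ofNat 57, .negSucc 602, .ofNat 1001, .ofNat 582⟩, ⟨.negSucc 2926, .negSucc 93, .ofNat 144, .negSucc 228, .negSucc 484, .negSucc 690⟩, ⟨.negSucc 330, .ofNat 375, .negSucc 238, .ofNat 702, .ofNat 27, .negSucc 224⟩, .ofNat 323, .negSucc 87, .ofNat 0, .negSucc 87, .ofNat 724, .ofNat 0, .ofNat 299,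 .ofNat 53, .negSucc 141, .ofNat 0, .ofNat 128, .ofNat 10, .ofNat 0, .ofNat 0, .ofNat 469, .ofNat 2473, .ofNat 305156045669687748424088041304895782912, .ofNat 0, .ofNat 0, .ofNat 0, .ofNat 0, .ofNat 0, .ofNat 0, .ofNat 0, .ofNat 0, .ofNat 0, .ofNat 0, .ofNat 0, .ofNat 2459326510999593372810194641948187295744, .ofNat 0, .ofNat 5928710839379850974448181644433031168, .ofNat 0⟩)
    (by decide +kernel)
theorem L00841 : Good (Phi V5.P V5.D 1 1) ⟨3, 4, 2, 0, 2, 2, 2, 0, 4, 3⟩ :=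
  leafX_sound T5.ok_pp T5.Ypp.bz_eq (w := 203) (c := ⟨⟨.negSucc 1673, .negSucc 266, .ofNat 19, .negSucc 43, .negSucc 182, .ofNat 53⟩, ⟨.negSucc 39, .negSucc 173, .negSucc 320, .ofNat 6, .negSucc 21, .ofNat 4⟩, ⟨.ofNat 308, .ofNat 32, .ofNat 75, .negSucc 418, .ofNat 761, .ofNat 255⟩, ⟨.negSucc 3712, .negSucc 9, .ofNat 75, .negSucc 110, .negSucc 367, .ofNat 107⟩, ⟨.negSucc 380, .ofNat 175, .negSucc 171, .ofNat 267, .ofNat 133, .negSucc 66⟩, .ofNat 556, .negSucc 489, .ofNat 0, .negSucc 489, .ofNat 4146, .ofNat 0, .ofNat 347, .ofNat 128, .negSucc 94, .ofNat 0, .ofNat 95, .negSucc 4, .ofNat 0, .ofNat 0, .ofNat 598, .ofNat 5955, .ofNat 0, .ofNat 0, .ofNat 0, .ofNat 0, .ofNat 0, .ofNat 0, .ofNat 0, .ofNat 0, .ofNat 0, .ofNat 0, .ofNat 0, .ofNat 0, .ofNat 201057159671341545503617804922709755297792, .ofNat 0, .ofNat 2348489973540651664202687199248908288, .ofNat 0⟩)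
    (by decide +kernel)
theorem L00842 : Good (Phi V5.P V5.D 1 1) ⟨3, 5, 2, 0, 2, 2, 2, 0, 4, 3⟩ :=
  leafX_sound T5.ok_pp T5.Ypp.bz_eq (w := 202) (c := ⟨⟨.negSucc 1890, .negSucc 324, .ofNat 30, .ofNat 1, .negSucc 313, .ofNat 75⟩, ⟨.negSucc 182, .negSucc 283, .negSucc 324, .ofNat 27, .negSucc 86, .ofNat 14⟩, ⟨.ofNat 229, .ofNat 30, .ofNat 97, .negSucc 448, .ofNat 949, .ofNat 199⟩, ⟨.negSucc 3637, .negSucc 13, .ofNat 98, .negSucc 102, .negSucc 545, .ofNat 153⟩, ⟨.negSucc 237, .ofNat 153, .negSucc 145, .ofNat 364, .ofNat 40, .negSucc 98⟩, .ofNat 459, .negSucc 332, .ofNat 0, .negSucc 332, .ofNat 1533, .ofNat 0, .ofNat 227, .ofNat 128, .negSucc 63, .ofNat 0, .ofNat 116, .negSucc 4, .ofNat 0, .ofNat 0, .ofNat 380, .ofNat 3167, .ofNat 3080262758969657098798176565637991628800, .ofNat 0, .ofNat 143795706735540598777420354714337280, .ofNat 0, .ofNat 0, .ofNat 0, .ofNat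 0, .ofNat 0, .ofNat 0, .ofNat 0, .ofNat 11682753341616176665646783327448858624, .ofNat 0, .ofNat 76286722194329346057386742703632416768000, .ofNat 0, .ofNat 0, .ofNat 0⟩)
    (by decide +kernel)
theorem L00843 : Good (Phi V5.P V5.D 1 1) ⟨2, 2, 2, 0, 3, 6, 4, 0, 4, 2⟩ :=
  leafX_sound T5.ok_pp T5.Ypp.bz_eq (w := 221) (c := ⟨⟨.negSucc 1463, .negSucc 283, .ofNat 82, .ofNat 208, .negSucc 102, .negSucc 304⟩, ⟨.ofNat 24, .negSucc 205, .negSucc 381, .ofNat 89, .negSucc 10, .negSucc 85⟩, ⟨.negSucc 816, .negSucc 151, .ofNat 196, .ofNat 193, .ofNat 267, .ofNat 550⟩, ⟨.negSucc 3188, .ofNat 71, .ofNat 151, .ofNat 138, .negSucc 211, .negSucc 522⟩, ⟨.ofNat 653, .ofNat 627, .negSucc 751, .ofNat 1068, .negSucc 27, .negSucc 360⟩, .ofNat 321, .negSucc 92, .ofNat 0, .negSucc 92, .ofNat 707, .ofNat 0, .ofNat 189, .ofNat 7, .negSucc 81, .ofNat 0, .ofNat 128, .ofNat 5, .ofNat 0,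 .ofNat 0, .ofNat 247, .ofNat 11620, .ofNat 398817090682460318855852508664817485271269376, .ofNat 0, .ofNat 0, .ofNat 0, .ofNat 0, .ofNat 0, .ofNat 0, .ofNat 0, .ofNat 0, .ofNat 0, .ofNat 86195725696557021094903680146045834696327168, .ofNat 0, .ofNat 153152194059021795595572305983714092052905984, .ofNat 0, .ofNat 0, .ofNat 0⟩)
    (by decide +kernel)
theorem L00844 : Good (Phi V5.P V5.D 1 1) ⟨2, 2, 2, 0, 3, 6, 4, 1, 4, 2⟩ :=
  leafX_sound T5.ok_pp T5.Ypp.bz_eq (w := 220) (c := ⟨⟨.negSucc 1478, .negSucc 390, .ofNat 115, .ofNat 170, .negSucc 107, .negSucc 369⟩, ⟨.ofNat 55, .negSucc 267, .negSucc 381, .ofNat 61, .negSucc 31, .negSucc 82⟩, ⟨.negSucc 536, .negSucc 67, .ofNat 133, .ofNat 115, .ofNat 265, .ofNat 562⟩, ⟨.negSucc 3295, .negSucc 47, .ofNat 223, .ofNat 123, .negSucc 182, .negSucc 678⟩, ⟨.ofNat 681, .ofNat 577, .negSucc 630, .ofNat 1039, .negSucc 69, .negSucc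 415⟩, .ofNat 322, .negSucc 84, .ofNat 0, .negSucc 84, .ofNat 719, .ofNat 0, .ofNat 279, .ofNat 10, .negSucc 95, .ofNat 0, .ofNat 128, .ofNat 7, .ofNat 0, .ofNat 0, .ofNat 271, .ofNat 2870, .ofNat 0, .ofNat 0, .ofNat 0, .ofNat 0, .ofNat 0, .ofNat 0, .ofNat 0, .ofNat 0, .ofNat 0, .ofNat 0, .ofNat 0, .ofNat 0, .ofNat 0, .ofNat 0, .ofNat 0, .ofNat 0⟩)
    (by decide +kernel)
theorem L00845 : Good (Phi V5.P V5.D 1 1) ⟨2, 2, 2, 0, 3, 6, 3, 1, 4, 2⟩ :=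
  leafX_sound T5.ok_pp T5.Ypp.bz_eq (w := 216) (c := ⟨⟨.negSucc 1568, .negSucc 503, .ofNat 58, .ofNat 111, .negSucc 268, .negSucc 242⟩, ⟨.ofNat 41, .negSucc 290, .negSucc 424, .ofNat 67, .negSucc 69, .negSucc 77⟩, ⟨.negSucc 259, .ofNat 126, .ofNat 108, .ofNat 76, .ofNat 467, .ofNat 489⟩, ⟨.negSucc 3507, .negSucc 182, .ofNat 80, .ofNat 40, .negSucc 469, .negSucc 401⟩, ⟨.ofNat 502, .ofNat 499, .negSucc 391, .ofNat 847, .ofNat 105, .negSucc 310⟩, .ofNat 450, .negSucc 243, .ofNat 0, .negSucc 243, .ofNat 1659, .ofNat 0, .ofNat 327, .ofNat 97, .negSucc 107, .ofNat 0, .ofNat 128, .negSucc 5, .ofNat 0, .ofNat 0, .ofNat 326, .ofNat 2706, .ofNat 0, .ofNat 0, .ofNat 0, .ofNat 0, .ofNat 0, .ofNat 0, .ofNat 0, .ofNat 0, .ofNat 0, .ofNat 0, .ofNat 6562765410073847389136283561492061978886144, .ofNat 0, .ofNat 0, .ofNat 0, .ofNat 0, .ofNat 0⟩)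
    (by decide +kernel)
theorem L00846 : Good (Phi V5.P V5.D 1 1) ⟨3, 4, 2, 0, 3, 7, 2, 0, 4, 2⟩ :=
  leafX_sound T5.ok_pp T5.Ypp.bz_eq (w := 215) (c := ⟨⟨.negSucc 1382, .negSucc 114, .ofNat 88, .ofNat 368, .negSucc 439, .negSucc 223⟩, ⟨.ofNat 83, .negSucc 93, .negSucc 423, .ofNat 89, .negSucc 81, .negSucc 42⟩, ⟨.negSucc 280, .negSucc 0, .ofNat 105, .ofNat 109, .ofNat 595, .ofNat 356⟩, ⟨.negSucc 3117, .ofNat 29, .ofNat 52, .ofNat 606, .negSucc 870, .negSucc 450⟩, ⟨.ofNat 1974, .ofNat 506, .negSucc 1040, .ofNat 910, .negSucc 343, .negSucc 589⟩, .ofNat 331, .negSucc 62, .ofNat 0, .negSucc 62, .ofNat 769, .ofNat 0, .ofNat 307, .negSucc 12, .negSucc 114, .ofNat 0, .ofNat 128, .ofNat 6, .ofNat 0, .ofNat 0, .ofNat 315, .ofNat 2050, .ofNat 0, .ofNat 0, .ofNat 0, .ofNat 0, .ofNat 0, .ofNat 0, .ofNat 0, .ofNat 0, .ofNat 0, .ofNat 0, .ofNat 0, .ofNat 0, .ofNat 9139371753944494116274872394281755468627968,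 .ofNat 0, .ofNat 0, .ofNat 0⟩)
    (by decide +kernel)
theorem L00847 : Good (Phi V5.P V5.D 1 1) ⟨3, 5, 2, 0, 3, 7, 2, 0, 4, 2⟩ :=
  leafX_sound T5.ok_pp T5.Ypp.bz_eq (w := 215) (c := ⟨⟨.negSucc 1487, .negSucc 130, .ofNat 158, .ofNat 553, .negSucc 624, .negSucc 255⟩, ⟨.ofNat 40, .negSucc 17, .negSucc 472, .ofNat 191, .negSucc 170, .negSucc 78⟩, ⟨.negSucc 296, .ofNat 26, .ofNat 34, .negSucc 55, .ofNat 717, .ofNat 419⟩, ⟨.negSucc 3099, .negSucc 36, .ofNat 164, .ofNat 746, .negSucc 1108, .negSucc 375⟩, ⟨.ofNat 2162, .ofNat 338, .negSucc 814, .ofNat 902, .negSucc 106, .negSucc 433⟩, .ofNat 459, .negSucc 331, .ofNat 0, .negSucc 331, .ofNat 1566, .ofNat 0, .ofNat 265, .ofNat 109, .negSucc 126, .ofNat 0, .ofNat 128, .negSucc 16, .ofNat 0, .ofNat 0, .ofNat 383, .ofNat 1459, .ofNat 1053161946835530880743733173762196609433600, .ofNat 0, .ofNat 552580325000489479177120699000297619456,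 .ofNat 0, .ofNat 0, .ofNat 0, .ofNat 0, .ofNat 0, .ofNat 0, .ofNat 0, .ofNat 141769004139953388162398642876401959567360, .ofNat 0, .ofNat 181691072884901208223158202979178496193986560, .ofNat 0, .ofNat 1252944054255216589785449936814241480704, .ofNat 0⟩)
    (by decide +kernel)
theorem L00848 : Good (Phi V5.P V5.D 1 1) ⟨3, 4, 2, 0, 2, 3, 2, 0, 4, 3⟩ :=
  leafX_sound T5.ok_pp T5.Ypp.bz_eq (w := 201) (c := ⟨⟨.negSucc 1715, .negSucc 187, .ofNat 49, .ofNat 339, .negSucc 339, .ofNat 69⟩, ⟨.negSucc 1, .negSucc 148, .negSucc 378, .ofNat 91, .negSucc 52, .negSucc 3⟩, ⟨.ofNat 28, .ofNat 18, .ofNat 55, .ofNat 42, .ofNat 688, .ofNat 217⟩, ⟨.negSucc 3768, .ofNat 49, .ofNat 62, .ofNat 454, .negSucc 688, .ofNat 203⟩, ⟨.ofNat 395, .ofNat 336, .negSucc 548, .ofNat 1630, .negSucc 151, .negSucc 437⟩, .ofNat 331, .negSucc 62, .ofNat 0, .negSucc 62, .ofNat 769, .ofNat 0, .ofNat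 238, .ofNat 3, .negSucc 60, .ofNat 0, .ofNat 128, .ofNat 7, .ofNat 0, .ofNat 0, .ofNat 303, .ofNat 1870, .ofNat 2588430591236630977228925030756580851712, .ofNat 0, .ofNat 0, .ofNat 0, .ofNat 0, .ofNat 0, .ofNat 0, .ofNat 0, .ofNat 0, .ofNat 0, .ofNat 0, .ofNat 0, .ofNat 0, .ofNat 0, .ofNat 0, .ofNat 0⟩)
    (by decide +kernel)
theorem L00849 : Good (Phi V5.P V5.D 1 1) ⟨3, 5, 2, 0, 3, 6, 2, 0, 4, 3⟩ :=
  leafX_sound T5.ok_pp T5.Ypp.bz_eq (w := 216) (c := ⟨⟨.negSucc 1880, .negSucc 210, .ofNat 78, .ofNat 180, .negSucc 483, .ofNat 131⟩, ⟨.negSucc 139, .negSucc 186, .negSucc 364, .ofNat 88, .negSucc 128, .ofNat 15⟩, ⟨.negSucc 156, .ofNat 4, .ofNat 55, .ofNat 29, .ofNat 995, .ofNat 182⟩, ⟨.negSucc 3700, .ofNat 55, .ofNat 136, .ofNat 129, .negSucc 832, .ofNat 312⟩, ⟨.ofNat 570, .ofNat 206, .negSucc 430, .ofNat 790, .negSucc 61, .negSucc 327⟩, .ofNat 314, .negSucc 104,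 .ofNat 0, .negSucc 104, .ofNat 676, .ofNat 0, .ofNat 174, .ofNat 39, .negSucc 81, .ofNat 0, .ofNat 128, .ofNat 7, .ofNat 0, .ofNat 0, .ofNat 352, .ofNat 2856, .ofNat 0, .ofNat 0, .ofNat 707541138941731106549661401082849394688, .ofNat 0, .ofNat 0, .ofNat 0, .ofNat 0, .ofNat 0, .ofNat 207316706722573050258119060545990963503300608, .ofNat 0, .ofNat 129269271512200195697148540442311349239808, .ofNat 0, .ofNat 0, .ofNat 0, .ofNat 0, .ofNat 0⟩)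
    (by decide +kernel)
theorem L00850 : Good (Phi V5.P V5.D 1 1) ⟨3, 5, 2, 0, 3, 7, 2, 0, 4, 3⟩ :=
  leafX_sound T5.ok_pp T5.Ypp.bz_eq (w := 215) (c := ⟨⟨.negSucc 1694, .negSucc 126, .ofNat 74, .ofNat 383, .negSucc 489, .ofNat 37⟩, ⟨.negSucc 41, .negSucc 64, .negSucc 442, .ofNat 156, .negSucc 129, .negSucc 23⟩, ⟨.ofNat 45, .ofNat 13, .ofNat 7, .ofNat 19, .ofNat 777, .ofNat 199⟩, ⟨.negSucc 3455, .ofNat 12, .ofNat 108, .ofNat 387, .negSucc 852, .ofNat 195⟩, ⟨.ofNat 1609, .ofNat 400, .negSucc 737, .ofNat 1127, .negSucc 154, .negSucc 508⟩, .ofNat 316, .negSucc 106, .ofNat 0, .negSucc 106, .ofNat 693, .ofNat 0, .ofNat 190, .ofNat 24, .negSucc 53, .ofNat 0, .ofNat 128, .ofNat 3, .ofNat 0, .ofNat 0, .ofNat 261, .ofNat 1969, .ofNat 0, .ofNat 0, .ofNat 0, .ofNat 0, .ofNat 0, .ofNat 0, .ofNat 0, .ofNat 0, .ofNat 0, .ofNat 0, .ofNat 146985273150612679192217060476386476556288,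 .ofNat 0, .ofNat 0, .ofNat 0, .ofNat 0, .ofNat 0⟩)
    (by decide +kernel)
theorem L00851 : Good (Phi V5.P V5.D 1 1) ⟨2, 2, 2, 0, 2, 2, 2, 1, 4, 2⟩ :=
  leafX_sound T5.ok_pp T5.Ypp.bz_eq (w := 196) (c := ⟨⟨.negSucc 1362, .negSucc 777, .ofNat 12, .negSucc 301, .negSucc 309, .negSucc 266⟩, ⟨.ofNat 49, .negSucc 475, .negSucc 364, .negSucc 26, .negSucc 44, .negSucc 46⟩, ⟨.ofNat 511, .ofNat 300, .ofNat 70, .negSucc 288, .ofNat 780, .ofNat 398⟩, ⟨.negSucc 3040, .negSucc 426, .ofNat 64, .negSucc 708, .negSucc 595, .negSucc 545⟩, ⟨.negSucc 315, .ofNat 326, .negSucc 155, .ofNat 533, .negSucc 65, .negSucc 141⟩, .ofNat 322, .negSucc 89, .ofNat 0, .negSucc 89, .ofNat 720, .ofNat 0, .ofNat 324, .ofNat 69, .negSucc 202, .ofNat 0, .ofNat 128, .ofNat 2, .ofNat 0, .ofNat 0, .ofNat 488, .ofNat 477, .ofNat 0, .ofNat 0, .ofNat 0, .ofNat 0, .ofNat 0, .ofNat 0, .ofNat 0, .ofNat 0,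 .ofNat 0, .ofNat 0, .ofNat 0, .ofNat 0, .ofNat 0, .ofNat 0, .ofNat 0, .ofNat 0⟩)
    (by decide +kernel)
theorem L00852 : Good (Phi V5.P V5.D 1 1) ⟨3, 4, 2, 0, 2, 3, 2, 1, 4, 2⟩ :=
  leafX_sound T5.ok_pp T5.Ypp.bz_eq (w := 201) (c := ⟨⟨.negSucc 1777, .negSucc 386, .ofNat 120, .ofNat 301, .negSucc 479, .negSucc 225⟩, ⟨.ofNat 24, .negSucc 189, .negSucc 419, .ofNat 83, .negSucc 80, .negSucc 43⟩, ⟨.ofNat 295, .ofNat 184, .ofNat 8, .negSucc 123, .ofNat 749, .ofNat 447⟩, ⟨.negSucc 3812, .negSucc 320, .ofNat 62, .ofNat 264, .negSucc 964, .negSucc 451⟩, ⟨.ofNat 333, .ofNat 267, .negSucc 235, .ofNat 1687, .negSucc 288, .negSucc 210⟩, .ofNat 333, .negSucc 73, .ofNat 0, .negSucc 73, .ofNat 795, .ofNat 0, .ofNat 482, .ofNat 34, .negSucc 301, .ofNat 0, .ofNat 128, .ofNat 13, .ofNat 0, .ofNat 0, .ofNat 580, .ofNat 1239, .ofNat 0, .ofNat 0, .ofNat 0, .ofNat 0, .ofNat 0, .ofNat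 0, .ofNat 0, .ofNat 0, .ofNat 0, .ofNat 0, .ofNat 0, .ofNat 0, .ofNat 0, .ofNat 0, .ofNat 0, .ofNat 0⟩)
    (by decide +kernel)
theorem L00853 : Good (Phi V5.P V5.D 1 1) ⟨3, 5, 2, 0, 3, 6, 2, 1, 4, 2⟩ :=
  leafX_sound T5.ok_pp T5.Ypp.bz_eq (w := 215) (c := ⟨⟨.negSucc 2179, .negSucc 448, .ofNat 71, .ofNat 54, .negSucc 828, .ofNat 8⟩, ⟨.negSucc 158, .negSucc 267, .negSucc 469, .ofNat 81, .negSucc 216, .negSucc 9⟩, ⟨.ofNat 419, .ofNat 211, .ofNat 94, .negSucc 5, .ofNat 1043, .ofNat 314⟩, ⟨.negSucc 4264, .negSucc 278, .ofNat 48, .negSucc 133, .negSucc 1411, .ofNat 81⟩, ⟨.ofNat 629, .ofNat 318, .negSucc 138, .ofNat 858, .negSucc 143, .negSucc 418⟩, .ofNat 452, .negSucc 311, .ofNat 0, .negSucc 311, .ofNat 1505, .ofNat 0, .ofNat 194, .ofNat 128, .negSucc 115, .ofNat 0, .ofNat 112, .negSucc 13, .ofNat 0, .ofNat 0, .ofNat 272, .ofNat 812, .ofNat 0, .ofNat 0, .ofNat 1266498795863758851852812239331242541056,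 .ofNat 0, .ofNat 0, .ofNat 0, .ofNat 16425327239519568753778381701243237040128, .ofNat 0, .ofNat 0, .ofNat 0, .ofNat 0, .ofNat 0, .ofNat 0, .ofNat 0, .ofNat 0, .ofNat 0⟩)
    (by decide +kernel)
theorem L00854 : Good (Phi V5.P V5.D 1 1) ⟨3, 5, 2, 0, 3, 7, 2, 1, 4, 2⟩ :=
  leafX_sound T5.ok_pp T5.Ypp.bz_eq (w := 215) (c := ⟨⟨.negSucc 2159, .negSucc 384, .ofNat 163, .ofNat 651, .negSucc 845, .negSucc 46⟩, ⟨.negSucc 105, .negSucc 154, .negSucc 499, .ofNat 251, .negSucc 244, .negSucc 13⟩, ⟨.ofNat 562, .ofNat 231, .negSucc 30, .negSucc 311, .ofNat 858, .ofNat 314⟩, ⟨.negSucc 4257, .negSucc 291, .ofNat 9, .ofNat 821, .negSucc 1485, .negSucc 7⟩, ⟨.ofNat 1320, .ofNat 374, .ofNat 105, .ofNat 848, .ofNat 26, .negSucc 360⟩, .ofNat 450, .negSucc 300, .ofNat 0, .negSucc 300, .ofNat 1516, .ofNat 0, .ofNat 234, .ofNat 124, .negSucc 150, .ofNat 0, .ofNat 128, .negSucc 15, .ofNat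 0, .ofNat 0, .ofNat 351, .ofNat 910, .ofNat 0, .ofNat 0, .ofNat 1891907057367745750538827608035581493248, .ofNat 0, .ofNat 0, .ofNat 0, .ofNat 12006960035744603270704120244376797446144, .ofNat 0, .ofNat 0, .ofNat 0, .ofNat 71519798466252780289942873300365962379264, .ofNat 0, .ofNat 0, .ofNat 0, .ofNat 0, .ofNat 0⟩)
    (by decide +kernel)
theorem L00855 : Good (Phi V5.P V5.D 1 1) ⟨2, 2, 2, 0, 2, 2, 2, 1, 4, 3⟩ :=
  leafX_sound T5.ok_pp T5.Ypp.bz_eq (w := 197) (c := ⟨⟨.negSucc 1788, .negSucc 718, .negSucc 30, .negSucc 135, .negSucc 245, .ofNat 135⟩, ⟨.ofNat 11, .negSucc 502, .negSucc 369, .negSucc 25, .negSucc 68, .ofNat 11⟩, ⟨.ofNat 951, .ofNat 302, .ofNat 106, .negSucc 280, .ofNat 680, .ofNat 146⟩, ⟨.negSucc 3966, .negSucc 204, .ofNat 3, .negSucc 351, .negSucc 422, .ofNat 274⟩, ⟨.negSucc 335, .ofNat 231, .negSucc 88, .ofNat 373, .negSucc 37, .negSucc 108⟩,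 .ofNat 323, .negSucc 90, .ofNat 0, .negSucc 90, .ofNat 757, .ofNat 0, .ofNat 253, .ofNat 65, .negSucc 112, .ofNat 0, .ofNat 128, .ofNat 3, .ofNat 0, .ofNat 0, .ofNat 402, .ofNat 1247, .ofNat 0, .ofNat 0, .ofNat 299417452401149680818040627034849280, .ofNat 0, .ofNat 0, .ofNat 0, .ofNat 0, .ofNat 0, .ofNat 0, .ofNat 0, .ofNat 0, .ofNat 0, .ofNat 0, .ofNat 0, .ofNat 0, .ofNat 0⟩)
    (by decide +kernel)
theorem L00856 : Good (Phi V5.P V5.D 1 1) ⟨2, 2, 2, 0, 3, 6, 2, 1, 4, 3⟩ :=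
  leafX_sound T5.ok_pp T5.Ypp.bz_eq (w := 212) (c := ⟨⟨.negSucc 2003, .negSucc 669, .ofNat 68, .ofNat 62, .negSucc 425, .ofNat 205⟩, ⟨.negSucc 5, .negSucc 455, .negSucc 426, .ofNat 57, .negSucc 94, .ofNat 12⟩, ⟨.ofNat 758, .ofNat 282, .ofNat 52, .negSucc 43, .ofNat 746, .ofNat 96⟩, ⟨.negSucc 4421, .negSucc 186, .ofNat 105, .negSucc 43, .negSucc 747, .ofNat 460⟩, ⟨.ofNat 224, .ofNat 451, .negSucc 237, .ofNat 647, .negSucc 173, .negSucc 379⟩, .ofNat 323, .negSucc 90, .ofNat 0, .negSucc 90, .ofNat 757, .ofNat 0, .ofNat 310, .ofNat 47, .negSucc 88, .ofNat 0, .ofNat 128, .ofNat 4, .ofNat 0, .ofNat 0, .ofNat 311, .ofNat 1550, .ofNat 0, .ofNat 0, .ofNat 9406497393481938401378678897590820405248, .ofNat 0, .ofNat 0, .ofNat 0, .ofNat 0, .ofNat 0, .ofNat 0, .ofNat 0, .ofNat 44900112007961080517650559102012411084800, .ofNat 0, .ofNat 0, .ofNat 0, .ofNat 0, .ofNat 0⟩)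
    (by decide +kernel)
theorem L00857 : Good (Phi V5.P V5.D 1 1) ⟨2, 2, 2, 0, 3, 7, 2, 1, 4, 3⟩ :=
  leafX_sound T5.ok_pp T5.Ypp.bz_eq (w := 211) (c := ⟨⟨.negSucc 2003, .negSucc 488, .ofNat 88, .ofNat 297, .negSucc 506, .ofNat 222⟩, ⟨.negSucc 2, .negSucc 325, .negSucc 438, .ofNat 112, .negSucc 114, .ofNat 24⟩, ⟨.ofNat 794, .ofNat 228, .negSucc 27, .negSucc 81, .ofNat 687, .ofNat 112⟩, ⟨.negSucc 4380, .negSucc 111, .ofNat 26, .ofNat 309, .negSucc 882, .ofNat 521⟩, ⟨.ofNat 843, .ofNat 692, .negSucc 288, .ofNat 1103, .negSucc 218, .negSucc 477⟩, .ofNat 323, .negSucc 90, .ofNat 0, .negSucc 90, .ofNat 757, .ofNat 0, .ofNat 213, .ofNat 35, .negSucc 61, .ofNat 0, .ofNat 128, .ofNat 4, .ofNat 0, .ofNat 0, .ofNat 268, .ofNat 950, .ofNat 0, .ofNat 0, .ofNat 8316270651883577002633484305814492545024, .ofNat 0, .ofNat 0, .ofNat 0, .ofNat 0, .ofNat 0, .ofNat 0, .ofNat 0,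 .ofNat 257020912864157394159775230351186029707264, .ofNat 0, .ofNat 0, .ofNat 0, .ofNat 0, .ofNat 0⟩)
    (by decide +kernel)
theorem L00858 : Good (Phi V5.P V5.D 1 1) ⟨4, 12, 2, 0, 2, 2, 4, 0, 5, 0⟩ :=
  leafX_sound T5.ok_pp T5.Ypp.bz_eq (w := 220) (c := ⟨⟨.ofNat 2749, .ofNat 225, .negSucc 224, .negSucc 7, .ofNat 343, .negSucc 1720⟩, ⟨.ofNat 711, .ofNat 183, .ofNat 143, .ofNat 82, .ofNat 126, .negSucc 624⟩, ⟨.negSucc 1487, .negSucc 186, .ofNat 253, .negSucc 1239, .negSucc 62, .ofNat 451⟩, ⟨.ofNat 4556, .ofNat 140, .negSucc 266, .negSucc 342, .ofNat 548, .negSucc 2696⟩, ⟨.ofNat 18, .negSucc 28, .negSucc 356, .ofNat 958, .ofNat 40, .negSucc 308⟩, .ofNat 563, .negSucc 498, .ofNat 0, .negSucc 498, .ofNat 1609, .ofNat 0, .ofNat 143, .ofNat 128, .negSucc 89, .ofNat 0, .ofNat 92, .negSucc 21, .ofNat 0, .ofNat 0, .ofNat 338, .ofNat 8106, .ofNat 0, .ofNat 0, .ofNat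 10964228980396457769266031741397630976, .ofNat 0, .ofNat 0, .ofNat 0, .ofNat 6421352524379193674709730531607694016512, .ofNat 0, .ofNat 0, .ofNat 0, .ofNat 13254712806030014876355607508699754528768, .ofNat 0, .ofNat 0, .ofNat 0, .ofNat 1757240986805649529510650426936612880384, .ofNat 0⟩)
    (by decide +kernel)
theorem L00859 : Good (Phi V5.P V5.D 1 1) ⟨4, 12, 2, 0, 2, 2, 4, 1, 5, 0⟩ :=
  leafX_sound T5.ok_pp T5.Ypp.bz_eq (w := 219) (c := ⟨⟨.ofNat 3030, .ofNat 298, .negSucc 172, .ofNat 78, .ofNat 258, .negSucc 1809⟩, ⟨.ofNat 776, .ofNat 228, .ofNat 213, .ofNat 112, .ofNat 107, .negSucc 682⟩, ⟨.negSucc 1663, .negSucc 200, .ofNat 168, .negSucc 1071, .negSucc 174, .ofNat 675⟩, ⟨.ofNat 5057, .ofNat 244, .negSucc 248, .negSucc 228, .ofNat 362, .negSucc 2791⟩, ⟨.ofNat 87, .negSucc 158, .negSucc 297, .ofNat 1016, .ofNat 181, .negSucc 493⟩, .ofNat 423, .negSucc 259,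 .ofNat 0, .negSucc 259, .ofNat 969, .ofNat 0, .ofNat 186, .ofNat 128, .negSucc 102, .ofNat 0, .ofNat 100, .negSucc 20, .ofNat 0, .ofNat 0, .ofNat 259, .ofNat 4363, .ofNat 0, .ofNat 0, .ofNat 352511110277168343879267385357019119616, .ofNat 0, .ofNat 0, .ofNat 0, .ofNat 2801832605961336323664102456541361209344, .ofNat 0, .ofNat 0, .ofNat 0, .ofNat 12520620664125882904725951261987458514944, .ofNat 0, .ofNat 0, .ofNat 0, .ofNat 3387051618307614200776139662921056649216, .ofNat 0⟩)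
    (by decide +kernel)
theorem L00860 : Good (Phi V5.P V5.D 1 1) ⟨4, 12, 2, 0, 2, 2, 3, 0, 5, 1⟩ :=
  leafX_sound T5.ok_pp T5.Ypp.bz_eq (w := 215) (c := ⟨⟨.ofNat 1269, .ofNat 51, .negSucc 297, .negSucc 25, .ofNat 265, .negSucc 1389⟩, ⟨.ofNat 388, .ofNat 17, .negSucc 98, .ofNat 77, .ofNat 95, .negSucc 476⟩, ⟨.negSucc 1300, .negSucc 75, .ofNat 397, .negSucc 1149, .ofNat 113, .ofNat 435⟩, ⟨.ofNat 2136, .ofNat 58, .negSucc 309, .negSucc 377, .ofNat 398, .negSucc 2279⟩, ⟨.negSucc 112, .negSucc 55, .negSucc 522, .ofNat 950, .ofNat 72, .ofNat 30⟩, .ofNat 474, .negSucc 380, .ofNat 0, .negSucc 380, .ofNat 1260, .ofNat 0, .ofNat 128, .ofNat 141, .negSucc 105, .ofNat 0, .ofNat 96, .negSucc 25, .ofNat 0, .ofNat 0, .ofNat 312, .ofNat 3997, .ofNat 0, .ofNat 0, .ofNat 0, .ofNat 0, .ofNat 0, .ofNat 0, .ofNat 350092497486792110795936870805792620544, .ofNat 0, .ofNat 0, .ofNat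 0, .ofNat 621820403877865681716224336639100452864, .ofNat 0, .ofNat 0, .ofNat 0, .ofNat 0, .ofNat 0⟩)
    (by decide +kernel)
theorem L00861 : Good (Phi V5.P V5.D 1 1) ⟨4, 12, 2, 0, 2, 2, 3, 1, 4, 0⟩ :=
  leafX_sound T5.ok_pp T5.Ypp.bz_eq (w := 210) (c := ⟨⟨.ofNat 3458, .ofNat 297, .negSucc 346, .ofNat 201, .ofNat 416, .negSucc 3801⟩, ⟨.ofNat 936, .ofNat 169, .ofNat 170, .ofNat 146, .ofNat 159, .negSucc 1393⟩, ⟨.negSucc 1646, .ofNat 103, .negSucc 362, .negSucc 842, .negSucc 20, .ofNat 1569⟩, ⟨.ofNat 5756, .ofNat 326, .negSucc 633, .negSucc 0, .ofNat 619, .negSucc 5958⟩, ⟨.negSucc 35, .negSucc 374, .ofNat 148, .ofNat 947, .ofNat 226, .negSucc 789⟩, .ofNat 473, .negSucc 379, .ofNat 0, .negSucc 379, .ofNat 1263, .ofNat 0, .ofNat 128, .ofNat 134, .negSucc 98, .ofNat 0, .ofNat 87, .negSucc 25, .ofNat 0, .ofNat 0, .ofNat 185, .ofNat 926, .ofNat 0, .ofNat 0, .ofNat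 405720045044558644515575919552757760, .ofNat 0, .ofNat 0, .ofNat 0, .ofNat 12614428025128654973153993801368338432, .ofNat 0, .ofNat 0, .ofNat 0, .ofNat 13061606307446396281961204037263032320, .ofNat 0, .ofNat 0, .ofNat 0, .ofNat 4251141661972368630818978779889664000, .ofNat 0⟩)
    (by decide +kernel)
theorem L00862 : Good (Phi V5.P V5.D 1 1) ⟨4, 13, 2, 0, 2, 2, 2, 0, 4, 0⟩ :=
  out_sound (S := T5.ds_pp) T5.ok_pp (w := 49) (j := 3) (by decide +kernel)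
theorem L00863 : Good (Phi V5.P V5.D 1 1) ⟨3, 7, 2, 0, 2, 2, 2, 0, 4, 0⟩ :=
  out_sound (S := T5.ds_pp) T5.ok_pp (w := 43) (j := 3) (by decide +kernel)
theorem L00864 : Good (Phi V5.P V5.D 1 1) ⟨4, 12, 3, 0, 2, 3, 2, 0, 4, 0⟩ :=
  out_sound (S := T5.ds_pp) T5.ok_pp (w := 51) (j := 3) (by decide +kernel)
theorem L00865 : Good (Phi V5.P V5.D 1 1) ⟨4, 12, 3, 1, 3, 6, 3, 0, 4, 0⟩ :=
  leafX_sound T5.ok_pp T5.Ypp.bz_eq (w := 227) (c := ⟨⟨.ofNat 2784, .negSucc 155, .negSucc 15, .negSucc 185, .ofNat 227, .negSucc 3161⟩, ⟨.ofNat 1041, .ofNat 51, .negSucc 20, .ofNat 37, .ofNat 74, .negSucc 1148⟩, ⟨.negSucc 3369, .ofNat 62, .ofNat 238, .ofNat 234, .ofNat 152, .ofNat 1659⟩, ⟨.ofNat 4270, .negSucc 371, .negSucc 22, .negSucc 722, .ofNat 414, .negSucc 5032⟩, ⟨.ofNat 1194, .negSucc 246, .negSucc 224, .ofNat 1165, .negSucc 63, .negSucc 558⟩, .ofNat 449, .negSucc 321, .ofNat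 0, .negSucc 321, .ofNat 1084, .ofNat 0, .ofNat 151, .ofNat 128, .negSucc 245, .ofNat 0, .ofNat 106, .negSucc 65, .ofNat 0, .ofNat 0, .ofNat 420, .ofNat 1651, .ofNat 0, .ofNat 0, .ofNat 6243023879559008594994487198541991116800, .ofNat 0, .ofNat 0, .ofNat 0, .ofNat 0, .ofNat 0, .ofNat 0, .ofNat 0, .ofNat 700083192926480935942580355718133739159552, .ofNat 0, .ofNat 0, .ofNat 0, .ofNat 121391370724343443024101192226383677358080, .ofNat 0⟩)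
    (by decide +kernel)

end Crest.Agent.R097C5.N5pp
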