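import Crest.Agent.R097.KP7
import Crest.Agent.R097.T5Ypp

/-!
# Row 97, box cover in dimension n = 5 (generated)
-/

set_option autoImplicit false
set_option Elab.async false
set_option maxHeartbeats 0
set_option maxRecDepth 100000

open Crest.Agent.R097 Crest.Agent.R097.KA


namespace Crest.Agent.R097C5.N5pp

theorem L00866 : Good (Phi V5.P V5.D 1 1) ⟨4, 12, 3, 1, 3, 6, 3, 1, 4, 0⟩ :=
  leafX_sound T5.ok_pp T5.Ypp.bz_eq (w := 227) (c := ⟨⟨.ofNat 3693, .ofNat 556, .negSucc 348, .negSucc 366, .ofNat 373, .negSucc 4078⟩, ⟨.ofNat 1325, .ofNat 440, .negSucc 95, .negSucc 42, .ofNat 147, .negSucc 1504⟩, ⟨.negSucc 3324, .negSucc 476, .ofNat 284, .ofNat 133, .ofNat 108, .ofNat 2172⟩, ⟨.ofNat 5696, .ofNat 627, .negSucc 562, .negSucc 965, .ofNat 555, .negSucc 6368⟩, ⟨.ofNat 1558, .negSucc 150, .negSucc 413, .ofNat 1032, .ofNat 109, .negSucc 971⟩, .ofNat 474, .negSucc 380, .ofNat 0,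 .negSucc 380, .ofNat 1259, .ofNat 0, .ofNat 128, .ofNat 218, .negSucc 266, .ofNat 0, .ofNat 141, .negSucc 72, .ofNat 0, .ofNat 0, .ofNat 350, .ofNat 1170, .ofNat 0, .ofNat 0, .ofNat 27783174207035384151068482211879382417408, .ofNat 0, .ofNat 0, .ofNat 0, .ofNat 64016821156720939009435844028052377960448, .ofNat 0, .ofNat 0, .ofNat 0, .ofNat 430583287518014357988150315955365087281152, .ofNat 0, .ofNat 0, .ofNat 0, .ofNat 200613127499850091445417540241555340656640, .ofNat 0⟩)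
    (by decide +kernel)
theorem L00867 : Good (Phi V5.P V5.D 1 1) ⟨4, 12, 3, 1, 4, 14, 2, 0, 5, 0⟩ :=
  leafX_sound T5.ok_pp T5.Ypp.bz_eq (w := 242) (c := ⟨⟨.ofNat 2242, .ofNat 687, .negSucc 440, .negSucc 871, .ofNat 1073, .negSucc 1473⟩, ⟨.ofNat 1007, .ofNat 465, .negSucc 238, .negSucc 266, .ofNat 391, .negSucc 582⟩, ⟨.negSucc 2358, .negSucc 727, .ofNat 613, .ofNat 1371, .negSucc 799, .ofNat 672⟩, ⟨.ofNat 2991, .ofNat 922, .negSucc 756, .negSucc 1619, .ofNat 1680, .negSucc 2217⟩, ⟨.ofNat 2415, .negSucc 382, .negSucc 254, .ofNat 544, .ofNat 219, .negSucc 506⟩, .ofNat 622, .negSucc 671, .ofNat 0, .negSucc 671, .ofNat 2009, .ofNat 0, .ofNat 128, .ofNat 197, .negSucc 347, .ofNat 0, .ofNat 118, .negSucc 110, .ofNat 0, .ofNat 0, .ofNat 438, .ofNat 486, .ofNat 0, .ofNat 0, .ofNat 585563222145165902334820111999761349836013568, .ofNat 0, .ofNat 0, .ofNat 0, .ofNat 19663109890120561346838754856364484985394036736,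 .ofNat 0, .ofNat 0, .ofNat 0, .ofNat 13850340624994535903515903897683654671591276544, .ofNat 0, .ofNat 0, .ofNat 0, .ofNat 0, .ofNat 0⟩)
    (by decide +kernel)
theorem L00868 : Good (Phi V5.P V5.D 1 1) ⟨4, 12, 3, 1, 4, 15, 2, 0, 5, 0⟩ :=
  leafX_sound T5.ok_pp T5.Ypp.bz_eq (w := 241) (c := ⟨⟨.ofNat 756, .ofNat 467, .negSucc 455, .ofNat 552, .ofNat 1397, .negSucc 771⟩, ⟨.ofNat 517, .ofNat 376, .negSucc 252, .ofNat 217, .ofNat 521, .negSucc 329⟩, ⟨.negSucc 144, .negSucc 321, .ofNat 370, .ofNat 550, .negSucc 1365, .negSucc 22⟩, ⟨.ofNat 454, .ofNat 577, .negSucc 837, .ofNat 836, .ofNat 2128, .negSucc 1032⟩, ⟨.ofNat 2807, .negSucc 178, .negSucc 238, .ofNat 150, .ofNat 469, .negSucc 681⟩, .ofNat 631, .negSucc 691, .ofNat 0, .negSucc 691, .ofNat 2053, .ofNat 0, .ofNat 128, .ofNat 260, .negSucc 254, .ofNat 0, .ofNat 147, .negSucc 81, .ofNat 0, .ofNat 0, .ofNat 316, .ofNat 403, .ofNat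 0, .ofNat 0, .ofNat 736487735334679205518604361658220893897228288, .ofNat 0, .ofNat 0, .ofNat 0, .ofNat 17821282246608530100658319052027244002517450752, .ofNat 0, .ofNat 0, .ofNat 0, .ofNat 36410008323075711713031302158203722546628526080, .ofNat 0, .ofNat 0, .ofNat 0, .ofNat 5283770562774911920042192526628918053413322752, .ofNat 0⟩)
    (by decide +kernel)
theorem L00869 : Good (Phi V5.P V5.D 1 1) ⟨4, 12, 3, 1, 3, 7, 2, 0, 5, 1⟩ :=
  leafX_sound T5.ok_pp T5.Ypp.bz_eq (w := 226) (c := ⟨⟨.ofNat 404, .ofNat 476, .negSucc 268, .ofNat 432, .ofNat 284, .negSucc 922⟩, ⟨.ofNat 377, .ofNat 327, .negSucc 233, .ofNat 211, .ofNat 81, .negSucc 337⟩, ⟨.negSucc 1270, .negSucc 442, .ofNat 450, .ofNat 867, .negSucc 415, .ofNat 355⟩, ⟨.ofNat 59, .ofNat 740, .negSucc 480, .ofNat 529, .ofNat 488, .negSucc 1466⟩, ⟨.ofNat 2175, .negSucc 331, .negSucc 295, .ofNat 512, .negSucc 121, .negSucc 107⟩,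 .ofNat 623, .negSucc 671, .ofNat 0, .negSucc 671, .ofNat 2002, .ofNat 0, .ofNat 128, .ofNat 164, .negSucc 204, .ofNat 0, .ofNat 102, .negSucc 60, .ofNat 0, .ofNat 0, .ofNat 313, .ofNat 496, .ofNat 0, .ofNat 0, .ofNat 0, .ofNat 0, .ofNat 0, .ofNat 0, .ofNat 871556185931632388132467714704931983196160, .ofNat 0, .ofNat 0, .ofNat 0, .ofNat 451761660140396157515970843596256024985600, .ofNat 0, .ofNat 0, .ofNat 0, .ofNat 0, .ofNat 0⟩)
    (by decide +kernel)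
theorem L00870 : Good (Phi V5.P V5.D 1 1) ⟨4, 13, 2, 0, 2, 3, 2, 0, 4, 0⟩ :=
  out_sound (S := T5.ds_pp) T5.ok_pp (w := 49) (j := 3) (by decide +kernel)
theorem L00871 : Good (Phi V5.P V5.D 1 1) ⟨3, 7, 2, 0, 2, 3, 2, 0, 4, 0⟩ :=
  out_sound (S := T5.ds_pp) T5.ok_pp (w := 43) (j := 3) (by decide +kernel)
theorem L00872 : Good (Phi V5.P V5.D 1 1) ⟨4, 12, 3, 0, 1, 1, 2, 0, 4, 1⟩ :=
  out_sound (S := T5.ds_pp) T5.ok_pp (w := 51) (j := 3) (by decide +kernel)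
theorem L00873 : Good (Phi V5.P V5.D 1 1) ⟨4, 12, 3, 1, 2, 2, 2, 0, 4, 1⟩ :=
  leafX_sound T5.ok_pp T5.Ypp.bz_eq (w := 207) (c := ⟨⟨.negSucc 357, .negSucc 64, .ofNat 14, .negSucc 85, .negSucc 255, .negSucc 1459⟩, ⟨.negSucc 93, .negSucc 122, .negSucc 78, .ofNat 56, .negSucc 88, .negSucc 501⟩, ⟨.negSucc 857, .negSucc 218, .ofNat 235, .negSucc 939, .ofNat 959, .ofNat 791⟩, ⟨.negSucc 424, .ofNat 98, .ofNat 45, .negSucc 480, .negSucc 449, .negSucc 2420⟩, ⟨.negSucc 522, .negSucc 143, .negSucc 53, .ofNat 942, .ofNat 109, .ofNat 50⟩, .ofNat 475, .negSucc 383, .ofNat 0, .negSucc 383, .ofNat 1278, .ofNat 0, .ofNat 128, .ofNat 158, .negSucc 113, .ofNat 0, .ofNat 113, .negSucc 23, .ofNat 0, .ofNat 0, .ofNat 308, .ofNat 1220, .ofNat 980240744512944551761070176725673942450176, .ofNat 0, .ofNat 151906455284661007306063781067489280, .ofNat 0, .ofNat 0, .ofNat 0, .ofNat 823169327418622549669016952387928064,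 .ofNat 0, .ofNat 0, .ofNat 0, .ofNat 0, .ofNat 0, .ofNat 0, .ofNat 0, .ofNat 0, .ofNat 0⟩)
    (by decide +kernel)
theorem L00874 : Good (Phi V5.P V5.D 1 1) ⟨4, 12, 3, 1, 3, 6, 2, 0, 4, 1⟩ :=
  leafX_sound T5.ok_pp T5.Ypp.bz_eq (w := 221) (c := ⟨⟨.negSucc 308, .negSucc 138, .negSucc 12, .ofNat 249, .negSucc 702, .negSucc 1341⟩, ⟨.ofNat 66, .negSucc 12, .negSucc 187, .ofNat 197, .negSucc 248, .negSucc 459⟩, ⟨.negSucc 1897, .negSucc 8, .ofNat 158, .ofNat 199, .ofNat 1146, .ofNat 1023⟩, ⟨.negSucc 754, .negSucc 165, .ofNat 33, .ofNat 9, .negSucc 1114, .negSucc 2199⟩, ⟨.ofNat 815, .ofNat 75, .negSucc 346, .ofNat 1137, .negSucc 90, .ofNat 17⟩, .ofNat 620, .negSucc 667, .ofNat 0, .negSucc 667, .ofNat 2016, .ofNat 0, .ofNat 199, .ofNat 128, .negSucc 124, .ofNat 0, .ofNat 86, .negSucc 31, .ofNat 0, .ofNat 0, .ofNat 276, .ofNat 865, .ofNat 1127618028491406991082033861031013860732043264,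 .ofNat 0, .ofNat 1227019801433837392929450480619577409536, .ofNat 0, .ofNat 0, .ofNat 0, .ofNat 30074740457345743752167388653277073637376, .ofNat 0, .ofNat 0, .ofNat 0, .ofNat 16445095688565736074474945814731906088960, .ofNat 0, .ofNat 0, .ofNat 0, .ofNat 0, .ofNat 0⟩)
    (by decide +kernel)
theorem L00875 : Good (Phi V5.P V5.D 1 1) ⟨4, 12, 3, 1, 3, 7, 2, 0, 4, 1⟩ :=
  leafX_sound T5.ok_pp T5.Ypp.bz_eq (w := 222) (c := ⟨⟨.negSucc 524, .ofNat 20, .ofNat 9, .ofNat 795, .negSucc 558, .negSucc 1030⟩, ⟨.ofNat 135, .ofNat 126, .negSucc 249, .ofNat 332, .negSucc 195, .negSucc 341⟩, ⟨.negSucc 878, .negSucc 214, .ofNat 212, .ofNat 173, .ofNat 371, .ofNat 555⟩, ⟨.negSucc 1465, .negSucc 39, .ofNat 35, .ofNat 1159, .negSucc 918, .negSucc 1755⟩, ⟨.ofNat 2109, .ofNat 177, .negSucc 509, .ofNat 456, .ofNat 12, .ofNat 145⟩, .ofNat 558, .negSucc 541, .ofNat 0, .negSucc 541, .ofNat 1685, .ofNat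 0, .ofNat 189, .ofNat 128, .negSucc 151, .ofNat 0, .ofNat 96, .negSucc 37, .ofNat 0, .ofNat 0, .ofNat 299, .ofNat 773, .ofNat 0, .ofNat 0, .ofNat 0, .ofNat 0, .ofNat 0, .ofNat 0, .ofNat 13557617362496061976392844175605399289856, .ofNat 0, .ofNat 0, .ofNat 0, .ofNat 24315211039447824213324962797427928072192, .ofNat 0, .ofNat 7927966415651724849050875200643281455992012800, .ofNat 0, .ofNat 5587414686450398872997249204049122689024, .ofNat 0⟩)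
    (by decide +kernel)
theorem L00876 : Good (Phi V5.P V5.D 1 1) ⟨4, 13, 2, 0, 1, 1, 2, 0, 4, 1⟩ :=
  out_sound (S := T5.ds_pp) T5.ok_pp (w := 49) (j := 3) (by decide +kernel)
theorem L00877 : Good (Phi V5.P V5.D 1 1) ⟨3, 7, 2, 0, 1, 1, 2, 0, 4, 1⟩ :=
  out_sound (S := T5.ds_pp) T5.ok_pp (w := 43) (j := 3) (by decide +kernel)
theorem L00878 : Good (Phi V5.P V5.D 1 1) ⟨4, 12, 3, 0, 1, 1, 2, 1, 3, 0⟩ :=
  out_sound (S := T5.ds_pp) T5.ok_pp (w := 51) (j := 3) (by decide +kernel)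
theorem L00879 : Good (Phi V5.P V5.D 1 1) ⟨4, 12, 3, 1, 2, 2, 3, 2, 4, 0⟩ :=
  leafX_sound T5.ok_pp T5.Ypp.bz_eq (w := 213) (c := ⟨⟨.ofNat 3593, .ofNat 495, .negSucc 30, .ofNat 327, .ofNat 212, .negSucc 4406⟩, ⟨.ofNat 1093, .ofNat 278, .ofNat 183, .ofNat 199, .ofNat 112, .negSucc 1613⟩, ⟨.negSucc 2223, .negSucc 453, .ofNat 43, .negSucc 621, .ofNat 55, .ofNat 2144⟩, ⟨.ofNat 5859, .ofNat 454, .negSucc 37, .ofNat 223, .ofNat 245, .negSucc 6901⟩, ⟨.ofNat 507, .ofNat 46, .negSucc 309, .ofNat 933, .ofNat 328, .negSucc 1117⟩, .ofNat 474, .negSucc 380, .ofNat 0, .negSucc 380, .ofNat 1258, .ofNat 0, .ofNat 128, .ofNat 183, .negSucc 157, .ofNat 0, .ofNat 118, .negSucc 43, .ofNat 0, .ofNat 0, .ofNat 219, .ofNat 512, .ofNat 0, .ofNat 0, .ofNat 969741308276343182783853709699842048, .ofNat 0, .ofNat 0, .ofNat 0, .ofNat 0, .ofNat 0, .ofNat 0, .ofNat 0, .ofNat 47461800669873909871486886476330827776,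 .ofNat 0, .ofNat 0, .ofNat 0, .ofNat 23877063271801301861313712422110887936, .ofNat 0⟩)
    (by decide +kernel)
theorem L00880 : Good (Phi V5.P V5.D 1 1) ⟨4, 12, 3, 1, 3, 6, 3, 2, 5, 0⟩ :=
  leafX_sound T5.ok_pp T5.Ypp.bz_eq (w := 233) (c := ⟨⟨.ofNat 4383, .ofNat 779, .negSucc 297, .negSucc 582, .negSucc 6, .negSucc 2969⟩, ⟨.ofNat 1550, .ofNat 554, .negSucc 26, .negSucc 111, .ofNat 10, .negSucc 1138⟩, ⟨.negSucc 3330, .negSucc 400, .ofNat 149, .ofNat 188, .ofNat 348, .ofNat 1546⟩, ⟨.ofNat 6735, .ofNat 894, .negSucc 533, .negSucc 1299, .negSucc 69, .negSucc 4450⟩, ⟨.ofNat 1757, .negSucc 147, .negSucc 241, .ofNat 984, .ofNat 162, .negSucc 1063⟩, .ofNat 619, .negSucc 633, .ofNat 0, .negSucc 633, .ofNat 1868, .ofNat 0, .ofNat 128, .ofNat 281, .negSucc 444, .ofNat 0, .ofNat 165, .negSucc 136, .ofNat 0, .ofNat 0, .ofNat 451, .ofNat 838, .ofNat 0, .ofNat 0, .ofNat 1007630783655455331907813256519474634293248,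 .ofNat 0, .ofNat 0, .ofNat 0, .ofNat 18908132792121418965043700611196982952722432, .ofNat 0, .ofNat 0, .ofNat 0, .ofNat 29110538767721322519383559021169979504459776, .ofNat 0, .ofNat 0, .ofNat 0, .ofNat 12636510480963918480023970647079893858254848, .ofNat 0⟩)
    (by decide +kernel)
theorem L00881 : Good (Phi V5.P V5.D 1 1) ⟨4, 12, 3, 1, 3, 7, 3, 2, 5, 0⟩ :=
  leafX_sound T5.ok_pp T5.Ypp.bz_eq (w := 232) (c := ⟨⟨.ofNat 2941, .ofNat 871, .negSucc 491, .ofNat 448, .ofNat 102, .negSucc 1905⟩, ⟨.ofNat 1209, .ofNat 583, .negSucc 174, .ofNat 256, .ofNat 46, .negSucc 792⟩, ⟨.negSucc 2307, .negSucc 504, .ofNat 260, .ofNat 1066, .ofNat 29, .ofNat 428⟩, ⟨.ofNat 4157, .ofNat 1123, .negSucc 987, .ofNat 330, .ofNat 80, .negSucc 2752⟩, ⟨.ofNat 2603, .ofNat 71, .negSucc 180, .ofNat 1206, .ofNat 184, .negSucc 1115⟩, .ofNat 551, .negSucc 525, .ofNat 0, .negSucc 525, .ofNat 1645, .ofNat 0,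 .ofNat 128, .ofNat 251, .negSucc 444, .ofNat 0, .ofNat 141, .negSucc 134, .ofNat 0, .ofNat 0, .ofNat 415, .ofNat 398, .ofNat 0, .ofNat 0, .ofNat 1900255069387703015111180111576191559794688, .ofNat 0, .ofNat 0, .ofNat 0, .ofNat 20889554221961553421332345337283779703603200, .ofNat 0, .ofNat 0, .ofNat 0, .ofNat 39555905661023571544797451990681677664878592, .ofNat 0, .ofNat 0, .ofNat 0, .ofNat 11648339664161173535117310761183988827553792, .ofNat 0⟩)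
    (by decide +kernel)
theorem L00882 : Good (Phi V5.P V5.D 1 1) ⟨4, 12, 3, 1, 2, 3, 3, 2, 5, 1⟩ :=
  leafX_sound T5.ok_pp T5.Ypp.bz_eq (w := 217) (c := ⟨⟨.ofNat 755, .ofNat 453, .negSucc 256, .ofNat 1057, .negSucc 407, .negSucc 1579⟩, ⟨.ofNat 351, .ofNat 285, .negSucc 165, .ofNat 540, .negSucc 138, .negSucc 588⟩, ⟨.negSucc 1708, .negSucc 233, .ofNat 192, .ofNat 370, .ofNat 341, .ofNat 720⟩, ⟨.ofNat 1068, .ofNat 592, .negSucc 561, .ofNat 1195, .negSucc 695, .negSucc 2485⟩, ⟨.ofNat 798, .ofNat 182, .ofNat 81, .ofNat 1422, .ofNat 50, .negSucc 237⟩, .ofNat 558, .negSucc 541, .ofNat 0, .negSucc 541, .ofNat 1675, .ofNat 0, .ofNat 128, .ofNat 153, .negSucc 206, .ofNat 0, .ofNat 89, .negSucc 57, .ofNat 0, .ofNat 0, .ofNat 230, .ofNat 535, .ofNat 0, .ofNat 0, .ofNat 50134109596101667259966577428035272704, .ofNat 0, .ofNat 0, .ofNat 0, .ofNat 233142266006082205800545154444151488512,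 .ofNat 0, .ofNat 0, .ofNat 0, .ofNat 589377637176256563048179989212783706112, .ofNat 0, .ofNat 0, .ofNat 0, .ofNat 616043602853514219811664925810642386944, .ofNat 0⟩)
    (by decide +kernel)
theorem L00883 : Good (Phi V5.P V5.D 1 1) ⟨4, 12, 3, 1, 2, 2, 3, 2, 4, 1⟩ :=
  leafX_sound T5.ok_pp T5.Ypp.bz_eq (w := 212) (c := ⟨⟨.negSucc 36, .negSucc 164, .negSucc 68, .negSucc 531, .negSucc 373, .negSucc 1897⟩, ⟨.ofNat 68, .negSucc 122, .negSucc 142, .negSucc 118, .negSucc 140, .negSucc 659⟩, ⟨.negSucc 518, .ofNat 74, .ofNat 121, .negSucc 323, .ofNat 538, .ofNat 1299⟩, ⟨.ofNat 6, .negSucc 148, .negSucc 50, .negSucc 1125, .negSucc 624, .negSucc 3146⟩, ⟨.negSucc 230, .ofNat 308, .negSucc 262, .ofNat 720, .ofNat 13, .ofNat 89⟩, .ofNat 474, .negSucc 380, .ofNat 0, .negSucc 380, .ofNat 1261, .ofNat 0, .ofNat 168, .ofNat 128, .negSucc 139, .ofNat 0, .ofNat 89, .negSucc 32, .ofNat 0, .ofNat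 0, .ofNat 251, .ofNat 1332, .ofNat 0, .ofNat 0, .ofNat 0, .ofNat 0, .ofNat 0, .ofNat 0, .ofNat 17460481814145651591007689603385655296, .ofNat 0, .ofNat 0, .ofNat 0, .ofNat 30139743990387298221366676828622684160, .ofNat 0, .ofNat 0, .ofNat 0, .ofNat 17541376546919275852434235989692514304, .ofNat 0⟩)
    (by decide +kernel)
theorem L00884 : Good (Phi V5.P V5.D 1 1) ⟨4, 12, 3, 1, 2, 3, 3, 2, 4, 1⟩ :=
  leafX_sound T5.ok_pp T5.Ypp.bz_eq (w := 212) (c := ⟨⟨.negSucc 1224, .ofNat 82, .negSucc 1, .ofNat 1388, .negSucc 774, .negSucc 1599⟩, ⟨.negSucc 228, .ofNat 72, .negSucc 233, .ofNat 675, .negSucc 260, .negSucc 541⟩, ⟨.negSucc 372, .ofNat 23, .ofNat 14, .negSucc 383, .ofNat 593, .ofNat 1033⟩, ⟨.negSucc 2127, .ofNat 313, .negSucc 121, .ofNat 1621, .negSucc 1299, .negSucc 2692⟩, ⟨.ofNat 575, .negSucc 181, .negSucc 36, .ofNat 1806, .ofNat 42, .ofNat 279⟩, .ofNat 628, .negSucc 685,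 .ofNat 0, .negSucc 685, .ofNat 2044, .ofNat 0, .ofNat 128, .ofNat 204, .negSucc 148, .ofNat 0, .ofNat 128, .negSucc 38, .ofNat 0, .ofNat 0, .ofNat 226, .ofNat 350, .ofNat 0, .ofNat 0, .ofNat 615309788810326538659984439842439168, .ofNat 0, .ofNat 0, .ofNat 0, .ofNat 19037943514333107173860050072015732736, .ofNat 0, .ofNat 0, .ofNat 0, .ofNat 0, .ofNat 0, .ofNat 0, .ofNat 0, .ofNat 0, .ofNat 0⟩)
    (by decide +kernel)
theorem L00885 : Good (Phi V5.P V5.D 1 1) ⟨4, 12, 3, 1, 2, 2, 3, 3, 4, 0⟩ :=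
  leafX_sound T5.ok_pp T5.Ypp.bz_eq (w := 213) (c := ⟨⟨.ofNat 3740, .ofNat 469, .ofNat 123, .ofNat 349, .negSucc 576, .negSucc 4649⟩, ⟨.ofNat 1241, .ofNat 378, .ofNat 169, .ofNat 175, .negSucc 197, .negSucc 1751⟩, ⟨.negSucc 2370, .negSucc 172, .negSucc 80, .negSucc 399, .ofNat 399, .ofNat 2518⟩, ⟨.ofNat 6012, .ofNat 499, .ofNat 161, .ofNat 229, .negSucc 980, .negSucc 7246⟩, ⟨.ofNat 829, .negSucc 201, .negSucc 299, .ofNat 1032, .ofNat 134, .negSucc 1192⟩, .ofNat 473, .negSucc 379, .ofNat 0, .negSucc 379, .ofNat 1259, .ofNat 0, .ofNat 128, .ofNat 203, .negSucc 277, .ofNat 0, .ofNat 132, .negSucc 78, .ofNat 0, .ofNat 0, .ofNat 332, .ofNat 319, .ofNat 0, .ofNat 0, .ofNat 1129714743113728205162361961310060544, .ofNat 0, .ofNat 0, .ofNat 0, .ofNat 17709566266475935904394334392866045952, .ofNat 0, .ofNat 0, .ofNat 0, .ofNat 50166259047397342047496004404846264320, .ofNat 0, .ofNat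 0, .ofNat 0, .ofNat 0, .ofNat 0⟩)
    (by decide +kernel)
theorem L00886 : Good (Phi V5.P V5.D 1 1) ⟨4, 12, 3, 1, 3, 6, 3, 3, 5, 0⟩ :=
  leafX_sound T5.ok_pp T5.Ypp.bz_eq (w := 233) (c := ⟨⟨.ofNat 4829, .ofNat 1207, .negSucc 479, .negSucc 1012, .negSucc 969, .negSucc 3419⟩, ⟨.ofNat 1750, .ofNat 693, .negSucc 107, .negSucc 270, .negSucc 340, .negSucc 1305⟩, ⟨.negSucc 3249, .negSucc 692, .ofNat 252, .ofNat 540, .ofNat 838, .ofNat 1723⟩, ⟨.ofNat 7474, .ofNat 1532, .negSucc 878, .negSucc 2054, .negSucc 1653, .negSucc 5209⟩, ⟨.ofNat 1969, .ofNat 204, .negSucc 333, .ofNat 1007, .ofNat 171, .negSucc 1098⟩, .ofNat 475, .negSucc 382, .ofNat 0, .negSucc 382, .ofNat 1261, .ofNat 0, .ofNat 128, .ofNat 149, .negSucc 441, .ofNat 0, .ofNat 86, .negSucc 131, .ofNat 0, .ofNat 0, .ofNat 372, .ofNat 439, .ofNat 0, .ofNat 0, .ofNat 918676305485010302463627850073624490803200, .ofNat 0, .ofNat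 0, .ofNat 0, .ofNat 4032147009664331013727424678549953370390528, .ofNat 0, .ofNat 0, .ofNat 0, .ofNat 12780993209918609942675311202384355734323200, .ofNat 0, .ofNat 0, .ofNat 0, .ofNat 19040416266094265661751437377063042160787456, .ofNat 0⟩)
    (by decide +kernel)
theorem L00887 : Good (Phi V5.P V5.D 1 1) ⟨4, 12, 3, 1, 4, 14, 3, 3, 5, 0⟩ :=
  leafX_sound T5.ok_pp T5.Ypp.bz_eq (w := 247) (c := ⟨⟨.ofNat 3725, .ofNat 378, .negSucc 602, .negSucc 643, .negSucc 1441, .negSucc 2818⟩, ⟨.ofNat 1526, .ofNat 389, .negSucc 249, .negSucc 179, .negSucc 504, .negSucc 1097⟩, ⟨.negSucc 2545, .negSucc 48, .ofNat 236, .ofNat 665, .ofNat 1015, .ofNat 1269⟩, ⟨.ofNat 5413, .ofNat 326, .negSucc 1239, .negSucc 1248, .negSucc 2402, .negSucc 4238⟩, ⟨.ofNat 2484, .ofNat 154, .ofNat 116, .ofNat 548, .ofNat 172, .negSucc 932⟩, .ofNat 622, .negSucc 670, .ofNat 0, .negSucc 670, .ofNat 2019, .ofNat 0,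 .ofNat 128, .ofNat 165, .negSucc 310, .ofNat 0, .ofNat 88, .negSucc 97, .ofNat 0, .ofNat 0, .ofNat 251, .ofNat 527, .ofNat 0, .ofNat 0, .ofNat 18682818734431257562856764925684058066276843520, .ofNat 0, .ofNat 0, .ofNat 0, .ofNat 347759812026753000383919345866427303636269793280, .ofNat 0, .ofNat 0, .ofNat 0, .ofNat 252876222500519603667597375320900358675667877888, .ofNat 0, .ofNat 0, .ofNat 0, .ofNat 229003697106752891317989579096488730563589439488, .ofNat 0⟩)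
    (by decide +kernel)
theorem L00888 : Good (Phi V5.P V5.D 1 1) ⟨5, 24, 3, 1, 4, 15, 3, 3, 5, 0⟩ :=
  leafX_sound T5.ok_pp T5.Ypp.bz_eq (w := 251) (c := ⟨⟨.ofNat 2414, .ofNat 705, .negSucc 943, .ofNat 1563, .negSucc 979, .negSucc 1916⟩, ⟨.ofNat 1073, .ofNat 412, .negSucc 354, .ofNat 606, .negSucc 333, .negSucc 777⟩, ⟨.negSucc 1262, .negSucc 252, .ofNat 316, .negSucc 111, .ofNat 499, .ofNat 435⟩, ⟨.ofNat 3071, .ofNat 926, .negSucc 1809, .ofNat 2321, .negSucc 1617, .negSucc 2634⟩, ⟨.ofNat 3413, .ofNat 180, .negSucc 16, .ofNat 667, .ofNat 2, .negSucc 1579⟩, .ofNat 623, .negSucc 676, .ofNat 0, .negSucc 676, .ofNat 2048, .ofNat 0, .ofNat 128, .ofNat 275, .negSucc 521, .ofNat 0, .ofNat 144, .negSucc 160, .ofNat 0, .ofNat 0, .ofNat 418, .ofNat 513, .ofNat 0, .ofNat 0, .ofNat 12068616013110079762568083725678082162023202816, .ofNat 0, .ofNat 0, .ofNat 0, .ofNat 121201507109827890501221482193418919063194697728,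 .ofNat 0, .ofNat 0, .ofNat 0, .ofNat 118190308614959919341976177697902592624565420032, .ofNat 0, .ofNat 0, .ofNat 0, .ofNat 110237654916918425387624884602744372637091233792, .ofNat 0⟩)
    (by decide +kernel)
theorem L00889 : Good (Phi V5.P V5.D 1 1) ⟨5, 25, 3, 1, 4, 15, 3, 3, 5, 0⟩ :=
  leafX_sound T5.ok_pp T5.Ypp.bz_eq (w := 252) (c := ⟨⟨.ofNat 1707, .ofNat 925, .ofNat 385, .ofNat 1963, .negSucc 1058, .negSucc 2149⟩, ⟨.ofNat 891, .ofNat 503, .ofNat 234, .ofNat 824, .negSucc 397, .negSucc 953⟩, ⟨.negSucc 1457, .negSucc 120, .ofNat 338, .negSucc 236, .ofNat 497, .ofNat 510⟩, ⟨.ofNat 1828, .ofNat 1029, .ofNat 213, .ofNat 2821, .negSucc 1707, .negSucc 2883⟩, ⟨.ofNat 2720, .ofNat 329, .ofNat 761, .ofNat 850, .ofNat 28, .negSucc 1463⟩, .ofNat 768, .negSucc 957, .ofNat 0, .negSucc 957, .ofNat 2549, .ofNat 0, .ofNat 128, .ofNat 594, .negSucc 956, .ofNat 0, .ofNat 320, .negSucc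 322, .ofNat 0, .ofNat 0, .ofNat 763, .ofNat 2057, .ofNat 0, .ofNat 0, .ofNat 49413067126882725698463550473057417465406947328, .ofNat 0, .ofNat 0, .ofNat 0, .ofNat 427054980735679864497197298337594287143755186176, .ofNat 0, .ofNat 0, .ofNat 0, .ofNat 2465576203711198176106334283908569267837704601600, .ofNat 0, .ofNat 0, .ofNat 0, .ofNat 594218768735846182049237471068775717612382322688, .ofNat 0⟩)
    (by decide +kernel)
theorem L00890 : Good (Phi V5.P V5.D 1 1) ⟨4, 12, 3, 1, 2, 3, 3, 3, 5, 1⟩ :=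
  leafX_sound T5.ok_pp T5.Ypp.bz_eq (w := 217) (c := ⟨⟨.ofNat 255, .ofNat 484, .negSucc 467, .ofNat 1730, .negSucc 1313, .negSucc 1834⟩, ⟨.ofNat 200, .ofNat 303, .negSucc 285, .ofNat 781, .negSucc 434, .negSucc 665⟩, ⟨.negSucc 811, .negSucc 256, .ofNat 277, .negSucc 466, .ofNat 794, .ofNat 739⟩, ⟨.ofNat 365, .ofNat 738, .negSucc 989, .ofNat 2188, .negSucc 2216, .negSucc 2925⟩, ⟨.ofNat 558, .negSucc 108, .ofNat 295, .ofNat 1721, .ofNat 110, .negSucc 186⟩, .ofNat 625, .negSucc 677, .ofNat 0, .negSucc 677, .ofNat 2027, .ofNat 0, .ofNat 128, .ofNat 177, .negSucc 273, .ofNat 0, .ofNat 97, .negSucc 79, .ofNat 0, .ofNat 0, .ofNat 262, .ofNat 330, .ofNat 0, .ofNat 0, .ofNat 34297296016073266148862025244384165888, .ofNat 0, .ofNat 0, .ofNat 0, .ofNat 349688087338745326067704767995822735360, .ofNat 0, .ofNat 0, .ofNat 0, .ofNat 603487962071623670409050985398989225984, .ofNat 0, .ofNat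 0, .ofNat 0, .ofNat 580384739155340813493429460108935430144, .ofNat 0⟩)
    (by decide +kernel)
theorem L00891 : Good (Phi V5.P V5.D 1 1) ⟨4, 12, 3, 1, 2, 2, 3, 3, 4, 1⟩ :=
  leafX_sound T5.ok_pp T5.Ypp.bz_eq (w := 212) (c := ⟨⟨.negSucc 314, .negSucc 697, .ofNat 118, .negSucc 1053, .negSucc 590, .negSucc 1613⟩, ⟨.ofNat 22, .negSucc 349, .negSucc 139, .negSucc 275, .negSucc 227, .negSucc 557⟩, ⟨.negSucc 145, .ofNat 385, .negSucc 22, .ofNat 116, .ofNat 673, .ofNat 1216⟩, ⟨.negSucc 376, .negSucc 950, .ofNat 204, .negSucc 2062, .negSucc 999, .negSucc 2698⟩, ⟨.negSucc 435, .ofNat 283, .negSucc 126, .ofNat 894, .ofNat 70, .ofNat 131⟩, .ofNat 471, .negSucc 373, .ofNat 0, .negSucc 373, .ofNat 1247, .ofNat 0, .ofNat 128, .ofNat 147, .negSucc 176, .ofNat 0, .ofNat 102, .negSucc 43, .ofNat 0, .ofNat 0, .ofNat 270, .ofNat 595, .ofNat 0, .ofNat 0, .ofNat 0, .ofNat 0, .ofNat 0, .ofNat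 0, .ofNat 18799973020222450079597808041221685248, .ofNat 0, .ofNat 0, .ofNat 0, .ofNat 0, .ofNat 0, .ofNat 0, .ofNat 0, .ofNat 0, .ofNat 0⟩)
    (by decide +kernel)
theorem L00892 : Good (Phi V5.P V5.D 1 1) ⟨4, 12, 3, 1, 2, 3, 3, 3, 4, 1⟩ :=
  leafX_sound T5.ok_pp T5.Ypp.bz_eq (w := 212) (c := ⟨⟨.negSucc 2317, .negSucc 294, .ofNat 168, .ofNat 1577, .negSucc 1080, .negSucc 1281⟩, ⟨.negSucc 606, .negSucc 92, .negSucc 199, .ofNat 746, .negSucc 343, .negSucc 407⟩, ⟨.ofNat 674, .negSucc 2, .negSucc 32, .negSucc 900, .ofNat 804, .ofNat 944⟩, ⟨.negSucc 3677, .negSucc 877, .ofNat 200, .ofNat 1839, .negSucc 1851, .negSucc 2311⟩, ⟨.ofNat 116, .ofNat 1100, .ofNat 94, .ofNat 1989, .ofNat 174, .ofNat 287⟩, .ofNat 474, .negSucc 379, .ofNat 0, .negSucc 379, .ofNat 1252, .ofNat 0, .ofNat 141, .ofNat 128, .negSucc 203, .ofNat 0, .ofNat 86, .negSucc 46, .ofNat 0, .ofNat 0, .ofNat 243, .ofNat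 284, .ofNat 0, .ofNat 0, .ofNat 641137659733897547836706611131318272, .ofNat 0, .ofNat 0, .ofNat 0, .ofNat 6320694611938608826082290121849176064, .ofNat 0, .ofNat 0, .ofNat 0, .ofNat 14391770019475447870924524128705708032, .ofNat 0, .ofNat 0, .ofNat 0, .ofNat 14235268463956094972168026692069097472, .ofNat 0⟩)
    (by decide +kernel)
theorem L00893 : Good (Phi V5.P V5.D 1 1) ⟨4, 13, 2, 0, 1, 1, 2, 1, 3, 0⟩ :=
  out_sound (S := T5.ds_pp) T5.ok_pp (w := 49) (j := 3) (by decide +kernel)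
theorem L00894 : Good (Phi V5.P V5.D 1 1) ⟨3, 7, 2, 0, 1, 1, 2, 1, 3, 0⟩ :=
  out_sound (S := T5.ds_pp) T5.ok_pp (w := 43) (j := 3) (by decide +kernel)
theorem L00895 : Good (Phi V5.P V5.D 1 1) ⟨4, 12, 3, 0, 2, 2, 1, 0, 3, 1⟩ :=
  out_sound (S := T5.ds_pp) T5.ok_pp (w := 51) (j := 3) (by decide +kernel)
theorem L00896 : Good (Phi V5.P V5.D 1 1) ⟨4, 12, 3, 1, 2, 2, 2, 0, 4, 2⟩ :=
  leafX_sound T5.ok_pp T5.Ypp.bz_eq (w := 208) (c := ⟨⟨.negSucc 1728, .negSucc 168, .negSucc 14, .ofNat 38, .negSucc 581, .negSucc 329⟩, ⟨.negSucc 471, .negSucc 160, .negSucc 178, .ofNat 85, .negSucc 199, .negSucc 132⟩, ⟨.negSucc 324, .negSucc 31, .ofNat 90, .negSucc 546, .ofNat 1308, .ofNat 443⟩, ⟨.negSucc 2829, .negSucc 15, .ofNat 0, .negSucc 181, .negSucc 957, .negSucc 473⟩, ⟨.negSucc 225, .ofNat 59, .negSucc 64, .ofNat 698, .ofNat 50, .negSucc 150⟩, .ofNat 744, .negSucc 939, .ofNat 0, .negSucc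 939, .ofNat 2695, .ofNat 0, .ofNat 128, .ofNat 147, .negSucc 89, .ofNat 0, .ofNat 97, .negSucc 19, .ofNat 0, .ofNat 0, .ofNat 373, .ofNat 1251, .ofNat 0, .ofNat 0, .ofNat 0, .ofNat 0, .ofNat 0, .ofNat 0, .ofNat 7995917648275388077532697152060391424, .ofNat 0, .ofNat 0, .ofNat 0, .ofNat 5785691425824125243463804354042003456, .ofNat 0, .ofNat 0, .ofNat 0, .ofNat 0, .ofNat 0⟩)
    (by decide +kernel)
theorem L00897 : Good (Phi V5.P V5.D 1 1) ⟨4, 12, 3, 1, 2, 2, 2, 1, 4, 2⟩ :=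
  leafX_sound T5.ok_pp T5.Ypp.bz_eq (w := 208) (c := ⟨⟨.negSucc 2006, .negSucc 331, .negSucc 83, .negSucc 456, .negSucc 655, .negSucc 138⟩, ⟨.negSucc 540, .negSucc 237, .negSucc 235, .negSucc 100, .negSucc 233, .negSucc 45⟩, ⟨.ofNat 718, .ofNat 199, .ofNat 85, .negSucc 146, .ofNat 1054, .ofNat 352⟩, ⟨.negSucc 3269, .negSucc 235, .negSucc 128, .negSucc 998, .negSucc 1053, .negSucc 186⟩, ⟨.negSucc 198, .ofNat 66, .negSucc 58, .ofNat 691, .negSucc 73, .negSucc 96⟩, .ofNat 472, .negSucc 376, .ofNat 0, .negSucc 376, .ofNat 1264, .ofNat 0, .ofNat 135, .ofNat 128, .negSucc 94, .ofNat 0, .ofNat 98, .negSucc 19, .ofNat 0, .ofNat 0, .ofNat 233, .ofNat 608, .ofNat 0, .ofNat 0, .ofNat 0, .ofNat 0, .ofNat 0, .ofNat 0, .ofNat 696977188874867301408802215353647104, .ofNat 0, .ofNat 0, .ofNat 0, .ofNat 0, .ofNat 0, .ofNat 0, .ofNat 0, .ofNat 536578893858620832791345119079956480, .ofNat 0⟩)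
    (by decide +kernel)
theorem L00898 : Good (Phi V5.P V5.D 1 1) ⟨4, 12, 3, 1, 2, 2, 2, 0, 4, 3⟩ :=
  leafX_sound T5.ok_pp T5.Ypp.bz_eq (w := 208) (c := ⟨⟨.negSucc 2130, .negSucc 133, .negSucc 9, .ofNat 38, .negSucc 459, .ofNat 113⟩, ⟨.negSucc 596, .negSucc 171, .negSucc 176, .ofNat 53, .negSucc 165, .ofNat 27⟩, ⟨.ofNat 154, .negSucc 121, .ofNat 97, .negSucc 441, .ofNat 1173, .ofNat 150⟩, ⟨.negSucc 3524, .ofNat 91, .ofNat 6, .negSucc 71, .negSucc 725, .ofNat 227⟩, ⟨.negSucc 68, .negSucc 47, .negSucc 78, .ofNat 395, .negSucc 68, .negSucc 127⟩, .ofNat 699, .negSucc 839, .ofNat 0, .negSucc 839, .ofNat 2455, .ofNat 0, .ofNat 142, .ofNat 128, .negSucc 34, .ofNat 0, .ofNat 93, .negSucc 6, .ofNat 0, .ofNat 0, .ofNat 210, .ofNat 1315, .ofNat 183754631919727416389906402613911204397056, .ofNat 0, .ofNat 72421849741095252880268862886510592, .ofNat 0, .ofNat 0, .ofNat 0, .ofNat 4017003926308763216858551243339988992,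 .ofNat 0, .ofNat 0, .ofNat 0, .ofNat 7643026293325640640161763954022940672, .ofNat 0, .ofNat 3359716337487231702248784365403452815179776, .ofNat 0, .ofNat 573762833296669765725010788083564544, .ofNat 0⟩)
    (by decide +kernel)
theorem L00899 : Good (Phi V5.P V5.D 1 1) ⟨4, 12, 3, 1, 2, 2, 2, 1, 4, 3⟩ :=
  leafX_sound T5.ok_pp T5.Ypp.bz_eq (w := 209) (c := ⟨⟨.negSucc 2542, .negSucc 213, .ofNat 2, .negSucc 136, .negSucc 466, .ofNat 202⟩, ⟨.negSucc 723, .negSucc 218, .negSucc 180, .negSucc 9, .negSucc 179, .ofNat 47⟩, ⟨.ofNat 1282, .ofNat 118, .ofNat 37, .negSucc 272, .ofNat 904, .ofNat 43⟩, ⟨.negSucc 4221, .negSucc 73, .ofNat 28, .negSucc 347, .negSucc 717, .ofNat 422⟩, ⟨.negSucc 36, .ofNat 113, .negSucc 64, .ofNat 353, .negSucc 97, .negSucc 268⟩, .ofNat 623, .negSucc 673, .ofNat 0, .negSucc 673, .ofNat 2022, .ofNat 0, .ofNat 128, .ofNat 153, .negSucc 49, .ofNat 0, .ofNat 111,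 .negSucc 11, .ofNat 0, .ofNat 0, .ofNat 208, .ofNat 1299, .ofNat 0, .ofNat 0, .ofNat 42101615597455083265188499365560320, .ofNat 0, .ofNat 0, .ofNat 0, .ofNat 5626923359533668153476353301285961728, .ofNat 0, .ofNat 0, .ofNat 0, .ofNat 2961361523776001077322767636394672128, .ofNat 0, .ofNat 0, .ofNat 0, .ofNat 0, .ofNat 0⟩)
    (by decide +kernel)
theorem L00900 : Good (Phi V5.P V5.D 1 1) ⟨4, 13, 2, 0, 2, 2, 1, 0, 3, 1⟩ :=
  out_sound (S := T5.ds_pp) T5.ok_pp (w := 49) (j := 3) (by decide +kernel)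
theorem L00901 : Good (Phi V5.P V5.D 1 1) ⟨4, 12, 3, 0, 2, 3, 2, 0, 3, 1⟩ :=
  out_sound (S := T5.ds_pp) T5.ok_pp (w := 51) (j := 3) (by decide +kernel)
theorem L00902 : Good (Phi V5.P V5.D 1 1) ⟨4, 12, 3, 1, 3, 6, 2, 0, 3, 1⟩ :=
  leafX_sound T5.ok_pp T5.Ypp.bz_eq (w := 218) (c := ⟨⟨.negSucc 1909, .negSucc 97, .ofNat 109, .ofNat 232, .negSucc 722, .negSucc 0⟩, ⟨.negSucc 407, .negSucc 89, .negSucc 176, .ofNat 158, .negSucc 270, .negSucc 67⟩, ⟨.negSucc 558, .ofNat 32, .negSucc 59, .ofNat 64, .ofNat 1238, .ofNat 487⟩, ⟨.negSucc 3450, .ofNat 54, .ofNat 192, .ofNat 86, .negSucc 1148, .ofNat 233⟩, ⟨.ofNat 916, .ofNat 58, .negSucc 211, .ofNat 807, .negSucc 69, .negSucc 663⟩, .ofNat 627, .negSucc 683, .ofNat 0, .negSucc 683, .ofNat 2041, .ofNat 0, .ofNat 176, .ofNat 128, .negSucc 82, .ofNat 0, .ofNat 103, .negSucc 16, .ofNat 0, .ofNat 0, .ofNat 374, .ofNat 2436, .ofNat 31021796332269523212701449860658670658912256,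 .ofNat 0, .ofNat 28586219586451126164380423802266320896, .ofNat 0, .ofNat 0, .ofNat 0, .ofNat 2378255705960176417533324638710474473472, .ofNat 0, .ofNat 0, .ofNat 0, .ofNat 4274003616205382867143342215574610509824, .ofNat 0, .ofNat 0, .ofNat 0, .ofNat 1057633971579743873194456236153240551424, .ofNat 0⟩)
    (by decide +kernel)
theorem L00903 : Good (Phi V5.P V5.D 1 1) ⟨4, 12, 3, 1, 3, 7, 2, 0, 3, 1⟩ :=
  leafX_sound T5.ok_pp T5.Ypp.bz_eq (w := 217) (c := ⟨⟨.negSucc 1629, .negSucc 24, .ofNat 26, .ofNat 554, .negSucc 636, .negSucc 98⟩, ⟨.negSucc 220, .ofNat 24, .negSucc 249, .ofNat 305, .negSucc 226, .negSucc 121⟩, ⟨.negSucc 215, .ofNat 34, .ofNat 22, .ofNat 15, .ofNat 796, .ofNat 444⟩, ⟨.negSucc 3266, .ofNat 62, .ofNat 36, .ofNat 500, .negSucc 1036, .ofNat 132⟩, ⟨.ofNat 1885, .ofNat 133, .negSucc 299, .ofNat 1131, .ofNat 4, .negSucc 854⟩, .ofNat 649, .negSucc 693, .ofNat 0,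 .negSucc 693, .ofNat 2016, .ofNat 0, .ofNat 312, .ofNat 112, .negSucc 114, .ofNat 0, .ofNat 128, .negSucc 21, .ofNat 0, .ofNat 0, .ofNat 461, .ofNat 1320, .ofNat 0, .ofNat 0, .ofNat 30663591656311917043703017545394028544, .ofNat 0, .ofNat 0, .ofNat 0, .ofNat 1362352092347296928682095034902077505536, .ofNat 0, .ofNat 0, .ofNat 0, .ofNat 2647554185761584635100472108861987225600, .ofNat 0, .ofNat 4553590554027279030323650956659616561452023808, .ofNat 0, .ofNat 0, .ofNat 0⟩)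
    (by decide +kernel)
theorem L00904 : Good (Phi V5.P V5.D 1 1) ⟨4, 13, 2, 0, 2, 3, 2, 0, 3, 1⟩ :=
  out_sound (S := T5.ds_pp) T5.ok_pp (w := 49) (j := 3) (by decide +kernel)
theorem L00905 : Good (Phi V5.P V5.D 1 1) ⟨4, 12, 2, 0, 3, 6, 2, 1, 4, 2⟩ :=
  leafX_sound T5.ok_pp T5.Ypp.bz_eq (w := 220) (c := ⟨⟨.negSucc 2624, .negSucc 325, .negSucc 30, .ofNat 157, .negSucc 1039, .ofNat 126⟩, ⟨.negSucc 374, .negSucc 199, .negSucc 523, .ofNat 148, .negSucc 380, .ofNat 0⟩, ⟨.ofNat 654, .ofNat 195, .ofNat 93, .negSucc 28, .ofNat 1182, .ofNat 206⟩, ⟨.negSucc 4563, .negSucc 302, .negSucc 86, .negSucc 111, .negSucc 1681, .ofNat 377⟩, ⟨.ofNat 892, .ofNat 201, .negSucc 196, .ofNat 1032, .negSucc 85, .negSucc 524⟩, .ofNat 475, .negSucc 382, .ofNat 0, .negSucc 382, .ofNat 1269, .ofNat 0, .ofNat 192, .ofNat 128, .negSucc 122, .ofNat 0, .ofNat 104, .negSucc 23, .ofNat 0, .ofNat 0, .ofNat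 275, .ofNat 1185, .ofNat 0, .ofNat 0, .ofNat 712908223678973296175504718606645592064, .ofNat 0, .ofNat 0, .ofNat 0, .ofNat 18892215796046575889938124762027908923392, .ofNat 0, .ofNat 0, .ofNat 0, .ofNat 22930550768200165244131070368053263859712, .ofNat 0, .ofNat 0, .ofNat 0, .ofNat 15533961124067634213377842185816856592384, .ofNat 0⟩)
    (by decide +kernel)
theorem L00906 : Good (Phi V5.P V5.D 1 1) ⟨4, 12, 2, 0, 3, 6, 2, 1, 4, 3⟩ :=
  leafX_sound T5.ok_pp T5.Ypp.bz_eq (w := 221) (c := ⟨⟨.negSucc 2772, .negSucc 177, .ofNat 46, .ofNat 188, .negSucc 656, .ofNat 375⟩, ⟨.negSucc 484, .negSucc 148, .negSucc 460, .ofNat 136, .negSucc 252, .ofNat 89⟩, ⟨.ofNat 1076, .ofNat 121, .ofNat 60, .negSucc 121, .ofNat 896, .negSucc 47⟩, ⟨.negSucc 4740, .negSucc 35, .ofNat 73, .ofNat 40, .negSucc 1002, .ofNat 763⟩, ⟨.ofNat 629, .ofNat 158, .negSucc 244, .ofNat 733, .negSucc 198, .negSucc 427⟩,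 .ofNat 474, .negSucc 379, .ofNat 0, .negSucc 379, .ofNat 1262, .ofNat 0, .ofNat 254, .ofNat 128, .negSucc 72, .ofNat 0, .ofNat 121, .negSucc 10, .ofNat 0, .ofNat 0, .ofNat 293, .ofNat 2605, .ofNat 0, .ofNat 0, .ofNat 1853100059755095399467088914601708879872, .ofNat 0, .ofNat 0, .ofNat 0, .ofNat 31351648767070559167024941855903894732800, .ofNat 0, .ofNat 0, .ofNat 0, .ofNat 75517075336142225023238650707878518718464, .ofNat 0, .ofNat 0, .ofNat 0, .ofNat 10040033370717581191761182157275196817408, .ofNat 0⟩)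
    (by decide +kernel)
theorem L00907 : Good (Phi V5.P V5.D 1 1) ⟨4, 13, 2, 0, 3, 6, 2, 1, 3, 1⟩ :=
  out_sound (S := T5.ds_pp) T5.ok_pp (w := 49) (j := 3) (by decide +kernel)
theorem L00908 : Good (Phi V5.P V5.D 1 1) ⟨4, 12, 2, 0, 3, 7, 2, 1, 4, 2⟩ :=
  leafX_sound T5.ok_pp T5.Ypp.bz_eq (w := 220) (c := ⟨⟨.negSucc 2589, .negSucc 491, .ofNat 201, .ofNat 791, .negSucc 1102, .ofNat 125⟩, ⟨.negSucc 212, .negSucc 153, .negSucc 545, .ofNat 398, .negSucc 390, .ofNat 2⟩, ⟨.ofNat 839, .ofNat 288, .negSucc 39, .negSucc 430, .ofNat 997, .ofNat 183⟩, ⟨.negSucc 4588, .negSucc 721, .ofNat 68, .ofNat 853, .negSucc 1869, .ofNat 365⟩, ⟨.ofNat 1564, .ofNat 505, .negSucc 34, .ofNat 1297, .ofNat 102, .negSucc 480⟩, .ofNat 473, .negSucc 378, .ofNat 0, .negSucc 378, .ofNat 1262, .ofNat 0, .ofNat 232, .ofNat 128, .negSucc 132, .ofNat 0, .ofNat 117, .negSucc 22, .ofNat 0, .ofNat 0, .ofNat 293,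 .ofNat 850, .ofNat 0, .ofNat 0, .ofNat 1067961602893443636345645118170817626112, .ofNat 0, .ofNat 0, .ofNat 0, .ofNat 6585664499882733317916152309643506352128, .ofNat 0, .ofNat 0, .ofNat 0, .ofNat 42231096120263025586170255229626309672960, .ofNat 0, .ofNat 0, .ofNat 0, .ofNat 1144892226126705825410227108612394713088, .ofNat 0⟩)
    (by decide +kernel)
theorem L00909 : Good (Phi V5.P V5.D 1 1) ⟨4, 12, 2, 0, 3, 7, 2, 1, 4, 3⟩ :=
  leafX_sound T5.ok_pp T5.Ypp.bz_eq (w := 220) (c := ⟨⟨.negSucc 2603, .negSucc 173, .ofNat 187, .ofNat 565, .negSucc 698, .ofNat 237⟩, ⟨.negSucc 365, .negSucc 84, .negSucc 422, .ofNat 330, .negSucc 262, .ofNat 37⟩, ⟨.ofNat 1097, .ofNat 126, .negSucc 78, .negSucc 173, .ofNat 755, .ofNat 55⟩, ⟨.negSucc 4629, .negSucc 117, .ofNat 187, .ofNat 447, .negSucc 1089, .ofNat 584⟩, ⟨.ofNat 1488, .ofNat 178, .negSucc 290, .ofNat 1342, .negSucc 168, .negSucc 562⟩,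 .ofNat 473, .negSucc 378, .ofNat 0, .negSucc 378, .ofNat 1261, .ofNat 0, .ofNat 226, .ofNat 114, .negSucc 62, .ofNat 0, .ofNat 128, .negSucc 6, .ofNat 0, .ofNat 0, .ofNat 324, .ofNat 1834, .ofNat 0, .ofNat 0, .ofNat 985334058780510920027470501148176154624, .ofNat 0, .ofNat 0, .ofNat 0, .ofNat 15605298271385904027088874978952920170496, .ofNat 0, .ofNat 0, .ofNat 0, .ofNat 86387389342462556331925754905637444124672, .ofNat 0, .ofNat 0, .ofNat 0, .ofNat 0, .ofNat 0⟩)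
    (by decide +kernel)
theorem L00910 : Good (Phi V5.P V5.D 1 1) ⟨4, 13, 2, 0, 3, 7, 2, 1, 3, 1⟩ :=
  out_sound (S := T5.ds_pp) T5.ok_pp (w := 49) (j := 3) (by decide +kernel)
theorem L00911 : Good (Phi V5.P V5.D 1 1) ⟨3, 7, 2, 0, 1, 1, 1, 0, 3, 1⟩ :=
  out_sound (S := T5.ds_pp) T5.ok_pp (w := 43) (j := 3) (by decide +kernel)
theorem L00912 : Good (Phi V5.P V5.D 1 1) ⟨2, 2, 2, 0, 2, 2, 3, 0, 4, 4⟩ :=
  leafX_sound T5.ok_pp T5.Ypp.bz_eq (w := 206) (c := ⟨⟨.negSucc 1722, .negSucc 446, .ofNat 32, .ofNat 196, .negSucc 230, .ofNat 90⟩, ⟨.ofNat 35, .negSucc 395, .negSucc 321, .ofNat 60, .negSucc 122, .ofNat 25⟩, ⟨.ofNat 343, .negSucc 127, .ofNat 75, .negSucc 192, .ofNat 451, .ofNat 177⟩, ⟨.negSucc 3764, .ofNat 128, .ofNat 113, .ofNat 178, .negSucc 314, .ofNat 292⟩, ⟨.negSucc 833, .ofNat 324, .negSucc 266, .ofNat 892, .negSucc 15, .negSucc 200⟩, .ofNat 169, .negSucc 15, .ofNat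 0, .negSucc 15, .ofNat 240, .ofNat 0, .ofNat 128, .negSucc 23, .negSucc 74, .ofNat 0, .ofNat 147, .ofNat 34, .ofNat 0, .ofNat 0, .ofNat 257, .ofNat 59355, .ofNat 139522434239264138604182773110330865221632, .ofNat 0, .ofNat 0, .ofNat 0, .ofNat 298177312964443704722457096199584123715584, .ofNat 0, .ofNat 0, .ofNat 0, .ofNat 718207435522828549875940456807328380878848, .ofNat 0, .ofNat 0, .ofNat 0, .ofNat 285142987482349671690260756783254160277504, .ofNat 0, .ofNat 6387291341276808263498571146783096832, .ofNat 0⟩)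
    (by decide +kernel)
theorem L00913 : Good (Phi V5.P V5.D 1 1) ⟨2, 2, 2, 0, 3, 4, 3, 1, 4, 4⟩ :=
  leafX_sound T5.ok_pp T5.Ypp.bz_eq (w := 219) (c := ⟨⟨.negSucc 1717, .negSucc 582, .negSucc 19, .negSucc 28, .negSucc 58, .ofNat 138⟩, ⟨.negSucc 1, .negSucc 487, .negSucc 311, .negSucc 9, .negSucc 33, .ofNat 45⟩, ⟨.ofNat 983, .ofNat 98, .ofNat 71, .negSucc 240, .ofNat 296, .ofNat 81⟩, ⟨.negSucc 3824, .ofNat 4, .ofNat 36, .negSucc 69, .negSucc 98, .ofNat 263⟩, ⟨.negSucc 342, .ofNat 154, .negSucc 59, .ofNat 30, .ofNat 27, .negSucc 64⟩, .ofNat 322, .negSucc 87, .ofNat 0, .negSucc 87, .ofNat 716, .ofNat 0, .ofNat 162, .ofNat 55, .negSucc 61, .ofNat 0, .ofNat 128, .ofNat 7, .ofNat 0, .ofNat 0, .ofNat 430, .ofNat 22945, .ofNat 144779941568515077732921640826910219733827584, .ofNat 0, .ofNat 61802282796329558124847106926970014793728, .ofNat 0, .ofNat 120191997914720022213326711837866092897763328,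 .ofNat 0, .ofNat 2822302947727188648173622757779514853425152, .ofNat 0, .ofNat 0, .ofNat 0, .ofNat 0, .ofNat 0, .ofNat 755178092234682014604118392585991061480931328, .ofNat 0, .ofNat 1703814285969003532469003954210808117854208, .ofNat 0⟩)
    (by decide +kernel)
theorem L00914 : Good (Phi V5.P V5.D 1 1) ⟨2, 2, 2, 0, 3, 5, 3, 1, 4, 4⟩ :=
  leafX_sound T5.ok_pp T5.Ypp.bz_eq (w := 217) (c := ⟨⟨.negSucc 1777, .negSucc 538, .ofNat 16, .ofNat 40, .negSucc 93, .ofNat 164⟩, ⟨.negSucc 44, .negSucc 444, .negSucc 315, .ofNat 23, .negSucc 11, .ofNat 30⟩, ⟨.ofNat 703, .ofNat 34, .ofNat 53, .negSucc 144, .ofNat 394, .ofNat 80⟩, ⟨.negSucc 3898, .ofNat 46, .ofNat 87, .ofNat 6, .negSucc 190, .ofNat 336⟩, ⟨.negSucc 241, .ofNat 227, .negSucc 137, .ofNat 179, .negSucc 10, .negSucc 87⟩, .ofNat 323, .negSucc 86, .ofNat 0, .negSucc 86, .ofNat 724, .ofNat 0, .ofNat 129, .ofNat 45, .negSucc 35, .ofNat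 0, .ofNat 128, .ofNat 5, .ofNat 0, .ofNat 0, .ofNat 272, .ofNat 8328, .ofNat 22351197038190302496327005865379788824248320, .ofNat 0, .ofNat 213503173279088127979235590162396351561728, .ofNat 0, .ofNat 0, .ofNat 0, .ofNat 0, .ofNat 0, .ofNat 0, .ofNat 0, .ofNat 0, .ofNat 0, .ofNat 147588481353321981748007999442978086454296576, .ofNat 0, .ofNat 0, .ofNat 0⟩)
    (by decide +kernel)
theorem L00915 : Good (Phi V5.P V5.D 1 1) ⟨2, 2, 2, 0, 3, 4, 3, 2, 4, 4⟩ :=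
  leafX_sound T5.ok_pp T5.Ypp.bz_eq (w := 218) (c := ⟨⟨.negSucc 1752, .negSucc 630, .negSucc 19, .negSucc 49, .negSucc 59, .ofNat 147⟩, ⟨.negSucc 18, .negSucc 519, .negSucc 314, .negSucc 0, .negSucc 12, .ofNat 38⟩, ⟨.ofNat 1209, .ofNat 200, .ofNat 57, .negSucc 170, .ofNat 274, .ofNat 63⟩, ⟨.negSucc 3895, .negSucc 58, .ofNat 38, .negSucc 103, .negSucc 111, .ofNat 283⟩, ⟨.negSucc 321, .ofNat 128, .negSucc 19, .ofNat 15, .negSucc 3, .negSucc 69⟩, .ofNat 321, .negSucc 86, .ofNat 0, .negSucc 86, .ofNat 713, .ofNat 0, .ofNat 179, .ofNat 57, .negSucc 43, .ofNat 0, .ofNat 128, .ofNat 4, .ofNat 0, .ofNat 0, .ofNat 282, .ofNat 7067, .ofNat 34615535607709648103357478394121513712222208, .ofNat 0, .ofNat 30804433631828739831318880602180638736384, .ofNat 0, .ofNat 0, .ofNat 0, .ofNat 0, .ofNat 0, .ofNat 0, .ofNat 0, .ofNat 0, .ofNat 0, .ofNat 0, .ofNat 0, .ofNat 0, .ofNat 0⟩)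
    (by decide +kernel)
theorem L00916 : Good (Phi V5.P V5.D 1 1) ⟨2, 2, 2, 0, 3, 4, 3, 3, 4, 4⟩ :=
  leafX_sound T5.ok_pp T5.Ypp.bz_eq (w := 217) (c := ⟨⟨.negSucc 1806, .negSucc 667, .negSucc 28, .negSucc 77, .negSucc 75, .ofNat 180⟩, ⟨.negSucc 45, .negSucc 492, .negSucc 305, .negSucc 17, .negSucc 30, .ofNat 40⟩, ⟨.ofNat 1412, .ofNat 318, .ofNat 40, .negSucc 101, .ofNat 256, .ofNat 17⟩, ⟨.negSucc 3985, .negSucc 130, .ofNat 23, .negSucc 144, .negSucc 124, .ofNat 334⟩, ⟨.negSucc 291, .ofNat 108, .negSucc 27, .negSucc 3, .negSucc 50, .negSucc 87⟩, .ofNat 322, .negSucc 79, .ofNat 0, .negSucc 79, .ofNat 721, .ofNat 0, .ofNat 188, .ofNat 53, .negSucc 59, .ofNat 0, .ofNat 128, .ofNat 3, .ofNat 0, .ofNat 0, .ofNat 360, .ofNat 4075, .ofNat 0, .ofNat 0, .ofNat 0, .ofNat 0, .ofNat 0, .ofNat 0, .ofNat 1179297469581613170613753033126193087381504, .ofNat 0, .ofNat 0, .ofNat 0, .ofNat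 0, .ofNat 0, .ofNat 0, .ofNat 0, .ofNat 0, .ofNat 0⟩)
    (by decide +kernel)
theorem L00917 : Good (Phi V5.P V5.D 1 1) ⟨2, 2, 2, 0, 3, 5, 2, 1, 4, 4⟩ :=
  leafX_sound T5.ok_pp T5.Ypp.bz_eq (w := 213) (c := ⟨⟨.negSucc 1828, .negSucc 634, .negSucc 15, .ofNat 7, .negSucc 220, .ofNat 213⟩, ⟨.negSucc 13, .negSucc 495, .negSucc 349, .negSucc 9, .negSucc 56, .ofNat 48⟩, ⟨.ofNat 1048, .ofNat 207, .ofNat 58, .negSucc 148, .ofNat 645, .ofNat 20⟩, ⟨.negSucc 4056, .negSucc 67, .ofNat 55, .negSucc 27, .negSucc 373, .ofNat 406⟩, ⟨.negSucc 255, .ofNat 190, .negSucc 96, .ofNat 154, .negSucc 95, .negSucc 99⟩, .ofNat 322, .negSucc 84, .ofNat 0, .negSucc 84, .ofNat 723, .ofNat 0, .ofNat 242, .ofNat 50, .negSucc 78, .ofNat 0, .ofNat 128, .ofNat 7, .ofNat 0, .ofNat 0, .ofNat 550, .ofNat 2914, .ofNat 0, .ofNat 0, .ofNat 0, .ofNat 0, .ofNat 0, .ofNat 0, .ofNat 16463816496112108879608964509576992915456,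 .ofNat 0, .ofNat 0, .ofNat 0, .ofNat 0, .ofNat 0, .ofNat 0, .ofNat 0, .ofNat 0, .ofNat 0⟩)
    (by decide +kernel)
theorem L00918 : Good (Phi V5.P V5.D 1 1) ⟨3, 4, 2, 0, 2, 2, 2, 0, 4, 5⟩ :=
  leafX_sound T5.ok_pp T5.Ypp.bz_eq (w := 206) (c := ⟨⟨.negSucc 1586, .negSucc 238, .ofNat 14, .ofNat 50, .negSucc 136, .ofNat 155⟩, ⟨.negSucc 46, .negSucc 159, .negSucc 285, .ofNat 17, .negSucc 20, .ofNat 21⟩, ⟨.ofNat 697, .ofNat 16, .ofNat 11, .negSucc 281, .ofNat 617, .ofNat 40⟩, ⟨.negSucc 3462, .ofNat 11, .ofNat 84, .ofNat 51, .negSucc 297, .ofNat 338⟩, ⟨.negSucc 391, .ofNat 81, .negSucc 108, .ofNat 268, .negSucc 49, .negSucc 43⟩, .ofNat 333, .negSucc 73, .ofNat 0, .negSucc 73, .ofNat 795, .ofNat 0, .ofNat 194, .ofNat 39, .negSucc 40, .ofNat 0, .ofNat 128, .ofNat 12, .ofNat 0, .ofNat 0, .ofNat 684, .ofNat 38309, .ofNat 194585450522477493384176095970636848955392, .ofNat 0, .ofNat 0,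 .ofNat 0, .ofNat 829727268605890005876346474909540573773824, .ofNat 0, .ofNat 0, .ofNat 0, .ofNat 706149855100161853797384858595644110012416, .ofNat 0, .ofNat 0, .ofNat 0, .ofNat 1127030100231564958583491248472828495790080, .ofNat 0, .ofNat 0, .ofNat 0⟩)
    (by decide +kernel)
theorem L00919 : Good (Phi V5.P V5.D 1 1) ⟨3, 4, 2, 0, 2, 2, 2, 1, 4, 5⟩ :=
  leafX_sound T5.ok_pp T5.Ypp.bz_eq (w := 204) (c := ⟨⟨.negSucc 1638, .negSucc 262, .negSucc 11, .negSucc 28, .negSucc 104, .ofNat 145⟩, ⟨.negSucc 50, .negSucc 165, .negSucc 288, .negSucc 3, .negSucc 17, .ofNat 22⟩, ⟨.ofNat 1268, .ofNat 118, .negSucc 45, .negSucc 210, .ofNat 404, .ofNat 10⟩, ⟨.negSucc 3626, .negSucc 22, .ofNat 40, .negSucc 68, .negSucc 196, .ofNat 300⟩, ⟨.negSucc 335, .ofNat 61, .negSucc 49, .ofNat 78, .negSucc 41, .negSucc 17⟩, .ofNat 466, .negSucc 232, .ofNat 0, .negSucc 232, .ofNat 2018, .ofNat 0, .ofNat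 302, .ofNat 102, .negSucc 62, .ofNat 0, .ofNat 128, .negSucc 1, .ofNat 0, .ofNat 0, .ofNat 1020, .ofNat 9265, .ofNat 43656387903202558747360480811015659847680, .ofNat 0, .ofNat 65470331955272658815311151322103808, .ofNat 0, .ofNat 0, .ofNat 0, .ofNat 0, .ofNat 0, .ofNat 0, .ofNat 0, .ofNat 0, .ofNat 0, .ofNat 0, .ofNat 11965189031304006591756362785183148015616, .ofNat 0, .ofNat 0⟩)
    (by decide +kernel)
theorem L00920 : Good (Phi V5.P V5.D 1 1) ⟨3, 5, 2, 0, 2, 2, 2, 0, 4, 5⟩ :=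
  leafX_sound T5.ok_pp T5.Ypp.bz_eq (w := 205) (c := ⟨⟨.negSucc 1705, .negSucc 274, .ofNat 2, .ofNat 87, .negSucc 295, .ofNat 187⟩, ⟨.negSucc 165, .negSucc 270, .negSucc 293, .ofNat 40, .negSucc 82, .ofNat 46⟩, ⟨.ofNat 447, .negSucc 33, .negSucc 1, .negSucc 266, .ofNat 921, .negSucc 34⟩, ⟨.negSucc 3323, .ofNat 37, .ofNat 68, .ofNat 79, .negSucc 450, .ofNat 348⟩, ⟨.negSucc 363, .ofNat 82, .negSucc 143, .ofNat 373, .negSucc 53, .negSucc 73⟩, .ofNat 313, .negSucc 103, .ofNat 0, .negSucc 103, .ofNat 671, .ofNat 0, .ofNat 188, .ofNat 54, .negSucc 48, .ofNat 0, .ofNat 128, .ofNat 10, .ofNat 0, .ofNat 0, .ofNat 687, .ofNat 25914, .ofNat 111042095978039862288765554696333561954304, .ofNat 0, .ofNat 0, .ofNat 0, .ofNat 730915329277800987581207535487071020908544, .ofNat 0, .ofNat 0, .ofNat 0, .ofNat 537799991976582808122354975544512857767936, .ofNat 0, .ofNat 10333221682151131510308093673590489088,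 .ofNat 0, .ofNat 884651236732896064877171411287546909425664, .ofNat 0, .ofNat 4132619572305143688256575036266119168, .ofNat 0⟩)
    (by decide +kernel)
theorem L00921 : Good (Phi V5.P V5.D 1 1) ⟨3, 5, 2, 0, 2, 2, 4, 4, 4, 5⟩ :=
  leafX_sound T5.ok_pp T5.Ypp.bz_eq (w := 212) (c := ⟨⟨.negSucc 1934, .negSucc 297, .negSucc 1, .ofNat 23, .negSucc 56, .ofNat 191⟩, ⟨.negSucc 218, .negSucc 285, .negSucc 287, .ofNat 12, .negSucc 20, .ofNat 45⟩, ⟨.ofNat 1385, .ofNat 29, .negSucc 11, .negSucc 340, .ofNat 184, .negSucc 11⟩, ⟨.negSucc 3689, .ofNat 15, .ofNat 55, .negSucc 6, .negSucc 89, .ofNat 355⟩, ⟨.negSucc 281, .ofNat 55, .negSucc 80, .ofNat 181, .negSucc 41, .negSucc 55⟩, .ofNat 314, .negSucc 103, .ofNat 0, .negSucc 103, .ofNat 678, .ofNat 0, .ofNat 133, .ofNat 59, .negSucc 24, .ofNat 0, .ofNat 128, .ofNat 3, .ofNat 0, .ofNat 0, .ofNat 339, .ofNat 12079, .ofNat 2877932630807636377178405873001396965474304,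 .ofNat 0, .ofNat 63618368662733213939662020009225355264, .ofNat 0, .ofNat 0, .ofNat 0, .ofNat 0, .ofNat 0, .ofNat 0, .ofNat 0, .ofNat 0, .ofNat 0, .ofNat 0, .ofNat 0, .ofNat 0, .ofNat 0⟩)
    (by decide +kernel)
theorem L00922 : Good (Phi V5.P V5.D 1 1) ⟨3, 5, 2, 0, 2, 2, 4, 5, 4, 5⟩ :=
  leafX_sound T5.ok_pp T5.Ypp.bz_eq (w := 212) (c := ⟨⟨.negSucc 1954, .negSucc 316, .negSucc 4, .negSucc 4, .negSucc 58, .ofNat 186⟩, ⟨.negSucc 221, .negSucc 298, .negSucc 290, .negSucc 0, .negSucc 18, .ofNat 50⟩, ⟨.ofNat 1525, .ofNat 73, .negSucc 23, .negSucc 301, .ofNat 166, .negSucc 22⟩, ⟨.negSucc 3737, .negSucc 3, .ofNat 52, .negSucc 42, .negSucc 90, .ofNat 345⟩, ⟨.negSucc 284, .ofNat 52, .negSucc 71, .ofNat 127, .negSucc 35, .negSucc 60⟩, .ofNat 314, .negSucc 103, .ofNat 0, .negSucc 103, .ofNat 685, .ofNat 0, .ofNat 136, .ofNat 63, .negSucc 33, .ofNat 0, .ofNat 128, .ofNat 3, .ofNat 0,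 .ofNat 0, .ofNat 402, .ofNat 10343, .ofNat 1849858085426555046208549856854869331148800, .ofNat 0, .ofNat 26469726924075329348625371179744493568, .ofNat 0, .ofNat 0, .ofNat 0, .ofNat 0, .ofNat 0, .ofNat 0, .ofNat 0, .ofNat 0, .ofNat 0, .ofNat 0, .ofNat 0, .ofNat 0, .ofNat 0⟩)
    (by decide +kernel)
theorem L00923 : Good (Phi V5.P V5.D 1 1) ⟨3, 5, 2, 0, 2, 2, 3, 3, 4, 5⟩ :=
  leafX_sound T5.ok_pp T5.Ypp.bz_eq (w := 207) (c := ⟨⟨.negSucc 1968, .negSucc 347, .negSucc 9, .negSucc 44, .negSucc 98, .ofNat 183⟩, ⟨.negSucc 227, .negSucc 308, .negSucc 293, .negSucc 7, .negSucc 30, .ofNat 45⟩, ⟨.ofNat 1621, .ofNat 145, .negSucc 51, .negSucc 222, .ofNat 275, .negSucc 32⟩, ⟨.negSucc 3768, .negSucc 45, .ofNat 49, .negSucc 99, .negSucc 153, .ofNat 340⟩, ⟨.negSucc 301, .ofNat 17, .negSucc 38, .ofNat 86, .negSucc 81, .negSucc 46⟩, .ofNat 315, .negSucc 108, .ofNat 0, .negSucc 108, .ofNat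 684, .ofNat 0, .ofNat 191, .ofNat 67, .negSucc 24, .ofNat 0, .ofNat 128, .ofNat 0, .ofNat 0, .ofNat 0, .ofNat 313, .ofNat 2736, .ofNat 0, .ofNat 0, .ofNat 0, .ofNat 0, .ofNat 0, .ofNat 0, .ofNat 0, .ofNat 0, .ofNat 0, .ofNat 0, .ofNat 0, .ofNat 0, .ofNat 0, .ofNat 6324273422805695273881396239824635035648, .ofNat 0, .ofNat 0⟩)
    (by decide +kernel)
theorem L00924 : Good (Phi V5.P V5.D 1 1) ⟨2, 2, 2, 0, 2, 2, 2, 0, 3, 3⟩ :=
  leafX_sound T5.ok_pp T5.Ypp.bz_eq (w := 202) (c := ⟨⟨.negSucc 1351, .negSucc 448, .ofNat 7, .negSucc 0, .negSucc 172, .ofNat 1⟩, ⟨.negSucc 369, .negSucc 392, .negSucc 265, .ofNat 0, .ofNat 346, .ofNat 0⟩, ⟨.ofNat 943, .negSucc 98, .negSucc 106, .ofNat 0, .ofNat 201, .ofNat 0⟩, ⟨.negSucc 3143, .ofNat 63, .ofNat 80, .negSucc 1, .negSucc 226, .ofNat 2⟩, ⟨.negSucc 88, .ofNat 174, .negSucc 161, .ofNat 0, .negSucc 103, .ofNat 0⟩, .ofNat 169, .negSucc 15, .ofNat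 0, .negSucc 15, .ofNat 240, .ofNat 0, .ofNat 128, .ofNat 1, .negSucc 7, .ofNat 0, .ofNat 198, .ofNat 10, .ofNat 0, .ofNat 0, .ofNat 295, .ofNat 1007931, .ofNat 48366730145297771663213380833078830694400, .ofNat 0, .ofNat 0, .ofNat 0, .ofNat 46533341281221284798740489489309669261312, .ofNat 0, .ofNat 0, .ofNat 0, .ofNat 29994983162892962248997021861811062833152, .ofNat 0, .ofNat 0, .ofNat 0, .ofNat 21659120053352376200439564957332258422784, .ofNat 0, .ofNat 185850578800460916185588232332771328, .ofNat 0⟩)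
    (by decide +kernel)
theorem L00925 : Good (Phi V5.P V5.D 1 1) ⟨2, 2, 2, 0, 2, 2, 2, 1, 4, 6⟩ :=
  leafX_sound T5.ok_pp T5.Ypp.bz_eq (w := 198) (c := ⟨⟨.negSucc 1440, .negSucc 563, .ofNat 11, .negSucc 28, .negSucc 209, .ofNat 183⟩, ⟨.ofNat 13, .negSucc 471, .negSucc 247, .negSucc 14, .negSucc 49, .ofNat 34⟩, ⟨.ofNat 1194, .ofNat 203, .negSucc 218, .negSucc 168, .ofNat 663, .negSucc 128⟩, ⟨.negSucc 3302, .negSucc 13, .ofNat 72, .negSucc 43, .negSucc 315, .ofNat 331⟩, ⟨.negSucc 263, .ofNat 73, .negSucc 7, .ofNat 5, .negSucc 186, .ofNat 22⟩, .ofNat 320, .negSucc 83, .ofNat 0, .negSucc 83, .ofNat 712, .ofNat 0, .ofNat 130, .ofNat 49, .negSucc 15, .ofNat 0, .ofNat 128, .negSucc 0, .ofNat 0, .ofNat 0, .ofNat 532, .ofNat 2039, .ofNat 936313741969010981036786853292953042944, .ofNat 0, .ofNat 330483842154212977601663075553902592, .ofNat 0, .ofNat 0, .ofNat 0, .ofNat 0, .ofNat 0,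 .ofNat 0, .ofNat 0, .ofNat 0, .ofNat 0, .ofNat 0, .ofNat 210150151531884732236020518588625453056, .ofNat 0, .ofNat 0⟩)
    (by decide +kernel)
theorem L00926 : Good (Phi V5.P V5.D 1 1) ⟨2, 2, 2, 0, 3, 4, 3, 2, 4, 7⟩ :=
  out_sound (S := T5.ds_pp) T5.ok_pp (w := 27) (j := 1) (by decide +kernel)
theorem L00927 : Good (Phi V5.P V5.D 1 1) ⟨2, 2, 2, 0, 4, 8, 3, 3, 5, 14⟩ :=
  out_sound (S := T5.ds_pp) T5.ok_pp (w := 31) (j := 1) (by decide +kernel)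
theorem L00928 : Good (Phi V5.P V5.D 1 1) ⟨2, 2, 2, 0, 4, 9, 4, 6, 5, 14⟩ :=
  out_sound (S := T5.ds_pp) T5.ok_pp (w := 32) (j := 1) (by decide +kernel)
theorem L00929 : Good (Phi V5.P V5.D 1 1) ⟨2, 2, 2, 0, 5, 18, 4, 7, 6, 28⟩ :=
  leafX_sound T5.ok_pp T5.Ypp.bz_eq (w := 267) (c := ⟨⟨.negSucc 1215, .negSucc 584, .negSucc 15, .negSucc 0, .negSucc 269, .ofNat 1⟩, ⟨.negSucc 205, .negSucc 474, .negSucc 245, .ofNat 0, .ofNat 191, .ofNat 0⟩, ⟨.ofNat 1860, .ofNat 302, .negSucc 425, .ofNat 1, .negSucc 105, .negSucc 0⟩, ⟨.negSucc 3172, .negSucc 81, .ofNat 35, .negSucc 0, .negSucc 117, .ofNat 2⟩, ⟨.negSucc 356, .negSucc 48, .ofNat 6, .ofNat 0, .negSucc 65, .ofNat 0⟩, .ofNat 169, .negSucc 15, .ofNat 0, .negSucc 15, .ofNat 240, .ofNat 0, .ofNat 128, .ofNat 15, .ofNat 1, .ofNat 0, .ofNat 147, .negSucc 4, .ofNat 0, .ofNat 0, .ofNat 202, .ofNat 752073, .ofNat 0, .ofNat 0, .ofNat 0, .ofNat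 0, .ofNat 87186906419677060627862917635553764452024376106432856064, .ofNat 369756836935270315848046478303603035394685618010193920, .ofNat 0, .ofNat 0, .ofNat 67234572116312591077220421243901309762468105113709838336, .ofNat 244833812284069433962355590926662258309586593377157120, .ofNat 0, .ofNat 0, .ofNat 17361142520771402585733240285748784825404139934454906880, .ofNat 59370322870930111369028353866080076166871802554875904, .ofNat 6355537819866698163458425806168789117982223840588070912, .ofNat 0⟩)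
    (by decide +kernel)
theorem L00930 : Good (Phi V5.P V5.D 1 1) ⟨2, 2, 2, 0, 5, 19, 6, 28, 7, 56⟩ :=
  out_sound (S := T5.ds_pp) T5.ok_pp (w := 40) (j := 1) (by decide +kernel)
theorem L00931 : Good (Phi V5.P V5.D 1 1) ⟨2, 2, 2, 0, 6, 38, 6, 29, 7, 56⟩ :=
  out_sound (S := T5.ds_pp) T5.ok_pp (w := 42) (j := 1) (by decide +kernel)
theorem L00932 : Good (Phi V5.P V5.D 1 1) ⟨2, 2, 2, 0, 6, 39, 6, 29, 7, 56⟩ :=
  out_sound (S := T5.ds_pp) T5.ok_pp (w := 52) (j := 2) (by decide +kernel)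
theorem L00933 : Good (Phi V5.P V5.D 1 1) ⟨2, 2, 2, 0, 5, 19, 5, 14, 7, 57⟩ :=
  out_sound (S := T5.ds_pp) T5.ok_pp (w := 39) (j := 1) (by decide +kernel)
theorem L00934 : Good (Phi V5.P V5.D 1 1) ⟨2, 2, 2, 0, 7, 76, 6, 30, 7, 56⟩ :=
  out_sound (S := T5.ds_pp) T5.ok_pp (w := 44) (j := 1) (by decide +kernel)
theorem L00935 : Good (Phi V5.P V5.D 1 1) ⟨2, 2, 2, 0, 8, 152, 8, 124, 9, 224⟩ :=
  out_sound (S := T5.ds_pp) T5.ok_pp (w := 52) (j := 1) (by decide +kernel)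
theorem L00936 : Good (Phi V5.P V5.D 1 1) ⟨2, 2, 2, 0, 8, 152, 9, 250, 10, 448⟩ :=
  out_sound (S := T5.ds_pp) T5.ok_pp (w := 55) (j := 1) (by decide +kernel)
theorem L00937 : Good (Phi V5.P V5.D 1 1) ⟨2, 2, 2, 0, 9, 304, 9, 251, 10, 448⟩ :=
  out_sound (S := T5.ds_pp) T5.ok_pp (w := 57) (j := 1) (by decide +kernel)
theorem L00938 : Good (Phi V5.P V5.D 1 1) ⟨2, 2, 2, 0, 9, 305, 9, 251, 10, 448⟩ :=
  out_sound (S := T5.ds_pp) T5.ok_pp (w := 70) (j := 2) (by decide +kernel)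
theorem L00939 : Good (Phi V5.P V5.D 1 1) ⟨2, 2, 2, 0, 8, 152, 8, 125, 10, 449⟩ :=
  out_sound (S := T5.ds_pp) T5.ok_pp (w := 54) (j := 1) (by decide +kernel)
theorem L00940 : Good (Phi V5.P V5.D 1 1) ⟨2, 2, 2, 0, 8, 152, 7, 62, 9, 225⟩ :=
  out_sound (S := T5.ds_pp) T5.ok_pp (w := 51) (j := 1) (by decide +kernel)
theorem L00941 : Good (Phi V5.P V5.D 1 1) ⟨2, 2, 2, 0, 10, 608, 9, 252, 10, 448⟩ :=
  out_sound (S := T5.ds_pp) T5.ok_pp (w := 59) (j := 1) (by decide +kernel)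
theorem L00942 : Good (Phi V5.P V5.D 1 1) ⟨2, 2, 2, 0, 11, 1216, 10, 506, 11, 896⟩ :=
  out_sound (S := T5.ds_pp) T5.ok_pp (w := 64) (j := 1) (by decide +kernel)
theorem L00943 : Good (Phi V5.P V5.D 1 1) ⟨2, 2, 2, 0, 11, 1216, 10, 507, 11, 896⟩ :=
  out_sound (S := T5.ds_pp) T5.ok_pp (w := 78) (j := 2) (by decide +kernel)
theorem L00944 : Good (Phi V5.P V5.D 1 1) ⟨2, 2, 2, 0, 11, 1217, 9, 253, 11, 896⟩ :=
  out_sound (S := T5.ds_pp) T5.ok_pp (w := 76) (j := 2) (by decide +kernel)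
theorem L00945 : Good (Phi V5.P V5.D 1 1) ⟨2, 2, 2, 0, 10, 608, 9, 253, 11, 897⟩ :=
  out_sound (S := T5.ds_pp) T5.ok_pp (w := 74) (j := 2) (by decide +kernel)
theorem L00946 : Good (Phi V5.P V5.D 1 1) ⟨2, 2, 2, 0, 10, 609, 8, 126, 10, 448⟩ :=
  out_sound (S := T5.ds_pp) T5.ok_pp (w := 70) (j := 2) (by decide +kernel)
theorem L00947 : Good (Phi V5.P V5.D 1 1) ⟨2, 2, 2, 0, 9, 304, 8, 126, 10, 449⟩ :=
  out_sound (S := T5.ds_pp) T5.ok_pp (w := 56) (j := 1) (by decide +kernel)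
theorem L00948 : Good (Phi V5.P V5.D 1 1) ⟨2, 2, 2, 0, 9, 304, 8, 127, 9, 224⟩ :=
  out_sound (S := T5.ds_pp) T5.ok_pp (w := 66) (j := 2) (by decide +kernel)
theorem L00949 : Good (Phi V5.P V5.D 1 1) ⟨2, 2, 2, 0, 9, 305, 7, 63, 9, 224⟩ :=
  out_sound (S := T5.ds_pp) T5.ok_pp (w := 64) (j := 2) (by decide +kernel)
theorem L00950 : Good (Phi V5.P V5.D 1 1) ⟨2, 2, 2, 0, 8, 152, 7, 63, 9, 225⟩ :=
  out_sound (S := T5.ds_pp) T5.ok_pp (w := 62) (j := 2) (by decide +kernel)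
theorem L00951 : Good (Phi V5.P V5.D 1 1) ⟨2, 2, 2, 0, 8, 153, 6, 31, 8, 112⟩ :=
  out_sound (S := T5.ds_pp) T5.ok_pp (w := 58) (j := 2) (by decide +kernel)
theorem L00952 : Good (Phi V5.P V5.D 1 1) ⟨2, 2, 2, 0, 7, 76, 6, 31, 8, 113⟩ :=
  out_sound (S := T5.ds_pp) T5.ok_pp (w := 56) (j := 2) (by decide +kernel)
theorem L00953 : Good (Phi V5.P V5.D 1 1) ⟨2, 2, 2, 0, 8, 154, 6, 30, 8, 112⟩ :=
  out_sound (S := T5.ds_pp) T5.ok_pp (w := 48) (j := 1) (by decide +kernel)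
theorem L00954 : Good (Phi V5.P V5.D 1 1) ⟨2, 2, 2, 0, 8, 155, 6, 30, 8, 112⟩ :=
  out_sound (S := T5.ds_pp) T5.ok_pp (w := 58) (j := 2) (by decide +kernel)
theorem L00955 : Good (Phi V5.P V5.D 1 1) ⟨2, 2, 2, 0, 7, 77, 6, 30, 8, 113⟩ :=
  out_sound (S := T5.ds_pp) T5.ok_pp (w := 46) (j := 1) (by decide +kernel)
theorem L00956 : Good (Phi V5.P V5.D 1 1) ⟨2, 2, 2, 0, 7, 77, 6, 31, 7, 56⟩ :=
  out_sound (S := T5.ds_pp) T5.ok_pp (w := 54) (j := 2) (by decide +kernel)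
theorem L00957 : Good (Phi V5.P V5.D 1 1) ⟨2, 2, 2, 0, 6, 38, 5, 15, 7, 57⟩ :=
  out_sound (S := T5.ds_pp) T5.ok_pp (w := 50) (j := 2) (by decide +kernel)
theorem L00958 : Good (Phi V5.P V5.D 1 1) ⟨2, 2, 2, 0, 6, 39, 5, 15, 6, 28⟩ :=
  out_sound (S := T5.ds_pp) T5.ok_pp (w := 48) (j := 2) (by decide +kernel)
theorem L00959 : Good (Phi V5.P V5.D 1 1) ⟨2, 2, 2, 0, 4, 9, 4, 7, 6, 29⟩ :=
  out_sound (S := T5.ds_pp) T5.ok_pp (w := 34) (j := 1) (by decide +kernel)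
theorem L00960 : Good (Phi V5.P V5.D 1 1) ⟨2, 2, 2, 0, 3, 4, 3, 3, 5, 15⟩ :=
  out_sound (S := T5.ds_pp) T5.ok_pp (w := 29) (j := 1) (by decide +kernel)
theorem L00961 : Good (Phi V5.P V5.D 1 1) ⟨2, 2, 2, 0, 4, 10, 3, 2, 5, 14⟩ :=
  out_sound (S := T5.ds_pp) T5.ok_pp (w := 31) (j := 1) (by decide +kernel)
theorem L00962 : Good (Phi V5.P V5.D 1 1) ⟨2, 2, 2, 0, 5, 20, 5, 12, 6, 28⟩ :=
  out_sound (S := T5.ds_pp) T5.ok_pp (w := 37) (j := 1) (by decide +kernel)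
theorem L00963 : Good (Phi V5.P V5.D 1 1) ⟨2, 2, 2, 0, 5, 20, 5, 13, 6, 28⟩ :=
  out_sound (S := T5.ds_pp) T5.ok_pp (w := 46) (j := 2) (by decide +kernel)
theorem L00964 : Good (Phi V5.P V5.D 1 1) ⟨2, 2, 2, 0, 5, 20, 4, 7, 6, 28⟩ :=
  out_sound (S := T5.ds_pp) T5.ok_pp (w := 44) (j := 2) (by decide +kernel)
theorem L00965 : Good (Phi V5.P V5.D 1 1) ⟨2, 2, 2, 0, 5, 20, 3, 3, 6, 29⟩ :=
  out_sound (S := T5.ds_pp) T5.ok_pp (w := 42) (j := 2) (by decide +kernel)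
theorem L00966 : Good (Phi V5.P V5.D 1 1) ⟨2, 2, 2, 0, 5, 21, 3, 3, 5, 14⟩ :=
  out_sound (S := T5.ds_pp) T5.ok_pp (w := 40) (j := 2) (by decide +kernel)
theorem L00967 : Good (Phi V5.P V5.D 1 1) ⟨2, 2, 2, 0, 4, 10, 2, 1, 5, 15⟩ :=
  out_sound (S := T5.ds_pp) T5.ok_pp (w := 36) (j := 2) (by decide +kernel)
theorem L00968 : Good (Phi V5.P V5.D 1 1) ⟨2, 2, 2, 0, 4, 11, 2, 1, 4, 7⟩ :=
  out_sound (S := T5.ds_pp) T5.ok_pp (w := 34) (j := 2) (by decide +kernel)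
theorem L00969 : Good (Phi V5.P V5.D 1 1) ⟨4, 12, 2, 0, 3, 4, 2, 0, 3, 2⟩ :=
  leafX_sound T5.ok_pp T5.Ypp.bz_eq (w := 218) (c := ⟨⟨.negSucc 2156, .negSucc 175, .negSucc 6, .negSucc 8, .negSucc 267, .ofNat 368⟩, ⟨.negSucc 476, .negSucc 195, .negSucc 305, .ofNat 1, .negSucc 92, .ofNat 119⟩, ⟨.ofNat 460, .ofNat 0, .ofNat 88, .negSucc 279, .ofNat 957, .ofNat 30⟩, ⟨.negSucc 3553, .ofNat 7, .ofNat 36, .negSucc 28, .negSucc 433, .ofNat 638⟩, ⟨.negSucc 223, .ofNat 28, .negSucc 40, .ofNat 41, .ofNat 8, .negSucc 115⟩, .ofNat 567, .negSucc 506, .ofNat 0, .negSucc 506, .ofNat 1631, .ofNat 0, .ofNat 194, .ofNat 118, .negSucc 36, .ofNat 0, .ofNat 128, .ofNat 3, .ofNat 0, .ofNat 0, .ofNat 533, .ofNat 20243, .ofNat 498123658807450713822190783957553785337806848, .ofNat 0, .ofNat 99123058768826904374946421458419580928, .ofNat 0, .ofNat 3513754893453875353632162900519970475589238784, .ofNat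 0, .ofNat 2142163244297041674148201151203385540608, .ofNat 0, .ofNat 3917404106435680756557876204061247214568079360, .ofNat 0, .ofNat 7235285591033208153288170739420463366144, .ofNat 0, .ofNat 5346742557204640245621603041572004454109020160, .ofNat 0, .ofNat 0, .ofNat 0⟩)
    (by decide +kernel)
theorem L00970 : Good (Phi V5.P V5.D 1 1) ⟨4, 12, 2, 0, 3, 5, 2, 0, 3, 2⟩ :=
  leafX_sound T5.ok_pp T5.Ypp.bz_eq (w := 216) (c := ⟨⟨.negSucc 2098, .negSucc 146, .ofNat 9, .ofNat 81, .negSucc 385, .ofNat 421⟩, ⟨.negSucc 444, .negSucc 171, .negSucc 305, .ofNat 51, .negSucc 138, .ofNat 127⟩, ⟨.ofNat 177, .negSucc 33, .ofNat 33, .negSucc 166, .ofNat 1050, .negSucc 54⟩, ⟨.negSucc 3511, .ofNat 33, .ofNat 78, .ofNat 48, .negSucc 604, .ofNat 766⟩, ⟨.ofNat 10, .ofNat 28, .negSucc 158, .ofNat 241, .negSucc 59, .negSucc 232⟩, .ofNat 476, .negSucc 384, .ofNat 0, .negSucc 384, .ofNat 1276, .ofNat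 0, .ofNat 170, .ofNat 128, .negSucc 53, .ofNat 0, .ofNat 124, .negSucc 3, .ofNat 0, .ofNat 0, .ofNat 582, .ofNat 7605, .ofNat 60519738316868958503582357784810040678416384, .ofNat 0, .ofNat 31753345712207675693672779470635794432, .ofNat 0, .ofNat 1318253718993802038617257012163006059214012416, .ofNat 0, .ofNat 1850143317137016677495386411954694258688, .ofNat 0, .ofNat 1503410539273917399215075897077572302832402432, .ofNat 0, .ofNat 5212423350580883336737124255729398579200, .ofNat 0, .ofNat 3497561310348274465777609782024630643172835328, .ofNat 0, .ofNat 0, .ofNat 0⟩)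
    (by decide +kernel)
theorem L00971 : Good (Phi V5.P V5.D 1 1) ⟨4, 12, 2, 0, 3, 4, 2, 1, 4, 4⟩ :=
  leafX_sound T5.ok_pp T5.Ypp.bz_eq (w := 222) (c := ⟨⟨.negSucc 2414, .negSucc 201, .negSucc 6, .negSucc 54, .negSucc 253, .ofNat 220⟩, ⟨.negSucc 561, .negSucc 211, .negSucc 306, .negSucc 16, .negSucc 98, .ofNat 73⟩, ⟨.ofNat 1422, .ofNat 60, .ofNat 58, .negSucc 179, .ofNat 683, .negSucc 57⟩, ⟨.negSucc 3986, .negSucc 21, .ofNat 38, .negSucc 92, .negSucc 376, .ofNat 378⟩, ⟨.negSucc 195, .ofNat 16, .negSucc 25, .negSucc 0, .negSucc 106, .negSucc 56⟩, .ofNat 477, .negSucc 386, .ofNat 0, .negSucc 386, .ofNat 1275, .ofNat 0, .ofNat 193, .ofNat 128, .negSucc 49, .ofNat 0, .ofNat 113, .negSucc 8, .ofNat 0, .ofNat 0, .ofNat 346, .ofNat 6435, .ofNat 693054786556464869271111251091904149940338688, .ofNat 0, .ofNat 711606129751713905788652230127871066112, .ofNat 0, .ofNat 0, .ofNat 0,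 .ofNat 33356821401989110715468653922194707972096, .ofNat 0, .ofNat 0, .ofNat 0, .ofNat 161882971738182350601755942737316197433344, .ofNat 0, .ofNat 0, .ofNat 0, .ofNat 11320288999270673060529800896992369442816, .ofNat 0⟩)
    (by decide +kernel)
theorem L00972 : Good (Phi V5.P V5.D 1 1) ⟨4, 12, 2, 0, 3, 4, 3, 2, 4, 5⟩ :=
  leafX_sound T5.ok_pp T5.Ypp.bz_eq (w := 228) (c := ⟨⟨.negSucc 2220, .negSucc 179, .negSucc 9, .negSucc 24, .negSucc 114, .ofNat 199⟩, ⟨.negSucc 522, .negSucc 199, .negSucc 278, .negSucc 9, .negSucc 44, .ofNat 65⟩, ⟨.ofNat 1431, .ofNat 37, .ofNat 7, .negSucc 181, .ofNat 354, .negSucc 76⟩, ⟨.negSucc 3655, .negSucc 1, .ofNat 38, .negSucc 34, .negSucc 168, .ofNat 337⟩, ⟨.negSucc 231, .ofNat 15, .negSucc 35, .negSucc 11, .negSucc 50, .negSucc 38⟩, .ofNat 701, .negSucc 840, .ofNat 0, .negSucc 840, .ofNat 2434, .ofNat 0, .ofNat 152, .ofNat 128, .negSucc 38, .ofNat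 0, .ofNat 98, .negSucc 8, .ofNat 0, .ofNat 0, .ofNat 468, .ofNat 25476, .ofNat 30870422282216650396161848100406862052400824320, .ofNat 0, .ofNat 34725209447269818456472354192839705362432, .ofNat 0, .ofNat 0, .ofNat 0, .ofNat 3467128560437056590176995355446237624008704, .ofNat 0, .ofNat 139585861581363600116488457308326428544644153344, .ofNat 0, .ofNat 4702713078205650072432505458826234579386368, .ofNat 0, .ofNat 92893441788632540637040455440313832831589548032, .ofNat 0, .ofNat 1791214592793288987957795924086836602863616, .ofNat 0⟩)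
    (by decide +kernel)
theorem L00973 : Good (Phi V5.P V5.D 1 1) ⟨4, 12, 2, 0, 3, 4, 3, 3, 4, 5⟩ :=
  leafX_sound T5.ok_pp T5.Ypp.bz_eq (w := 227) (c := ⟨⟨.negSucc 2318, .negSucc 199, .negSucc 15, .negSucc 46, .negSucc 123, .ofNat 207⟩, ⟨.negSucc 557, .negSucc 215, .negSucc 282, .negSucc 20, .negSucc 48, .ofNat 69⟩, ⟨.ofNat 1804, .ofNat 95, .negSucc 49, .negSucc 124, .ofNat 280, .negSucc 97⟩, ⟨.negSucc 3804, .negSucc 21, .ofNat 29, .negSucc 62, .negSucc 170, .ofNat 348⟩, ⟨.negSucc 292, .ofNat 6, .negSucc 8, .negSucc 38, .negSucc 85, .negSucc 28⟩, .ofNat 621, .negSucc 670, .ofNat 0, .negSucc 670, .ofNat 2015, .ofNat 0, .ofNat 128, .ofNat 166, .negSucc 41, .ofNat 0, .ofNat 131, .negSucc 9, .ofNat 0, .ofNat 0, .ofNat 496, .ofNat 11600, .ofNat 0, .ofNat 0, .ofNat 0, .ofNat 0, .ofNat 0, .ofNat 0, .ofNat 1916732452779339470651023597208026811990016, .ofNat 0, .ofNat 0, .ofNat 0,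 .ofNat 5814091881552955215125418664278811706654720, .ofNat 0, .ofNat 0, .ofNat 0, .ofNat 544147293256010733993192064988923396358144, .ofNat 0⟩)
    (by decide +kernel)
theorem L00974 : Good (Phi V5.P V5.D 1 1) ⟨4, 12, 2, 0, 3, 5, 2, 1, 3, 2⟩ :=
  leafX_sound T5.ok_pp T5.Ypp.bz_eq (w := 217) (c := ⟨⟨.negSucc 2476, .negSucc 193, .negSucc 0, .ofNat 33, .negSucc 365, .ofNat 505⟩, ⟨.negSucc 577, .negSucc 210, .negSucc 298, .ofNat 27, .negSucc 147, .ofNat 156⟩, ⟨.ofNat 1301, .ofNat 77, .negSucc 15, .negSucc 168, .ofNat 792, .negSucc 154⟩, ⟨.negSucc 4118, .negSucc 31, .ofNat 63, .negSucc 8, .negSucc 538, .ofNat 886⟩, ⟨.negSucc 74, .ofNat 99, .negSucc 108, .ofNat 170, .negSucc 162, .negSucc 183⟩, .ofNat 470, .negSucc 371, .ofNat 0, .negSucc 371, .ofNat 1251, .ofNat 0, .ofNat 315, .ofNat 128, .negSucc 59, .ofNat 0, .ofNat 125, .negSucc 6, .ofNat 0, .ofNat 0, .ofNat 696, .ofNat 4720,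 .ofNat 0, .ofNat 0, .ofNat 27017436302371422144397580363112644608, .ofNat 0, .ofNat 0, .ofNat 0, .ofNat 2251136755939094803210204567937415643136, .ofNat 0, .ofNat 0, .ofNat 0, .ofNat 4051277021483743006961192612602291683328, .ofNat 0, .ofNat 0, .ofNat 46886596022437578857416820885021111449812992, .ofNat 1642176253203757494453562318055926661120, .ofNat 0⟩)
    (by decide +kernel)
theorem L00975 : Good (Phi V5.P V5.D 1 1) ⟨4, 12, 2, 0, 2, 2, 1, 0, 3, 3⟩ :=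
  leafX_sound T5.ok_pp T5.Ypp.bz_eq (w := 196) (c := ⟨⟨.negSucc 1752, .negSucc 136, .negSucc 45, .ofNat 18, .negSucc 486, .ofNat 340⟩, ⟨.negSucc 354, .negSucc 176, .negSucc 279, .ofNat 8, .negSucc 201, .ofNat 114⟩, ⟨.ofNat 855, .ofNat 8, .negSucc 107, .negSucc 348, .ofNat 1209, .negSucc 211⟩, ⟨.negSucc 2981, .ofNat 35, .ofNat 9, .ofNat 19, .negSucc 659, .ofNat 575⟩, ⟨.negSucc 37, .ofNat 50, .negSucc 67, .ofNat 17, .negSucc 342, .negSucc 51⟩, .ofNat 314, .negSucc 144, .ofNat 0, .negSucc 144, .ofNat 614, .ofNat 0, .ofNat 128, .ofNat 102, .negSucc 19, .ofNat 0, .ofNat 158, .negSucc 1, .ofNat 0, .ofNat 0, .ofNat 484, .ofNat 1170, .ofNat 1891083956898508927249608162261296218112, .ofNat 0, .ofNat 186303748683016569295514481197056, .ofNat 0, .ofNat 0, .ofNat 988668839603516686892866226920492105728, .ofNat 1736395383109500302965882535018496, .ofNat 0, .ofNat 0, .ofNat 0, .ofNat 0,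 .ofNat 0, .ofNat 54234310994773631242105880678418461229056, .ofNat 3269884666392175166029475888839767621632, .ofNat 2850190265469326128918475522965504, .ofNat 0⟩)
    (by decide +kernel)
theorem L00976 : Good (Phi V5.P V5.D 1 1) ⟨4, 13, 2, 0, 2, 2, 1, 0, 2, 1⟩ :=
  out_sound (S := T5.ds_pp) T5.ok_pp (w := 49) (j := 3) (by decide +kernel)
theorem L00977 : Good (Phi V5.P V5.D 1 1) ⟨3, 7, 2, 0, 2, 2, 1, 0, 2, 1⟩ :=
  out_sound (S := T5.ds_pp) T5.ok_pp (w := 43) (j := 3) (by decide +kernel)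
theorem L00978 : Good (Phi V5.P V5.D 1 1) ⟨2, 2, 2, 0, 2, 3, 2, 0, 4, 4⟩ :=
  leafX_sound T5.ok_pp T5.Ypp.bz_eq (w := 197) (c := ⟨⟨.negSucc 1655, .negSucc 404, .ofNat 38, .ofNat 381, .negSucc 281, .ofNat 172⟩, ⟨.negSucc 23, .negSucc 337, .negSucc 373, .ofNat 166, .negSucc 42, .ofNat 35⟩, ⟨.ofNat 226, .ofNat 29, .negSucc 13, .ofNat 55, .ofNat 749, .ofNat 67⟩, ⟨.negSucc 3605, .ofNat 119, .ofNat 73, .ofNat 328, .negSucc 527, .ofNat 351⟩, ⟨.ofNat 77, .ofNat 451, .negSucc 451, .ofNat 1385, .negSucc 14, .negSucc 269⟩, .ofNat 320, .negSucc 89, .ofNat 0, .negSucc 89, .ofNat 707, .ofNat 0, .ofNat 128, .ofNat 37, .negSucc 26, .ofNat 0, .ofNat 184, .ofNat 5, .ofNat 0, .ofNat 0, .ofNat 299, .ofNat 1422, .ofNat 20312959503937661483511985113327992832, .ofNat 0, .ofNat 254770524128719362942858971293155328, .ofNat 0, .ofNat 0, .ofNat 0, .ofNat 1322375113142388262203429183830360064, .ofNat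 0, .ofNat 0, .ofNat 0, .ofNat 0, .ofNat 0, .ofNat 0, .ofNat 0, .ofNat 0, .ofNat 0⟩)
    (by decide +kernel)
theorem L00979 : Good (Phi V5.P V5.D 1 1) ⟨2, 3, 2, 0, 2, 3, 2, 0, 4, 4⟩ :=
  leafX_sound T5.ok_pp T5.Ypp.bz_eq (w := 198) (c := ⟨⟨.negSucc 2012, .negSucc 388, .ofNat 44, .ofNat 589, .negSucc 448, .ofNat 145⟩, ⟨.negSucc 337, .negSucc 427, .negSucc 352, .ofNat 354, .negSucc 176, .ofNat 25⟩, ⟨.ofNat 145, .negSucc 154, .negSucc 1, .ofNat 90, .ofNat 877, .negSucc 0⟩, ⟨.negSucc 3457, .ofNat 116, .ofNat 132, .ofNat 395, .negSucc 685, .ofNat 345⟩, ⟨.ofNat 559, .ofNat 554, .negSucc 451, .ofNat 1590, .negSucc 133, .negSucc 285⟩, .ofNat 457, .negSucc 277, .ofNat 0, .negSucc 277, .ofNat 728, .ofNat 0, .ofNat 128, .ofNat 84, .negSucc 36, .ofNat 0, .ofNat 222, .ofNat 8, .ofNat 0, .ofNat 0, .ofNat 420, .ofNat 2278, .ofNat 0, .ofNat 0, .ofNat 338605369772305373685243467930796032,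 .ofNat 0, .ofNat 108903857803588308395162241380762255360, .ofNat 0, .ofNat 4399293207901092713421670398518362112, .ofNat 0, .ofNat 0, .ofNat 0, .ofNat 68891962611731086003145268787519946752, .ofNat 0, .ofNat 1887974754418109731213373676681034727424, .ofNat 0, .ofNat 13616007197796811028701993620629094400, .ofNat 0⟩)
    (by decide +kernel)
theorem L00980 : Good (Phi V5.P V5.D 1 1) ⟨2, 2, 2, 0, 3, 6, 2, 1, 4, 4⟩ :=
  leafX_sound T5.ok_pp T5.Ypp.bz_eq (w := 212) (c := ⟨⟨.negSucc 1856, .negSucc 549, .ofNat 8, .ofNat 113, .negSucc 322, .ofNat 212⟩, ⟨.negSucc 10, .negSucc 437, .negSucc 376, .ofNat 51, .negSucc 89, .ofNat 40⟩, ⟨.ofNat 931, .ofNat 194, .ofNat 5, .negSucc 65, .ofNat 687, .ofNat 34⟩, ⟨.negSucc 4114, .ofNat 0, .ofNat 72, .ofNat 76, .negSucc 525, .ofNat 461⟩, ⟨.ofNat 11, .ofNat 363, .negSucc 245, .ofNat 496, .negSucc 217, .negSucc 223⟩, .ofNat 323, .negSucc 90, .ofNat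 0, .negSucc 90, .ofNat 757, .ofNat 0, .ofNat 194, .ofNat 43, .negSucc 35, .ofNat 0, .ofNat 128, .ofNat 4, .ofNat 0, .ofNat 0, .ofNat 304, .ofNat 2158, .ofNat 0, .ofNat 0, .ofNat 0, .ofNat 0, .ofNat 0, .ofNat 0, .ofNat 0, .ofNat 0, .ofNat 0, .ofNat 0, .ofNat 0, .ofNat 0, .ofNat 0, .ofNat 0, .ofNat 0, .ofNat 0⟩)
    (by decide +kernel)
theorem L00981 : Good (Phi V5.P V5.D 1 1) ⟨2, 2, 2, 0, 3, 7, 2, 1, 4, 4⟩ :=
  leafX_sound T5.ok_pp T5.Ypp.bz_eq (w := 211) (c := ⟨⟨.negSucc 1836, .negSucc 415, .ofNat 6, .ofNat 294, .negSucc 362, .ofNat 232⟩, ⟨.negSucc 20, .negSucc 321, .negSucc 407, .ofNat 136, .negSucc 106, .ofNat 50⟩, ⟨.ofNat 927, .ofNat 177, .negSucc 46, .ofNat 67, .ofNat 640, .ofNat 43⟩, ⟨.negSucc 4018, .ofNat 52, .negSucc 34, .ofNat 257, .negSucc 581, .ofNat 488⟩, ⟨.ofNat 582, .ofNat 535, .negSucc 343, .ofNat 768, .negSucc 35, .negSucc 411⟩, .ofNat 459, .negSucc 282, .ofNat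 0, .negSucc 282, .ofNat 1729, .ofNat 0, .ofNat 189, .ofNat 85, .negSucc 13, .ofNat 0, .ofNat 128, .ofNat 0, .ofNat 0, .ofNat 0, .ofNat 271, .ofNat 608, .ofNat 0, .ofNat 0, .ofNat 5664100727031502939399542404174072250368, .ofNat 0, .ofNat 0, .ofNat 0, .ofNat 0, .ofNat 0, .ofNat 0, .ofNat 0, .ofNat 0, .ofNat 0, .ofNat 0, .ofNat 413843145007339132067471635989676676874240, .ofNat 18512483775818212892741950536720209412096, .ofNat 0⟩)
    (by decide +kernel)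
theorem L00982 : Good (Phi V5.P V5.D 1 1) ⟨4, 12, 3, 0, 2, 3, 2, 1, 4, 4⟩ :=
  out_sound (S := T5.ds_pp) T5.ok_pp (w := 51) (j := 3) (by decide +kernel)
theorem L00983 : Good (Phi V5.P V5.D 1 1) ⟨5, 24, 3, 1, 2, 3, 2, 1, 4, 4⟩ :=
  leafX_sound T5.ok_pp T5.Ypp.bz_eq (w := 212) (c := ⟨⟨.negSucc 2458, .negSucc 69, .ofNat 8, .ofNat 554, .negSucc 480, .ofNat 257⟩, ⟨.negSucc 676, .negSucc 66, .negSucc 199, .ofNat 351, .negSucc 194, .ofNat 55⟩, ⟨.ofNat 1153, .ofNat 23, .negSucc 18, .negSucc 106, .ofNat 728, .negSucc 57⟩, ⟨.negSucc 4110, .ofNat 6, .ofNat 26, .ofNat 303, .negSucc 685, .ofNat 551⟩, ⟨.ofNat 170, .ofNat 41, .negSucc 135, .ofNat 1697, .negSucc 282, .negSucc 380⟩, .ofNat 456, .negSucc 336, .ofNat 0, .negSucc 336, .ofNat 1182, .ofNat 0, .ofNat 128, .ofNat 146, .negSucc 24, .ofNat 0, .ofNat 184, .ofNat 0, .ofNat 0, .ofNat 0, .ofNat 312, .ofNat 878, .ofNat 0, .ofNat 0, .ofNat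 12072302364731993613128418832941056, .ofNat 0, .ofNat 0, .ofNat 0, .ofNat 0, .ofNat 0, .ofNat 0, .ofNat 0, .ofNat 0, .ofNat 0, .ofNat 0, .ofNat 3594701589372753250861528824521074034081792, .ofNat 17737772618246546682278105778749440, .ofNat 0⟩)
    (by decide +kernel)
theorem L00984 : Good (Phi V5.P V5.D 1 1) ⟨5, 25, 3, 1, 2, 3, 2, 1, 4, 4⟩ :=
  leafX_sound T5.ok_pp T5.Ypp.bz_eq (w := 213) (c := ⟨⟨.negSucc 2702, .negSucc 275, .ofNat 166, .ofNat 590, .negSucc 472, .ofNat 281⟩, ⟨.negSucc 864, .negSucc 186, .negSucc 93, .ofNat 391, .negSucc 195, .ofNat 76⟩, ⟨.ofNat 1100, .negSucc 160, .ofNat 53, .negSucc 120, .ofNat 754, .negSucc 33⟩, ⟨.negSucc 4181, .negSucc 164, .ofNat 114, .ofNat 286, .negSucc 689, .ofNat 567⟩, ⟨.negSucc 219, .negSucc 281, .ofNat 223, .ofNat 1740, .negSucc 178, .negSucc 311⟩, .ofNat 617, .negSucc 607, .ofNat 0, .negSucc 607, .ofNat 1707, .ofNat 0, .ofNat 128,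 .ofNat 152, .negSucc 28, .ofNat 0, .ofNat 180, .negSucc 0, .ofNat 0, .ofNat 0, .ofNat 375, .ofNat 1417, .ofNat 0, .ofNat 0, .ofNat 56918557035639832846498634808688640, .ofNat 0, .ofNat 0, .ofNat 0, .ofNat 1580674892089761697291793208795201536, .ofNat 0, .ofNat 0, .ofNat 0, .ofNat 6422916771274553606304130954155786240, .ofNat 0, .ofNat 0, .ofNat 5231531527682652459495984964059870129029120, .ofNat 3590150887432244606678258609159143424, .ofNat 0⟩)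
    (by decide +kernel)
theorem L00985 : Good (Phi V5.P V5.D 1 1) ⟨4, 13, 2, 0, 2, 3, 2, 1, 4, 4⟩ :=
  out_sound (S := T5.ds_pp) T5.ok_pp (w := 49) (j := 3) (by decide +kernel)
theorem L00986 : Good (Phi V5.P V5.D 1 1) ⟨3, 7, 2, 0, 2, 3, 2, 1, 4, 4⟩ :=
  out_sound (S := T5.ds_pp) T5.ok_pp (w := 43) (j := 3) (by decide +kernel)
theorem L00987 : Good (Phi V5.P V5.D 1 1) ⟨2, 2, 2, 0, 3, 6, 2, 0, 4, 5⟩ :=
  leafX_sound T5.ok_pp T5.Ypp.bz_eq (w := 212) (c := ⟨⟨.negSucc 1457, .negSucc 434, .ofNat 16, .ofNat 108, .negSucc 256, .ofNat 171⟩, ⟨.ofNat 20, .negSucc 385, .negSucc 298, .ofNat 38, .negSucc 64, .ofNat 36⟩, ⟨.ofNat 302, .negSucc 65, .negSucc 33, .negSucc 11, .ofNat 807, .negSucc 19⟩, ⟨.negSucc 3306, .ofNat 108, .ofNat 81, .ofNat 103, .negSucc 438, .ofNat 342⟩, ⟨.negSucc 4, .ofNat 295, .negSucc 240, .ofNat 390, .negSucc 131, .negSucc 93⟩, .ofNat 322, .negSucc 90, .ofNat 0,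 .negSucc 90, .ofNat 722, .ofNat 0, .ofNat 128, .ofNat 40, .negSucc 11, .ofNat 0, .ofNat 137, .ofNat 4, .ofNat 0, .ofNat 0, .ofNat 301, .ofNat 3495, .ofNat 0, .ofNat 0, .ofNat 0, .ofNat 0, .ofNat 0, .ofNat 0, .ofNat 0, .ofNat 0, .ofNat 0, .ofNat 0, .ofNat 0, .ofNat 0, .ofNat 30534624418254682718434982551860199102087168, .ofNat 414097544960070690753537007434067232161792, .ofNat 0, .ofNat 0⟩)
    (by decide +kernel)
theorem L00988 : Good (Phi V5.P V5.D 1 1) ⟨2, 2, 2, 0, 3, 6, 2, 1, 4, 5⟩ :=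
  leafX_sound T5.ok_pp T5.Ypp.bz_eq (w := 211) (c := ⟨⟨.negSucc 1679, .negSucc 514, .ofNat 17, .ofNat 116, .negSucc 241, .ofNat 188⟩, ⟨.negSucc 25, .negSucc 429, .negSucc 298, .ofNat 51, .negSucc 71, .ofNat 39⟩, ⟨.ofNat 1053, .ofNat 106, .negSucc 89, .negSucc 52, .ofNat 670, .negSucc 20⟩, ⟨.negSucc 3720, .ofNat 48, .ofNat 51, .ofNat 127, .negSucc 386, .ofNat 365⟩, ⟨.negSucc 198, .ofNat 270, .negSucc 117, .ofNat 301, .negSucc 31, .negSucc 73⟩, .ofNat 458, .negSucc 285, .ofNat 0, .negSucc 285, .ofNat 1708, .ofNat 0, .ofNat 189, .ofNat 100, .negSucc 7, .ofNat 0, .ofNat 128, .ofNat 1, .ofNat 0, .ofNat 0, .ofNat 303, .ofNat 1006, .ofNat 0, .ofNat 0, .ofNat 0, .ofNat 0, .ofNat 0, .ofNat 0, .ofNat 0, .ofNat 0, .ofNat 0, .ofNat 0, .ofNat 0, .ofNat 0, .ofNat 0, .ofNat 658851419064031393943370867823837890740224, .ofNat 17873198910720594070077159051728013754368, .ofNat 0⟩)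
    (by decide +kernel)
theorem L00989 : Good (Phi V5.P V5.D 1 1) ⟨2, 2, 2, 0, 3, 7, 1, 0, 4, 5⟩ :=
  leafX_sound T5.ok_pp T5.Ypp.bz_eq (w := 206) (c := ⟨⟨.negSucc 1409, .negSucc 310, .ofNat 11, .ofNat 251, .negSucc 502, .ofNat 178⟩, ⟨.ofNat 4, .negSucc 274, .negSucc 345, .ofNat 135, .negSucc 83, .ofNat 102⟩, ⟨.ofNat 327, .negSucc 29, .negSucc 64, .ofNat 162, .ofNat 1453, .ofNat 50⟩, ⟨.negSucc 3160, .ofNat 127, .ofNat 56, .ofNat 209, .negSucc 907, .ofNat 299⟩, ⟨.ofNat 347, .ofNat 542, .negSucc 436, .ofNat 828, .negSucc 113, .negSucc 103⟩, .ofNat 323, .negSucc 89, .ofNat 0, .negSucc 89, .ofNat 725, .ofNat 0, .ofNat 143, .ofNat 26, .negSucc 9, .ofNat 0, .ofNat 128, .ofNat 5, .ofNat 0, .ofNat 0, .ofNat 371, .ofNat 726, .ofNat 0, .ofNat 0, .ofNat 0, .ofNat 0, .ofNat 0, .ofNat 135609008074470122581835490320938038198272, .ofNat 0, .ofNat 0, .ofNat 0, .ofNat 0, .ofNat 0, .ofNat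 0, .ofNat 0, .ofNat 311893197992005854588711138595558700089344, .ofNat 2164847339332943056790536818371923542016, .ofNat 0⟩)
    (by decide +kernel)
theorem L00990 : Good (Phi V5.P V5.D 1 1) ⟨4, 12, 2, 0, 3, 6, 1, 0, 4, 5⟩ :=
  leafX_sound T5.ok_pp T5.Ypp.bz_eq (w := 215) (c := ⟨⟨.negSucc 1837, .negSucc 132, .ofNat 16, .ofNat 174, .negSucc 707, .ofNat 197⟩, ⟨.negSucc 323, .negSucc 142, .negSucc 315, .ofNat 104, .negSucc 289, .ofNat 62⟩, ⟨.ofNat 282, .ofNat 14, .negSucc 89, .negSucc 74, .ofNat 1639, .negSucc 91⟩, ⟨.negSucc 3177, .ofNat 10, .ofNat 119, .ofNat 116, .negSucc 1006, .ofNat 359⟩, ⟨.ofNat 291, .ofNat 85, .negSucc 227, .ofNat 453, .negSucc 400, .negSucc 113⟩, .ofNat 476, .negSucc 384, .ofNat 0, .negSucc 384, .ofNat 1271, .ofNat 0, .ofNat 143, .ofNat 116, .negSucc 12, .ofNat 0, .ofNat 128, .ofNat 2, .ofNat 0, .ofNat 0, .ofNat 424, .ofNat 789, .ofNat 0, .ofNat 0, .ofNat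 0, .ofNat 0, .ofNat 0, .ofNat 48963945513525467461179647996458336614612992, .ofNat 582198862427626527589443257978385858560, .ofNat 0, .ofNat 0, .ofNat 0, .ofNat 0, .ofNat 0, .ofNat 364036814612988795998261080463768243327205376, .ofNat 44669995776879580039040663924810550784032768, .ofNat 1333337436427713924360423316725600092160, .ofNat 0⟩)
    (by decide +kernel)
theorem L00991 : Good (Phi V5.P V5.D 1 1) ⟨4, 12, 2, 0, 3, 7, 1, 0, 4, 5⟩ :=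
  leafX_sound T5.ok_pp T5.Ypp.bz_eq (w := 216) (c := ⟨⟨.negSucc 1655, .negSucc 80, .ofNat 21, .ofNat 302, .negSucc 731, .ofNat 152⟩, ⟨.negSucc 192, .negSucc 74, .negSucc 358, .ofNat 198, .negSucc 280, .ofNat 44⟩, ⟨.ofNat 233, .negSucc 28, .negSucc 115, .ofNat 213, .ofNat 1707, .negSucc 60⟩, ⟨.negSucc 2998, .ofNat 17, .ofNat 102, .ofNat 154, .negSucc 1098, .ofNat 308⟩, ⟨.ofNat 929, .ofNat 109, .negSucc 432, .ofNat 953, .negSucc 287, .negSucc 178⟩, .ofNat 314, .negSucc 142, .ofNat 0, .negSucc 142, .ofNat 612, .ofNat 0, .ofNat 192, .ofNat 50, .negSucc 15, .ofNat 0, .ofNat 128, .ofNat 12, .ofNat 0, .ofNat 0, .ofNat 509, .ofNat 2028, .ofNat 0, .ofNat 0, .ofNat 123460358751381137135421297447544029184, .ofNat 0, .ofNat 0, .ofNat 124606594594088132130915075797386954539008000, .ofNat 0, .ofNat 0, .ofNat 0, .ofNat 63160383916727131407362914939285150321606656, .ofNat 5665788513624250844986252998640628924416,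 .ofNat 0, .ofNat 0, .ofNat 133374699033790522259809575941985387335909376, .ofNat 4325981965593241264257682416462272135168, .ofNat 0⟩)
    (by decide +kernel)
theorem L00992 : Good (Phi V5.P V5.D 1 1) ⟨4, 13, 2, 0, 2, 3, 1, 0, 4, 5⟩ :=
  out_sound (S := T5.ds_pp) T5.ok_pp (w := 49) (j := 3) (by decide +kernel)
theorem L00993 : Good (Phi V5.P V5.D 1 1) ⟨3, 7, 2, 0, 2, 3, 1, 0, 4, 5⟩ :=
  out_sound (S := T5.ds_pp) T5.ok_pp (w := 43) (j := 3) (by decide +kernel)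
theorem L00994 : Good (Phi V5.P V5.D 1 1) ⟨1, 1, 2, 0, 2, 3, 1, 0, 3, 3⟩ :=
  leafX_sound T5.ok_pp T5.Ypp.bz_eq (w := 183) (c := ⟨⟨.negSucc 1357, .negSucc 933, .ofNat 3, .ofNat 202, .negSucc 318, .ofNat 1⟩, ⟨.ofNat 0, .negSucc 799, .negSucc 274, .ofNat 101, .negSucc 57, .ofNat 0⟩, ⟨.ofNat 473, .negSucc 114, .negSucc 119, .negSucc 337, .ofNat 1320, .ofNat 0⟩, ⟨.negSucc 3051, .ofNat 90, .ofNat 78, .ofNat 162, .negSucc 609, .ofNat 2⟩, ⟨.negSucc 35, .ofNat 328, .negSucc 165, .ofNat 424, .negSucc 289, .ofNat 0⟩, .ofNat 169, .negSucc 16, .ofNat 0, .negSucc 16, .ofNat 240, .ofNat 0, .ofNat 128, .ofNat 2, .negSucc 7, .ofNat 0, .ofNat 157, .ofNat 13, .ofNat 0, .ofNat 0, .ofNat 415, .ofNat 618, .ofNat 92287416233998367432990543138783232, .ofNat 13534532226593735869929596806758400, .ofNat 2081539266078470332337872833609728, .ofNat 0, .ofNat 19063660279519333416241861738102784, .ofNat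 825377096509539108280278808084348928, .ofNat 6360374602531906686239666629246976, .ofNat 0, .ofNat 845207393696235375835969929716170752, .ofNat 1143735940059100868290479932909289472, .ofNat 121886780507880469009548214085353472, .ofNat 0, .ofNat 19857104792115789468163088059121795072, .ofNat 2845657049430787309690786590400446464, .ofNat 42758037281936586371424288266780672, .ofNat 0⟩)
    (by decide +kernel)
theorem L00995 : Good (Phi V5.P V5.D 1 1) ⟨1, 1, 2, 0, 3, 4, 1, 0, 3, 4⟩ :=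
  out_sound (S := T5.ds_pp) T5.ok_pp (w := 23) (j := 1) (by decide +kernel)
theorem L00996 : Good (Phi V5.P V5.D 1 1) ⟨1, 1, 2, 0, 3, 5, 1, 0, 3, 4⟩ :=
  out_sound (S := T5.ds_pp) T5.ok_pp (w := 28) (j := 2) (by decide +kernel)
theorem L00997 : Good (Phi V5.P V5.D 1 1) ⟨1, 1, 2, 0, 2, 2, 1, 0, 3, 5⟩ :=
  out_sound (S := T5.ds_pp) T5.ok_pp (w := 21) (j := 1) (by decide +kernel)
theorem L00998 : Good (Phi V5.P V5.D 1 1) ⟨1, 1, 2, 0, 2, 2, 1, 0, 2, 3⟩ :=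
  out_sound (S := T5.ds_pp) T5.ok_pp (w := 19) (j := 1) (by decide +kernel)
theorem L00999 : Good (Phi V5.P V5.D 1 1) ⟨1, 1, 2, 0, 2, 3, 1, 0, 1, 1⟩ :=
  out_sound (S := T5.ds_pp) T5.ok_pp (w := 22) (j := 2) (by decide +kernel)
theorem L01000 : Good (Phi V5.P V5.D 1 1) ⟨3, 4, 2, 0, 1, 1, 2, 2, 4, 0⟩ :=
  leafX_sound T5.ok_pp T5.Ypp.bz_eq (w := 187) (c := ⟨⟨.ofNat 1667, .negSucc 145, .negSucc 43, .negSucc 1035, .negSucc 1300, .negSucc 1573⟩, ⟨.ofNat 299, .ofNat 0, .negSucc 142, .negSucc 110, .negSucc 184, .negSucc 250⟩, ⟨.negSucc 1125, .ofNat 41, .negSucc 43, .ofNat 531, .ofNat 1194, .ofNat 719⟩, ⟨.ofNat 3500, .negSucc 281, .negSucc 466, .negSucc 2373, .negSucc 2739, .negSucc 3074⟩, ⟨.ofNat 412, .ofNat 49, .ofNat 464, .ofNat 1414, .ofNat 117, .negSucc 828⟩, .ofNat 472, .negSucc 266, .ofNat 0, .negSucc 266, .ofNat 2141, .ofNat 0, .ofNat 244, .ofNat 128, .negSucc 321, .ofNat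 0, .ofNat 77, .negSucc 32, .ofNat 0, .ofNat 0, .ofNat 411, .ofNat 212, .ofNat 0, .ofNat 0, .ofNat 0, .ofNat 0, .ofNat 0, .ofNat 0, .ofNat 0, .ofNat 0, .ofNat 0, .ofNat 0, .ofNat 0, .ofNat 0, .ofNat 0, .ofNat 0, .ofNat 123925393391587553490223365095424, .ofNat 0⟩)
    (by decide +kernel)
theorem L01001 : Good (Phi V5.P V5.D 1 1) ⟨3, 4, 2, 0, 1, 1, 2, 3, 4, 0⟩ :=
  leafX_sound T5.ok_pp T5.Ypp.bz_eq (w := 187) (c := ⟨⟨.ofNat 204, .negSucc 533, .negSucc 95, .negSucc 1096, .negSucc 989, .negSucc 912⟩, ⟨.ofNat 216, .negSucc 166, .negSucc 439, .negSucc 105, .negSucc 54, .negSucc 116⟩, ⟨.ofNat 443, .ofNat 279, .negSucc 66, .ofNat 75, .ofNat 1281, .ofNat 498⟩, ⟨.ofNat 551, .negSucc 866, .negSucc 733, .negSucc 2630, .negSucc 2392, .negSucc 1774⟩, ⟨.negSucc 360, .ofNat 629, .ofNat 1088, .ofNat 2096, .ofNat 1912, .negSucc 982⟩, .ofNat 461, .negSucc 220, .ofNat 0, .negSucc 220, .ofNat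 1975, .ofNat 0, .ofNat 274, .ofNat 128, .negSucc 469, .ofNat 0, .ofNat 87, .negSucc 35, .ofNat 0, .ofNat 0, .ofNat 566, .ofNat 107, .ofNat 0, .ofNat 0, .ofNat 0, .ofNat 0, .ofNat 0, .ofNat 0, .ofNat 0, .ofNat 0, .ofNat 0, .ofNat 0, .ofNat 0, .ofNat 0, .ofNat 0, .ofNat 376474574554945131361076790077423616, .ofNat 243085685076289279054978924675072, .ofNat 0⟩)
    (by decide +kernel)
theorem L01002 : Good (Phi V5.P V5.D 1 1) ⟨3, 4, 2, 0, 2, 2, 1, 1, 4, 1⟩ :=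
  leafX_sound T5.ok_pp T5.Ypp.bz_eq (w := 196) (c := ⟨⟨.negSucc 230, .negSucc 499, .negSucc 142, .negSucc 462, .negSucc 1318, .negSucc 947⟩, ⟨.ofNat 126, .negSucc 213, .negSucc 297, .negSucc 64, .negSucc 179, .negSucc 110⟩, ⟨.negSucc 79, .ofNat 351, .ofNat 173, .ofNat 39, .ofNat 2201, .ofNat 752⟩, ⟨.negSucc 547, .negSucc 637, .negSucc 386, .negSucc 1057, .negSucc 2882, .negSucc 1902⟩, ⟨.negSucc 402, .ofNat 286, .ofNat 587, .ofNat 770, .ofNat 681, .negSucc 838⟩, .ofNat 472, .negSucc 266, .ofNat 0, .negSucc 266, .ofNat 2141, .ofNat 0, .ofNat 315, .ofNat 128, .negSucc 374, .ofNat 0, .ofNat 92, .negSucc 35, .ofNat 0, .ofNat 0, .ofNat 610, .ofNat 171, .ofNat 0, .ofNat 0, .ofNat 0, .ofNat 0, .ofNat 0, .ofNat 299326968977730225524119964553461104640, .ofNat 0, .ofNat 0, .ofNat 0, .ofNat 58969564892456882970736164268962480128, .ofNat 89964142177267737544487795565789184, .ofNat 0,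 .ofNat 0, .ofNat 538786119944953889748390565794006695936, .ofNat 257891317966938717436018357874720768, .ofNat 0⟩)
    (by decide +kernel)
theorem L01003 : Good (Phi V5.P V5.D 1 1) ⟨3, 4, 2, 0, 2, 3, 1, 1, 5, 2⟩ :=
  leafX_sound T5.ok_pp T5.Ypp.bz_eq (w := 202) (c := ⟨⟨.negSucc 513, .negSucc 554, .ofNat 217, .negSucc 137, .negSucc 2277, .negSucc 881⟩, ⟨.ofNat 104, .negSucc 143, .negSucc 408, .ofNat 35, .negSucc 281, .negSucc 108⟩, ⟨.ofNat 74, .ofNat 370, .negSucc 152, .negSucc 227, .ofNat 2478, .ofNat 503⟩, ⟨.negSucc 1013, .negSucc 767, .negSucc 68, .negSucc 496, .negSucc 5008, .negSucc 1884⟩, ⟨.negSucc 204, .ofNat 170, .ofNat 974, .ofNat 871, .ofNat 1996, .ofNat 105⟩, .ofNat 472, .negSucc 266, .ofNat 0, .negSucc 266, .ofNat 2141, .ofNat 0, .ofNat 244, .ofNat 128, .negSucc 425, .ofNat 0, .ofNat 77, .negSucc 36, .ofNat 0, .ofNat 0, .ofNat 510, .ofNat 132, .ofNat 0, .ofNat 0,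 .ofNat 0, .ofNat 0, .ofNat 0, .ofNat 928496151158189781650653923124612956160, .ofNat 0, .ofNat 0, .ofNat 0, .ofNat 0, .ofNat 522183851814237007982213538705833984, .ofNat 0, .ofNat 0, .ofNat 2053515620411273651964941180159716753408, .ofNat 7683690203781887808765858925911212032, .ofNat 0⟩)
    (by decide +kernel)
theorem L01004 : Good (Phi V5.P V5.D 1 1) ⟨3, 4, 2, 0, 2, 3, 1, 1, 5, 3⟩ :=
  leafX_sound T5.ok_pp T5.Ypp.bz_eq (w := 202) (c := ⟨⟨.negSucc 1454, .negSucc 801, .ofNat 92, .ofNat 1, .negSucc 1946, .negSucc 416⟩, ⟨.ofNat 40, .negSucc 245, .negSucc 515, .ofNat 90, .negSucc 206, .negSucc 61⟩, ⟨.ofNat 668, .ofNat 448, .ofNat 78, .negSucc 399, .ofNat 2247, .ofNat 360⟩, ⟨.negSucc 3225, .negSucc 998, .negSucc 153, .negSucc 208, .negSucc 4087, .negSucc 858⟩, ⟨.negSucc 278, .ofNat 406, .ofNat 700, .ofNat 1328, .ofNat 1150, .negSucc 34⟩, .ofNat 457, .negSucc 192, .ofNat 0, .negSucc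 192, .ofNat 1902, .ofNat 0, .ofNat 321, .ofNat 128, .negSucc 457, .ofNat 0, .ofNat 111, .negSucc 21, .ofNat 0, .ofNat 0, .ofNat 687, .ofNat 232, .ofNat 0, .ofNat 0, .ofNat 0, .ofNat 0, .ofNat 0, .ofNat 1795087069761682436069919095783725989888, .ofNat 0, .ofNat 0, .ofNat 0, .ofNat 0, .ofNat 1669768600822297504615545137056972800, .ofNat 0, .ofNat 0, .ofNat 6490204685133893338328002074354105974784, .ofNat 11471591902320713729670800829285662720, .ofNat 0⟩)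
    (by decide +kernel)
theorem L01005 : Good (Phi V5.P V5.D 1 1) ⟨3, 4, 2, 0, 2, 2, 1, 1, 4, 2⟩ :=
  leafX_sound T5.ok_pp T5.Ypp.bz_eq (w := 197) (c := ⟨⟨.negSucc 1287, .negSucc 612, .negSucc 57, .negSucc 629, .negSucc 859, .negSucc 245⟩, ⟨.ofNat 51, .negSucc 262, .negSucc 378, .negSucc 79, .negSucc 139, .negSucc 16⟩, ⟨.ofNat 800, .ofNat 470, .ofNat 79, .ofNat 255, .ofNat 1680, .ofNat 263⟩, ⟨.negSucc 2952, .negSucc 620, .negSucc 118, .negSucc 1324, .negSucc 1772, .negSucc 464⟩, ⟨.negSucc 551, .ofNat 268, .ofNat 380, .ofNat 459, .negSucc 19, .negSucc 228⟩, .ofNat 459, .negSucc 210, .ofNat 0, .negSucc 210, .ofNat 1938, .ofNat 0, .ofNat 577, .ofNat 128, .negSucc 309, .ofNat 0, .ofNat 128, .negSucc 19, .ofNat 0, .ofNat 0, .ofNat 723, .ofNat 280, .ofNat 0, .ofNat 0, .ofNat 0, .ofNat 0, .ofNat 0, .ofNat 0, .ofNat 0, .ofNat 0, .ofNat 0, .ofNat 251841745090636318343698548858652983296,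 .ofNat 203274167914532503037928773714444288, .ofNat 0, .ofNat 0, .ofNat 707117251089672047062457725348707565568, .ofNat 279298474534712878440792548685381632, .ofNat 0⟩)
    (by decide +kernel)
theorem L01006 : Good (Phi V5.P V5.D 1 1) ⟨3, 4, 2, 0, 3, 6, 1, 1, 4, 2⟩ :=
  leafX_sound T5.ok_pp T5.Ypp.bz_eq (w := 211) (c := ⟨⟨.negSucc 2006, .negSucc 706, .ofNat 94, .negSucc 214, .negSucc 1155, .negSucc 38⟩, ⟨.negSucc 7, .negSucc 257, .negSucc 485, .negSucc 1, .negSucc 139, .negSucc 4⟩, ⟨.ofNat 1015, .ofNat 424, .ofNat 19, .negSucc 4, .ofNat 2019, .ofNat 248⟩, ⟨.negSucc 4442, .negSucc 728, .ofNat 66, .negSucc 561, .negSucc 2454, .negSucc 68⟩, ⟨.ofNat 122, .ofNat 121, .ofNat 213, .ofNat 709, .ofNat 527, .negSucc 465⟩, .ofNat 472, .negSucc 266, .ofNat 0, .negSucc 266, .ofNat 2141, .ofNat 0, .ofNat 338, .ofNat 128, .negSucc 230, .ofNat 0, .ofNat 99, .negSucc 16, .ofNat 0, .ofNat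 0, .ofNat 482, .ofNat 261, .ofNat 0, .ofNat 0, .ofNat 0, .ofNat 0, .ofNat 0, .ofNat 0, .ofNat 0, .ofNat 0, .ofNat 0, .ofNat 493251366873714732872251315618338450702336, .ofNat 0, .ofNat 0, .ofNat 0, .ofNat 2029259366434833937898819930721315123625984, .ofNat 2776842526121617118239363581952053477376, .ofNat 0⟩)
    (by decide +kernel)
theorem L01007 : Good (Phi V5.P V5.D 1 1) ⟨3, 4, 2, 0, 3, 7, 1, 1, 4, 2⟩ :=
  leafX_sound T5.ok_pp T5.Ypp.bz_eq (w := 211) (c := ⟨⟨.negSucc 2351, .negSucc 523, .ofNat 94, .ofNat 235, .negSucc 1392, .ofNat 88⟩, ⟨.ofNat 10, .negSucc 256, .negSucc 543, .ofNat 76, .negSucc 173, .ofNat 8⟩, ⟨.ofNat 1202, .ofNat 287, .negSucc 1, .negSucc 289, .ofNat 1737, .ofNat 190⟩, ⟨.negSucc 5170, .negSucc 428, .negSucc 98, .ofNat 310, .negSucc 2932, .ofNat 225⟩, ⟨.ofNat 639, .ofNat 162, .ofNat 400, .ofNat 1009, .ofNat 941, .negSucc 335⟩, .ofNat 472, .negSucc 266,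 .ofNat 0, .negSucc 266, .ofNat 2141, .ofNat 0, .ofNat 415, .ofNat 128, .negSucc 222, .ofNat 0, .ofNat 107, .negSucc 10, .ofNat 0, .ofNat 0, .ofNat 542, .ofNat 258, .ofNat 0, .ofNat 20130980093899051499756857121032502247424, .ofNat 0, .ofNat 0, .ofNat 0, .ofNat 2383690723417427068051147893561303962222592, .ofNat 0, .ofNat 0, .ofNat 0, .ofNat 429157759613085489059011443593201745657856, .ofNat 0, .ofNat 0, .ofNat 0, .ofNat 1178593963795831433951106807025907603079168, .ofNat 6007093757668516179465322284085843853312, .ofNat 0⟩)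
    (by decide +kernel)
theorem L01008 : Good (Phi V5.P V5.D 1 1) ⟨3, 4, 2, 0, 1, 1, 2, 2, 4, 3⟩ :=
  leafX_sound T5.ok_pp T5.Ypp.bz_eq (w := 188) (c := ⟨⟨.negSucc 2047, .negSucc 424, .ofNat 64, .negSucc 204, .negSucc 242, .ofNat 277⟩, ⟨.negSucc 46, .negSucc 225, .negSucc 397, .ofNat 7, .negSucc 35, .ofNat 41⟩, ⟨.ofNat 1504, .ofNat 225, .negSucc 30, .negSucc 164, .ofNat 631, .ofNat 12⟩, ⟨.negSucc 4366, .negSucc 286, .ofNat 52, .negSucc 741, .negSucc 519, .ofNat 577⟩, ⟨.negSucc 733, .ofNat 6, .ofNat 123, .ofNat 1858, .ofNat 272, .negSucc 171⟩, .ofNat 464, .negSucc 219, .ofNat 0, .negSucc 219, .ofNat 2004, .ofNat 0, .ofNat 413, .ofNat 106, .negSucc 103, .ofNat 0, .ofNat 128, .negSucc 3, .ofNat 0, .ofNat 0, .ofNat 517, .ofNat 700, .ofNat 0, .ofNat 0, .ofNat 0, .ofNat 0, .ofNat 0, .ofNat 0, .ofNat 0, .ofNat 0, .ofNat 0, .ofNat 0, .ofNat 0, .ofNat 0, .ofNat 0, .ofNat 692585575350720393352636118455025664,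 .ofNat 3973756773746551272061922181120, .ofNat 0⟩)
    (by decide +kernel)
theorem L01009 : Good (Phi V5.P V5.D 1 1) ⟨3, 4, 2, 0, 1, 1, 2, 3, 4, 3⟩ :=
  leafX_sound T5.ok_pp T5.Ypp.bz_eq (w := 187) (c := ⟨⟨.negSucc 1994, .negSucc 585, .negSucc 6, .negSucc 691, .negSucc 626, .ofNat 161⟩, ⟨.ofNat 9, .negSucc 273, .negSucc 439, .negSucc 59, .negSucc 138, .ofNat 0⟩, ⟨.ofNat 1912, .ofNat 438, .negSucc 9, .ofNat 140, .ofNat 877, .negSucc 37⟩, ⟨.negSucc 4385, .negSucc 470, .negSucc 24, .negSucc 1705, .negSucc 1286, .ofNat 384⟩, ⟨.negSucc 424, .negSucc 92, .ofNat 39, .ofNat 1554, .negSucc 230, .negSucc 353⟩, .ofNat 333, .negSucc 73, .ofNat 0, .negSucc 73, .ofNat 795, .ofNat 0, .ofNat 251, .ofNat 59, .negSucc 88, .ofNat 0, .ofNat 128, .ofNat 4, .ofNat 0, .ofNat 0, .ofNat 370, .ofNat 241, .ofNat 0, .ofNat 19998998457209065223415537499897856, .ofNat 0, .ofNat 0, .ofNat 0, .ofNat 653181659463595437362837454948663296,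 .ofNat 23785179700942519225582538981376, .ofNat 0, .ofNat 0, .ofNat 580549406786555717068542073213288448, .ofNat 0, .ofNat 0, .ofNat 0, .ofNat 553101082314922287465943291656142848, .ofNat 40496572134868158764783262236672, .ofNat 0⟩)
    (by decide +kernel)
theorem L01010 : Good (Phi V5.P V5.D 1 1) ⟨3, 5, 3, 0, 2, 2, 2, 2, 4, 0⟩ :=
  leafX_sound T5.ok_pp T5.Ypp.bz_eq (w := 204) (c := ⟨⟨.ofNat 2496, .ofNat 487, .negSucc 163, .negSucc 398, .negSucc 1461, .negSucc 2927⟩, ⟨.ofNat 549, .ofNat 284, .negSucc 2, .negSucc 96, .negSucc 279, .negSucc 713⟩, ⟨.negSucc 1691, .negSucc 187, .negSucc 7, .ofNat 123, .ofNat 1367, .ofNat 1771⟩, ⟨.ofNat 4440, .ofNat 517, .negSucc 306, .negSucc 801, .negSucc 2748, .negSucc 5048⟩, ⟨.ofNat 526, .ofNat 127, .negSucc 654, .ofNat 1159, .ofNat 680, .negSucc 629⟩, .ofNat 428, .negSucc 225, .ofNat 0, .negSucc 225, .ofNat 1352, .ofNat 0, .ofNat 135, .ofNat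 128, .negSucc 244, .ofNat 0, .ofNat 98, .negSucc 33, .ofNat 0, .ofNat 0, .ofNat 294, .ofNat 109, .ofNat 0, .ofNat 0, .ofNat 0, .ofNat 0, .ofNat 0, .ofNat 0, .ofNat 737139657885672698701962279986921472, .ofNat 0, .ofNat 0, .ofNat 0, .ofNat 0, .ofNat 0, .ofNat 0, .ofNat 0, .ofNat 3444345882530406074279820467955040256, .ofNat 0⟩)
    (by decide +kernel)
theorem L01011 : Good (Phi V5.P V5.D 1 1) ⟨4, 10, 3, 0, 2, 3, 2, 2, 4, 0⟩ :=
  leafX_sound T5.ok_pp T5.Ypp.bz_eq (w := 208) (c := ⟨⟨.ofNat 1434, .ofNat 309, .negSucc 160, .negSucc 652, .negSucc 2124, .negSucc 2115⟩, ⟨.ofNat 391, .ofNat 109, .negSucc 113, .negSucc 96, .negSucc 347, .negSucc 469⟩, ⟨.negSucc 909, .negSucc 224, .ofNat 36, .ofNat 439, .ofNat 1494, .ofNat 820⟩, ⟨.ofNat 2360, .ofNat 482, .negSucc 525, .negSucc 1164, .negSucc 3923, .negSucc 3637⟩, ⟨.ofNat 1916, .ofNat 284, .ofNat 590, .negSucc 144, .ofNat 146, .negSucc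 1484⟩, .ofNat 521, .negSucc 430, .ofNat 0, .negSucc 430, .ofNat 2635, .ofNat 0, .ofNat 190, .ofNat 128, .negSucc 316, .ofNat 0, .ofNat 61, .negSucc 45, .ofNat 0, .ofNat 0, .ofNat 297, .ofNat 154, .ofNat 0, .ofNat 0, .ofNat 0, .ofNat 0, .ofNat 0, .ofNat 0, .ofNat 0, .ofNat 0, .ofNat 0, .ofNat 0, .ofNat 0, .ofNat 0, .ofNat 0, .ofNat 0, .ofNat 0, .ofNat 0⟩)
    (by decide +kernel)
theorem L01012 : Good (Phi V5.P V5.D 1 1) ⟨4, 11, 3, 0, 3, 6, 2, 2, 4, 0⟩ :=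
  leafX_sound T5.ok_pp T5.Ypp.bz_eq (w := 223) (c := ⟨⟨.ofNat 3400, .negSucc 15, .negSucc 121, .negSucc 1618, .negSucc 2715, .negSucc 4320⟩, ⟨.ofNat 1069, .ofNat 183, .negSucc 184, .negSucc 372, .negSucc 589, .negSucc 1186⟩, ⟨.negSucc 2177, .negSucc 38, .ofNat 134, .ofNat 827, .ofNat 2204, .ofNat 2190⟩, ⟨.ofNat 5618, .negSucc 265, .negSucc 334, .negSucc 2875, .negSucc 5022, .negSucc 7094⟩, ⟨.ofNat 1647, .ofNat 25, .ofNat 282, .ofNat 581, .ofNat 637, .negSucc 1395⟩, .ofNat 427, .negSucc 244, .ofNat 0, .negSucc 244, .ofNat 1232, .ofNat 0, .ofNat 128, .ofNat 162, .negSucc 365, .ofNat 0, .ofNat 95, .negSucc 68, .ofNat 0, .ofNat 0, .ofNat 303, .ofNat 93, .ofNat 0, .ofNat 0, .ofNat 412683149789993865587640756069833113600, .ofNat 0, .ofNat 0, .ofNat 0, .ofNat 2579470995238163479954967716839892713472, .ofNat 0, .ofNat 0, .ofNat 0, .ofNat 13333960193000421772019309435296285720576,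 .ofNat 0, .ofNat 0, .ofNat 0, .ofNat 20029943379852746095110448021037022969856, .ofNat 0⟩)
    (by decide +kernel)
theorem L01013 : Good (Phi V5.P V5.D 1 1) ⟨5, 22, 3, 0, 3, 7, 2, 2, 5, 0⟩ :=
  leafX_sound T5.ok_pp T5.Ypp.bz_eq (w := 231) (c := ⟨⟨.ofNat 839, .ofNat 201, .negSucc 309, .ofNat 828, .negSucc 3181, .negSucc 1036⟩, ⟨.ofNat 415, .ofNat 126, .negSucc 150, .ofNat 188, .negSucc 672, .negSucc 313⟩, ⟨.negSucc 493, .negSucc 139, .ofNat 146, .negSucc 282, .ofNat 1883, .ofNat 209⟩, ⟨.ofNat 1045, .ofNat 270, .negSucc 792, .ofNat 1476, .negSucc 5531, .negSucc 1587⟩, ⟨.ofNat 2590, .ofNat 265, .ofNat 364, .negSucc 168, .negSucc 403, .negSucc 1133⟩, .ofNat 510, .negSucc 406, .ofNat 0, .negSucc 406, .ofNat 2001, .ofNat 0, .ofNat 128, .ofNat 129, .negSucc 250, .ofNat 0, .ofNat 61, .negSucc 48, .ofNat 0, .ofNat 0, .ofNat 191, .ofNat 148, .ofNat 0, .ofNat 0, .ofNat 4134526752835551570188058833051023572992,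 .ofNat 0, .ofNat 0, .ofNat 0, .ofNat 0, .ofNat 0, .ofNat 0, .ofNat 0, .ofNat 59773549340950468250533341976612550213632, .ofNat 0, .ofNat 0, .ofNat 0, .ofNat 44671724101826318298028391612707445407744, .ofNat 0⟩)
    (by decide +kernel)
theorem L01014 : Good (Phi V5.P V5.D 1 1) ⟨5, 23, 3, 0, 3, 7, 3, 4, 5, 0⟩ :=
  leafX_sound T5.ok_pp T5.Ypp.bz_eq (w := 235) (c := ⟨⟨.ofNat 1247, .ofNat 508, .negSucc 680, .ofNat 1449, .negSucc 1681, .negSucc 1645⟩, ⟨.ofNat 620, .ofNat 228, .negSucc 212, .ofNat 411, .negSucc 448, .negSucc 560⟩, ⟨.negSucc 645, .negSucc 215, .ofNat 230, .negSucc 296, .ofNat 914, .ofNat 375⟩, ⟨.ofNat 1698, .ofNat 729, .negSucc 1448, .ofNat 2380, .negSucc 2834, .negSucc 2502⟩, ⟨.ofNat 2431, .ofNat 250, .ofNat 427, .ofNat 230, .negSucc 190, .negSucc 1155⟩, .ofNat 521, .negSucc 439, .ofNat 0, .negSucc 439, .ofNat 1812, .ofNat 0, .ofNat 128, .ofNat 155, .negSucc 379,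 .ofNat 0, .ofNat 77, .negSucc 89, .ofNat 0, .ofNat 0, .ofNat 274, .ofNat 198, .ofNat 0, .ofNat 0, .ofNat 162136013210771329830355270111910393020416, .ofNat 0, .ofNat 0, .ofNat 0, .ofNat 3008890852486852039403633240281517972783104, .ofNat 0, .ofNat 0, .ofNat 0, .ofNat 2362785825498344906451371613744363414224896, .ofNat 0, .ofNat 0, .ofNat 0, .ofNat 1882349664675014541624436529729101174407168, .ofNat 0⟩)
    (by decide +kernel)
theorem L01015 : Good (Phi V5.P V5.D 1 1) ⟨5, 23, 3, 0, 3, 7, 3, 5, 5, 0⟩ :=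
  leafX_sound T5.ok_pp T5.Ypp.bz_eq (w := 236) (c := ⟨⟨.negSucc 1650, .negSucc 251, .ofNat 76, .ofNat 2231, .negSucc 1900, .negSucc 1301⟩, ⟨.negSucc 74, .negSucc 13, .negSucc 100, .ofNat 588, .negSucc 447, .negSucc 429⟩, ⟨.ofNat 1049, .ofNat 183, .negSucc 122, .negSucc 1093, .ofNat 1060, .ofNat 288⟩, ⟨.negSucc 3087, .negSucc 472, .negSucc 260, .ofNat 3723, .negSucc 3341, .negSucc 2009⟩, ⟨.ofNat 1640, .ofNat 370, .ofNat 937, .ofNat 108, .ofNat 337, .negSucc 823⟩, .ofNat 519, .negSucc 432, .ofNat 0, .negSucc 432, .ofNat 1803, .ofNat 0, .ofNat 128, .ofNat 186, .negSucc 499, .ofNat 0, .ofNat 91, .negSucc 117, .ofNat 0, .ofNat 0, .ofNat 332, .ofNat 160, .ofNat 0, .ofNat 0, .ofNat 53241771955960905245638382145058166013952, .ofNat 0, .ofNat 0, .ofNat 0, .ofNat 2912537878266758250865808143359521996144640, .ofNat 0, .ofNat 0, .ofNat 0, .ofNat 2023396401869865142016570883704909673267200,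 .ofNat 0, .ofNat 0, .ofNat 0, .ofNat 2991924672295364068675842468440576979107840, .ofNat 0⟩)
    (by decide +kernel)
theorem L01016 : Good (Phi V5.P V5.D 1 1) ⟨4, 11, 3, 0, 3, 7, 2, 2, 5, 1⟩ :=
  leafX_sound T5.ok_pp T5.Ypp.bz_eq (w := 227) (c := ⟨⟨.negSucc 1154, .negSucc 202, .ofNat 90, .ofNat 1979, .negSucc 2928, .negSucc 1834⟩, ⟨.negSucc 105, .ofNat 47, .negSucc 97, .ofNat 570, .negSucc 666, .negSucc 500⟩, ⟨.ofNat 282, .ofNat 240, .negSucc 3, .negSucc 992, .ofNat 1760, .ofNat 785⟩, ⟨.negSucc 2095, .negSucc 384, .negSucc 137, .ofNat 3272, .negSucc 5263, .negSucc 3050⟩, ⟨.ofNat 1208, .ofNat 205, .ofNat 694, .negSucc 69, .ofNat 428, .negSucc 270⟩, .ofNat 426, .negSucc 243, .ofNat 0, .negSucc 243, .ofNat 1232, .ofNat 0, .ofNat 128, .ofNat 128, .negSucc 319, .ofNat 0, .ofNat 71, .negSucc 57, .ofNat 0, .ofNat 0, .ofNat 245, .ofNat 129, .ofNat 0, .ofNat 0, .ofNat 10527645488829654403749566433108355448832,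 .ofNat 0, .ofNat 0, .ofNat 0, .ofNat 159366102889239022282411107331569214291968, .ofNat 0, .ofNat 0, .ofNat 0, .ofNat 228038838028550451113200139707339950260224, .ofNat 0, .ofNat 0, .ofNat 0, .ofNat 313655306127356475494022024437221078073344, .ofNat 0⟩)
    (by decide +kernel)
theorem L01017 : Good (Phi V5.P V5.D 1 1) ⟨3, 5, 3, 0, 2, 2, 2, 2, 4, 1⟩ :=
  leafX_sound T5.ok_pp T5.Ypp.bz_eq (w := 203) (c := ⟨⟨.ofNat 142, .negSucc 924, .negSucc 114, .negSucc 1048, .negSucc 973, .negSucc 1512⟩, ⟨.ofNat 217, .negSucc 402, .negSucc 179, .negSucc 176, .negSucc 201, .negSucc 328⟩, ⟨.negSucc 252, .ofNat 563, .ofNat 94, .ofNat 276, .ofNat 1303, .ofNat 1139⟩, ⟨.ofNat 150, .negSucc 1159, .negSucc 216, .negSucc 2064, .negSucc 1834, .negSucc 2697⟩, ⟨.negSucc 635, .ofNat 282, .ofNat 88, .ofNat 801, .ofNat 387, .negSucc 129⟩, .ofNat 429, .negSucc 238, .ofNat 0, .negSucc 238, .ofNat 1324, .ofNat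 0, .ofNat 190, .ofNat 128, .negSucc 261, .ofNat 0, .ofNat 105, .negSucc 34, .ofNat 0, .ofNat 0, .ofNat 381, .ofNat 183, .ofNat 0, .ofNat 0, .ofNat 0, .ofNat 0, .ofNat 0, .ofNat 0, .ofNat 1919315305115692822194386802120327168, .ofNat 0, .ofNat 0, .ofNat 0, .ofNat 0, .ofNat 0, .ofNat 0, .ofNat 0, .ofNat 0, .ofNat 0⟩)
    (by decide +kernel)
theorem L01018 : Good (Phi V5.P V5.D 1 1) ⟨4, 10, 3, 0, 2, 3, 2, 2, 4, 1⟩ :=
  leafX_sound T5.ok_pp T5.Ypp.bz_eq (w := 208) (c := ⟨⟨.negSucc 1722, .negSucc 547, .ofNat 172, .ofNat 274, .negSucc 1159, .negSucc 1220⟩, ⟨.negSucc 96, .negSucc 195, .negSucc 220, .ofNat 110, .negSucc 188, .negSucc 196⟩, ⟨.ofNat 759, .ofNat 214, .negSucc 98, .negSucc 561, .ofNat 1190, .ofNat 925⟩, ⟨.negSucc 3265, .negSucc 696, .ofNat 133, .ofNat 247, .negSucc 2256, .negSucc 2323⟩, ⟨.ofNat 189, .ofNat 34, .ofNat 387, .ofNat 904, .ofNat 315, .ofNat 260⟩, .ofNat 433,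 .negSucc 220, .ofNat 0, .negSucc 220, .ofNat 1516, .ofNat 0, .ofNat 309, .ofNat 128, .negSucc 430, .ofNat 0, .ofNat 90, .negSucc 42, .ofNat 0, .ofNat 0, .ofNat 480, .ofNat 303, .ofNat 0, .ofNat 0, .ofNat 0, .ofNat 0, .ofNat 0, .ofNat 0, .ofNat 0, .ofNat 0, .ofNat 0, .ofNat 0, .ofNat 0, .ofNat 0, .ofNat 0, .ofNat 0, .ofNat 0, .ofNat 0⟩)
    (by decide +kernel)
theorem L01019 : Good (Phi V5.P V5.D 1 1) ⟨4, 11, 3, 0, 2, 3, 2, 2, 5, 2⟩ :=
  leafX_sound T5.ok_pp T5.Ypp.bz_eq (w := 213) (c := ⟨⟨.negSucc 2513, .negSucc 1042, .ofNat 498, .ofNat 1312, .negSucc 2266, .negSucc 899⟩, ⟨.negSucc 340, .negSucc 317, .negSucc 133, .ofNat 402, .negSucc 472, .negSucc 180⟩, ⟨.ofNat 1359, .ofNat 449, .negSucc 254, .negSucc 1302, .ofNat 1735, .ofNat 570⟩, ⟨.negSucc 4346, .negSucc 1586, .ofNat 609, .ofNat 1967, .negSucc 4185, .negSucc 1587⟩, ⟨.ofNat 17, .ofNat 378, .ofNat 560, .ofNat 682, .ofNat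 951, .ofNat 221⟩, .ofNat 420, .negSucc 224, .ofNat 0, .negSucc 224, .ofNat 1181, .ofNat 0, .ofNat 176, .ofNat 128, .negSucc 398, .ofNat 0, .ofNat 83, .negSucc 60, .ofNat 0, .ofNat 0, .ofNat 352, .ofNat 193, .ofNat 0, .ofNat 0, .ofNat 1102246309703674832031708769440235520, .ofNat 0, .ofNat 0, .ofNat 0, .ofNat 10642316698944225666567858760047394816, .ofNat 0, .ofNat 0, .ofNat 0, .ofNat 26037398581542912181734269784967610368, .ofNat 0, .ofNat 0, .ofNat 0, .ofNat 41333129110455547902620608430939832320, .ofNat 0⟩)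
    (by decide +kernel)

end Crest.Agent.R097C5.N5pp
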