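import Crest.Agent.R097.KP7
import Crest.Agent.R097.T5Ypp

/-!
# Row 97, box cover in dimension n = 5 (generated)
-/

set_option autoImplicit false
set_option Elab.async false
set_option maxHeartbeats 0
set_option maxRecDepth 100000

open Crest.Agent.R097 Crest.Agent.R097.KA


namespace Crest.Agent.R097C5.N5pp

theorem L01020 : Good (Phi V5.P V5.D 1 1) ⟨4, 11, 3, 0, 2, 3, 2, 2, 5, 3⟩ :=
  leafX_sound T5.ok_pp T5.Ypp.bz_eq (w := 214) (c := ⟨⟨.negSucc 3651, .negSucc 768, .ofNat 360, .ofNat 1280, .negSucc 1832, .negSucc 288⟩, ⟨.negSucc 533, .negSucc 261, .negSucc 231, .ofNat 452, .negSucc 409, .negSucc 85⟩, ⟨.ofNat 1921, .ofNat 433, .negSucc 139, .negSucc 1208, .ofNat 1503, .ofNat 308⟩, ⟨.negSucc 6502, .negSucc 1027, .ofNat 472, .ofNat 1865, .negSucc 3256, .negSucc 482⟩, ⟨.ofNat 332, .ofNat 500, .ofNat 227, .ofNat 974, .ofNat 685, .ofNat 102⟩, .ofNat 512, .negSucc 411, .ofNat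 0, .negSucc 411, .ofNat 1888, .ofNat 0, .ofNat 165, .ofNat 128, .negSucc 217, .ofNat 0, .ofNat 84, .negSucc 33, .ofNat 0, .ofNat 0, .ofNat 269, .ofNat 257, .ofNat 0, .ofNat 0, .ofNat 1207476670276735142548755194774028288, .ofNat 0, .ofNat 0, .ofNat 0, .ofNat 15590574081707298364100155030854696960, .ofNat 0, .ofNat 0, .ofNat 0, .ofNat 25296162515137047314020547958629466112, .ofNat 0, .ofNat 0, .ofNat 0, .ofNat 0, .ofNat 0⟩)
    (by decide +kernel)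
theorem L01021 : Good (Phi V5.P V5.D 1 1) ⟨3, 5, 4, 0, 2, 2, 2, 3, 4, 0⟩ :=
  leafX_sound T5.ok_pp T5.Ypp.bz_eq (w := 207) (c := ⟨⟨.ofNat 750, .negSucc 1173, .ofNat 238, .negSucc 1070, .negSucc 2003, .negSucc 1768⟩, ⟨.ofNat 233, .negSucc 239, .negSucc 47, .negSucc 49, .negSucc 243, .negSucc 389⟩, ⟨.negSucc 306, .ofNat 895, .negSucc 169, .ofNat 617, .ofNat 2312, .ofNat 1213⟩, ⟨.ofNat 1270, .negSucc 1830, .ofNat 338, .negSucc 2238, .negSucc 3836, .negSucc 3108⟩, ⟨.negSucc 206, .ofNat 316, .ofNat 308, .ofNat 1745, .ofNat 1361, .negSucc 522⟩, .ofNat 492, .negSucc 336, .ofNat 0, .negSucc 336, .ofNat 1992, .ofNat 0, .ofNat 129, .ofNat 128, .negSucc 305, .ofNat 0, .ofNat 91, .negSucc 44, .ofNat 0, .ofNat 0, .ofNat 336, .ofNat 45, .ofNat 0, .ofNat 0, .ofNat 0, .ofNat 0, .ofNat 0, .ofNat 4110388181856691753516191901226991878144, .ofNat 1039910956580665676444665051023933440, .ofNat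 0, .ofNat 0, .ofNat 0, .ofNat 12017163370664417945245066374882000896, .ofNat 0, .ofNat 0, .ofNat 33262825499071693612899835301410417672192, .ofNat 6228165692437254571916330158262321152, .ofNat 0⟩)
    (by decide +kernel)
theorem L01022 : Good (Phi V5.P V5.D 1 1) ⟨4, 10, 4, 0, 3, 6, 2, 3, 4, 0⟩ :=
  leafX_sound T5.ok_pp T5.Ypp.bz_eq (w := 225) (c := ⟨⟨.ofNat 195, .negSucc 971, .negSucc 19, .negSucc 930, .negSucc 2120, .negSucc 2320⟩, ⟨.ofNat 296, .negSucc 197, .negSucc 155, .negSucc 109, .negSucc 159, .negSucc 487⟩, ⟨.ofNat 131, .ofNat 650, .ofNat 1, .ofNat 275, .ofNat 2371, .ofNat 1333⟩, ⟨.ofNat 21, .negSucc 1578, .negSucc 136, .negSucc 1815, .negSucc 4271, .negSucc 4117⟩, ⟨.ofNat 1357, .ofNat 243, .ofNat 241, .ofNat 732, .ofNat 2421, .negSucc 1181⟩, .ofNat 425, .negSucc 186, .ofNat 0, .negSucc 186, .ofNat 1422, .ofNat 0, .ofNat 128, .ofNat 175, .negSucc 391, .ofNat 0, .ofNat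 106, .negSucc 44, .ofNat 0, .ofNat 0, .ofNat 346, .ofNat 151, .ofNat 0, .ofNat 0, .ofNat 0, .ofNat 0, .ofNat 0, .ofNat 222696081525416114979040941206024972310413312, .ofNat 0, .ofNat 0, .ofNat 0, .ofNat 0, .ofNat 0, .ofNat 0, .ofNat 0, .ofNat 0, .ofNat 0, .ofNat 0⟩)
    (by decide +kernel)
theorem L01023 : Good (Phi V5.P V5.D 1 1) ⟨4, 10, 4, 0, 3, 7, 2, 3, 4, 0⟩ :=
  leafX_sound T5.ok_pp T5.Ypp.bz_eq (w := 226) (c := ⟨⟨.negSucc 1462, .negSucc 910, .ofNat 187, .ofNat 396, .negSucc 1734, .negSucc 1791⟩, ⟨.ofNat 31, .negSucc 183, .negSucc 95, .ofNat 23, .negSucc 77, .negSucc 351⟩, ⟨.ofNat 1245, .ofNat 380, .ofNat 9, .negSucc 735, .ofNat 1648, .ofNat 713⟩, ⟨.negSucc 3085, .negSucc 1467, .ofNat 132, .ofNat 859, .negSucc 3571, .negSucc 3168⟩, ⟨.ofNat 2120, .ofNat 40, .ofNat 421, .negSucc 607, .ofNat 2308, .negSucc 725⟩, .ofNat 501, .negSucc 347, .ofNat 0, .negSucc 347, .ofNat 2349,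 .ofNat 0, .ofNat 128, .ofNat 352, .negSucc 317, .ofNat 0, .ofNat 162, .negSucc 41, .ofNat 0, .ofNat 0, .ofNat 270, .ofNat 111, .ofNat 0, .ofNat 0, .ofNat 0, .ofNat 0, .ofNat 0, .ofNat 263899633781439663929688627148814358486712320, .ofNat 0, .ofNat 0, .ofNat 0, .ofNat 0, .ofNat 0, .ofNat 0, .ofNat 0, .ofNat 0, .ofNat 0, .ofNat 0⟩)
    (by decide +kernel)
theorem L01024 : Good (Phi V5.P V5.D 1 1) ⟨4, 11, 4, 0, 3, 6, 3, 6, 4, 0⟩ :=
  leafX_sound T5.ok_pp T5.Ypp.bz_eq (w := 229) (c := ⟨⟨.ofNat 254, .negSucc 2255, .ofNat 187, .negSucc 2069, .negSucc 1580, .negSucc 3049⟩, ⟨.ofNat 415, .negSucc 569, .negSucc 93, .negSucc 393, .negSucc 234, .negSucc 764⟩, ⟨.ofNat 322, .ofNat 1247, .negSucc 128, .ofNat 750, .ofNat 1402, .ofNat 1687⟩, ⟨.ofNat 43, .negSucc 3540, .ofNat 165, .negSucc 3703, .negSucc 2943, .negSucc 5091⟩, ⟨.ofNat 1529, .negSucc 85, .ofNat 402, .ofNat 580, .ofNat 858, .negSucc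 1066⟩, .ofNat 491, .negSucc 343, .ofNat 0, .negSucc 343, .ofNat 1811, .ofNat 0, .ofNat 128, .ofNat 187, .negSucc 347, .ofNat 0, .ofNat 101, .negSucc 61, .ofNat 0, .ofNat 0, .ofNat 279, .ofNat 162, .ofNat 0, .ofNat 0, .ofNat 43746728107306771198337074657408652935168, .ofNat 0, .ofNat 0, .ofNat 0, .ofNat 125326795445549806619092926580545749516288, .ofNat 0, .ofNat 0, .ofNat 0, .ofNat 783742103060340837686016441520896218234880, .ofNat 0, .ofNat 0, .ofNat 0, .ofNat 686695430171219098771126557069624691654656, .ofNat 0⟩)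
    (by decide +kernel)
theorem L01025 : Good (Phi V5.P V5.D 1 1) ⟨5, 22, 4, 0, 3, 7, 3, 6, 4, 0⟩ :=
  leafX_sound T5.ok_pp T5.Ypp.bz_eq (w := 234) (c := ⟨⟨.negSucc 3168, .negSucc 1108, .ofNat 444, .ofNat 1926, .negSucc 1081, .negSucc 2102⟩, ⟨.negSucc 293, .negSucc 300, .negSucc 31, .ofNat 376, .negSucc 95, .negSucc 491⟩, ⟨.ofNat 2143, .ofNat 509, .negSucc 233, .negSucc 1525, .ofNat 872, .ofNat 864⟩, ⟨.negSucc 5988, .negSucc 1708, .ofNat 590, .ofNat 3372, .negSucc 2075, .negSucc 3502⟩, ⟨.ofNat 1958, .negSucc 150, .ofNat 648, .negSucc 301, .ofNat 842, .negSucc 792⟩, .ofNat 530, .negSucc 429, .ofNat 0, .negSucc 429, .ofNat 2258, .ofNat 0, .ofNat 128, .ofNat 158, .negSucc 358, .ofNat 0, .ofNat 73, .negSucc 64, .ofNat 0, .ofNat 0, .ofNat 247, .ofNat 75, .ofNat 0, .ofNat 0, .ofNat 0, .ofNat 0, .ofNat 0, .ofNat 0, .ofNat 0, .ofNat 0, .ofNat 0, .ofNat 0, .ofNat 62057845698060019189706558454364698050560,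 .ofNat 0, .ofNat 0, .ofNat 0, .ofNat 0, .ofNat 0⟩)
    (by decide +kernel)
theorem L01026 : Good (Phi V5.P V5.D 1 1) ⟨5, 23, 4, 0, 3, 7, 3, 6, 4, 0⟩ :=
  leafX_sound T5.ok_pp T5.Ypp.bz_eq (w := 234) (c := ⟨⟨.negSucc 4772, .negSucc 731, .ofNat 731, .ofNat 2695, .negSucc 1512, .negSucc 2376⟩, ⟨.negSucc 717, .negSucc 229, .ofNat 84, .ofNat 593, .negSucc 238, .negSucc 625⟩, ⟨.ofNat 2638, .ofNat 393, .negSucc 99, .negSucc 1967, .ofNat 1082, .ofNat 1039⟩, ⟨.negSucc 8447, .negSucc 989, .ofNat 949, .ofNat 4636, .negSucc 2790, .negSucc 3906⟩, ⟨.ofNat 1345, .negSucc 304, .ofNat 1019, .negSucc 108, .ofNat 878, .negSucc 752⟩, .ofNat 521, .negSucc 397, .ofNat 0, .negSucc 397, .ofNat 1820, .ofNat 0, .ofNat 128, .ofNat 172, .negSucc 481, .ofNat 0, .ofNat 81, .negSucc 110, .ofNat 0, .ofNat 0, .ofNat 266, .ofNat 111, .ofNat 0, .ofNat 0, .ofNat 5901598088191782874211935204312724013056, .ofNat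 0, .ofNat 0, .ofNat 0, .ofNat 22959811750123249615458939848186241482752, .ofNat 0, .ofNat 0, .ofNat 0, .ofNat 111001107093737196823706850279070378229760, .ofNat 0, .ofNat 0, .ofNat 0, .ofNat 219985450113516043118019735881958463373312, .ofNat 0⟩)
    (by decide +kernel)
theorem L01027 : Good (Phi V5.P V5.D 1 1) ⟨4, 11, 4, 0, 3, 6, 3, 7, 4, 0⟩ :=
  leafX_sound T5.ok_pp T5.Ypp.bz_eq (w := 230) (c := ⟨⟨.negSucc 1471, .negSucc 2976, .ofNat 136, .negSucc 1432, .negSucc 1599, .negSucc 3221⟩, ⟨.ofNat 206, .negSucc 750, .negSucc 212, .negSucc 232, .negSucc 140, .negSucc 793⟩, ⟨.ofNat 1797, .ofNat 1722, .negSucc 70, .ofNat 281, .ofNat 1718, .ofNat 1798⟩, ⟨.negSucc 3136, .negSucc 4673, .ofNat 64, .negSucc 2622, .negSucc 3084, .negSucc 5439⟩, ⟨.ofNat 2192, .negSucc 296, .ofNat 761, .ofNat 699, .ofNat 1483, .negSucc 1102⟩, .ofNat 483, .negSucc 320, .ofNat 0, .negSucc 320, .ofNat 1644,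 .ofNat 0, .ofNat 128, .ofNat 196, .negSucc 546, .ofNat 0, .ofNat 106, .negSucc 108, .ofNat 0, .ofNat 0, .ofNat 388, .ofNat 85, .ofNat 0, .ofNat 0, .ofNat 42244801931813188353895023646861751746560, .ofNat 0, .ofNat 0, .ofNat 0, .ofNat 182665127467723667194021818349265033887744, .ofNat 0, .ofNat 0, .ofNat 0, .ofNat 814984503507470437386211612669915774844928, .ofNat 0, .ofNat 0, .ofNat 8202775249785301291687547647102695568146694144, .ofNat 891969840215195016212938957156782631288832, .ofNat 0⟩)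
    (by decide +kernel)
theorem L01028 : Good (Phi V5.P V5.D 1 1) ⟨5, 22, 4, 0, 4, 14, 3, 7, 5, 0⟩ :=
  leafX_sound T5.ok_pp T5.Ypp.bz_eq (w := 253) (c := ⟨⟨.negSucc 3728, .negSucc 1289, .ofNat 442, .ofNat 188, .ofNat 162, .negSucc 1323⟩, ⟨.negSucc 251, .negSucc 280, .negSucc 88, .ofNat 14, .ofNat 274, .negSucc 353⟩, ⟨.ofNat 2746, .ofNat 634, .negSucc 162, .negSucc 511, .ofNat 656, .ofNat 520⟩, ⟨.negSucc 7163, .negSucc 2050, .ofNat 531, .ofNat 367, .negSucc 111, .negSucc 2151⟩, ⟨.ofNat 3130, .negSucc 247, .ofNat 553, .negSucc 152, .ofNat 2183, .negSucc 1027⟩, .ofNat 517, .negSucc 398, .ofNat 0, .negSucc 398, .ofNat 2120, .ofNat 0, .ofNat 128, .ofNat 299, .negSucc 587, .ofNat 0, .ofNat 138, .negSucc 114, .ofNat 0, .ofNat 0, .ofNat 378, .ofNat 73, .ofNat 0, .ofNat 0, .ofNat 0, .ofNat 0, .ofNat 0, .ofNat 0, .ofNat 0, .ofNat 0, .ofNat 0, .ofNat 0, .ofNat 139993547527141765651365077358355308952831393792,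 .ofNat 0, .ofNat 0, .ofNat 0, .ofNat 0, .ofNat 0⟩)
    (by decide +kernel)
theorem L01029 : Good (Phi V5.P V5.D 1 1) ⟨5, 22, 4, 0, 5, 30, 3, 7, 5, 0⟩ :=
  leafX_sound T5.ok_pp T5.Ypp.bz_eq (w := 268) (c := ⟨⟨.negSucc 3519, .negSucc 1048, .ofNat 587, .ofNat 422, .negSucc 244, .negSucc 1430⟩, ⟨.negSucc 236, .negSucc 234, .negSucc 22, .ofNat 70, .ofNat 166, .negSucc 379⟩, ⟨.ofNat 2322, .ofNat 445, .negSucc 178, .negSucc 397, .ofNat 747, .ofNat 482⟩, ⟨.negSucc 6736, .negSucc 1665, .ofNat 724, .ofNat 770, .negSucc 805, .negSucc 2327⟩, ⟨.ofNat 2929, .negSucc 218, .ofNat 785, .negSucc 170, .ofNat 1952, .negSucc 894⟩, .ofNat 510, .negSucc 383, .ofNat 0, .negSucc 383, .ofNat 2032, .ofNat 0, .ofNat 128, .ofNat 509, .negSucc 694, .ofNat 0, .ofNat 222, .negSucc 140, .ofNat 0, .ofNat 0, .ofNat 418, .ofNat 183, .ofNat 0, .ofNat 0, .ofNat 0, .ofNat 0, .ofNat 0, .ofNat 0, .ofNat 0, .ofNat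 0, .ofNat 0, .ofNat 0, .ofNat 6647734217297812785590745052874938850645852054093824, .ofNat 0, .ofNat 0, .ofNat 0, .ofNat 4114311625376041106928955654813528680809834511073280, .ofNat 0⟩)
    (by decide +kernel)
theorem L01030 : Good (Phi V5.P V5.D 1 1) ⟨5, 22, 4, 0, 5, 31, 3, 7, 5, 0⟩ :=
  leafX_sound T5.ok_pp T5.Ypp.bz_eq (w := 267) (c := ⟨⟨.negSucc 3072, .negSucc 837, .ofNat 588, .ofNat 589, .negSucc 569, .negSucc 1522⟩, ⟨.negSucc 160, .negSucc 181, .negSucc 9, .ofNat 95, .ofNat 78, .negSucc 410⟩, ⟨.ofNat 1998, .ofNat 314, .negSucc 176, .negSucc 467, .ofNat 789, .ofNat 447⟩, ⟨.negSucc 5943, .negSucc 1305, .ofNat 742, .ofNat 1061, .negSucc 1337, .negSucc 2486⟩, ⟨.ofNat 2973, .negSucc 218, .ofNat 764, .negSucc 203, .ofNat 1789, .negSucc 1099⟩, .ofNat 488, .negSucc 329, .ofNat 0, .negSucc 329, .ofNat 1811, .ofNat 0, .ofNat 128, .ofNat 588, .negSucc 596, .ofNat 0, .ofNat 249,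 .negSucc 120, .ofNat 0, .ofNat 0, .ofNat 349, .ofNat 116, .ofNat 0, .ofNat 0, .ofNat 0, .ofNat 0, .ofNat 0, .ofNat 3983148071434618378616238070379694478653720374802382848, .ofNat 200033763918571565025209369154622468705961272934400, .ofNat 0, .ofNat 0, .ofNat 0, .ofNat 8029879190845222395896558321667206003524474618511360, .ofNat 0, .ofNat 0, .ofNat 0, .ofNat 3417489134365504501312451809571536487168534535733248, .ofNat 0⟩)
    (by decide +kernel)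
theorem L01031 : Good (Phi V5.P V5.D 1 1) ⟨6, 46, 5, 0, 3, 7, 3, 7, 5, 0⟩ :=
  out_sound (S := T5.ds_pp) T5.ok_pp (w := 67) (j := 3) (by decide +kernel)
theorem L01032 : Good (Phi V5.P V5.D 1 1) ⟨6, 46, 5, 1, 4, 14, 3, 7, 5, 0⟩ :=
  leafX_sound T5.ok_pp T5.Ypp.bz_eq (w := 262) (c := ⟨⟨.negSucc 5227, .negSucc 964, .ofNat 595, .ofNat 679, .ofNat 4, .negSucc 1960⟩, ⟨.negSucc 695, .negSucc 257, .ofNat 55, .ofNat 159, .ofNat 254, .negSucc 565⟩, ⟨.ofNat 3512, .ofNat 419, .negSucc 223, .negSucc 786, .ofNat 755, .ofNat 786⟩, ⟨.negSucc 9609, .negSucc 1485, .ofNat 817, .ofNat 1159, .negSucc 424, .negSucc 3162⟩, ⟨.ofNat 3003, .negSucc 171, .ofNat 564, .negSucc 6, .ofNat 2094, .negSucc 1126⟩, .ofNat 488, .negSucc 340, .ofNat 0, .negSucc 340, .ofNat 1625, .ofNat 0, .ofNat 128, .ofNat 466, .negSucc 1096, .ofNat 0, .ofNat 222, .negSucc 263, .ofNat 0, .ofNat 0, .ofNat 595, .ofNat 461, .ofNat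 0, .ofNat 0, .ofNat 0, .ofNat 0, .ofNat 0, .ofNat 0, .ofNat 25582437266935999766400120538101566709568634880, .ofNat 0, .ofNat 0, .ofNat 0, .ofNat 281426349925001024499550578769159664504758337536, .ofNat 0, .ofNat 0, .ofNat 479526827570539560613683085428905518430222468813684736, .ofNat 293688750083691095218984748992691444743682392064, .ofNat 0⟩)
    (by decide +kernel)
theorem L01033 : Good (Phi V5.P V5.D 1 1) ⟨6, 46, 5, 1, 4, 15, 3, 7, 5, 0⟩ :=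
  leafX_sound T5.ok_pp T5.Ypp.bz_eq (w := 261) (c := ⟨⟨.negSucc 4046, .negSucc 300, .ofNat 183, .ofNat 1502, .negSucc 999, .negSucc 1940⟩, ⟨.negSucc 407, .negSucc 73, .negSucc 35, .ofNat 322, .negSucc 46, .negSucc 573⟩, ⟨.ofNat 2703, .ofNat 93, .negSucc 93, .negSucc 1086, .ofNat 986, .ofNat 580⟩, ⟨.negSucc 7646, .negSucc 425, .ofNat 147, .ofNat 2595, .negSucc 2045, .negSucc 3065⟩, ⟨.ofNat 3303, .ofNat 19, .ofNat 406, .negSucc 74, .ofNat 1463, .negSucc 1218⟩, .ofNat 540, .negSucc 462, .ofNat 0, .negSucc 462, .ofNat 2090, .ofNat 0, .ofNat 128, .ofNat 559, .negSucc 813, .ofNat 0, .ofNat 247, .negSucc 196, .ofNat 0, .ofNat 0, .ofNat 430, .ofNat 77, .ofNat 0, .ofNat 2951930672344502790456935720391572956736850912870400, .ofNat 2075199804163493619564986202466967104656506880, .ofNat 0, .ofNat 0, .ofNat 0, .ofNat 0, .ofNat 0, .ofNat 0, .ofNat 0, .ofNat 337973193580131937589285667843376679405681115136,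 .ofNat 0, .ofNat 0, .ofNat 0, .ofNat 222684249410895848617244196312496717825115684864, .ofNat 0⟩)
    (by decide +kernel)
theorem L01034 : Good (Phi V5.P V5.D 1 1) ⟨6, 47, 4, 0, 3, 7, 3, 7, 5, 0⟩ :=
  out_sound (S := T5.ds_pp) T5.ok_pp (w := 65) (j := 3) (by decide +kernel)
theorem L01035 : Good (Phi V5.P V5.D 1 1) ⟨5, 22, 4, 0, 4, 14, 3, 7, 5, 1⟩ :=
  leafX_sound T5.ok_pp T5.Ypp.bz_eq (w := 253) (c := ⟨⟨.negSucc 4592, .negSucc 1976, .ofNat 495, .ofNat 507, .negSucc 1356, .negSucc 1440⟩, ⟨.negSucc 439, .negSucc 501, .negSucc 114, .ofNat 90, .negSucc 110, .negSucc 327⟩, ⟨.ofNat 3143, .ofNat 910, .negSucc 162, .negSucc 751, .ofNat 1326, .ofNat 769⟩, ⟨.negSucc 8623, .negSucc 3090, .ofNat 639, .ofNat 886, .negSucc 2624, .negSucc 2443⟩, ⟨.ofNat 2337, .negSucc 295, .ofNat 653, .negSucc 69, .ofNat 1428, .negSucc 455⟩, .ofNat 487, .negSucc 327, .ofNat 0, .negSucc 327, .ofNat 1806,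 .ofNat 0, .ofNat 128, .ofNat 185, .negSucc 464, .ofNat 0, .ofNat 91, .negSucc 82, .ofNat 0, .ofNat 0, .ofNat 329, .ofNat 165, .ofNat 0, .ofNat 0, .ofNat 0, .ofNat 0, .ofNat 0, .ofNat 0, .ofNat 0, .ofNat 0, .ofNat 0, .ofNat 3242073664074083662007776615433012311025407525650432, .ofNat 88510689361671551901713640320380292598595584000, .ofNat 0, .ofNat 0, .ofNat 0, .ofNat 0, .ofNat 0⟩)
    (by decide +kernel)
theorem L01036 : Good (Phi V5.P V5.D 1 1) ⟨5, 22, 4, 0, 4, 15, 3, 7, 5, 1⟩ :=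
  leafX_sound T5.ok_pp T5.Ypp.bz_eq (w := 253) (c := ⟨⟨.negSucc 4338, .negSucc 1440, .ofNat 607, .ofNat 560, .negSucc 1837, .negSucc 1203⟩, ⟨.negSucc 392, .negSucc 399, .negSucc 68, .ofNat 44, .negSucc 268, .negSucc 258⟩, ⟨.ofNat 2746, .ofNat 531, .negSucc 223, .negSucc 901, .ofNat 1247, .ofNat 562⟩, ⟨.negSucc 8179, .negSucc 2182, .ofNat 846, .ofNat 1089, .negSucc 3399, .negSucc 2058⟩, ⟨.ofNat 2301, .negSucc 358, .ofNat 774, .negSucc 511, .ofNat 1050, .negSucc 276⟩, .ofNat 519, .negSucc 404, .ofNat 0, .negSucc 404, .ofNat 2136, .ofNat 0, .ofNat 128, .ofNat 298, .negSucc 332, .ofNat 0, .ofNat 135, .negSucc 62, .ofNat 0, .ofNat 0, .ofNat 227, .ofNat 145, .ofNat 0, .ofNat 0, .ofNat 10205514113979661472150755906237910078411767808, .ofNat 0, .ofNat 0, .ofNat 549682800235324567932817486726393565243361263091712, .ofNat 25986834614300470074578549642388388007265697792, .ofNat 0, .ofNat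 0, .ofNat 5548739971430522347066897777647595867734727957938176, .ofNat 201638484796889553595705262289491580895646187520, .ofNat 0, .ofNat 0, .ofNat 0, .ofNat 82848801412185724711120100248249139611327004672, .ofNat 0⟩)
    (by decide +kernel)
theorem L01037 : Good (Phi V5.P V5.D 1 1) ⟨5, 23, 4, 0, 3, 7, 3, 7, 5, 1⟩ :=
  leafX_sound T5.ok_pp T5.Ypp.bz_eq (w := 240) (c := ⟨⟨.negSucc 7510, .negSucc 972, .ofNat 1152, .ofNat 2207, .negSucc 2580, .negSucc 1199⟩, ⟨.negSucc 1164, .negSucc 335, .ofNat 83, .ofNat 434, .negSucc 509, .negSucc 296⟩, ⟨.ofNat 4535, .ofNat 449, .negSucc 288, .negSucc 2298, .ofNat 1550, .ofNat 579⟩, ⟨.negSucc 13269, .negSucc 1304, .ofNat 1637, .ofNat 3896, .negSucc 4547, .negSucc 2014⟩, ⟨.ofNat 1715, .ofNat 1, .ofNat 1268, .negSucc 496, .ofNat 463, .negSucc 211⟩, .ofNat 527, .negSucc 430, .ofNat 0, .negSucc 430, .ofNat 1976, .ofNat 0, .ofNat 128, .ofNat 252,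 .negSucc 337, .ofNat 0, .ofNat 120, .negSucc 72, .ofNat 0, .ofNat 0, .ofNat 220, .ofNat 127, .ofNat 0, .ofNat 0, .ofNat 1197202180472366271783926523184214777528320, .ofNat 0, .ofNat 0, .ofNat 0, .ofNat 4250829846826439473578459330705555778961408, .ofNat 0, .ofNat 0, .ofNat 1270742237952183293678684188433624486700904349696, .ofNat 10568464119864381749834209447793229029179392, .ofNat 0, .ofNat 0, .ofNat 215769454491500616715350653118615628207869657088, .ofNat 6906825122263487135372063880347183220785152, .ofNat 0⟩)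
    (by decide +kernel)
theorem L01038 : Good (Phi V5.P V5.D 1 1) ⟨4, 10, 4, 1, 2, 2, 2, 3, 4, 0⟩ :=
  leafX_sound T5.ok_pp T5.Ypp.bz_eq (w := 211) (c := ⟨⟨.ofNat 433, .negSucc 230, .negSucc 102, .negSucc 859, .negSucc 1644, .negSucc 1564⟩, ⟨.ofNat 153, .negSucc 82, .negSucc 114, .negSucc 71, .negSucc 235, .negSucc 331⟩, ⟨.negSucc 141, .ofNat 229, .ofNat 62, .ofNat 499, .ofNat 2031, .ofNat 1134⟩, ⟨.ofNat 742, .negSucc 339, .negSucc 210, .negSucc 1891, .negSucc 3277, .negSucc 2848⟩, ⟨.negSucc 46, .ofNat 269, .ofNat 91, .ofNat 1593, .ofNat 1277, .negSucc 368⟩, .ofNat 543, .negSucc 514, .ofNat 0, .negSucc 514, .ofNat 2864, .ofNat 0, .ofNat 137, .ofNat 128, .negSucc 351, .ofNat 0, .ofNat 74, .negSucc 56, .ofNat 0, .ofNat 0, .ofNat 420, .ofNat 125, .ofNat 0, .ofNat 0, .ofNat 0, .ofNat 0, .ofNat 0, .ofNat 247282602505631364217903000758481907089408, .ofNat 0, .ofNat 0, .ofNat 0,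 .ofNat 0, .ofNat 0, .ofNat 0, .ofNat 0, .ofNat 0, .ofNat 0, .ofNat 0⟩)
    (by decide +kernel)
theorem L01039 : Good (Phi V5.P V5.D 1 1) ⟨4, 11, 4, 1, 2, 2, 2, 3, 4, 0⟩ :=
  leafX_sound T5.ok_pp T5.Ypp.bz_eq (w := 211) (c := ⟨⟨.ofNat 1004, .negSucc 672, .negSucc 105, .negSucc 1369, .negSucc 2497, .negSucc 2318⟩, ⟨.ofNat 352, .negSucc 165, .negSucc 120, .negSucc 161, .negSucc 447, .negSucc 681⟩, ⟨.negSucc 440, .ofNat 514, .ofNat 78, .ofNat 808, .ofNat 2737, .ofNat 1524⟩, ⟨.ofNat 1627, .negSucc 1005, .negSucc 279, .negSucc 2786, .negSucc 4706, .negSucc 3783⟩, ⟨.ofNat 303, .ofNat 96, .ofNat 92, .ofNat 1642, .ofNat 1779, .negSucc 977⟩, .ofNat 564, .negSucc 546, .ofNat 0, .negSucc 546, .ofNat 2310, .ofNat 0, .ofNat 128, .ofNat 172, .negSucc 407, .ofNat 0, .ofNat 108, .negSucc 86, .ofNat 0, .ofNat 0, .ofNat 421, .ofNat 43, .ofNat 0, .ofNat 0, .ofNat 0, .ofNat 0, .ofNat 0, .ofNat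 17524719970854627407231498680420383326208, .ofNat 31744744804869202605509030545719296, .ofNat 0, .ofNat 0, .ofNat 142372030334085450128537412887769031639040, .ofNat 4516308597941795518145554732730548224, .ofNat 0, .ofNat 0, .ofNat 0, .ofNat 0, .ofNat 0⟩)
    (by decide +kernel)
theorem L01040 : Good (Phi V5.P V5.D 1 1) ⟨4, 10, 4, 1, 2, 3, 2, 3, 4, 0⟩ :=
  leafX_sound T5.ok_pp T5.Ypp.bz_eq (w := 212) (c := ⟨⟨.negSucc 1156, .negSucc 665, .ofNat 5, .ofNat 251, .negSucc 1772, .negSucc 1602⟩, ⟨.negSucc 27, .negSucc 147, .negSucc 139, .ofNat 96, .negSucc 217, .negSucc 388⟩, ⟨.ofNat 1329, .ofNat 361, .ofNat 49, .negSucc 999, .ofNat 1720, .ofNat 772⟩, ⟨.negSucc 2524, .negSucc 1034, .negSucc 214, .ofNat 341, .negSucc 3706, .negSucc 2771⟩, ⟨.ofNat 1590, .ofNat 296, .ofNat 527, .ofNat 415, .ofNat 2397, .negSucc 841⟩, .ofNat 582, .negSucc 648, .ofNat 0, .negSucc 648, .ofNat 3489, .ofNat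 0, .ofNat 128, .ofNat 242, .negSucc 451, .ofNat 0, .ofNat 106, .negSucc 73, .ofNat 0, .ofNat 0, .ofNat 422, .ofNat 175, .ofNat 0, .ofNat 0, .ofNat 0, .ofNat 0, .ofNat 0, .ofNat 0, .ofNat 0, .ofNat 0, .ofNat 0, .ofNat 0, .ofNat 0, .ofNat 0, .ofNat 0, .ofNat 0, .ofNat 0, .ofNat 0⟩)
    (by decide +kernel)
theorem L01041 : Good (Phi V5.P V5.D 1 1) ⟨5, 22, 4, 1, 3, 6, 2, 3, 4, 0⟩ :=
  leafX_sound T5.ok_pp T5.Ypp.bz_eq (w := 230) (c := ⟨⟨.negSucc 179, .negSucc 700, .ofNat 82, .negSucc 1578, .negSucc 2664, .negSucc 2944⟩, ⟨.ofNat 211, .negSucc 171, .negSucc 157, .negSucc 292, .negSucc 385, .negSucc 773⟩, ⟨.ofNat 463, .ofNat 399, .negSucc 26, .ofNat 590, .ofNat 2718, .ofNat 1651⟩, ⟨.negSucc 758, .negSucc 1096, .negSucc 30, .negSucc 2926, .negSucc 5215, .negSucc 4880⟩, ⟨.ofNat 1744, .negSucc 20, .ofNat 323, .ofNat 776, .ofNat 2471, .negSucc 1197⟩, .ofNat 575, .negSucc 589, .ofNat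 0, .negSucc 589, .ofNat 2628, .ofNat 0, .ofNat 128, .ofNat 172, .negSucc 494, .ofNat 0, .ofNat 85, .negSucc 101, .ofNat 0, .ofNat 0, .ofNat 403, .ofNat 92, .ofNat 0, .ofNat 0, .ofNat 0, .ofNat 0, .ofNat 0, .ofNat 0, .ofNat 0, .ofNat 0, .ofNat 0, .ofNat 0, .ofNat 0, .ofNat 0, .ofNat 0, .ofNat 0, .ofNat 0, .ofNat 0⟩)
    (by decide +kernel)
theorem L01042 : Good (Phi V5.P V5.D 1 1) ⟨6, 46, 4, 1, 3, 6, 2, 3, 4, 0⟩ :=
  leafX_sound T5.ok_pp T5.Ypp.bz_eq (w := 234) (c := ⟨⟨.negSucc 150, .negSucc 768, .ofNat 125, .negSucc 2187, .negSucc 3383, .negSucc 3686⟩, ⟨.ofNat 312, .negSucc 218, .negSucc 166, .negSucc 481, .negSucc 573, .negSucc 1057⟩, ⟨.ofNat 560, .ofNat 353, .negSucc 57, .ofNat 807, .ofNat 3181, .ofNat 2034⟩, ⟨.negSucc 725, .negSucc 1180, .ofNat 47, .negSucc 3909, .negSucc 6395, .negSucc 6031⟩, ⟨.ofNat 1859, .negSucc 159, .ofNat 316, .ofNat 741, .ofNat 2576, .negSucc 1273⟩,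 .ofNat 520, .negSucc 435, .ofNat 0, .negSucc 435, .ofNat 1846, .ofNat 0, .ofNat 128, .ofNat 213, .negSucc 596, .ofNat 0, .ofNat 114, .negSucc 134, .ofNat 0, .ofNat 0, .ofNat 456, .ofNat 63, .ofNat 0, .ofNat 0, .ofNat 0, .ofNat 0, .ofNat 0, .ofNat 0, .ofNat 0, .ofNat 0, .ofNat 0, .ofNat 0, .ofNat 2064965615467516382007019292369207951360, .ofNat 0, .ofNat 0, .ofNat 0, .ofNat 0, .ofNat 0⟩)
    (by decide +kernel)
theorem L01043 : Good (Phi V5.P V5.D 1 1) ⟨6, 47, 4, 1, 3, 6, 2, 3, 4, 0⟩ :=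
  leafX_sound T5.ok_pp T5.Ypp.bz_eq (w := 235) (c := ⟨⟨.negSucc 1027, .negSucc 1163, .ofNat 955, .negSucc 2340, .negSucc 4223, .negSucc 3781⟩, ⟨.ofNat 123, .negSucc 358, .ofNat 49, .negSucc 522, .negSucc 851, .negSucc 1133⟩, ⟨.ofNat 1102, .ofNat 523, .negSucc 470, .ofNat 867, .ofNat 3665, .ofNat 2039⟩, ⟨.negSucc 2077, .negSucc 1881, .ofNat 1382, .negSucc 4218, .negSucc 7736, .negSucc 6143⟩, ⟨.ofNat 1375, .negSucc 22, .ofNat 591, .ofNat 1039, .ofNat 2531, .negSucc 976⟩, .ofNat 511, .negSucc 408, .ofNat 0, .negSucc 408, .ofNat 1650, .ofNat 0, .ofNat 128, .ofNat 290, .negSucc 763, .ofNat 0, .ofNat 159, .negSucc 186, .ofNat 0, .ofNat 0, .ofNat 531, .ofNat 98, .ofNat 0, .ofNat 0, .ofNat 0, .ofNat 0, .ofNat 0, .ofNat 0, .ofNat 1437444971129817957895364187388517548032, .ofNat 0, .ofNat 0, .ofNat 0, .ofNat 4777712057962558979053867153755268448256, .ofNat 0, .ofNat 0, .ofNat 652203598811651989688359682010281474791370129408,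 .ofNat 6613184508228476162493500880747258445824, .ofNat 0⟩)
    (by decide +kernel)
theorem L01044 : Good (Phi V5.P V5.D 1 1) ⟨5, 22, 4, 1, 3, 7, 2, 3, 5, 0⟩ :=
  leafX_sound T5.ok_pp T5.Ypp.bz_eq (w := 235) (c := ⟨⟨.negSucc 3119, .negSucc 378, .ofNat 139, .ofNat 1622, .negSucc 1603, .negSucc 689⟩, ⟨.negSucc 422, .negSucc 62, .negSucc 117, .ofNat 367, .negSucc 132, .negSucc 219⟩, ⟨.ofNat 2058, .ofNat 182, .negSucc 45, .negSucc 1352, .ofNat 1673, .ofNat 236⟩, ⟨.negSucc 5954, .negSucc 628, .negSucc 5, .ofNat 2853, .negSucc 3418, .negSucc 1098⟩, ⟨.ofNat 2178, .ofNat 310, .ofNat 578, .negSucc 125, .ofNat 2643, .negSucc 559⟩, .ofNat 578, .negSucc 599, .ofNat 0, .negSucc 599, .ofNat 2639, .ofNat 0, .ofNat 128, .ofNat 326, .negSucc 427, .ofNat 0, .ofNat 147, .negSucc 90, .ofNat 0, .ofNat 0, .ofNat 309, .ofNat 84, .ofNat 0, .ofNat 0, .ofNat 0, .ofNat 0, .ofNat 0, .ofNat 0, .ofNat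 0, .ofNat 0, .ofNat 0, .ofNat 0, .ofNat 0, .ofNat 0, .ofNat 0, .ofNat 0, .ofNat 0, .ofNat 0⟩)
    (by decide +kernel)
theorem L01045 : Good (Phi V5.P V5.D 1 1) ⟨5, 23, 4, 1, 3, 7, 3, 6, 5, 0⟩ :=
  leafX_sound T5.ok_pp T5.Ypp.bz_eq (w := 239) (c := ⟨⟨.negSucc 4301, .negSucc 697, .ofNat 264, .ofNat 2902, .negSucc 1378, .negSucc 1003⟩, ⟨.negSucc 717, .negSucc 179, .negSucc 72, .ofNat 775, .negSucc 240, .negSucc 356⟩, ⟨.ofNat 2651, .ofNat 206, .negSucc 2, .negSucc 1887, .ofNat 997, .ofNat 286⟩, ⟨.negSucc 7871, .negSucc 1122, .ofNat 234, .ofNat 4862, .negSucc 2632, .negSucc 1521⟩, ⟨.ofNat 2193, .ofNat 96, .ofNat 671, .ofNat 174, .ofNat 1067, .negSucc 632⟩, .ofNat 522, .negSucc 440, .ofNat 0, .negSucc 440, .ofNat 1799, .ofNat 0, .ofNat 128, .ofNat 156, .negSucc 509, .ofNat 0, .ofNat 75, .negSucc 122, .ofNat 0, .ofNat 0, .ofNat 323, .ofNat 68, .ofNat 0, .ofNat 0, .ofNat 0, .ofNat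 0, .ofNat 0, .ofNat 0, .ofNat 0, .ofNat 0, .ofNat 0, .ofNat 0, .ofNat 2892469642476109349363355796291016602943488, .ofNat 0, .ofNat 0, .ofNat 0, .ofNat 6409435983555857647177257061931576085970944, .ofNat 0⟩)
    (by decide +kernel)
theorem L01046 : Good (Phi V5.P V5.D 1 1) ⟨5, 23, 4, 1, 4, 14, 3, 7, 5, 0⟩ :=
  leafX_sound T5.ok_pp T5.Ypp.bz_eq (w := 254) (c := ⟨⟨.negSucc 4879, .negSucc 2209, .ofNat 752, .ofNat 644, .ofNat 104, .negSucc 1776⟩, ⟨.negSucc 687, .negSucc 622, .negSucc 9, .ofNat 164, .ofNat 271, .negSucc 568⟩, ⟨.ofNat 3403, .ofNat 1045, .negSucc 296, .negSucc 803, .ofNat 708, .ofNat 718⟩, ⟨.negSucc 9174, .negSucc 3425, .ofNat 883, .ofNat 1104, .negSucc 360, .negSucc 2765⟩, ⟨.ofNat 3492, .negSucc 199, .ofNat 942, .negSucc 282, .ofNat 2264, .negSucc 1075⟩, .ofNat 515, .negSucc 420, .ofNat 0, .negSucc 420, .ofNat 1741, .ofNat 0, .ofNat 128, .ofNat 431, .negSucc 942,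 .ofNat 0, .ofNat 211, .negSucc 242, .ofNat 0, .ofNat 0, .ofNat 544, .ofNat 228, .ofNat 0, .ofNat 0, .ofNat 0, .ofNat 0, .ofNat 0, .ofNat 110020299054888424146131079247748617663856217423872, .ofNat 6406168589359292832864871526658326734133264384, .ofNat 0, .ofNat 0, .ofNat 0, .ofNat 430004431397846767779318592464664262356733263872, .ofNat 0, .ofNat 0, .ofNat 4247069696814185149283895971023268473586657320239104, .ofNat 358313347453539683496133200367779047488608010240, .ofNat 0⟩)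
    (by decide +kernel)
theorem L01047 : Good (Phi V5.P V5.D 1 1) ⟨5, 23, 4, 1, 4, 15, 3, 7, 5, 0⟩ :=
  leafX_sound T5.ok_pp T5.Ypp.bz_eq (w := 254) (c := ⟨⟨.negSucc 4622, .negSucc 578, .ofNat 549, .ofNat 2142, .negSucc 236, .negSucc 1674⟩, ⟨.negSucc 684, .negSucc 99, .negSucc 10, .ofNat 572, .ofNat 159, .negSucc 542⟩, ⟨.ofNat 2900, .ofNat 239, .negSucc 157, .negSucc 1309, .ofNat 723, .ofNat 496⟩, ⟨.negSucc 8705, .negSucc 903, .ofNat 564, .ofNat 3627, .negSucc 887, .negSucc 2569⟩, ⟨.ofNat 3607, .ofNat 51, .ofNat 879, .negSucc 6, .ofNat 1904, .negSucc 1222⟩, .ofNat 549, .negSucc 502, .ofNat 0, .negSucc 502, .ofNat 2017, .ofNat 0, .ofNat 128, .ofNat 552, .negSucc 648, .ofNat 0, .ofNat 255, .negSucc 165, .ofNat 0, .ofNat 0, .ofNat 373, .ofNat 93, .ofNat 0, .ofNat 0, .ofNat 939225794228213162025513152286100771194273792, .ofNat 0, .ofNat 0, .ofNat 0, .ofNat 0, .ofNat 0, .ofNat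 0, .ofNat 0, .ofNat 577357947635309367529514009208497626897113415680, .ofNat 0, .ofNat 0, .ofNat 0, .ofNat 247619018417771190835231366734576999389647077376, .ofNat 0⟩)
    (by decide +kernel)
theorem L01048 : Good (Phi V5.P V5.D 1 1) ⟨4, 11, 4, 1, 3, 7, 3, 6, 5, 1⟩ :=
  leafX_sound T5.ok_pp T5.Ypp.bz_eq (w := 236) (c := ⟨⟨.negSucc 4366, .negSucc 1836, .ofNat 437, .ofNat 2462, .negSucc 1289, .negSucc 884⟩, ⟨.negSucc 727, .negSucc 520, .negSucc 59, .ofNat 611, .negSucc 224, .negSucc 233⟩, ⟨.ofNat 2694, .ofNat 709, .negSucc 147, .negSucc 1868, .ofNat 1012, .ofNat 449⟩, ⟨.negSucc 8105, .negSucc 2822, .ofNat 529, .ofNat 4284, .negSucc 2442, .negSucc 1521⟩, ⟨.ofNat 2112, .ofNat 207, .ofNat 547, .negSucc 527, .ofNat 907, .negSucc 197⟩, .ofNat 528, .negSucc 462, .ofNat 0, .negSucc 462, .ofNat 2013, .ofNat 0, .ofNat 128, .ofNat 262, .negSucc 506, .ofNat 0, .ofNat 128, .negSucc 103,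 .ofNat 0, .ofNat 0, .ofNat 391, .ofNat 320, .ofNat 0, .ofNat 0, .ofNat 0, .ofNat 0, .ofNat 0, .ofNat 0, .ofNat 0, .ofNat 0, .ofNat 0, .ofNat 0, .ofNat 39867832395365997234262689038382459265220608, .ofNat 0, .ofNat 0, .ofNat 0, .ofNat 30445672728059894035941425592151126122168320, .ofNat 0⟩)
    (by decide +kernel)
theorem L01049 : Good (Phi V5.P V5.D 1 1) ⟨5, 22, 4, 1, 3, 7, 3, 7, 5, 1⟩ :=
  leafX_sound T5.ok_pp T5.Ypp.bz_eq (w := 240) (c := ⟨⟨.negSucc 4826, .negSucc 1012, .ofNat 471, .ofNat 1616, .negSucc 1398, .negSucc 1163⟩, ⟨.negSucc 706, .negSucc 263, .negSucc 95, .ofNat 368, .negSucc 192, .negSucc 314⟩, ⟨.ofNat 3396, .ofNat 424, .negSucc 183, .negSucc 1693, .ofNat 1199, .ofNat 551⟩, ⟨.negSucc 9172, .negSucc 1551, .ofNat 553, .ofNat 2833, .negSucc 2762, .negSucc 1958⟩, ⟨.ofNat 2779, .negSucc 15, .ofNat 601, .negSucc 24, .ofNat 1444, .negSucc 289⟩, .ofNat 527, .negSucc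 462, .ofNat 0, .negSucc 462, .ofNat 2168, .ofNat 0, .ofNat 128, .ofNat 295, .negSucc 507, .ofNat 0, .ofNat 140, .negSucc 99, .ofNat 0, .ofNat 0, .ofNat 389, .ofNat 130, .ofNat 0, .ofNat 0, .ofNat 0, .ofNat 0, .ofNat 0, .ofNat 0, .ofNat 0, .ofNat 0, .ofNat 0, .ofNat 2857220500260097613505277663233103783791480012800, .ofNat 0, .ofNat 0, .ofNat 0, .ofNat 0, .ofNat 0, .ofNat 0⟩)
    (by decide +kernel)
theorem L01050 : Good (Phi V5.P V5.D 1 1) ⟨5, 23, 4, 1, 3, 7, 3, 7, 5, 1⟩ :=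
  leafX_sound T5.ok_pp T5.Ypp.bz_eq (w := 240) (c := ⟨⟨.negSucc 6979, .negSucc 1707, .ofNat 1225, .ofNat 2892, .negSucc 2120, .negSucc 1278⟩, ⟨.negSucc 1277, .negSucc 513, .ofNat 119, .ofNat 718, .negSucc 437, .negSucc 354⟩, ⟨.ofNat 4472, .ofNat 696, .negSucc 391, .negSucc 2599, .ofNat 1451, .ofNat 634⟩, ⟨.negSucc 12577, .negSucc 2570, .ofNat 1656, .ofNat 4982, .negSucc 3828, .negSucc 2140⟩, ⟨.ofNat 2543, .ofNat 99, .ofNat 1223, .negSucc 502, .ofNat 888, .negSucc 20⟩, .ofNat 578, .negSucc 572, .ofNat 0, .negSucc 572, .ofNat 2238, .ofNat 0, .ofNat 128, .ofNat 281, .negSucc 446, .ofNat 0, .ofNat 137, .negSucc 106, .ofNat 0, .ofNat 0, .ofNat 302, .ofNat 123, .ofNat 0, .ofNat 0, .ofNat 632315705598632453861375216165162428923904, .ofNat 0, .ofNat 0, .ofNat 0, .ofNat 0, .ofNat 0, .ofNat 0, .ofNat 1212969968969408442478034407460984102898204934144, .ofNat 12431927511890575000480376674878635661852672,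 .ofNat 0, .ofNat 0, .ofNat 285829629070098989934166819451687918790581944320, .ofNat 8291308265930003199894437071243742573232128, .ofNat 0⟩)
    (by decide +kernel)
theorem L01051 : Good (Phi V5.P V5.D 1 1) ⟨3, 5, 3, 0, 2, 2, 3, 6, 4, 1⟩ :=
  leafX_sound T5.ok_pp T5.Ypp.bz_eq (w := 208) (c := ⟨⟨.negSucc 694, .negSucc 1345, .negSucc 59, .negSucc 1970, .negSucc 998, .negSucc 888⟩, ⟨.ofNat 128, .negSucc 586, .negSucc 248, .negSucc 318, .negSucc 183, .negSucc 227⟩, ⟨.ofNat 802, .ofNat 945, .ofNat 71, .ofNat 1036, .ofNat 1053, .ofNat 701⟩, ⟨.negSucc 1492, .negSucc 1752, .negSucc 116, .negSucc 3721, .negSucc 1874, .negSucc 1505⟩, ⟨.negSucc 600, .ofNat 534, .ofNat 190, .ofNat 1156, .ofNat 454, .negSucc 437⟩, .ofNat 430, .negSucc 235, .ofNat 0, .negSucc 235, .ofNat 1348, .ofNat 0, .ofNat 200, .ofNat 128, .negSucc 290, .ofNat 0, .ofNat 104, .negSucc 39, .ofNat 0, .ofNat 0, .ofNat 382,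 .ofNat 192, .ofNat 0, .ofNat 0, .ofNat 0, .ofNat 0, .ofNat 0, .ofNat 0, .ofNat 36934688791925039625206564321084047360, .ofNat 0, .ofNat 0, .ofNat 0, .ofNat 131183967534204773472316792064001966080, .ofNat 0, .ofNat 0, .ofNat 0, .ofNat 0, .ofNat 0⟩)
    (by decide +kernel)
theorem L01052 : Good (Phi V5.P V5.D 1 1) ⟨4, 10, 3, 0, 2, 2, 3, 7, 4, 1⟩ :=
  leafX_sound T5.ok_pp T5.Ypp.bz_eq (w := 213) (c := ⟨⟨.negSucc 1046, .negSucc 1062, .ofNat 131, .negSucc 2245, .negSucc 1492, .negSucc 909⟩, ⟨.ofNat 72, .negSucc 320, .negSucc 293, .negSucc 316, .negSucc 255, .negSucc 241⟩, ⟨.ofNat 1410, .ofNat 760, .negSucc 55, .ofNat 1319, .ofNat 1554, .ofNat 627⟩, ⟨.negSucc 2008, .negSucc 1563, .ofNat 145, .negSucc 4420, .negSucc 2936, .negSucc 1625⟩, ⟨.negSucc 454, .ofNat 318, .ofNat 323, .ofNat 1414, .ofNat 821, .negSucc 666⟩, .ofNat 431, .negSucc 215, .ofNat 0, .negSucc 215, .ofNat 1477, .ofNat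 0, .ofNat 270, .ofNat 128, .negSucc 430, .ofNat 0, .ofNat 100, .negSucc 49, .ofNat 0, .ofNat 0, .ofNat 505, .ofNat 243, .ofNat 0, .ofNat 0, .ofNat 0, .ofNat 0, .ofNat 0, .ofNat 414213772003891949016053383017454148517888, .ofNat 0, .ofNat 0, .ofNat 0, .ofNat 0, .ofNat 0, .ofNat 0, .ofNat 0, .ofNat 1034997146744461131588234660018381056376832, .ofNat 0, .ofNat 0⟩)
    (by decide +kernel)
theorem L01053 : Good (Phi V5.P V5.D 1 1) ⟨4, 11, 3, 0, 2, 2, 3, 7, 4, 1⟩ :=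
  leafX_sound T5.ok_pp T5.Ypp.bz_eq (w := 212) (c := ⟨⟨.negSucc 1680, .negSucc 1673, .ofNat 132, .negSucc 2825, .negSucc 2202, .negSucc 740⟩, ⟨.negSucc 3, .negSucc 677, .negSucc 314, .negSucc 512, .negSucc 464, .negSucc 261⟩, ⟨.ofNat 1953, .ofNat 1186, .negSucc 97, .ofNat 1569, .ofNat 2069, .ofNat 470⟩, ⟨.negSucc 3081, .negSucc 2404, .ofNat 135, .negSucc 5322, .negSucc 3972, .negSucc 1068⟩, ⟨.negSucc 347, .ofNat 421, .ofNat 379, .ofNat 1633, .ofNat 751, .negSucc 882⟩, .ofNat 477, .negSucc 339, .ofNat 0, .negSucc 339, .ofNat 1595, .ofNat 0, .ofNat 175, .ofNat 128, .negSucc 353, .ofNat 0, .ofNat 91, .negSucc 64, .ofNat 0, .ofNat 0, .ofNat 400, .ofNat 60, .ofNat 0, .ofNat 0, .ofNat 943370451814083418689783259774058496, .ofNat 0, .ofNat 0, .ofNat 247004787483934225353499247861201356455936, .ofNat 7130055163721465670791419143666008064, .ofNat 0, .ofNat 0, .ofNat 173139159648314935493800916781125704089600,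 .ofNat 21046838651881405263106351169712160768, .ofNat 0, .ofNat 0, .ofNat 612797121894467062908882187673414750175232, .ofNat 24476625732673420762383545684652457984, .ofNat 0⟩)
    (by decide +kernel)
theorem L01054 : Good (Phi V5.P V5.D 1 1) ⟨4, 10, 3, 0, 3, 6, 2, 3, 5, 2⟩ :=
  leafX_sound T5.ok_pp T5.Ypp.bz_eq (w := 228) (c := ⟨⟨.negSucc 2031, .negSucc 1330, .ofNat 213, .negSucc 971, .negSucc 2340, .negSucc 748⟩, ⟨.negSucc 75, .negSucc 354, .negSucc 351, .negSucc 96, .negSucc 252, .negSucc 148⟩, ⟨.ofNat 1574, .ofNat 707, .negSucc 62, .ofNat 187, .ofNat 2463, .ofNat 527⟩, ⟨.negSucc 4021, .negSucc 2027, .ofNat 142, .negSucc 1903, .negSucc 4638, .negSucc 1317⟩, ⟨.ofNat 387, .ofNat 207, .ofNat 618, .ofNat 741, .ofNat 1844, .negSucc 388⟩, .ofNat 432, .negSucc 219, .ofNat 0, .negSucc 219, .ofNat 1484, .ofNat 0, .ofNat 241, .ofNat 128, .negSucc 501, .ofNat 0, .ofNat 81, .negSucc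 58, .ofNat 0, .ofNat 0, .ofNat 491, .ofNat 285, .ofNat 0, .ofNat 0, .ofNat 0, .ofNat 0, .ofNat 0, .ofNat 0, .ofNat 0, .ofNat 0, .ofNat 0, .ofNat 0, .ofNat 0, .ofNat 0, .ofNat 0, .ofNat 7069996699164590068337424275589625567504236544, .ofNat 0, .ofNat 0⟩)
    (by decide +kernel)
theorem L01055 : Good (Phi V5.P V5.D 1 1) ⟨4, 10, 3, 0, 3, 7, 2, 3, 5, 2⟩ :=
  leafX_sound T5.ok_pp T5.Ypp.bz_eq (w := 227) (c := ⟨⟨.negSucc 3486, .negSucc 1185, .ofNat 404, .ofNat 721, .negSucc 1844, .negSucc 482⟩, ⟨.negSucc 263, .negSucc 330, .negSucc 292, .ofNat 125, .negSucc 174, .negSucc 80⟩, ⟨.ofNat 2293, .ofNat 522, .negSucc 172, .negSucc 1098, .ofNat 1675, .ofNat 389⟩, ⟨.negSucc 6764, .negSucc 1730, .ofNat 362, .ofNat 1246, .negSucc 3676, .negSucc 895⟩, ⟨.ofNat 1019, .ofNat 17, .ofNat 1066, .ofNat 257, .ofNat 1680, .negSucc 23⟩, .ofNat 514, .negSucc 402, .ofNat 0, .negSucc 402, .ofNat 2518, .ofNat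 0, .ofNat 157, .ofNat 128, .negSucc 290, .ofNat 0, .ofNat 64, .negSucc 37, .ofNat 0, .ofNat 0, .ofNat 294, .ofNat 90, .ofNat 0, .ofNat 0, .ofNat 0, .ofNat 0, .ofNat 0, .ofNat 0, .ofNat 0, .ofNat 0, .ofNat 0, .ofNat 862464382340753963153439095570203104885342208, .ofNat 0, .ofNat 0, .ofNat 0, .ofNat 0, .ofNat 0, .ofNat 0⟩)
    (by decide +kernel)
theorem L01056 : Good (Phi V5.P V5.D 1 1) ⟨4, 11, 3, 0, 3, 6, 3, 6, 5, 2⟩ :=
  leafX_sound T5.ok_pp T5.Ypp.bz_eq (w := 232) (c := ⟨⟨.negSucc 3316, .negSucc 2348, .ofNat 150, .negSucc 1347, .negSucc 1294, .negSucc 230⟩, ⟨.negSucc 317, .negSucc 753, .negSucc 397, .negSucc 212, .negSucc 226, .negSucc 66⟩, ⟨.ofNat 2291, .ofNat 1344, .negSucc 31, .ofNat 330, .ofNat 1250, .ofNat 270⟩, ⟨.negSucc 5973, .negSucc 3576, .ofNat 48, .negSucc 2613, .negSucc 2438, .negSucc 364⟩, ⟨.ofNat 295, .ofNat 492, .ofNat 654, .ofNat 1000, .ofNat 702, .negSucc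 357⟩, .ofNat 429, .negSucc 253, .ofNat 0, .negSucc 253, .ofNat 1242, .ofNat 0, .ofNat 189, .ofNat 128, .negSucc 449, .ofNat 0, .ofNat 80, .negSucc 78, .ofNat 0, .ofNat 0, .ofNat 395, .ofNat 273, .ofNat 0, .ofNat 0, .ofNat 0, .ofNat 0, .ofNat 0, .ofNat 0, .ofNat 10147150192696341081991142975992291261415424, .ofNat 0, .ofNat 0, .ofNat 0, .ofNat 8432085557988717348646845314267855429042176, .ofNat 0, .ofNat 0, .ofNat 0, .ofNat 14572813472320872821747964269312735174459392, .ofNat 0⟩)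
    (by decide +kernel)
theorem L01057 : Good (Phi V5.P V5.D 1 1) ⟨4, 11, 3, 0, 3, 6, 3, 7, 5, 2⟩ :=
  leafX_sound T5.ok_pp T5.Ypp.bz_eq (w := 232) (c := ⟨⟨.negSucc 5300, .negSucc 3083, .ofNat 721, .negSucc 571, .negSucc 2342, .ofNat 98⟩, ⟨.negSucc 631, .negSucc 936, .negSucc 373, .negSucc 10, .negSucc 406, .negSucc 11⟩, ⟨.ofNat 4117, .ofNat 1671, .negSucc 256, .negSucc 366, .ofNat 2024, .negSucc 4⟩, ⟨.negSucc 9591, .negSucc 4645, .ofNat 867, .negSucc 1289, .negSucc 4363, .ofNat 277⟩, ⟨.ofNat 767, .ofNat 409, .ofNat 1076, .ofNat 1143, .ofNat 1520, .negSucc 561⟩, .ofNat 500, .negSucc 376, .ofNat 0, .negSucc 376, .ofNat 1778, .ofNat 0, .ofNat 128, .ofNat 162, .negSucc 540, .ofNat 0, .ofNat 92, .negSucc 101, .ofNat 0, .ofNat 0, .ofNat 451, .ofNat 70, .ofNat 0, .ofNat 0, .ofNat 645607043333974348451493168794665624797184, .ofNat 0, .ofNat 0, .ofNat 719501085569540001583140137423153741994917888,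 .ofNat 3198923617659820670016325534848357509365760, .ofNat 0, .ofNat 0, .ofNat 5671034301398229983898284769061230146188476416, .ofNat 14265276289131359010169168825995877440028672, .ofNat 0, .ofNat 0, .ofNat 0, .ofNat 18982273521505915492405758219227364042211328, .ofNat 0⟩)
    (by decide +kernel)
theorem L01058 : Good (Phi V5.P V5.D 1 1) ⟨4, 11, 3, 0, 3, 7, 3, 6, 5, 2⟩ :=
  leafX_sound T5.ok_pp T5.Ypp.bz_eq (w := 232) (c := ⟨⟨.negSucc 5691, .negSucc 1436, .ofNat 659, .ofNat 2072, .negSucc 1159, .negSucc 223⟩, ⟨.negSucc 882, .negSucc 444, .negSucc 205, .ofNat 533, .negSucc 200, .negSucc 25⟩, ⟨.ofNat 3299, .ofNat 622, .negSucc 213, .negSucc 1748, .ofNat 934, .ofNat 268⟩, ⟨.negSucc 10182, .negSucc 2105, .ofNat 730, .ofNat 3500, .negSucc 2209, .negSucc 341⟩, ⟨.ofNat 993, .ofNat 341, .ofNat 1195, .ofNat 105, .ofNat 896, .negSucc 129⟩, .ofNat 427, .negSucc 242, .ofNat 0, .negSucc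 242, .ofNat 1248, .ofNat 0, .ofNat 145, .ofNat 128, .negSucc 303, .ofNat 0, .ofNat 75, .negSucc 48, .ofNat 0, .ofNat 0, .ofNat 262, .ofNat 209, .ofNat 0, .ofNat 0, .ofNat 559877119773428937957263677712434716475392, .ofNat 0, .ofNat 0, .ofNat 0, .ofNat 4271188730413781714074195752508734773919744, .ofNat 0, .ofNat 0, .ofNat 0, .ofNat 6020713107344762288961037763120565307047936, .ofNat 0, .ofNat 0, .ofNat 0, .ofNat 7099817541606852106627858970106747500363776, .ofNat 0⟩)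
    (by decide +kernel)
theorem L01059 : Good (Phi V5.P V5.D 1 1) ⟨5, 22, 3, 0, 3, 7, 4, 14, 6, 4⟩ :=
  leafX_sound T5.ok_pp T5.Ypp.bz_eq (w := 246) (c := ⟨⟨.negSucc 6347, .negSucc 976, .ofNat 999, .ofNat 1360, .negSucc 879, .negSucc 229⟩, ⟨.negSucc 836, .negSucc 290, .negSucc 190, .ofNat 286, .negSucc 145, .negSucc 55⟩, ⟨.ofNat 4136, .ofNat 415, .negSucc 299, .negSucc 1709, .ofNat 617, .ofNat 160⟩, ⟨.negSucc 11607, .negSucc 1377, .ofNat 1246, .ofNat 2343, .negSucc 1571, .negSucc 409⟩, ⟨.ofNat 2052, .negSucc 184, .ofNat 1447, .negSucc 136, .ofNat 158, .ofNat 32⟩, .ofNat 542, .negSucc 483, .ofNat 0, .negSucc 483, .ofNat 2344, .ofNat 0, .ofNat 128, .ofNat 158, .negSucc 306, .ofNat 0, .ofNat 78, .negSucc 54, .ofNat 0, .ofNat 0, .ofNat 255, .ofNat 269, .ofNat 0, .ofNat 0, .ofNat 0, .ofNat 0, .ofNat 0, .ofNat 0, .ofNat 0, .ofNat 0, .ofNat 0, .ofNat 0, .ofNat 1190669490963545704110514810585185643128684544,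 .ofNat 0, .ofNat 0, .ofNat 0, .ofNat 0, .ofNat 0⟩)
    (by decide +kernel)
theorem L01060 : Good (Phi V5.P V5.D 1 1) ⟨5, 22, 3, 0, 3, 7, 4, 15, 6, 4⟩ :=
  leafX_sound T5.ok_pp T5.Ypp.bz_eq (w := 246) (c := ⟨⟨.negSucc 6899, .negSucc 1382, .ofNat 1348, .ofNat 930, .negSucc 1288, .negSucc 226⟩, ⟨.negSucc 827, .negSucc 413, .negSucc 172, .ofNat 135, .negSucc 258, .negSucc 43⟩, ⟨.ofNat 4772, .ofNat 533, .negSucc 401, .negSucc 1791, .ofNat 796, .ofNat 162⟩, ⟨.negSucc 12706, .negSucc 2008, .ofNat 1748, .ofNat 1722, .negSucc 2324, .negSucc 411⟩, ⟨.ofNat 2660, .negSucc 469, .ofNat 1811, .negSucc 636, .ofNat 225, .ofNat 79⟩, .ofNat 511, .negSucc 408, .ofNat 0, .negSucc 408, .ofNat 2014, .ofNat 0, .ofNat 128, .ofNat 198, .negSucc 236, .ofNat 0, .ofNat 98, .negSucc 43, .ofNat 0, .ofNat 0, .ofNat 191, .ofNat 151, .ofNat 0, .ofNat 1197401338895805272905769153784241804762656276480, .ofNat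 74871548225354765112542928548093788896100352, .ofNat 0, .ofNat 0, .ofNat 0, .ofNat 535321037965778936559548106991880506794049536, .ofNat 0, .ofNat 0, .ofNat 3370625415780073146725135002431669178711033249792, .ofNat 1917447786489940711316065996340501653466644480, .ofNat 0, .ofNat 0, .ofNat 2303942877260955403958146074938975931226208075776, .ofNat 636611887679586881488778991413652709626085376, .ofNat 0⟩)
    (by decide +kernel)
theorem L01061 : Good (Phi V5.P V5.D 1 1) ⟨5, 23, 4, 0, 3, 7, 3, 7, 6, 4⟩ :=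
  leafX_sound T5.ok_pp T5.Ypp.bz_eq (w := 245) (c := ⟨⟨.negSucc 8207, .negSucc 1282, .ofNat 837, .ofNat 1891, .negSucc 2103, .negSucc 15⟩, ⟨.negSucc 1334, .negSucc 387, .negSucc 22, .ofNat 391, .negSucc 378, .ofNat 12⟩, ⟨.ofNat 4996, .ofNat 564, .negSucc 247, .negSucc 2147, .ofNat 1369, .ofNat 104⟩, ⟨.negSucc 14416, .negSucc 1847, .ofNat 1132, .ofNat 3297, .negSucc 3789, .negSucc 54⟩, ⟨.ofNat 1591, .negSucc 25, .ofNat 991, .negSucc 261, .ofNat 749, .ofNat 122⟩, .ofNat 494, .negSucc 359, .ofNat 0, .negSucc 359, .ofNat 1701, .ofNat 0, .ofNat 128, .ofNat 168, .negSucc 236, .ofNat 0, .ofNat 87, .negSucc 46, .ofNat 0, .ofNat 0, .ofNat 177, .ofNat 144, .ofNat 0, .ofNat 780881737261287731624671810135091015335221919744, .ofNat 23653186957582042231847757343662927480094720, .ofNat 0, .ofNat 0, .ofNat 0, .ofNat 138611489150926074263935796571820505937477632, .ofNat 0, .ofNat 0, .ofNat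 8853886547227606576962526643818223176019834044416, .ofNat 211457531746214992287976441768609290775429120, .ofNat 0, .ofNat 0, .ofNat 0, .ofNat 170618664805191811165323253498570215547469824, .ofNat 0⟩)
    (by decide +kernel)
theorem L01062 : Good (Phi V5.P V5.D 1 1) ⟨5, 23, 4, 1, 3, 7, 3, 7, 6, 4⟩ :=
  leafX_sound T5.ok_pp T5.Ypp.bz_eq (w := 246) (c := ⟨⟨.negSucc 7669, .negSucc 1483, .ofNat 989, .ofNat 2110, .negSucc 2219, .negSucc 3⟩, ⟨.negSucc 1437, .negSucc 483, .ofNat 28, .ofNat 519, .negSucc 501, .ofNat 3⟩, ⟨.ofNat 4911, .ofNat 544, .negSucc 254, .negSucc 2311, .ofNat 1390, .ofNat 68⟩, ⟨.negSucc 13775, .negSucc 2148, .ofNat 1311, .ofNat 3651, .negSucc 3924, .negSucc 12⟩, ⟨.ofNat 2631, .negSucc 87, .ofNat 1078, .negSucc 395, .ofNat 624, .ofNat 11⟩, .ofNat 563, .negSucc 536, .ofNat 0, .negSucc 536, .ofNat 2133, .ofNat 0, .ofNat 128, .ofNat 251, .negSucc 424, .ofNat 0, .ofNat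 128, .negSucc 94, .ofNat 0, .ofNat 0, .ofNat 330, .ofNat 218, .ofNat 0, .ofNat 397143934993043355240008152070489192826927054848, .ofNat 32574443870173365163748316140327341964394496, .ofNat 0, .ofNat 0, .ofNat 0, .ofNat 48503177933788245060321687014140522155474944, .ofNat 0, .ofNat 0, .ofNat 14796351296782621851937131503590648102526937726976, .ofNat 396975124259128814456769986117175216470753280, .ofNat 0, .ofNat 0, .ofNat 12065580534226833034386358884112169784620844318720, .ofNat 335701054180909249060652507455780159278284800, .ofNat 0⟩)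
    (by decide +kernel)
theorem L01063 : Good (Phi V5.P V5.D 1 1) ⟨5, 22, 3, 0, 4, 14, 3, 7, 6, 5⟩ :=
  leafX_sound T5.ok_pp T5.Ypp.bz_eq (w := 256) (c := ⟨⟨.negSucc 6318, .negSucc 1104, .ofNat 712, .ofNat 377, .negSucc 1382, .ofNat 212⟩, ⟨.negSucc 803, .negSucc 326, .negSucc 339, .ofNat 97, .negSucc 154, .ofNat 36⟩, ⟨.ofNat 4106, .ofNat 492, .negSucc 181, .negSucc 674, .ofNat 1266, .negSucc 30⟩, ⟨.negSucc 11561, .negSucc 1579, .ofNat 784, .ofNat 627, .negSucc 2637, .ofNat 358⟩, ⟨.ofNat 1774, .negSucc 49, .ofNat 1264, .ofNat 195, .ofNat 1053, .ofNat 18⟩, .ofNat 504, .negSucc 385, .ofNat 0, .negSucc 385, .ofNat 1950, .ofNat 0, .ofNat 128, .ofNat 136, .negSucc 244, .ofNat 0, .ofNat 74, .negSucc 39, .ofNat 0, .ofNat 0, .ofNat 221, .ofNat 291, .ofNat 0, .ofNat 0, .ofNat 0, .ofNat 0, .ofNat 0, .ofNat 0, .ofNat 0, .ofNat 0, .ofNat 0, .ofNat 1256850285357566976790259224832114332750146707652608,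 .ofNat 867588916712226198054808005051851041764095819776, .ofNat 0, .ofNat 0, .ofNat 4704210959695540938153156693174411380608931438002176, .ofNat 757658040018535400345123960632232264327625703424, .ofNat 0⟩)
    (by decide +kernel)
theorem L01064 : Good (Phi V5.P V5.D 1 1) ⟨5, 22, 3, 0, 4, 15, 3, 7, 6, 5⟩ :=
  leafX_sound T5.ok_pp T5.Ypp.bz_eq (w := 255) (c := ⟨⟨.negSucc 5969, .negSucc 890, .ofNat 874, .ofNat 612, .negSucc 1581, .ofNat 83⟩, ⟨.negSucc 730, .negSucc 279, .negSucc 256, .ofNat 119, .negSucc 240, .ofNat 18⟩, ⟨.ofNat 3526, .ofNat 349, .negSucc 254, .negSucc 872, .ofNat 1100, .ofNat 45⟩, ⟨.negSucc 10983, .negSucc 1213, .ofNat 1029, .ofNat 1065, .negSucc 2863, .ofNat 121⟩, ⟨.ofNat 1935, .negSucc 94, .ofNat 1429, .negSucc 33, .ofNat 635, .ofNat 165⟩, .ofNat 571, .negSucc 565, .ofNat 0, .negSucc 565, .ofNat 2659, .ofNat 0, .ofNat 128, .ofNat 177, .negSucc 188, .ofNat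 0, .ofNat 88, .negSucc 32, .ofNat 0, .ofNat 0, .ofNat 182, .ofNat 185, .ofNat 0, .ofNat 723506967169233317853371778375047277095357324984320, .ofNat 93138199977690128109634343719914586124641632256, .ofNat 0, .ofNat 0, .ofNat 1649699296964781562923763195819885897343347787300864, .ofNat 354279397733820330070316402822964288345954320384, .ofNat 0, .ofNat 0, .ofNat 3863463052844041823040311312453542808382486276472832, .ofNat 1214348897057825987537699767210586899252288421888, .ofNat 0, .ofNat 0, .ofNat 0, .ofNat 0, .ofNat 0⟩)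
    (by decide +kernel)
theorem L01065 : Good (Phi V5.P V5.D 1 1) ⟨5, 23, 3, 0, 3, 7, 3, 7, 6, 5⟩ :=
  leafX_sound T5.ok_pp T5.Ypp.bz_eq (w := 242) (c := ⟨⟨.negSucc 7873, .negSucc 918, .ofNat 800, .ofNat 1851, .negSucc 1860, .ofNat 310⟩, ⟨.negSucc 1268, .negSucc 304, .negSucc 298, .ofNat 501, .negSucc 392, .ofNat 95⟩, ⟨.ofNat 4889, .ofNat 359, .negSucc 121, .negSucc 2077, .ofNat 1261, .negSucc 74⟩, ⟨.negSucc 13758, .negSucc 1229, .ofNat 732, .ofNat 3101, .negSucc 3372, .ofNat 516⟩, ⟨.ofNat 1563, .ofNat 36, .ofNat 1675, .ofNat 40, .ofNat 911, .ofNat 79⟩, .ofNat 494, .negSucc 360, .ofNat 0, .negSucc 360, .ofNat 1605, .ofNat 0, .ofNat 128, .ofNat 201, .negSucc 310, .ofNat 0, .ofNat 111, .negSucc 60, .ofNat 0, .ofNat 0, .ofNat 257, .ofNat 230, .ofNat 0, .ofNat 123954859227839200337223703250962362445143736320, .ofNat 13638553686969337929654556150737300942225408, .ofNat 0, .ofNat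 0, .ofNat 463811409957825336666495904097165825352509947904, .ofNat 82346663378209134672671005175456496000958464, .ofNat 0, .ofNat 0, .ofNat 1246537705354549442687615102073465003368951840768, .ofNat 142785104288116301460498248461168212233420800, .ofNat 0, .ofNat 0, .ofNat 811843939130210086023039509819840460786851905536, .ofNat 97135689897599711581368941507666531097509888, .ofNat 0⟩)
    (by decide +kernel)
theorem L01066 : Good (Phi V5.P V5.D 1 1) ⟨4, 10, 3, 0, 2, 3, 2, 3, 5, 3⟩ :=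
  leafX_sound T5.ok_pp T5.Ypp.bz_eq (w := 214) (c := ⟨⟨.negSucc 3834, .negSucc 883, .ofNat 242, .ofNat 343, .negSucc 1405, .negSucc 30⟩, ⟨.negSucc 381, .negSucc 284, .negSucc 323, .ofNat 172, .negSucc 145, .negSucc 19⟩, ⟨.ofNat 2971, .ofNat 415, .negSucc 72, .negSucc 1194, .ofNat 1367, .ofNat 87⟩, ⟨.negSucc 7314, .negSucc 1187, .ofNat 197, .ofNat 320, .negSucc 2836, .negSucc 11⟩, ⟨.ofNat 502, .ofNat 169, .ofNat 535, .ofNat 1367, .ofNat 1429, .negSucc 315⟩, .ofNat 482, .negSucc 322, .ofNat 0, .negSucc 322, .ofNat 2074, .ofNat 0, .ofNat 200, .ofNat 128, .negSucc 488, .ofNat 0, .ofNat 80, .negSucc 53, .ofNat 0, .ofNat 0, .ofNat 626, .ofNat 157, .ofNat 0, .ofNat 29817561459794001210892497029164068503552, .ofNat 0, .ofNat 0, .ofNat 0, .ofNat 394322464588798554019896861526880054935552, .ofNat 0, .ofNat 0, .ofNat 0, .ofNat 267954237429891332005984935989508548067328, .ofNat 0, .ofNat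 0, .ofNat 0, .ofNat 0, .ofNat 0, .ofNat 0⟩)
    (by decide +kernel)
theorem L01067 : Good (Phi V5.P V5.D 1 1) ⟨4, 11, 3, 0, 2, 3, 3, 6, 5, 3⟩ :=
  leafX_sound T5.ok_pp T5.Ypp.bz_eq (w := 219) (c := ⟨⟨.negSucc 5496, .negSucc 1371, .ofNat 320, .ofNat 1357, .negSucc 857, .ofNat 290⟩, ⟨.negSucc 889, .negSucc 463, .negSucc 301, .ofNat 482, .negSucc 138, .ofNat 70⟩, ⟨.ofNat 3935, .ofNat 673, .negSucc 121, .negSucc 1969, .ofNat 746, .ofNat 32⟩, ⟨.negSucc 9680, .negSucc 1934, .ofNat 226, .ofNat 1939, .negSucc 1610, .ofNat 534⟩, ⟨.ofNat 259, .ofNat 408, .ofNat 848, .ofNat 1346, .ofNat 591, .negSucc 117⟩, .ofNat 476, .negSucc 336, .ofNat 0, .negSucc 336, .ofNat 1581, .ofNat 0, .ofNat 173, .ofNat 128, .negSucc 363, .ofNat 0, .ofNat 81, .negSucc 56, .ofNat 0, .ofNat 0, .ofNat 417, .ofNat 268, .ofNat 0, .ofNat 0, .ofNat 33460034351143224089093856530817613824, .ofNat 0, .ofNat 0, .ofNat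 0, .ofNat 350020089526524352012815222861480329216, .ofNat 0, .ofNat 0, .ofNat 0, .ofNat 672036770032952691643339177769687842816, .ofNat 0, .ofNat 0, .ofNat 0, .ofNat 0, .ofNat 0⟩)
    (by decide +kernel)
theorem L01068 : Good (Phi V5.P V5.D 1 1) ⟨4, 11, 3, 0, 2, 3, 4, 14, 5, 3⟩ :=
  leafX_sound T5.ok_pp T5.Ypp.bz_eq (w := 222) (c := ⟨⟨.negSucc 6826, .negSucc 998, .ofNat 246, .ofNat 1316, .negSucc 473, .ofNat 788⟩, ⟨.negSucc 1099, .negSucc 370, .negSucc 398, .ofNat 500, .negSucc 82, .ofNat 200⟩, ⟨.ofNat 5231, .ofNat 366, .ofNat 24, .negSucc 2354, .ofNat 380, .negSucc 275⟩, ⟨.negSucc 12022, .negSucc 1297, .ofNat 76, .ofNat 1781, .negSucc 933, .ofNat 1355⟩, ⟨.ofNat 793, .ofNat 263, .ofNat 1033, .ofNat 1533, .ofNat 347, .negSucc 135⟩, .ofNat 420, .negSucc 224, .ofNat 0, .negSucc 224, .ofNat 1181, .ofNat 0, .ofNat 173, .ofNat 128, .negSucc 517, .ofNat 0, .ofNat 87, .negSucc 70,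 .ofNat 0, .ofNat 0, .ofNat 537, .ofNat 145, .ofNat 0, .ofNat 411981507300640311583498046664178816516096, .ofNat 501001578645148735491600464464081584128, .ofNat 0, .ofNat 0, .ofNat 2932738840558754897413771590566570664919040, .ofNat 219128479216415539779162413382603112448, .ofNat 0, .ofNat 0, .ofNat 0, .ofNat 5856677316028204202451495311020740575232, .ofNat 0, .ofNat 0, .ofNat 0, .ofNat 0, .ofNat 0⟩)
    (by decide +kernel)
theorem L01069 : Good (Phi V5.P V5.D 1 1) ⟨4, 11, 3, 0, 2, 3, 4, 15, 5, 3⟩ :=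
  leafX_sound T5.ok_pp T5.Ypp.bz_eq (w := 223) (c := ⟨⟨.negSucc 7555, .negSucc 1660, .ofNat 606, .ofNat 1519, .negSucc 984, .ofNat 1050⟩, ⟨.negSucc 1153, .negSucc 540, .negSucc 356, .ofNat 527, .negSucc 203, .ofNat 204⟩, ⟨.ofNat 5933, .ofNat 825, .negSucc 191, .negSucc 2636, .ofNat 835, .negSucc 604⟩, ⟨.negSucc 13540, .negSucc 2321, .ofNat 620, .ofNat 2233, .negSucc 1774, .ofNat 1949⟩, ⟨.ofNat 1408, .ofNat 342, .ofNat 1139, .ofNat 1361, .ofNat 416, .negSucc 612⟩, .ofNat 476, .negSucc 337, .ofNat 0, .negSucc 337, .ofNat 1578, .ofNat 0, .ofNat 130, .ofNat 128, .negSucc 348, .ofNat 0, .ofNat 79, .negSucc 57, .ofNat 0, .ofNat 0, .ofNat 365, .ofNat 148, .ofNat 0, .ofNat 2732424136354053454422116985967978743857152, .ofNat 609034377628554879890396667515125104640, .ofNat 0, .ofNat 0, .ofNat 18939606244614344819243558807735083944902656, .ofNat 2624013778484159830929844651840306675712,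 .ofNat 0, .ofNat 0, .ofNat 9995643329419202009400327267001000748122112, .ofNat 9241206928175628975580340127360719257600, .ofNat 0, .ofNat 0, .ofNat 0, .ofNat 10289263227549778066036514049051347386368, .ofNat 0⟩)
    (by decide +kernel)
theorem L01070 : Good (Phi V5.P V5.D 1 1) ⟨3, 5, 3, 1, 2, 2, 2, 2, 4, 0⟩ :=
  leafX_sound T5.ok_pp T5.Ypp.bz_eq (w := 204) (c := ⟨⟨.ofNat 2460, .ofNat 277, .negSucc 221, .negSucc 190, .negSucc 1517, .negSucc 3042⟩, ⟨.ofNat 704, .ofNat 126, .negSucc 73, .negSucc 58, .negSucc 408, .negSucc 879⟩, ⟨.negSucc 1697, .negSucc 146, .ofNat 105, .negSucc 53, .ofNat 1455, .ofNat 1903⟩, ⟨.ofNat 4382, .ofNat 250, .negSucc 378, .negSucc 644, .negSucc 2862, .negSucc 5187⟩, ⟨.ofNat 70, .ofNat 443, .negSucc 127, .ofNat 1136, .ofNat 496, .negSucc 615⟩, .ofNat 483, .negSucc 404, .ofNat 0, .negSucc 404, .ofNat 1752, .ofNat 0, .ofNat 128, .ofNat 200, .negSucc 352,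 .ofNat 0, .ofNat 117, .negSucc 77, .ofNat 0, .ofNat 0, .ofNat 425, .ofNat 112, .ofNat 0, .ofNat 0, .ofNat 0, .ofNat 0, .ofNat 0, .ofNat 0, .ofNat 0, .ofNat 0, .ofNat 0, .ofNat 0, .ofNat 0, .ofNat 0, .ofNat 0, .ofNat 0, .ofNat 0, .ofNat 0⟩)
    (by decide +kernel)
theorem L01071 : Good (Phi V5.P V5.D 1 1) ⟨3, 5, 3, 1, 2, 2, 2, 2, 4, 1⟩ :=
  leafX_sound T5.ok_pp T5.Ypp.bz_eq (w := 202) (c := ⟨⟨.ofNat 1, .negSucc 947, .ofNat 50, .negSucc 1287, .negSucc 785, .negSucc 1541⟩, ⟨.ofNat 138, .negSucc 407, .negSucc 131, .negSucc 328, .negSucc 202, .negSucc 421⟩, ⟨.negSucc 164, .ofNat 621, .ofNat 15, .ofNat 443, .ofNat 1126, .ofNat 1198⟩, ⟨.negSucc 165, .negSucc 1135, .ofNat 15, .negSucc 2394, .negSucc 1468, .negSucc 2740⟩, ⟨.negSucc 354, .negSucc 71, .negSucc 112, .ofNat 689, .ofNat 95, .ofNat 178⟩, .ofNat 481, .negSucc 397, .ofNat 0, .negSucc 397, .ofNat 1736, .ofNat 0, .ofNat 128,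 .ofNat 135, .negSucc 160, .ofNat 0, .ofNat 82, .negSucc 31, .ofNat 0, .ofNat 0, .ofNat 244, .ofNat 57, .ofNat 0, .ofNat 0, .ofNat 0, .ofNat 0, .ofNat 0, .ofNat 0, .ofNat 0, .ofNat 0, .ofNat 0, .ofNat 0, .ofNat 0, .ofNat 0, .ofNat 0, .ofNat 0, .ofNat 0, .ofNat 0⟩)
    (by decide +kernel)
theorem L01072 : Good (Phi V5.P V5.D 1 1) ⟨4, 10, 3, 1, 2, 2, 2, 3, 3, 0⟩ :=
  leafX_sound T5.ok_pp T5.Ypp.bz_eq (w := 203) (c := ⟨⟨.ofNat 633, .negSucc 512, .ofNat 123, .negSucc 1430, .negSucc 1310, .negSucc 2799⟩, ⟨.ofNat 318, .negSucc 221, .negSucc 258, .negSucc 328, .negSucc 287, .negSucc 692⟩, ⟨.negSucc 225, .ofNat 405, .negSucc 128, .ofNat 843, .ofNat 1685, .ofNat 2111⟩, ⟨.ofNat 1009, .negSucc 683, .ofNat 201, .negSucc 2929, .negSucc 2780, .negSucc 4985⟩, ⟨.ofNat 394, .ofNat 212, .negSucc 5, .ofNat 1258, .ofNat 861, .negSucc 1122⟩, .ofNat 480, .negSucc 387, .ofNat 0, .negSucc 387, .ofNat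 1926, .ofNat 0, .ofNat 167, .ofNat 128, .negSucc 385, .ofNat 0, .ofNat 77, .negSucc 70, .ofNat 0, .ofNat 0, .ofNat 489, .ofNat 70, .ofNat 0, .ofNat 0, .ofNat 0, .ofNat 0, .ofNat 0, .ofNat 6200574483352961747856253360724431077376, .ofNat 0, .ofNat 0, .ofNat 0, .ofNat 0, .ofNat 0, .ofNat 0, .ofNat 0, .ofNat 20999569604652891511725258312356955422720, .ofNat 39498070884994308469799475660980224, .ofNat 0⟩)
    (by decide +kernel)
theorem L01073 : Good (Phi V5.P V5.D 1 1) ⟨4, 11, 3, 1, 2, 2, 2, 3, 4, 0⟩ :=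
  leafX_sound T5.ok_pp T5.Ypp.bz_eq (w := 208) (c := ⟨⟨.ofNat 938, .negSucc 810, .ofNat 152, .negSucc 1419, .negSucc 2337, .negSucc 2474⟩, ⟨.ofNat 413, .negSucc 261, .negSucc 159, .negSucc 313, .negSucc 595, .negSucc 799⟩, ⟨.negSucc 401, .ofNat 585, .negSucc 65, .ofNat 796, .ofNat 2535, .ofNat 1665⟩, ⟨.ofNat 1581, .negSucc 1307, .ofNat 109, .negSucc 3000, .negSucc 4400, .negSucc 4083⟩, ⟨.negSucc 124, .ofNat 454, .ofNat 168, .ofNat 2028, .ofNat 1269, .negSucc 549⟩, .ofNat 558, .negSucc 569, .ofNat 0, .negSucc 569, .ofNat 2111, .ofNat 0, .ofNat 128, .ofNat 192, .negSucc 446, .ofNat 0, .ofNat 110, .negSucc 115, .ofNat 0, .ofNat 0, .ofNat 464, .ofNat 35, .ofNat 0, .ofNat 0, .ofNat 0, .ofNat 0, .ofNat 0, .ofNat 0, .ofNat 0, .ofNat 0, .ofNat 0, .ofNat 0, .ofNat 0, .ofNat 0, .ofNat 0, .ofNat 108515052189101565885482327009116605644800, .ofNat 0, .ofNat 0⟩)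
    (by decide +kernel)
theorem L01074 : Good (Phi V5.P V5.D 1 1) ⟨4, 11, 3, 1, 3, 4, 2, 3, 4, 1⟩ :=
  leafX_sound T5.ok_pp T5.Ypp.bz_eq (w := 222) (c := ⟨⟨.negSucc 1482, .negSucc 954, .ofNat 34, .negSucc 897, .negSucc 2143, .negSucc 766⟩, ⟨.negSucc 210, .negSucc 463, .negSucc 276, .negSucc 233, .negSucc 607, .negSucc 252⟩, ⟨.ofNat 1392, .ofNat 702, .negSucc 26, .ofNat 521, .ofNat 2255, .ofNat 578⟩, ⟨.negSucc 2611, .negSucc 1318, .ofNat 35, .negSucc 1753, .negSucc 3903, .negSucc 1255⟩, ⟨.negSucc 168, .ofNat 293, .ofNat 97, .ofNat 534, .ofNat 543, .negSucc 538⟩, .ofNat 473, .negSucc 381, .ofNat 0, .negSucc 381, .ofNat 1520, .ofNat 0, .ofNat 142, .ofNat 128, .negSucc 362, .ofNat 0, .ofNat 85, .negSucc 83, .ofNat 0, .ofNat 0, .ofNat 457, .ofNat 82, .ofNat 0, .ofNat 0, .ofNat 0, .ofNat 0, .ofNat 0, .ofNat 256731297842814700467458591885907775977422848, .ofNat 7657205333623396794910980812310694592512,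 .ofNat 0, .ofNat 0, .ofNat 221911898770598665439460763137496561104191488, .ofNat 0, .ofNat 0, .ofNat 0, .ofNat 816116198956596391911252292400985923420946432, .ofNat 0, .ofNat 0⟩)
    (by decide +kernel)
theorem L01075 : Good (Phi V5.P V5.D 1 1) ⟨4, 11, 3, 1, 3, 5, 2, 3, 4, 1⟩ :=
  leafX_sound T5.ok_pp T5.Ypp.bz_eq (w := 222) (c := ⟨⟨.negSucc 1965, .negSucc 1426, .ofNat 242, .negSucc 1484, .negSucc 3051, .negSucc 641⟩, ⟨.negSucc 265, .negSucc 587, .negSucc 311, .negSucc 382, .negSucc 834, .negSucc 256⟩, ⟨.ofNat 1623, .ofNat 915, .negSucc 121, .ofNat 764, .ofNat 2975, .ofNat 520⟩, ⟨.negSucc 3650, .negSucc 2001, .ofNat 331, .negSucc 2879, .negSucc 5604, .negSucc 905⟩, ⟨.ofNat 217, .ofNat 327, .ofNat 110, .ofNat 1064, .ofNat 1250, .negSucc 909⟩, .ofNat 554, .negSucc 561, .ofNat 0, .negSucc 561, .ofNat 2088, .ofNat 0, .ofNat 128, .ofNat 134, .negSucc 338, .ofNat 0, .ofNat 74, .negSucc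 82, .ofNat 0, .ofNat 0, .ofNat 375, .ofNat 71, .ofNat 0, .ofNat 0, .ofNat 0, .ofNat 0, .ofNat 0, .ofNat 109250462537141903403870486129207681287716864, .ofNat 9693088972688442972249473942659346202624, .ofNat 0, .ofNat 0, .ofNat 100940776596648425269233963944721901361823744, .ofNat 278993044669143097857483063042303328256, .ofNat 0, .ofNat 0, .ofNat 475268635364344771075399732402564383398428672, .ofNat 0, .ofNat 0⟩)
    (by decide +kernel)
theorem L01076 : Good (Phi V5.P V5.D 1 1) ⟨4, 10, 3, 1, 2, 3, 2, 2, 4, 0⟩ :=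
  leafX_sound T5.ok_pp T5.Ypp.bz_eq (w := 209) (c := ⟨⟨.ofNat 1167, .ofNat 99, .ofNat 128, .negSucc 638, .negSucc 1826, .negSucc 1864⟩, ⟨.ofNat 378, .ofNat 31, .negSucc 136, .negSucc 127, .negSucc 427, .negSucc 472⟩, ⟨.negSucc 844, .negSucc 77, .negSucc 180, .ofNat 301, .ofNat 1410, .ofNat 810⟩, ⟨.ofNat 1830, .ofNat 170, .negSucc 140, .negSucc 1364, .negSucc 3530, .negSucc 3135⟩, ⟨.ofNat 1173, .ofNat 277, .ofNat 925, .ofNat 968, .ofNat 659, .negSucc 1203⟩, .ofNat 670, .negSucc 961, .ofNat 0, .negSucc 961, .ofNat 4200, .ofNat 0, .ofNat 128, .ofNat 238, .negSucc 495, .ofNat 0, .ofNat 93, .negSucc 105, .ofNat 0, .ofNat 0, .ofNat 502, .ofNat 186, .ofNat 0, .ofNat 0, .ofNat 0, .ofNat 0, .ofNat 0, .ofNat 0, .ofNat 0, .ofNat 0, .ofNat 0, .ofNat 0, .ofNat 0, .ofNat 0, .ofNat 0, .ofNat 0, .ofNat 0, .ofNat 0⟩)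
    (by decide +kernel)
theorem L01077 : Good (Phi V5.P V5.D 1 1) ⟨4, 11, 3, 1, 3, 6, 2, 2, 4, 0⟩ :=
  leafX_sound T5.ok_pp T5.Ypp.bz_eq (w := 223) (c := ⟨⟨.ofNat 3118, .negSucc 580, .ofNat 149, .negSucc 1639, .negSucc 2831, .negSucc 4005⟩, ⟨.ofNat 1165, .negSucc 166, .negSucc 121, .negSucc 443, .negSucc 846, .negSucc 1330⟩, ⟨.negSucc 2159, .ofNat 297, .negSucc 8, .ofNat 867, .ofNat 2245, .ofNat 2239⟩, ⟨.ofNat 5099, .negSucc 1038, .negSucc 47, .negSucc 3069, .negSucc 5205, .negSucc 6530⟩, ⟨.ofNat 812, .ofNat 449, .ofNat 487, .ofNat 925, .ofNat 971, .negSucc 895⟩, .ofNat 473, .negSucc 381, .ofNat 0, .negSucc 381, .ofNat 1511, .ofNat 0, .ofNat 128, .ofNat 223, .negSucc 474, .ofNat 0, .ofNat 121, .negSucc 113, .ofNat 0, .ofNat 0, .ofNat 403, .ofNat 179, .ofNat 0, .ofNat 0, .ofNat 0, .ofNat 0, .ofNat 0, .ofNat 0, .ofNat 0, .ofNat 0, .ofNat 0, .ofNat 0, .ofNat 0, .ofNat 0, .ofNat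 0, .ofNat 0, .ofNat 0, .ofNat 0⟩)
    (by decide +kernel)
theorem L01078 : Good (Phi V5.P V5.D 1 1) ⟨4, 11, 3, 1, 4, 14, 2, 2, 4, 0⟩ :=
  leafX_sound T5.ok_pp T5.Ypp.bz_eq (w := 237) (c := ⟨⟨.ofNat 1151, .negSucc 952, .ofNat 80, .ofNat 302, .negSucc 3345, .negSucc 2923⟩, ⟨.ofNat 594, .negSucc 243, .negSucc 234, .ofNat 110, .negSucc 927, .negSucc 944⟩, ⟨.negSucc 989, .ofNat 605, .ofNat 3, .negSucc 197, .ofNat 2273, .ofNat 1475⟩, ⟨.ofNat 1465, .negSucc 1588, .negSucc 245, .ofNat 363, .negSucc 5945, .negSucc 4764⟩, ⟨.ofNat 1622, .ofNat 475, .ofNat 702, .ofNat 228, .ofNat 873, .negSucc 672⟩, .ofNat 556, .negSucc 564, .ofNat 0, .negSucc 564, .ofNat 2088, .ofNat 0, .ofNat 128, .ofNat 221, .negSucc 362, .ofNat 0, .ofNat 108, .negSucc 90, .ofNat 0, .ofNat 0, .ofNat 300, .ofNat 233, .ofNat 0, .ofNat 0, .ofNat 0, .ofNat 0, .ofNat 0, .ofNat 0, .ofNat 0, .ofNat 0, .ofNat 0, .ofNat 0,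 .ofNat 0, .ofNat 0, .ofNat 0, .ofNat 0, .ofNat 0, .ofNat 0⟩)
    (by decide +kernel)
theorem L01079 : Good (Phi V5.P V5.D 1 1) ⟨4, 11, 4, 2, 4, 15, 2, 2, 4, 0⟩ :=
  leafX_sound T5.ok_pp T5.Ypp.bz_eq (w := 240) (c := ⟨⟨.ofNat 367, .ofNat 201, .negSucc 149, .ofNat 1436, .negSucc 2724, .negSucc 2438⟩, ⟨.ofNat 306, .ofNat 186, .negSucc 113, .ofNat 402, .negSucc 712, .negSucc 799⟩, ⟨.negSucc 198, .ofNat 20, .ofNat 48, .negSucc 657, .ofNat 1628, .ofNat 782⟩, ⟨.ofNat 59, .ofNat 167, .negSucc 480, .ofNat 2430, .negSucc 4888, .negSucc 3891⟩, ⟨.ofNat 1985, .ofNat 481, .ofNat 638, .ofNat 28, .ofNat 903, .negSucc 745⟩, .ofNat 587, .negSucc 631, .ofNat 0, .negSucc 631, .ofNat 2400, .ofNat 0, .ofNat 128, .ofNat 302, .negSucc 304, .ofNat 0, .ofNat 142, .negSucc 70, .ofNat 0, .ofNat 0, .ofNat 250, .ofNat 257, .ofNat 0, .ofNat 0, .ofNat 47470373631564980419607066056735222373810176, .ofNat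 0, .ofNat 0, .ofNat 0, .ofNat 0, .ofNat 0, .ofNat 0, .ofNat 0, .ofNat 990073227764357429326506959154063598713569280, .ofNat 0, .ofNat 0, .ofNat 0, .ofNat 225329503891274114455526720342886252304924672, .ofNat 0⟩)
    (by decide +kernel)
theorem L01080 : Good (Phi V5.P V5.D 1 1) ⟨4, 11, 4, 3, 4, 15, 2, 2, 4, 0⟩ :=
  leafX_sound T5.ok_pp T5.Ypp.bz_eq (w := 240) (c := ⟨⟨.negSucc 122, .negSucc 13, .negSucc 34, .ofNat 1608, .negSucc 2580, .negSucc 1954⟩, ⟨.ofNat 88, .ofNat 101, .negSucc 120, .ofNat 525, .negSucc 757, .negSucc 664⟩, ⟨.negSucc 89, .ofNat 149, .negSucc 11, .negSucc 828, .ofNat 1593, .ofNat 787⟩, ⟨.negSucc 880, .negSucc 152, .negSucc 289, .ofNat 2751, .negSucc 4760, .negSucc 3184⟩, ⟨.ofNat 2377, .ofNat 380, .ofNat 423, .negSucc 293, .ofNat 1142, .negSucc 443⟩, .ofNat 595, .negSucc 671, .ofNat 0, .negSucc 671, .ofNat 2368, .ofNat 0, .ofNat 128, .ofNat 276, .negSucc 400,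 .ofNat 0, .ofNat 130, .negSucc 101, .ofNat 0, .ofNat 0, .ofNat 348, .ofNat 283, .ofNat 0, .ofNat 0, .ofNat 0, .ofNat 0, .ofNat 0, .ofNat 0, .ofNat 0, .ofNat 0, .ofNat 0, .ofNat 0, .ofNat 0, .ofNat 0, .ofNat 0, .ofNat 0, .ofNat 0, .ofNat 0⟩)
    (by decide +kernel)
theorem L01081 : Good (Phi V5.P V5.D 1 1) ⟨3, 5, 3, 1, 3, 6, 2, 2, 4, 1⟩ :=
  leafX_sound T5.ok_pp T5.Ypp.bz_eq (w := 218) (c := ⟨⟨.negSucc 1669, .negSucc 1536, .ofNat 149, .negSucc 329, .negSucc 1517, .negSucc 674⟩, ⟨.negSucc 182, .negSucc 603, .negSucc 289, .negSucc 38, .negSucc 418, .negSucc 190⟩, ⟨.ofNat 552, .ofNat 889, .ofNat 24, .negSucc 10, .ofNat 1551, .ofNat 678⟩, ⟨.negSucc 3161, .negSucc 2143, .ofNat 4, .negSucc 945, .negSucc 2917, .negSucc 1192⟩, ⟨.negSucc 202, .ofNat 827, .ofNat 437, .ofNat 1079, .ofNat 914, .negSucc 336⟩, .ofNat 483, .negSucc 407, .ofNat 0, .negSucc 407, .ofNat 1770, .ofNat 0, .ofNat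 128, .ofNat 216, .negSucc 356, .ofNat 0, .ofNat 117, .negSucc 70, .ofNat 0, .ofNat 0, .ofNat 402, .ofNat 205, .ofNat 0, .ofNat 0, .ofNat 0, .ofNat 0, .ofNat 0, .ofNat 0, .ofNat 28886595621129457986735501590978543747072, .ofNat 0, .ofNat 0, .ofNat 0, .ofNat 0, .ofNat 0, .ofNat 0, .ofNat 0, .ofNat 0, .ofNat 0⟩)
    (by decide +kernel)
theorem L01082 : Good (Phi V5.P V5.D 1 1) ⟨3, 5, 3, 1, 3, 7, 2, 2, 4, 1⟩ :=
  leafX_sound T5.ok_pp T5.Ypp.bz_eq (w := 218) (c := ⟨⟨.negSucc 2079, .negSucc 1207, .ofNat 271, .ofNat 1153, .negSucc 1698, .negSucc 934⟩, ⟨.negSucc 326, .negSucc 405, .negSucc 249, .ofNat 398, .negSucc 439, .negSucc 276⟩, ⟨.ofNat 874, .ofNat 589, .negSucc 76, .negSucc 908, .ofNat 1351, .ofNat 760⟩, ⟨.negSucc 4118, .negSucc 1715, .ofNat 172, .ofNat 1838, .negSucc 3216, .negSucc 1734⟩, ⟨.ofNat 792, .ofNat 649, .ofNat 471, .ofNat 455, .ofNat 963, .ofNat 246⟩, .ofNat 476,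 .negSucc 384, .ofNat 0, .negSucc 384, .ofNat 1682, .ofNat 0, .ofNat 128, .ofNat 173, .negSucc 321, .ofNat 0, .ofNat 101, .negSucc 55, .ofNat 0, .ofNat 0, .ofNat 375, .ofNat 188, .ofNat 0, .ofNat 0, .ofNat 0, .ofNat 0, .ofNat 0, .ofNat 0, .ofNat 0, .ofNat 0, .ofNat 0, .ofNat 0, .ofNat 0, .ofNat 0, .ofNat 0, .ofNat 0, .ofNat 0, .ofNat 0⟩)
    (by decide +kernel)
theorem L01083 : Good (Phi V5.P V5.D 1 1) ⟨4, 10, 3, 1, 3, 6, 2, 3, 4, 0⟩ :=
  leafX_sound T5.ok_pp T5.Ypp.bz_eq (w := 223) (c := ⟨⟨.negSucc 132, .negSucc 687, .negSucc 118, .negSucc 1123, .negSucc 1701, .negSucc 1946⟩, ⟨.ofNat 170, .negSucc 184, .negSucc 358, .negSucc 242, .negSucc 350, .negSucc 525⟩, ⟨.ofNat 344, .ofNat 429, .ofNat 59, .ofNat 427, .ofNat 2028, .ofNat 1176⟩, ⟨.negSucc 609, .negSucc 1142, .negSucc 485, .negSucc 2315, .negSucc 3846, .negSucc 3362⟩, ⟨.ofNat 1350, .ofNat 384, .ofNat 302, .ofNat 1005, .ofNat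 2731, .negSucc 1079⟩, .ofNat 479, .negSucc 387, .ofNat 0, .negSucc 387, .ofNat 1916, .ofNat 0, .ofNat 128, .ofNat 190, .negSucc 590, .ofNat 0, .ofNat 97, .negSucc 108, .ofNat 0, .ofNat 0, .ofNat 552, .ofNat 248, .ofNat 0, .ofNat 0, .ofNat 0, .ofNat 0, .ofNat 0, .ofNat 0, .ofNat 0, .ofNat 0, .ofNat 0, .ofNat 0, .ofNat 0, .ofNat 0, .ofNat 0, .ofNat 691317166690148936811223117413614049103446016, .ofNat 29493724179795725547722248225775337603072, .ofNat 0⟩)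
    (by decide +kernel)
theorem L01084 : Good (Phi V5.P V5.D 1 1) ⟨5, 22, 3, 1, 3, 6, 2, 3, 4, 0⟩ :=
  leafX_sound T5.ok_pp T5.Ypp.bz_eq (w := 227) (c := ⟨⟨.negSucc 451, .negSucc 1008, .ofNat 361, .negSucc 1324, .negSucc 2199, .negSucc 2717⟩, ⟨.ofNat 187, .negSucc 251, .negSucc 291, .negSucc 360, .negSucc 453, .negSucc 848⟩, ⟨.ofNat 542, .ofNat 671, .negSucc 198, .ofNat 472, .ofNat 2451, .ofNat 1554⟩, ⟨.negSucc 1091, .negSucc 1628, .ofNat 211, .negSucc 2774, .negSucc 4662, .negSucc 4511⟩, ⟨.ofNat 1462, .ofNat 136, .ofNat 616, .ofNat 1320, .ofNat 2869, .negSucc 1254⟩, .ofNat 478, .negSucc 395, .ofNat 0, .negSucc 395, .ofNat 1644, .ofNat 0, .ofNat 128, .ofNat 149, .negSucc 395, .ofNat 0, .ofNat 80, .negSucc 90, .ofNat 0, .ofNat 0, .ofNat 327, .ofNat 122, .ofNat 0, .ofNat 0, .ofNat 0, .ofNat 0, .ofNat 0, .ofNat 0, .ofNat 0, .ofNat 0, .ofNat 0, .ofNat 0, .ofNat 0, .ofNat 0, .ofNat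 0, .ofNat 2738910880046733158286054463878893249541177344, .ofNat 0, .ofNat 0⟩)
    (by decide +kernel)
theorem L01085 : Good (Phi V5.P V5.D 1 1) ⟨5, 23, 3, 1, 3, 6, 2, 3, 4, 0⟩ :=
  leafX_sound T5.ok_pp T5.Ypp.bz_eq (w := 227) (c := ⟨⟨.negSucc 198, .negSucc 1385, .ofNat 782, .negSucc 2137, .negSucc 3330, .negSucc 3515⟩, ⟨.ofNat 258, .negSucc 402, .negSucc 156, .negSucc 520, .negSucc 802, .negSucc 1183⟩, ⟨.ofNat 454, .ofNat 731, .negSucc 359, .ofNat 914, .ofNat 3214, .ofNat 2020⟩, ⟨.negSucc 1002, .negSucc 2135, .ofNat 756, .negSucc 3820, .negSucc 6306, .negSucc 5598⟩, ⟨.ofNat 2138, .negSucc 30, .ofNat 1060, .ofNat 706, .ofNat 2324, .negSucc 1177⟩, .ofNat 616, .negSucc 692, .ofNat 0, .negSucc 692, .ofNat 2362, .ofNat 0, .ofNat 128, .ofNat 221, .negSucc 588, .ofNat 0, .ofNat 114, .negSucc 164, .ofNat 0, .ofNat 0, .ofNat 462, .ofNat 53, .ofNat 0, .ofNat 0, .ofNat 0, .ofNat 0,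 .ofNat 0, .ofNat 0, .ofNat 0, .ofNat 0, .ofNat 0, .ofNat 0, .ofNat 4060640310370274407092621513326172569600, .ofNat 0, .ofNat 0, .ofNat 0, .ofNat 0, .ofNat 0⟩)
    (by decide +kernel)
theorem L01086 : Good (Phi V5.P V5.D 1 1) ⟨3, 5, 3, 1, 3, 6, 3, 6, 4, 1⟩ :=
  leafX_sound T5.ok_pp T5.Ypp.bz_eq (w := 222) (c := ⟨⟨.negSucc 3026, .negSucc 2861, .ofNat 170, .negSucc 339, .negSucc 731, .ofNat 181⟩, ⟨.negSucc 427, .negSucc 1053, .negSucc 415, .negSucc 56, .negSucc 155, .ofNat 29⟩, ⟨.ofNat 2211, .ofNat 1655, .negSucc 0, .negSucc 195, .ofNat 901, .ofNat 43⟩, ⟨.negSucc 5733, .negSucc 4285, .negSucc 22, .negSucc 1160, .negSucc 1537, .ofNat 420⟩, ⟨.negSucc 47, .ofNat 974, .ofNat 745, .ofNat 1769, .ofNat 745, .negSucc 629⟩, .ofNat 473, .negSucc 377, .ofNat 0, .negSucc 377, .ofNat 1624, .ofNat 0, .ofNat 128, .ofNat 130, .negSucc 314, .ofNat 0, .ofNat 74, .negSucc 61, .ofNat 0, .ofNat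 0, .ofNat 336, .ofNat 165, .ofNat 0, .ofNat 0, .ofNat 0, .ofNat 0, .ofNat 0, .ofNat 0, .ofNat 0, .ofNat 0, .ofNat 0, .ofNat 0, .ofNat 323387507769227761464898015675315300335616, .ofNat 0, .ofNat 0, .ofNat 0, .ofNat 0, .ofNat 0⟩)
    (by decide +kernel)
theorem L01087 : Good (Phi V5.P V5.D 1 1) ⟨3, 5, 3, 1, 3, 6, 3, 7, 5, 2⟩ :=
  leafX_sound T5.ok_pp T5.Ypp.bz_eq (w := 229) (c := ⟨⟨.negSucc 3139, .negSucc 4063, .ofNat 433, .negSucc 446, .negSucc 1936, .negSucc 192⟩, ⟨.negSucc 404, .negSucc 1341, .negSucc 473, .negSucc 29, .negSucc 433, .negSucc 80⟩, ⟨.ofNat 2755, .ofNat 2457, .negSucc 113, .negSucc 298, .ofNat 1880, .ofNat 192⟩, ⟨.negSucc 6327, .negSucc 6247, .ofNat 348, .negSucc 1170, .negSucc 3838, .negSucc 340⟩, ⟨.ofNat 1180, .ofNat 1231, .ofNat 526, .ofNat 948, .ofNat 1927, .negSucc 200⟩, .ofNat 562, .negSucc 589, .ofNat 0, .negSucc 589, .ofNat 2347, .ofNat 0, .ofNat 128,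 .ofNat 253, .negSucc 518, .ofNat 0, .ofNat 128, .negSucc 116, .ofNat 0, .ofNat 0, .ofNat 495, .ofNat 119, .ofNat 0, .ofNat 0, .ofNat 0, .ofNat 0, .ofNat 0, .ofNat 310388272696333617233516436177272310874505216, .ofNat 0, .ofNat 0, .ofNat 0, .ofNat 532102666628174492921679296492018394061602816, .ofNat 38262038697237300343575983702895240941666304, .ofNat 0, .ofNat 0, .ofNat 838524821330569189957745187042335361461125120, .ofNat 4779416362604117846208270610790037147615232, .ofNat 0⟩)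
    (by decide +kernel)
theorem L01088 : Good (Phi V5.P V5.D 1 1) ⟨3, 5, 3, 1, 3, 6, 3, 7, 5, 3⟩ :=
  leafX_sound T5.ok_pp T5.Ypp.bz_eq (w := 229) (c := ⟨⟨.negSucc 4548, .negSucc 2493, .ofNat 489, .negSucc 315, .negSucc 1188, .ofNat 651⟩, ⟨.negSucc 788, .negSucc 949, .negSucc 417, .negSucc 0, .negSucc 253, .ofNat 125⟩, ⟨.ofNat 3787, .ofNat 1349, .negSucc 145, .negSucc 334, .ofNat 1311, .negSucc 337⟩, ⟨.negSucc 8817, .negSucc 3353, .ofNat 382, .negSucc 884, .negSucc 2659, .ofNat 1300⟩, ⟨.ofNat 1231, .ofNat 481, .ofNat 821, .ofNat 1172, .ofNat 1857, .negSucc 876⟩, .ofNat 473, .negSucc 374, .ofNat 0, .negSucc 374, .ofNat 1691, .ofNat 0, .ofNat 128, .ofNat 210, .negSucc 439, .ofNat 0, .ofNat 122, .negSucc 77, .ofNat 0, .ofNat 0, .ofNat 497, .ofNat 187, .ofNat 0, .ofNat 0, .ofNat 0, .ofNat 0, .ofNat 0, .ofNat 0, .ofNat 0, .ofNat 0, .ofNat 0, .ofNat 1164915273223408089051133185345177655233740800,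 .ofNat 0, .ofNat 0, .ofNat 0, .ofNat 2304015205021809820632518064033007969742356480, .ofNat 0, .ofNat 0⟩)
    (by decide +kernel)
theorem L01089 : Good (Phi V5.P V5.D 1 1) ⟨4, 10, 3, 1, 3, 7, 2, 3, 4, 0⟩ :=
  leafX_sound T5.ok_pp T5.Ypp.bz_eq (w := 223) (c := ⟨⟨.negSucc 2028, .negSucc 834, .ofNat 315, .ofNat 915, .negSucc 1439, .negSucc 1307⟩, ⟨.negSucc 284, .negSucc 186, .negSucc 312, .ofNat 236, .negSucc 283, .negSucc 327⟩, ⟨.ofNat 1569, .ofNat 476, .negSucc 298, .negSucc 1022, .ofNat 1425, .ofNat 615⟩, ⟨.negSucc 4389, .negSucc 1309, .ofNat 18, .ofNat 1710, .negSucc 3187, .negSucc 2266⟩, ⟨.ofNat 2618, .ofNat 11, .ofNat 1076, .negSucc 129, .ofNat 2146, .negSucc 643⟩, .ofNat 702, .negSucc 1074, .ofNat 0, .negSucc 1074, .ofNat 4594, .ofNat 0, .ofNat 128, .ofNat 188, .negSucc 391, .ofNat 0, .ofNat 71, .negSucc 84, .ofNat 0, .ofNat 0, .ofNat 361, .ofNat 118, .ofNat 0, .ofNat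 0, .ofNat 0, .ofNat 0, .ofNat 0, .ofNat 0, .ofNat 0, .ofNat 0, .ofNat 0, .ofNat 0, .ofNat 0, .ofNat 0, .ofNat 0, .ofNat 0, .ofNat 0, .ofNat 0⟩)
    (by decide +kernel)
theorem L01090 : Good (Phi V5.P V5.D 1 1) ⟨4, 11, 3, 1, 4, 14, 2, 3, 5, 0⟩ :=
  leafX_sound T5.ok_pp T5.Ypp.bz_eq (w := 243) (c := ⟨⟨.negSucc 2746, .negSucc 1915, .ofNat 566, .ofNat 567, .negSucc 1840, .negSucc 920⟩, ⟨.negSucc 434, .negSucc 520, .negSucc 265, .ofNat 194, .negSucc 325, .negSucc 324⟩, ⟨.ofNat 1741, .ofNat 1031, .negSucc 240, .negSucc 582, .ofNat 2015, .ofNat 391⟩, ⟨.negSucc 5492, .negSucc 3082, .ofNat 369, .ofNat 903, .negSucc 3956, .negSucc 1406⟩, ⟨.ofNat 2717, .ofNat 190, .ofNat 929, .ofNat 221, .ofNat 2729, .negSucc 606⟩, .ofNat 558, .negSucc 569, .ofNat 0, .negSucc 569, .ofNat 2096, .ofNat 0, .ofNat 128, .ofNat 405, .negSucc 621, .ofNat 0, .ofNat 197, .negSucc 159, .ofNat 0, .ofNat 0, .ofNat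 454, .ofNat 71, .ofNat 0, .ofNat 0, .ofNat 0, .ofNat 0, .ofNat 0, .ofNat 0, .ofNat 0, .ofNat 0, .ofNat 0, .ofNat 0, .ofNat 29091906850218520011665898412106208891147124736, .ofNat 0, .ofNat 0, .ofNat 0, .ofNat 0, .ofNat 0⟩)
    (by decide +kernel)
theorem L01091 : Good (Phi V5.P V5.D 1 1) ⟨5, 22, 3, 1, 4, 15, 2, 3, 5, 0⟩ :=
  leafX_sound T5.ok_pp T5.Ypp.bz_eq (w := 246) (c := ⟨⟨.negSucc 2548, .negSucc 250, .ofNat 166, .ofNat 1215, .negSucc 1759, .negSucc 718⟩, ⟨.negSucc 419, .negSucc 23, .negSucc 318, .ofNat 365, .negSucc 367, .negSucc 220⟩, ⟨.ofNat 1554, .ofNat 170, .negSucc 144, .negSucc 862, .ofNat 1572, .ofNat 247⟩, ⟨.negSucc 5172, .negSucc 423, .negSucc 285, .ofNat 2187, .negSucc 3816, .negSucc 1133⟩, ⟨.ofNat 2862, .ofNat 253, .ofNat 956, .negSucc 191, .ofNat 2530, .negSucc 545⟩, .ofNat 478, .negSucc 396, .ofNat 0, .negSucc 396, .ofNat 1638, .ofNat 0, .ofNat 128, .ofNat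 400, .negSucc 268, .ofNat 0, .ofNat 196, .negSucc 56, .ofNat 0, .ofNat 0, .ofNat 206, .ofNat 111, .ofNat 0, .ofNat 0, .ofNat 0, .ofNat 0, .ofNat 0, .ofNat 0, .ofNat 0, .ofNat 0, .ofNat 0, .ofNat 0, .ofNat 0, .ofNat 0, .ofNat 0, .ofNat 33406867205001836390754689010804321615966388617216, .ofNat 0, .ofNat 0⟩)
    (by decide +kernel)
theorem L01092 : Good (Phi V5.P V5.D 1 1) ⟨5, 23, 3, 1, 4, 15, 3, 6, 5, 0⟩ :=
  leafX_sound T5.ok_pp T5.Ypp.bz_eq (w := 250) (c := ⟨⟨.negSucc 3304, .negSucc 211, .ofNat 118, .ofNat 1926, .negSucc 1164, .negSucc 737⟩, ⟨.negSucc 612, .negSucc 0, .negSucc 287, .ofNat 576, .negSucc 262, .negSucc 276⟩, ⟨.ofNat 1890, .ofNat 142, .negSucc 94, .negSucc 1095, .ofNat 861, .ofNat 232⟩, ⟨.negSucc 6361, .negSucc 405, .negSucc 403, .ofNat 3275, .negSucc 2325, .negSucc 1142⟩, ⟨.ofNat 2824, .ofNat 314, .ofNat 1109, .ofNat 67, .ofNat 1096, .negSucc 514⟩, .ofNat 467,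 .negSucc 364, .ofNat 0, .negSucc 364, .ofNat 1398, .ofNat 0, .ofNat 128, .ofNat 253, .negSucc 387, .ofNat 0, .ofNat 130, .negSucc 89, .ofNat 0, .ofNat 0, .ofNat 274, .ofNat 263, .ofNat 0, .ofNat 0, .ofNat 0, .ofNat 0, .ofNat 0, .ofNat 0, .ofNat 0, .ofNat 0, .ofNat 0, .ofNat 0, .ofNat 0, .ofNat 0, .ofNat 0, .ofNat 0, .ofNat 13255675893300783030778874910846092926622105600, .ofNat 0⟩)
    (by decide +kernel)
theorem L01093 : Good (Phi V5.P V5.D 1 1) ⟨5, 23, 3, 1, 4, 15, 3, 7, 5, 0⟩ :=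
  leafX_sound T5.ok_pp T5.Ypp.bz_eq (w := 251) (c := ⟨⟨.negSucc 4264, .negSucc 212, .ofNat 260, .ofNat 1750, .negSucc 384, .negSucc 1045⟩, ⟨.negSucc 775, .ofNat 43, .negSucc 362, .ofNat 512, .ofNat 32, .negSucc 380⟩, ⟨.ofNat 2810, .ofNat 183, .negSucc 202, .negSucc 1193, .ofNat 718, .ofNat 310⟩, ⟨.negSucc 8392, .negSucc 380, .negSucc 282, .ofNat 2950, .negSucc 1086, .negSucc 1527⟩, ⟨.ofNat 4255, .ofNat 385, .ofNat 1206, .negSucc 38, .ofNat 1493, .negSucc 842⟩, .ofNat 657, .negSucc 792, .ofNat 0, .negSucc 792, .ofNat 2677, .ofNat 0, .ofNat 128, .ofNat 466, .negSucc 517, .ofNat 0, .ofNat 219, .negSucc 142, .ofNat 0, .ofNat 0, .ofNat 347, .ofNat 75, .ofNat 0, .ofNat 0, .ofNat 0, .ofNat 0, .ofNat 0, .ofNat 0, .ofNat 0, .ofNat 0, .ofNat 0, .ofNat 0, .ofNat 183072308313114757054446630900657485872860495872, .ofNat 0, .ofNat 0, .ofNat 0, .ofNat 67016261950579496589905282832017408150147694592,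 .ofNat 0⟩)
    (by decide +kernel)
theorem L01094 : Good (Phi V5.P V5.D 1 1) ⟨4, 11, 3, 1, 3, 7, 3, 6, 5, 1⟩ :=
  leafX_sound T5.ok_pp T5.Ypp.bz_eq (w := 232) (c := ⟨⟨.negSucc 3970, .negSucc 1389, .ofNat 546, .ofNat 2321, .negSucc 1262, .negSucc 1384⟩, ⟨.negSucc 845, .negSucc 409, .negSucc 256, .ofNat 707, .negSucc 281, .negSucc 379⟩, ⟨.ofNat 2531, .ofNat 594, .negSucc 238, .negSucc 1834, .ofNat 944, .ofNat 762⟩, ⟨.negSucc 7455, .negSucc 2033, .ofNat 262, .ofNat 3789, .negSucc 2375, .negSucc 2392⟩, ⟨.ofNat 1886, .ofNat 100, .ofNat 1399, .ofNat 502, .ofNat 805, .ofNat 157⟩, .ofNat 634, .negSucc 759, .ofNat 0, .negSucc 759, .ofNat 2702, .ofNat 0, .ofNat 128, .ofNat 153, .negSucc 349, .ofNat 0, .ofNat 71, .negSucc 87, .ofNat 0, .ofNat 0, .ofNat 288, .ofNat 93, .ofNat 0, .ofNat 0, .ofNat 0, .ofNat 0, .ofNat 0, .ofNat 0, .ofNat 0, .ofNat 0, .ofNat 0, .ofNat 0, .ofNat 4673980261672360584162816487128232999518208,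 .ofNat 0, .ofNat 0, .ofNat 0, .ofNat 0, .ofNat 0⟩)
    (by decide +kernel)
theorem L01095 : Good (Phi V5.P V5.D 1 1) ⟨5, 22, 3, 1, 3, 7, 3, 7, 5, 1⟩ :=
  leafX_sound T5.ok_pp T5.Ypp.bz_eq (w := 237) (c := ⟨⟨.negSucc 4748, .negSucc 592, .ofNat 549, .ofNat 1647, .negSucc 1094, .negSucc 1309⟩, ⟨.negSucc 918, .negSucc 155, .negSucc 349, .ofNat 460, .negSucc 234, .negSucc 359⟩, ⟨.ofNat 3374, .ofNat 324, .negSucc 276, .negSucc 1751, .ofNat 1044, .ofNat 687⟩, ⟨.negSucc 9174, .negSucc 903, .ofNat 309, .ofNat 2739, .negSucc 2308, .negSucc 2166⟩, ⟨.ofNat 3180, .ofNat 202, .ofNat 1160, .ofNat 359, .ofNat 1416, .negSucc 413⟩, .ofNat 649, .negSucc 827, .ofNat 0, .negSucc 827, .ofNat 3098, .ofNat 0, .ofNat 128, .ofNat 186, .negSucc 371, .ofNat 0, .ofNat 83, .negSucc 90, .ofNat 0, .ofNat 0, .ofNat 304, .ofNat 235, .ofNat 0, .ofNat 0, .ofNat 0, .ofNat 0, .ofNat 0, .ofNat 0, .ofNat 0, .ofNat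 0, .ofNat 0, .ofNat 0, .ofNat 0, .ofNat 0, .ofNat 0, .ofNat 145122258880317537803996970235700386722649997312, .ofNat 0, .ofNat 0⟩)
    (by decide +kernel)
theorem L01096 : Good (Phi V5.P V5.D 1 1) ⟨5, 23, 3, 1, 3, 7, 3, 7, 5, 1⟩ :=
  leafX_sound T5.ok_pp T5.Ypp.bz_eq (w := 237) (c := ⟨⟨.negSucc 6300, .negSucc 1006, .ofNat 884, .ofNat 2756, .negSucc 1490, .negSucc 1195⟩, ⟨.negSucc 1353, .negSucc 297, .negSucc 291, .ofNat 827, .negSucc 339, .negSucc 367⟩, ⟨.ofNat 4246, .ofNat 470, .negSucc 310, .negSucc 2511, .ofNat 1269, .ofNat 596⟩, ⟨.negSucc 11682, .negSucc 1507, .ofNat 707, .ofNat 4588, .negSucc 2905, .negSucc 1885⟩, ⟨.ofNat 3446, .ofNat 118, .ofNat 1468, .ofNat 166, .ofNat 1305, .negSucc 450⟩, .ofNat 611, .negSucc 679, .ofNat 0, .negSucc 679, .ofNat 2327, .ofNat 0, .ofNat 128, .ofNat 237, .negSucc 381, .ofNat 0, .ofNat 117, .negSucc 101, .ofNat 0, .ofNat 0, .ofNat 281,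 .ofNat 75, .ofNat 0, .ofNat 4146128365370319225669735491780194365859692544, .ofNat 34364391324276063384769467535315722829824, .ofNat 0, .ofNat 0, .ofNat 0, .ofNat 0, .ofNat 0, .ofNat 0, .ofNat 131162923783238614685291677111487613806357512192, .ofNat 3125310533208981216508873636255259189837824, .ofNat 0, .ofNat 0, .ofNat 55491577809266187685177105357430497806632615936, .ofNat 1326025422469038096593553192924951598858240, .ofNat 0⟩)
    (by decide +kernel)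
theorem L01097 : Good (Phi V5.P V5.D 1 1) ⟨4, 10, 3, 1, 3, 7, 2, 3, 5, 2⟩ :=
  leafX_sound T5.ok_pp T5.Ypp.bz_eq (w := 228) (c := ⟨⟨.negSucc 3399, .negSucc 961, .ofNat 193, .ofNat 748, .negSucc 1674, .negSucc 440⟩, ⟨.negSucc 531, .negSucc 326, .negSucc 434, .ofNat 193, .negSucc 348, .negSucc 114⟩, ⟨.ofNat 2258, .ofNat 434, .negSucc 5, .negSucc 1061, .ofNat 1595, .ofNat 320⟩, ⟨.negSucc 6722, .negSucc 1484, .negSucc 169, .ofNat 1252, .negSucc 3698, .negSucc 824⟩, ⟨.ofNat 1451, .ofNat 322, .ofNat 1150, .ofNat 603, .ofNat 2244, .negSucc 102⟩, .ofNat 483, .negSucc 397, .ofNat 0, .negSucc 397, .ofNat 1967, .ofNat 0, .ofNat 128, .ofNat 221, .negSucc 477, .ofNat 0, .ofNat 112, .negSucc 77, .ofNat 0, .ofNat 0, .ofNat 492, .ofNat 284, .ofNat 0, .ofNat 0, .ofNat 0, .ofNat 0, .ofNat 0, .ofNat 208544846396743576725410274428177958108659712, .ofNat 0, .ofNat 0, .ofNat 0, .ofNat 0, .ofNat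 0, .ofNat 0, .ofNat 0, .ofNat 4758430590711748688091468276814977070188724224, .ofNat 1317573998573044498651915268790303022120960, .ofNat 0⟩)
    (by decide +kernel)
theorem L01098 : Good (Phi V5.P V5.D 1 1) ⟨4, 11, 3, 1, 3, 7, 3, 6, 5, 2⟩ :=
  leafX_sound T5.ok_pp T5.Ypp.bz_eq (w := 232) (c := ⟨⟨.negSucc 5021, .negSucc 1331, .ofNat 346, .ofNat 2028, .negSucc 1124, .negSucc 263⟩, ⟨.negSucc 1087, .negSucc 438, .negSucc 377, .ofNat 637, .negSucc 276, .negSucc 53⟩, ⟨.ofNat 3093, .ofNat 608, .negSucc 67, .negSucc 1759, .ofNat 917, .ofNat 265⟩, ⟨.negSucc 9310, .negSucc 1961, .negSucc 5, .ofNat 3297, .negSucc 2214, .negSucc 410⟩, ⟨.ofNat 1780, .ofNat 489, .ofNat 1225, .ofNat 568, .ofNat 958, .negSucc 105⟩, .ofNat 470, .negSucc 374, .ofNat 0, .negSucc 374, .ofNat 1493, .ofNat 0, .ofNat 143, .ofNat 128, .negSucc 278, .ofNat 0, .ofNat 71, .negSucc 56, .ofNat 0, .ofNat 0, .ofNat 253,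 .ofNat 230, .ofNat 0, .ofNat 0, .ofNat 0, .ofNat 0, .ofNat 0, .ofNat 0, .ofNat 0, .ofNat 0, .ofNat 0, .ofNat 0, .ofNat 0, .ofNat 0, .ofNat 0, .ofNat 0, .ofNat 3212113012427818442766943472269949094854656, .ofNat 0⟩)
    (by decide +kernel)
theorem L01099 : Good (Phi V5.P V5.D 1 1) ⟨5, 22, 3, 1, 3, 7, 3, 7, 5, 2⟩ :=
  leafX_sound T5.ok_pp T5.Ypp.bz_eq (w := 237) (c := ⟨⟨.negSucc 5625, .negSucc 639, .ofNat 442, .ofNat 1266, .negSucc 1308, .negSucc 382⟩, ⟨.negSucc 1142, .negSucc 196, .negSucc 430, .ofNat 380, .negSucc 291, .negSucc 118⟩, ⟨.ofNat 3989, .ofNat 276, .negSucc 149, .negSucc 1716, .ofNat 1069, .ofNat 274⟩, ⟨.negSucc 10706, .negSucc 835, .ofNat 115, .ofNat 2001, .negSucc 2561, .negSucc 605⟩, ⟨.ofNat 2934, .negSucc 81, .ofNat 1258, .ofNat 713, .ofNat 1007, .negSucc 206⟩, .ofNat 656, .negSucc 847, .ofNat 0, .negSucc 847, .ofNat 3152, .ofNat 0, .ofNat 128, .ofNat 170, .negSucc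 332, .ofNat 0, .ofNat 77, .negSucc 78, .ofNat 0, .ofNat 0, .ofNat 313, .ofNat 290, .ofNat 0, .ofNat 0, .ofNat 0, .ofNat 0, .ofNat 0, .ofNat 0, .ofNat 0, .ofNat 0, .ofNat 0, .ofNat 79334674391873295306604722677245957356117819392, .ofNat 0, .ofNat 0, .ofNat 0, .ofNat 208917125006484555120511471697623777474078834688, .ofNat 0, .ofNat 0⟩)
    (by decide +kernel)
theorem L01100 : Good (Phi V5.P V5.D 1 1) ⟨5, 23, 3, 1, 3, 7, 3, 7, 5, 2⟩ :=
  leafX_sound T5.ok_pp T5.Ypp.bz_eq (w := 237) (c := ⟨⟨.negSucc 7000, .negSucc 1031, .ofNat 667, .ofNat 1996, .negSucc 1592, .negSucc 35⟩, ⟨.negSucc 1548, .negSucc 337, .negSucc 383, .ofNat 611, .negSucc 384, .negSucc 18⟩, ⟨.ofNat 4693, .ofNat 473, .negSucc 200, .negSucc 2232, .ofNat 1209, .ofNat 159⟩, ⟨.negSucc 12824, .negSucc 1424, .ofNat 433, .ofNat 3145, .negSucc 2833, .negSucc 76⟩, ⟨.ofNat 3237, .negSucc 54, .ofNat 1297, .ofNat 589, .ofNat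 556, .negSucc 38⟩, .ofNat 699, .negSucc 902, .ofNat 0, .negSucc 902, .ofNat 2990, .ofNat 0, .ofNat 128, .ofNat 200, .negSucc 322, .ofNat 0, .ofNat 99, .negSucc 82, .ofNat 0, .ofNat 0, .ofNat 283, .ofNat 125, .ofNat 0, .ofNat 12620424192393635306565517078565110493793484800, .ofNat 0, .ofNat 0, .ofNat 0, .ofNat 0, .ofNat 0, .ofNat 0, .ofNat 0, .ofNat 72115007807072386135396114572056640039950483456, .ofNat 3099350096345574432546698105699096435097600, .ofNat 0, .ofNat 0, .ofNat 145189708682912164796386581424075044285828825088, .ofNat 1226128671568546154064449720026880746192896, .ofNat 0⟩)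
    (by decide +kernel)

end Crest.Agent.R097C5.N5pp
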