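import Crest.Agent.R097.KP7
import Crest.Agent.R097.T5Ypp

/-!
# Row 97, box cover in dimension n = 5 (generated)
-/

set_option autoImplicit false
set_option Elab.async false
set_option maxHeartbeats 0
set_option maxRecDepth 100000

open Crest.Agent.R097 Crest.Agent.R097.KA


namespace Crest.Agent.R097C5.N5pp

theorem L01101 : Good (Phi V5.P V5.D 1 1) ⟨3, 5, 3, 1, 3, 7, 3, 6, 5, 3⟩ :=
  leafX_sound T5.ok_pp T5.Ypp.bz_eq (w := 228) (c := ⟨⟨.negSucc 4114, .negSucc 1465, .ofNat 223, .ofNat 936, .negSucc 925, .ofNat 34⟩, ⟨.negSucc 742, .negSucc 538, .negSucc 390, .ofNat 323, .negSucc 219, .negSucc 19⟩, ⟨.ofNat 2750, .ofNat 668, .negSucc 33, .negSucc 1123, .ofNat 785, .ofNat 120⟩, ⟨.negSucc 8069, .negSucc 1930, .negSucc 123, .ofNat 1394, .negSucc 1845, .ofNat 149⟩, ⟨.ofNat 1494, .ofNat 789, .ofNat 922, .ofNat 704, .ofNat 960, .negSucc 199⟩, .ofNat 483, .negSucc 407, .ofNat 0, .negSucc 407, .ofNat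 1770, .ofNat 0, .ofNat 128, .ofNat 204, .negSucc 244, .ofNat 0, .ofNat 115, .negSucc 41, .ofNat 0, .ofNat 0, .ofNat 298, .ofNat 240, .ofNat 0, .ofNat 0, .ofNat 0, .ofNat 0, .ofNat 0, .ofNat 0, .ofNat 0, .ofNat 0, .ofNat 0, .ofNat 0, .ofNat 0, .ofNat 0, .ofNat 0, .ofNat 0, .ofNat 0, .ofNat 0⟩)
    (by decide +kernel)
theorem L01102 : Good (Phi V5.P V5.D 1 1) ⟨3, 5, 3, 1, 3, 7, 3, 7, 5, 3⟩ :=
  leafX_sound T5.ok_pp T5.Ypp.bz_eq (w := 228) (c := ⟨⟨.negSucc 4986, .negSucc 1798, .ofNat 348, .ofNat 771, .negSucc 693, .ofNat 349⟩, ⟨.negSucc 916, .negSucc 630, .negSucc 442, .ofNat 258, .negSucc 143, .ofNat 95⟩, ⟨.ofNat 3698, .ofNat 792, .negSucc 66, .negSucc 1315, .ofNat 788, .negSucc 86⟩, ⟨.negSucc 9821, .negSucc 2429, .ofNat 7, .ofNat 1092, .negSucc 1683, .ofNat 722⟩, ⟨.ofNat 2461, .ofNat 620, .ofNat 1051, .ofNat 820, .ofNat 1458, .negSucc 486⟩, .ofNat 483, .negSucc 407, .ofNat 0, .negSucc 407, .ofNat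 1770, .ofNat 0, .ofNat 128, .ofNat 166, .negSucc 248, .ofNat 0, .ofNat 92, .negSucc 41, .ofNat 0, .ofNat 0, .ofNat 306, .ofNat 163, .ofNat 0, .ofNat 62780007103286323063939321539513273318113280, .ofNat 1948691255221116867863458681890501652643840, .ofNat 0, .ofNat 0, .ofNat 0, .ofNat 0, .ofNat 0, .ofNat 0, .ofNat 433605254244176443150624867550975909479579648, .ofNat 14098898168158019012920007206956753383063552, .ofNat 0, .ofNat 0, .ofNat 923346673884752197960445705512358802448449536, .ofNat 0, .ofNat 0⟩)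
    (by decide +kernel)
theorem L01103 : Good (Phi V5.P V5.D 1 1) ⟨3, 5, 2, 0, 2, 2, 2, 2, 4, 2⟩ :=
  leafX_sound T5.ok_pp T5.Ypp.bz_eq (w := 201) (c := ⟨⟨.negSucc 1795, .negSucc 844, .ofNat 28, .negSucc 840, .negSucc 679, .negSucc 30⟩, ⟨.negSucc 83, .negSucc 455, .negSucc 429, .negSucc 166, .negSucc 171, .negSucc 37⟩, ⟨.ofNat 1178, .ofNat 511, .ofNat 81, .ofNat 174, .ofNat 1049, .ofNat 217⟩, ⟨.negSucc 3513, .negSucc 764, .ofNat 54, .negSucc 1607, .negSucc 1220, .negSucc 35⟩, ⟨.negSucc 301, .ofNat 132, .negSucc 62, .ofNat 442, .ofNat 116, .negSucc 172⟩, .ofNat 444, .negSucc 286, .ofNat 0, .negSucc 286, .ofNat 1455, .ofNat 0, .ofNat 249, .ofNat 128, .negSucc 172, .ofNat 0, .ofNat 104, .negSucc 22, .ofNat 0, .ofNat 0, .ofNat 370, .ofNat 244, .ofNat 0, .ofNat 0, .ofNat 0, .ofNat 0, .ofNat 0, .ofNat 0, .ofNat 0, .ofNat 0, .ofNat 0, .ofNat 0, .ofNat 0, .ofNat 0, .ofNat 0, .ofNat 0, .ofNat 0, .ofNat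 0⟩)
    (by decide +kernel)
theorem L01104 : Good (Phi V5.P V5.D 1 1) ⟨3, 5, 2, 0, 2, 3, 2, 2, 5, 4⟩ :=
  leafX_sound T5.ok_pp T5.Ypp.bz_eq (w := 206) (c := ⟨⟨.negSucc 3207, .negSucc 1008, .ofNat 211, .ofNat 726, .negSucc 1084, .ofNat 169⟩, ⟨.negSucc 321, .negSucc 442, .negSucc 573, .ofNat 293, .negSucc 261, .ofNat 38⟩, ⟨.ofNat 1843, .ofNat 501, .negSucc 47, .negSucc 854, .ofNat 1106, .ofNat 82⟩, ⟨.negSucc 5911, .negSucc 1094, .ofNat 31, .ofNat 677, .negSucc 1980, .ofNat 344⟩, ⟨.negSucc 76, .ofNat 383, .ofNat 540, .ofNat 1983, .ofNat 218, .negSucc 275⟩, .ofNat 451, .negSucc 308, .ofNat 0, .negSucc 308, .ofNat 1512, .ofNat 0, .ofNat 203, .ofNat 128, .negSucc 178, .ofNat 0, .ofNat 96, .negSucc 23, .ofNat 0, .ofNat 0, .ofNat 299, .ofNat 311, .ofNat 0, .ofNat 0, .ofNat 2147728562265004667391395483806072832, .ofNat 0, .ofNat 0, .ofNat 0, .ofNat 0, .ofNat 0, .ofNat 0, .ofNat 0, .ofNat 14372469034111774935923962405858574336,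 .ofNat 0, .ofNat 0, .ofNat 0, .ofNat 0, .ofNat 0⟩)
    (by decide +kernel)
theorem L01105 : Good (Phi V5.P V5.D 1 1) ⟨3, 5, 2, 0, 2, 3, 2, 2, 5, 5⟩ :=
  leafX_sound T5.ok_pp T5.Ypp.bz_eq (w := 207) (c := ⟨⟨.negSucc 3141, .negSucc 698, .ofNat 113, .ofNat 585, .negSucc 832, .ofNat 240⟩, ⟨.negSucc 330, .negSucc 348, .negSucc 572, .ofNat 258, .negSucc 210, .ofNat 51⟩, ⟨.ofNat 1904, .ofNat 373, .ofNat 1, .negSucc 674, .ofNat 928, .negSucc 22⟩, ⟨.negSucc 5758, .negSucc 623, .negSucc 42, .ofNat 401, .negSucc 1516, .ofNat 467⟩, ⟨.negSucc 73, .ofNat 171, .ofNat 317, .ofNat 2101, .ofNat 102, .negSucc 277⟩, .ofNat 314, .negSucc 103, .ofNat 0, .negSucc 103, .ofNat 685, .ofNat 0, .ofNat 210, .ofNat 84, .negSucc 147, .ofNat 0, .ofNat 128, .negSucc 0, .ofNat 0, .ofNat 0, .ofNat 280, .ofNat 525, .ofNat 0, .ofNat 0, .ofNat 3549283494808444569064220688499343360, .ofNat 0, .ofNat 0, .ofNat 0, .ofNat 17573457837777986354113080890992099328,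 .ofNat 0, .ofNat 0, .ofNat 0, .ofNat 0, .ofNat 0, .ofNat 0, .ofNat 0, .ofNat 0, .ofNat 0⟩)
    (by decide +kernel)
theorem L01106 : Good (Phi V5.P V5.D 1 1) ⟨3, 5, 2, 0, 2, 2, 3, 6, 4, 2⟩ :=
  leafX_sound T5.ok_pp T5.Ypp.bz_eq (w := 205) (c := ⟨⟨.negSucc 2212, .negSucc 1057, .negSucc 65, .negSucc 1279, .negSucc 592, .ofNat 181⟩, ⟨.negSucc 108, .negSucc 605, .negSucc 558, .negSucc 274, .negSucc 133, .ofNat 46⟩, ⟨.ofNat 2022, .ofNat 716, .ofNat 67, .ofNat 595, .ofNat 715, .negSucc 53⟩, ⟨.negSucc 4372, .negSucc 947, .negSucc 118, .negSucc 2423, .negSucc 1050, .ofNat 451⟩, ⟨.negSucc 234, .negSucc 48, .ofNat 229, .ofNat 581, .ofNat 9, .negSucc 555⟩, .ofNat 451, .negSucc 307, .ofNat 0, .negSucc 307, .ofNat 1518, .ofNat 0, .ofNat 237, .ofNat 128, .negSucc 156, .ofNat 0, .ofNat 97, .negSucc 24, .ofNat 0, .ofNat 0, .ofNat 302, .ofNat 182, .ofNat 0, .ofNat 0, .ofNat 0, .ofNat 0, .ofNat 0, .ofNat 0, .ofNat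 0, .ofNat 0, .ofNat 0, .ofNat 0, .ofNat 0, .ofNat 0, .ofNat 0, .ofNat 0, .ofNat 0, .ofNat 0⟩)
    (by decide +kernel)
theorem L01107 : Good (Phi V5.P V5.D 1 1) ⟨3, 5, 2, 0, 2, 2, 3, 7, 4, 2⟩ :=
  leafX_sound T5.ok_pp T5.Ypp.bz_eq (w := 205) (c := ⟨⟨.negSucc 2617, .negSucc 1623, .ofNat 49, .negSucc 1355, .negSucc 1348, .ofNat 354⟩, ⟨.negSucc 97, .negSucc 803, .negSucc 562, .negSucc 272, .negSucc 382, .ofNat 22⟩, ⟨.ofNat 2650, .ofNat 1075, .negSucc 20, .ofNat 720, .ofNat 1228, .negSucc 295⟩, ⟨.negSucc 5181, .negSucc 1765, .negSucc 9, .negSucc 2593, .negSucc 2369, .ofNat 834⟩, ⟨.negSucc 67, .ofNat 138, .ofNat 436, .ofNat 321, .negSucc 19, .negSucc 919⟩, .ofNat 448, .negSucc 292, .ofNat 0, .negSucc 292, .ofNat 1522, .ofNat 0, .ofNat 204, .ofNat 128, .negSucc 206, .ofNat 0, .ofNat 98, .negSucc 30, .ofNat 0, .ofNat 0, .ofNat 352, .ofNat 86, .ofNat 0, .ofNat 0, .ofNat 1178658953344966672847096305464377344,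 .ofNat 0, .ofNat 0, .ofNat 3614201408031297763056709502573995884544, .ofNat 15122396715735518358370032904088584192, .ofNat 0, .ofNat 0, .ofNat 3123237234286699377149591026637519978496, .ofNat 0, .ofNat 0, .ofNat 0, .ofNat 6004715820038656771346639706620828844032, .ofNat 0, .ofNat 0⟩)
    (by decide +kernel)
theorem L01108 : Good (Phi V5.P V5.D 1 1) ⟨3, 5, 2, 0, 3, 6, 2, 3, 4, 2⟩ :=
  leafX_sound T5.ok_pp T5.Ypp.bz_eq (w := 215) (c := ⟨⟨.negSucc 4061, .negSucc 1334, .ofNat 93, .negSucc 16, .negSucc 1205, .ofNat 1091⟩, ⟨.negSucc 385, .negSucc 667, .negSucc 715, .ofNat 71, .negSucc 259, .ofNat 231⟩, ⟨.ofNat 3002, .ofNat 694, .ofNat 77, .negSucc 321, .ofNat 1508, .negSucc 550⟩, ⟨.negSucc 7721, .negSucc 1394, .negSucc 91, .negSucc 344, .negSucc 2332, .ofNat 2151⟩, ⟨.ofNat 446, .ofNat 221, .ofNat 625, .ofNat 989, .ofNat 816, .negSucc 1265⟩, .ofNat 449, .negSucc 302, .ofNat 0, .negSucc 302, .ofNat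 1525, .ofNat 0, .ofNat 170, .ofNat 128, .negSucc 166, .ofNat 0, .ofNat 94, .negSucc 19, .ofNat 0, .ofNat 0, .ofNat 302, .ofNat 131, .ofNat 0, .ofNat 0, .ofNat 0, .ofNat 0, .ofNat 0, .ofNat 1676072716253530326717696081157924491100160, .ofNat 10300036266964906682543489650911747244032, .ofNat 0, .ofNat 0, .ofNat 0, .ofNat 0, .ofNat 0, .ofNat 0, .ofNat 2875224735175007044257710485959123406946304, .ofNat 0, .ofNat 0⟩)
    (by decide +kernel)
theorem L01109 : Good (Phi V5.P V5.D 1 1) ⟨3, 5, 2, 0, 3, 7, 3, 6, 4, 2⟩ :=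
  leafX_sound T5.ok_pp T5.Ypp.bz_eq (w := 220) (c := ⟨⟨.negSucc 4477, .negSucc 733, .ofNat 232, .ofNat 412, .negSucc 500, .ofNat 957⟩, ⟨.negSucc 532, .negSucc 325, .negSucc 725, .ofNat 228, .negSucc 79, .ofNat 210⟩, ⟨.ofNat 2963, .ofNat 264, .ofNat 32, .negSucc 744, .ofNat 496, .negSucc 235⟩, ⟨.negSucc 8349, .negSucc 657, .negSucc 178, .ofNat 345, .negSucc 1026, .ofNat 1805⟩, ⟨.ofNat 929, .ofNat 309, .ofNat 1128, .ofNat 1395, .ofNat 636, .negSucc 682⟩, .ofNat 454, .negSucc 315, .ofNat 0, .negSucc 315, .ofNat 1537, .ofNat 0, .ofNat 232, .ofNat 128, .negSucc 123, .ofNat 0, .ofNat 100, .negSucc 10, .ofNat 0, .ofNat 0, .ofNat 300, .ofNat 273, .ofNat 0, .ofNat 0, .ofNat 0, .ofNat 0, .ofNat 0, .ofNat 0, .ofNat 0, .ofNat 0, .ofNat 0, .ofNat 0, .ofNat 0, .ofNat 0, .ofNat 0, .ofNat 0, .ofNat 0, .ofNat 0⟩)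
    (by decide +kernel)
theorem L01110 : Good (Phi V5.P V5.D 1 1) ⟨3, 5, 2, 0, 3, 7, 3, 7, 4, 2⟩ :=
  leafX_sound T5.ok_pp T5.Ypp.bz_eq (w := 220) (c := ⟨⟨.negSucc 4895, .negSucc 1352, .ofNat 451, .ofNat 531, .negSucc 301, .ofNat 1212⟩, ⟨.negSucc 499, .negSucc 520, .negSucc 787, .ofNat 231, .negSucc 9, .ofNat 272⟩, ⟨.ofNat 3613, .ofNat 554, .negSucc 116, .negSucc 1041, .ofNat 619, .negSucc 428⟩, ⟨.negSucc 9167, .negSucc 1610, .negSucc 2, .ofNat 482, .negSucc 1039, .ofNat 2202⟩, ⟨.ofNat 1355, .ofNat 419, .ofNat 1451, .ofNat 1323, .ofNat 1002, .negSucc 810⟩, .ofNat 449, .negSucc 302, .ofNat 0, .negSucc 302, .ofNat 1525, .ofNat 0, .ofNat 211, .ofNat 128, .negSucc 111, .ofNat 0, .ofNat 98, .negSucc 5, .ofNat 0, .ofNat 0, .ofNat 312, .ofNat 220, .ofNat 0, .ofNat 2091483910895238704804949686282486707912704, .ofNat 19637821365416042065966475992345478168576, .ofNat 0, .ofNat 0, .ofNat 27456112840146229494806995673708504629116928,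 .ofNat 234084701042149525211177494261108677017600, .ofNat 0, .ofNat 0, .ofNat 5876448454939258927484702170357719680155648, .ofNat 48524912656845913090678573394735942074368, .ofNat 0, .ofNat 0, .ofNat 19520956817427323376376468118776612206411776, .ofNat 0, .ofNat 0⟩)
    (by decide +kernel)
theorem L01111 : Good (Phi V5.P V5.D 1 1) ⟨3, 5, 2, 0, 2, 2, 1, 1, 4, 3⟩ :=
  leafX_sound T5.ok_pp T5.Ypp.bz_eq (w := 197) (c := ⟨⟨.negSucc 2275, .negSucc 551, .negSucc 16, .negSucc 397, .negSucc 1001, .ofNat 245⟩, ⟨.negSucc 220, .negSucc 434, .negSucc 363, .negSucc 75, .negSucc 294, .ofNat 39⟩, ⟨.ofNat 1756, .ofNat 282, .ofNat 27, .negSucc 12, .ofNat 1622, .negSucc 58⟩, ⟨.negSucc 4367, .negSucc 284, .ofNat 35, .negSucc 808, .negSucc 1672, .ofNat 468⟩, ⟨.negSucc 193, .ofNat 104, .negSucc 24, .ofNat 245, .negSucc 563, .negSucc 234⟩, .ofNat 315, .negSucc 107, .ofNat 0, .negSucc 107, .ofNat 685, .ofNat 0, .ofNat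 307, .ofNat 85, .negSucc 111, .ofNat 0, .ofNat 128, .negSucc 5, .ofNat 0, .ofNat 0, .ofNat 337, .ofNat 238, .ofNat 0, .ofNat 0, .ofNat 1656045213415845016375588651270144, .ofNat 0, .ofNat 0, .ofNat 865247806316647587824649615710321901568, .ofNat 57829012490072670710161009780195328, .ofNat 0, .ofNat 0, .ofNat 504792169336623620354477834609979555840, .ofNat 0, .ofNat 0, .ofNat 0, .ofNat 275564033140589933790749607447668719616, .ofNat 43522993146348164524957239261265920, .ofNat 0⟩)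
    (by decide +kernel)
theorem L01112 : Good (Phi V5.P V5.D 1 1) ⟨3, 5, 2, 0, 2, 3, 2, 2, 4, 3⟩ :=
  leafX_sound T5.ok_pp T5.Ypp.bz_eq (w := 201) (c := ⟨⟨.negSucc 2975, .negSucc 433, .ofNat 76, .ofNat 480, .negSucc 633, .ofNat 426⟩, ⟨.negSucc 345, .negSucc 302, .negSucc 476, .ofNat 257, .negSucc 189, .ofNat 70⟩, ⟨.ofNat 1863, .ofNat 193, .negSucc 38, .negSucc 388, .ofNat 775, .ofNat 1⟩, ⟨.negSucc 5512, .negSucc 187, .negSucc 11, .ofNat 260, .negSucc 1093, .ofNat 900⟩, ⟨.negSucc 58, .ofNat 156, .ofNat 61, .ofNat 2052, .negSucc 78, .negSucc 449⟩, .ofNat 314, .negSucc 103, .ofNat 0, .negSucc 103, .ofNat 685, .ofNat 0, .ofNat 198, .ofNat 64, .negSucc 65, .ofNat 0, .ofNat 128, .ofNat 3, .ofNat 0, .ofNat 0, .ofNat 267, .ofNat 476, .ofNat 0, .ofNat 0, .ofNat 90333082055836803953877489213767680, .ofNat 0, .ofNat 0, .ofNat 0, .ofNat 673915299205908115530017933210157056, .ofNat 0, .ofNat 0, .ofNat 0,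 .ofNat 0, .ofNat 0, .ofNat 0, .ofNat 218622837370883060028721303270014844928, .ofNat 0, .ofNat 0⟩)
    (by decide +kernel)
theorem L01113 : Good (Phi V5.P V5.D 1 1) ⟨3, 5, 2, 0, 2, 3, 2, 3, 4, 3⟩ :=
  leafX_sound T5.ok_pp T5.Ypp.bz_eq (w := 201) (c := ⟨⟨.negSucc 3542, .negSucc 722, .ofNat 83, .ofNat 470, .negSucc 635, .ofNat 686⟩, ⟨.negSucc 389, .negSucc 459, .negSucc 597, .ofNat 302, .negSucc 178, .ofNat 127⟩, ⟨.ofNat 2881, .ofNat 306, .negSucc 26, .negSucc 803, .ofNat 960, .negSucc 255⟩, ⟨.negSucc 6585, .negSucc 444, .negSucc 43, .ofNat 186, .negSucc 1261, .ofNat 1403⟩, ⟨.negSucc 316, .ofNat 16, .ofNat 231, .ofNat 2564, .ofNat 336, .negSucc 606⟩, .ofNat 314, .negSucc 103, .ofNat 0, .negSucc 103, .ofNat 685, .ofNat 0, .ofNat 311, .ofNat 68, .negSucc 29, .ofNat 0, .ofNat 128, .ofNat 11, .ofNat 0, .ofNat 0, .ofNat 379, .ofNat 230, .ofNat 0, .ofNat 86323021557169886980334408599221567488, .ofNat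 121593828646826707375405625868550144, .ofNat 0, .ofNat 0, .ofNat 2309160402937406361089131699850140712960, .ofNat 0, .ofNat 0, .ofNat 0, .ofNat 1733767590237662075188315084926459314176, .ofNat 0, .ofNat 0, .ofNat 0, .ofNat 2870703091759222402952347050338590654464, .ofNat 901286149157910650518722542091370496, .ofNat 0⟩)
    (by decide +kernel)
theorem L01114 : Good (Phi V5.P V5.D 1 1) ⟨2, 3, 3, 0, 2, 2, 1, 1, 2, 0⟩ :=
  out_sound (S := T5.ds_pp) T5.ok_pp (w := 39) (j := 3) (by decide +kernel)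
theorem L01115 : Good (Phi V5.P V5.D 1 1) ⟨4, 12, 4, 2, 2, 2, 2, 2, 3, 0⟩ :=
  leafX_sound T5.ok_pp T5.Ypp.bz_eq (w := 207) (c := ⟨⟨.ofNat 2924, .negSucc 764, .ofNat 363, .negSucc 1045, .negSucc 1391, .negSucc 5822⟩, ⟨.ofNat 999, .negSucc 66, .ofNat 52, .negSucc 237, .negSucc 415, .negSucc 1941⟩, ⟨.negSucc 1914, .ofNat 352, .negSucc 192, .ofNat 317, .ofNat 1477, .ofNat 3736⟩, ⟨.ofNat 4702, .negSucc 1126, .ofNat 550, .negSucc 2005, .negSucc 2395, .negSucc 9320⟩, ⟨.ofNat 735, .ofNat 253, .negSucc 143, .ofNat 741, .ofNat 89, .negSucc 1108⟩, .ofNat 536, .negSucc 459, .ofNat 0, .negSucc 459, .ofNat 1470, .ofNat 0, .ofNat 128, .ofNat 168, .negSucc 282, .ofNat 0, .ofNat 115, .negSucc 76, .ofNat 0, .ofNat 0, .ofNat 317, .ofNat 124, .ofNat 0, .ofNat 0, .ofNat 3815995460919882093328884855472128, .ofNat 0, .ofNat 0, .ofNat 0, .ofNat 74094707990551978652648900202070016, .ofNat 0, .ofNat 0, .ofNat 0, .ofNat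 78991180786860839714767466668228608, .ofNat 0, .ofNat 0, .ofNat 0, .ofNat 118801336729165955085337597883449344, .ofNat 0⟩)
    (by decide +kernel)
theorem L01116 : Good (Phi V5.P V5.D 1 1) ⟨4, 12, 4, 3, 2, 2, 2, 2, 3, 0⟩ :=
  leafX_sound T5.ok_pp T5.Ypp.bz_eq (w := 207) (c := ⟨⟨.ofNat 3083, .negSucc 369, .negSucc 93, .negSucc 1349, .negSucc 1515, .negSucc 5568⟩, ⟨.ofNat 1208, .negSucc 257, .negSucc 109, .negSucc 413, .negSucc 534, .negSucc 2037⟩, ⟨.negSucc 2081, .ofNat 279, .ofNat 51, .ofNat 475, .ofNat 1586, .ofNat 3709⟩, ⟨.ofNat 4827, .negSucc 318, .negSucc 218, .negSucc 2592, .negSucc 2588, .negSucc 8667⟩, ⟨.ofNat 340, .ofNat 368, .negSucc 51, .ofNat 1013, .ofNat 275, .negSucc 1005⟩, .ofNat 603, .negSucc 612, .ofNat 0, .negSucc 612, .ofNat 1776, .ofNat 0, .ofNat 128, .ofNat 202, .negSucc 279, .ofNat 0, .ofNat 127, .negSucc 86, .ofNat 0, .ofNat 0, .ofNat 316, .ofNat 105, .ofNat 0, .ofNat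 0, .ofNat 2587325153254094537892260147625984, .ofNat 0, .ofNat 0, .ofNat 0, .ofNat 34268387742142381361050464414597120, .ofNat 0, .ofNat 0, .ofNat 0, .ofNat 152389817913459767266936377013436416, .ofNat 0, .ofNat 0, .ofNat 0, .ofNat 94825955879401851965258111138136064, .ofNat 0⟩)
    (by decide +kernel)
theorem L01117 : Good (Phi V5.P V5.D 1 1) ⟨4, 13, 3, 1, 2, 2, 2, 2, 3, 0⟩ :=
  out_sound (S := T5.ds_pp) T5.ok_pp (w := 51) (j := 3) (by decide +kernel)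
theorem L01118 : Good (Phi V5.P V5.D 1 1) ⟨3, 7, 3, 1, 2, 2, 2, 2, 3, 0⟩ :=
  out_sound (S := T5.ds_pp) T5.ok_pp (w := 45) (j := 3) (by decide +kernel)
theorem L01119 : Good (Phi V5.P V5.D 1 1) ⟨3, 6, 3, 1, 2, 2, 2, 2, 3, 1⟩ :=
  leafX_sound T5.ok_pp T5.Ypp.bz_eq (w := 199) (c := ⟨⟨.negSucc 3079, .negSucc 483, .negSucc 146, .negSucc 495, .negSucc 648, .ofNat 709⟩, ⟨.negSucc 877, .negSucc 539, .negSucc 241, .negSucc 152, .negSucc 252, .ofNat 205⟩, ⟨.ofNat 2057, .ofNat 203, .ofNat 185, .negSucc 13, .ofNat 925, .negSucc 213⟩, ⟨.negSucc 5055, .ofNat 96, .negSucc 307, .negSucc 951, .negSucc 1059, .ofNat 1316⟩, ⟨.negSucc 113, .negSucc 322, .ofNat 225, .ofNat 334, .negSucc 51, .negSucc 514⟩, .ofNat 478, .negSucc 389, .ofNat 0, .negSucc 389, .ofNat 1275, .ofNat 0, .ofNat 194, .ofNat 128, .negSucc 116, .ofNat 0, .ofNat 100, .negSucc 26, .ofNat 0, .ofNat 0, .ofNat 318, .ofNat 252, .ofNat 0, .ofNat 0,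 .ofNat 5894188576876108039239909827936256, .ofNat 0, .ofNat 0, .ofNat 0, .ofNat 229160637460658743647006631158349824, .ofNat 0, .ofNat 0, .ofNat 0, .ofNat 126882255468598436245457994944348160, .ofNat 0, .ofNat 0, .ofNat 0, .ofNat 66127134755129952707912552813690880, .ofNat 0⟩)
    (by decide +kernel)
theorem L01120 : Good (Phi V5.P V5.D 1 1) ⟨3, 7, 3, 1, 2, 2, 2, 2, 3, 1⟩ :=
  out_sound (S := T5.ds_pp) T5.ok_pp (w := 45) (j := 3) (by decide +kernel)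
theorem L01121 : Good (Phi V5.P V5.D 1 1) ⟨4, 12, 3, 1, 2, 2, 3, 6, 4, 0⟩ :=
  leafX_sound T5.ok_pp T5.Ypp.bz_eq (w := 212) (c := ⟨⟨.ofNat 1159, .negSucc 1134, .ofNat 142, .negSucc 2363, .negSucc 1509, .negSucc 3057⟩, ⟨.ofNat 624, .negSucc 468, .negSucc 151, .negSucc 680, .negSucc 474, .negSucc 1162⟩, ⟨.negSucc 472, .ofNat 860, .negSucc 81, .ofNat 1308, .ofNat 1455, .ofNat 2060⟩, ⟨.ofNat 1887, .negSucc 1789, .ofNat 146, .negSucc 4528, .negSucc 2713, .negSucc 4790⟩, ⟨.negSucc 78, .ofNat 392, .ofNat 133, .ofNat 1969, .ofNat 703, .negSucc 498⟩, .ofNat 625, .negSucc 675, .ofNat 0, .negSucc 675, .ofNat 2013, .ofNat 0, .ofNat 128, .ofNat 151, .negSucc 348, .ofNat 0, .ofNat 91, .negSucc 111, .ofNat 0, .ofNat 0, .ofNat 335, .ofNat 83, .ofNat 0, .ofNat 0, .ofNat 0, .ofNat 0, .ofNat 0, .ofNat 0, .ofNat 14095203595585437063766995233518125056, .ofNat 0, .ofNat 0, .ofNat 0, .ofNat 20156609005517693865371269492140670976,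 .ofNat 0, .ofNat 0, .ofNat 0, .ofNat 24452250282729340470528880131669229568, .ofNat 0⟩)
    (by decide +kernel)
theorem L01122 : Good (Phi V5.P V5.D 1 1) ⟨4, 12, 3, 1, 2, 2, 3, 6, 4, 1⟩ :=
  leafX_sound T5.ok_pp T5.Ypp.bz_eq (w := 212) (c := ⟨⟨.negSucc 1857, .negSucc 1195, .ofNat 24, .negSucc 2943, .negSucc 1302, .negSucc 600⟩, ⟨.negSucc 333, .negSucc 575, .negSucc 359, .negSucc 901, .negSucc 431, .negSucc 260⟩, ⟨.ofNat 1667, .ofNat 863, .ofNat 47, .ofNat 1521, .ofNat 1299, .ofNat 479⟩, ⟨.negSucc 2994, .negSucc 1747, .ofNat 10, .negSucc 5342, .negSucc 2359, .negSucc 757⟩, ⟨.negSucc 426, .ofNat 903, .negSucc 3, .ofNat 1574, .ofNat 697, .negSucc 661⟩, .ofNat 630, .negSucc 689, .ofNat 0, .negSucc 689, .ofNat 2052, .ofNat 0, .ofNat 128, .ofNat 164, .negSucc 257, .ofNat 0, .ofNat 101, .negSucc 77, .ofNat 0, .ofNat 0, .ofNat 314, .ofNat 109, .ofNat 0, .ofNat 0, .ofNat 971521858843714684788709174942892032,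 .ofNat 0, .ofNat 0, .ofNat 0, .ofNat 28575275990348141235506831639831379968, .ofNat 0, .ofNat 0, .ofNat 0, .ofNat 28962048398086953366470786449900830720, .ofNat 0, .ofNat 0, .ofNat 0, .ofNat 9101536623741126035018182662134169600, .ofNat 0⟩)
    (by decide +kernel)
theorem L01123 : Good (Phi V5.P V5.D 1 1) ⟨4, 12, 3, 1, 3, 4, 3, 7, 4, 0⟩ :=
  leafX_sound T5.ok_pp T5.Ypp.bz_eq (w := 226) (c := ⟨⟨.negSucc 641, .negSucc 737, .ofNat 224, .negSucc 1292, .negSucc 1814, .negSucc 2370⟩, ⟨.ofNat 56, .negSucc 339, .negSucc 206, .negSucc 333, .negSucc 530, .negSucc 903⟩, ⟨.ofNat 1123, .ofNat 610, .negSucc 181, .ofNat 850, .ofNat 1845, .ofNat 1643⟩, ⟨.negSucc 1380, .negSucc 895, .ofNat 251, .negSucc 2418, .negSucc 3184, .negSucc 3606⟩, ⟨.ofNat 924, .ofNat 275, .ofNat 118, .ofNat 858, .ofNat 574, .negSucc 891⟩, .ofNat 623, .negSucc 675, .ofNat 0, .negSucc 675, .ofNat 2037, .ofNat 0, .ofNat 128, .ofNat 166,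 .negSucc 427, .ofNat 0, .ofNat 105, .negSucc 137, .ofNat 0, .ofNat 0, .ofNat 420, .ofNat 55, .ofNat 0, .ofNat 0, .ofNat 0, .ofNat 0, .ofNat 0, .ofNat 0, .ofNat 254513539696519126004783645857528011554816, .ofNat 0, .ofNat 0, .ofNat 0, .ofNat 301456217246720595405487885162961937891328, .ofNat 0, .ofNat 0, .ofNat 2387030815135743113005985918108831670371090432, .ofNat 582013285550471274764057967771299914711040, .ofNat 0⟩)
    (by decide +kernel)
theorem L01124 : Good (Phi V5.P V5.D 1 1) ⟨4, 12, 3, 1, 3, 5, 3, 7, 4, 0⟩ :=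
  leafX_sound T5.ok_pp T5.Ypp.bz_eq (w := 228) (c := ⟨⟨.negSucc 746, .negSucc 3316, .ofNat 1194, .negSucc 2883, .negSucc 2889, .negSucc 3871⟩, ⟨.ofNat 273, .negSucc 1300, .negSucc 93, .negSucc 868, .negSucc 798, .negSucc 1436⟩, ⟨.ofNat 1286, .ofNat 2412, .negSucc 894, .ofNat 1674, .ofNat 2656, .ofNat 2470⟩, ⟨.negSucc 1427, .negSucc 5381, .ofNat 1597, .negSucc 5449, .negSucc 5079, .negSucc 6311⟩, ⟨.ofNat 608, .ofNat 1196, .ofNat 885, .ofNat 2443, .ofNat 1000, .negSucc 586⟩, .ofNat 565, .negSucc 528, .ofNat 0, .negSucc 528, .ofNat 1607, .ofNat 0, .ofNat 128, .ofNat 177, .negSucc 778, .ofNat 0, .ofNat 112, .negSucc 250, .ofNat 0, .ofNat 0, .ofNat 603, .ofNat 57, .ofNat 0, .ofNat 0, .ofNat 43041956105984513927159298685779365068800, .ofNat 0, .ofNat 0, .ofNat 234834446815197179706235689314604299910643712, .ofNat 604459423518278335152244163296147596640256, .ofNat 0, .ofNat 0, .ofNat 0, .ofNat 554319179157431965068757643519215496331264,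 .ofNat 0, .ofNat 0, .ofNat 2758537947334493078932387801029374808739020800, .ofNat 1409737503769985114340495914427300968398848, .ofNat 0⟩)
    (by decide +kernel)
theorem L01125 : Good (Phi V5.P V5.D 1 1) ⟨4, 12, 3, 1, 2, 2, 3, 7, 5, 2⟩ :=
  leafX_sound T5.ok_pp T5.Ypp.bz_eq (w := 218) (c := ⟨⟨.negSucc 2063, .negSucc 2371, .ofNat 577, .negSucc 4549, .negSucc 3416, .negSucc 1171⟩, ⟨.negSucc 326, .negSucc 1052, .negSucc 306, .negSucc 1330, .negSucc 1069, .negSucc 449⟩, ⟨.ofNat 2229, .ofNat 1646, .negSucc 331, .ofNat 2591, .ofNat 2962, .ofNat 765⟩, ⟨.negSucc 3325, .negSucc 3614, .ofNat 860, .negSucc 8305, .negSucc 6026, .negSucc 1786⟩, ⟨.negSucc 541, .ofNat 1126, .ofNat 50, .ofNat 2599, .ofNat 1343, .negSucc 284⟩, .ofNat 619, .negSucc 633, .ofNat 0, .negSucc 633, .ofNat 1868, .ofNat 0, .ofNat 136, .ofNat 128, .negSucc 394, .ofNat 0, .ofNat 84, .negSucc 121, .ofNat 0, .ofNat 0, .ofNat 366, .ofNat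 52, .ofNat 0, .ofNat 0, .ofNat 60789344928889375271068671800850251776, .ofNat 0, .ofNat 0, .ofNat 0, .ofNat 493343799759406384039897749107899367424, .ofNat 0, .ofNat 0, .ofNat 760094911012239922617178868078777917767680, .ofNat 598823235268655182818043475747628122112, .ofNat 0, .ofNat 0, .ofNat 3950822860974231580958057988143173102206976, .ofNat 919390036751006279237661835824619061248, .ofNat 0⟩)
    (by decide +kernel)
theorem L01126 : Good (Phi V5.P V5.D 1 1) ⟨4, 12, 3, 1, 2, 2, 3, 7, 5, 3⟩ :=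
  leafX_sound T5.ok_pp T5.Ypp.bz_eq (w := 218) (c := ⟨⟨.negSucc 3589, .negSucc 1976, .ofNat 366, .negSucc 3203, .negSucc 3033, .ofNat 316⟩, ⟨.negSucc 843, .negSucc 912, .negSucc 335, .negSucc 938, .negSucc 1030, .ofNat 56⟩, ⟨.ofNat 3410, .ofNat 1328, .negSucc 246, .ofNat 1677, .ofNat 2510, .negSucc 281⟩, ⟨.negSucc 5808, .negSucc 2640, .ofNat 420, .negSucc 5936, .negSucc 5244, .ofNat 687⟩, ⟨.negSucc 667, .ofNat 311, .ofNat 455, .ofNat 2054, .ofNat 848, .negSucc 442⟩, .ofNat 565, .negSucc 528, .ofNat 0, .negSucc 528, .ofNat 1607, .ofNat 0, .ofNat 128, .ofNat 148, .negSucc 386, .ofNat 0, .ofNat 100, .negSucc 112, .ofNat 0, .ofNat 0, .ofNat 401, .ofNat 63, .ofNat 0, .ofNat 0, .ofNat 71437437240878078249620549516843286528, .ofNat 0, .ofNat 0, .ofNat 2510963685702040694360058086748198094766080, .ofNat 290269404732190442121543395824763928576, .ofNat 0, .ofNat 0, .ofNat 0, .ofNat 645721768948136312828327250689255276544,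 .ofNat 0, .ofNat 0, .ofNat 0, .ofNat 1084985522472285628520039991391280955392, .ofNat 0⟩)
    (by decide +kernel)
theorem L01127 : Good (Phi V5.P V5.D 1 1) ⟨4, 13, 3, 1, 2, 2, 2, 3, 3, 0⟩ :=
  out_sound (S := T5.ds_pp) T5.ok_pp (w := 51) (j := 3) (by decide +kernel)
theorem L01128 : Good (Phi V5.P V5.D 1 1) ⟨3, 7, 3, 1, 2, 2, 2, 3, 3, 0⟩ :=
  out_sound (S := T5.ds_pp) T5.ok_pp (w := 45) (j := 3) (by decide +kernel)
theorem L01129 : Good (Phi V5.P V5.D 1 1) ⟨4, 12, 3, 1, 2, 2, 3, 6, 3, 1⟩ :=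
  leafX_sound T5.ok_pp T5.Ypp.bz_eq (w := 208) (c := ⟨⟨.negSucc 3832, .negSucc 875, .ofNat 162, .negSucc 824, .negSucc 589, .ofNat 991⟩, ⟨.negSucc 1093, .negSucc 497, .negSucc 183, .negSucc 266, .negSucc 222, .ofNat 262⟩, ⟨.ofNat 3302, .ofNat 482, .negSucc 121, .ofNat 172, .ofNat 591, .negSucc 670⟩, ⟨.negSucc 6340, .negSucc 1068, .ofNat 247, .negSucc 1566, .negSucc 906, .ofNat 1961⟩, ⟨.negSucc 64, .ofNat 391, .ofNat 68, .ofNat 450, .negSucc 162, .negSucc 973⟩, .ofNat 471, .negSucc 373, .ofNat 0, .negSucc 373, .ofNat 1257, .ofNat 0, .ofNat 233, .ofNat 128, .negSucc 148, .ofNat 0, .ofNat 100, .negSucc 34, .ofNat 0, .ofNat 0, .ofNat 356, .ofNat 222, .ofNat 0, .ofNat 0, .ofNat 43444650432460699388025694333173760, .ofNat 0, .ofNat 0, .ofNat 0, .ofNat 1213225999343239498569953246447665152, .ofNat 0, .ofNat 0, .ofNat 0, .ofNat 1035670908638566259654614055215169536, .ofNat 0, .ofNat 0, .ofNat 0, .ofNat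 1473890189245511397002828077781221376, .ofNat 0⟩)
    (by decide +kernel)
theorem L01130 : Good (Phi V5.P V5.D 1 1) ⟨4, 12, 3, 1, 2, 2, 3, 7, 3, 1⟩ :=
  leafX_sound T5.ok_pp T5.Ypp.bz_eq (w := 207) (c := ⟨⟨.negSucc 4521, .negSucc 682, .ofNat 119, .negSucc 1054, .negSucc 1690, .ofNat 1091⟩, ⟨.negSucc 1313, .negSucc 508, .negSucc 237, .negSucc 315, .negSucc 575, .ofNat 289⟩, ⟨.ofNat 4010, .ofNat 336, .negSucc 22, .ofNat 372, .ofNat 1339, .negSucc 969⟩, ⟨.negSucc 7538, .negSucc 479, .ofNat 206, .negSucc 1923, .negSucc 2820, .ofNat 2168⟩, ⟨.negSucc 80, .negSucc 110, .ofNat 97, .ofNat 575, .ofNat 182, .negSucc 1115⟩, .ofNat 642, .negSucc 679, .ofNat 0, .negSucc 679, .ofNat 1981, .ofNat 0, .ofNat 163, .ofNat 128, .negSucc 146, .ofNat 0, .ofNat 94, .negSucc 39, .ofNat 0, .ofNat 0, .ofNat 283, .ofNat 77, .ofNat 0, .ofNat 4992609845648873338826153412183522803712, .ofNat 46346450996416886481509901116899328,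 .ofNat 0, .ofNat 0, .ofNat 52831579761372630291756307995575244029952, .ofNat 1038313498591507002205149845375680512, .ofNat 0, .ofNat 0, .ofNat 45265869211991445465188304148813389496320, .ofNat 487287552113850195101885481533571072, .ofNat 0, .ofNat 0, .ofNat 77036523192068973080467636315105248935936, .ofNat 164777745563714139011211001591758848, .ofNat 0⟩)
    (by decide +kernel)
theorem L01131 : Good (Phi V5.P V5.D 1 1) ⟨4, 13, 3, 1, 2, 2, 2, 3, 3, 1⟩ :=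
  out_sound (S := T5.ds_pp) T5.ok_pp (w := 51) (j := 3) (by decide +kernel)
theorem L01132 : Good (Phi V5.P V5.D 1 1) ⟨3, 7, 3, 1, 2, 2, 2, 3, 3, 1⟩ :=
  out_sound (S := T5.ds_pp) T5.ok_pp (w := 45) (j := 3) (by decide +kernel)
theorem L01133 : Good (Phi V5.P V5.D 1 1) ⟨4, 12, 3, 0, 2, 3, 2, 2, 3, 0⟩ :=
  out_sound (S := T5.ds_pp) T5.ok_pp (w := 51) (j := 3) (by decide +kernel)
theorem L01134 : Good (Phi V5.P V5.D 1 1) ⟨4, 12, 3, 1, 3, 6, 2, 2, 4, 0⟩ :=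
  leafX_sound T5.ok_pp T5.Ypp.bz_eq (w := 224) (c := ⟨⟨.ofNat 4040, .negSucc 598, .negSucc 56, .negSucc 2076, .negSucc 4218, .negSucc 5392⟩, ⟨.ofNat 1755, .negSucc 124, .negSucc 273, .negSucc 628, .negSucc 1410, .negSucc 2014⟩, ⟨.negSucc 2711, .ofNat 268, .ofNat 192, .ofNat 1085, .ofNat 3061, .ofNat 2956⟩, ⟨.ofNat 6496, .negSucc 995, .negSucc 511, .negSucc 3871, .negSucc 7241, .negSucc 8525⟩, ⟨.ofNat 155, .ofNat 238, .ofNat 1095, .ofNat 1408, .ofNat 1023, .negSucc 591⟩, .ofNat 631, .negSucc 689, .ofNat 0, .negSucc 689, .ofNat 2034, .ofNat 0, .ofNat 128, .ofNat 170, .negSucc 386, .ofNat 0, .ofNat 92, .negSucc 123, .ofNat 0, .ofNat 0, .ofNat 306, .ofNat 100, .ofNat 0, .ofNat 0, .ofNat 1946652617960875549276965355479139090432, .ofNat 0, .ofNat 0, .ofNat 0, .ofNat 40697074577828097682922252338319794896896, .ofNat 0, .ofNat 0, .ofNat 0, .ofNat 24790806731506030263543886225802663034880, .ofNat 0,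 .ofNat 0, .ofNat 0, .ofNat 28703249835121431113075520255308003803136, .ofNat 0⟩)
    (by decide +kernel)
theorem L01135 : Good (Phi V5.P V5.D 1 1) ⟨4, 12, 3, 1, 4, 14, 2, 2, 5, 0⟩ :=
  leafX_sound T5.ok_pp T5.Ypp.bz_eq (w := 242) (c := ⟨⟨.ofNat 1716, .negSucc 891, .negSucc 442, .negSucc 26, .negSucc 4840, .negSucc 2130⟩, ⟨.ofNat 949, .negSucc 195, .negSucc 370, .ofNat 51, .negSucc 1583, .negSucc 810⟩, ⟨.negSucc 1102, .ofNat 665, .ofNat 198, .negSucc 16, .ofNat 3003, .ofNat 939⟩, ⟨.ofNat 2219, .negSucc 1675, .negSucc 1134, .negSucc 199, .negSucc 8276, .negSucc 3234⟩, ⟨.ofNat 1998, .ofNat 893, .ofNat 717, .ofNat 381, .ofNat 1070, .negSucc 696⟩, .ofNat 629, .negSucc 687, .ofNat 0, .negSucc 687, .ofNat 2053, .ofNat 0, .ofNat 128, .ofNat 217, .negSucc 514, .ofNat 0, .ofNat 114, .negSucc 163, .ofNat 0, .ofNat 0, .ofNat 364, .ofNat 128, .ofNat 0, .ofNat 0, .ofNat 479496506223552314930496601044959534015053824,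 .ofNat 0, .ofNat 0, .ofNat 0, .ofNat 25182455257535811207213943932829629413041635328, .ofNat 0, .ofNat 0, .ofNat 0, .ofNat 19350337060166117715019996089729445883161870336, .ofNat 0, .ofNat 0, .ofNat 0, .ofNat 15605412250715296461896670860134307354258702336, .ofNat 0⟩)
    (by decide +kernel)
theorem L01136 : Good (Phi V5.P V5.D 1 1) ⟨4, 12, 3, 1, 4, 15, 3, 4, 5, 0⟩ :=
  leafX_sound T5.ok_pp T5.Ypp.bz_eq (w := 246) (c := ⟨⟨.ofNat 834, .ofNat 1063, .negSucc 824, .ofNat 2014, .negSucc 1687, .negSucc 1547⟩, ⟨.ofNat 572, .ofNat 674, .negSucc 365, .ofNat 760, .negSucc 560, .negSucc 662⟩, ⟨.negSucc 384, .negSucc 308, .ofNat 298, .negSucc 597, .ofNat 875, .ofNat 346⟩, ⟨.ofNat 627, .ofNat 1308, .negSucc 1766, .ofNat 3150, .negSucc 2905, .negSucc 2145⟩, ⟨.ofNat 2945, .ofNat 640, .ofNat 412, .ofNat 352, .ofNat 249, .negSucc 1082⟩, .ofNat 475, .negSucc 383, .ofNat 0, .negSucc 383, .ofNat 1266, .ofNat 0,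 .ofNat 128, .ofNat 263, .negSucc 448, .ofNat 0, .ofNat 145, .negSucc 127, .ofNat 0, .ofNat 0, .ofNat 311, .ofNat 417, .ofNat 0, .ofNat 0, .ofNat 36083846593553478123191938442072256825492766720, .ofNat 0, .ofNat 0, .ofNat 0, .ofNat 88868924225245218118624414663443431199445352448, .ofNat 0, .ofNat 0, .ofNat 0, .ofNat 460798389767619887243164798821981696479092277248, .ofNat 0, .ofNat 0, .ofNat 0, .ofNat 442336904737294687057377639011561867697299914752, .ofNat 0⟩)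
    (by decide +kernel)
theorem L01137 : Good (Phi V5.P V5.D 1 1) ⟨4, 12, 3, 1, 4, 15, 3, 5, 5, 0⟩ :=
  leafX_sound T5.ok_pp T5.Ypp.bz_eq (w := 245) (c := ⟨⟨.negSucc 1645, .ofNat 117, .negSucc 337, .ofNat 2471, .negSucc 1832, .negSucc 1068⟩, ⟨.negSucc 203, .ofNat 288, .negSucc 298, .ofNat 896, .negSucc 572, .negSucc 425⟩, ⟨.ofNat 1039, .ofNat 195, .ofNat 15, .negSucc 1111, .ofNat 967, .ofNat 242⟩, ⟨.negSucc 3444, .negSucc 151, .negSucc 1061, .ofNat 3989, .negSucc 3287, .negSucc 1519⟩, ⟨.ofNat 2797, .ofNat 947, .ofNat 771, .ofNat 150, .ofNat 715, .negSucc 815⟩, .ofNat 472, .negSucc 375, .ofNat 0, .negSucc 375, .ofNat 1253, .ofNat 0, .ofNat 128, .ofNat 149, .negSucc 351, .ofNat 0, .ofNat 81, .negSucc 95, .ofNat 0, .ofNat 0, .ofNat 234, .ofNat 156, .ofNat 0, .ofNat 0, .ofNat 11783960576043065029554341089780194399955714048, .ofNat 0, .ofNat 0, .ofNat 0, .ofNat 0, .ofNat 0, .ofNat 0, .ofNat 0, .ofNat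 153938620209370111483641981861851019286830645248, .ofNat 0, .ofNat 0, .ofNat 0, .ofNat 163638257388075274563431880494949621508010409984, .ofNat 0⟩)
    (by decide +kernel)
theorem L01138 : Good (Phi V5.P V5.D 1 1) ⟨4, 12, 3, 1, 4, 14, 2, 2, 5, 1⟩ :=
  leafX_sound T5.ok_pp T5.Ypp.bz_eq (w := 242) (c := ⟨⟨.negSucc 1731, .negSucc 1741, .ofNat 466, .ofNat 784, .negSucc 4017, .negSucc 1481⟩, ⟨.negSucc 219, .negSucc 610, .negSucc 147, .ofNat 335, .negSucc 1278, .negSucc 516⟩, ⟨.ofNat 528, .ofNat 1076, .negSucc 202, .negSucc 581, .ofNat 2638, .ofNat 836⟩, ⟨.negSucc 3147, .negSucc 2942, .ofNat 360, .ofNat 1137, .negSucc 7114, .negSucc 2399⟩, ⟨.ofNat 1046, .ofNat 1043, .ofNat 778, .ofNat 433, .ofNat 1460, .negSucc 39⟩, .ofNat 474, .negSucc 379, .ofNat 0, .negSucc 379, .ofNat 1262, .ofNat 0, .ofNat 128, .ofNat 147, .negSucc 525, .ofNat 0, .ofNat 85, .negSucc 141, .ofNat 0, .ofNat 0, .ofNat 397, .ofNat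 304, .ofNat 0, .ofNat 0, .ofNat 1409827272535549887819862276490656001938161664, .ofNat 0, .ofNat 0, .ofNat 0, .ofNat 7308836070202227786489485535875761882594803712, .ofNat 0, .ofNat 0, .ofNat 0, .ofNat 11541655354443493321138153716105889304104927232, .ofNat 0, .ofNat 0, .ofNat 0, .ofNat 32793349601225806213752087985636585813988868096, .ofNat 0⟩)
    (by decide +kernel)
theorem L01139 : Good (Phi V5.P V5.D 1 1) ⟨4, 12, 3, 1, 4, 15, 2, 2, 5, 1⟩ :=
  leafX_sound T5.ok_pp T5.Ypp.bz_eq (w := 242) (c := ⟨⟨.negSucc 1365, .negSucc 674, .ofNat 160, .ofNat 2465, .negSucc 3232, .negSucc 1404⟩, ⟨.negSucc 135, .negSucc 58, .negSucc 174, .ofNat 878, .negSucc 1021, .negSucc 489⟩, ⟨.ofNat 480, .ofNat 612, .negSucc 196, .negSucc 1132, .ofNat 1926, .ofNat 602⟩, ⟨.negSucc 2669, .negSucc 1230, .negSucc 227, .ofNat 3949, .negSucc 5752, .negSucc 2223⟩, ⟨.ofNat 1652, .ofNat 849, .ofNat 716, .ofNat 134, .ofNat 1433,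 .negSucc 189⟩, .ofNat 629, .negSucc 687, .ofNat 0, .negSucc 687, .ofNat 2050, .ofNat 0, .ofNat 128, .ofNat 153, .negSucc 298, .ofNat 0, .ofNat 82, .negSucc 84, .ofNat 0, .ofNat 0, .ofNat 244, .ofNat 271, .ofNat 0, .ofNat 0, .ofNat 566112401766588339194723403734239131239186432, .ofNat 0, .ofNat 0, .ofNat 0, .ofNat 27294263789145739808942531594223668588384878592, .ofNat 0, .ofNat 0, .ofNat 0, .ofNat 10171256993822058057863465867443310198328918016, .ofNat 0, .ofNat 0, .ofNat 0, .ofNat 7417199132736364249887156964201057523085606912, .ofNat 0⟩)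
    (by decide +kernel)
theorem L01140 : Good (Phi V5.P V5.D 1 1) ⟨4, 12, 3, 1, 3, 6, 2, 2, 4, 1⟩ :=
  leafX_sound T5.ok_pp T5.Ypp.bz_eq (w := 223) (c := ⟨⟨.negSucc 3358, .negSucc 1135, .ofNat 179, .negSucc 514, .negSucc 2191, .negSucc 91⟩, ⟨.negSucc 776, .negSucc 509, .negSucc 331, .negSucc 49, .negSucc 719, .negSucc 62⟩, ⟨.ofNat 1492, .ofNat 700, .negSucc 1, .ofNat 78, .ofNat 1962, .ofNat 345⟩, ⟨.negSucc 5623, .negSucc 1481, .ofNat 22, .negSucc 1423, .negSucc 3837, .ofNat 51⟩, ⟨.ofNat 354, .ofNat 297, .ofNat 494, .ofNat 1554, .ofNat 671, .negSucc 566⟩, .ofNat 565, .negSucc 528, .ofNat 0, .negSucc 528, .ofNat 1607, .ofNat 0, .ofNat 128, .ofNat 156, .negSucc 375, .ofNat 0, .ofNat 96, .negSucc 100, .ofNat 0, .ofNat 0, .ofNat 373, .ofNat 235, .ofNat 0, .ofNat 0, .ofNat 1564232814069902262019363442269028876288, .ofNat 0, .ofNat 0, .ofNat 0, .ofNat 34250530020275220159262887302554315653120, .ofNat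 0, .ofNat 0, .ofNat 0, .ofNat 29697119506803719728351156804449906720768, .ofNat 0, .ofNat 0, .ofNat 0, .ofNat 23414002798456248721817339238945646444544, .ofNat 0⟩)
    (by decide +kernel)
theorem L01141 : Good (Phi V5.P V5.D 1 1) ⟨4, 12, 3, 1, 3, 7, 2, 2, 5, 2⟩ :=
  leafX_sound T5.ok_pp T5.Ypp.bz_eq (w := 229) (c := ⟨⟨.negSucc 3869, .negSucc 1004, .ofNat 334, .ofNat 2857, .negSucc 2841, .negSucc 699⟩, ⟨.negSucc 948, .negSucc 334, .negSucc 195, .ofNat 1058, .negSucc 879, .negSucc 220⟩, ⟨.ofNat 1861, .ofNat 472, .negSucc 106, .negSucc 1864, .ofNat 1920, .ofNat 473⟩, ⟨.negSucc 6731, .negSucc 1610, .ofNat 113, .ofNat 4519, .negSucc 5113, .negSucc 1174⟩, ⟨.ofNat 1352, .ofNat 808, .ofNat 740, .ofNat 316, .ofNat 1280, .ofNat 174⟩, .ofNat 555, .negSucc 532, .ofNat 0, .negSucc 532, .ofNat 1650, .ofNat 0, .ofNat 128, .ofNat 145, .negSucc 368, .ofNat 0, .ofNat 84, .negSucc 96, .ofNat 0, .ofNat 0, .ofNat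 343, .ofNat 280, .ofNat 0, .ofNat 0, .ofNat 65987289071627944482879249599822940864512, .ofNat 0, .ofNat 0, .ofNat 0, .ofNat 1265416012737160706966520545428877726449664, .ofNat 0, .ofNat 0, .ofNat 0, .ofNat 751861375077054629896857845821209726418944, .ofNat 0, .ofNat 0, .ofNat 0, .ofNat 1678902099202067588766881570737630167957504, .ofNat 0⟩)
    (by decide +kernel)
theorem L01142 : Good (Phi V5.P V5.D 1 1) ⟨4, 12, 3, 1, 3, 7, 2, 2, 5, 3⟩ :=
  leafX_sound T5.ok_pp T5.Ypp.bz_eq (w := 228) (c := ⟨⟨.negSucc 4240, .negSucc 432, .ofNat 0, .ofNat 1924, .negSucc 2087, .ofNat 49⟩, ⟨.negSucc 1012, .negSucc 128, .negSucc 392, .ofNat 780, .negSucc 651, .ofNat 2⟩, ⟨.ofNat 2183, .ofNat 260, .ofNat 47, .negSucc 1392, .ofNat 1552, .ofNat 91⟩, ⟨.negSucc 7370, .negSucc 392, .negSucc 481, .ofNat 2764, .negSucc 3674, .ofNat 137⟩, ⟨.ofNat 1379, .ofNat 160, .ofNat 921, .ofNat 949, .ofNat 787, .negSucc 135⟩, .ofNat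 619, .negSucc 633, .ofNat 0, .negSucc 633, .ofNat 1868, .ofNat 0, .ofNat 133, .ofNat 128, .negSucc 188, .ofNat 0, .ofNat 84, .negSucc 45, .ofNat 0, .ofNat 0, .ofNat 215, .ofNat 370, .ofNat 0, .ofNat 0, .ofNat 51839189060260157314694120790650003652608, .ofNat 0, .ofNat 0, .ofNat 0, .ofNat 384545860742092200720459138120900153442304, .ofNat 0, .ofNat 0, .ofNat 0, .ofNat 842237351395751577247743692233211335671808, .ofNat 0, .ofNat 0, .ofNat 0, .ofNat 727193842769127436889907060779148617187328, .ofNat 0⟩)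
    (by decide +kernel)
theorem L01143 : Good (Phi V5.P V5.D 1 1) ⟨4, 13, 2, 0, 2, 3, 2, 2, 3, 0⟩ :=
  out_sound (S := T5.ds_pp) T5.ok_pp (w := 49) (j := 3) (by decide +kernel)
theorem L01144 : Good (Phi V5.P V5.D 1 1) ⟨3, 7, 2, 0, 2, 3, 2, 2, 3, 0⟩ :=
  out_sound (S := T5.ds_pp) T5.ok_pp (w := 43) (j := 3) (by decide +kernel)
theorem L01145 : Good (Phi V5.P V5.D 1 1) ⟨4, 12, 2, 0, 3, 6, 2, 2, 4, 2⟩ :=
  leafX_sound T5.ok_pp T5.Ypp.bz_eq (w := 220) (c := ⟨⟨.negSucc 4046, .negSucc 558, .negSucc 102, .ofNat 57, .negSucc 1078, .ofNat 810⟩, ⟨.negSucc 750, .negSucc 308, .negSucc 670, .ofNat 110, .negSucc 384, .ofNat 212⟩, ⟨.ofNat 2126, .ofNat 283, .ofNat 281, .negSucc 194, .ofNat 1157, .negSucc 270⟩, ⟨.negSucc 6831, .negSucc 695, .negSucc 264, .negSucc 304, .negSucc 1878, .ofNat 1609⟩, ⟨.ofNat 804, .ofNat 455, .negSucc 94, .ofNat 1053, .ofNat 232, .negSucc 857⟩, .ofNat 423, .negSucc 259, .ofNat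 0, .negSucc 259, .ofNat 969, .ofNat 0, .ofNat 206, .ofNat 128, .negSucc 220, .ofNat 0, .ofNat 116, .negSucc 33, .ofNat 0, .ofNat 0, .ofNat 362, .ofNat 641, .ofNat 0, .ofNat 0, .ofNat 1273470644236220916890938748571972796416, .ofNat 0, .ofNat 0, .ofNat 0, .ofNat 14059555595488880558169417708138754211840, .ofNat 0, .ofNat 0, .ofNat 0, .ofNat 31114019944204782563682466840159329452032, .ofNat 0, .ofNat 0, .ofNat 0, .ofNat 26233305359630706785438736099589648023552, .ofNat 0⟩)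
    (by decide +kernel)
theorem L01146 : Good (Phi V5.P V5.D 1 1) ⟨4, 12, 2, 0, 3, 7, 2, 2, 4, 2⟩ :=
  leafX_sound T5.ok_pp T5.Ypp.bz_eq (w := 220) (c := ⟨⟨.negSucc 4220, .negSucc 443, .ofNat 200, .ofNat 946, .negSucc 1113, .ofNat 698⟩, ⟨.negSucc 693, .negSucc 160, .negSucc 635, .ofNat 490, .negSucc 357, .ofNat 162⟩, ⟨.ofNat 2187, .ofNat 179, .ofNat 35, .negSucc 730, .ofNat 974, .negSucc 136⟩, ⟨.negSucc 7071, .negSucc 475, .negSucc 238, .ofNat 955, .negSucc 1947, .ofNat 1429⟩, ⟨.ofNat 951, .ofNat 262, .ofNat 859, .ofNat 1707, .ofNat 340, .negSucc 844⟩, .ofNat 511, .negSucc 402, .ofNat 0, .negSucc 402, .ofNat 1357, .ofNat 0, .ofNat 214, .ofNat 128, .negSucc 161, .ofNat 0, .ofNat 117, .negSucc 23, .ofNat 0, .ofNat 0, .ofNat 316, .ofNat 499, .ofNat 0, .ofNat 0, .ofNat 817392735300008695247629141375667142656, .ofNat 0, .ofNat 0, .ofNat 0, .ofNat 5885689871352945365493503707442975866880, .ofNat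 0, .ofNat 0, .ofNat 0, .ofNat 25901480466390607909877839008466902974464, .ofNat 0, .ofNat 0, .ofNat 0, .ofNat 19612532060063901735262021858586527793152, .ofNat 0⟩)
    (by decide +kernel)
theorem L01147 : Good (Phi V5.P V5.D 1 1) ⟨4, 12, 2, 0, 2, 3, 2, 2, 4, 3⟩ :=
  leafX_sound T5.ok_pp T5.Ypp.bz_eq (w := 206) (c := ⟨⟨.negSucc 3551, .negSucc 216, .ofNat 8, .ofNat 668, .negSucc 715, .ofNat 544⟩, ⟨.negSucc 732, .negSucc 168, .negSucc 532, .ofNat 447, .negSucc 267, .ofNat 127⟩, ⟨.ofNat 2170, .ofNat 37, .ofNat 54, .negSucc 540, .ofNat 804, .negSucc 137⟩, ⟨.negSucc 5853, .negSucc 91, .negSucc 58, .ofNat 293, .negSucc 1094, .ofNat 1107⟩, ⟨.ofNat 161, .ofNat 239, .negSucc 86, .ofNat 2320, .negSucc 218, .negSucc 624⟩, .ofNat 548, .negSucc 470, .ofNat 0, .negSucc 470, .ofNat 1535, .ofNat 0, .ofNat 146, .ofNat 118, .negSucc 52, .ofNat 0, .ofNat 128, .negSucc 5, .ofNat 0, .ofNat 0, .ofNat 249, .ofNat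 558, .ofNat 0, .ofNat 0, .ofNat 43048674482916787276460473024774144, .ofNat 0, .ofNat 0, .ofNat 0, .ofNat 570511761213149912669253154514141184, .ofNat 0, .ofNat 0, .ofNat 0, .ofNat 2373540208156337418447014230493233152, .ofNat 0, .ofNat 0, .ofNat 7348050145185758915453645428020603781120, .ofNat 455498573448910433382238761978429440, .ofNat 0⟩)
    (by decide +kernel)
theorem L01148 : Good (Phi V5.P V5.D 1 1) ⟨4, 13, 2, 0, 2, 3, 2, 2, 3, 1⟩ :=
  out_sound (S := T5.ds_pp) T5.ok_pp (w := 49) (j := 3) (by decide +kernel)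
theorem L01149 : Good (Phi V5.P V5.D 1 1) ⟨3, 7, 2, 0, 2, 3, 2, 2, 3, 1⟩ :=
  out_sound (S := T5.ds_pp) T5.ok_pp (w := 43) (j := 3) (by decide +kernel)
theorem L01150 : Good (Phi V5.P V5.D 1 1) ⟨2, 3, 3, 0, 2, 3, 2, 3, 3, 0⟩ :=
  out_sound (S := T5.ds_pp) T5.ok_pp (w := 39) (j := 3) (by decide +kernel)
theorem L01151 : Good (Phi V5.P V5.D 1 1) ⟨5, 24, 3, 1, 3, 6, 2, 3, 5, 0⟩ :=
  leafX_sound T5.ok_pp T5.Ypp.bz_eq (w := 233) (c := ⟨⟨.negSucc 642, .negSucc 2154, .ofNat 1226, .negSucc 3589, .negSucc 3638, .negSucc 2421⟩, ⟨.ofNat 323, .negSucc 720, .negSucc 111, .negSucc 1110, .negSucc 925, .negSucc 878⟩, ⟨.ofNat 876, .ofNat 1203, .negSucc 646, .ofNat 1510, .ofNat 3516, .ofNat 1221⟩, ⟨.negSucc 1461, .negSucc 3457, .ofNat 1455, .negSucc 6393, .negSucc 7104, .negSucc 3659⟩, ⟨.ofNat 1375, .ofNat 485, .ofNat 891, .ofNat 1535, .ofNat 3306, .negSucc 868⟩, .ofNat 616, .negSucc 657, .ofNat 0, .negSucc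 657, .ofNat 1994, .ofNat 0, .ofNat 128, .ofNat 209, .negSucc 659, .ofNat 0, .ofNat 115, .negSucc 213, .ofNat 0, .ofNat 0, .ofNat 453, .ofNat 55, .ofNat 0, .ofNat 0, .ofNat 13430700819929917256886378257295951790080, .ofNat 0, .ofNat 0, .ofNat 1643497461774019158401227491068334898558271488, .ofNat 394037397508516515185784000491868129329152, .ofNat 0, .ofNat 0, .ofNat 0, .ofNat 196967282150923559033240524593356481757184, .ofNat 0, .ofNat 0, .ofNat 16606027055493743830224818677341893338918289408, .ofNat 277408924089018396531845985183507196936192, .ofNat 0⟩)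
    (by decide +kernel)
theorem L01152 : Good (Phi V5.P V5.D 1 1) ⟨5, 25, 3, 1, 3, 6, 2, 3, 5, 0⟩ :=
  leafX_sound T5.ok_pp T5.Ypp.bz_eq (w := 235) (c := ⟨⟨.ofNat 906, .negSucc 2031, .negSucc 1650, .negSucc 4314, .negSucc 5019, .negSucc 2672⟩, ⟨.ofNat 1483, .negSucc 737, .negSucc 1575, .negSucc 1423, .negSucc 1528, .negSucc 1075⟩, ⟨.negSucc 467, .ofNat 876, .ofNat 1367, .ofNat 2056, .ofNat 4394, .ofNat 1406⟩, ⟨.ofNat 231, .negSucc 2566, .negSucc 2266, .negSucc 7682, .negSucc 9439, .negSucc 4024⟩, ⟨.ofNat 3368, .negSucc 623, .negSucc 1203, .ofNat 2079, .ofNat 3742, .negSucc 667⟩, .ofNat 780, .negSucc 982, .ofNat 0, .negSucc 982, .ofNat 2608, .ofNat 0, .ofNat 128, .ofNat 510, .negSucc 1632, .ofNat 0, .ofNat 287, .negSucc 585, .ofNat 0, .ofNat 0, .ofNat 1105, .ofNat 229, .ofNat 0, .ofNat 0, .ofNat 53099894953536576069954622257992677982208, .ofNat 0, .ofNat 0, .ofNat 0, .ofNat 2093134690338587032803139706528932896440320,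 .ofNat 0, .ofNat 0, .ofNat 0, .ofNat 2413070528958058741431918978727977037070336, .ofNat 0, .ofNat 0, .ofNat 0, .ofNat 2794602286331276492007396620396857632227328, .ofNat 0⟩)
    (by decide +kernel)
theorem L01153 : Good (Phi V5.P V5.D 1 1) ⟨6, 48, 3, 1, 3, 6, 2, 3, 5, 1⟩ :=
  leafX_sound T5.ok_pp T5.Ypp.bz_eq (w := 237) (c := ⟨⟨.negSucc 4114, .negSucc 897, .ofNat 1470, .negSucc 1837, .negSucc 4563, .negSucc 1440⟩, ⟨.negSucc 892, .negSucc 290, .negSucc 138, .negSucc 460, .negSucc 1187, .negSucc 470⟩, ⟨.ofNat 2833, .ofNat 454, .negSucc 660, .ofNat 390, .ofNat 3939, .ofNat 853⟩, ⟨.negSucc 6965, .negSucc 1393, .ofNat 1845, .negSucc 3545, .negSucc 8480, .negSucc 2323⟩, ⟨.ofNat 487, .ofNat 346, .ofNat 1187, .ofNat 1697, .ofNat 2818, .negSucc 140⟩, .ofNat 590, .negSucc 604, .ofNat 0, .negSucc 604, .ofNat 1949, .ofNat 0, .ofNat 128, .ofNat 185, .negSucc 825, .ofNat 0, .ofNat 102, .negSucc 240, .ofNat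 0, .ofNat 0, .ofNat 614, .ofNat 68, .ofNat 0, .ofNat 0, .ofNat 2701570661571053189204278777643618271232, .ofNat 0, .ofNat 0, .ofNat 0, .ofNat 53193773590137602347248989636034180415488, .ofNat 0, .ofNat 0, .ofNat 207323231477228130994049068417604809082957463552, .ofNat 42162832133957147171341298410824507850752, .ofNat 0, .ofNat 0, .ofNat 1357361354806902061369129080840485145999776415744, .ofNat 72940632748658344360905001258822810992640, .ofNat 0⟩)
    (by decide +kernel)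
theorem L01154 : Good (Phi V5.P V5.D 1 1) ⟨6, 49, 3, 1, 3, 6, 2, 3, 5, 1⟩ :=
  leafX_sound T5.ok_pp T5.Ypp.bz_eq (w := 237) (c := ⟨⟨.negSucc 5095, .negSucc 1323, .ofNat 1655, .negSucc 1831, .negSucc 5202, .negSucc 1470⟩, ⟨.negSucc 1138, .negSucc 485, .negSucc 59, .negSucc 464, .negSucc 1562, .negSucc 556⟩, ⟨.ofNat 3141, .ofNat 780, .negSucc 634, .ofNat 436, .ofNat 4386, .ofNat 954⟩, ⟨.negSucc 8121, .negSucc 2125, .ofNat 1891, .negSucc 3648, .negSucc 9685, .negSucc 2368⟩, ⟨.negSucc 51, .ofNat 563, .ofNat 1474, .ofNat 1912, .ofNat 3527, .negSucc 54⟩, .ofNat 744, .negSucc 924, .ofNat 0, .negSucc 924, .ofNat 2567, .ofNat 0, .ofNat 128, .ofNat 196, .negSucc 782, .ofNat 0, .ofNat 108, .negSucc 258, .ofNat 0, .ofNat 0, .ofNat 585, .ofNat 71, .ofNat 0, .ofNat 0, .ofNat 6269155896608610661068248801618937511936, .ofNat 0, .ofNat 0, .ofNat 31110500842492170456257688206752496097033191424, .ofNat 147248327656960489454953276871272199880704,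 .ofNat 0, .ofNat 0, .ofNat 236654946261554527242186289276102503651562487808, .ofNat 41576446531864973698231783290813517135872, .ofNat 0, .ofNat 0, .ofNat 0, .ofNat 277655045432103086826663540050930444533760, .ofNat 0⟩)
    (by decide +kernel)
theorem L01155 : Good (Phi V5.P V5.D 1 1) ⟨5, 25, 3, 1, 3, 6, 2, 3, 5, 1⟩ :=
  leafX_sound T5.ok_pp T5.Ypp.bz_eq (w := 235) (c := ⟨⟨.negSucc 12481, .negSucc 4636, .ofNat 7515, .negSucc 1630, .negSucc 4997, .negSucc 940⟩, ⟨.negSucc 3664, .negSucc 1652, .ofNat 1908, .negSucc 397, .negSucc 1526, .negSucc 362⟩, ⟨.ofNat 8460, .ofNat 2861, .negSucc 5041, .ofNat 331, .ofNat 4193, .ofNat 553⟩, ⟨.negSucc 20541, .negSucc 6982, .ofNat 11948, .negSucc 3367, .negSucc 9506, .negSucc 1454⟩, ⟨.ofNat 3946, .ofNat 1701, .negSucc 2446, .ofNat 2108, .ofNat 3890, .negSucc 134⟩, .ofNat 623, .negSucc 618, .ofNat 0, .negSucc 618, .ofNat 1733, .ofNat 0, .ofNat 128, .ofNat 167,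 .negSucc 1043, .ofNat 0, .ofNat 101, .negSucc 347, .ofNat 0, .ofNat 0, .ofNat 670, .ofNat 70, .ofNat 0, .ofNat 0, .ofNat 66539053621143874063328283641921870495744, .ofNat 0, .ofNat 0, .ofNat 0, .ofNat 296655926272180439907206151613931828805632, .ofNat 0, .ofNat 0, .ofNat 0, .ofNat 245454833493430104896099256483750585827328, .ofNat 0, .ofNat 0, .ofNat 0, .ofNat 1018417635311662047387969114163707966914560, .ofNat 0⟩)
    (by decide +kernel)
theorem L01156 : Good (Phi V5.P V5.D 1 1) ⟨4, 12, 3, 1, 3, 6, 3, 6, 4, 1⟩ :=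
  leafX_sound T5.ok_pp T5.Ypp.bz_eq (w := 228) (c := ⟨⟨.negSucc 7102, .negSucc 1948, .ofNat 650, .negSucc 482, .negSucc 1039, .ofNat 1721⟩, ⟨.negSucc 1893, .negSucc 785, .negSucc 319, .negSucc 3, .negSucc 285, .ofNat 507⟩, ⟨.ofNat 4561, .ofNat 1123, .negSucc 225, .negSucc 194, .ofNat 1064, .negSucc 796⟩, ⟨.negSucc 12051, .negSucc 2751, .ofNat 769, .negSucc 1355, .negSucc 2042, .ofNat 3113⟩, ⟨.ofNat 1232, .ofNat 690, .ofNat 416, .ofNat 1582, .ofNat 1004, .negSucc 994⟩, .ofNat 680, .negSucc 797, .ofNat 0, .negSucc 797, .ofNat 2331, .ofNat 0, .ofNat 128, .ofNat 153, .negSucc 371, .ofNat 0, .ofNat 86, .negSucc 108, .ofNat 0, .ofNat 0, .ofNat 365, .ofNat 75, .ofNat 0, .ofNat 0, .ofNat 21368594270465575171549012661343650578432, .ofNat 0, .ofNat 0, .ofNat 0, .ofNat 710917306544528128925530366718597270601728, .ofNat 0, .ofNat 0, .ofNat 0, .ofNat 412226015542490578953549329458064433086464, .ofNat 0,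 .ofNat 0, .ofNat 0, .ofNat 283153009427460272199283099659215157854208, .ofNat 0⟩)
    (by decide +kernel)
theorem L01157 : Good (Phi V5.P V5.D 1 1) ⟨4, 12, 3, 1, 3, 6, 3, 7, 4, 1⟩ :=
  leafX_sound T5.ok_pp T5.Ypp.bz_eq (w := 228) (c := ⟨⟨.negSucc 9486, .negSucc 2011, .ofNat 704, .ofNat 262, .negSucc 1790, .ofNat 2860⟩, ⟨.negSucc 2499, .negSucc 883, .negSucc 416, .ofNat 256, .negSucc 420, .ofNat 829⟩, ⟨.ofNat 6623, .ofNat 991, .negSucc 227, .negSucc 736, .ofNat 1752, .negSucc 1668⟩, ⟨.negSucc 16161, .negSucc 3025, .ofNat 628, .negSucc 191, .negSucc 3468, .ofNat 5168⟩, ⟨.ofNat 1779, .ofNat 1473, .ofNat 1057, .ofNat 1743, .ofNat 1531, .negSucc 1520⟩, .ofNat 649, .negSucc 693, .ofNat 0, .negSucc 693, .ofNat 2016, .ofNat 0, .ofNat 128, .ofNat 146, .negSucc 489, .ofNat 0, .ofNat 89, .negSucc 139, .ofNat 0, .ofNat 0, .ofNat 418, .ofNat 68, .ofNat 0, .ofNat 0, .ofNat 36665186589940163045599813382558198005760,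 .ofNat 0, .ofNat 0, .ofNat 456108774411177818861811597541627100028469248, .ofNat 410583317438904187729890008973877786443776, .ofNat 0, .ofNat 0, .ofNat 402382682668951222569358318261523483342143488, .ofNat 295016948598559047064416685256601870794752, .ofNat 0, .ofNat 0, .ofNat 0, .ofNat 536464839717129773637601625761538444886016, .ofNat 0⟩)
    (by decide +kernel)
theorem L01158 : Good (Phi V5.P V5.D 1 1) ⟨4, 12, 4, 2, 4, 14, 2, 3, 4, 0⟩ :=
  leafX_sound T5.ok_pp T5.Ypp.bz_eq (w := 242) (c := ⟨⟨.negSucc 5348, .negSucc 4376, .ofNat 797, .ofNat 1424, .negSucc 3045, .negSucc 2297⟩, ⟨.negSucc 1184, .negSucc 1421, .ofNat 31, .ofNat 473, .negSucc 669, .negSucc 784⟩, ⟨.ofNat 3127, .ofNat 2068, .negSucc 259, .negSucc 1137, .ofNat 2661, .ofNat 1134⟩, ⟨.negSucc 9592, .negSucc 6597, .ofNat 866, .ofNat 2231, .negSucc 5883, .negSucc 3570⟩, ⟨.ofNat 2452, .negSucc 8, .ofNat 1032, .ofNat 353, .ofNat 2835, .negSucc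 660⟩, .ofNat 666, .negSucc 769, .ofNat 0, .negSucc 769, .ofNat 2430, .ofNat 0, .ofNat 128, .ofNat 421, .negSucc 748, .ofNat 0, .ofNat 219, .negSucc 218, .ofNat 0, .ofNat 0, .ofNat 494, .ofNat 112, .ofNat 0, .ofNat 0, .ofNat 123351770747247009846960652686946479047180288, .ofNat 0, .ofNat 0, .ofNat 0, .ofNat 1985150119765352534509680447663648486715293696, .ofNat 0, .ofNat 0, .ofNat 0, .ofNat 3746066224888286408927238478345514559295455232, .ofNat 0, .ofNat 0, .ofNat 7191258792215137170664536760752362448493479985152, .ofNat 2908219348820630414158793774818021237434875904, .ofNat 0⟩)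
    (by decide +kernel)
theorem L01159 : Good (Phi V5.P V5.D 1 1) ⟨5, 24, 4, 3, 4, 14, 2, 3, 4, 0⟩ :=
  leafX_sound T5.ok_pp T5.Ypp.bz_eq (w := 246) (c := ⟨⟨.negSucc 4875, .negSucc 2067, .ofNat 825, .ofNat 1489, .negSucc 2836, .negSucc 2094⟩, ⟨.negSucc 1267, .negSucc 698, .ofNat 14, .ofNat 564, .negSucc 687, .negSucc 753⟩, ⟨.ofNat 2935, .ofNat 1017, .negSucc 324, .negSucc 1164, .ofNat 2623, .ofNat 1099⟩, ⟨.negSucc 9016, .negSucc 3264, .ofNat 898, .ofNat 2283, .negSucc 5772, .negSucc 3295⟩, ⟨.ofNat 3004, .ofNat 354, .ofNat 858, .ofNat 362, .ofNat 3385, .negSucc 485⟩, .ofNat 628, .negSucc 687, .ofNat 0, .negSucc 687, .ofNat 2053, .ofNat 0, .ofNat 128, .ofNat 548, .negSucc 1065, .ofNat 0, .ofNat 292, .negSucc 333, .ofNat 0, .ofNat 0, .ofNat 716, .ofNat 125, .ofNat 0, .ofNat 0, .ofNat 0, .ofNat 0, .ofNat 0, .ofNat 0, .ofNat 0, .ofNat 0, .ofNat 0, .ofNat 0, .ofNat 1361557281554866465377788914343485023434309632,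 .ofNat 0, .ofNat 0, .ofNat 207612244500267521359059694507644527361413426970624, .ofNat 850449984636448061123173283892532098057109504, .ofNat 0⟩)
    (by decide +kernel)
theorem L01160 : Good (Phi V5.P V5.D 1 1) ⟨5, 25, 4, 3, 4, 14, 2, 3, 4, 0⟩ :=
  leafX_sound T5.ok_pp T5.Ypp.bz_eq (w := 247) (c := ⟨⟨.negSucc 6860, .negSucc 569, .ofNat 512, .ofNat 2113, .negSucc 3441, .negSucc 2190⟩, ⟨.negSucc 1847, .negSucc 77, .negSucc 164, .ofNat 826, .negSucc 958, .negSucc 858⟩, ⟨.ofNat 4056, .ofNat 1026, .negSucc 271, .negSucc 1633, .ofNat 3025, .ofNat 1191⟩, ⟨.negSucc 12192, .negSucc 822, .ofNat 431, .ofNat 3293, .negSucc 6808, .negSucc 3413⟩, ⟨.ofNat 3424, .ofNat 769, .ofNat 758, .ofNat 297, .ofNat 3572, .negSucc 372⟩, .ofNat 641, .negSucc 663, .ofNat 0, .negSucc 663, .ofNat 1802, .ofNat 0, .ofNat 128, .ofNat 726, .negSucc 1700, .ofNat 0, .ofNat 416, .negSucc 590, .ofNat 0, .ofNat 0, .ofNat 983, .ofNat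 127, .ofNat 0, .ofNat 0, .ofNat 57479705312682857004188635485338342313164800, .ofNat 0, .ofNat 0, .ofNat 0, .ofNat 306336509783569531702430667151030617859162112, .ofNat 0, .ofNat 0, .ofNat 0, .ofNat 1622305208185591852862897513964684360231682048, .ofNat 0, .ofNat 0, .ofNat 0, .ofNat 2142555858246900778500839604585803474096095232, .ofNat 0⟩)
    (by decide +kernel)
theorem L01161 : Good (Phi V5.P V5.D 1 1) ⟨5, 24, 4, 2, 4, 15, 3, 6, 5, 0⟩ :=
  leafX_sound T5.ok_pp T5.Ypp.bz_eq (w := 255) (c := ⟨⟨.negSucc 4049, .negSucc 337, .ofNat 164, .ofNat 2862, .negSucc 1268, .negSucc 1093⟩, ⟨.negSucc 824, .negSucc 1, .negSucc 85, .ofNat 935, .negSucc 274, .negSucc 417⟩, ⟨.ofNat 2272, .ofNat 216, .negSucc 40, .negSucc 1453, .ofNat 906, .ofNat 296⟩, ⟨.negSucc 7573, .negSucc 580, .negSucc 72, .ofNat 4652, .negSucc 2485, .negSucc 1562⟩, ⟨.ofNat 3086, .ofNat 381, .ofNat 640, .ofNat 208, .ofNat 1232, .negSucc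 762⟩, .ofNat 574, .negSucc 565, .ofNat 0, .negSucc 565, .ofNat 1870, .ofNat 0, .ofNat 128, .ofNat 272, .negSucc 494, .ofNat 0, .ofNat 137, .negSucc 137, .ofNat 0, .ofNat 0, .ofNat 321, .ofNat 576, .ofNat 0, .ofNat 0, .ofNat 0, .ofNat 0, .ofNat 0, .ofNat 0, .ofNat 128297771043700280712137978088800823811789291520, .ofNat 0, .ofNat 0, .ofNat 0, .ofNat 180664029245437813556635132338270910047452135424, .ofNat 0, .ofNat 0, .ofNat 0, .ofNat 328777784998001699879299402221647882272496418816, .ofNat 0⟩)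
    (by decide +kernel)
theorem L01162 : Good (Phi V5.P V5.D 1 1) ⟨5, 24, 4, 2, 4, 15, 3, 7, 5, 0⟩ :=
  leafX_sound T5.ok_pp T5.Ypp.bz_eq (w := 255) (c := ⟨⟨.negSucc 5195, .negSucc 242, .ofNat 348, .ofNat 2725, .negSucc 154, .negSucc 1801⟩, ⟨.negSucc 987, .ofNat 40, .negSucc 97, .ofNat 880, .ofNat 162, .negSucc 677⟩, ⟨.ofNat 3272, .ofNat 158, .negSucc 137, .negSucc 1566, .ofNat 713, .ofNat 562⟩, ⟨.negSucc 9864, .negSucc 427, .ofNat 149, .ofNat 4462, .negSucc 870, .negSucc 2645⟩, ⟨.ofNat 4507, .ofNat 499, .ofNat 731, .ofNat 7, .ofNat 1858, .negSucc 978⟩, .ofNat 626, .negSucc 659, .ofNat 0, .negSucc 659, .ofNat 2097, .ofNat 0, .ofNat 128, .ofNat 479, .negSucc 830, .ofNat 0, .ofNat 241, .negSucc 263, .ofNat 0, .ofNat 0, .ofNat 418, .ofNat 168, .ofNat 0, .ofNat 0, .ofNat 5451343818079731889928215991398064823252025344, .ofNat 0, .ofNat 0, .ofNat 0, .ofNat 0, .ofNat 0, .ofNat 0, .ofNat 0, .ofNat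 615075423309946077540609800367750964366003929088, .ofNat 0, .ofNat 0, .ofNat 0, .ofNat 368797940785528497289218030010373902364175237120, .ofNat 0⟩)
    (by decide +kernel)
theorem L01163 : Good (Phi V5.P V5.D 1 1) ⟨5, 24, 4, 3, 4, 15, 2, 3, 5, 0⟩ :=
  leafX_sound T5.ok_pp T5.Ypp.bz_eq (w := 251) (c := ⟨⟨.negSucc 3780, .negSucc 311, .ofNat 78, .ofNat 2565, .negSucc 1841, .negSucc 1075⟩, ⟨.negSucc 895, .ofNat 43, .negSucc 165, .ofNat 888, .negSucc 366, .negSucc 446⟩, ⟨.ofNat 2304, .ofNat 262, .negSucc 121, .negSucc 1436, .ofNat 1743, .ofNat 224⟩, ⟨.negSucc 7517, .negSucc 555, .negSucc 291, .ofNat 4234, .negSucc 4042, .negSucc 1479⟩, ⟨.ofNat 4101, .ofNat 259, .ofNat 643, .negSucc 186, .ofNat 3020, .negSucc 792⟩, .ofNat 728, .negSucc 905, .ofNat 0, .negSucc 905, .ofNat 2592, .ofNat 0, .ofNat 128, .ofNat 567, .negSucc 754, .ofNat 0, .ofNat 290, .negSucc 238, .ofNat 0, .ofNat 0, .ofNat 497, .ofNat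 175, .ofNat 0, .ofNat 0, .ofNat 312060468535419374663213977605024725591916544, .ofNat 0, .ofNat 0, .ofNat 0, .ofNat 1381526381502962629641403944867660577044955136, .ofNat 0, .ofNat 0, .ofNat 0, .ofNat 43731125490505245665148752348387505184421445632, .ofNat 0, .ofNat 0, .ofNat 1719436054331804497207411843307843618727355490500608, .ofNat 23012019988972621118885812875484596894915624960, .ofNat 0⟩)
    (by decide +kernel)
theorem L01164 : Good (Phi V5.P V5.D 1 1) ⟨5, 25, 3, 1, 4, 15, 2, 3, 5, 0⟩ :=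
  leafX_sound T5.ok_pp T5.Ypp.bz_eq (w := 249) (c := ⟨⟨.negSucc 4384, .negSucc 1128, .negSucc 95, .ofNat 3406, .negSucc 1862, .negSucc 1324⟩, ⟨.negSucc 673, .negSucc 223, .negSucc 561, .ofNat 1285, .negSucc 393, .negSucc 566⟩, ⟨.ofNat 2431, .ofNat 1034, .ofNat 164, .negSucc 1785, .ofNat 1817, .ofNat 412⟩, ⟨.negSucc 8367, .negSucc 1688, .negSucc 661, .ofNat 5456, .negSucc 4182, .negSucc 1855⟩, ⟨.ofNat 4431, .ofNat 341, .ofNat 445, .negSucc 14, .ofNat 3191, .negSucc 692⟩, .ofNat 768, .negSucc 957, .ofNat 0, .negSucc 957, .ofNat 2549, .ofNat 0, .ofNat 128, .ofNat 919, .negSucc 1014, .ofNat 0, .ofNat 490, .negSucc 341, .ofNat 0, .ofNat 0, .ofNat 641, .ofNat 424, .ofNat 0, .ofNat 0, .ofNat 477076146777283302538464378414547127584686080, .ofNat 0, .ofNat 0, .ofNat 0, .ofNat 19439713016514709813809576512351091407957524480, .ofNat 0, .ofNat 0, .ofNat 0, .ofNat 73656091459803233938811412464740613667753558016,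 .ofNat 0, .ofNat 0, .ofNat 518168600245093847534710256694057874603235526836224, .ofNat 46860475841656026333036381038878328070107824128, .ofNat 0⟩)
    (by decide +kernel)
theorem L01165 : Good (Phi V5.P V5.D 1 1) ⟨4, 12, 4, 2, 4, 15, 2, 3, 5, 1⟩ :=
  leafX_sound T5.ok_pp T5.Ypp.bz_eq (w := 247) (c := ⟨⟨.negSucc 4856, .negSucc 2072, .ofNat 372, .ofNat 2578, .negSucc 3706, .negSucc 1177⟩, ⟨.negSucc 1041, .negSucc 599, .negSucc 106, .ofNat 816, .negSucc 969, .negSucc 370⟩, ⟨.ofNat 2593, .ofNat 1034, .negSucc 110, .negSucc 1665, .ofNat 2463, .ofNat 605⟩, ⟨.negSucc 8722, .negSucc 3146, .ofNat 183, .ofNat 4250, .negSucc 6793, .negSucc 1920⟩, ⟨.ofNat 2432, .ofNat 623, .ofNat 941, .negSucc 45, .ofNat 2160, .negSucc 114⟩, .ofNat 575, .negSucc 569, .ofNat 0, .negSucc 569, .ofNat 1871, .ofNat 0, .ofNat 128, .ofNat 419, .negSucc 487, .ofNat 0, .ofNat 217, .negSucc 132, .ofNat 0, .ofNat 0, .ofNat 343, .ofNat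 255, .ofNat 0, .ofNat 0, .ofNat 4060789225180413322607719391703271075901079552, .ofNat 0, .ofNat 0, .ofNat 4425956544775686265458001775576604038863872065536, .ofNat 52768921957197619380832605552917990923399331840, .ofNat 0, .ofNat 0, .ofNat 0, .ofNat 104970850838212795880208221494114864831871844352, .ofNat 0, .ofNat 0, .ofNat 51519353408577658645062857712501675676141063503872, .ofNat 86796041027829546540716106652655980995145629696, .ofNat 0⟩)
    (by decide +kernel)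
theorem L01166 : Good (Phi V5.P V5.D 1 1) ⟨4, 12, 4, 3, 4, 15, 2, 3, 5, 1⟩ :=
  leafX_sound T5.ok_pp T5.Ypp.bz_eq (w := 247) (c := ⟨⟨.negSucc 4679, .negSucc 1644, .ofNat 415, .ofNat 2592, .negSucc 3426, .negSucc 1155⟩, ⟨.negSucc 1195, .negSucc 425, .negSucc 103, .ofNat 914, .negSucc 985, .negSucc 420⟩, ⟨.ofNat 2558, .ofNat 859, .negSucc 128, .negSucc 1700, .ofNat 2389, .ofNat 610⟩, ⟨.negSucc 8780, .negSucc 2621, .ofNat 228, .ofNat 4290, .negSucc 6450, .negSucc 1894⟩, ⟨.ofNat 3263, .ofNat 980, .ofNat 824, .negSucc 287, .ofNat 2495, .ofNat 11⟩, .ofNat 670, .negSucc 748, .ofNat 0, .negSucc 748, .ofNat 2104, .ofNat 0, .ofNat 128, .ofNat 371, .negSucc 570, .ofNat 0, .ofNat 201, .negSucc 174, .ofNat 0, .ofNat 0, .ofNat 394, .ofNat 230, .ofNat 0, .ofNat 0, .ofNat 3233148476499313929170703374731255161955549184, .ofNat 0, .ofNat 0, .ofNat 0, .ofNat 18461613236712311820980843470706577161834201088, .ofNat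 0, .ofNat 0, .ofNat 65733672684218364893767011328363923157737195700224, .ofNat 50144581303473528776919305081430596995359178752, .ofNat 0, .ofNat 0, .ofNat 61975751573997879006162626878805541206213733122048, .ofNat 95992706033978244533582428846463680445478338560, .ofNat 0⟩)
    (by decide +kernel)
theorem L01167 : Good (Phi V5.P V5.D 1 1) ⟨4, 12, 3, 1, 4, 14, 2, 3, 5, 2⟩ :=
  leafX_sound T5.ok_pp T5.Ypp.bz_eq (w := 243) (c := ⟨⟨.negSucc 7382, .negSucc 2573, .ofNat 870, .ofNat 1033, .negSucc 2655, .ofNat 492⟩, ⟨.negSucc 1816, .negSucc 993, .negSucc 267, .ofNat 411, .negSucc 654, .ofNat 117⟩, ⟨.ofNat 4210, .ofNat 1333, .negSucc 236, .negSucc 965, .ofNat 2427, .negSucc 133⟩, ⟨.negSucc 12753, .negSucc 4008, .ofNat 806, .ofNat 1419, .negSucc 5227, .ofNat 922⟩, ⟨.ofNat 1996, .ofNat 1300, .ofNat 1153, .ofNat 792, .ofNat 2553, .negSucc 364⟩, .ofNat 620, .negSucc 666, .ofNat 0, .negSucc 666, .ofNat 2003,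 .ofNat 0, .ofNat 128, .ofNat 153, .negSucc 479, .ofNat 0, .ofNat 85, .negSucc 135, .ofNat 0, .ofNat 0, .ofNat 402, .ofNat 115, .ofNat 0, .ofNat 0, .ofNat 1060754816833429795627223075119958659870752768, .ofNat 0, .ofNat 0, .ofNat 0, .ofNat 11161023975604198487828634045522166570280812544, .ofNat 0, .ofNat 0, .ofNat 1730190213163645747260094171969755354902780968960, .ofNat 11462713829782598900070676388913992195964403712, .ofNat 0, .ofNat 0, .ofNat 0, .ofNat 21760622647597978634485659908935743473023188992, .ofNat 0⟩)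
    (by decide +kernel)
theorem L01168 : Good (Phi V5.P V5.D 1 1) ⟨4, 12, 3, 1, 4, 15, 3, 6, 5, 2⟩ :=
  leafX_sound T5.ok_pp T5.Ypp.bz_eq (w := 247) (c := ⟨⟨.negSucc 5901, .negSucc 1411, .ofNat 549, .ofNat 1966, .negSucc 1287, .negSucc 262⟩, ⟨.negSucc 1410, .negSucc 414, .negSucc 266, .ofNat 725, .negSucc 358, .negSucc 93⟩, ⟨.ofNat 3140, .ofNat 674, .negSucc 116, .negSucc 1388, .ofNat 958, .ofNat 259⟩, ⟨.negSucc 10427, .negSucc 2250, .ofNat 186, .ofNat 3142, .negSucc 2491, .negSucc 380⟩, ⟨.ofNat 2463, .ofNat 850, .ofNat 1475, .ofNat 167, .ofNat 1060, .negSucc 123⟩, .ofNat 474, .negSucc 381, .ofNat 0, .negSucc 381, .ofNat 1255, .ofNat 0, .ofNat 144, .ofNat 128, .negSucc 466, .ofNat 0, .ofNat 76, .negSucc 109, .ofNat 0, .ofNat 0, .ofNat 397, .ofNat 240, .ofNat 0, .ofNat 0, .ofNat 14407685351539883255657162086569117598837899264, .ofNat 0, .ofNat 0, .ofNat 0, .ofNat 81641293886433059123407708728793645132797706240,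 .ofNat 0, .ofNat 0, .ofNat 0, .ofNat 83884748120701537834905949945621023497266397184, .ofNat 0, .ofNat 0, .ofNat 0, .ofNat 190131262624397078445876960628695995682870263808, .ofNat 0⟩)
    (by decide +kernel)
theorem L01169 : Good (Phi V5.P V5.D 1 1) ⟨4, 12, 3, 1, 4, 15, 3, 7, 5, 2⟩ :=
  leafX_sound T5.ok_pp T5.Ypp.bz_eq (w := 247) (c := ⟨⟨.negSucc 7334, .negSucc 1898, .ofNat 882, .ofNat 1511, .negSucc 1857, .ofNat 118⟩, ⟨.negSucc 1657, .negSucc 574, .negSucc 308, .ofNat 516, .negSucc 546, .ofNat 25⟩, ⟨.ofNat 4248, .ofNat 886, .negSucc 187, .negSucc 1440, .ofNat 1269, .ofNat 58⟩, ⟨.negSucc 13153, .negSucc 2753, .ofNat 486, .ofNat 2527, .negSucc 3368, .ofNat 273⟩, ⟨.ofNat 3620, .ofNat 632, .ofNat 1862, .negSucc 232, .ofNat 997, .negSucc 246⟩, .ofNat 671, .negSucc 778, .ofNat 0, .negSucc 778, .ofNat 2287, .ofNat 0, .ofNat 128, .ofNat 180, .negSucc 246, .ofNat 0, .ofNat 97, .negSucc 69, .ofNat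 0, .ofNat 0, .ofNat 211, .ofNat 132, .ofNat 0, .ofNat 2517718760115445314542373841895878309465412337664, .ofNat 14653573177387396750676510707917281531432796160, .ofNat 0, .ofNat 0, .ofNat 0, .ofNat 129742635418061187741809334764856811289057427456, .ofNat 0, .ofNat 0, .ofNat 25874886773827031866020069686754271552989783130112, .ofNat 201447591774746439039235197172722615419905507328, .ofNat 0, .ofNat 0, .ofNat 24308321348513134933764587698542237371876576854016, .ofNat 185275470056420024851306270528191921293484883968, .ofNat 0⟩)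
    (by decide +kernel)
theorem L01170 : Good (Phi V5.P V5.D 1 1) ⟨4, 12, 3, 1, 3, 7, 3, 6, 5, 3⟩ :=
  leafX_sound T5.ok_pp T5.Ypp.bz_eq (w := 233) (c := ⟨⟨.negSucc 6630, .negSucc 806, .ofNat 397, .ofNat 1932, .negSucc 1086, .ofNat 472⟩, ⟨.negSucc 1669, .negSucc 226, .negSucc 376, .ofNat 807, .negSucc 318, .ofNat 120⟩, ⟨.ofNat 3967, .ofNat 467, .negSucc 89, .negSucc 1672, .ofNat 868, .negSucc 110⟩, ⟨.negSucc 11542, .negSucc 1159, .ofNat 172, .ofNat 2702, .negSucc 2052, .ofNat 918⟩, ⟨.ofNat 2104, .ofNat 792, .ofNat 783, .ofNat 1240, .ofNat 882, .negSucc 334⟩, .ofNat 628, .negSucc 686, .ofNat 0, .negSucc 686, .ofNat 2049, .ofNat 0, .ofNat 128, .ofNat 232, .negSucc 380, .ofNat 0, .ofNat 136, .negSucc 96, .ofNat 0, .ofNat 0, .ofNat 440, .ofNat 244, .ofNat 0, .ofNat 0, .ofNat 867651638482754757520252503057365152563200, .ofNat 0, .ofNat 0, .ofNat 0, .ofNat 18309003098995626066425542305517960710586368,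 .ofNat 0, .ofNat 0, .ofNat 0, .ofNat 13040029502303704018737820552032923257143296, .ofNat 0, .ofNat 0, .ofNat 0, .ofNat 0, .ofNat 0⟩)
    (by decide +kernel)
theorem L01171 : Good (Phi V5.P V5.D 1 1) ⟨4, 12, 3, 1, 3, 7, 3, 7, 5, 3⟩ :=
  leafX_sound T5.ok_pp T5.Ypp.bz_eq (w := 233) (c := ⟨⟨.negSucc 7465, .negSucc 1044, .ofNat 330, .ofNat 1590, .negSucc 1079, .ofNat 678⟩, ⟨.negSucc 1855, .negSucc 312, .negSucc 436, .ofNat 661, .negSucc 245, .ofNat 193⟩, ⟨.ofNat 4903, .ofNat 518, .negSucc 28, .negSucc 1828, .ofNat 991, .negSucc 226⟩, ⟨.negSucc 13111, .negSucc 1480, .negSucc 150, .ofNat 2240, .negSucc 2215, .ofNat 1285⟩, ⟨.ofNat 2892, .ofNat 640, .ofNat 1276, .ofNat 970, .ofNat 1247, .negSucc 543⟩, .ofNat 565, .negSucc 528, .ofNat 0, .negSucc 528, .ofNat 1607, .ofNat 0, .ofNat 128, .ofNat 161, .negSucc 307, .ofNat 0, .ofNat 101, .negSucc 70, .ofNat 0, .ofNat 0, .ofNat 341, .ofNat 165, .ofNat 0,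 .ofNat 932694819195005530298837766601989665450885120, .ofNat 801541627749761331800781248414975120113664, .ofNat 0, .ofNat 0, .ofNat 0, .ofNat 6236891202823105316782732605400901981569024, .ofNat 0, .ofNat 0, .ofNat 7074007364974377657581025785484428222809505792, .ofNat 10161253686681612111909531180208721500307456, .ofNat 0, .ofNat 0, .ofNat 0, .ofNat 12077296611618463804304323253143352496881664, .ofNat 0⟩)
    (by decide +kernel)
theorem L01172 : Good (Phi V5.P V5.D 1 1) ⟨4, 13, 3, 1, 2, 3, 2, 3, 3, 0⟩ :=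
  out_sound (S := T5.ds_pp) T5.ok_pp (w := 51) (j := 3) (by decide +kernel)
theorem L01173 : Good (Phi V5.P V5.D 1 1) ⟨3, 7, 3, 1, 2, 3, 2, 3, 3, 0⟩ :=
  out_sound (S := T5.ds_pp) T5.ok_pp (w := 45) (j := 3) (by decide +kernel)
theorem L01174 : Good (Phi V5.P V5.D 1 1) ⟨4, 12, 3, 0, 2, 3, 2, 3, 4, 2⟩ :=
  out_sound (S := T5.ds_pp) T5.ok_pp (w := 51) (j := 3) (by decide +kernel)
theorem L01175 : Good (Phi V5.P V5.D 1 1) ⟨4, 12, 3, 1, 3, 6, 2, 3, 4, 2⟩ :=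
  leafX_sound T5.ok_pp T5.Ypp.bz_eq (w := 223) (c := ⟨⟨.negSucc 5678, .negSucc 797, .ofNat 102, .ofNat 77, .negSucc 1308, .ofNat 1505⟩, ⟨.negSucc 1544, .negSucc 474, .negSucc 345, .ofNat 152, .negSucc 404, .ofNat 400⟩, ⟨.ofNat 3920, .ofNat 426, .ofNat 49, .negSucc 387, .ofNat 1539, .negSucc 817⟩, ⟨.negSucc 9641, .negSucc 858, .ofNat 17, .negSucc 302, .negSucc 2563, .ofNat 2914⟩, ⟨.ofNat 876, .ofNat 307, .ofNat 228, .ofNat 1200, .ofNat 1020, .negSucc 1324⟩, .ofNat 449, .negSucc 321, .ofNat 0, .negSucc 321, .ofNat 1084, .ofNat 0, .ofNat 128, .ofNat 135, .negSucc 215, .ofNat 0, .ofNat 106, .negSucc 36, .ofNat 0, .ofNat 0, .ofNat 357, .ofNat 108, .ofNat 0, .ofNat 0, .ofNat 724956450207678489396965454971043577856, .ofNat 0, .ofNat 0, .ofNat 211225888024541646081447571134154640459825152, .ofNat 10709974346907560000931547778984714436608, .ofNat 0, .ofNat 0, .ofNat 273480230694517229840143644097017351900233728,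 .ofNat 23508925671706978423535777868681079422976, .ofNat 0, .ofNat 0, .ofNat 0, .ofNat 0, .ofNat 0⟩)
    (by decide +kernel)
theorem L01176 : Good (Phi V5.P V5.D 1 1) ⟨4, 12, 3, 1, 3, 7, 3, 6, 4, 2⟩ :=
  leafX_sound T5.ok_pp T5.Ypp.bz_eq (w := 228) (c := ⟨⟨.negSucc 5367, .negSucc 339, .ofNat 85, .ofNat 814, .negSucc 640, .ofNat 988⟩, ⟨.negSucc 1372, .negSucc 104, .negSucc 395, .ofNat 479, .negSucc 186, .ofNat 257⟩, ⟨.ofNat 3356, .ofNat 236, .ofNat 16, .negSucc 881, .ofNat 580, .negSucc 281⟩, ⟨.negSucc 9266, .negSucc 297, .negSucc 323, .ofNat 658, .negSucc 1233, .ofNat 2018⟩, ⟨.ofNat 1533, .ofNat 246, .ofNat 790, .ofNat 1962, .ofNat 537, .negSucc 1098⟩, .ofNat 474, .negSucc 380, .ofNat 0, .negSucc 380, .ofNat 1258, .ofNat 0, .ofNat 149, .ofNat 128, .negSucc 113, .ofNat 0, .ofNat 100, .negSucc 12, .ofNat 0, .ofNat 0, .ofNat 273, .ofNat 374, .ofNat 0, .ofNat 82664590668706227205780601327676530769264640,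 .ofNat 31952342133355125740416735406754006827008, .ofNat 0, .ofNat 0, .ofNat 0, .ofNat 167229592777246688099003393032852695154688, .ofNat 0, .ofNat 0, .ofNat 0, .ofNat 499434930899660928482929492819253055717376, .ofNat 0, .ofNat 0, .ofNat 0, .ofNat 284915793463335904694570913630304665075712, .ofNat 0⟩)
    (by decide +kernel)
theorem L01177 : Good (Phi V5.P V5.D 1 1) ⟨4, 12, 3, 1, 3, 7, 3, 7, 4, 2⟩ :=
  leafX_sound T5.ok_pp T5.Ypp.bz_eq (w := 228) (c := ⟨⟨.negSucc 6322, .negSucc 617, .ofNat 209, .ofNat 942, .negSucc 938, .ofNat 1550⟩, ⟨.negSucc 1552, .negSucc 166, .negSucc 452, .ofNat 478, .negSucc 208, .ofNat 417⟩, ⟨.ofNat 4335, .ofNat 297, .negSucc 24, .negSucc 1335, .ofNat 959, .negSucc 604⟩, ⟨.negSucc 10994, .negSucc 666, .negSucc 233, .ofNat 950, .negSucc 2055, .ofNat 2937⟩, ⟨.ofNat 2228, .ofNat 312, .ofNat 922, .ofNat 1595, .ofNat 1316, .negSucc 1250⟩, .ofNat 642, .negSucc 679, .ofNat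 0, .negSucc 679, .ofNat 1981, .ofNat 0, .ofNat 139, .ofNat 128, .negSucc 63, .ofNat 0, .ofNat 93, .negSucc 5, .ofNat 0, .ofNat 0, .ofNat 183, .ofNat 247, .ofNat 0, .ofNat 239085150968589778368210918741848326599081984, .ofNat 20229025411466260420260155341563309850624, .ofNat 0, .ofNat 0, .ofNat 865128978151964930528063567110378772274085888, .ofNat 178144031570911814877159881266761654337536, .ofNat 0, .ofNat 0, .ofNat 956079960816462367015106355142335715128377344, .ofNat 307720156543934969930656142644787592298496, .ofNat 0, .ofNat 0, .ofNat 1220324569912002247868345317081415960414388224, .ofNat 105299036627030806916390651019389871063040, .ofNat 0⟩)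
    (by decide +kernel)
theorem L01178 : Good (Phi V5.P V5.D 1 1) ⟨4, 13, 2, 0, 2, 3, 2, 3, 4, 2⟩ :=
  out_sound (S := T5.ds_pp) T5.ok_pp (w := 49) (j := 3) (by decide +kernel)
theorem L01179 : Good (Phi V5.P V5.D 1 1) ⟨4, 12, 2, 0, 2, 3, 2, 3, 4, 3⟩ :=
  leafX_sound T5.ok_pp T5.Ypp.bz_eq (w := 206) (c := ⟨⟨.negSucc 4394, .negSucc 334, .ofNat 61, .ofNat 639, .negSucc 827, .ofNat 853⟩, ⟨.negSucc 985, .negSucc 217, .negSucc 599, .ofNat 506, .negSucc 309, .ofNat 245⟩, ⟨.ofNat 3341, .ofNat 169, .negSucc 64, .negSucc 925, .ofNat 882, .negSucc 418⟩, ⟨.negSucc 6995, .negSucc 158, .negSucc 128, .negSucc 63, .negSucc 1403, .ofNat 1627⟩, ⟨.negSucc 451, .negSucc 35, .ofNat 330, .ofNat 3031, .ofNat 260, .negSucc 678⟩, .ofNat 548, .negSucc 470, .ofNat 0, .negSucc 470, .ofNat 1535, .ofNat 0, .ofNat 165, .ofNat 120, .negSucc 14, .ofNat 0, .ofNat 128, .ofNat 4, .ofNat 0, .ofNat 0, .ofNat 256, .ofNat 223, .ofNat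 0, .ofNat 1176774756697429693209797793702393937920, .ofNat 35127883583526022269304682515005440, .ofNat 0, .ofNat 0, .ofNat 16638009512305503945879846936797530554368, .ofNat 666672846667628938222137638601621504, .ofNat 0, .ofNat 0, .ofNat 0, .ofNat 865477302126814234314800679956250624, .ofNat 0, .ofNat 0, .ofNat 22479752598582901370905427542454640312320, .ofNat 0, .ofNat 0⟩)
    (by decide +kernel)
theorem L01180 : Good (Phi V5.P V5.D 1 1) ⟨4, 13, 2, 0, 2, 3, 2, 3, 4, 3⟩ :=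
  out_sound (S := T5.ds_pp) T5.ok_pp (w := 49) (j := 3) (by decide +kernel)
theorem L01181 : Good (Phi V5.P V5.D 1 1) ⟨3, 7, 2, 0, 2, 3, 2, 3, 3, 1⟩ :=
  out_sound (S := T5.ds_pp) T5.ok_pp (w := 43) (j := 3) (by decide +kernel)
theorem L01182 : Good (Phi V5.P V5.D 1 1) ⟨2, 2, 2, 0, 2, 2, 2, 2, 4, 4⟩ :=
  leafX_sound T5.ok_pp T5.Ypp.bz_eq (w := 197) (c := ⟨⟨.negSucc 1823, .negSucc 773, .negSucc 45, .negSucc 197, .negSucc 270, .ofNat 202⟩, ⟨.negSucc 12, .negSucc 552, .negSucc 352, .negSucc 51, .negSucc 48, .ofNat 25⟩, ⟨.ofNat 1589, .ofNat 496, .negSucc 50, .negSucc 51, .ofNat 560, .negSucc 50⟩, ⟨.negSucc 4084, .negSucc 224, .ofNat 40, .negSucc 411, .negSucc 456, .ofNat 433⟩, ⟨.negSucc 354, .ofNat 42, .ofNat 22, .ofNat 128, .negSucc 179, .negSucc 133⟩, .ofNat 320, .negSucc 89, .ofNat 0, .negSucc 89, .ofNat 709, .ofNat 0, .ofNat 150, .ofNat 61, .negSucc 45, .ofNat 0, .ofNat 128, .negSucc 0, .ofNat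 0, .ofNat 0, .ofNat 278, .ofNat 741, .ofNat 0, .ofNat 0, .ofNat 0, .ofNat 0, .ofNat 0, .ofNat 0, .ofNat 2972857451213964811872305755275132928, .ofNat 0, .ofNat 0, .ofNat 0, .ofNat 0, .ofNat 0, .ofNat 0, .ofNat 0, .ofNat 0, .ofNat 0⟩)
    (by decide +kernel)
theorem L01183 : Good (Phi V5.P V5.D 1 1) ⟨2, 2, 2, 0, 3, 6, 2, 2, 5, 8⟩ :=
  leafX_sound T5.ok_pp T5.Ypp.bz_eq (w := 216) (c := ⟨⟨.negSucc 2050, .negSucc 799, .ofNat 24, .ofNat 60, .negSucc 404, .ofNat 174⟩, ⟨.negSucc 18, .negSucc 531, .negSucc 410, .ofNat 40, .negSucc 94, .ofNat 16⟩, ⟨.ofNat 1529, .ofNat 403, .negSucc 45, .negSucc 70, .ofNat 745, .negSucc 29⟩, ⟨.negSucc 4523, .negSucc 271, .ofNat 71, .negSucc 6, .negSucc 653, .ofNat 351⟩, ⟨.negSucc 180, .ofNat 180, .negSucc 163, .ofNat 565, .negSucc 205, .negSucc 137⟩, .ofNat 324, .negSucc 77, .ofNat 0, .negSucc 77, .ofNat 725, .ofNat 0, .ofNat 266, .ofNat 41, .negSucc 28, .ofNat 0, .ofNat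 128, .ofNat 2, .ofNat 0, .ofNat 0, .ofNat 256, .ofNat 840, .ofNat 0, .ofNat 0, .ofNat 0, .ofNat 0, .ofNat 0, .ofNat 0, .ofNat 0, .ofNat 0, .ofNat 0, .ofNat 0, .ofNat 0, .ofNat 0, .ofNat 0, .ofNat 1926161128877714698502954829676263115849728, .ofNat 384087142981958533100489513852613095849984, .ofNat 0⟩)
    (by decide +kernel)
theorem L01184 : Good (Phi V5.P V5.D 1 1) ⟨2, 2, 2, 0, 3, 7, 2, 2, 5, 8⟩ :=
  leafX_sound T5.ok_pp T5.Ypp.bz_eq (w := 215) (c := ⟨⟨.negSucc 2108, .negSucc 606, .ofNat 25, .ofNat 267, .negSucc 408, .ofNat 158⟩, ⟨.negSucc 35, .negSucc 404, .negSucc 464, .ofNat 139, .negSucc 90, .ofNat 37⟩, ⟨.ofNat 1518, .ofNat 297, .negSucc 88, .negSucc 11, .ofNat 696, .ofNat 24⟩, ⟨.negSucc 4588, .negSucc 139, .negSucc 62, .ofNat 223, .negSucc 590, .ofNat 389⟩, ⟨.ofNat 255, .ofNat 367, .negSucc 80, .ofNat 1194, .negSucc 111, .negSucc 195⟩, .ofNat 323, .negSucc 90, .ofNat 0, .negSucc 90, .ofNat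 757, .ofNat 0, .ofNat 163, .ofNat 41, .ofNat 2, .ofNat 0, .ofNat 128, .ofNat 3, .ofNat 0, .ofNat 0, .ofNat 196, .ofNat 402, .ofNat 0, .ofNat 32764491554846618451786522818908602236928, .ofNat 227846207167717733961791367901931687116800, .ofNat 0, .ofNat 0, .ofNat 0, .ofNat 0, .ofNat 0, .ofNat 0, .ofNat 0, .ofNat 0, .ofNat 0, .ofNat 0, .ofNat 2175382726164145168569323816633991706968064, .ofNat 0, .ofNat 0⟩)
    (by decide +kernel)
theorem L01185 : Good (Phi V5.P V5.D 1 1) ⟨2, 2, 2, 0, 3, 6, 2, 2, 5, 9⟩ :=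
  leafX_sound T5.ok_pp T5.Ypp.bz_eq (w := 216) (c := ⟨⟨.negSucc 1950, .negSucc 715, .ofNat 6, .ofNat 86, .negSucc 310, .ofNat 144⟩, ⟨.negSucc 25, .negSucc 533, .negSucc 371, .ofNat 53, .negSucc 91, .ofNat 24⟩, ⟨.ofNat 1570, .ofNat 347, .negSucc 96, .negSucc 60, .ofNat 697, .negSucc 7⟩, ⟨.negSucc 4333, .negSucc 106, .ofNat 56, .ofNat 61, .negSucc 496, .ofNat 293⟩, ⟨.negSucc 139, .ofNat 171, .negSucc 70, .ofNat 259, .negSucc 159, .negSucc 183⟩, .ofNat 457, .negSucc 269, .ofNat 0, .negSucc 269, .ofNat 1702, .ofNat 0, .ofNat 175, .ofNat 104, .negSucc 9, .ofNat 0, .ofNat 128, .ofNat 0, .ofNat 0, .ofNat 0, .ofNat 206, .ofNat 381, .ofNat 0, .ofNat 0, .ofNat 0, .ofNat 0, .ofNat 0, .ofNat 0, .ofNat 0, .ofNat 0, .ofNat 0, .ofNat 0, .ofNat 0, .ofNat 0, .ofNat 0, .ofNat 2550712920570277636382221196520526949908480, .ofNat 131369821817118340404486881537604555112448, .ofNat 0⟩)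
    (by decide +kernel)
theorem L01186 : Good (Phi V5.P V5.D 1 1) ⟨2, 2, 2, 0, 3, 7, 2, 2, 5, 9⟩ :=
  leafX_sound T5.ok_pp T5.Ypp.bz_eq (w := 217) (c := ⟨⟨.negSucc 1915, .negSucc 640, .ofNat 18, .ofNat 173, .negSucc 393, .ofNat 178⟩, ⟨.negSucc 5, .negSucc 453, .negSucc 397, .ofNat 90, .negSucc 166, .ofNat 36⟩, ⟨.ofNat 1544, .ofNat 287, .negSucc 98, .ofNat 8, .ofNat 677, .ofNat 2⟩, ⟨.negSucc 4255, .negSucc 126, .ofNat 35, .ofNat 105, .negSucc 595, .ofNat 328⟩, ⟨.ofNat 248, .ofNat 260, .negSucc 185, .ofNat 786, .negSucc 287, .negSucc 157⟩, .ofNat 322, .negSucc 87, .ofNat 0, .negSucc 87, .ofNat 715, .ofNat 0, .ofNat 153, .ofNat 37, .negSucc 5, .ofNat 0, .ofNat 128, .ofNat 2, .ofNat 0, .ofNat 0, .ofNat 182, .ofNat 1366, .ofNat 0, .ofNat 621118302531072347391001059110071916560384, .ofNat 0, .ofNat 0, .ofNat 0, .ofNat 8866937981630997454748888531809251494985728, .ofNat 1790873077988566194404687367551621097586688,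 .ofNat 0, .ofNat 0, .ofNat 32797176931422956895016005990174972042018816, .ofNat 0, .ofNat 0, .ofNat 0, .ofNat 7887268728817053620468964204586534369755136, .ofNat 882574803346276298610004228412085442183168, .ofNat 0⟩)
    (by decide +kernel)
theorem L01187 : Good (Phi V5.P V5.D 1 1) ⟨2, 2, 2, 0, 2, 2, 2, 3, 4, 4⟩ :=
  leafX_sound T5.ok_pp T5.Ypp.bz_eq (w := 197) (c := ⟨⟨.negSucc 1891, .negSucc 1098, .negSucc 19, .negSucc 368, .negSucc 669, .ofNat 230⟩, ⟨.ofNat 46, .negSucc 746, .negSucc 385, .negSucc 89, .negSucc 141, .ofNat 35⟩, ⟨.ofNat 1933, .ofNat 819, .negSucc 150, .ofNat 223, .ofNat 610, .negSucc 160⟩, ⟨.negSucc 4324, .negSucc 571, .ofNat 126, .negSucc 689, .negSucc 1153, .ofNat 453⟩, ⟨.negSucc 437, .negSucc 159, .ofNat 40, .negSucc 21, .negSucc 365, .negSucc 187⟩, .ofNat 322, .negSucc 80, .ofNat 0, .negSucc 80, .ofNat 719, .ofNat 0, .ofNat 178, .ofNat 58, .negSucc 43, .ofNat 0, .ofNat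 128, .negSucc 2, .ofNat 0, .ofNat 0, .ofNat 257, .ofNat 337, .ofNat 0, .ofNat 0, .ofNat 0, .ofNat 0, .ofNat 0, .ofNat 235342630860396679675991476665680134144, .ofNat 0, .ofNat 0, .ofNat 0, .ofNat 281319174412108574757222795785137029120, .ofNat 0, .ofNat 0, .ofNat 0, .ofNat 100020147909421854487757315638674063360, .ofNat 0, .ofNat 0⟩)
    (by decide +kernel)
theorem L01188 : Good (Phi V5.P V5.D 1 1) ⟨2, 2, 2, 0, 2, 3, 2, 3, 4, 4⟩ :=
  leafX_sound T5.ok_pp T5.Ypp.bz_eq (w := 198) (c := ⟨⟨.negSucc 2251, .negSucc 1167, .ofNat 22, .negSucc 10, .negSucc 279, .ofNat 416⟩, ⟨.ofNat 1, .negSucc 794, .negSucc 413, .ofNat 154, .ofNat 90, .ofNat 153⟩, ⟨.ofNat 2165, .ofNat 653, .negSucc 101, .negSucc 90, .ofNat 828, .negSucc 115⟩, ⟨.negSucc 5015, .negSucc 645, .ofNat 144, .negSucc 285, .negSucc 818, .ofNat 882⟩, ⟨.negSucc 301, .negSucc 149, .negSucc 14, .ofNat 924, .negSucc 354, .negSucc 320⟩, .ofNat 169,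 .negSucc 14, .ofNat 0, .negSucc 14, .ofNat 241, .ofNat 0, .ofNat 128, .ofNat 14, .negSucc 36, .ofNat 0, .ofNat 141, .ofNat 7, .ofNat 0, .ofNat 0, .ofNat 148, .ofNat 700, .ofNat 0, .ofNat 28419910391414013262900946391240015872, .ofNat 0, .ofNat 0, .ofNat 0, .ofNat 252657167883912629598195471518456086528, .ofNat 0, .ofNat 0, .ofNat 0, .ofNat 656574864395085615672741784602068123648, .ofNat 0, .ofNat 0, .ofNat 0, .ofNat 169461860855562341337451668758729850880, .ofNat 61330072998716237234325066168139776, .ofNat 0⟩)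
    (by decide +kernel)
theorem L01189 : Good (Phi V5.P V5.D 1 1) ⟨4, 12, 3, 0, 1, 1, 2, 2, 4, 4⟩ :=
  out_sound (S := T5.ds_pp) T5.ok_pp (w := 51) (j := 3) (by decide +kernel)
theorem L01190 : Good (Phi V5.P V5.D 1 1) ⟨4, 12, 3, 1, 2, 2, 2, 2, 4, 4⟩ :=
  leafX_sound T5.ok_pp T5.Ypp.bz_eq (w := 209) (c := ⟨⟨.negSucc 2734, .negSucc 282, .ofNat 58, .negSucc 190, .negSucc 427, .ofNat 298⟩, ⟨.negSucc 813, .negSucc 269, .negSucc 145, .negSucc 62, .negSucc 180, .ofNat 94⟩, ⟨.ofNat 2177, .ofNat 127, .negSucc 38, .negSucc 148, .ofNat 641, .negSucc 168⟩, ⟨.negSucc 4478, .negSucc 110, .ofNat 134, .negSucc 330, .negSucc 584, .ofNat 528⟩, ⟨.negSucc 297, .ofNat 48, .negSucc 17, .ofNat 62, .negSucc 309, .negSucc 119⟩, .ofNat 723, .negSucc 894, .ofNat 0, .negSucc 894, .ofNat 2563, .ofNat 0, .ofNat 128, .ofNat 185, .negSucc 40, .ofNat 0, .ofNat 132, .negSucc 10, .ofNat 0, .ofNat 0, .ofNat 264, .ofNat 1074,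 .ofNat 0, .ofNat 0, .ofNat 0, .ofNat 0, .ofNat 0, .ofNat 26721829311515837205746477053403851653120, .ofNat 9811351079691470482689626711808540672, .ofNat 0, .ofNat 0, .ofNat 0, .ofNat 8847046156854724049546025726652710912, .ofNat 0, .ofNat 0, .ofNat 124030901737471330868091073426932807761920, .ofNat 301772730576416518415361883640954880, .ofNat 0⟩)
    (by decide +kernel)
theorem L01191 : Good (Phi V5.P V5.D 1 1) ⟨4, 12, 3, 1, 2, 3, 2, 2, 5, 8⟩ :=
  leafX_sound T5.ok_pp T5.Ypp.bz_eq (w := 214) (c := ⟨⟨.negSucc 2947, .negSucc 353, .ofNat 66, .ofNat 539, .negSucc 556, .ofNat 152⟩, ⟨.negSucc 857, .negSucc 262, .negSucc 180, .ofNat 358, .negSucc 231, .ofNat 29⟩, ⟨.ofNat 1955, .ofNat 25, .negSucc 5, .negSucc 256, .ofNat 737, .negSucc 36⟩, ⟨.negSucc 4858, .negSucc 8, .negSucc 26, .ofNat 275, .negSucc 743, .ofNat 420⟩, ⟨.negSucc 98, .negSucc 634, .ofNat 265, .ofNat 1802, .negSucc 445, .negSucc 410⟩,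 .ofNat 623, .negSucc 675, .ofNat 0, .negSucc 675, .ofNat 2032, .ofNat 0, .ofNat 128, .ofNat 221, .negSucc 27, .ofNat 0, .ofNat 187, .negSucc 2, .ofNat 0, .ofNat 0, .ofNat 350, .ofNat 624, .ofNat 0, .ofNat 17755391248637139552944508300269910491136, .ofNat 1984932951306016762834366892173426688, .ofNat 0, .ofNat 0, .ofNat 1461852932396127862572556052289288981708800, .ofNat 157275915283679383744301468969485729792, .ofNat 0, .ofNat 0, .ofNat 0, .ofNat 687911593350098794400307890970756644864, .ofNat 0, .ofNat 0, .ofNat 2550269469967408690580364004942004812251136, .ofNat 114307692338012248631369937962328391680, .ofNat 0⟩)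
    (by decide +kernel)
theorem L01192 : Good (Phi V5.P V5.D 1 1) ⟨4, 12, 3, 1, 2, 3, 2, 2, 5, 9⟩ :=
  leafX_sound T5.ok_pp T5.Ypp.bz_eq (w := 213) (c := ⟨⟨.negSucc 2707, .negSucc 229, .ofNat 2, .ofNat 316, .negSucc 452, .ofNat 177⟩, ⟨.negSucc 788, .negSucc 227, .negSucc 186, .ofNat 212, .negSucc 190, .ofNat 52⟩, ⟨.ofNat 1927, .ofNat 60, .negSucc 44, .negSucc 285, .ofNat 686, .negSucc 74⟩, ⟨.negSucc 4436, .negSucc 32, .ofNat 24, .ofNat 145, .negSucc 610, .ofNat 324⟩, ⟨.negSucc 165, .negSucc 56, .negSucc 75, .ofNat 1081, .negSucc 361, .negSucc 114⟩, .ofNat 565, .negSucc 528, .ofNat 0, .negSucc 528, .ofNat 1607, .ofNat 0, .ofNat 128, .ofNat 147, .ofNat 10, .ofNat 0, .ofNat 160, .ofNat 5, .ofNat 0, .ofNat 0, .ofNat 271, .ofNat 515, .ofNat 0, .ofNat 45389426464819423280213597128903660404736, .ofNat 2456498744230103172623551244311461888, .ofNat 0, .ofNat 0, .ofNat 0, .ofNat 86176506336768453020796533218610249728,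 .ofNat 0, .ofNat 0, .ofNat 0, .ofNat 532863943441265632971420562473581805568, .ofNat 0, .ofNat 0, .ofNat 2221564609498562987876704119075744939769856, .ofNat 0, .ofNat 0⟩)
    (by decide +kernel)
theorem L01193 : Good (Phi V5.P V5.D 1 1) ⟨4, 12, 2, 0, 2, 2, 2, 3, 4, 4⟩ :=
  leafX_sound T5.ok_pp T5.Ypp.bz_eq (w := 205) (c := ⟨⟨.negSucc 3064, .negSucc 384, .negSucc 2, .negSucc 371, .negSucc 987, .ofNat 331⟩, ⟨.negSucc 765, .negSucc 355, .negSucc 343, .negSucc 139, .negSucc 411, .ofNat 103⟩, ⟨.ofNat 2861, .ofNat 225, .negSucc 142, .ofNat 26, .ofNat 770, .negSucc 277⟩, ⟨.negSucc 4975, .negSucc 165, .ofNat 55, .negSucc 575, .negSucc 1364, .ofNat 594⟩, ⟨.negSucc 624, .negSucc 88, .ofNat 105, .negSucc 100, .negSucc 692, .negSucc 152⟩, .ofNat 471, .negSucc 372, .ofNat 0, .negSucc 372, .ofNat 1245, .ofNat 0, .ofNat 190, .ofNat 128, .negSucc 51, .ofNat 0, .ofNat 113, .negSucc 12, .ofNat 0, .ofNat 0, .ofNat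 293, .ofNat 290, .ofNat 0, .ofNat 1041780398237470547286136669434657374208, .ofNat 166101097981267114115861085685809152, .ofNat 0, .ofNat 0, .ofNat 47628899603391995840990969601830680526848, .ofNat 431035466162649201890331968269189120, .ofNat 0, .ofNat 0, .ofNat 79431557783475387220017024640184257347584, .ofNat 790466129153968075027099875819913216, .ofNat 0, .ofNat 0, .ofNat 42671640125644601155575996940685049593856, .ofNat 112793473337141136595801409262190592, .ofNat 0⟩)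
    (by decide +kernel)
theorem L01194 : Good (Phi V5.P V5.D 1 1) ⟨4, 12, 2, 0, 2, 3, 2, 3, 4, 4⟩ :=
  leafX_sound T5.ok_pp T5.Ypp.bz_eq (w := 207) (c := ⟨⟨.negSucc 3472, .negSucc 386, .ofNat 39, .ofNat 149, .negSucc 677, .ofNat 618⟩, ⟨.negSucc 833, .negSucc 348, .negSucc 407, .ofNat 131, .negSucc 303, .ofNat 182⟩, ⟨.ofNat 2822, .ofNat 146, .negSucc 77, .negSucc 388, .ofNat 808, .negSucc 347⟩, ⟨.negSucc 5689, .negSucc 167, .ofNat 147, .negSucc 82, .negSucc 924, .ofNat 1136⟩, ⟨.negSucc 442, .negSucc 41, .negSucc 25, .ofNat 902, .negSucc 481, .negSucc 378⟩, .ofNat 163, .negSucc 29, .ofNat 0, .negSucc 29, .ofNat 225, .ofNat 0, .ofNat 171, .ofNat 39, .negSucc 71, .ofNat 0, .ofNat 128, .ofNat 16, .ofNat 0, .ofNat 0, .ofNat 246, .ofNat 922, .ofNat 0, .ofNat 8597555726330202897804672608790546219008, .ofNat 0, .ofNat 0, .ofNat 0, .ofNat 104091084734855305620050228645156586782720, .ofNat 79052690068709776068798057252126720,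 .ofNat 0, .ofNat 0, .ofNat 221706840712939337337173212759846075498496, .ofNat 505292416174956612683044321576878080, .ofNat 0, .ofNat 0, .ofNat 120097949227445788323096192039385483444224, .ofNat 0, .ofNat 0⟩)
    (by decide +kernel)
theorem L01195 : Good (Phi V5.P V5.D 1 1) ⟨4, 13, 2, 0, 1, 1, 1, 1, 4, 4⟩ :=
  out_sound (S := T5.ds_pp) T5.ok_pp (w := 49) (j := 3) (by decide +kernel)
theorem L01196 : Good (Phi V5.P V5.D 1 1) ⟨3, 7, 2, 0, 1, 1, 1, 1, 4, 4⟩ :=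
  out_sound (S := T5.ds_pp) T5.ok_pp (w := 43) (j := 3) (by decide +kernel)
theorem L01197 : Good (Phi V5.P V5.D 1 1) ⟨2, 2, 2, 0, 2, 2, 2, 2, 4, 5⟩ :=
  leafX_sound T5.ok_pp T5.Ypp.bz_eq (w := 198) (c := ⟨⟨.negSucc 1663, .negSucc 728, .negSucc 33, .negSucc 115, .negSucc 282, .ofNat 179⟩, ⟨.negSucc 7, .negSucc 543, .negSucc 309, .negSucc 31, .negSucc 77, .ofNat 43⟩, ⟨.ofNat 1594, .ofNat 499, .negSucc 159, .negSucc 45, .ofNat 475, .negSucc 41⟩, ⟨.negSucc 3758, .negSucc 176, .ofNat 46, .negSucc 213, .negSucc 435, .ofNat 337⟩, ⟨.negSucc 340, .ofNat 2, .negSucc 2, .negSucc 31, .negSucc 229, .negSucc 65⟩, .ofNat 323, .negSucc 80, .ofNat 0, .negSucc 80, .ofNat 720, .ofNat 0, .ofNat 138, .ofNat 50, .negSucc 28, .ofNat 0, .ofNat 128, .negSucc 1, .ofNat 0, .ofNat 0, .ofNat 404, .ofNat 1042, .ofNat 0, .ofNat 0, .ofNat 0, .ofNat 0, .ofNat 0, .ofNat 81045740504811859118371537718066806784, .ofNat 0, .ofNat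 0, .ofNat 0, .ofNat 0, .ofNat 0, .ofNat 0, .ofNat 0, .ofNat 210275759824834585777565295195413544960, .ofNat 2337414851545559314245460589692321792, .ofNat 0⟩)
    (by decide +kernel)
theorem L01198 : Good (Phi V5.P V5.D 1 1) ⟨2, 2, 2, 0, 2, 3, 2, 2, 4, 5⟩ :=
  leafX_sound T5.ok_pp T5.Ypp.bz_eq (w := 196) (c := ⟨⟨.negSucc 1807, .negSucc 693, .negSucc 6, .ofNat 105, .negSucc 287, .ofNat 273⟩, ⟨.negSucc 4, .negSucc 537, .negSucc 336, .ofNat 53, .negSucc 91, .ofNat 43⟩, ⟨.ofNat 1604, .ofNat 306, .negSucc 123, .negSucc 124, .ofNat 639, .negSucc 61⟩, ⟨.negSucc 4039, .negSucc 121, .ofNat 87, .ofNat 36, .negSucc 439, .ofNat 523⟩, ⟨.negSucc 250, .ofNat 57, .negSucc 109, .ofNat 552, .negSucc 252, .negSucc 114⟩, .ofNat 322, .negSucc 79, .ofNat 0, .negSucc 79, .ofNat 717, .ofNat 0, .ofNat 207, .ofNat 40, .negSucc 6, .ofNat 0, .ofNat 128, .ofNat 1, .ofNat 0, .ofNat 0, .ofNat 224, .ofNat 268, .ofNat 0, .ofNat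 4122845153657871916874342068192804864, .ofNat 225622687402245846869168768669450240, .ofNat 0, .ofNat 0, .ofNat 0, .ofNat 0, .ofNat 0, .ofNat 0, .ofNat 0, .ofNat 0, .ofNat 0, .ofNat 0, .ofNat 231549184189567166800655287763158958080, .ofNat 186344380860194049528248193999962112, .ofNat 0⟩)
    (by decide +kernel)
theorem L01199 : Good (Phi V5.P V5.D 1 1) ⟨2, 2, 2, 0, 1, 1, 2, 3, 4, 5⟩ :=
  leafX_sound T5.ok_pp T5.Ypp.bz_eq (w := 183) (c := ⟨⟨.negSucc 1805, .negSucc 929, .negSucc 38, .negSucc 551, .negSucc 495, .ofNat 166⟩, ⟨.negSucc 15, .negSucc 664, .negSucc 330, .negSucc 144, .negSucc 79, .ofNat 65⟩, ⟨.ofNat 1891, .ofNat 767, .negSucc 258, .ofNat 483, .ofNat 257, .negSucc 188⟩, ⟨.negSucc 4060, .negSucc 385, .ofNat 76, .negSucc 879, .negSucc 843, .ofNat 286⟩, ⟨.negSucc 487, .negSucc 174, .ofNat 67, .negSucc 704, .negSucc 437, .negSucc 67⟩, .ofNat 322, .negSucc 83, .ofNat 0, .negSucc 83, .ofNat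 719, .ofNat 0, .ofNat 143, .ofNat 57, .negSucc 25, .ofNat 0, .ofNat 128, .negSucc 4, .ofNat 0, .ofNat 0, .ofNat 269, .ofNat 249, .ofNat 0, .ofNat 2498556433593622954734726594691072, .ofNat 0, .ofNat 0, .ofNat 0, .ofNat 67659329268506257556335151753986048, .ofNat 0, .ofNat 0, .ofNat 0, .ofNat 55495259695166894898640167119093760, .ofNat 519804267649477392155770345226240, .ofNat 0, .ofNat 0, .ofNat 71909718062479728211096291835379712, .ofNat 0, .ofNat 0⟩)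
    (by decide +kernel)
theorem L01200 : Good (Phi V5.P V5.D 1 1) ⟨4, 12, 2, 0, 2, 2, 2, 2, 4, 5⟩ :=
  leafX_sound T5.ok_pp T5.Ypp.bz_eq (w := 207) (c := ⟨⟨.negSucc 2434, .negSucc 208, .negSucc 17, .negSucc 91, .negSucc 390, .ofNat 242⟩, ⟨.negSucc 583, .negSucc 232, .negSucc 303, .negSucc 35, .negSucc 168, .ofNat 81⟩, ⟨.ofNat 2160, .ofNat 84, .negSucc 133, .negSucc 173, .ofNat 512, .negSucc 157⟩, ⟨.negSucc 4010, .negSucc 22, .ofNat 69, .negSucc 135, .negSucc 521, .ofNat 410⟩, ⟨.negSucc 337, .ofNat 34, .negSucc 48, .negSucc 47, .negSucc 318, .negSucc 54⟩, .ofNat 473, .negSucc 378, .ofNat 0, .negSucc 378, .ofNat 1258, .ofNat 0, .ofNat 128, .ofNat 176, .negSucc 29, .ofNat 0, .ofNat 165, .negSucc 7, .ofNat 0, .ofNat 0, .ofNat 398, .ofNat 1467, .ofNat 0, .ofNat 0, .ofNat 0, .ofNat 0, .ofNat 0, .ofNat 19400500556114845552146881885960281260032, .ofNat 3931926977241018272333773440651624448, .ofNat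 0, .ofNat 0, .ofNat 0, .ofNat 0, .ofNat 0, .ofNat 0, .ofNat 60624215589741809629723381796452108861440, .ofNat 1821626691016532223295665393020960768, .ofNat 0⟩)
    (by decide +kernel)
theorem L01201 : Good (Phi V5.P V5.D 1 1) ⟨4, 12, 2, 0, 2, 2, 2, 3, 4, 5⟩ :=
  leafX_sound T5.ok_pp T5.Ypp.bz_eq (w := 205) (c := ⟨⟨.negSucc 2773, .negSucc 332, .negSucc 4, .negSucc 357, .negSucc 816, .ofNat 207⟩, ⟨.negSucc 712, .negSucc 320, .negSucc 300, .negSucc 169, .negSucc 350, .ofNat 65⟩, ⟨.ofNat 2733, .ofNat 238, .negSucc 293, .ofNat 104, .ofNat 438, .negSucc 265⟩, ⟨.negSucc 4493, .negSucc 131, .ofNat 89, .negSucc 433, .negSucc 1099, .ofNat 362⟩, ⟨.negSucc 667, .negSucc 63, .ofNat 37, .negSucc 406, .negSucc 633, .negSucc 51⟩, .ofNat 314, .negSucc 143, .ofNat 0, .negSucc 143, .ofNat 614, .ofNat 0, .ofNat 176, .ofNat 92, .negSucc 26, .ofNat 0, .ofNat 128, .negSucc 7, .ofNat 0, .ofNat 0, .ofNat 230, .ofNat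 291, .ofNat 0, .ofNat 2605404230318497064105304969123991650304, .ofNat 30636886838189340572428316444721152, .ofNat 0, .ofNat 0, .ofNat 45656459417150839127346761537745615585280, .ofNat 670579142724335487546337979734687744, .ofNat 0, .ofNat 0, .ofNat 87056626512562386142591299959455119048704, .ofNat 55525780361457150293173004497059840, .ofNat 0, .ofNat 0, .ofNat 51217333775867451048065856236050041536512, .ofNat 118960460089895788508703492489084928, .ofNat 0⟩)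
    (by decide +kernel)
theorem L01202 : Good (Phi V5.P V5.D 1 1) ⟨4, 13, 2, 0, 2, 2, 1, 1, 4, 5⟩ :=
  out_sound (S := T5.ds_pp) T5.ok_pp (w := 49) (j := 3) (by decide +kernel)
theorem L01203 : Good (Phi V5.P V5.D 1 1) ⟨3, 7, 2, 0, 2, 2, 1, 1, 4, 5⟩ :=
  out_sound (S := T5.ds_pp) T5.ok_pp (w := 43) (j := 3) (by decide +kernel)
theorem L01204 : Good (Phi V5.P V5.D 1 1) ⟨2, 3, 2, 0, 2, 3, 2, 2, 4, 5⟩ :=
  leafX_sound T5.ok_pp T5.Ypp.bz_eq (w := 198) (c := ⟨⟨.negSucc 2526, .negSucc 873, .ofNat 3, .ofNat 209, .negSucc 399, .ofNat 305⟩, ⟨.negSucc 592, .negSucc 912, .negSucc 316, .ofNat 128, .negSucc 178, .ofNat 91⟩, ⟨.ofNat 1921, .ofNat 212, .negSucc 116, .negSucc 290, .ofNat 673, .negSucc 137⟩, ⟨.negSucc 4170, .negSucc 121, .ofNat 86, .ofNat 104, .negSucc 524, .ofNat 536⟩, ⟨.negSucc 193, .ofNat 4, .negSucc 128, .ofNat 677, .negSucc 363, .negSucc 111⟩, .ofNat 314, .negSucc 142, .ofNat 0, .negSucc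 142, .ofNat 613, .ofNat 0, .ofNat 159, .ofNat 76, .negSucc 8, .ofNat 0, .ofNat 128, .ofNat 2, .ofNat 0, .ofNat 0, .ofNat 230, .ofNat 1151, .ofNat 0, .ofNat 11482630924509371018009363787238342656, .ofNat 2066761464221823072574115242653515776, .ofNat 0, .ofNat 0, .ofNat 172591205984765376308158498563313106944, .ofNat 15469742536746985861466838601285238784, .ofNat 0, .ofNat 0, .ofNat 877703937245044414024409314499294658560, .ofNat 16934567745708618439715569315679830016, .ofNat 0, .ofNat 0, .ofNat 290709722107265103936582380094601822208, .ofNat 2086630695355363912025917221614125056, .ofNat 0⟩)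
    (by decide +kernel)
theorem L01205 : Good (Phi V5.P V5.D 1 1) ⟨2, 3, 2, 0, 2, 3, 2, 3, 4, 5⟩ :=
  out_sound (S := T5.ds_pp) T5.ok_pp (w := 30) (j := 2) (by decide +kernel)
theorem L01206 : Good (Phi V5.P V5.D 1 1) ⟨2, 2, 2, 0, 2, 2, 2, 2, 3, 3⟩ :=
  leafX_sound T5.ok_pp T5.Ypp.bz_eq (w := 192) (c := ⟨⟨.negSucc 1555, .negSucc 657, .negSucc 17, .negSucc 79, .negSucc 227, .ofNat 300⟩, ⟨.negSucc 5, .negSucc 496, .negSucc 283, .negSucc 20, .negSucc 50, .ofNat 50⟩, ⟨.ofNat 1657, .ofNat 424, .negSucc 254, .negSucc 8, .ofNat 300, .negSucc 168⟩, ⟨.negSucc 3509, .negSucc 126, .ofNat 64, .negSucc 121, .negSucc 377, .ofNat 569⟩, ⟨.negSucc 371, .negSucc 28, .ofNat 9, .negSucc 120, .negSucc 196, .negSucc 15⟩, .ofNat 320, .negSucc 86, .ofNat 0, .negSucc 86, .ofNat 716, .ofNat 0, .ofNat 165, .ofNat 54, .negSucc 17, .ofNat 0, .ofNat 128, .negSucc 5, .ofNat 0, .ofNat 0, .ofNat 583, .ofNat 717, .ofNat 0,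 .ofNat 0, .ofNat 0, .ofNat 0, .ofNat 0, .ofNat 30779793839444972605269957000998944768, .ofNat 0, .ofNat 0, .ofNat 0, .ofNat 0, .ofNat 0, .ofNat 0, .ofNat 0, .ofNat 103490706976230210470814482541622329344, .ofNat 95117812309951985938679372416286720, .ofNat 0⟩)
    (by decide +kernel)
theorem L01207 : Good (Phi V5.P V5.D 1 1) ⟨2, 3, 2, 0, 2, 2, 2, 2, 3, 3⟩ :=
  leafX_sound T5.ok_pp T5.Ypp.bz_eq (w := 194) (c := ⟨⟨.negSucc 2214, .negSucc 796, .negSucc 27, .negSucc 74, .negSucc 336, .ofNat 341⟩, ⟨.negSucc 548, .negSucc 888, .negSucc 264, .negSucc 35, .negSucc 141, .ofNat 113⟩, ⟨.ofNat 2185, .ofNat 528, .negSucc 306, .negSucc 208, .ofNat 372, .negSucc 338⟩, ⟨.negSucc 3613, .negSucc 45, .ofNat 25, .negSucc 84, .negSucc 453, .ofNat 568⟩, ⟨.negSucc 388, .negSucc 66, .negSucc 16, .negSucc 108, .negSucc 278, .negSucc 16⟩, .ofNat 314, .negSucc 141, .ofNat 0, .negSucc 141, .ofNat 614, .ofNat 0, .ofNat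 137, .ofNat 83, .negSucc 25, .ofNat 0, .ofNat 128, .negSucc 11, .ofNat 0, .ofNat 0, .ofNat 758, .ofNat 1443, .ofNat 0, .ofNat 0, .ofNat 35498632038393054191521348215373824, .ofNat 0, .ofNat 0, .ofNat 34249890859950260165336412971029495808, .ofNat 1076374301757371487580012104294334464, .ofNat 0, .ofNat 0, .ofNat 0, .ofNat 2091096571080616339885528350692737024, .ofNat 0, .ofNat 0, .ofNat 167328596500952146757499560532006404096, .ofNat 223805426080851379518191405610565632, .ofNat 0⟩)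
    (by decide +kernel)
theorem L01208 : Good (Phi V5.P V5.D 1 1) ⟨1, 1, 2, 0, 2, 2, 2, 3, 3, 3⟩ :=
  leafX_sound T5.ok_pp T5.Ypp.bz_eq (w := 188) (c := ⟨⟨.negSucc 1687, .negSucc 1717, .negSucc 52, .negSucc 225, .negSucc 518, .ofNat 270⟩, ⟨.ofNat 31, .negSucc 1377, .negSucc 306, .negSucc 107, .negSucc 107, .ofNat 106⟩, ⟨.ofNat 1759, .ofNat 1496, .negSucc 338, .ofNat 208, .ofNat 123, .negSucc 497⟩, ⟨.negSucc 3807, .negSucc 648, .ofNat 60, .negSucc 312, .negSucc 782, .ofNat 507⟩, ⟨.negSucc 504, .negSucc 432, .ofNat 43, .negSucc 386, .negSucc 359, .negSucc 19⟩, .ofNat 168, .negSucc 17, .ofNat 0, .negSucc 17, .ofNat 239, .ofNat 0, .ofNat 128, .ofNat 25, .negSucc 12, .ofNat 0, .ofNat 150, .negSucc 6, .ofNat 0, .ofNat 0, .ofNat 140, .ofNat 452, .ofNat 0, .ofNat 145452110915694379566956404245790720, .ofNat 108134669570293960316555703619682304, .ofNat 0, .ofNat 0, .ofNat 3116849710834731038755833611491999744,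 .ofNat 243405148384196191408506755365208064, .ofNat 0, .ofNat 0, .ofNat 4267240241825322244068305468437561344, .ofNat 739488867338252109688754211112615936, .ofNat 0, .ofNat 0, .ofNat 1880650315084933747216982578435194880, .ofNat 127926805363612579783282058625810432, .ofNat 0⟩)
    (by decide +kernel)
theorem L01209 : Good (Phi V5.P V5.D 1 1) ⟨1, 1, 2, 0, 2, 3, 1, 1, 3, 3⟩ :=
  out_sound (S := T5.ds_pp) T5.ok_pp (w := 26) (j := 2) (by decide +kernel)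
theorem L01210 : Good (Phi V5.P V5.D 1 1) ⟨2, 2, 2, 0, 4, 8, 3, 4, 4, 8⟩ :=
  out_sound (S := T5.ds_pp) T5.ok_pp (w := 29) (j := 1) (by decide +kernel)
theorem L01211 : Good (Phi V5.P V5.D 1 1) ⟨2, 2, 2, 0, 4, 8, 3, 5, 4, 8⟩ :=
  out_sound (S := T5.ds_pp) T5.ok_pp (w := 36) (j := 2) (by decide +kernel)
theorem L01212 : Good (Phi V5.P V5.D 1 1) ⟨4, 12, 2, 0, 4, 8, 3, 4, 4, 8⟩ :=
  out_sound (S := T5.ds_pp) T5.ok_pp (w := 29) (j := 1) (by decide +kernel)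
theorem L01213 : Good (Phi V5.P V5.D 1 1) ⟨4, 12, 2, 0, 4, 8, 3, 5, 4, 8⟩ :=
  out_sound (S := T5.ds_pp) T5.ok_pp (w := 36) (j := 2) (by decide +kernel)
theorem L01214 : Good (Phi V5.P V5.D 1 1) ⟨4, 13, 2, 0, 4, 8, 2, 2, 4, 8⟩ :=
  out_sound (S := T5.ds_pp) T5.ok_pp (w := 49) (j := 3) (by decide +kernel)
theorem L01215 : Good (Phi V5.P V5.D 1 1) ⟨3, 7, 2, 0, 4, 8, 2, 2, 4, 8⟩ :=
  out_sound (S := T5.ds_pp) T5.ok_pp (w := 43) (j := 3) (by decide +kernel)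
theorem L01216 : Good (Phi V5.P V5.D 1 1) ⟨1, 1, 2, 0, 4, 8, 2, 2, 4, 9⟩ :=
  out_sound (S := T5.ds_pp) T5.ok_pp (w := 28) (j := 1) (by decide +kernel)
theorem L01217 : Good (Phi V5.P V5.D 1 1) ⟨1, 1, 2, 0, 4, 9, 2, 2, 3, 4⟩ :=
  out_sound (S := T5.ds_pp) T5.ok_pp (w := 32) (j := 2) (by decide +kernel)
theorem L01218 : Good (Phi V5.P V5.D 1 1) ⟨1, 1, 2, 0, 3, 4, 2, 3, 3, 4⟩ :=
  out_sound (S := T5.ds_pp) T5.ok_pp (w := 30) (j := 2) (by decide +kernel)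
theorem L01219 : Good (Phi V5.P V5.D 1 1) ⟨1, 1, 2, 0, 3, 4, 1, 1, 3, 5⟩ :=
  out_sound (S := T5.ds_pp) T5.ok_pp (w := 28) (j := 2) (by decide +kernel)
theorem L01220 : Good (Phi V5.P V5.D 1 1) ⟨1, 1, 2, 0, 3, 5, 1, 1, 2, 2⟩ :=
  out_sound (S := T5.ds_pp) T5.ok_pp (w := 26) (j := 2) (by decide +kernel)
theorem L01221 : Good (Phi V5.P V5.D 1 1) ⟨1, 1, 2, 0, 2, 2, 1, 1, 2, 3⟩ :=
  out_sound (S := T5.ds_pp) T5.ok_pp (w := 24) (j := 2) (by decide +kernel)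
theorem L01222 : Good (Phi V5.P V5.D 1 1) ⟨1, 1, 2, 0, 2, 3, 1, 1, 1, 1⟩ :=
  out_sound (S := T5.ds_pp) T5.ok_pp (w := 22) (j := 2) (by decide +kernel)
theorem L01223 : Good (Phi V5.P V5.D 1 1) ⟨3, 4, 3, 2, 2, 0, 1, 0, 4, 0⟩ :=
  out_sound (S := T5.ds_pp) T5.ok_pp (w := 45) (j := 3) (by decide +kernel)
theorem L01224 : Good (Phi V5.P V5.D 1 1) ⟨4, 10, 3, 2, 2, 0, 1, 0, 4, 0⟩ :=
  out_sound (S := T5.ds_pp) T5.ok_pp (w := 51) (j := 3) (by decide +kernel)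
theorem L01225 : Good (Phi V5.P V5.D 1 1) ⟨4, 11, 3, 2, 2, 0, 2, 0, 4, 0⟩ :=
  leafX_sound T5.ok_pp T5.Ypp.bz_eq (w := 208) (c := ⟨⟨.ofNat 1188, .ofNat 294, .ofNat 35, .ofNat 493, .ofNat 364, .negSucc 2912⟩, ⟨.ofNat 381, .ofNat 132, .ofNat 59, .ofNat 153, .ofNat 136, .negSucc 977⟩, ⟨.negSucc 1127, .negSucc 275, .negSucc 149, .negSucc 360, .negSucc 438, .ofNat 2840⟩, ⟨.ofNat 2123, .ofNat 410, .ofNat 128, .ofNat 972, .ofNat 606, .negSucc 5153⟩, ⟨.negSucc 69, .negSucc 46, .negSucc 4, .negSucc 359, .ofNat 19, .ofNat 325⟩, .ofNat 533, .negSucc 539, .ofNat 0, .negSucc 539, .ofNat 1868, .ofNat 0, .ofNat 128, .ofNat 158, .negSucc 298, .ofNat 0, .ofNat 111, .negSucc 90, .ofNat 0, .ofNat 0, .ofNat 536, .ofNat 1460, .ofNat 0, .ofNat 0, .ofNat 92377683112678642784953879278649344, .ofNat 0, .ofNat 0, .ofNat 0, .ofNat 1804102106922063118397027754560192512, .ofNat 0, .ofNat 0, .ofNat 0, .ofNat 6449500584398667805971512767769739264,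 .ofNat 0, .ofNat 0, .ofNat 0, .ofNat 0, .ofNat 0⟩)
    (by decide +kernel)

end Crest.Agent.R097C5.N5pp
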