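import Crest.Agent.R097.KP7
import Crest.Agent.R097.T5Ypp

/-!
# Row 97, box cover in dimension n = 5 (generated)
-/

set_option autoImplicit false
set_option Elab.async false
set_option maxHeartbeats 0
set_option maxRecDepth 100000

open Crest.Agent.R097 Crest.Agent.R097.KA


namespace Crest.Agent.R097C5.N5pp

theorem L01226 : Good (Phi V5.P V5.D 1 1) ⟨4, 11, 3, 2, 2, 0, 2, 1, 4, 0⟩ :=
  leafX_sound T5.ok_pp T5.Ypp.bz_eq (w := 209) (c := ⟨⟨.ofNat 1676, .ofNat 14, .ofNat 140, .ofNat 625, .negSucc 661, .negSucc 3449⟩, ⟨.ofNat 568, .ofNat 44, .ofNat 43, .ofNat 204, .negSucc 227, .negSucc 1209⟩, ⟨.negSucc 1739, .negSucc 28, .negSucc 122, .negSucc 464, .ofNat 660, .ofNat 3395⟩, ⟨.ofNat 2952, .ofNat 41, .ofNat 269, .ofNat 1111, .negSucc 1179, .negSucc 6045⟩, ⟨.negSucc 94, .negSucc 64, .negSucc 180, .negSucc 56, .negSucc 12, .ofNat 284⟩, .ofNat 538, .negSucc 550, .ofNat 0, .negSucc 550,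 .ofNat 1872, .ofNat 0, .ofNat 128, .ofNat 137, .negSucc 437, .ofNat 0, .ofNat 96, .negSucc 135, .ofNat 0, .ofNat 0, .ofNat 674, .ofNat 513, .ofNat 0, .ofNat 0, .ofNat 0, .ofNat 0, .ofNat 0, .ofNat 0, .ofNat 0, .ofNat 0, .ofNat 0, .ofNat 0, .ofNat 4222174122829925397174488937296560128, .ofNat 0, .ofNat 0, .ofNat 0, .ofNat 0, .ofNat 0⟩)
    (by decide +kernel)
theorem L01227 : Good (Phi V5.P V5.D 1 1) ⟨2, 2, 3, 3, 2, 0, 1, 0, 4, 0⟩ :=
  out_sound (S := T5.ds_pp) T5.ok_pp (w := 39) (j := 3) (by decide +kernel)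
theorem L01228 : Good (Phi V5.P V5.D 1 1) ⟨3, 6, 2, 1, 2, 0, 3, 0, 5, 0⟩ :=
  leafX_sound T5.ok_pp T5.Ypp.bz_eq (w := 211) (c := ⟨⟨.ofNat 1632, .ofNat 341, .ofNat 43, .ofNat 323, .ofNat 555, .negSucc 1994⟩, ⟨.ofNat 606, .ofNat 194, .ofNat 283, .ofNat 152, .ofNat 302, .negSucc 963⟩, ⟨.negSucc 1664, .negSucc 304, .negSucc 15, .negSucc 4, .negSucc 607, .ofNat 1941⟩, ⟨.ofNat 2739, .ofNat 324, .ofNat 62, .ofNat 632, .ofNat 856, .negSucc 3305⟩, ⟨.negSucc 139, .negSucc 17, .negSucc 25, .negSucc 244, .negSucc 35, .ofNat 221⟩, .ofNat 334, .negSucc 198, .ofNat 0, .negSucc 198, .ofNat 623, .ofNat 0, .ofNat 128, .ofNat 156, .negSucc 589, .ofNat 0, .ofNat 183, .negSucc 210, .ofNat 0, .ofNat 0, .ofNat 847, .ofNat 4032, .ofNat 0, .ofNat 0, .ofNat 0, .ofNat 0, .ofNat 0, .ofNat 0, .ofNat 670412424216532985943130732742093832192, .ofNat 0, .ofNat 0, .ofNat 0, .ofNat 7821822546586219629389309432921820495872,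 .ofNat 0, .ofNat 0, .ofNat 0, .ofNat 11015080362103617243417840211056704618496, .ofNat 0⟩)
    (by decide +kernel)
theorem L01229 : Good (Phi V5.P V5.D 1 1) ⟨3, 6, 2, 1, 2, 0, 3, 1, 5, 0⟩ :=
  leafX_sound T5.ok_pp T5.Ypp.bz_eq (w := 211) (c := ⟨⟨.ofNat 2378, .ofNat 872, .negSucc 148, .ofNat 215, .ofNat 302, .negSucc 2734⟩, ⟨.ofNat 900, .ofNat 586, .ofNat 178, .ofNat 91, .ofNat 176, .negSucc 1304⟩, ⟨.negSucc 2427, .negSucc 832, .ofNat 182, .ofNat 163, .negSucc 375, .ofNat 2624⟩, ⟨.ofNat 3941, .ofNat 1124, .negSucc 238, .ofNat 406, .ofNat 430, .negSucc 4453⟩, ⟨.negSucc 136, .negSucc 391, .ofNat 45, .negSucc 146, .ofNat 46, .ofNat 424⟩, .ofNat 570, .negSucc 560, .ofNat 0, .negSucc 560, .ofNat 1384, .ofNat 0, .ofNat 128, .ofNat 189, .negSucc 500, .ofNat 0, .ofNat 154, .negSucc 214, .ofNat 0, .ofNat 0, .ofNat 701, .ofNat 918, .ofNat 0, .ofNat 0, .ofNat 0, .ofNat 0, .ofNat 0, .ofNat 0,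 .ofNat 1303300484066576216655667847742774837248, .ofNat 0, .ofNat 0, .ofNat 0, .ofNat 7141283614474949186900949155357747314688, .ofNat 0, .ofNat 0, .ofNat 0, .ofNat 7350742805341771958485051998553157664768, .ofNat 0⟩)
    (by decide +kernel)
theorem L01230 : Good (Phi V5.P V5.D 1 1) ⟨3, 6, 2, 1, 2, 0, 2, 0, 5, 1⟩ :=
  leafX_sound T5.ok_pp T5.Ypp.bz_eq (w := 206) (c := ⟨⟨.negSucc 295, .negSucc 203, .negSucc 21, .ofNat 645, .negSucc 113, .negSucc 1245⟩, ⟨.negSucc 73, .negSucc 214, .negSucc 47, .ofNat 258, .negSucc 45, .negSucc 551⟩, ⟨.ofNat 426, .ofNat 104, .ofNat 114, .negSucc 727, .ofNat 0, .ofNat 1196⟩, ⟨.negSucc 454, .negSucc 160, .ofNat 4, .ofNat 1164, .negSucc 246, .negSucc 2111⟩, ⟨.negSucc 125, .ofNat 29, .negSucc 29, .negSucc 266, .ofNat 133, .ofNat 169⟩, .ofNat 334, .negSucc 198, .ofNat 0, .negSucc 198, .ofNat 623, .ofNat 0, .ofNat 128, .ofNat 111, .negSucc 263, .ofNat 0, .ofNat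 130, .negSucc 92, .ofNat 0, .ofNat 0, .ofNat 403, .ofNat 1587, .ofNat 0, .ofNat 0, .ofNat 0, .ofNat 0, .ofNat 0, .ofNat 0, .ofNat 24047334612196107000344488866673065984, .ofNat 0, .ofNat 0, .ofNat 0, .ofNat 140507673897974977927326923747363913728, .ofNat 0, .ofNat 0, .ofNat 0, .ofNat 30567905027511818128717329116294021120, .ofNat 0⟩)
    (by decide +kernel)
theorem L01231 : Good (Phi V5.P V5.D 1 1) ⟨4, 12, 2, 1, 2, 0, 2, 1, 4, 0⟩ :=
  leafX_sound T5.ok_pp T5.Ypp.bz_eq (w := 206) (c := ⟨⟨.ofNat 2452, .ofNat 56, .negSucc 95, .ofNat 586, .negSucc 713, .negSucc 4454⟩, ⟨.ofNat 1025, .negSucc 68, .ofNat 129, .ofNat 248, .negSucc 285, .negSucc 1889⟩, ⟨.negSucc 2502, .negSucc 82, .ofNat 132, .negSucc 354, .ofNat 682, .ofNat 4377⟩, ⟨.ofNat 3990, .negSucc 62, .ofNat 101, .ofNat 1033, .negSucc 1159, .negSucc 7304⟩, ⟨.negSucc 227, .ofNat 525, .negSucc 377, .negSucc 244, .negSucc 73, .ofNat 307⟩,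 .ofNat 614, .negSucc 677, .ofNat 0, .negSucc 677, .ofNat 1769, .ofNat 0, .ofNat 128, .ofNat 178, .negSucc 507, .ofNat 0, .ofNat 126, .negSucc 206, .ofNat 0, .ofNat 0, .ofNat 713, .ofNat 350, .ofNat 0, .ofNat 0, .ofNat 0, .ofNat 0, .ofNat 0, .ofNat 0, .ofNat 1329728779922882409905484129690976256, .ofNat 0, .ofNat 0, .ofNat 0, .ofNat 1666529605077788026539799889749999616, .ofNat 0, .ofNat 0, .ofNat 0, .ofNat 0, .ofNat 0⟩)
    (by decide +kernel)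
theorem L01232 : Good (Phi V5.P V5.D 1 1) ⟨4, 13, 2, 1, 2, 0, 2, 1, 4, 0⟩ :=
  leafX_sound T5.ok_pp T5.Ypp.bz_eq (w := 207) (c := ⟨⟨.ofNat 2737, .ofNat 743, .negSucc 552, .ofNat 1029, .negSucc 781, .negSucc 5005⟩, ⟨.ofNat 1470, .ofNat 649, .negSucc 445, .ofNat 569, .negSucc 424, .negSucc 2629⟩, ⟨.negSucc 2889, .negSucc 817, .ofNat 758, .negSucc 681, .ofNat 745, .ofNat 4827⟩, ⟨.ofNat 4128, .ofNat 857, .negSucc 583, .ofNat 1560, .negSucc 1222, .negSucc 7685⟩, ⟨.negSucc 63, .ofNat 177, .negSucc 304, .negSucc 43, .ofNat 125, .ofNat 303⟩, .ofNat 744, .negSucc 805, .ofNat 0, .negSucc 805, .ofNat 1713, .ofNat 0, .ofNat 128, .ofNat 181, .negSucc 634, .ofNat 0, .ofNat 152, .negSucc 302, .ofNat 0, .ofNat 0, .ofNat 847, .ofNat 278, .ofNat 0, .ofNat 0, .ofNat 48726833459214603289328773415043072, .ofNat 0, .ofNat 0, .ofNat 0, .ofNat 4108429600625026170939160703822462976, .ofNat 0, .ofNat 0, .ofNat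 0, .ofNat 4408255606046666688494820927733760000, .ofNat 0, .ofNat 0, .ofNat 0, .ofNat 9110454456262892383932070074324615168, .ofNat 0⟩)
    (by decide +kernel)
theorem L01233 : Good (Phi V5.P V5.D 1 1) ⟨3, 7, 2, 1, 2, 0, 1, 0, 4, 0⟩ :=
  out_sound (S := T5.ds_pp) T5.ok_pp (w := 43) (j := 3) (by decide +kernel)
theorem L01234 : Good (Phi V5.P V5.D 1 1) ⟨2, 2, 2, 1, 2, 0, 1, 0, 4, 1⟩ :=
  leafX_sound T5.ok_pp T5.Ypp.bz_eq (w := 193) (c := ⟨⟨.negSucc 1048, .negSucc 626, .ofNat 346, .ofNat 526, .negSucc 308, .negSucc 842⟩, ⟨.negSucc 13, .negSucc 582, .negSucc 131, .ofNat 179, .negSucc 109, .negSucc 290⟩, ⟨.ofNat 1250, .ofNat 458, .negSucc 151, .negSucc 689, .ofNat 227, .ofNat 897⟩, ⟨.negSucc 2704, .negSucc 38, .ofNat 538, .ofNat 947, .negSucc 565, .negSucc 1453⟩, ⟨.ofNat 67, .negSucc 154, .ofNat 115, .negSucc 144, .ofNat 121, .ofNat 25⟩, .ofNat 533, .negSucc 537, .ofNat 0, .negSucc 537,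 .ofNat 1856, .ofNat 0, .ofNat 128, .ofNat 130, .negSucc 172, .ofNat 0, .ofNat 93, .negSucc 51, .ofNat 0, .ofNat 0, .ofNat 391, .ofNat 1247, .ofNat 0, .ofNat 0, .ofNat 0, .ofNat 0, .ofNat 0, .ofNat 0, .ofNat 2792261682192089403401999073499152384, .ofNat 0, .ofNat 0, .ofNat 0, .ofNat 3894313675415710496445871551313608704, .ofNat 0, .ofNat 0, .ofNat 0, .ofNat 3419278111176334699243953690186350592, .ofNat 0⟩)
    (by decide +kernel)
theorem L01235 : Good (Phi V5.P V5.D 1 1) ⟨2, 3, 2, 1, 2, 0, 1, 0, 4, 1⟩ :=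
  leafX_sound T5.ok_pp T5.Ypp.bz_eq (w := 192) (c := ⟨⟨.negSucc 1694, .negSucc 1205, .ofNat 59, .ofNat 683, .negSucc 350, .negSucc 970⟩, ⟨.negSucc 564, .negSucc 786, .negSucc 328, .ofNat 329, .negSucc 163, .negSucc 455⟩, ⟨.ofNat 1814, .ofNat 1055, .negSucc 41, .negSucc 918, .ofNat 268, .ofNat 1006⟩, ⟨.negSucc 2804, .negSucc 1098, .ofNat 160, .ofNat 1134, .negSucc 631, .negSucc 1537⟩, ⟨.negSucc 79, .ofNat 217, .ofNat 9, .negSucc 141, .ofNat 98, .ofNat 34⟩, .ofNat 336, .negSucc 201, .ofNat 0, .negSucc 201, .ofNat 649, .ofNat 0, .ofNat 143, .ofNat 111, .negSucc 267, .ofNat 0, .ofNat 128, .negSucc 89, .ofNat 0, .ofNat 0, .ofNat 519, .ofNat 312, .ofNat 0, .ofNat 0, .ofNat 20282002887987165614468320794247168, .ofNat 0, .ofNat 0, .ofNat 0, .ofNat 60569990140953786263747897845612544, .ofNat 0, .ofNat 0, .ofNat 0, .ofNat 202594968020369142664392927415894016, .ofNat 57442954557913386397278339167969165180928,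 .ofNat 0, .ofNat 0, .ofNat 277774924004302919566395866135658496, .ofNat 0⟩)
    (by decide +kernel)
theorem L01236 : Good (Phi V5.P V5.D 1 1) ⟨3, 4, 2, 1, 2, 1, 1, 0, 4, 0⟩ :=
  out_sound (S := T5.ds_pp) T5.ok_pp (w := 43) (j := 3) (by decide +kernel)
theorem L01237 : Good (Phi V5.P V5.D 1 1) ⟨3, 5, 2, 1, 2, 1, 2, 0, 4, 0⟩ :=
  leafX_sound T5.ok_pp T5.Ypp.bz_eq (w := 201) (c := ⟨⟨.ofNat 1257, .ofNat 570, .negSucc 505, .ofNat 605, .ofNat 700, .negSucc 2629⟩, ⟨.ofNat 356, .ofNat 260, .ofNat 66, .ofNat 217, .ofNat 274, .negSucc 917⟩, ⟨.negSucc 915, .negSucc 408, .ofNat 476, .negSucc 212, .negSucc 606, .ofNat 1629⟩, ⟨.ofNat 2519, .ofNat 690, .negSucc 746, .ofNat 1004, .ofNat 1039, .negSucc 4556⟩, ⟨.negSucc 342, .ofNat 15, .negSucc 7, .ofNat 70, .ofNat 354, .negSucc 133⟩, .ofNat 328, .negSucc 164, .ofNat 0, .negSucc 164, .ofNat 725, .ofNat 0, .ofNat 250, .ofNat 121, .negSucc 368, .ofNat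 0, .ofNat 128, .negSucc 76, .ofNat 0, .ofNat 0, .ofNat 670, .ofNat 1449, .ofNat 0, .ofNat 0, .ofNat 34090683949372665326327042616066048, .ofNat 0, .ofNat 0, .ofNat 0, .ofNat 3238740940815095685523863513568641024, .ofNat 0, .ofNat 0, .ofNat 0, .ofNat 7756630612370262623617298585446514688, .ofNat 0, .ofNat 0, .ofNat 0, .ofNat 0, .ofNat 0⟩)
    (by decide +kernel)
theorem L01238 : Good (Phi V5.P V5.D 1 1) ⟨3, 5, 2, 1, 2, 1, 2, 1, 4, 0⟩ :=
  leafX_sound T5.ok_pp T5.Ypp.bz_eq (w := 202) (c := ⟨⟨.ofNat 2103, .ofNat 361, .ofNat 275, .ofNat 761, .negSucc 427, .negSucc 3460⟩, ⟨.ofNat 639, .ofNat 229, .ofNat 337, .ofNat 258, .negSucc 138, .negSucc 1209⟩, ⟨.negSucc 1733, .negSucc 233, .negSucc 539, .negSucc 391, .ofNat 364, .ofNat 2680⟩, ⟨.ofNat 3858, .ofNat 331, .ofNat 587, .ofNat 1277, .negSucc 834, .negSucc 5924⟩, ⟨.negSucc 129, .ofNat 32, .negSucc 453, .ofNat 96, .ofNat 198, .ofNat 32⟩,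 .ofNat 536, .negSucc 543, .ofNat 0, .negSucc 543, .ofNat 1835, .ofNat 0, .ofNat 128, .ofNat 175, .negSucc 308, .ofNat 0, .ofNat 112, .negSucc 92, .ofNat 0, .ofNat 0, .ofNat 481, .ofNat 617, .ofNat 0, .ofNat 0, .ofNat 0, .ofNat 0, .ofNat 0, .ofNat 0, .ofNat 559017828241056102311286084500193280, .ofNat 0, .ofNat 0, .ofNat 0, .ofNat 6865117967541772815019076406099312640, .ofNat 0, .ofNat 0, .ofNat 0, .ofNat 7106739418265978922145455292658221056, .ofNat 0⟩)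
    (by decide +kernel)
theorem L01239 : Good (Phi V5.P V5.D 1 1) ⟨2, 2, 2, 1, 2, 1, 1, 0, 4, 1⟩ :=
  leafX_sound T5.ok_pp T5.Ypp.bz_eq (w := 193) (c := ⟨⟨.negSucc 313, .negSucc 580, .negSucc 75, .ofNat 363, .negSucc 306, .negSucc 1262⟩, ⟨.ofNat 167, .negSucc 506, .negSucc 174, .ofNat 118, .negSucc 97, .negSucc 427⟩, ⟨.ofNat 505, .ofNat 251, .negSucc 21, .negSucc 1085, .ofNat 615, .ofNat 905⟩, ⟨.negSucc 1124, .negSucc 209, .negSucc 175, .ofNat 679, .negSucc 629, .negSucc 2215⟩, ⟨.negSucc 380, .ofNat 59, .ofNat 126, .negSucc 144, .ofNat 302, .ofNat 124⟩, .ofNat 844, .negSucc 1297, .ofNat 0, .negSucc 1297, .ofNat 3945, .ofNat 0, .ofNat 128, .ofNat 279, .negSucc 208, .ofNat 0, .ofNat 142, .negSucc 65, .ofNat 0, .ofNat 0, .ofNat 561, .ofNat 496, .ofNat 38759275011911241774198201980408561664, .ofNat 0, .ofNat 89997592149021308141832270747009024, .ofNat 0, .ofNat 0, .ofNat 0, .ofNat 500130558225552269414630749919772672,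 .ofNat 0, .ofNat 0, .ofNat 0, .ofNat 2783840126930416216512996167745798144, .ofNat 0, .ofNat 0, .ofNat 0, .ofNat 0, .ofNat 0⟩)
    (by decide +kernel)
theorem L01240 : Good (Phi V5.P V5.D 1 1) ⟨3, 6, 2, 1, 2, 1, 3, 0, 4, 0⟩ :=
  leafX_sound T5.ok_pp T5.Ypp.bz_eq (w := 205) (c := ⟨⟨.ofNat 1801, .ofNat 658, .negSucc 301, .ofNat 698, .ofNat 498, .negSucc 3021⟩, ⟨.ofNat 607, .ofNat 406, .ofNat 163, .ofNat 357, .ofNat 262, .negSucc 1428⟩, ⟨.negSucc 1350, .negSucc 714, .ofNat 589, .negSucc 258, .negSucc 384, .ofNat 1809⟩, ⟨.ofNat 3107, .ofNat 784, .negSucc 473, .ofNat 1065, .ofNat 727, .negSucc 4839⟩, ⟨.negSucc 281, .negSucc 98, .negSucc 47, .negSucc 6, .ofNat 83, .ofNat 41⟩, .ofNat 336, .negSucc 202, .ofNat 0, .negSucc 202, .ofNat 647, .ofNat 0, .ofNat 128, .ofNat 185, .negSucc 228, .ofNat 0, .ofNat 176, .negSucc 68, .ofNat 0, .ofNat 0, .ofNat 411, .ofNat 1653, .ofNat 0, .ofNat 0, .ofNat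 600170888656042253709207871621693440, .ofNat 0, .ofNat 0, .ofNat 0, .ofNat 0, .ofNat 0, .ofNat 0, .ofNat 0, .ofNat 0, .ofNat 0, .ofNat 0, .ofNat 0, .ofNat 29499677668796547965233773111821729792, .ofNat 0⟩)
    (by decide +kernel)
theorem L01241 : Good (Phi V5.P V5.D 1 1) ⟨3, 6, 2, 1, 2, 1, 3, 1, 4, 0⟩ :=
  leafX_sound T5.ok_pp T5.Ypp.bz_eq (w := 205) (c := ⟨⟨.ofNat 2521, .ofNat 499, .negSucc 127, .ofNat 620, .ofNat 277, .negSucc 3591⟩, ⟨.ofNat 1016, .ofNat 303, .ofNat 230, .ofNat 193, .ofNat 158, .negSucc 1661⟩, ⟨.negSucc 1934, .negSucc 364, .ofNat 66, .ofNat 0, .negSucc 325, .ofNat 2409⟩, ⟨.ofNat 4172, .ofNat 421, .negSucc 49, .ofNat 949, .ofNat 419, .negSucc 5841⟩, ⟨.negSucc 263, .negSucc 90, .negSucc 108, .ofNat 272, .ofNat 85, .ofNat 69⟩, .ofNat 336, .negSucc 202, .ofNat 0, .negSucc 202, .ofNat 644, .ofNat 0, .ofNat 128, .ofNat 171, .negSucc 408, .ofNat 0, .ofNat 163, .negSucc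 126, .ofNat 0, .ofNat 0, .ofNat 602, .ofNat 472, .ofNat 0, .ofNat 0, .ofNat 0, .ofNat 0, .ofNat 0, .ofNat 0, .ofNat 0, .ofNat 0, .ofNat 0, .ofNat 0, .ofNat 82591345160150707716998425683009994752, .ofNat 0, .ofNat 0, .ofNat 0, .ofNat 0, .ofNat 0⟩)
    (by decide +kernel)
theorem L01242 : Good (Phi V5.P V5.D 1 1) ⟨4, 12, 2, 1, 2, 1, 2, 1, 4, 0⟩ :=
  leafX_sound T5.ok_pp T5.Ypp.bz_eq (w := 205) (c := ⟨⟨.ofNat 2719, .ofNat 415, .negSucc 338, .ofNat 861, .negSucc 525, .negSucc 3979⟩, ⟨.ofNat 1076, .ofNat 147, .ofNat 172, .ofNat 325, .negSucc 210, .negSucc 1699⟩, ⟨.negSucc 2132, .negSucc 395, .ofNat 192, .negSucc 279, .ofNat 410, .ofNat 2992⟩, ⟨.ofNat 4435, .ofNat 602, .negSucc 453, .ofNat 1282, .negSucc 919, .negSucc 6349⟩, ⟨.negSucc 116, .negSucc 5, .negSucc 389, .ofNat 408, .ofNat 136, .negSucc 81⟩, .ofNat 553, .negSucc 547, .ofNat 0, .negSucc 547, .ofNat 1505, .ofNat 0, .ofNat 128,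 .ofNat 174, .negSucc 307, .ofNat 0, .ofNat 122, .negSucc 112, .ofNat 0, .ofNat 0, .ofNat 446, .ofNat 194, .ofNat 0, .ofNat 0, .ofNat 0, .ofNat 0, .ofNat 0, .ofNat 0, .ofNat 0, .ofNat 0, .ofNat 0, .ofNat 0, .ofNat 728781762001650392491959104632258560, .ofNat 0, .ofNat 0, .ofNat 0, .ofNat 0, .ofNat 0⟩)
    (by decide +kernel)
theorem L01243 : Good (Phi V5.P V5.D 1 1) ⟨4, 13, 2, 1, 2, 1, 2, 1, 4, 0⟩ :=
  leafX_sound T5.ok_pp T5.Ypp.bz_eq (w := 206) (c := ⟨⟨.ofNat 3099, .ofNat 665, .negSucc 20, .ofNat 1015, .negSucc 331, .negSucc 4854⟩, ⟨.ofNat 1439, .ofNat 465, .ofNat 156, .ofNat 550, .negSucc 124, .negSucc 2578⟩, ⟨.negSucc 2496, .negSucc 493, .ofNat 157, .negSucc 452, .ofNat 221, .ofNat 3590⟩, ⟨.ofNat 4782, .ofNat 831, .ofNat 36, .ofNat 1493, .negSucc 663, .negSucc 7360⟩, ⟨.negSucc 185, .negSucc 64, .ofNat 12, .ofNat 83, .ofNat 209, .ofNat 69⟩, .ofNat 532, .negSucc 468, .ofNat 0, .negSucc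 468, .ofNat 1096, .ofNat 0, .ofNat 128, .ofNat 259, .negSucc 386, .ofNat 0, .ofNat 212, .negSucc 165, .ofNat 0, .ofNat 0, .ofNat 508, .ofNat 320, .ofNat 0, .ofNat 0, .ofNat 12260163939226600300379407894183936, .ofNat 0, .ofNat 0, .ofNat 0, .ofNat 660697991893475044058385966665039872, .ofNat 0, .ofNat 0, .ofNat 0, .ofNat 0, .ofNat 0, .ofNat 0, .ofNat 0, .ofNat 2994079700127438510440858956630851584, .ofNat 0⟩)
    (by decide +kernel)
theorem L01244 : Good (Phi V5.P V5.D 1 1) ⟨3, 6, 2, 1, 2, 1, 1, 0, 4, 1⟩ :=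
  leafX_sound T5.ok_pp T5.Ypp.bz_eq (w := 196) (c := ⟨⟨.negSucc 799, .negSucc 301, .ofNat 11, .ofNat 410, .negSucc 417, .negSucc 1429⟩, ⟨.negSucc 197, .negSucc 361, .negSucc 143, .ofNat 184, .negSucc 206, .negSucc 683⟩, ⟨.ofNat 674, .ofNat 1, .ofNat 269, .negSucc 1154, .ofNat 787, .ofNat 1012⟩, ⟨.negSucc 1288, .ofNat 25, .negSucc 54, .ofNat 700, .negSucc 761, .negSucc 2306⟩, ⟨.negSucc 325, .negSucc 222, .ofNat 244, .negSucc 166, .ofNat 263, .ofNat 201⟩, .ofNat 580, .negSucc 590, .ofNat 0, .negSucc 590, .ofNat 1499, .ofNat 0, .ofNat 128, .ofNat 203, .negSucc 163, .ofNat 0, .ofNat 144, .negSucc 60, .ofNat 0, .ofNat 0, .ofNat 382, .ofNat 477, .ofNat 0, .ofNat 0, .ofNat 0, .ofNat 0, .ofNat 0, .ofNat 0, .ofNat 137693354390391302324475932312600576, .ofNat 0, .ofNat 0, .ofNat 0, .ofNat 345695129444500358222778696118304768, .ofNat 0, .ofNat 0, .ofNat 0, .ofNat 0, .ofNat 0⟩)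
    (by decide +kernel)
theorem L01245 : Good (Phi V5.P V5.D 1 1) ⟨3, 7, 2, 1, 2, 1, 1, 0, 3, 0⟩ :=
  out_sound (S := T5.ds_pp) T5.ok_pp (w := 43) (j := 3) (by decide +kernel)
theorem L01246 : Good (Phi V5.P V5.D 1 1) ⟨3, 4, 2, 1, 1, 0, 1, 0, 3, 1⟩ :=
  out_sound (S := T5.ds_pp) T5.ok_pp (w := 43) (j := 3) (by decide +kernel)
theorem L01247 : Good (Phi V5.P V5.D 1 1) ⟨4, 10, 2, 1, 1, 0, 1, 0, 3, 1⟩ :=
  out_sound (S := T5.ds_pp) T5.ok_pp (w := 49) (j := 3) (by decide +kernel)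
theorem L01248 : Good (Phi V5.P V5.D 1 1) ⟨4, 11, 2, 1, 1, 0, 2, 0, 3, 1⟩ :=
  leafX_sound T5.ok_pp T5.Ypp.bz_eq (w := 186) (c := ⟨⟨.negSucc 2013, .negSucc 245, .negSucc 44, .ofNat 152, .negSucc 295, .ofNat 23⟩, ⟨.negSucc 610, .negSucc 187, .negSucc 346, .ofNat 46, .negSucc 100, .ofNat 6⟩, ⟨.ofNat 2058, .ofNat 167, .ofNat 84, .negSucc 1410, .ofNat 511, .ofNat 162⟩, ⟨.negSucc 3622, .negSucc 131, .negSucc 10, .ofNat 350, .negSucc 512, .ofNat 32⟩, ⟨.ofNat 13, .ofNat 4, .negSucc 76, .negSucc 275, .ofNat 17, .negSucc 3⟩, .ofNat 534, .negSucc 539, .ofNat 0, .negSucc 539, .ofNat 1843, .ofNat 0, .ofNat 135, .ofNat 128, .negSucc 80, .ofNat 0, .ofNat 89, .negSucc 21, .ofNat 0, .ofNat 0, .ofNat 368, .ofNat 1524, .ofNat 9351277916379022332342284055922868224, .ofNat 0, .ofNat 0, .ofNat 0, .ofNat 0, .ofNat 0, .ofNat 0, .ofNat 0, .ofNat 0, .ofNat 0, .ofNat 0, .ofNat 0, .ofNat 48914154504604272405284394577514463232,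 .ofNat 0, .ofNat 333650260439398307301058150400, .ofNat 0⟩)
    (by decide +kernel)
theorem L01249 : Good (Phi V5.P V5.D 1 1) ⟨4, 11, 2, 1, 1, 0, 2, 1, 3, 1⟩ :=
  leafX_sound T5.ok_pp T5.Ypp.bz_eq (w := 187) (c := ⟨⟨.negSucc 2258, .negSucc 229, .ofNat 8, .negSucc 68, .ofNat 29, .ofNat 90⟩, ⟨.negSucc 686, .negSucc 191, .negSucc 308, .negSucc 31, .ofNat 8, .ofNat 26⟩, ⟨.ofNat 2203, .ofNat 102, .ofNat 90, .negSucc 720, .ofNat 98, .ofNat 187⟩, ⟨.negSucc 4080, .negSucc 103, .ofNat 12, .negSucc 24, .ofNat 58, .ofNat 186⟩, ⟨.ofNat 133, .ofNat 71, .negSucc 54, .negSucc 269, .negSucc 46, .negSucc 158⟩, .ofNat 534, .negSucc 541, .ofNat 0, .negSucc 541, .ofNat 1860, .ofNat 0, .ofNat 161, .ofNat 128, .negSucc 114, .ofNat 0, .ofNat 89, .negSucc 32, .ofNat 0, .ofNat 0, .ofNat 449, .ofNat 1204, .ofNat 0, .ofNat 0, .ofNat 0, .ofNat 0, .ofNat 0, .ofNat 0, .ofNat 0, .ofNat 0, .ofNat 0, .ofNat 0, .ofNat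 1008831800635294878955326144512, .ofNat 0, .ofNat 0, .ofNat 0, .ofNat 0, .ofNat 0⟩)
    (by decide +kernel)
theorem L01250 : Good (Phi V5.P V5.D 1 1) ⟨3, 6, 2, 1, 1, 0, 2, 0, 3, 1⟩ :=
  leafX_sound T5.ok_pp T5.Ypp.bz_eq (w := 183) (c := ⟨⟨.negSucc 2277, .negSucc 279, .negSucc 103, .ofNat 177, .negSucc 321, .ofNat 46⟩, ⟨.negSucc 768, .negSucc 371, .negSucc 379, .ofNat 69, .negSucc 158, .ofNat 15⟩, ⟨.ofNat 2271, .ofNat 205, .ofNat 47, .negSucc 1621, .ofNat 630, .ofNat 135⟩, ⟨.negSucc 3805, .ofNat 127, .negSucc 111, .ofNat 392, .negSucc 553, .ofNat 93⟩, ⟨.negSucc 28, .ofNat 71, .negSucc 70, .negSucc 263, .ofNat 147, .negSucc 80⟩, .ofNat 570, .negSucc 560, .ofNat 0, .negSucc 560, .ofNat 1384, .ofNat 0, .ofNat 128, .ofNat 178, .negSucc 88, .ofNat 0, .ofNat 142, .negSucc 31, .ofNat 0, .ofNat 0, .ofNat 415, .ofNat 1684, .ofNat 646550072484580812111577295517384704, .ofNat 0, .ofNat 117945312163969062749673095168,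 .ofNat 0, .ofNat 0, .ofNat 0, .ofNat 6122460489027242315413693923328, .ofNat 0, .ofNat 0, .ofNat 0, .ofNat 40442297507374007768286746378240, .ofNat 0, .ofNat 2617346372574959507442800622284308480, .ofNat 0, .ofNat 1771710345563508769148675031040, .ofNat 0⟩)
    (by decide +kernel)
theorem L01251 : Good (Phi V5.P V5.D 1 1) ⟨3, 6, 2, 1, 1, 0, 2, 1, 3, 1⟩ :=
  leafX_sound T5.ok_pp T5.Ypp.bz_eq (w := 182) (c := ⟨⟨.negSucc 2526, .negSucc 361, .negSucc 95, .negSucc 60, .negSucc 43, .ofNat 170⟩, ⟨.negSucc 884, .negSucc 417, .negSucc 381, .negSucc 36, .negSucc 25, .ofNat 69⟩, ⟨.ofNat 2563, .ofNat 27, .ofNat 296, .negSucc 855, .ofNat 179, .negSucc 51⟩, ⟨.negSucc 4251, .ofNat 1, .negSucc 105, .ofNat 8, .negSucc 49, .ofNat 302⟩, ⟨.ofNat 116, .ofNat 137, .negSucc 68, .negSucc 256, .negSucc 60, .negSucc 93⟩, .ofNat 570, .negSucc 560, .ofNat 0, .negSucc 560, .ofNat 1384, .ofNat 0, .ofNat 128, .ofNat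 157, .negSucc 102, .ofNat 0, .ofNat 125, .negSucc 39, .ofNat 0, .ofNat 0, .ofNat 360, .ofNat 867, .ofNat 0, .ofNat 0, .ofNat 0, .ofNat 0, .ofNat 0, .ofNat 0, .ofNat 4950030143729262347160188354560, .ofNat 0, .ofNat 0, .ofNat 0, .ofNat 23869278796253287074081745666048, .ofNat 0, .ofNat 0, .ofNat 0, .ofNat 3003905109398351906317208125440, .ofNat 0⟩)
    (by decide +kernel)
theorem L01252 : Good (Phi V5.P V5.D 1 1) ⟨3, 7, 2, 1, 1, 0, 1, 0, 3, 1⟩ :=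
  out_sound (S := T5.ds_pp) T5.ok_pp (w := 43) (j := 3) (by decide +kernel)
theorem L01253 : Good (Phi V5.P V5.D 1 1) ⟨3, 4, 2, 1, 1, 0, 1, 0, 3, 2⟩ :=
  out_sound (S := T5.ds_pp) T5.ok_pp (w := 43) (j := 3) (by decide +kernel)
theorem L01254 : Good (Phi V5.P V5.D 1 1) ⟨3, 5, 3, 2, 1, 0, 2, 0, 3, 2⟩ :=
  leafX_sound T5.ok_pp T5.Ypp.bz_eq (w := 190) (c := ⟨⟨.negSucc 2016, .negSucc 340, .negSucc 33, .ofNat 27, .negSucc 36, .ofNat 210⟩, ⟨.negSucc 505, .negSucc 333, .negSucc 168, .ofNat 4, .negSucc 10, .ofNat 62⟩, ⟨.ofNat 1899, .ofNat 211, .negSucc 9, .negSucc 1108, .ofNat 567, .negSucc 112⟩, ⟨.negSucc 3893, .negSucc 14, .negSucc 31, .ofNat 128, .negSucc 82, .ofNat 403⟩, ⟨.negSucc 83, .ofNat 44, .negSucc 13, .negSucc 252, .ofNat 57, .negSucc 106⟩, .ofNat 328, .negSucc 165, .ofNat 0, .negSucc 165, .ofNat 728, .ofNat 0, .ofNat 271, .ofNat 104, .negSucc 120, .ofNat 0, .ofNat 128, .negSucc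 15, .ofNat 0, .ofNat 0, .ofNat 706, .ofNat 33160, .ofNat 33352368808706093109285272146967265280, .ofNat 0, .ofNat 10354251183692486773112995577856, .ofNat 0, .ofNat 77238292151698892672193563327245320192, .ofNat 0, .ofNat 0, .ofNat 0, .ofNat 96352099339381787315588940205203128320, .ofNat 0, .ofNat 0, .ofNat 0, .ofNat 422899357543042790264719737874636865536, .ofNat 0, .ofNat 23718572990392909529086271946752, .ofNat 0⟩)
    (by decide +kernel)
theorem L01255 : Good (Phi V5.P V5.D 1 1) ⟨3, 5, 3, 2, 1, 0, 2, 1, 4, 4⟩ :=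
  leafX_sound T5.ok_pp T5.Ypp.bz_eq (w := 193) (c := ⟨⟨.negSucc 1948, .negSucc 362, .ofNat 20, .negSucc 141, .ofNat 11, .ofNat 144⟩, ⟨.negSucc 492, .negSucc 324, .negSucc 143, .negSucc 56, .ofNat 1, .ofNat 51⟩, ⟨.ofNat 1999, .ofNat 308, .negSucc 46, .negSucc 525, .ofNat 121, .negSucc 58⟩, ⟨.negSucc 3785, .negSucc 61, .ofNat 20, .negSucc 148, .ofNat 25, .ofNat 251⟩, ⟨.ofNat 21, .negSucc 24, .ofNat 88, .negSucc 265, .negSucc 12, .negSucc 21⟩, .ofNat 871, .negSucc 1372, .ofNat 0, .negSucc 1372, .ofNat 4165, .ofNat 0, .ofNat 128, .ofNat 280, .negSucc 139, .ofNat 0, .ofNat 148, .negSucc 43, .ofNat 0, .ofNat 0, .ofNat 939, .ofNat 5809, .ofNat 37444206736195017843669830179653419008, .ofNat 0, .ofNat 12229080097215233570819402629120, .ofNat 0, .ofNat 0, .ofNat 0, .ofNat 737596802481201339897018197213184, .ofNat 0, .ofNat 0, .ofNat 0, .ofNat 2606329270383398182996308228308992, .ofNat 0, .ofNat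 0, .ofNat 0, .ofNat 0, .ofNat 0⟩)
    (by decide +kernel)
theorem L01256 : Good (Phi V5.P V5.D 1 1) ⟨3, 5, 3, 2, 2, 0, 3, 2, 4, 5⟩ :=
  leafX_sound T5.ok_pp T5.Ypp.bz_eq (w := 217) (c := ⟨⟨.negSucc 1797, .negSucc 346, .negSucc 5, .negSucc 61, .ofNat 4, .ofNat 1⟩, ⟨.negSucc 425, .negSucc 319, .negSucc 144, .negSucc 26, .negSucc 13, .ofNat 0⟩, ⟨.ofNat 2170, .ofNat 246, .ofNat 7, .negSucc 296, .negSucc 27, .negSucc 0⟩, ⟨.negSucc 3543, .negSucc 53, .negSucc 0, .negSucc 47, .ofNat 29, .ofNat 2⟩, ⟨.ofNat 16, .ofNat 17, .ofNat 1, .negSucc 166, .negSucc 6, .ofNat 0⟩, .ofNat 166, .negSucc 29, .ofNat 0, .negSucc 29, .ofNat 239, .ofNat 0, .ofNat 128, .ofNat 49, .negSucc 85, .ofNat 0, .ofNat 168, .ofNat 1, .ofNat 0, .ofNat 0, .ofNat 402, .ofNat 393523, .ofNat 113013990034370601780196793106242202241073152, .ofNat 0, .ofNat 0, .ofNat 0, .ofNat 202140293320801097155034413217588045768818688, .ofNat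 0, .ofNat 255424295783556512561434144081411309568, .ofNat 0, .ofNat 62436685981137264379179356222209881360302080, .ofNat 0, .ofNat 0, .ofNat 0, .ofNat 73282970259254511335009243855166956896256000, .ofNat 0, .ofNat 0, .ofNat 0⟩)
    (by decide +kernel)
theorem L01257 : Good (Phi V5.P V5.D 1 1) ⟨3, 5, 3, 2, 2, 1, 3, 2, 4, 5⟩ :=
  leafX_sound T5.ok_pp T5.Ypp.bz_eq (w := 214) (c := ⟨⟨.negSucc 1799, .negSucc 351, .negSucc 9, .negSucc 110, .negSucc 50, .ofNat 151⟩, ⟨.negSucc 442, .negSucc 332, .negSucc 146, .negSucc 39, .negSucc 13, .ofNat 48⟩, ⟨.ofNat 1702, .ofNat 173, .ofNat 8, .negSucc 309, .ofNat 210, .negSucc 79⟩, ⟨.negSucc 3488, .negSucc 42, .ofNat 0, .negSucc 132, .negSucc 80, .ofNat 273⟩, ⟨.negSucc 130, .ofNat 23, .negSucc 1, .negSucc 172, .negSucc 33, .negSucc 20⟩, .ofNat 328, .negSucc 163, .ofNat 0, .negSucc 163, .ofNat 730, .ofNat 0, .ofNat 211, .ofNat 103, .negSucc 122, .ofNat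 0, .ofNat 128, .negSucc 12, .ofNat 0, .ofNat 0, .ofNat 977, .ofNat 55414, .ofNat 14432962945560275676180382662206627571040256, .ofNat 0, .ofNat 61544390747316317278038690621678419968, .ofNat 0, .ofNat 48655142087639188057680058328234550898982912, .ofNat 0, .ofNat 14964297838678464045277215210889805824, .ofNat 0, .ofNat 53408383255362511332223769448086262268297216, .ofNat 0, .ofNat 571783225213150973163640942142800527360, .ofNat 0, .ofNat 94766619974302641131280545825236181701361664, .ofNat 0, .ofNat 0, .ofNat 0⟩)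
    (by decide +kernel)
theorem L01258 : Good (Phi V5.P V5.D 1 1) ⟨3, 5, 3, 2, 1, 0, 3, 3, 4, 5⟩ :=
  leafX_sound T5.ok_pp T5.Ypp.bz_eq (w := 198) (c := ⟨⟨.negSucc 1723, .negSucc 360, .ofNat 13, .negSucc 256, .negSucc 22, .ofNat 150⟩, ⟨.negSucc 412, .negSucc 329, .negSucc 139, .negSucc 97, .negSucc 8, .ofNat 51⟩, ⟨.ofNat 1868, .ofNat 255, .negSucc 30, .negSucc 214, .ofNat 87, .negSucc 132⟩, ⟨.negSucc 3402, .negSucc 73, .ofNat 43, .negSucc 315, .negSucc 29, .ofNat 264⟩, ⟨.ofNat 17, .ofNat 22, .ofNat 16, .negSucc 362, .negSucc 28, .negSucc 22⟩, .ofNat 533, .negSucc 537, .ofNat 0, .negSucc 537, .ofNat 1850, .ofNat 0, .ofNat 128, .ofNat 140, .negSucc 60, .ofNat 0, .ofNat 99, .negSucc 16, .ofNat 0, .ofNat 0, .ofNat 536, .ofNat 10046, .ofNat 583723402215255021118494762180177559552, .ofNat 0, .ofNat 771422069317484419183728314548224, .ofNat 0, .ofNat 0, .ofNat 0, .ofNat 20375621320961996286257355154259968,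 .ofNat 0, .ofNat 0, .ofNat 0, .ofNat 162589569501972887657551421700571136, .ofNat 0, .ofNat 6032830171062585250249042009439900532736, .ofNat 0, .ofNat 21066824036995457632770651225849856, .ofNat 0⟩)
    (by decide +kernel)
theorem L01259 : Good (Phi V5.P V5.D 1 1) ⟨3, 5, 3, 3, 1, 0, 1, 0, 3, 2⟩ :=
  out_sound (S := T5.ds_pp) T5.ok_pp (w := 45) (j := 3) (by decide +kernel)
theorem L01260 : Good (Phi V5.P V5.D 1 1) ⟨2, 2, 2, 1, 1, 0, 2, 0, 3, 3⟩ :=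
  out_sound (S := T5.ds_pp) T5.ok_pp (w := 20) (j := 1) (by decide +kernel)
theorem L01261 : Good (Phi V5.P V5.D 1 1) ⟨2, 2, 2, 1, 1, 0, 2, 1, 3, 3⟩ :=
  leafX_sound T5.ok_pp T5.Ypp.bz_eq (w := 182) (c := ⟨⟨.negSucc 1043, .negSucc 716, .negSucc 15, .negSucc 319, .negSucc 156, .ofNat 298⟩, ⟨.ofNat 57, .negSucc 684, .negSucc 269, .negSucc 126, .negSucc 57, .ofNat 104⟩, ⟨.ofNat 1304, .ofNat 411, .negSucc 110, .negSucc 120, .ofNat 293, .negSucc 280⟩, ⟨.negSucc 2821, .negSucc 126, .ofNat 29, .negSucc 403, .negSucc 233, .ofNat 478⟩, ⟨.negSucc 58, .ofNat 83, .negSucc 23, .negSucc 356, .negSucc 42, .ofNat 0⟩, .ofNat 867, .negSucc 1363, .ofNat 0, .negSucc 1363, .ofNat 4145, .ofNat 0, .ofNat 128, .ofNat 230, .negSucc 57, .ofNat 0, .ofNat 122, .negSucc 18, .ofNat 0, .ofNat 0, .ofNat 771, .ofNat 13764, .ofNat 362066371490060113287234974755323904, .ofNat 0, .ofNat 0, .ofNat 0, .ofNat 706888089238812240940152512407666688,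 .ofNat 0, .ofNat 608429219424184031416850199871488, .ofNat 0, .ofNat 3887330033211898963457605298938707968, .ofNat 0, .ofNat 387333534890822789617806733213696, .ofNat 0, .ofNat 1499570870680290809430607018302898176, .ofNat 0, .ofNat 14015915716036040899196574760960, .ofNat 0⟩)
    (by decide +kernel)
theorem L01262 : Good (Phi V5.P V5.D 1 1) ⟨3, 6, 2, 1, 2, 0, 2, 0, 3, 2⟩ :=
  leafX_sound T5.ok_pp T5.Ypp.bz_eq (w := 203) (c := ⟨⟨.negSucc 2507, .negSucc 428, .negSucc 16, .ofNat 119, .ofNat 51, .ofNat 1⟩, ⟨.negSucc 977, .negSucc 430, .negSucc 342, .ofNat 53, .ofNat 108, .ofNat 1⟩, ⟨.ofNat 2587, .ofNat 321, .ofNat 61, .negSucc 566, .ofNat 152, .negSucc 0⟩, ⟨.negSucc 4086, .negSucc 94, .negSucc 13, .ofNat 226, .ofNat 0, .ofNat 2⟩, ⟨.ofNat 8, .ofNat 23, .ofNat 3, .negSucc 85, .negSucc 13, .ofNat 0⟩, .ofNat 163, .negSucc 39, .ofNat 0, .negSucc 39, .ofNat 226, .ofNat 0, .ofNat 154, .ofNat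 48, .negSucc 114, .ofNat 0, .ofNat 128, .negSucc 12, .ofNat 0, .ofNat 0, .ofNat 395, .ofNat 113740, .ofNat 86131823844345981512109696100213964406784, .ofNat 0, .ofNat 0, .ofNat 0, .ofNat 205602196602466295794277901360468533968896, .ofNat 0, .ofNat 24988283883655674300058676966195200, .ofNat 0, .ofNat 47543698853814135053843247511319615635456, .ofNat 0, .ofNat 0, .ofNat 0, .ofNat 144152330598308244417511769955811425517568, .ofNat 0, .ofNat 0, .ofNat 0⟩)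
    (by decide +kernel)
theorem L01263 : Good (Phi V5.P V5.D 1 1) ⟨3, 6, 2, 1, 2, 0, 2, 1, 3, 2⟩ :=
  leafX_sound T5.ok_pp T5.Ypp.bz_eq (w := 199) (c := ⟨⟨.negSucc 2372, .negSucc 366, .negSucc 17, .negSucc 51, .ofNat 74, .ofNat 328⟩, ⟨.negSucc 848, .negSucc 379, .negSucc 317, .negSucc 34, .ofNat 31, .ofNat 150⟩, ⟨.ofNat 2569, .ofNat 328, .negSucc 1, .negSucc 217, .negSucc 153, .negSucc 310⟩, ⟨.negSucc 3959, .negSucc 50, .negSucc 7, .negSucc 8, .ofNat 127, .ofNat 531⟩, ⟨.ofNat 33, .ofNat 22, .ofNat 8, .negSucc 138, .negSucc 18, .negSucc 56⟩, .ofNat 337, .negSucc 204, .ofNat 0, .negSucc 204, .ofNat 644, .ofNat 0, .ofNat 128, .ofNat 151, .negSucc 122, .ofNat 0, .ofNat 175, .negSucc 38, .ofNat 0, .ofNat 0, .ofNat 737, .ofNat 5153, .ofNat 1878800778160766628446022988576250134528, .ofNat 0, .ofNat 12538700319541884664451446708633600, .ofNat 0, .ofNat 0, .ofNat 0, .ofNat 213726412774110545624015065428525056,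 .ofNat 0, .ofNat 0, .ofNat 0, .ofNat 2254927101817713914065028189513580544, .ofNat 0, .ofNat 0, .ofNat 0, .ofNat 0, .ofNat 0⟩)
    (by decide +kernel)
theorem L01264 : Good (Phi V5.P V5.D 1 1) ⟨4, 12, 2, 1, 2, 1, 2, 0, 3, 2⟩ :=
  leafX_sound T5.ok_pp T5.Ypp.bz_eq (w := 206) (c := ⟨⟨.negSucc 2190, .negSucc 193, .negSucc 16, .negSucc 56, .negSucc 154, .ofNat 291⟩, ⟨.negSucc 766, .negSucc 208, .negSucc 308, .negSucc 33, .negSucc 64, .ofNat 119⟩, ⟨.ofNat 1564, .ofNat 39, .ofNat 102, .negSucc 724, .ofNat 647, .negSucc 63⟩, ⟨.negSucc 3617, .negSucc 14, .ofNat 8, .negSucc 26, .negSucc 260, .ofNat 508⟩, ⟨.negSucc 133, .ofNat 20, .negSucc 5, .negSucc 149, .ofNat 31, .negSucc 97⟩, .ofNat 331, .negSucc 187, .ofNat 0, .negSucc 187, .ofNat 659, .ofNat 0, .ofNat 272, .ofNat 113, .negSucc 190, .ofNat 0, .ofNat 128, .negSucc 20, .ofNat 0, .ofNat 0, .ofNat 1137, .ofNat 58805, .ofNat 420194932530129578847181669099658511646720,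 .ofNat 0, .ofNat 43064868992672830721932249809289216, .ofNat 0, .ofNat 2768575789931067843003491385563550809325568, .ofNat 0, .ofNat 0, .ofNat 0, .ofNat 1259514345079165078730936506232585897115648, .ofNat 0, .ofNat 81304593524384139804820337567203328, .ofNat 0, .ofNat 6006565731767982675345963071519533859602432, .ofNat 0, .ofNat 0, .ofNat 0⟩)
    (by decide +kernel)
theorem L01265 : Good (Phi V5.P V5.D 1 1) ⟨4, 12, 2, 1, 2, 1, 3, 2, 4, 4⟩ :=
  leafX_sound T5.ok_pp T5.Ypp.bz_eq (w := 213) (c := ⟨⟨.negSucc 2314, .negSucc 184, .negSucc 50, .negSucc 117, .negSucc 56, .ofNat 175⟩, ⟨.negSucc 822, .negSucc 201, .negSucc 317, .negSucc 55, .negSucc 26, .ofNat 71⟩, ⟨.ofNat 2068, .ofNat 69, .ofNat 131, .negSucc 438, .ofNat 174, .negSucc 119⟩, ⟨.negSucc 3826, .negSucc 9, .negSucc 50, .negSucc 123, .negSucc 81, .ofNat 298⟩, ⟨.negSucc 92, .ofNat 13, .ofNat 3, .negSucc 160, .negSucc 15, .negSucc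 39⟩, .ofNat 329, .negSucc 183, .ofNat 0, .negSucc 183, .ofNat 655, .ofNat 0, .ofNat 207, .ofNat 110, .negSucc 138, .ofNat 0, .ofNat 128, .negSucc 21, .ofNat 0, .ofNat 0, .ofNat 835, .ofNat 19613, .ofNat 6006179628324417213598480589995543908843520, .ofNat 0, .ofNat 1575847191133770059802430162916605952, .ofNat 0, .ofNat 0, .ofNat 0, .ofNat 0, .ofNat 0, .ofNat 0, .ofNat 0, .ofNat 7697187688755019066427272105107128320, .ofNat 0, .ofNat 0, .ofNat 0, .ofNat 0, .ofNat 0⟩)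
    (by decide +kernel)
theorem L01266 : Good (Phi V5.P V5.D 1 1) ⟨4, 12, 2, 1, 2, 1, 3, 2, 5, 10⟩ :=
  leafX_sound T5.ok_pp T5.Ypp.bz_eq (w := 220) (c := ⟨⟨.negSucc 2119, .negSucc 194, .negSucc 17, .negSucc 131, .negSucc 76, .ofNat 90⟩, ⟨.negSucc 743, .negSucc 209, .negSucc 289, .negSucc 65, .negSucc 34, .ofNat 38⟩, ⟨.ofNat 1893, .ofNat 78, .ofNat 25, .negSucc 353, .ofNat 223, .negSucc 51⟩, ⟨.negSucc 3509, .negSucc 22, .ofNat 11, .negSucc 136, .negSucc 109, .ofNat 149⟩, ⟨.negSucc 113, .ofNat 13, .negSucc 9, .negSucc 169, .negSucc 29, .negSucc 17⟩, .ofNat 550, .negSucc 542, .ofNat 0, .negSucc 542, .ofNat 1495, .ofNat 0, .ofNat 128, .ofNat 169, .negSucc 102, .ofNat 0, .ofNat 130, .negSucc 29, .ofNat 0, .ofNat 0, .ofNat 904, .ofNat 51906, .ofNat 156119782585265377031637736594565265222533120, .ofNat 0, .ofNat 171275694612203750305776628779259527168, .ofNat 0, .ofNat 376344146060364724023259231074815783949303808,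 .ofNat 0, .ofNat 1198686604651247718231356426941710204928, .ofNat 0, .ofNat 825676379744147382518501151459163558511640576, .ofNat 0, .ofNat 1648900001587310735985561811046555975680, .ofNat 0, .ofNat 1728772882192934613941480576022120181589344256, .ofNat 0, .ofNat 0, .ofNat 0⟩)
    (by decide +kernel)
theorem L01267 : Good (Phi V5.P V5.D 1 1) ⟨4, 12, 2, 1, 2, 1, 3, 2, 5, 11⟩ :=
  leafX_sound T5.ok_pp T5.Ypp.bz_eq (w := 223) (c := ⟨⟨.negSucc 2036, .negSucc 188, .negSucc 19, .negSucc 109, .negSucc 91, .ofNat 95⟩, ⟨.negSucc 715, .negSucc 210, .negSucc 276, .negSucc 55, .negSucc 37, .ofNat 41⟩, ⟨.ofNat 1800, .ofNat 56, .negSucc 5, .negSucc 325, .ofNat 260, .negSucc 59⟩, ⟨.negSucc 3374, .negSucc 14, .ofNat 21, .negSucc 105, .negSucc 128, .ofNat 157⟩, ⟨.negSucc 125, .ofNat 7, .negSucc 18, .negSucc 154, .negSucc 44, .negSucc 15⟩, .ofNat 163, .negSucc 35, .ofNat 0, .negSucc 35, .ofNat 227,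 .ofNat 0, .ofNat 128, .ofNat 78, .negSucc 98, .ofNat 0, .ofNat 224, .ofNat 13, .ofNat 0, .ofNat 0, .ofNat 545, .ofNat 339083, .ofNat 1194666612544958829080678849409846864076865536, .ofNat 0, .ofNat 0, .ofNat 0, .ofNat 1236689587752787674877702391054491679209816064, .ofNat 0, .ofNat 254066369352059071827242297333655797760, .ofNat 0, .ofNat 1117900154310913491936446072561341295719612416, .ofNat 0, .ofNat 0, .ofNat 0, .ofNat 2286448294972148397121590126135285021585440768, .ofNat 0, .ofNat 0, .ofNat 0⟩)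
    (by decide +kernel)
theorem L01268 : Good (Phi V5.P V5.D 1 1) ⟨4, 12, 2, 1, 2, 1, 3, 3, 4, 4⟩ :=
  leafX_sound T5.ok_pp T5.Ypp.bz_eq (w := 212) (c := ⟨⟨.negSucc 2306, .negSucc 211, .negSucc 32, .negSucc 213, .negSucc 68, .ofNat 177⟩, ⟨.negSucc 815, .negSucc 217, .negSucc 314, .negSucc 98, .negSucc 32, .ofNat 70⟩, ⟨.ofNat 2136, .ofNat 116, .ofNat 66, .negSucc 217, .ofNat 154, .negSucc 147⟩, ⟨.negSucc 3815, .negSucc 37, .negSucc 23, .negSucc 266, .negSucc 91, .ofNat 297⟩, ⟨.negSucc 102, .ofNat 7, .ofNat 6, .negSucc 178, .negSucc 38, .negSucc 31⟩, .ofNat 546, .negSucc 534, .ofNat 0, .negSucc 534, .ofNat 1485, .ofNat 0, .ofNat 128, .ofNat 203, .negSucc 109, .ofNat 0, .ofNat 156, .negSucc 33, .ofNat 0, .ofNat 0, .ofNat 667, .ofNat 8320, .ofNat 0, .ofNat 0, .ofNat 0, .ofNat 0, .ofNat 0, .ofNat 0, .ofNat 38858975187235059740879941800621506560, .ofNat 0, .ofNat 0, .ofNat 0, .ofNat 77221897945565186107150772319939461120,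 .ofNat 0, .ofNat 0, .ofNat 0, .ofNat 0, .ofNat 0⟩)
    (by decide +kernel)
theorem L01269 : Good (Phi V5.P V5.D 1 1) ⟨4, 12, 2, 1, 2, 1, 3, 3, 4, 5⟩ :=
  leafX_sound T5.ok_pp T5.Ypp.bz_eq (w := 214) (c := ⟨⟨.negSucc 2172, .negSucc 212, .negSucc 6, .negSucc 180, .negSucc 59, .ofNat 190⟩, ⟨.negSucc 770, .negSucc 217, .negSucc 280, .negSucc 86, .negSucc 28, .ofNat 81⟩, ⟨.ofNat 2032, .ofNat 133, .negSucc 42, .negSucc 182, .ofNat 126, .negSucc 174⟩, ⟨.negSucc 3577, .negSucc 47, .ofNat 19, .negSucc 207, .negSucc 81, .ofNat 311⟩, ⟨.negSucc 139, .negSucc 0, .ofNat 22, .negSucc 192, .negSucc 32, .negSucc 28⟩, .ofNat 548, .negSucc 539, .ofNat 0, .negSucc 539, .ofNat 1509, .ofNat 0, .ofNat 128, .ofNat 210, .negSucc 103, .ofNat 0, .ofNat 163, .negSucc 33, .ofNat 0, .ofNat 0, .ofNat 922, .ofNat 19513, .ofNat 6207410915631684024959723930089103225257984, .ofNat 0, .ofNat 256124149183523485797825007142830080,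 .ofNat 0, .ofNat 7074985675205116981504869542537400489607168, .ofNat 0, .ofNat 83520742498353815348614263323095990272, .ofNat 0, .ofNat 3245400093506634437728544830313713335533568, .ofNat 0, .ofNat 0, .ofNat 0, .ofNat 0, .ofNat 0, .ofNat 0, .ofNat 0⟩)
    (by decide +kernel)
theorem L01270 : Good (Phi V5.P V5.D 1 1) ⟨4, 13, 2, 1, 2, 1, 2, 0, 3, 2⟩ :=
  leafX_sound T5.ok_pp T5.Ypp.bz_eq (w := 206) (c := ⟨⟨.negSucc 2339, .negSucc 204, .negSucc 27, .negSucc 47, .negSucc 204, .ofNat 327⟩, ⟨.negSucc 940, .negSucc 241, .negSucc 315, .negSucc 32, .negSucc 103, .ofNat 163⟩, ⟨.ofNat 1517, .ofNat 42, .ofNat 130, .negSucc 783, .ofNat 771, .negSucc 140⟩, ⟨.negSucc 3582, .negSucc 10, .negSucc 20, .ofNat 11, .negSucc 326, .ofNat 545⟩, ⟨.negSucc 121, .ofNat 7, .ofNat 11, .negSucc 159, .ofNat 36, .negSucc 107⟩, .ofNat 648, .negSucc 684, .ofNat 0, .negSucc 684, .ofNat 1500, .ofNat 0, .ofNat 128, .ofNat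 233, .negSucc 154, .ofNat 0, .ofNat 176, .negSucc 57, .ofNat 0, .ofNat 0, .ofNat 1065, .ofNat 49479, .ofNat 332080715891677052291444400434355084722176, .ofNat 0, .ofNat 0, .ofNat 0, .ofNat 1217921638330936098122988484056418564964352, .ofNat 0, .ofNat 309990405237903142438300614953795584, .ofNat 0, .ofNat 2661260126782211491022765011574495108923392, .ofNat 0, .ofNat 696772571747203239251541356454084608, .ofNat 0, .ofNat 5648223055180654471913998804610907845427200, .ofNat 0, .ofNat 0, .ofNat 0⟩)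
    (by decide +kernel)
theorem L01271 : Good (Phi V5.P V5.D 1 1) ⟨4, 13, 2, 1, 2, 1, 2, 1, 4, 4⟩ :=
  leafX_sound T5.ok_pp T5.Ypp.bz_eq (w := 208) (c := ⟨⟨.negSucc 2479, .negSucc 260, .negSucc 17, .negSucc 185, .negSucc 164, .ofNat 234⟩, ⟨.negSucc 1007, .negSucc 269, .negSucc 311, .negSucc 109, .negSucc 91, .ofNat 121⟩, ⟨.ofNat 2162, .ofNat 193, .ofNat 14, .negSucc 376, .ofNat 404, .negSucc 234⟩, ⟨.negSucc 3831, .negSucc 117, .ofNat 14, .negSucc 183, .negSucc 214, .ofNat 373⟩, ⟨.negSucc 72, .ofNat 46, .negSucc 0, .negSucc 177, .negSucc 55, .negSucc 43⟩, .ofNat 636, .negSucc 666, .ofNat 0, .negSucc 666, .ofNat 1478, .ofNat 0, .ofNat 128, .ofNat 241, .negSucc 133, .ofNat 0, .ofNat 184, .negSucc 53, .ofNat 0, .ofNat 0, .ofNat 858, .ofNat 6650, .ofNat 147431221510515798168378532658273444691968, .ofNat 0, .ofNat 107783440069637143222412406012510208, .ofNat 0, .ofNat 0, .ofNat 0, .ofNat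 7019213666412892891447584025607143424, .ofNat 0, .ofNat 1063882923859522882872612747044402222858240, .ofNat 0, .ofNat 20987977172802821669459841902285160448, .ofNat 0, .ofNat 6256474862961101101877865251329311808421888, .ofNat 0, .ofNat 5095661887517689975082779404643860480, .ofNat 0⟩)
    (by decide +kernel)
theorem L01272 : Good (Phi V5.P V5.D 1 1) ⟨4, 13, 2, 1, 2, 1, 3, 2, 5, 10⟩ :=
  leafX_sound T5.ok_pp T5.Ypp.bz_eq (w := 220) (c := ⟨⟨.negSucc 2282, .negSucc 200, .negSucc 25, .negSucc 144, .negSucc 102, .ofNat 102⟩, ⟨.negSucc 927, .negSucc 239, .negSucc 290, .negSucc 83, .negSucc 56, .ofNat 52⟩, ⟨.ofNat 1969, .ofNat 84, .ofNat 28, .negSucc 392, .ofNat 261, .negSucc 83⟩, ⟨.negSucc 3514, .negSucc 13, .negSucc 4, .negSucc 119, .negSucc 134, .ofNat 163⟩, ⟨.negSucc 91, .ofNat 12, .negSucc 8, .negSucc 181, .negSucc 31, .negSucc 22⟩, .ofNat 532, .negSucc 468, .ofNat 0, .negSucc 468,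 .ofNat 1096, .ofNat 0, .ofNat 128, .ofNat 209, .negSucc 104, .ofNat 0, .ofNat 191, .negSucc 31, .ofNat 0, .ofNat 0, .ofNat 983, .ofNat 63522, .ofNat 134520466436081515344119871829320568164843520, .ofNat 0, .ofNat 532655346200095478523057985283361341440, .ofNat 0, .ofNat 545530826599864582090566766524066097881153536, .ofNat 0, .ofNat 1962525519282027218495368386897516691456, .ofNat 0, .ofNat 1230896722526815158977829024542290671126446080, .ofNat 0, .ofNat 15405134937553925701058680921887399215104, .ofNat 0, .ofNat 1699747398813898324247987564315514892181307392, .ofNat 0, .ofNat 0, .ofNat 0⟩)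
    (by decide +kernel)
theorem L01273 : Good (Phi V5.P V5.D 1 1) ⟨4, 13, 2, 1, 2, 1, 3, 2, 5, 11⟩ :=
  leafX_sound T5.ok_pp T5.Ypp.bz_eq (w := 223) (c := ⟨⟨.negSucc 2207, .negSucc 202, .negSucc 18, .negSucc 109, .negSucc 112, .ofNat 103⟩, ⟨.negSucc 900, .negSucc 247, .negSucc 272, .negSucc 63, .negSucc 61, .ofNat 52⟩, ⟨.ofNat 1870, .ofNat 51, .ofNat 2, .negSucc 362, .ofNat 281, .negSucc 97⟩, ⟨.negSucc 3400, .negSucc 13, .ofNat 22, .negSucc 76, .negSucc 147, .ofNat 167⟩, ⟨.negSucc 100, .ofNat 5, .negSucc 17, .negSucc 173, .negSucc 45, .negSucc 20⟩, .ofNat 164, .negSucc 45, .ofNat 0, .negSucc 45, .ofNat 222, .ofNat 0, .ofNat 155, .ofNat 57, .negSucc 103, .ofNat 0, .ofNat 128, .ofNat 9, .ofNat 0, .ofNat 0, .ofNat 548, .ofNat 499462, .ofNat 1222447406497733198819189474866386497836154880, .ofNat 0, .ofNat 0, .ofNat 0, .ofNat 1981804836504257661381379347311726414033584128, .ofNat 0, .ofNat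 647828996667756323402020393339372699648, .ofNat 0, .ofNat 1355935760762247673424264801720892992098664448, .ofNat 0, .ofNat 5157707784797060567598890527954726551552, .ofNat 0, .ofNat 3201548086216497289028193776636077277754425344, .ofNat 0, .ofNat 0, .ofNat 0⟩)
    (by decide +kernel)
theorem L01274 : Good (Phi V5.P V5.D 1 1) ⟨4, 13, 2, 1, 2, 1, 3, 3, 4, 5⟩ :=
  leafX_sound T5.ok_pp T5.Ypp.bz_eq (w := 214) (c := ⟨⟨.negSucc 2328, .negSucc 222, .negSucc 30, .negSucc 213, .negSucc 84, .ofNat 189⟩, ⟨.negSucc 954, .negSucc 253, .negSucc 289, .negSucc 121, .negSucc 46, .ofNat 98⟩, ⟨.ofNat 2113, .ofNat 129, .ofNat 35, .negSucc 211, .ofNat 151, .negSucc 210⟩, ⟨.negSucc 3583, .negSucc 42, .negSucc 4, .negSucc 205, .negSucc 98, .ofNat 303⟩, ⟨.negSucc 92, .negSucc 0, .negSucc 15, .negSucc 218, .negSucc 49, .negSucc 33⟩, .ofNat 655, .negSucc 698, .ofNat 0, .negSucc 698, .ofNat 1526, .ofNat 0,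 .ofNat 128, .ofNat 265, .negSucc 119, .ofNat 0, .ofNat 202, .negSucc 51, .ofNat 0, .ofNat 0, .ofNat 993, .ofNat 18009, .ofNat 3586308641622167158038337565624289493778432, .ofNat 0, .ofNat 2491250621275767354897711289262407680, .ofNat 0, .ofNat 0, .ofNat 0, .ofNat 155746296382502722200833242954668703744, .ofNat 0, .ofNat 28203305896872575330822030783723096120492032, .ofNat 0, .ofNat 613043071458887403897547651071032164352, .ofNat 0, .ofNat 0, .ofNat 0, .ofNat 0, .ofNat 0⟩)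
    (by decide +kernel)
theorem L01275 : Good (Phi V5.P V5.D 1 1) ⟨3, 7, 2, 1, 1, 0, 1, 0, 3, 2⟩ :=
  out_sound (S := T5.ds_pp) T5.ok_pp (w := 43) (j := 3) (by decide +kernel)
theorem L01276 : Good (Phi V5.P V5.D 1 1) ⟨2, 3, 2, 1, 1, 0, 2, 0, 3, 3⟩ :=
  out_sound (S := T5.ds_pp) T5.ok_pp (w := 20) (j := 1) (by decide +kernel)
theorem L01277 : Good (Phi V5.P V5.D 1 1) ⟨2, 3, 2, 1, 2, 0, 2, 1, 3, 3⟩ :=
  out_sound (S := T5.ds_pp) T5.ok_pp (w := 22) (j := 1) (by decide +kernel)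
theorem L01278 : Good (Phi V5.P V5.D 1 1) ⟨2, 3, 2, 1, 2, 1, 2, 1, 3, 3⟩ :=
  leafX_sound T5.ok_pp T5.Ypp.bz_eq (w := 197) (c := ⟨⟨.negSucc 1824, .negSucc 783, .negSucc 27, .negSucc 188, .negSucc 238, .ofNat 349⟩, ⟨.negSucc 587, .negSucc 881, .negSucc 279, .negSucc 106, .negSucc 130, .ofNat 171⟩, ⟨.ofNat 1635, .ofNat 410, .negSucc 94, .negSucc 142, .ofNat 389, .negSucc 391⟩, ⟨.negSucc 3115, .negSucc 86, .ofNat 18, .negSucc 178, .negSucc 294, .ofNat 554⟩, ⟨.negSucc 31, .negSucc 1, .negSucc 9, .negSucc 235, .negSucc 142, .negSucc 45⟩, .ofNat 337, .negSucc 205, .ofNat 0, .negSucc 205, .ofNat 644, .ofNat 0, .ofNat 128, .ofNat 200, .negSucc 124, .ofNat 0, .ofNat 226, .negSucc 33, .ofNat 0, .ofNat 0, .ofNat 1273, .ofNat 23812, .ofNat 1048316531109832088606869794788470685696, .ofNat 0, .ofNat 72099471338161631146159769607208960, .ofNat 0, .ofNat 4343262858835273861354696669520489086976,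 .ofNat 0, .ofNat 657314851984208130531871336213512192, .ofNat 0, .ofNat 8527093777672740176269010196713699278848, .ofNat 0, .ofNat 10837085578720976791967488401102340096, .ofNat 0, .ofNat 10120944137678843222253926425754242908160, .ofNat 0, .ofNat 396906066370665806868154292312735744, .ofNat 0⟩)
    (by decide +kernel)
theorem L01279 : Good (Phi V5.P V5.D 1 1) ⟨1, 1, 2, 1, 1, 0, 1, 0, 1, 1⟩ :=
  out_sound (S := T5.ds_pp) T5.ok_pp (w := 15) (j := 1) (by decide +kernel)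
theorem L01280 : Good (Phi V5.P V5.D 1 1) ⟨2, 2, 3, 2, 1, 0, 2, 2, 4, 0⟩ :=
  leafX_sound T5.ok_pp T5.Ypp.bz_eq (w := 188) (c := ⟨⟨.ofNat 1014, .negSucc 837, .ofNat 536, .ofNat 1662, .negSucc 994, .negSucc 2326⟩, ⟨.ofNat 417, .negSucc 337, .ofNat 98, .ofNat 579, .negSucc 350, .negSucc 806⟩, ⟨.negSucc 1005, .ofNat 783, .negSucc 526, .negSucc 1281, .ofNat 1042, .ofNat 2157⟩, ⟨.ofNat 1847, .negSucc 1478, .ofNat 842, .ofNat 2892, .negSucc 1845, .negSucc 4052⟩, ⟨.negSucc 1702, .ofNat 1597, .ofNat 261, .negSucc 157, .ofNat 418, .ofNat 262⟩, .ofNat 839, .negSucc 1281, .ofNat 0, .negSucc 1281, .ofNat 3893, .ofNat 0, .ofNat 128, .ofNat 305, .negSucc 404, .ofNat 0, .ofNat 163, .negSucc 134, .ofNat 0, .ofNat 0, .ofNat 590, .ofNat 255, .ofNat 0, .ofNat 0, .ofNat 124960115258477189222903498932224, .ofNat 0, .ofNat 0, .ofNat 0, .ofNat 518252400602556772568845198032896, .ofNat 0, .ofNat 0, .ofNat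 0, .ofNat 15353504637528106170337126978158592, .ofNat 0, .ofNat 0, .ofNat 0, .ofNat 2324672730033528361122404843388928, .ofNat 0⟩)
    (by decide +kernel)
theorem L01281 : Good (Phi V5.P V5.D 1 1) ⟨4, 12, 3, 2, 1, 0, 2, 2, 4, 0⟩ :=
  leafX_sound T5.ok_pp T5.Ypp.bz_eq (w := 194) (c := ⟨⟨.ofNat 518, .negSucc 332, .negSucc 303, .ofNat 2196, .negSucc 909, .negSucc 2726⟩, ⟨.ofNat 247, .negSucc 234, .negSucc 83, .ofNat 885, .negSucc 374, .negSucc 1109⟩, ⟨.negSucc 512, .ofNat 320, .ofNat 185, .negSucc 1616, .ofNat 915, .ofNat 2539⟩, ⟨.ofNat 902, .negSucc 437, .negSucc 399, .ofNat 3383, .negSucc 1726, .negSucc 4351⟩, ⟨.negSucc 198, .ofNat 294, .negSucc 365, .ofNat 460, .ofNat 322, .negSucc 117⟩, .ofNat 547, .negSucc 534, .ofNat 0, .negSucc 534, .ofNat 1478, .ofNat 0, .ofNat 128, .ofNat 167, .negSucc 431, .ofNat 0, .ofNat 126, .negSucc 162, .ofNat 0, .ofNat 0, .ofNat 572, .ofNat 123, .ofNat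 0, .ofNat 0, .ofNat 3953009673790615017971299385344, .ofNat 0, .ofNat 0, .ofNat 0, .ofNat 0, .ofNat 0, .ofNat 0, .ofNat 0, .ofNat 0, .ofNat 0, .ofNat 0, .ofNat 0, .ofNat 0, .ofNat 0⟩)
    (by decide +kernel)
theorem L01282 : Good (Phi V5.P V5.D 1 1) ⟨4, 13, 3, 2, 1, 0, 2, 2, 4, 0⟩ :=
  leafX_sound T5.ok_pp T5.Ypp.bz_eq (w := 197) (c := ⟨⟨.ofNat 994, .ofNat 7614, .negSucc 972, .ofNat 2452, .negSucc 1261, .negSucc 3030⟩, ⟨.ofNat 511, .ofNat 3795, .negSucc 509, .ofNat 1167, .negSucc 581, .negSucc 1435⟩, ⟨.negSucc 514, .negSucc 3794, .ofNat 244, .negSucc 1735, .ofNat 1299, .ofNat 2763⟩, ⟨.ofNat 894, .ofNat 8901, .negSucc 679, .ofNat 3620, .negSucc 1984, .negSucc 4581⟩, ⟨.ofNat 339, .ofNat 3171, .negSucc 509, .ofNat 300, .ofNat 37, .negSucc 150⟩, .ofNat 1149, .negSucc 1621, .ofNat 0, .negSucc 1621, .ofNat 3482, .ofNat 0, .ofNat 128, .ofNat 294, .negSucc 537, .ofNat 0, .ofNat 199, .negSucc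 244, .ofNat 0, .ofNat 0, .ofNat 708, .ofNat 286, .ofNat 0, .ofNat 0, .ofNat 12345238947986844423948345540608, .ofNat 0, .ofNat 0, .ofNat 0, .ofNat 2298800522534354555241493690318848, .ofNat 0, .ofNat 0, .ofNat 0, .ofNat 3687164715157594410238057704849408, .ofNat 0, .ofNat 0, .ofNat 0, .ofNat 1226410659294134108226721377419264, .ofNat 0⟩)
    (by decide +kernel)
theorem L01283 : Good (Phi V5.P V5.D 1 1) ⟨3, 7, 3, 2, 1, 0, 2, 2, 4, 0⟩ :=
  out_sound (S := T5.ds_pp) T5.ok_pp (w := 45) (j := 3) (by decide +kernel)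
theorem L01284 : Good (Phi V5.P V5.D 1 1) ⟨2, 2, 3, 2, 1, 0, 2, 2, 4, 1⟩ :=
  leafX_sound T5.ok_pp T5.Ypp.bz_eq (w := 186) (c := ⟨⟨.negSucc 494, .negSucc 1533, .ofNat 141, .ofNat 177, .negSucc 39, .negSucc 477⟩, ⟨.ofNat 190, .negSucc 906, .negSucc 92, .ofNat 53, .negSucc 17, .negSucc 165⟩, ⟨.ofNat 142, .ofNat 1785, .negSucc 153, .negSucc 331, .ofNat 92, .ofNat 526⟩, ⟨.negSucc 1837, .negSucc 1493, .ofNat 104, .ofNat 349, .negSucc 55, .negSucc 844⟩, ⟨.ofNat 132, .negSucc 228, .ofNat 433, .negSucc 134, .negSucc 73, .ofNat 82⟩, .ofNat 851, .negSucc 1321, .ofNat 0, .negSucc 1321, .ofNat 4028, .ofNat 0, .ofNat 128, .ofNat 253, .negSucc 231, .ofNat 0, .ofNat 134, .negSucc 75, .ofNat 0, .ofNat 0, .ofNat 473, .ofNat 455, .ofNat 0, .ofNat 0, .ofNat 0, .ofNat 0, .ofNat 0, .ofNat 0, .ofNat 4078205987128988070735146345562112, .ofNat 0, .ofNat 0, .ofNat 0, .ofNat 0, .ofNat 0, .ofNat 0, .ofNat 0,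 .ofNat 5330995106933338847721685805694976, .ofNat 0⟩)
    (by decide +kernel)
theorem L01285 : Good (Phi V5.P V5.D 1 1) ⟨2, 3, 3, 2, 1, 0, 2, 2, 4, 1⟩ :=
  leafX_sound T5.ok_pp T5.Ypp.bz_eq (w := 186) (c := ⟨⟨.negSucc 1933, .negSucc 2854, .ofNat 255, .ofNat 341, .negSucc 82, .negSucc 630⟩, ⟨.negSucc 655, .negSucc 1637, .negSucc 53, .ofNat 122, .negSucc 35, .negSucc 264⟩, ⟨.ofNat 1837, .ofNat 2547, .negSucc 144, .negSucc 734, .ofNat 238, .ofNat 594⟩, ⟨.negSucc 3211, .negSucc 3451, .ofNat 375, .ofNat 531, .negSucc 161, .negSucc 977⟩, ⟨.ofNat 3, .ofNat 27, .ofNat 38, .ofNat 123, .ofNat 33, .negSucc 156⟩, .ofNat 541, .negSucc 521, .ofNat 0, .negSucc 521, .ofNat 1443, .ofNat 0, .ofNat 128, .ofNat 139, .negSucc 177, .ofNat 0, .ofNat 106, .negSucc 64, .ofNat 0, .ofNat 0, .ofNat 321, .ofNat 193, .ofNat 0, .ofNat 0, .ofNat 23612735326761467048428757319680, .ofNat 0, .ofNat 0, .ofNat 0, .ofNat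 925519271667292223286729720725504, .ofNat 0, .ofNat 0, .ofNat 0, .ofNat 1668099365721368764770613135933440, .ofNat 0, .ofNat 0, .ofNat 0, .ofNat 250987907052656465480392758001664, .ofNat 0⟩)
    (by decide +kernel)
theorem L01286 : Good (Phi V5.P V5.D 1 1) ⟨2, 2, 3, 2, 2, 0, 2, 3, 3, 0⟩ :=
  leafX_sound T5.ok_pp T5.Ypp.bz_eq (w := 195) (c := ⟨⟨.negSucc 736, .negSucc 1214, .negSucc 396, .negSucc 61, .ofNat 866, .negSucc 492⟩, ⟨.ofNat 27, .negSucc 704, .negSucc 285, .negSucc 23, .ofNat 287, .negSucc 170⟩, ⟨.ofNat 810, .ofNat 1044, .ofNat 513, .ofNat 253, .negSucc 930, .ofNat 398⟩, ⟨.negSucc 2095, .negSucc 1101, .negSucc 705, .negSucc 60, .ofNat 1550, .negSucc 927⟩, ⟨.ofNat 229, .negSucc 272, .negSucc 106, .negSucc 155, .negSucc 44, .ofNat 52⟩, .ofNat 534, .negSucc 539, .ofNat 0, .negSucc 539, .ofNat 1843, .ofNat 0, .ofNat 130, .ofNat 128, .negSucc 402, .ofNat 0, .ofNat 92, .negSucc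 124, .ofNat 0, .ofNat 0, .ofNat 643, .ofNat 297, .ofNat 0, .ofNat 0, .ofNat 0, .ofNat 0, .ofNat 0, .ofNat 0, .ofNat 627346080097148427826281648624762880, .ofNat 0, .ofNat 0, .ofNat 0, .ofNat 912157315093782397449057493103673344, .ofNat 0, .ofNat 0, .ofNat 0, .ofNat 0, .ofNat 0⟩)
    (by decide +kernel)
theorem L01287 : Good (Phi V5.P V5.D 1 1) ⟨2, 3, 3, 2, 2, 0, 2, 3, 3, 0⟩ :=
  leafX_sound T5.ok_pp T5.Ypp.bz_eq (w := 195) (c := ⟨⟨.negSucc 2148, .negSucc 2058, .ofNat 99, .negSucc 225, .ofNat 621, .negSucc 140⟩, ⟨.negSucc 757, .negSucc 1311, .negSucc 99, .negSucc 97, .ofNat 251, .negSucc 58⟩, ⟨.ofNat 2079, .ofNat 2144, .negSucc 109, .ofNat 415, .negSucc 664, .ofNat 41⟩, ⟨.negSucc 3636, .negSucc 2331, .ofNat 201, .negSucc 314, .ofNat 1035, .negSucc 172⟩, ⟨.ofNat 224, .ofNat 106, .negSucc 80, .negSucc 160, .negSucc 29, .negSucc 216⟩, .ofNat 659, .negSucc 600, .ofNat 0, .negSucc 600,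 .ofNat 1235, .ofNat 0, .ofNat 160, .ofNat 118, .negSucc 467, .ofNat 0, .ofNat 128, .negSucc 220, .ofNat 0, .ofNat 0, .ofNat 642, .ofNat 123, .ofNat 0, .ofNat 0, .ofNat 7469082990317978343093539621044224, .ofNat 0, .ofNat 0, .ofNat 0, .ofNat 268562673594466947038167375317827584, .ofNat 0, .ofNat 0, .ofNat 0, .ofNat 348009240578696323275283537745412096, .ofNat 0, .ofNat 0, .ofNat 26004466504477029924339715314641010688, .ofNat 1003976109593310229187490977438236672, .ofNat 0⟩)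
    (by decide +kernel)
theorem L01288 : Good (Phi V5.P V5.D 1 1) ⟨2, 2, 3, 2, 2, 1, 2, 3, 3, 0⟩ :=
  leafX_sound T5.ok_pp T5.Ypp.bz_eq (w := 195) (c := ⟨⟨.ofNat 826, .negSucc 1976, .ofNat 239, .negSucc 457, .negSucc 502, .negSucc 1423⟩, ⟨.ofNat 664, .negSucc 1077, .negSucc 64, .negSucc 154, .negSucc 172, .negSucc 504⟩, ⟨.negSucc 581, .ofNat 1868, .negSucc 191, .ofNat 335, .ofNat 725, .ofNat 1121⟩, ⟨.ofNat 357, .negSucc 2185, .ofNat 376, .negSucc 825, .negSucc 925, .negSucc 2360⟩, ⟨.ofNat 362, .negSucc 371, .ofNat 74, .ofNat 90, .ofNat 121, .negSucc 314⟩, .ofNat 680, .negSucc 887, .ofNat 0, .negSucc 887, .ofNat 2842, .ofNat 0, .ofNat 128, .ofNat 199, .negSucc 341, .ofNat 0, .ofNat 111, .negSucc 106, .ofNat 0, .ofNat 0, .ofNat 508, .ofNat 101, .ofNat 0, .ofNat 0, .ofNat 99818850310586599319858214483263488, .ofNat 0, .ofNat 0, .ofNat 0, .ofNat 0, .ofNat 0, .ofNat 0, .ofNat 18573938981558356099169985812850802688,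 .ofNat 656006988939448184512602008924979200, .ofNat 0, .ofNat 0, .ofNat 60167446385135701201224792767104811008, .ofNat 545734156853876923480396805145886720, .ofNat 0⟩)
    (by decide +kernel)
theorem L01289 : Good (Phi V5.P V5.D 1 1) ⟨4, 12, 3, 2, 2, 1, 3, 6, 3, 0⟩ :=
  leafX_sound T5.ok_pp T5.Ypp.bz_eq (w := 207) (c := ⟨⟨.negSucc 690, .negSucc 358, .negSucc 205, .negSucc 636, .negSucc 338, .negSucc 1626⟩, ⟨.negSucc 120, .negSucc 260, .negSucc 252, .negSucc 255, .negSucc 145, .negSucc 706⟩, ⟨.ofNat 878, .ofNat 315, .ofNat 209, .ofNat 408, .ofNat 419, .ofNat 1336⟩, ⟨.negSucc 1229, .negSucc 422, .negSucc 240, .negSucc 950, .negSucc 653, .negSucc 2539⟩, ⟨.ofNat 177, .ofNat 131, .negSucc 68, .negSucc 107, .ofNat 74, .negSucc 361⟩, .ofNat 542, .negSucc 525, .ofNat 0, .negSucc 525, .ofNat 1466, .ofNat 0, .ofNat 128, .ofNat 228, .negSucc 463, .ofNat 0, .ofNat 167, .negSucc 167, .ofNat 0,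 .ofNat 0, .ofNat 644, .ofNat 122, .ofNat 0, .ofNat 0, .ofNat 0, .ofNat 0, .ofNat 0, .ofNat 0, .ofNat 0, .ofNat 0, .ofNat 0, .ofNat 0, .ofNat 0, .ofNat 0, .ofNat 0, .ofNat 0, .ofNat 0, .ofNat 0⟩)
    (by decide +kernel)
theorem L01290 : Good (Phi V5.P V5.D 1 1) ⟨4, 12, 3, 2, 2, 1, 3, 7, 4, 0⟩ :=
  leafX_sound T5.ok_pp T5.Ypp.bz_eq (w := 212) (c := ⟨⟨.negSucc 1176, .negSucc 924, .negSucc 137, .negSucc 415, .negSucc 320, .negSucc 857⟩, ⟨.negSucc 347, .negSucc 478, .negSucc 229, .negSucc 141, .negSucc 125, .negSucc 377⟩, ⟨.ofNat 1396, .ofNat 856, .ofNat 144, .ofNat 358, .ofNat 489, .ofNat 652⟩, ⟨.negSucc 1915, .negSucc 1269, .negSucc 248, .negSucc 1041, .negSucc 647, .negSucc 1246⟩, ⟨.negSucc 91, .ofNat 77, .ofNat 11, .ofNat 891, .ofNat 231, .negSucc 402⟩, .ofNat 542, .negSucc 525, .ofNat 0, .negSucc 525, .ofNat 1470, .ofNat 0, .ofNat 128, .ofNat 217, .negSucc 705, .ofNat 0, .ofNat 159,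 .negSucc 260, .ofNat 0, .ofNat 0, .ofNat 803, .ofNat 50, .ofNat 0, .ofNat 0, .ofNat 0, .ofNat 0, .ofNat 0, .ofNat 96110614029932716305689861912645714575360, .ofNat 0, .ofNat 0, .ofNat 0, .ofNat 0, .ofNat 0, .ofNat 0, .ofNat 0, .ofNat 0, .ofNat 0, .ofNat 0⟩)
    (by decide +kernel)
theorem L01291 : Good (Phi V5.P V5.D 1 1) ⟨4, 12, 3, 2, 2, 1, 3, 7, 4, 1⟩ :=
  leafX_sound T5.ok_pp T5.Ypp.bz_eq (w := 212) (c := ⟨⟨.negSucc 1710, .negSucc 985, .ofNat 105, .negSucc 1955, .negSucc 1130, .negSucc 206⟩, ⟨.negSucc 486, .negSucc 574, .negSucc 200, .negSucc 819, .negSucc 471, .negSucc 112⟩, ⟨.ofNat 1918, .ofNat 834, .negSucc 98, .ofNat 1463, .ofNat 1091, .ofNat 80⟩, ⟨.negSucc 2701, .negSucc 1428, .ofNat 183, .negSucc 3420, .negSucc 1892, .negSucc 196⟩, ⟨.negSucc 435, .ofNat 466, .ofNat 74, .ofNat 633, .ofNat 162, .negSucc 460⟩, .ofNat 539, .negSucc 516, .ofNat 0, .negSucc 516, .ofNat 1429, .ofNat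 0, .ofNat 128, .ofNat 184, .negSucc 388, .ofNat 0, .ofNat 135, .negSucc 141, .ofNat 0, .ofNat 0, .ofNat 516, .ofNat 86, .ofNat 0, .ofNat 0, .ofNat 0, .ofNat 0, .ofNat 0, .ofNat 413475941109816990817925991182903139106816, .ofNat 2797259512326478556156194074893746176, .ofNat 0, .ofNat 0, .ofNat 732827570011263843397488006632900132864000, .ofNat 0, .ofNat 0, .ofNat 0, .ofNat 1213328099707058199476828248173738134077440, .ofNat 0, .ofNat 0⟩)
    (by decide +kernel)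
theorem L01292 : Good (Phi V5.P V5.D 1 1) ⟨4, 13, 3, 2, 2, 1, 2, 3, 3, 0⟩ :=
  leafX_sound T5.ok_pp T5.Ypp.bz_eq (w := 203) (c := ⟨⟨.negSucc 1231, .negSucc 2737, .negSucc 116, .negSucc 1347, .negSucc 1303, .negSucc 1149⟩, ⟨.negSucc 357, .negSucc 1516, .negSucc 237, .negSucc 619, .negSucc 619, .negSucc 579⟩, ⟨.ofNat 1228, .ofNat 1782, .ofNat 337, .ofNat 811, .ofNat 1482, .ofNat 861⟩, ⟨.negSucc 1684, .negSucc 3595, .negSucc 477, .negSucc 2122, .negSucc 2137, .negSucc 1632⟩, ⟨.negSucc 373, .negSucc 330, .ofNat 690, .ofNat 108, .ofNat 111, .negSucc 460⟩, .ofNat 701, .negSucc 716, .ofNat 0, .negSucc 716, .ofNat 1580, .ofNat 0, .ofNat 128, .ofNat 161, .negSucc 443, .ofNat 0, .ofNat 135, .negSucc 189, .ofNat 0, .ofNat 0, .ofNat 549, .ofNat 76, .ofNat 0, .ofNat 0, .ofNat 16721455142098183682161642158686208, .ofNat 0, .ofNat 0, .ofNat 7043470202800118398712421801757193011200, .ofNat 181128272168184054088242441805103104,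 .ofNat 0, .ofNat 0, .ofNat 0, .ofNat 122082107961520035833045229854785536, .ofNat 0, .ofNat 0, .ofNat 17027441073090520954254214375155538329600, .ofNat 87542146974108201179233895634173952, .ofNat 0⟩)
    (by decide +kernel)
theorem L01293 : Good (Phi V5.P V5.D 1 1) ⟨3, 7, 3, 2, 2, 1, 2, 3, 3, 0⟩ :=
  out_sound (S := T5.ds_pp) T5.ok_pp (w := 45) (j := 3) (by decide +kernel)
theorem L01294 : Good (Phi V5.P V5.D 1 1) ⟨3, 4, 3, 2, 1, 0, 1, 1, 3, 1⟩ :=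
  out_sound (S := T5.ds_pp) T5.ok_pp (w := 45) (j := 3) (by decide +kernel)
theorem L01295 : Good (Phi V5.P V5.D 1 1) ⟨3, 5, 3, 2, 1, 0, 2, 2, 3, 1⟩ :=
  leafX_sound T5.ok_pp T5.Ypp.bz_eq (w := 186) (c := ⟨⟨.negSucc 1951, .negSucc 324, .negSucc 68, .negSucc 442, .negSucc 44, .ofNat 143⟩, ⟨.negSucc 475, .negSucc 328, .negSucc 176, .negSucc 162, .negSucc 18, .ofNat 46⟩, ⟨.ofNat 1898, .ofNat 348, .negSucc 45, .ofNat 90, .ofNat 116, .negSucc 117⟩, ⟨.negSucc 3862, .ofNat 39, .negSucc 90, .negSucc 652, .negSucc 34, .ofNat 275⟩, ⟨.ofNat 155, .negSucc 31, .negSucc 74, .negSucc 292, .negSucc 135, .negSucc 95⟩, .ofNat 867, .negSucc 1369, .ofNat 0, .negSucc 1369, .ofNat 4186, .ofNat 0, .ofNat 128, .ofNat 248, .negSucc 141, .ofNat 0, .ofNat 129, .negSucc 45, .ofNat 0, .ofNat 0, .ofNat 495, .ofNat 833, .ofNat 0, .ofNat 0, .ofNat 0, .ofNat 0, .ofNat 0, .ofNat 0, .ofNat 26597518882158065487730188484608,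 .ofNat 0, .ofNat 0, .ofNat 0, .ofNat 0, .ofNat 0, .ofNat 0, .ofNat 0, .ofNat 0, .ofNat 0⟩)
    (by decide +kernel)
theorem L01296 : Good (Phi V5.P V5.D 1 1) ⟨4, 10, 3, 2, 1, 0, 2, 3, 3, 1⟩ :=
  out_sound (S := T5.ds_pp) T5.ok_pp (w := 51) (j := 3) (by decide +kernel)
theorem L01297 : Good (Phi V5.P V5.D 1 1) ⟨4, 11, 3, 2, 2, 0, 2, 3, 3, 1⟩ :=
  leafX_sound T5.ok_pp T5.Ypp.bz_eq (w := 203) (c := ⟨⟨.negSucc 1971, .negSucc 161, .negSucc 163, .negSucc 358, .ofNat 225, .ofNat 107⟩, ⟨.negSucc 602, .negSucc 149, .negSucc 205, .negSucc 127, .ofNat 77, .ofNat 34⟩, ⟨.ofNat 1907, .ofNat 173, .ofNat 144, .ofNat 442, .negSucc 457, .negSucc 259⟩, ⟨.negSucc 3537, .negSucc 19, .negSucc 245, .negSucc 563, .ofNat 435, .ofNat 174⟩, ⟨.negSucc 2, .ofNat 54, .negSucc 86, .negSucc 192, .negSucc 92, .ofNat 12⟩, .ofNat 533, .negSucc 536, .ofNat 0, .negSucc 536, .ofNat 1833, .ofNat 0, .ofNat 133, .ofNat 128,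 .negSucc 159, .ofNat 0, .ofNat 92, .negSucc 49, .ofNat 0, .ofNat 0, .ofNat 418, .ofNat 293, .ofNat 0, .ofNat 0, .ofNat 0, .ofNat 0, .ofNat 0, .ofNat 0, .ofNat 2617350625708785857206531662020608, .ofNat 0, .ofNat 0, .ofNat 28733593330602163206499900024072058175488, .ofNat 23078554922415686928436312089296896, .ofNat 0, .ofNat 0, .ofNat 0, .ofNat 0, .ofNat 0⟩)
    (by decide +kernel)
theorem L01298 : Good (Phi V5.P V5.D 1 1) ⟨4, 11, 3, 2, 2, 1, 2, 3, 3, 1⟩ :=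
  leafX_sound T5.ok_pp T5.Ypp.bz_eq (w := 202) (c := ⟨⟨.negSucc 2118, .negSucc 340, .ofNat 62, .negSucc 728, .negSucc 704, .ofNat 92⟩, ⟨.negSucc 626, .negSucc 257, .negSucc 164, .negSucc 264, .negSucc 248, .ofNat 22⟩, ⟨.ofNat 2121, .ofNat 322, .negSucc 119, .ofNat 581, .ofNat 563, .negSucc 246⟩, ⟨.negSucc 3813, .negSucc 214, .ofNat 129, .negSucc 1177, .negSucc 1135, .ofNat 223⟩, ⟨.negSucc 11, .negSucc 97, .ofNat 102, .negSucc 214, .negSucc 227, .negSucc 219⟩, .ofNat 534, .negSucc 540, .ofNat 0, .negSucc 540, .ofNat 1864, .ofNat 0, .ofNat 128, .ofNat 132, .negSucc 113, .ofNat 0, .ofNat 88, .negSucc 32, .ofNat 0, .ofNat 0, .ofNat 303, .ofNat 129, .ofNat 0, .ofNat 0, .ofNat 0, .ofNat 0, .ofNat 0, .ofNat 16317548129100153883395706223172178149376, .ofNat 0, .ofNat 0, .ofNat 0, .ofNat 18788306785038596122099865349128854700032, .ofNat 15268833499716428933483210578329600, .ofNat 0, .ofNat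 0, .ofNat 14222249393094641931350739599918001815552, .ofNat 14295057477461690798292327932624896, .ofNat 0⟩)
    (by decide +kernel)
theorem L01299 : Good (Phi V5.P V5.D 1 1) ⟨3, 6, 3, 2, 1, 0, 2, 2, 3, 1⟩ :=
  leafX_sound T5.ok_pp T5.Ypp.bz_eq (w := 185) (c := ⟨⟨.negSucc 2407, .negSucc 426, .negSucc 2, .negSucc 402, .negSucc 44, .ofNat 203⟩, ⟨.negSucc 840, .negSucc 427, .negSucc 160, .negSucc 185, .negSucc 25, .ofNat 77⟩, ⟨.ofNat 2400, .ofNat 401, .negSucc 44, .negSucc 93, .ofNat 97, .negSucc 108⟩, ⟨.negSucc 4062, .negSucc 57, .negSucc 7, .negSucc 521, .negSucc 25, .ofNat 365⟩, ⟨.ofNat 176, .negSucc 100, .ofNat 19, .negSucc 321, .negSucc 131, .negSucc 129⟩, .ofNat 544, .negSucc 526, .ofNat 0, .negSucc 526, .ofNat 1454, .ofNat 0, .ofNat 128, .ofNat 153, .negSucc 148, .ofNat 0, .ofNat 120, .negSucc 52, .ofNat 0, .ofNat 0, .ofNat 459, .ofNat 326, .ofNat 0, .ofNat 0, .ofNat 503942767045765106725220777984,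 .ofNat 0, .ofNat 0, .ofNat 0, .ofNat 3951738753158865017752692719616, .ofNat 0, .ofNat 0, .ofNat 0, .ofNat 20078414471883054617290849910784, .ofNat 0, .ofNat 0, .ofNat 0, .ofNat 0, .ofNat 0⟩)
    (by decide +kernel)
theorem L01300 : Good (Phi V5.P V5.D 1 1) ⟨4, 12, 3, 2, 1, 0, 3, 6, 3, 1⟩ :=
  leafX_sound T5.ok_pp T5.Ypp.bz_eq (w := 193) (c := ⟨⟨.negSucc 2178, .negSucc 301, .negSucc 19, .negSucc 1170, .negSucc 147, .ofNat 298⟩, ⟨.negSucc 727, .negSucc 275, .negSucc 166, .negSucc 525, .negSucc 57, .ofNat 110⟩, ⟨.ofNat 2157, .ofNat 223, .ofNat 1, .ofNat 966, .ofNat 144, .negSucc 381⟩, ⟨.negSucc 3826, .negSucc 113, .ofNat 26, .negSucc 1609, .negSucc 154, .ofNat 573⟩, ⟨.ofNat 463, .negSucc 63, .negSucc 158, .negSucc 623, .negSucc 276, .negSucc 289⟩, .ofNat 810, .negSucc 1056, .ofNat 0, .negSucc 1056, .ofNat 2667, .ofNat 0, .ofNat 128, .ofNat 158, .negSucc 117, .ofNat 0, .ofNat 104, .negSucc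 45, .ofNat 0, .ofNat 0, .ofNat 322, .ofNat 201, .ofNat 0, .ofNat 0, .ofNat 0, .ofNat 0, .ofNat 0, .ofNat 0, .ofNat 55441065390637417877030779748352, .ofNat 0, .ofNat 0, .ofNat 0, .ofNat 5288412966361823573222677807104, .ofNat 0, .ofNat 0, .ofNat 0, .ofNat 0, .ofNat 0⟩)
    (by decide +kernel)
theorem L01301 : Good (Phi V5.P V5.D 1 1) ⟨4, 12, 3, 2, 1, 0, 4, 14, 4, 2⟩ :=
  leafX_sound T5.ok_pp T5.Ypp.bz_eq (w := 201) (c := ⟨⟨.negSucc 1779, .negSucc 503, .ofNat 100, .negSucc 2014, .negSucc 139, .ofNat 48⟩, ⟨.negSucc 568, .negSucc 357, .negSucc 108, .negSucc 875, .negSucc 62, .ofNat 4⟩, ⟨.ofNat 1668, .ofNat 467, .negSucc 93, .ofNat 1897, .ofNat 130, .negSucc 130⟩, ⟨.negSucc 3045, .negSucc 445, .ofNat 117, .negSucc 3072, .negSucc 209, .ofNat 144⟩, ⟨.ofNat 131, .negSucc 51, .ofNat 36, .negSucc 422, .negSucc 54, .negSucc 199⟩, .ofNat 550, .negSucc 542, .ofNat 0, .negSucc 542, .ofNat 1491,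 .ofNat 0, .ofNat 129, .ofNat 128, .negSucc 116, .ofNat 0, .ofNat 97, .negSucc 42, .ofNat 0, .ofNat 0, .ofNat 227, .ofNat 114, .ofNat 0, .ofNat 0, .ofNat 0, .ofNat 0, .ofNat 0, .ofNat 0, .ofNat 0, .ofNat 0, .ofNat 0, .ofNat 0, .ofNat 0, .ofNat 0, .ofNat 0, .ofNat 0, .ofNat 0, .ofNat 0⟩)
    (by decide +kernel)
theorem L01302 : Good (Phi V5.P V5.D 1 1) ⟨4, 12, 3, 2, 1, 0, 4, 15, 4, 2⟩ :=
  leafX_sound T5.ok_pp T5.Ypp.bz_eq (w := 201) (c := ⟨⟨.negSucc 1372, .negSucc 477, .negSucc 201, .negSucc 3253, .negSucc 220, .ofNat 167⟩, ⟨.negSucc 363, .negSucc 381, .negSucc 279, .negSucc 1412, .negSucc 100, .ofNat 46⟩, ⟨.ofNat 1256, .ofNat 468, .ofNat 167, .ofNat 3000, .ofNat 173, .negSucc 306⟩, ⟨.negSucc 2365, .negSucc 374, .negSucc 291, .negSucc 5183, .negSucc 323, .ofNat 337⟩, ⟨.negSucc 74, .negSucc 101, .ofNat 14, .ofNat 19, .ofNat 34, .negSucc 170⟩, .ofNat 544, .negSucc 530, .ofNat 0, .negSucc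 530, .ofNat 1479, .ofNat 0, .ofNat 128, .ofNat 130, .negSucc 189, .ofNat 0, .ofNat 99, .negSucc 69, .ofNat 0, .ofNat 0, .ofNat 312, .ofNat 108, .ofNat 0, .ofNat 26820931786867464026132214925339131904, .ofNat 656286673526650996252393921839104, .ofNat 0, .ofNat 0, .ofNat 776899217777141556097413975207328088064, .ofNat 5387637765865938493845850753597440, .ofNat 0, .ofNat 0, .ofNat 869205796830345848572867392342398599168, .ofNat 0, .ofNat 0, .ofNat 0, .ofNat 1107962645048496367035805425232393535488, .ofNat 0, .ofNat 0⟩)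
    (by decide +kernel)
theorem L01303 : Good (Phi V5.P V5.D 1 1) ⟨4, 12, 3, 2, 1, 0, 3, 7, 4, 3⟩ :=
  leafX_sound T5.ok_pp T5.Ypp.bz_eq (w := 198) (c := ⟨⟨.negSucc 1808, .negSucc 333, .negSucc 2, .negSucc 1984, .negSucc 430, .ofNat 104⟩, ⟨.negSucc 579, .negSucc 314, .negSucc 169, .negSucc 869, .negSucc 194, .ofNat 55⟩, ⟨.ofNat 1646, .ofNat 343, .ofNat 1, .ofNat 1793, .ofNat 289, .negSucc 248⟩, ⟨.negSucc 3050, .negSucc 262, .negSucc 0, .negSucc 2995, .negSucc 592, .ofNat 237⟩, ⟨.ofNat 133, .ofNat 43, .ofNat 26, .negSucc 751, .negSucc 138, .negSucc 194⟩, .ofNat 327, .negSucc 179, .ofNat 0, .negSucc 179, .ofNat 646, .ofNat 0, .ofNat 199, .ofNat 108, .negSucc 228, .ofNat 0, .ofNat 128, .negSucc 68, .ofNat 0, .ofNat 0, .ofNat 466, .ofNat 203, .ofNat 0, .ofNat 11591972106934874119761866521902579712, .ofNat 115743916921470449816840848801792, .ofNat 0, .ofNat 0, .ofNat 533443782620686986341832081957646761984,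 .ofNat 1229330311549712227363856773545984, .ofNat 0, .ofNat 0, .ofNat 445573428936975087866909307625212477440, .ofNat 30325051175342095876993404895232, .ofNat 0, .ofNat 0, .ofNat 0, .ofNat 0, .ofNat 0⟩)
    (by decide +kernel)
theorem L01304 : Good (Phi V5.P V5.D 1 1) ⟨4, 13, 3, 2, 2, 0, 2, 3, 3, 1⟩ :=
  leafX_sound T5.ok_pp T5.Ypp.bz_eq (w := 203) (c := ⟨⟨.negSucc 2720, .negSucc 533, .ofNat 259, .negSucc 441, .negSucc 83, .ofNat 248⟩, ⟨.negSucc 1113, .negSucc 382, .negSucc 30, .negSucc 221, .negSucc 46, .ofNat 111⟩, ⟨.ofNat 2723, .ofNat 305, .negSucc 280, .ofNat 457, .negSucc 151, .negSucc 419⟩, ⟨.negSucc 4230, .negSucc 576, .ofNat 412, .negSucc 596, .negSucc 86, .ofNat 399⟩, ⟨.ofNat 49, .ofNat 21, .ofNat 10, .negSucc 200, .negSucc 87, .negSucc 47⟩, .ofNat 701, .negSucc 716, .ofNat 0, .negSucc 716, .ofNat 1580, .ofNat 0, .ofNat 128, .ofNat 139, .negSucc 205, .ofNat 0, .ofNat 131,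 .negSucc 90, .ofNat 0, .ofNat 0, .ofNat 480, .ofNat 306, .ofNat 0, .ofNat 0, .ofNat 0, .ofNat 0, .ofNat 0, .ofNat 26297226792156093005197034812015502163968, .ofNat 74413591201557592453546395847098368, .ofNat 0, .ofNat 0, .ofNat 35230623782498279886298426170515277217792, .ofNat 81033192900650217056522437851611136, .ofNat 0, .ofNat 0, .ofNat 0, .ofNat 33631589529477270001927428505600000, .ofNat 0⟩)
    (by decide +kernel)
theorem L01305 : Good (Phi V5.P V5.D 1 1) ⟨4, 13, 3, 2, 2, 1, 3, 6, 3, 1⟩ :=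
  leafX_sound T5.ok_pp T5.Ypp.bz_eq (w := 208) (c := ⟨⟨.negSucc 2802, .negSucc 1154, .ofNat 68, .negSucc 961, .negSucc 421, .ofNat 225⟩, ⟨.negSucc 1128, .negSucc 703, .negSucc 145, .negSucc 473, .negSucc 209, .ofNat 86⟩, ⟨.ofNat 2774, .ofNat 1024, .negSucc 109, .ofNat 620, .ofNat 373, .negSucc 351⟩, ⟨.negSucc 4303, .negSucc 1294, .ofNat 48, .negSucc 1328, .negSucc 571, .ofNat 467⟩, ⟨.negSucc 26, .ofNat 29, .ofNat 82, .negSucc 329, .negSucc 166, .negSucc 264⟩, .ofNat 843, .negSucc 1044, .ofNat 0, .negSucc 1044, .ofNat 2345, .ofNat 0, .ofNat 128, .ofNat 185, .negSucc 125, .ofNat 0, .ofNat 128, .negSucc 53, .ofNat 0, .ofNat 0, .ofNat 322, .ofNat 674, .ofNat 0, .ofNat 0, .ofNat 0, .ofNat 0, .ofNat 0, .ofNat 0, .ofNat 4733164709680633720924195188289568768, .ofNat 0, .ofNat 0, .ofNat 0, .ofNat 4824021810056861481244787143618854912, .ofNat 0, .ofNat 0, .ofNat 0, .ofNat 3486147429064819513740420813395329024,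 .ofNat 0⟩)
    (by decide +kernel)
theorem L01306 : Good (Phi V5.P V5.D 1 1) ⟨4, 13, 3, 2, 2, 1, 3, 7, 3, 1⟩ :=
  leafX_sound T5.ok_pp T5.Ypp.bz_eq (w := 208) (c := ⟨⟨.negSucc 3342, .negSucc 998, .ofNat 163, .negSucc 1532, .negSucc 1193, .ofNat 537⟩, ⟨.negSucc 1283, .negSucc 654, .negSucc 187, .negSucc 755, .negSucc 576, .ofNat 207⟩, ⟨.ofNat 3493, .ofNat 769, .negSucc 321, .ofNat 1027, .ofNat 964, .negSucc 830⟩, ⟨.negSucc 5424, .negSucc 1104, .ofNat 422, .negSucc 2159, .negSucc 1764, .ofNat 1136⟩, ⟨.ofNat 585, .ofNat 296, .negSucc 400, .negSucc 451, .negSucc 177, .negSucc 648⟩, .ofNat 742, .negSucc 783, .ofNat 0, .negSucc 783, .ofNat 1703, .ofNat 0, .ofNat 128, .ofNat 141, .negSucc 180, .ofNat 0, .ofNat 120, .negSucc 75, .ofNat 0, .ofNat 0, .ofNat 327, .ofNat 155, .ofNat 0, .ofNat 7262121764103946002743765976674495102976, .ofNat 138876995720219054123237453888225280, .ofNat 0, .ofNat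 0, .ofNat 115835035834389700932522772198882839363584, .ofNat 1624944958198996651499358996070924288, .ofNat 0, .ofNat 0, .ofNat 115642482155097603976975225220997587140608, .ofNat 1485017468277827868594781496553766912, .ofNat 0, .ofNat 0, .ofNat 115415166912558413056050061040565616640000, .ofNat 1250705100172639765040470673886019584, .ofNat 0⟩)
    (by decide +kernel)
theorem L01307 : Good (Phi V5.P V5.D 1 1) ⟨3, 7, 3, 2, 1, 0, 1, 1, 3, 1⟩ :=
  out_sound (S := T5.ds_pp) T5.ok_pp (w := 45) (j := 3) (by decide +kernel)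
theorem L01308 : Good (Phi V5.P V5.D 1 1) ⟨2, 2, 3, 3, 1, 0, 2, 2, 4, 0⟩ :=
  out_sound (S := T5.ds_pp) T5.ok_pp (w := 39) (j := 3) (by decide +kernel)
theorem L01309 : Good (Phi V5.P V5.D 1 1) ⟨4, 12, 3, 3, 1, 0, 2, 2, 4, 0⟩ :=
  leafX_sound T5.ok_pp T5.Ypp.bz_eq (w := 195) (c := ⟨⟨.ofNat 821, .negSucc 737, .negSucc 301, .ofNat 1509, .negSucc 1012, .negSucc 2513⟩, ⟨.ofNat 381, .negSucc 336, .negSucc 285, .ofNat 704, .negSucc 467, .negSucc 1153⟩, ⟨.negSucc 758, .ofNat 620, .ofNat 278, .negSucc 1264, .ofNat 1070, .ofNat 2394⟩, ⟨.ofNat 1312, .negSucc 1292, .negSucc 432, .ofNat 2457, .negSucc 1676, .negSucc 3844⟩, ⟨.negSucc 67, .ofNat 466, .negSucc 43, .negSucc 229, .ofNat 110, .negSucc 327⟩, .ofNat 1054, .negSucc 1513, .ofNat 0, .negSucc 1513, .ofNat 3421, .ofNat 0, .ofNat 128, .ofNat 335, .negSucc 538, .ofNat 0, .ofNat 205, .negSucc 241, .ofNat 0, .ofNat 0, .ofNat 736, .ofNat 167,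 .ofNat 0, .ofNat 0, .ofNat 0, .ofNat 0, .ofNat 0, .ofNat 0, .ofNat 0, .ofNat 0, .ofNat 0, .ofNat 0, .ofNat 681471951432488318173020036268032, .ofNat 0, .ofNat 0, .ofNat 0, .ofNat 527140400873861187977101973651456, .ofNat 0⟩)
    (by decide +kernel)
theorem L01310 : Good (Phi V5.P V5.D 1 1) ⟨4, 13, 3, 3, 2, 0, 2, 2, 4, 0⟩ :=
  leafX_sound T5.ok_pp T5.Ypp.bz_eq (w := 209) (c := ⟨⟨.ofNat 476, .negSucc 607, .negSucc 138, .ofNat 964, .negSucc 1250, .negSucc 2790⟩, ⟨.ofNat 298, .negSucc 539, .negSucc 69, .ofNat 482, .negSucc 641, .negSucc 1431⟩, ⟨.negSucc 557, .ofNat 626, .ofNat 132, .negSucc 774, .ofNat 1279, .ofNat 2754⟩, ⟨.ofNat 575, .negSucc 756, .negSucc 94, .ofNat 1133, .negSucc 1605, .negSucc 4118⟩, ⟨.ofNat 242, .ofNat 248, .negSucc 357, .ofNat 634, .negSucc 648, .negSucc 137⟩, .ofNat 1161, .negSucc 1523, .ofNat 0, .negSucc 1523, .ofNat 2959, .ofNat 0, .ofNat 128, .ofNat 202, .negSucc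 554, .ofNat 0, .ofNat 147, .negSucc 286, .ofNat 0, .ofNat 0, .ofNat 726, .ofNat 161, .ofNat 0, .ofNat 0, .ofNat 0, .ofNat 0, .ofNat 0, .ofNat 0, .ofNat 6237158479046506893380158724597874688, .ofNat 0, .ofNat 0, .ofNat 0, .ofNat 8197331864449754074813884752499572736, .ofNat 0, .ofNat 0, .ofNat 0, .ofNat 8351632144634110807316263930236502016, .ofNat 0⟩)
    (by decide +kernel)
theorem L01311 : Good (Phi V5.P V5.D 1 1) ⟨4, 13, 3, 3, 2, 1, 2, 2, 4, 0⟩ :=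
  leafX_sound T5.ok_pp T5.Ypp.bz_eq (w := 210) (c := ⟨⟨.ofNat 2234, .ofNat 1015, .negSucc 598, .ofNat 1134, .negSucc 1573, .negSucc 4051⟩, ⟨.ofNat 1251, .ofNat 788, .negSucc 472, .ofNat 585, .negSucc 837, .negSucc 2150⟩, ⟨.negSucc 1802, .negSucc 704, .ofNat 461, .negSucc 718, .ofNat 1478, .ofNat 3383⟩, ⟨.ofNat 3601, .ofNat 1507, .negSucc 995, .ofNat 1606, .negSucc 2772, .negSucc 6161⟩, ⟨.negSucc 531, .negSucc 351, .ofNat 441, .ofNat 232, .ofNat 602, .ofNat 172⟩, .ofNat 600, .negSucc 589, .ofNat 0, .negSucc 589, .ofNat 1295, .ofNat 0, .ofNat 128, .ofNat 276, .negSucc 669, .ofNat 0, .ofNat 212, .negSucc 313, .ofNat 0, .ofNat 0, .ofNat 792, .ofNat 213, .ofNat 0, .ofNat 0, .ofNat 0, .ofNat 0, .ofNat 0, .ofNat 0, .ofNat 217285323800704848477293660585590784, .ofNat 0, .ofNat 0, .ofNat 0, .ofNat 12750499692965024186701975372204867584, .ofNat 0, .ofNat 0, .ofNat 0, .ofNat 0, .ofNat 0⟩)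
    (by decide +kernel)
theorem L01312 : Good (Phi V5.P V5.D 1 1) ⟨3, 7, 3, 3, 1, 0, 2, 2, 4, 0⟩ :=
  out_sound (S := T5.ds_pp) T5.ok_pp (w := 45) (j := 3) (by decide +kernel)
theorem L01313 : Good (Phi V5.P V5.D 1 1) ⟨2, 2, 3, 3, 1, 0, 2, 2, 4, 1⟩ :=
  out_sound (S := T5.ds_pp) T5.ok_pp (w := 39) (j := 3) (by decide +kernel)
theorem L01314 : Good (Phi V5.P V5.D 1 1) ⟨2, 3, 3, 3, 1, 0, 2, 2, 4, 1⟩ :=
  leafX_sound T5.ok_pp T5.Ypp.bz_eq (w := 185) (c := ⟨⟨.negSucc 2027, .negSucc 1226, .negSucc 82, .ofNat 144, .negSucc 233, .negSucc 410⟩, ⟨.negSucc 807, .negSucc 1023, .negSucc 238, .ofNat 58, .negSucc 122, .negSucc 210⟩, ⟨.ofNat 1898, .ofNat 1254, .ofNat 81, .negSucc 572, .ofNat 395, .ofNat 476⟩, ⟨.negSucc 3410, .negSucc 758, .negSucc 144, .ofNat 233, .negSucc 373, .negSucc 622⟩, ⟨.ofNat 44, .negSucc 76, .ofNat 65, .ofNat 4, .negSucc 5, .negSucc 101⟩, .ofNat 552, .negSucc 482, .ofNat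 0, .negSucc 482, .ofNat 1010, .ofNat 0, .ofNat 128, .ofNat 147, .negSucc 186, .ofNat 0, .ofNat 136, .negSucc 89, .ofNat 0, .ofNat 0, .ofNat 313, .ofNat 233, .ofNat 0, .ofNat 0, .ofNat 12215528698469815141771931287552, .ofNat 0, .ofNat 0, .ofNat 0, .ofNat 424276833513899025911894383788032, .ofNat 0, .ofNat 0, .ofNat 0, .ofNat 407715462116868306115939776069632, .ofNat 249429190699274700387347707959110008832, .ofNat 0, .ofNat 0, .ofNat 119020652608962810138963501645824, .ofNat 133781429155720065756374434989524123648⟩)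
    (by decide +kernel)
theorem L01315 : Good (Phi V5.P V5.D 1 1) ⟨2, 2, 3, 3, 1, 0, 2, 3, 3, 0⟩ :=
  out_sound (S := T5.ds_pp) T5.ok_pp (w := 39) (j := 3) (by decide +kernel)
theorem L01316 : Good (Phi V5.P V5.D 1 1) ⟨4, 12, 3, 3, 1, 0, 2, 3, 4, 0⟩ :=
  leafX_sound T5.ok_pp T5.Ypp.bz_eq (w := 194) (c := ⟨⟨.negSucc 1705, .negSucc 218, .negSucc 576, .ofNat 226, .negSucc 168, .negSucc 728⟩, ⟨.negSucc 700, .negSucc 192, .negSucc 439, .ofNat 120, .negSucc 81, .negSucc 348⟩, ⟨.ofNat 1664, .ofNat 153, .ofNat 705, .negSucc 50, .ofNat 310, .ofNat 670⟩, ⟨.negSucc 2796, .negSucc 195, .negSucc 852, .ofNat 85, .negSucc 233, .negSucc 1003⟩, ⟨.negSucc 157, .ofNat 247, .negSucc 59, .ofNat 480, .negSucc 57, .negSucc 284⟩, .ofNat 611, .negSucc 654, .ofNat 0, .negSucc 654, .ofNat 1632, .ofNat 0, .ofNat 128, .ofNat 181, .negSucc 513, .ofNat 0, .ofNat 129, .negSucc 216, .ofNat 0, .ofNat 0, .ofNat 634,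 .ofNat 61, .ofNat 0, .ofNat 0, .ofNat 4915824408866195716026841169920, .ofNat 0, .ofNat 0, .ofNat 0, .ofNat 0, .ofNat 0, .ofNat 0, .ofNat 5970300068612172494645943736341626880, .ofNat 75172755545137658944181982199808, .ofNat 0, .ofNat 0, .ofNat 30749880699092672851969083507640107008, .ofNat 71824037389522137370399887851520, .ofNat 0⟩)
    (by decide +kernel)
theorem L01317 : Good (Phi V5.P V5.D 1 1) ⟨4, 13, 3, 3, 1, 0, 3, 6, 4, 0⟩ :=
  leafX_sound T5.ok_pp T5.Ypp.bz_eq (w := 199) (c := ⟨⟨.negSucc 2313, .negSucc 1118, .ofNat 186, .ofNat 833, .negSucc 215, .negSucc 525⟩, ⟨.negSucc 1066, .negSucc 768, .negSucc 25, .ofNat 454, .negSucc 122, .negSucc 292⟩, ⟨.ofNat 2203, .ofNat 1203, .negSucc 227, .negSucc 742, .ofNat 279, .ofNat 535⟩, ⟨.negSucc 3519, .negSucc 1675, .ofNat 416, .ofNat 1123, .negSucc 526, .negSucc 762⟩, ⟨.negSucc 23, .ofNat 384, .negSucc 234, .ofNat 347, .ofNat 270, .negSucc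 116⟩, .ofNat 650, .negSucc 688, .ofNat 0, .negSucc 688, .ofNat 1507, .ofNat 0, .ofNat 128, .ofNat 283, .negSucc 638, .ofNat 0, .ofNat 214, .negSucc 306, .ofNat 0, .ofNat 0, .ofNat 783, .ofNat 75, .ofNat 0, .ofNat 0, .ofNat 29246081478096225179892965179392, .ofNat 0, .ofNat 0, .ofNat 0, .ofNat 256125050779007434220864010190848, .ofNat 0, .ofNat 0, .ofNat 0, .ofNat 8576507950540194418382482182242304, .ofNat 0, .ofNat 0, .ofNat 0, .ofNat 12431957055203602494082086487457792, .ofNat 0⟩)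
    (by decide +kernel)
theorem L01318 : Good (Phi V5.P V5.D 1 1) ⟨4, 13, 3, 3, 2, 0, 3, 7, 4, 0⟩ :=
  leafX_sound T5.ok_pp T5.Ypp.bz_eq (w := 214) (c := ⟨⟨.negSucc 2833, .negSucc 568, .negSucc 207, .negSucc 483, .ofNat 720, .ofNat 450⟩, ⟨.negSucc 1339, .negSucc 414, .negSucc 273, .negSucc 253, .ofNat 370, .ofNat 241⟩, ⟨.ofNat 2734, .ofNat 576, .ofNat 204, .ofNat 779, .negSucc 700, .negSucc 528⟩, ⟨.negSucc 4447, .negSucc 417, .negSucc 311, .negSucc 823, .ofNat 1048, .ofNat 875⟩, ⟨.ofNat 165, .negSucc 246, .negSucc 7, .ofNat 212, .ofNat 61, .negSucc 412⟩, .ofNat 1309, .negSucc 1779, .ofNat 0, .negSucc 1779, .ofNat 3409, .ofNat 0, .ofNat 128, .ofNat 214, .negSucc 875, .ofNat 0, .ofNat 156, .negSucc 454, .ofNat 0, .ofNat 0, .ofNat 1070, .ofNat 270, .ofNat 0, .ofNat 0, .ofNat 0, .ofNat 0, .ofNat 0, .ofNat 0, .ofNat 78296765247021677008898613715299991552, .ofNat 0, .ofNat 0, .ofNat 0,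 .ofNat 100481008628649073594781315740825812992, .ofNat 0, .ofNat 0, .ofNat 0, .ofNat 295489522145591725521438818089662676992, .ofNat 0⟩)
    (by decide +kernel)
theorem L01319 : Good (Phi V5.P V5.D 1 1) ⟨5, 26, 3, 3, 2, 1, 3, 7, 4, 0⟩ :=
  leafX_sound T5.ok_pp T5.Ypp.bz_eq (w := 217) (c := ⟨⟨.negSucc 1685, .negSucc 825, .ofNat 421, .negSucc 1168, .negSucc 1359, .negSucc 953⟩, ⟨.negSucc 699, .negSucc 486, .negSucc 30, .negSucc 558, .negSucc 693, .negSucc 508⟩, ⟨.ofNat 2001, .ofNat 663, .negSucc 323, .ofNat 771, .ofNat 1369, .ofNat 735⟩, ⟨.negSucc 2619, .negSucc 1059, .ofNat 498, .negSucc 2217, .negSucc 2203, .negSucc 1273⟩, ⟨.ofNat 12, .ofNat 7, .ofNat 243, .ofNat 860, .ofNat 257, .negSucc 426⟩, .ofNat 1068, .negSucc 1424, .ofNat 0, .negSucc 1424, .ofNat 2914, .ofNat 0, .ofNat 128, .ofNat 298, .negSucc 755, .ofNat 0, .ofNat 195, .negSucc 373, .ofNat 0, .ofNat 0, .ofNat 824, .ofNat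 81, .ofNat 0, .ofNat 0, .ofNat 0, .ofNat 0, .ofNat 0, .ofNat 6575408809423452196188044311230703835545600, .ofNat 8163492692700300641628454254668677120, .ofNat 0, .ofNat 0, .ofNat 8906555714097082858513892720325507126657024, .ofNat 0, .ofNat 0, .ofNat 0, .ofNat 0, .ofNat 0, .ofNat 0⟩)
    (by decide +kernel)
theorem L01320 : Good (Phi V5.P V5.D 1 1) ⟨5, 27, 3, 3, 2, 1, 3, 7, 4, 0⟩ :=
  leafX_sound T5.ok_pp T5.Ypp.bz_eq (w := 219) (c := ⟨⟨.negSucc 3397, .negSucc 2494, .ofNat 1215, .negSucc 1415, .negSucc 1813, .negSucc 520⟩, ⟨.negSucc 1621, .negSucc 1458, .ofNat 419, .negSucc 742, .negSucc 996, .negSucc 309⟩, ⟨.ofNat 3212, .ofNat 1818, .negSucc 712, .ofNat 840, .ofNat 1805, .ofNat 391⟩, ⟨.negSucc 4935, .negSucc 4452, .ofNat 1902, .negSucc 2691, .negSucc 2972, .negSucc 749⟩, ⟨.negSucc 44, .ofNat 1847, .negSucc 365, .ofNat 1084, .ofNat 498, .negSucc 65⟩, .ofNat 1106, .negSucc 1369, .ofNat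 0, .negSucc 1369, .ofNat 2564, .ofNat 0, .ofNat 128, .ofNat 404, .negSucc 1061, .ofNat 0, .ofNat 303, .negSucc 552, .ofNat 0, .ofNat 0, .ofNat 1109, .ofNat 90, .ofNat 0, .ofNat 0, .ofNat 3374214368435857480308325928107245568, .ofNat 0, .ofNat 0, .ofNat 1149810447566644612844679139471233384448000, .ofNat 51974476461651734324926344639411126272, .ofNat 0, .ofNat 0, .ofNat 0, .ofNat 13159568490933627485877199858999230464, .ofNat 0, .ofNat 0, .ofNat 0, .ofNat 30374713013783673023396366100216152064, .ofNat 0⟩)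
    (by decide +kernel)
theorem L01321 : Good (Phi V5.P V5.D 1 1) ⟨3, 6, 3, 3, 2, 0, 2, 3, 4, 1⟩ :=
  leafX_sound T5.ok_pp T5.Ypp.bz_eq (w := 204) (c := ⟨⟨.negSucc 2304, .negSucc 653, .negSucc 95, .negSucc 297, .ofNat 548, .ofNat 5⟩, ⟨.negSucc 946, .negSucc 566, .negSucc 215, .negSucc 156, .ofNat 269, .negSucc 0⟩, ⟨.ofNat 2151, .ofNat 804, .ofNat 53, .ofNat 467, .negSucc 616, .negSucc 75⟩, ⟨.negSucc 3861, .negSucc 517, .negSucc 125, .negSucc 460, .ofNat 930, .ofNat 90⟩, ⟨.ofNat 79, .ofNat 210, .negSucc 68, .negSucc 83, .negSucc 100, .negSucc 208⟩, .ofNat 631, .negSucc 670, .ofNat 0, .negSucc 670, .ofNat 1550, .ofNat 0, .ofNat 128, .ofNat 227, .negSucc 491, .ofNat 0, .ofNat 173, .negSucc 224, .ofNat 0, .ofNat 0, .ofNat 792, .ofNat 99, .ofNat 0, .ofNat 0, .ofNat 0, .ofNat 0, .ofNat 0, .ofNat 3597378010915901886478990277319073988608, .ofNat 2366060982908413230577750013305159680, .ofNat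 0, .ofNat 0, .ofNat 13404120245131372285038784818155888836608, .ofNat 13827443231651857454540019940615782400, .ofNat 0, .ofNat 0, .ofNat 0, .ofNat 0, .ofNat 0⟩)
    (by decide +kernel)
theorem L01322 : Good (Phi V5.P V5.D 1 1) ⟨4, 12, 3, 3, 2, 1, 2, 3, 4, 1⟩ :=
  leafX_sound T5.ok_pp T5.Ypp.bz_eq (w := 210) (c := ⟨⟨.negSucc 1586, .negSucc 909, .ofNat 304, .negSucc 1251, .negSucc 1158, .negSucc 347⟩, ⟨.negSucc 596, .negSucc 571, .negSucc 54, .negSucc 576, .negSucc 542, .negSucc 171⟩, ⟨.ofNat 1686, .ofNat 807, .negSucc 250, .ofNat 816, .ofNat 1241, .ofNat 230⟩, ⟨.negSucc 2413, .negSucc 1293, .ofNat 156, .negSucc 2073, .negSucc 1985, .negSucc 602⟩, ⟨.negSucc 882, .ofNat 651, .ofNat 596, .ofNat 230, .ofNat 359, .ofNat 134⟩, .ofNat 1287, .negSucc 1974, .ofNat 0, .negSucc 1974, .ofNat 4354, .ofNat 0, .ofNat 128, .ofNat 358, .negSucc 450, .ofNat 0, .ofNat 209, .negSucc 202, .ofNat 0, .ofNat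 0, .ofNat 675, .ofNat 98, .ofNat 0, .ofNat 0, .ofNat 146539248506146974490792331478827008, .ofNat 0, .ofNat 0, .ofNat 0, .ofNat 0, .ofNat 0, .ofNat 0, .ofNat 361017478125894545850522052263620085022720, .ofNat 5574211719107974757199409337348390912, .ofNat 0, .ofNat 0, .ofNat 0, .ofNat 0, .ofNat 0⟩)
    (by decide +kernel)
theorem L01323 : Good (Phi V5.P V5.D 1 1) ⟨4, 13, 3, 3, 2, 1, 3, 6, 4, 1⟩ :=
  leafX_sound T5.ok_pp T5.Ypp.bz_eq (w := 213) (c := ⟨⟨.negSucc 2188, .negSucc 700, .negSucc 128, .negSucc 1171, .negSucc 573, .negSucc 301⟩, ⟨.negSucc 965, .negSucc 569, .negSucc 251, .negSucc 618, .negSucc 311, .negSucc 153⟩, ⟨.ofNat 2222, .ofNat 558, .ofNat 172, .ofNat 658, .ofNat 603, .ofNat 227⟩, ⟨.negSucc 3341, .negSucc 793, .negSucc 200, .negSucc 1946, .negSucc 890, .negSucc 356⟩, ⟨.negSucc 145, .ofNat 290, .negSucc 10, .ofNat 403, .ofNat 47, .negSucc 231⟩, .ofNat 1128, .negSucc 1525,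 .ofNat 0, .negSucc 1525, .ofNat 3073, .ofNat 0, .ofNat 128, .ofNat 591, .negSucc 520, .ofNat 0, .ofNat 381, .negSucc 256, .ofNat 0, .ofNat 0, .ofNat 791, .ofNat 128, .ofNat 0, .ofNat 0, .ofNat 0, .ofNat 0, .ofNat 0, .ofNat 0, .ofNat 206312879089906991413965422508080365568, .ofNat 0, .ofNat 0, .ofNat 0, .ofNat 0, .ofNat 0, .ofNat 0, .ofNat 0, .ofNat 0, .ofNat 0⟩)
    (by decide +kernel)
theorem L01324 : Good (Phi V5.P V5.D 1 1) ⟨4, 13, 3, 3, 2, 1, 4, 14, 4, 1⟩ :=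
  leafX_sound T5.ok_pp T5.Ypp.bz_eq (w := 217) (c := ⟨⟨.negSucc 2356, .negSucc 691, .negSucc 108, .negSucc 2275, .negSucc 584, .negSucc 301⟩, ⟨.negSucc 1016, .negSucc 536, .negSucc 312, .negSucc 1189, .negSucc 306, .negSucc 176⟩, ⟨.ofNat 2539, .ofNat 611, .ofNat 102, .ofNat 1597, .ofNat 530, .ofNat 114⟩, ⟨.negSucc 3599, .negSucc 580, .negSucc 171, .negSucc 3716, .negSucc 969, .negSucc 348⟩, ⟨.negSucc 162, .negSucc 117, .ofNat 50, .ofNat 578, .ofNat 157, .negSucc 217⟩, .ofNat 939, .negSucc 1146, .ofNat 0, .negSucc 1146, .ofNat 2293, .ofNat 0, .ofNat 128, .ofNat 317, .negSucc 358, .ofNat 0, .ofNat 223, .negSucc 176, .ofNat 0, .ofNat 0, .ofNat 476, .ofNat 346, .ofNat 0, .ofNat 0, .ofNat 0, .ofNat 0, .ofNat 0, .ofNat 0, .ofNat 676292413361477068934890277600506150912, .ofNat 0, .ofNat 0, .ofNat 0, .ofNat 3504306359607497185764764100826077593600, .ofNat 0, .ofNat 0, .ofNat 0, .ofNat 1539527643696434469629834980668196519936,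 .ofNat 0⟩)
    (by decide +kernel)
theorem L01325 : Good (Phi V5.P V5.D 1 1) ⟨4, 13, 3, 3, 3, 2, 4, 15, 4, 1⟩ :=
  leafX_sound T5.ok_pp T5.Ypp.bz_eq (w := 232) (c := ⟨⟨.negSucc 2568, .negSucc 1338, .negSucc 48, .negSucc 1465, .negSucc 992, .negSucc 230⟩, ⟨.negSucc 1138, .negSucc 952, .negSucc 251, .negSucc 760, .negSucc 534, .negSucc 111⟩, ⟨.ofNat 2740, .ofNat 1194, .ofNat 41, .ofNat 1185, .ofNat 890, .ofNat 1⟩, ⟨.negSucc 3898, .negSucc 1740, .negSucc 95, .negSucc 2306, .negSucc 1585, .negSucc 250⟩, ⟨.negSucc 231, .ofNat 319, .ofNat 88, .ofNat 202, .ofNat 235, .negSucc 245⟩, .ofNat 939, .negSucc 1146, .ofNat 0, .negSucc 1146, .ofNat 2293, .ofNat 0, .ofNat 128, .ofNat 349, .negSucc 692, .ofNat 0, .ofNat 251, .negSucc 346, .ofNat 0, .ofNat 0, .ofNat 846, .ofNat 336, .ofNat 0, .ofNat 0, .ofNat 0, .ofNat 0, .ofNat 0, .ofNat 22468403923595378939619551179608332519325302784, .ofNat 11512709923308412900330108961315669197979648,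 .ofNat 0, .ofNat 0, .ofNat 0, .ofNat 153188330803742353591544494168962311846363136, .ofNat 0, .ofNat 0, .ofNat 74177873170694971034142555272177819074785443840, .ofNat 37943399439887391537462636947672222570381312, .ofNat 0⟩)
    (by decide +kernel)
theorem L01326 : Good (Phi V5.P V5.D 1 1) ⟨4, 13, 3, 3, 3, 3, 4, 15, 4, 1⟩ :=
  leafX_sound T5.ok_pp T5.Ypp.bz_eq (w := 232) (c := ⟨⟨.negSucc 3264, .negSucc 1723, .negSucc 70, .negSucc 2355, .negSucc 2617, .negSucc 451⟩, ⟨.negSucc 1382, .negSucc 1375, .negSucc 347, .negSucc 1210, .negSucc 1345, .negSucc 245⟩, ⟨.ofNat 3436, .ofNat 1274, .ofNat 74, .ofNat 1503, .ofNat 2149, .ofNat 121⟩, ⟨.negSucc 5257, .negSucc 2873, .ofNat 152, .negSucc 3861, .negSucc 4155, .negSucc 214⟩, ⟨.ofNat 107, .ofNat 1479, .negSucc 305, .ofNat 738, .ofNat 591, .negSucc 897⟩, .ofNat 1272, .negSucc 1715, .ofNat 0, .negSucc 1715, .ofNat 3298, .ofNat 0, .ofNat 128, .ofNat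 288, .negSucc 543, .ofNat 0, .ofNat 194, .negSucc 272, .ofNat 0, .ofNat 0, .ofNat 579, .ofNat 100, .ofNat 0, .ofNat 1679759038724690536153248039974098987999297536, .ofNat 1917104036989001724737452249608368288694272, .ofNat 0, .ofNat 0, .ofNat 16061826409559311025830991931582247830093299712, .ofNat 23360014829713434649217761380384693282668544, .ofNat 0, .ofNat 0, .ofNat 22052551717353879681757208830587766637026344960, .ofNat 40830095070085982995224967992880517504565248, .ofNat 0, .ofNat 0, .ofNat 28117520229963197492053472183562353259713658880, .ofNat 24178190264941998257546923504687941846827008, .ofNat 0⟩)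
    (by decide +kernel)
theorem L01327 : Good (Phi V5.P V5.D 1 1) ⟨3, 7, 3, 3, 1, 0, 2, 3, 3, 0⟩ :=
  out_sound (S := T5.ds_pp) T5.ok_pp (w := 45) (j := 3) (by decide +kernel)
theorem L01328 : Good (Phi V5.P V5.D 1 1) ⟨2, 2, 3, 3, 1, 0, 2, 2, 3, 1⟩ :=
  out_sound (S := T5.ds_pp) T5.ok_pp (w := 39) (j := 3) (by decide +kernel)
theorem L01329 : Good (Phi V5.P V5.D 1 1) ⟨3, 6, 3, 3, 1, 0, 2, 2, 3, 1⟩ :=
  leafX_sound T5.ok_pp T5.Ypp.bz_eq (w := 185) (c := ⟨⟨.negSucc 2592, .negSucc 501, .negSucc 47, .negSucc 639, .negSucc 51, .ofNat 498⟩, ⟨.negSucc 1064, .negSucc 526, .negSucc 198, .negSucc 335, .negSucc 38, .ofNat 244⟩, ⟨.ofNat 2558, .ofNat 569, .negSucc 7, .ofNat 107, .ofNat 139, .negSucc 478⟩, ⟨.negSucc 4330, .negSucc 173, .negSucc 47, .negSucc 812, .negSucc 49, .ofNat 767⟩, ⟨.ofNat 107, .negSucc 86, .ofNat 53, .negSucc 350, .negSucc 75, .negSucc 53⟩, .ofNat 344, .negSucc 218, .ofNat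 0, .negSucc 218, .ofNat 652, .ofNat 0, .ofNat 208, .ofNat 122, .negSucc 167, .ofNat 0, .ofNat 128, .negSucc 54, .ofNat 0, .ofNat 0, .ofNat 448, .ofNat 409, .ofNat 0, .ofNat 0, .ofNat 232911822901335948669029974016, .ofNat 0, .ofNat 0, .ofNat 0, .ofNat 12078457914633153055953472454656, .ofNat 0, .ofNat 0, .ofNat 0, .ofNat 17673697257709737936290135932928, .ofNat 0, .ofNat 0, .ofNat 0, .ofNat 4995416462271856763863031611392, .ofNat 0⟩)
    (by decide +kernel)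
theorem L01330 : Good (Phi V5.P V5.D 1 1) ⟨3, 7, 3, 3, 1, 0, 2, 2, 3, 1⟩ :=
  out_sound (S := T5.ds_pp) T5.ok_pp (w := 45) (j := 3) (by decide +kernel)
theorem L01331 : Good (Phi V5.P V5.D 1 1) ⟨2, 2, 3, 3, 1, 0, 2, 3, 3, 1⟩ :=
  out_sound (S := T5.ds_pp) T5.ok_pp (w := 39) (j := 3) (by decide +kernel)
theorem L01332 : Good (Phi V5.P V5.D 1 1) ⟨4, 12, 3, 3, 1, 0, 3, 6, 3, 1⟩ :=
  leafX_sound T5.ok_pp T5.Ypp.bz_eq (w := 194) (c := ⟨⟨.negSucc 2278, .negSucc 52, .negSucc 203, .negSucc 1227, .negSucc 156, .ofNat 243⟩, ⟨.negSucc 933, .negSucc 160, .negSucc 252, .negSucc 588, .negSucc 77, .ofNat 112⟩, ⟨.ofNat 2207, .ofNat 101, .ofNat 185, .ofNat 1006, .ofNat 121, .negSucc 366⟩, ⟨.negSucc 3767, .ofNat 101, .negSucc 456, .negSucc 1701, .negSucc 226, .ofNat 450⟩, ⟨.negSucc 133, .ofNat 329, .ofNat 322, .negSucc 505, .negSucc 36, .negSucc 169⟩, .ofNat 1072, .negSucc 1551, .ofNat 0, .negSucc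 1551, .ofNat 3506, .ofNat 0, .ofNat 128, .ofNat 324, .negSucc 146, .ofNat 0, .ofNat 198, .negSucc 64, .ofNat 0, .ofNat 0, .ofNat 404, .ofNat 540, .ofNat 0, .ofNat 0, .ofNat 0, .ofNat 0, .ofNat 0, .ofNat 0, .ofNat 0, .ofNat 0, .ofNat 0, .ofNat 0, .ofNat 247595115314666122690762341613568, .ofNat 0, .ofNat 0, .ofNat 0, .ofNat 64573092985179407146695746650112, .ofNat 0⟩)
    (by decide +kernel)
theorem L01333 : Good (Phi V5.P V5.D 1 1) ⟨4, 12, 3, 3, 1, 0, 4, 14, 3, 1⟩ :=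
  leafX_sound T5.ok_pp T5.Ypp.bz_eq (w := 198) (c := ⟨⟨.negSucc 1725, .negSucc 459, .ofNat 238, .negSucc 2137, .negSucc 199, .ofNat 170⟩, ⟨.negSucc 678, .negSucc 342, .negSucc 67, .negSucc 1020, .negSucc 89, .ofNat 76⟩, ⟨.ofNat 1620, .ofNat 515, .negSucc 321, .ofNat 1888, .ofNat 159, .negSucc 388⟩, ⟨.negSucc 2988, .negSucc 461, .ofNat 473, .negSucc 3047, .negSucc 295, .ofNat 341⟩, ⟨.ofNat 34, .ofNat 219, .negSucc 277, .negSucc 704, .negSucc 64, .negSucc 168⟩, .ofNat 825, .negSucc 1061, .ofNat 0, .negSucc 1061, .ofNat 2481, .ofNat 0, .ofNat 128, .ofNat 241, .negSucc 170, .ofNat 0, .ofNat 157, .negSucc 74, .ofNat 0, .ofNat 0, .ofNat 375, .ofNat 263, .ofNat 0, .ofNat 0, .ofNat 0, .ofNat 0, .ofNat 0, .ofNat 0, .ofNat 0, .ofNat 0, .ofNat 0, .ofNat 0, .ofNat 2811497296301787519796185049071616, .ofNat 0, .ofNat 0, .ofNat 0, .ofNat 1613318921855034348677967390965760, .ofNat 0⟩)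
    (by decide +kernel)
theorem L01334 : Good (Phi V5.P V5.D 1 1) ⟨4, 12, 3, 3, 1, 0, 4, 15, 3, 1⟩ :=
  leafX_sound T5.ok_pp T5.Ypp.bz_eq (w := 198) (c := ⟨⟨.negSucc 1496, .negSucc 555, .ofNat 119, .negSucc 3036, .negSucc 253, .ofNat 179⟩, ⟨.negSucc 519, .negSucc 437, .negSucc 134, .negSucc 1454, .negSucc 126, .ofNat 71⟩, ⟨.ofNat 1436, .ofNat 601, .negSucc 208, .ofNat 2682, .ofNat 151, .negSucc 514⟩, ⟨.negSucc 2600, .negSucc 655, .ofNat 172, .negSucc 4607, .negSucc 361, .ofNat 493⟩, ⟨.ofNat 97, .ofNat 205, .ofNat 120, .negSucc 523, .negSucc 60, .negSucc 482⟩, .ofNat 743, .negSucc 942, .ofNat 0, .negSucc 942, .ofNat 2288, .ofNat 0, .ofNat 128, .ofNat 290, .negSucc 316, .ofNat 0, .ofNat 178, .negSucc 136, .ofNat 0, .ofNat 0, .ofNat 566, .ofNat 159, .ofNat 0, .ofNat 14243013234119684018865867924806041600, .ofNat 96820415691874539870549299953664, .ofNat 0, .ofNat 0, .ofNat 153624620379803260413403616864572014592,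 .ofNat 0, .ofNat 0, .ofNat 0, .ofNat 368828847715124444820285330714917863424, .ofNat 1547445498712677684056623425781760, .ofNat 0, .ofNat 0, .ofNat 546462366863384834567200364699249016832, .ofNat 795734136897327252582975057952768, .ofNat 0⟩)
    (by decide +kernel)
theorem L01335 : Good (Phi V5.P V5.D 1 1) ⟨4, 13, 3, 3, 1, 0, 3, 6, 3, 1⟩ :=
  leafX_sound T5.ok_pp T5.Ypp.bz_eq (w := 193) (c := ⟨⟨.negSucc 2407, .negSucc 330, .ofNat 22, .negSucc 1268, .negSucc 339, .ofNat 277⟩, ⟨.negSucc 1101, .negSucc 333, .negSucc 144, .negSucc 698, .negSucc 187, .ofNat 145⟩, ⟨.ofNat 2392, .ofNat 300, .negSucc 40, .ofNat 972, .ofNat 257, .negSucc 387⟩, ⟨.negSucc 3859, .negSucc 100, .negSucc 6, .negSucc 1711, .negSucc 391, .ofNat 560⟩, ⟨.ofNat 264, .negSucc 286, .ofNat 139, .negSucc 388, .negSucc 225, .negSucc 282⟩, .ofNat 655, .negSucc 696, .ofNat 0, .negSucc 696, .ofNat 1521, .ofNat 0, .ofNat 128,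 .ofNat 241, .negSucc 148, .ofNat 0, .ofNat 183, .negSucc 69, .ofNat 0, .ofNat 0, .ofNat 373, .ofNat 254, .ofNat 0, .ofNat 0, .ofNat 3274676271009287509973739241472, .ofNat 0, .ofNat 0, .ofNat 0, .ofNat 24073234719467374211086187233280, .ofNat 0, .ofNat 0, .ofNat 0, .ofNat 0, .ofNat 0, .ofNat 0, .ofNat 0, .ofNat 0, .ofNat 0⟩)
    (by decide +kernel)
theorem L01336 : Good (Phi V5.P V5.D 1 1) ⟨4, 13, 3, 3, 2, 0, 3, 7, 4, 2⟩ :=
  leafX_sound T5.ok_pp T5.Ypp.bz_eq (w := 212) (c := ⟨⟨.negSucc 2139, .negSucc 282, .negSucc 97, .negSucc 937, .ofNat 6, .ofNat 83⟩, ⟨.negSucc 968, .negSucc 273, .negSucc 211, .negSucc 506, .negSucc 4, .ofNat 37⟩, ⟨.ofNat 2012, .ofNat 285, .ofNat 84, .ofNat 1025, .negSucc 143, .negSucc 203⟩, ⟨.negSucc 3298, .negSucc 121, .negSucc 157, .negSucc 1343, .ofNat 33, .ofNat 114⟩, ⟨.negSucc 27, .negSucc 49, .ofNat 79, .negSucc 237, .negSucc 18, .ofNat 19⟩, .ofNat 647,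 .negSucc 685, .ofNat 0, .negSucc 685, .ofNat 1510, .ofNat 0, .ofNat 128, .ofNat 187, .negSucc 326, .ofNat 0, .ofNat 145, .negSucc 156, .ofNat 0, .ofNat 0, .ofNat 589, .ofNat 293, .ofNat 0, .ofNat 0, .ofNat 0, .ofNat 0, .ofNat 0, .ofNat 0, .ofNat 67232441743432205911884027890570887168, .ofNat 0, .ofNat 0, .ofNat 1830459442759996901890665329324228907892736, .ofNat 90825886697425121784151507624366440448, .ofNat 0, .ofNat 0, .ofNat 3133291310335002126416672264351294414651392, .ofNat 26073979825799359478089607811170304000, .ofNat 0⟩)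
    (by decide +kernel)
theorem L01337 : Good (Phi V5.P V5.D 1 1) ⟨4, 13, 3, 3, 2, 1, 4, 14, 4, 2⟩ :=
  leafX_sound T5.ok_pp T5.Ypp.bz_eq (w := 217) (c := ⟨⟨.negSucc 2660, .negSucc 726, .negSucc 32, .negSucc 2099, .negSucc 712, .ofNat 95⟩, ⟨.negSucc 1155, .negSucc 591, .negSucc 264, .negSucc 1115, .negSucc 387, .ofNat 21⟩, ⟨.ofNat 2751, .ofNat 622, .negSucc 9, .ofNat 1435, .ofNat 574, .negSucc 261⟩, ⟨.negSucc 4087, .negSucc 632, .negSucc 42, .negSucc 3089, .negSucc 1096, .ofNat 246⟩, ⟨.negSucc 217, .negSucc 14, .ofNat 66, .negSucc 113, .ofNat 75, .negSucc 163⟩, .ofNat 939, .negSucc 1146, .ofNat 0, .negSucc 1146, .ofNat 2293, .ofNat 0, .ofNat 128, .ofNat 224, .negSucc 210, .ofNat 0, .ofNat 158, .negSucc 102, .ofNat 0, .ofNat 0, .ofNat 363, .ofNat 347, .ofNat 0, .ofNat 0, .ofNat 0, .ofNat 0, .ofNat 0, .ofNat 0, .ofNat 634517342599193257393202913920910622720, .ofNat 0, .ofNat 0, .ofNat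 0, .ofNat 1571514509115130209310776664070002049024, .ofNat 0, .ofNat 0, .ofNat 0, .ofNat 1102766376830035850375223221791597002752, .ofNat 0⟩)
    (by decide +kernel)
theorem L01338 : Good (Phi V5.P V5.D 1 1) ⟨4, 13, 3, 3, 2, 1, 4, 15, 4, 2⟩ :=
  leafX_sound T5.ok_pp T5.Ypp.bz_eq (w := 218) (c := ⟨⟨.negSucc 2915, .negSucc 1206, .ofNat 69, .negSucc 2985, .negSucc 1428, .ofNat 284⟩, ⟨.negSucc 1282, .negSucc 897, .negSucc 251, .negSucc 1556, .negSucc 735, .ofNat 146⟩, ⟨.ofNat 2954, .ofNat 1012, .negSucc 66, .ofNat 2070, .ofNat 1243, .negSucc 452⟩, ⟨.negSucc 4632, .negSucc 1612, .ofNat 237, .negSucc 4350, .negSucc 2070, .ofNat 675⟩, ⟨.ofNat 27, .ofNat 574, .negSucc 143, .negSucc 221, .negSucc 55, .negSucc 492⟩, .ofNat 1161, .negSucc 1523, .ofNat 0, .negSucc 1523, .ofNat 2959, .ofNat 0, .ofNat 128, .ofNat 264, .negSucc 321, .ofNat 0, .ofNat 182, .negSucc 160, .ofNat 0, .ofNat 0, .ofNat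 454, .ofNat 165, .ofNat 0, .ofNat 550479377341988520741464467035377503305728, .ofNat 102459077612492801679077436757764997120, .ofNat 0, .ofNat 0, .ofNat 6977511609697387097487717596419408177135616, .ofNat 943937572323690293594631998631395196928, .ofNat 0, .ofNat 0, .ofNat 12598800596147576021938952702036614605438976, .ofNat 1387233803505236550617410251008799408128, .ofNat 0, .ofNat 0, .ofNat 8795192014207065736129082184023765071953920, .ofNat 476799194257010523621272145678254997504, .ofNat 0⟩)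
    (by decide +kernel)
theorem L01339 : Good (Phi V5.P V5.D 1 1) ⟨4, 13, 3, 3, 1, 0, 4, 14, 4, 3⟩ :=
  leafX_sound T5.ok_pp T5.Ypp.bz_eq (w := 203) (c := ⟨⟨.negSucc 1770, .negSucc 398, .negSucc 120, .negSucc 2659, .negSucc 448, .ofNat 248⟩, ⟨.negSucc 713, .negSucc 425, .negSucc 248, .negSucc 1446, .negSucc 251, .ofNat 107⟩, ⟨.ofNat 1836, .ofNat 338, .ofNat 29, .ofNat 2037, .ofNat 289, .negSucc 416⟩, ⟨.negSucc 2923, .negSucc 14, .negSucc 198, .negSucc 3554, .negSucc 643, .ofNat 435⟩, ⟨.ofNat 157, .negSucc 346, .ofNat 86, .negSucc 859, .negSucc 19, .negSucc 41⟩, .ofNat 645, .negSucc 681, .ofNat 0, .negSucc 681, .ofNat 1508, .ofNat 0, .ofNat 128, .ofNat 161, .negSucc 128, .ofNat 0, .ofNat 123, .negSucc 60, .ofNat 0, .ofNat 0, .ofNat 314, .ofNat 320, .ofNat 0, .ofNat 0, .ofNat 4400531314342065840187491303292928, .ofNat 0, .ofNat 0, .ofNat 0, .ofNat 0, .ofNat 0, .ofNat 0, .ofNat 0, .ofNat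 81202136677111178663441483211735040, .ofNat 0, .ofNat 0, .ofNat 0, .ofNat 0, .ofNat 0⟩)
    (by decide +kernel)
theorem L01340 : Good (Phi V5.P V5.D 1 1) ⟨4, 13, 3, 3, 1, 0, 4, 15, 4, 3⟩ :=
  leafX_sound T5.ok_pp T5.Ypp.bz_eq (w := 203) (c := ⟨⟨.negSucc 1771, .negSucc 506, .negSucc 76, .negSucc 3550, .negSucc 416, .ofNat 369⟩, ⟨.negSucc 729, .negSucc 455, .negSucc 256, .negSucc 1900, .negSucc 234, .ofNat 191⟩, ⟨.ofNat 1573, .ofNat 593, .ofNat 36, .ofNat 2919, .ofNat 373, .negSucc 473⟩, ⟨.negSucc 2839, .negSucc 462, .negSucc 35, .negSucc 4943, .negSucc 623, .ofNat 635⟩, ⟨.ofNat 31, .ofNat 96, .negSucc 19, .negSucc 786, .ofNat 86, .negSucc 170⟩, .ofNat 648, .negSucc 687, .ofNat 0, .negSucc 687, .ofNat 1516, .ofNat 0, .ofNat 128, .ofNat 207, .negSucc 312, .ofNat 0, .ofNat 158, .negSucc 148, .ofNat 0, .ofNat 0, .ofNat 611, .ofNat 250, .ofNat 0, .ofNat 217139752579147379132480387758143045632,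 .ofNat 5925629198908965799088683810291712, .ofNat 0, .ofNat 0, .ofNat 2548014845103102192480786554946366472192, .ofNat 107730782397341653238265770114285568, .ofNat 0, .ofNat 0, .ofNat 3873641530834266012653354703619291611136, .ofNat 105455977861676387746218546288394240, .ofNat 0, .ofNat 0, .ofNat 0, .ofNat 0, .ofNat 0⟩)
    (by decide +kernel)
theorem L01341 : Good (Phi V5.P V5.D 1 1) ⟨3, 7, 3, 3, 1, 0, 2, 3, 3, 1⟩ :=
  out_sound (S := T5.ds_pp) T5.ok_pp (w := 45) (j := 3) (by decide +kernel)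
theorem L01342 : Good (Phi V5.P V5.D 1 1) ⟨3, 4, 2, 1, 1, 0, 2, 2, 3, 2⟩ :=
  out_sound (S := T5.ds_pp) T5.ok_pp (w := 43) (j := 3) (by decide +kernel)
theorem L01343 : Good (Phi V5.P V5.D 1 1) ⟨3, 5, 2, 1, 1, 0, 2, 2, 3, 2⟩ :=
  leafX_sound T5.ok_pp T5.Ypp.bz_eq (w := 183) (c := ⟨⟨.negSucc 1862, .negSucc 312, .ofNat 35, .negSucc 310, .negSucc 34, .ofNat 231⟩, ⟨.negSucc 461, .negSucc 315, .negSucc 253, .negSucc 109, .negSucc 10, .ofNat 75⟩, ⟨.ofNat 1952, .ofNat 272, .negSucc 173, .ofNat 20, .negSucc 70, .negSucc 272⟩, ⟨.negSucc 3641, .ofNat 7, .ofNat 38, .negSucc 408, .negSucc 33, .ofNat 425⟩, ⟨.ofNat 37, .ofNat 29, .ofNat 29, .negSucc 406, .negSucc 79, .negSucc 53⟩, .ofNat 355, .negSucc 225, .ofNat 0, .negSucc 225, .ofNat 904, .ofNat 0, .ofNat 205, .ofNat 128, .negSucc 89, .ofNat 0, .ofNat 124, .negSucc 22, .ofNat 0, .ofNat 0, .ofNat 523, .ofNat 1154, .ofNat 97309232888167960581184486564167680,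 .ofNat 0, .ofNat 157405401313886806828298272768, .ofNat 0, .ofNat 0, .ofNat 0, .ofNat 0, .ofNat 0, .ofNat 0, .ofNat 0, .ofNat 10245295740032757922289449697280, .ofNat 0, .ofNat 0, .ofNat 0, .ofNat 0, .ofNat 0⟩)
    (by decide +kernel)
theorem L01344 : Good (Phi V5.P V5.D 1 1) ⟨3, 6, 2, 1, 2, 0, 2, 2, 3, 2⟩ :=
  leafX_sound T5.ok_pp T5.Ypp.bz_eq (w := 198) (c := ⟨⟨.negSucc 2263, .negSucc 348, .negSucc 28, .negSucc 133, .ofNat 16, .ofNat 330⟩, ⟨.negSucc 819, .negSucc 360, .negSucc 311, .negSucc 66, .ofNat 6, .ofNat 161⟩, ⟨.ofNat 2351, .ofNat 326, .negSucc 1, .negSucc 38, .negSucc 182, .negSucc 390⟩, ⟨.negSucc 3760, .negSucc 42, .negSucc 25, .negSucc 135, .ofNat 43, .ofNat 521⟩, ⟨.ofNat 14, .ofNat 16, .ofNat 11, .negSucc 166, .negSucc 37, .negSucc 22⟩, .ofNat 336, .negSucc 200, .ofNat 0, .negSucc 200, .ofNat 646, .ofNat 0, .ofNat 152, .ofNat 109, .negSucc 78, .ofNat 0, .ofNat 128, .negSucc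 26, .ofNat 0, .ofNat 0, .ofNat 411, .ofNat 1998, .ofNat 449178067370167154980469354976132464640, .ofNat 0, .ofNat 996006638672952557618951733903360, .ofNat 0, .ofNat 0, .ofNat 0, .ofNat 77587491898736584213046628391583744, .ofNat 0, .ofNat 0, .ofNat 0, .ofNat 814425758788940300092006512914857984, .ofNat 0, .ofNat 0, .ofNat 0, .ofNat 0, .ofNat 0⟩)
    (by decide +kernel)
theorem L01345 : Good (Phi V5.P V5.D 1 1) ⟨3, 6, 2, 1, 2, 1, 2, 2, 3, 2⟩ :=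
  leafX_sound T5.ok_pp T5.Ypp.bz_eq (w := 197) (c := ⟨⟨.negSucc 2354, .negSucc 438, .negSucc 7, .negSucc 259, .negSucc 226, .ofNat 333⟩, ⟨.negSucc 843, .negSucc 483, .negSucc 286, .negSucc 123, .negSucc 107, .ofNat 147⟩, ⟨.ofNat 2255, .ofNat 285, .negSucc 36, .negSucc 33, .ofNat 228, .negSucc 364⟩, ⟨.negSucc 3897, .negSucc 99, .ofNat 38, .negSucc 310, .negSucc 292, .ofNat 575⟩, ⟨.negSucc 90, .ofNat 25, .negSucc 4, .negSucc 244, .negSucc 138, .negSucc 103⟩, .ofNat 334, .negSucc 198, .ofNat 0, .negSucc 198, .ofNat 623, .ofNat 0, .ofNat 128, .ofNat 127, .negSucc 57, .ofNat 0, .ofNat 143, .negSucc 16, .ofNat 0, .ofNat 0, .ofNat 302, .ofNat 842, .ofNat 0, .ofNat 0, .ofNat 946847936012123326326733440811008, .ofNat 0, .ofNat 0, .ofNat 0, .ofNat 21372586149139419597460962172469248, .ofNat 0, .ofNat 0, .ofNat 0, .ofNat 363117838779429450548438496232603648, .ofNat 0, .ofNat 0, .ofNat 0, .ofNat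 0, .ofNat 0⟩)
    (by decide +kernel)
theorem L01346 : Good (Phi V5.P V5.D 1 1) ⟨3, 7, 2, 1, 1, 0, 2, 2, 3, 2⟩ :=
  out_sound (S := T5.ds_pp) T5.ok_pp (w := 43) (j := 3) (by decide +kernel)
theorem L01347 : Good (Phi V5.P V5.D 1 1) ⟨3, 4, 2, 1, 1, 0, 2, 3, 3, 2⟩ :=
  out_sound (S := T5.ds_pp) T5.ok_pp (w := 43) (j := 3) (by decide +kernel)
theorem L01348 : Good (Phi V5.P V5.D 1 1) ⟨3, 5, 2, 1, 1, 0, 2, 3, 3, 2⟩ :=
  leafX_sound T5.ok_pp T5.Ypp.bz_eq (w := 182) (c := ⟨⟨.negSucc 1527, .negSucc 456, .ofNat 48, .negSucc 857, .negSucc 333, .ofNat 156⟩, ⟨.negSucc 337, .negSucc 368, .negSucc 282, .negSucc 310, .negSucc 116, .ofNat 49⟩, ⟨.ofNat 1439, .ofNat 448, .negSucc 247, .ofNat 778, .ofNat 9, .negSucc 345⟩, ⟨.negSucc 3082, .negSucc 218, .ofNat 130, .negSucc 1261, .negSucc 524, .ofNat 280⟩, ⟨.ofNat 62, .negSucc 30, .ofNat 93, .negSucc 631, .negSucc 127, .negSucc 24⟩, .ofNat 532, .negSucc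 535, .ofNat 0, .negSucc 535, .ofNat 1844, .ofNat 0, .ofNat 128, .ofNat 137, .negSucc 65, .ofNat 0, .ofNat 97, .negSucc 20, .ofNat 0, .ofNat 0, .ofNat 334, .ofNat 316, .ofNat 0, .ofNat 760231011217882409097173898625024, .ofNat 821428274525208136641622835200, .ofNat 0, .ofNat 0, .ofNat 82722242074415678888561862743425024, .ofNat 0, .ofNat 0, .ofNat 0, .ofNat 148191932026836190397190956384256000, .ofNat 4639671952494869835700462682112, .ofNat 0, .ofNat 0, .ofNat 0, .ofNat 0, .ofNat 0⟩)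
    (by decide +kernel)
theorem L01349 : Good (Phi V5.P V5.D 1 1) ⟨3, 6, 2, 1, 1, 0, 3, 6, 3, 2⟩ :=
  leafX_sound T5.ok_pp T5.Ypp.bz_eq (w := 187) (c := ⟨⟨.negSucc 1917, .negSucc 633, .negSucc 13, .negSucc 1113, .negSucc 274, .ofNat 345⟩, ⟨.negSucc 597, .negSucc 575, .negSucc 350, .negSucc 581, .negSucc 141, .ofNat 177⟩, ⟨.ofNat 1980, .ofNat 619, .negSucc 135, .ofNat 714, .ofNat 132, .negSucc 609⟩, ⟨.negSucc 3363, .negSucc 366, .ofNat 77, .negSucc 1373, .negSucc 363, .ofNat 585⟩, ⟨.ofNat 192, .negSucc 50, .ofNat 20, .negSucc 760, .negSucc 106, .negSucc 164⟩, .ofNat 334, .negSucc 198, .ofNat 0, .negSucc 198, .ofNat 623, .ofNat 0, .ofNat 137, .ofNat 110, .negSucc 74, .ofNat 0, .ofNat 128, .negSucc 26, .ofNat 0, .ofNat 0, .ofNat 302, .ofNat 515, .ofNat 0, .ofNat 0, .ofNat 7772945370198170528541503913984, .ofNat 0, .ofNat 0, .ofNat 0, .ofNat 0, .ofNat 0, .ofNat 0, .ofNat 0, .ofNat 249418414224119681961937961222144,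 .ofNat 0, .ofNat 0, .ofNat 0, .ofNat 14460429253963344282573263077376, .ofNat 0⟩)
    (by decide +kernel)
theorem L01350 : Good (Phi V5.P V5.D 1 1) ⟨3, 6, 2, 1, 1, 0, 4, 14, 3, 2⟩ :=
  leafX_sound T5.ok_pp T5.Ypp.bz_eq (w := 190) (c := ⟨⟨.negSucc 1730, .negSucc 688, .negSucc 83, .negSucc 1791, .negSucc 303, .ofNat 254⟩, ⟨.negSucc 487, .negSucc 654, .negSucc 363, .negSucc 914, .negSucc 173, .ofNat 121⟩, ⟨.ofNat 1615, .ofNat 613, .negSucc 18, .ofNat 1342, .ofNat 211, .negSucc 505⟩, ⟨.negSucc 3056, .negSucc 339, .negSucc 74, .negSucc 2350, .negSucc 403, .ofNat 407⟩, ⟨.ofNat 95, .negSucc 124, .ofNat 74, .negSucc 948, .negSucc 61, .negSucc 49⟩, .ofNat 334, .negSucc 198, .ofNat 0, .negSucc 198, .ofNat 623, .ofNat 0, .ofNat 145, .ofNat 110, .negSucc 121, .ofNat 0, .ofNat 128, .negSucc 47, .ofNat 0, .ofNat 0, .ofNat 387, .ofNat 407, .ofNat 0, .ofNat 126341535462184689603997118320607232, .ofNat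 62699574013138094696828363603968, .ofNat 0, .ofNat 0, .ofNat 884921732074655773082328281565364224, .ofNat 227479155698830182074147533750272, .ofNat 0, .ofNat 0, .ofNat 1209217648112948246483590179691954176, .ofNat 3443267704240052253019091020808192, .ofNat 0, .ofNat 0, .ofNat 1335391601303019282672191098494910464, .ofNat 309273210382986103296000828375040, .ofNat 0⟩)
    (by decide +kernel)

end Crest.Agent.R097C5.N5pp
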