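import Crest.Agent.R097.KP7
import Crest.Agent.R097.T5Ypp

/-!
# Row 97, box cover in dimension n = 5 (generated)
-/

set_option autoImplicit false
set_option Elab.async false
set_option maxHeartbeats 0
set_option maxRecDepth 100000

open Crest.Agent.R097 Crest.Agent.R097.KA


namespace Crest.Agent.R097C5.N5pp

theorem L01351 : Good (Phi V5.P V5.D 1 1) ⟨3, 6, 2, 1, 1, 0, 4, 15, 3, 2⟩ :=
  leafX_sound T5.ok_pp T5.Ypp.bz_eq (w := 190) (c := ⟨⟨.negSucc 1634, .negSucc 851, .negSucc 43, .negSucc 2575, .negSucc 250, .ofNat 220⟩, ⟨.negSucc 421, .negSucc 803, .negSucc 333, .negSucc 1330, .negSucc 118, .ofNat 123⟩, ⟨.ofNat 1394, .ofNat 864, .negSucc 122, .ofNat 2136, .ofNat 133, .negSucc 434⟩, ⟨.negSucc 2893, .negSucc 621, .ofNat 63, .negSucc 3539, .negSucc 366, .ofNat 301⟩, ⟨.ofNat 53, .ofNat 95, .negSucc 176, .negSucc 901, .ofNat 12, .negSucc 18⟩, .ofNat 334, .negSucc 196, .ofNat 0,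 .negSucc 196, .ofNat 642, .ofNat 0, .ofNat 140, .ofNat 109, .negSucc 160, .ofNat 0, .ofNat 128, .negSucc 59, .ofNat 0, .ofNat 0, .ofNat 415, .ofNat 304, .ofNat 0, .ofNat 243682430461132316862216615143407616, .ofNat 245431091702371277610029531791360, .ofNat 0, .ofNat 0, .ofNat 2088364210948257568849571944171831296, .ofNat 435197835392852838931892835188736, .ofNat 0, .ofNat 0, .ofNat 2232683979693257087591886852414504960, .ofNat 2555707841817967240495215593652224, .ofNat 0, .ofNat 0, .ofNat 2892043141804948525147257227830099968, .ofNat 0, .ofNat 0⟩)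
    (by decide +kernel)
theorem L01352 : Good (Phi V5.P V5.D 1 1) ⟨3, 7, 2, 1, 1, 0, 2, 3, 3, 2⟩ :=
  out_sound (S := T5.ds_pp) T5.ok_pp (w := 43) (j := 3) (by decide +kernel)
theorem L01353 : Good (Phi V5.P V5.D 1 1) ⟨2, 2, 2, 1, 1, 0, 2, 2, 4, 6⟩ :=
  leafX_sound T5.ok_pp T5.Ypp.bz_eq (w := 185) (c := ⟨⟨.negSucc 1250, .negSucc 550, .negSucc 90, .negSucc 448, .negSucc 131, .ofNat 124⟩, ⟨.negSucc 56, .negSucc 585, .negSucc 284, .negSucc 169, .negSucc 48, .ofNat 43⟩, ⟨.ofNat 1527, .ofNat 261, .ofNat 82, .ofNat 164, .negSucc 56, .negSucc 214⟩, ⟨.negSucc 3094, .ofNat 81, .negSucc 108, .negSucc 594, .negSucc 192, .ofNat 209⟩, ⟨.ofNat 56, .ofNat 15, .negSucc 94, .negSucc 483, .negSucc 71, .negSucc 2⟩, .ofNat 536, .negSucc 545, .ofNat 0, .negSucc 545, .ofNat 1867, .ofNat 0, .ofNat 128, .ofNat 180, .negSucc 37, .ofNat 0, .ofNat 128, .negSucc 11, .ofNat 0, .ofNat 0, .ofNat 379, .ofNat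 2062, .ofNat 289390891493669133710658144638599168, .ofNat 0, .ofNat 154443863197183135335507455639552, .ofNat 0, .ofNat 0, .ofNat 0, .ofNat 835525288956116173032761054986240, .ofNat 0, .ofNat 0, .ofNat 0, .ofNat 0, .ofNat 0, .ofNat 0, .ofNat 5832202545364352769619847561609216, .ofNat 1904383208429925104649146741030912, .ofNat 0⟩)
    (by decide +kernel)
theorem L01354 : Good (Phi V5.P V5.D 1 1) ⟨3, 6, 2, 1, 1, 0, 2, 2, 4, 6⟩ :=
  leafX_sound T5.ok_pp T5.Ypp.bz_eq (w := 189) (c := ⟨⟨.negSucc 1844, .negSucc 307, .negSucc 32, .negSucc 473, .negSucc 165, .ofNat 160⟩, ⟨.negSucc 633, .negSucc 365, .negSucc 284, .negSucc 229, .negSucc 77, .ofNat 81⟩, ⟨.ofNat 1870, .ofNat 309, .negSucc 71, .ofNat 69, .negSucc 0, .negSucc 230⟩, ⟨.negSucc 3110, .ofNat 19, .negSucc 14, .negSucc 543, .negSucc 218, .ofNat 231⟩, ⟨.ofNat 28, .ofNat 33, .negSucc 8, .negSucc 470, .negSucc 64, .ofNat 0⟩, .ofNat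 337, .negSucc 203, .ofNat 0, .negSucc 203, .ofNat 647, .ofNat 0, .ofNat 128, .ofNat 120, .negSucc 47, .ofNat 0, .ofNat 140, .negSucc 18, .ofNat 0, .ofNat 0, .ofNat 376, .ofNat 1661, .ofNat 2484105303355708994723702381295435776, .ofNat 0, .ofNat 16243337761892795298255825010688, .ofNat 0, .ofNat 0, .ofNat 0, .ofNat 221019830121843633857128021622784, .ofNat 0, .ofNat 0, .ofNat 0, .ofNat 1605469290317615726827744312426496, .ofNat 0, .ofNat 4984327447456576727568834621710794752, .ofNat 0, .ofNat 264468238075508575683061747810304, .ofNat 0⟩)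
    (by decide +kernel)
theorem L01355 : Good (Phi V5.P V5.D 1 1) ⟨3, 7, 2, 1, 1, 0, 2, 2, 4, 6⟩ :=
  out_sound (S := T5.ds_pp) T5.ok_pp (w := 43) (j := 3) (by decide +kernel)
theorem L01356 : Good (Phi V5.P V5.D 1 1) ⟨2, 2, 2, 1, 1, 0, 2, 2, 4, 7⟩ :=
  leafX_sound T5.ok_pp T5.Ypp.bz_eq (w := 185) (c := ⟨⟨.negSucc 626, .negSucc 797, .negSucc 23, .negSucc 619, .negSucc 382, .ofNat 117⟩, ⟨.ofNat 206, .negSucc 717, .negSucc 268, .negSucc 233, .negSucc 135, .ofNat 41⟩, ⟨.ofNat 777, .ofNat 793, .negSucc 274, .ofNat 292, .ofNat 0, .negSucc 328⟩, ⟨.negSucc 2200, .negSucc 209, .ofNat 19, .negSucc 831, .negSucc 601, .ofNat 190⟩, ⟨.ofNat 257, .negSucc 64, .negSucc 32, .negSucc 637, .negSucc 127, .ofNat 17⟩, .ofNat 533, .negSucc 537, .ofNat 0, .negSucc 537, .ofNat 1843, .ofNat 0, .ofNat 128, .ofNat 140, .negSucc 39, .ofNat 0, .ofNat 101, .negSucc 15, .ofNat 0, .ofNat 0, .ofNat 596, .ofNat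 3160, .ofNat 767306549047426468533690956599263232, .ofNat 0, .ofNat 1545176381974975434035153231413248, .ofNat 0, .ofNat 2963085383690462730299350272471728128, .ofNat 0, .ofNat 3665163238770625702284375040720896, .ofNat 0, .ofNat 2712518536268476008286625368471764992, .ofNat 0, .ofNat 38892369351500157510098690240413696, .ofNat 0, .ofNat 4370006137754188158442979084403212288, .ofNat 60763307004221962603201761164394496, .ofNat 412767986668448873256950924574720, .ofNat 0⟩)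
    (by decide +kernel)
theorem L01357 : Good (Phi V5.P V5.D 1 1) ⟨2, 3, 2, 1, 1, 0, 2, 2, 4, 7⟩ :=
  leafX_sound T5.ok_pp T5.Ypp.bz_eq (w := 185) (c := ⟨⟨.negSucc 1202, .negSucc 940, .ofNat 8, .negSucc 782, .negSucc 519, .ofNat 141⟩, ⟨.negSucc 277, .negSucc 953, .negSucc 254, .negSucc 408, .negSucc 276, .ofNat 69⟩, ⟨.ofNat 1477, .ofNat 905, .negSucc 260, .ofNat 209, .ofNat 140, .negSucc 311⟩, ⟨.negSucc 2325, .negSucc 272, .ofNat 51, .negSucc 866, .negSucc 671, .ofNat 188⟩, ⟨.ofNat 346, .negSucc 139, .ofNat 26, .negSucc 764, .negSucc 219, .ofNat 37⟩, .ofNat 334, .negSucc 197, .ofNat 0, .negSucc 197, .ofNat 649, .ofNat 0, .ofNat 139, .ofNat 108, .negSucc 64, .ofNat 0, .ofNat 128, .negSucc 35, .ofNat 0, .ofNat 0, .ofNat 776, .ofNat 2136, .ofNat 753667697720653183665116519136755712, .ofNat 0, .ofNat 124996428408809422466668778487808, .ofNat 0, .ofNat 1679810275878441924731482560658407424,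 .ofNat 0, .ofNat 382296231910660186634484080181248, .ofNat 0, .ofNat 2591010682633237765752129467493384192, .ofNat 0, .ofNat 5032608621648109186379408555900928, .ofNat 0, .ofNat 0, .ofNat 0, .ofNat 0, .ofNat 0⟩)
    (by decide +kernel)
theorem L01358 : Good (Phi V5.P V5.D 1 1) ⟨2, 2, 2, 1, 1, 0, 3, 6, 3, 3⟩ :=
  leafX_sound T5.ok_pp T5.Ypp.bz_eq (w := 182) (c := ⟨⟨.negSucc 1123, .negSucc 705, .ofNat 27, .negSucc 764, .negSucc 142, .ofNat 169⟩, ⟨.negSucc 13, .negSucc 641, .negSucc 250, .negSucc 276, .negSucc 47, .ofNat 50⟩, ⟨.ofNat 904, .ofNat 699, .negSucc 186, .ofNat 525, .negSucc 14, .negSucc 386⟩, ⟨.negSucc 2879, .negSucc 146, .ofNat 59, .negSucc 1109, .negSucc 242, .ofNat 292⟩, ⟨.negSucc 7, .ofNat 13, .negSucc 44, .negSucc 587, .negSucc 6, .ofNat 25⟩, .ofNat 534, .negSucc 538, .ofNat 0, .negSucc 538, .ofNat 1827, .ofNat 0, .ofNat 128, .ofNat 151, .negSucc 57, .ofNat 0,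 .ofNat 109, .negSucc 19, .ofNat 0, .ofNat 0, .ofNat 450, .ofNat 461, .ofNat 30444258097877761587266997069021184, .ofNat 0, .ofNat 66443032603315623188207849439232, .ofNat 0, .ofNat 0, .ofNat 0, .ofNat 0, .ofNat 0, .ofNat 0, .ofNat 0, .ofNat 0, .ofNat 0, .ofNat 455117590749101572263334208090406912, .ofNat 48082096636437810868575358809014272, .ofNat 733785971571419852486339561783296, .ofNat 0⟩)
    (by decide +kernel)
theorem L01359 : Good (Phi V5.P V5.D 1 1) ⟨3, 6, 2, 1, 2, 0, 3, 6, 3, 3⟩ :=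
  leafX_sound T5.ok_pp T5.Ypp.bz_eq (w := 202) (c := ⟨⟨.negSucc 1795, .negSucc 371, .negSucc 28, .negSucc 443, .negSucc 129, .ofNat 132⟩, ⟨.negSucc 612, .negSucc 382, .negSucc 286, .negSucc 214, .negSucc 60, .ofNat 67⟩, ⟨.ofNat 1577, .ofNat 356, .negSucc 36, .ofNat 290, .negSucc 44, .negSucc 287⟩, ⟨.negSucc 3015, .negSucc 91, .ofNat 0, .negSucc 588, .negSucc 191, .ofNat 188⟩, ⟨.negSucc 1, .ofNat 7, .negSucc 31, .negSucc 229, .negSucc 3, .ofNat 17⟩, .ofNat 337, .negSucc 204, .ofNat 0, .negSucc 204, .ofNat 646, .ofNat 0, .ofNat 129, .ofNat 110, .negSucc 45, .ofNat 0, .ofNat 128, .negSucc 18, .ofNat 0, .ofNat 0, .ofNat 259, .ofNat 2089, .ofNat 14207829466483894215331203786835759202304, .ofNat 0, .ofNat 910847129073277082617729069816479744, .ofNat 0, .ofNat 0, .ofNat 0, .ofNat 0, .ofNat 0, .ofNat 0, .ofNat 0, .ofNat 17916663914627134676896034966846046208, .ofNat 0, .ofNat 13046860442269907923373467495300583129088,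 .ofNat 0, .ofNat 2285495385694627234469038645026226176, .ofNat 0⟩)
    (by decide +kernel)
theorem L01360 : Good (Phi V5.P V5.D 1 1) ⟨3, 6, 2, 1, 2, 1, 3, 6, 3, 3⟩ :=
  leafX_sound T5.ok_pp T5.Ypp.bz_eq (w := 202) (c := ⟨⟨.negSucc 2099, .negSucc 508, .negSucc 65, .negSucc 506, .negSucc 416, .ofNat 210⟩, ⟨.negSucc 708, .negSucc 520, .negSucc 325, .negSucc 260, .negSucc 214, .ofNat 90⟩, ⟨.ofNat 1929, .ofNat 514, .negSucc 216, .ofNat 133, .ofNat 145, .negSucc 526⟩, ⟨.negSucc 3484, .negSucc 153, .negSucc 21, .negSucc 566, .negSucc 561, .ofNat 322⟩, ⟨.negSucc 227, .negSucc 43, .negSucc 11, .negSucc 476, .negSucc 135, .ofNat 50⟩, .ofNat 333, .negSucc 195, .ofNat 0, .negSucc 195, .ofNat 646, .ofNat 0, .ofNat 128, .ofNat 117, .negSucc 45, .ofNat 0, .ofNat 138, .negSucc 23, .ofNat 0, .ofNat 0, .ofNat 386, .ofNat 992, .ofNat 0, .ofNat 0, .ofNat 216944198990454401578102743778721792, .ofNat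 0, .ofNat 0, .ofNat 0, .ofNat 0, .ofNat 0, .ofNat 0, .ofNat 0, .ofNat 7213745116920848854318027365381308416, .ofNat 0, .ofNat 0, .ofNat 2684904455383136484571737243902569086976, .ofNat 1258575614489829041434103896120229888, .ofNat 0⟩)
    (by decide +kernel)
theorem L01361 : Good (Phi V5.P V5.D 1 1) ⟨3, 7, 2, 1, 1, 0, 3, 6, 3, 3⟩ :=
  out_sound (S := T5.ds_pp) T5.ok_pp (w := 43) (j := 3) (by decide +kernel)
theorem L01362 : Good (Phi V5.P V5.D 1 1) ⟨2, 2, 2, 1, 1, 0, 3, 7, 3, 3⟩ :=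
  leafX_sound T5.ok_pp T5.Ypp.bz_eq (w := 182) (c := ⟨⟨.negSucc 1000, .negSucc 790, .negSucc 3, .negSucc 1215, .negSucc 307, .ofNat 48⟩, ⟨.ofNat 57, .negSucc 710, .negSucc 306, .negSucc 425, .negSucc 90, .ofNat 17⟩, ⟨.ofNat 554, .ofNat 829, .negSucc 87, .ofNat 867, .ofNat 127, .negSucc 209⟩, ⟨.negSucc 2761, .negSucc 156, .ofNat 79, .negSucc 1899, .negSucc 566, .ofNat 57⟩, ⟨.ofNat 51, .negSucc 116, .negSucc 95, .negSucc 558, .ofNat 51, .ofNat 58⟩, .ofNat 533, .negSucc 537, .ofNat 0, .negSucc 537, .ofNat 1834, .ofNat 0, .ofNat 141, .ofNat 128, .negSucc 66, .ofNat 0, .ofNat 93, .negSucc 23, .ofNat 0, .ofNat 0, .ofNat 365, .ofNat 348, .ofNat 0, .ofNat 511500675752256428724873561374720, .ofNat 55918810918791600939997297901568, .ofNat 0, .ofNat 0, .ofNat 0, .ofNat 0, .ofNat 0, .ofNat 0, .ofNat 47986661124921951595792716754059264, .ofNat 646234566892428483683982245888000, .ofNat 0,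 .ofNat 0, .ofNat 54821343630869312249419398018760704, .ofNat 909187586378258422700172879331328, .ofNat 0⟩)
    (by decide +kernel)
theorem L01363 : Good (Phi V5.P V5.D 1 1) ⟨3, 6, 2, 1, 2, 0, 3, 7, 3, 3⟩ :=
  leafX_sound T5.ok_pp T5.Ypp.bz_eq (w := 202) (c := ⟨⟨.negSucc 1690, .negSucc 707, .ofNat 113, .negSucc 809, .negSucc 462, .ofNat 136⟩, ⟨.negSucc 545, .negSucc 581, .negSucc 233, .negSucc 397, .negSucc 219, .ofNat 84⟩, ⟨.ofNat 1283, .ofNat 733, .negSucc 196, .ofNat 589, .ofNat 279, .negSucc 222⟩, ⟨.negSucc 2871, .negSucc 481, .ofNat 165, .negSucc 1112, .negSucc 720, .ofNat 177⟩, ⟨.negSucc 37, .negSucc 125, .ofNat 54, .negSucc 257, .ofNat 89, .ofNat 6⟩, .ofNat 595, .negSucc 615, .ofNat 0, .negSucc 615, .ofNat 1524, .ofNat 0, .ofNat 128, .ofNat 236, .negSucc 98, .ofNat 0, .ofNat 184, .negSucc 45, .ofNat 0, .ofNat 0, .ofNat 413, .ofNat 943, .ofNat 0, .ofNat 0, .ofNat 0, .ofNat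 0, .ofNat 0, .ofNat 1858082521736335066911542792104219508736, .ofNat 4988224961550928550750374649185435648, .ofNat 0, .ofNat 0, .ofNat 8808620188559735317267639210554800734208, .ofNat 26071852974094542450599982912141000704, .ofNat 0, .ofNat 7703777907403871327853016253569869807616, .ofNat 0, .ofNat 2741287284039960389149959690016260096, .ofNat 0⟩)
    (by decide +kernel)
theorem L01364 : Good (Phi V5.P V5.D 1 1) ⟨3, 6, 2, 1, 2, 1, 3, 7, 3, 3⟩ :=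
  leafX_sound T5.ok_pp T5.Ypp.bz_eq (w := 201) (c := ⟨⟨.negSucc 2402, .negSucc 665, .negSucc 20, .negSucc 758, .negSucc 686, .ofNat 160⟩, ⟨.negSucc 834, .negSucc 658, .negSucc 320, .negSucc 388, .negSucc 326, .ofNat 82⟩, ⟨.ofNat 1927, .ofNat 717, .negSucc 241, .ofNat 330, .ofNat 412, .negSucc 426⟩, ⟨.negSucc 3914, .negSucc 299, .ofNat 48, .negSucc 905, .negSucc 1024, .ofNat 226⟩, ⟨.negSucc 311, .negSucc 130, .ofNat 34, .negSucc 662, .negSucc 191, .ofNat 50⟩, .ofNat 163, .negSucc 39, .ofNat 0, .negSucc 39, .ofNat 225, .ofNat 0, .ofNat 180, .ofNat 49, .negSucc 80, .ofNat 0, .ofNat 128, .negSucc 43, .ofNat 0, .ofNat 0, .ofNat 324, .ofNat 574, .ofNat 0, .ofNat 293920143157724333403032092878443642880, .ofNat 106024569142543538058476933426970624, .ofNat 0, .ofNat 0, .ofNat 4508582925620201634609064715720736112640, .ofNat 0, .ofNat 0, .ofNat 0, .ofNat 3006618577066988508066555168974421622784,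 .ofNat 0, .ofNat 0, .ofNat 0, .ofNat 3650753319396001970420157490676507869184, .ofNat 211461667900293878595731009415675904, .ofNat 0⟩)
    (by decide +kernel)
theorem L01365 : Good (Phi V5.P V5.D 1 1) ⟨3, 7, 2, 1, 1, 0, 3, 7, 3, 3⟩ :=
  out_sound (S := T5.ds_pp) T5.ok_pp (w := 43) (j := 3) (by decide +kernel)
theorem L01366 : Good (Phi V5.P V5.D 1 1) ⟨1, 1, 2, 1, 1, 0, 1, 1, 1, 1⟩ :=
  leafX_sound T5.ok_pp T5.Ypp.bz_eq (w := 168) (c := ⟨⟨.negSucc 1233, .negSucc 1565, .negSucc 38, .ofNat 1, .negSucc 0, .ofNat 1⟩, ⟨.negSucc 38, .negSucc 1334, .negSucc 338, .ofNat 0, .ofNat 0, .ofNat 0⟩, ⟨.ofNat 549, .ofNat 1537, .ofNat 47, .negSucc 0, .ofNat 1, .negSucc 0⟩, ⟨.negSucc 2999, .negSucc 709, .negSucc 16, .ofNat 2, .negSucc 1, .ofNat 2⟩, ⟨.negSucc 8, .ofNat 17, .negSucc 0, .ofNat 0, .ofNat 0, .ofNat 0⟩, .ofNat 164, .negSucc 36, .ofNat 0, .negSucc 36, .ofNat 231, .ofNat 0, .ofNat 157,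 .ofNat 44, .negSucc 146, .ofNat 0, .ofNat 128, .negSucc 30, .ofNat 0, .ofNat 0, .ofNat 327, .ofNat 1703, .ofNat 71129075820470241875063683940352, .ofNat 2802211717723356291171191095296, .ofNat 35064407691111692524060672, .ofNat 0, .ofNat 5727488124014493415039880346468352, .ofNat 281454320286818867883798765240320, .ofNat 0, .ofNat 5364722374182260446638842576896, .ofNat 146227859024253758890558724505600000000, .ofNat 6897543759376056812642586482381422592, .ofNat 2055660522774737897434120192, .ofNat 0, .ofNat 4699747442231255535689463922425856, .ofNat 230941762692462813305738666967040, .ofNat 637329298631370682650329088, .ofNat 13551000103033301583112750235648⟩)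
    (by decide +kernel)
theorem L01367 : Good (Phi V5.P V5.D 1 1) ⟨3, 4, 3, 2, 2, 2, 3, 0, 5, 0⟩ :=
  out_sound (S := T5.ds_pp) T5.ok_pp (w := 45) (j := 3) (by decide +kernel)
theorem L01368 : Good (Phi V5.P V5.D 1 1) ⟨3, 5, 3, 2, 2, 2, 4, 0, 5, 0⟩ :=
  leafX_sound T5.ok_pp T5.Ypp.bz_eq (w := 219) (c := ⟨⟨.ofNat 1974, .ofNat 484, .negSucc 62, .ofNat 34, .ofNat 296, .negSucc 1555⟩, ⟨.ofNat 497, .ofNat 358, .ofNat 122, .ofNat 51, .ofNat 108, .negSucc 551⟩, ⟨.negSucc 867, .negSucc 421, .ofNat 134, .negSucc 1135, .negSucc 110, .ofNat 451⟩, ⟨.ofNat 3847, .ofNat 361, .negSucc 10, .negSucc 261, .ofNat 485, .negSucc 2590⟩, ⟨.negSucc 71, .negSucc 192, .negSucc 354, .ofNat 860, .ofNat 16, .negSucc 136⟩, .ofNat 842, .negSucc 1300, .ofNat 0, .negSucc 1300, .ofNat 3990, .ofNat 0, .ofNat 128, .ofNat 323, .negSucc 121, .ofNat 0, .ofNat 142, .negSucc 39, .ofNat 0, .ofNat 0, .ofNat 418, .ofNat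 13508, .ofNat 0, .ofNat 0, .ofNat 0, .ofNat 0, .ofNat 0, .ofNat 0, .ofNat 92699197191819745546165808964188881551360, .ofNat 0, .ofNat 0, .ofNat 0, .ofNat 468728547907828513036620713465495492231168, .ofNat 0, .ofNat 0, .ofNat 0, .ofNat 0, .ofNat 0⟩)
    (by decide +kernel)
theorem L01369 : Good (Phi V5.P V5.D 1 1) ⟨3, 5, 3, 2, 2, 2, 4, 1, 5, 0⟩ :=
  leafX_sound T5.ok_pp T5.Ypp.bz_eq (w := 219) (c := ⟨⟨.ofNat 2272, .ofNat 517, .negSucc 190, .ofNat 41, .ofNat 252, .negSucc 1644⟩, ⟨.ofNat 601, .ofNat 379, .ofNat 73, .ofNat 42, .ofNat 85, .negSucc 575⟩, ⟨.negSucc 1171, .negSucc 287, .negSucc 15, .negSucc 1046, .negSucc 83, .ofNat 570⟩, ⟨.ofNat 4311, .ofNat 449, .negSucc 367, .negSucc 259, .ofNat 418, .negSucc 2700⟩, ⟨.ofNat 146, .negSucc 419, .ofNat 112, .ofNat 926, .ofNat 57, .negSucc 340⟩, .ofNat 873, .negSucc 1387, .ofNat 0, .negSucc 1387, .ofNat 4241, .ofNat 0, .ofNat 128, .ofNat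 332, .negSucc 110, .ofNat 0, .ofNat 144, .negSucc 35, .ofNat 0, .ofNat 0, .ofNat 293, .ofNat 5183, .ofNat 0, .ofNat 0, .ofNat 0, .ofNat 0, .ofNat 0, .ofNat 0, .ofNat 0, .ofNat 0, .ofNat 0, .ofNat 0, .ofNat 377724123764909492452480131286287696003072, .ofNat 0, .ofNat 0, .ofNat 0, .ofNat 36821367672724626977074078782246520619008, .ofNat 0⟩)
    (by decide +kernel)
theorem L01370 : Good (Phi V5.P V5.D 1 1) ⟨2, 2, 3, 2, 2, 2, 3, 0, 5, 1⟩ :=
  leafX_sound T5.ok_pp T5.Ypp.bz_eq (w := 210) (c := ⟨⟨.ofNat 601, .ofNat 303, .negSucc 71, .ofNat 23, .ofNat 272, .negSucc 1285⟩, ⟨.ofNat 156, .ofNat 136, .ofNat 30, .ofNat 31, .ofNat 101, .negSucc 445⟩, ⟨.negSucc 541, .negSucc 360, .ofNat 219, .negSucc 1105, .ofNat 51, .ofNat 401⟩, ⟨.ofNat 1412, .ofNat 290, .negSucc 73, .negSucc 232, .ofNat 455, .negSucc 2209⟩, ⟨.negSucc 656, .ofNat 178, .negSucc 156, .ofNat 776, .negSucc 12, .ofNat 55⟩, .ofNat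 858, .negSucc 1335, .ofNat 0, .negSucc 1335, .ofNat 4045, .ofNat 0, .ofNat 128, .ofNat 306, .negSucc 99, .ofNat 0, .ofNat 137, .negSucc 30, .ofNat 0, .ofNat 0, .ofNat 335, .ofNat 5705, .ofNat 0, .ofNat 0, .ofNat 0, .ofNat 0, .ofNat 0, .ofNat 0, .ofNat 0, .ofNat 0, .ofNat 0, .ofNat 0, .ofNat 0, .ofNat 0, .ofNat 0, .ofNat 0, .ofNat 6204188758830590091539268076970910416896, .ofNat 0⟩)
    (by decide +kernel)
theorem L01371 : Good (Phi V5.P V5.D 1 1) ⟨3, 6, 3, 2, 2, 2, 4, 0, 5, 0⟩ :=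
  leafX_sound T5.ok_pp T5.Ypp.bz_eq (w := 218) (c := ⟨⟨.ofNat 2518, .ofNat 557, .negSucc 117, .negSucc 0, .ofNat 324, .negSucc 1760⟩, ⟨.ofNat 919, .ofNat 411, .ofNat 73, .ofNat 43, .ofNat 145, .negSucc 764⟩, ⟨.negSucc 1336, .negSucc 370, .ofNat 181, .negSucc 1093, .negSucc 120, .ofNat 533⟩, ⟨.ofNat 4261, .ofNat 471, .negSucc 127, .negSucc 309, .ofNat 500, .negSucc 2729⟩, ⟨.negSucc 282, .negSucc 142, .negSucc 122, .ofNat 711, .ofNat 62, .negSucc 153⟩, .ofNat 509, .negSucc 442, .ofNat 0, .negSucc 442, .ofNat 1173, .ofNat 0, .ofNat 128, .ofNat 145, .negSucc 81, .ofNat 0, .ofNat 92, .negSucc 29, .ofNat 0, .ofNat 0, .ofNat 251, .ofNat 6125, .ofNat 0, .ofNat 0, .ofNat 0, .ofNat 0, .ofNat 0, .ofNat 0, .ofNat 15449776651283241079226661572559016820736, .ofNat 0, .ofNat 0, .ofNat 0, .ofNat 58072768276132574522798773658440408498176, .ofNat 0, .ofNat 0, .ofNat 0, .ofNat 25626289732311918081753209276778399399936,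 .ofNat 0⟩)
    (by decide +kernel)
theorem L01372 : Good (Phi V5.P V5.D 1 1) ⟨3, 6, 3, 2, 2, 2, 4, 1, 5, 0⟩ :=
  leafX_sound T5.ok_pp T5.Ypp.bz_eq (w := 218) (c := ⟨⟨.ofNat 2837, .ofNat 666, .negSucc 117, .ofNat 135, .ofNat 308, .negSucc 1968⟩, ⟨.ofNat 1020, .ofNat 504, .ofNat 128, .ofNat 100, .ofNat 136, .negSucc 871⟩, ⟨.negSucc 1517, .negSucc 318, .ofNat 34, .negSucc 977, .negSucc 182, .ofNat 668⟩, ⟨.ofNat 4764, .ofNat 577, .negSucc 167, .negSucc 110, .ofNat 444, .negSucc 2998⟩, ⟨.negSucc 98, .negSucc 425, .negSucc 67, .ofNat 764, .ofNat 116, .negSucc 321⟩, .ofNat 509, .negSucc 442, .ofNat 0, .negSucc 442, .ofNat 1173, .ofNat 0, .ofNat 128, .ofNat 190, .negSucc 141, .ofNat 0, .ofNat 121, .negSucc 50, .ofNat 0, .ofNat 0, .ofNat 327, .ofNat 3447, .ofNat 0, .ofNat 0, .ofNat 0, .ofNat 0, .ofNat 0, .ofNat 0, .ofNat 17192671132280717743522263897886917918720, .ofNat 0, .ofNat 0,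 .ofNat 0, .ofNat 59563352732188313827370422669443841654784, .ofNat 0, .ofNat 0, .ofNat 0, .ofNat 24983662223867673739144423620305800396800, .ofNat 0⟩)
    (by decide +kernel)
theorem L01373 : Good (Phi V5.P V5.D 1 1) ⟨3, 6, 3, 2, 2, 2, 3, 0, 5, 1⟩ :=
  leafX_sound T5.ok_pp T5.Ypp.bz_eq (w := 213) (c := ⟨⟨.ofNat 988, .ofNat 135, .negSucc 107, .negSucc 48, .ofNat 278, .negSucc 1413⟩, ⟨.ofNat 362, .ofNat 75, .negSucc 23, .ofNat 23, .ofNat 112, .negSucc 587⟩, ⟨.negSucc 987, .negSucc 271, .ofNat 217, .negSucc 1038, .ofNat 97, .ofNat 539⟩, ⟨.ofNat 1822, .ofNat 211, .negSucc 136, .negSucc 411, .ofNat 435, .negSucc 2278⟩, ⟨.negSucc 535, .negSucc 94, .negSucc 101, .ofNat 819, .ofNat 12, .ofNat 40⟩, .ofNat 534, .negSucc 507, .ofNat 0, .negSucc 507, .ofNat 1424, .ofNat 0, .ofNat 128, .ofNat 132, .negSucc 88, .ofNat 0, .ofNat 80, .negSucc 28, .ofNat 0, .ofNat 0, .ofNat 250, .ofNat 2680,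 .ofNat 0, .ofNat 0, .ofNat 0, .ofNat 0, .ofNat 0, .ofNat 0, .ofNat 1045232503837347554638781739786003546112, .ofNat 0, .ofNat 0, .ofNat 0, .ofNat 2628377357945834665006097557650715705344, .ofNat 0, .ofNat 0, .ofNat 0, .ofNat 0, .ofNat 0⟩)
    (by decide +kernel)
theorem L01374 : Good (Phi V5.P V5.D 1 1) ⟨3, 7, 3, 2, 2, 2, 3, 0, 4, 0⟩ :=
  out_sound (S := T5.ds_pp) T5.ok_pp (w := 45) (j := 3) (by decide +kernel)
theorem L01375 : Good (Phi V5.P V5.D 1 1) ⟨2, 2, 3, 2, 2, 2, 3, 1, 4, 0⟩ :=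
  leafX_sound T5.ok_pp T5.Ypp.bz_eq (w := 204) (c := ⟨⟨.ofNat 1412, .ofNat 1689, .negSucc 53, .ofNat 188, .ofNat 333, .negSucc 3262⟩, ⟨.negSucc 49, .ofNat 1169, .ofNat 119, .ofNat 82, .ofNat 130, .negSucc 1128⟩, ⟨.negSucc 1494, .negSucc 289, .negSucc 59, .negSucc 780, .negSucc 90, .ofNat 1364⟩, ⟨.ofNat 3293, .ofNat 1955, .negSucc 147, .negSucc 38, .ofNat 488, .negSucc 5423⟩, ⟨.ofNat 1087, .negSucc 1196, .ofNat 74, .ofNat 971, .ofNat 219, .negSucc 869⟩, .ofNat 328, .negSucc 166, .ofNat 0, .negSucc 166, .ofNat 725, .ofNat 0, .ofNat 155, .ofNat 128, .negSucc 195, .ofNat 0, .ofNat 98, .negSucc 38, .ofNat 0, .ofNat 0, .ofNat 293, .ofNat 568, .ofNat 0, .ofNat 0, .ofNat 0, .ofNat 0, .ofNat 0, .ofNat 0, .ofNat 344027145477959374177977305099537481728, .ofNat 0, .ofNat 0, .ofNat 0, .ofNat 674963204283272863401525141411192635392, .ofNat 0, .ofNat 0, .ofNat 0, .ofNat 0, .ofNat 0⟩)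
    (by decide +kernel)
theorem L01376 : Good (Phi V5.P V5.D 1 1) ⟨2, 3, 3, 2, 2, 2, 3, 1, 4, 0⟩ :=
  leafX_sound T5.ok_pp T5.Ypp.bz_eq (w := 205) (c := ⟨⟨.ofNat 3166, .ofNat 1064, .ofNat 65, .ofNat 123, .ofNat 449, .negSucc 3910⟩, ⟨.ofNat 1158, .ofNat 1091, .ofNat 157, .ofNat 107, .ofNat 209, .negSucc 1648⟩, ⟨.negSucc 1796, .negSucc 902, .ofNat 78, .negSucc 871, .negSucc 164, .ofNat 1679⟩, ⟨.ofNat 5235, .ofNat 727, .ofNat 116, .negSucc 121, .ofNat 641, .negSucc 6076⟩, ⟨.ofNat 28, .negSucc 779, .negSucc 49, .ofNat 758, .ofNat 234, .negSucc 637⟩, .ofNat 463, .negSucc 332, .ofNat 0, .negSucc 332, .ofNat 781, .ofNat 0, .ofNat 128, .ofNat 255, .negSucc 257, .ofNat 0, .ofNat 196, .negSucc 93, .ofNat 0, .ofNat 0, .ofNat 398, .ofNat 789, .ofNat 0, .ofNat 0, .ofNat 17480927637134419724818457840981114880, .ofNat 0, .ofNat 0, .ofNat 0, .ofNat 55163278850608723115193980994799534080, .ofNat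 0, .ofNat 0, .ofNat 0, .ofNat 742940379307184982067332416709901418496, .ofNat 0, .ofNat 0, .ofNat 0, .ofNat 93439188004534060713671691258925416448, .ofNat 0⟩)
    (by decide +kernel)
theorem L01377 : Good (Phi V5.P V5.D 1 1) ⟨2, 2, 3, 2, 2, 2, 2, 0, 4, 1⟩ :=
  leafX_sound T5.ok_pp T5.Ypp.bz_eq (w := 200) (c := ⟨⟨.negSucc 280, .negSucc 118, .negSucc 37, .negSucc 32, .negSucc 197, .negSucc 1394⟩, ⟨.ofNat 105, .negSucc 263, .negSucc 95, .ofNat 3, .negSucc 61, .negSucc 482⟩, ⟨.ofNat 141, .negSucc 952, .ofNat 322, .negSucc 879, .ofNat 910, .ofNat 765⟩, ⟨.negSucc 992, .ofNat 633, .negSucc 143, .negSucc 336, .negSucc 371, .negSucc 2452⟩, ⟨.negSucc 329, .negSucc 340, .ofNat 104, .ofNat 799, .ofNat 63, .ofNat 133⟩, .ofNat 537, .negSucc 546, .ofNat 0, .negSucc 546, .ofNat 1843, .ofNat 0, .ofNat 128, .ofNat 247, .negSucc 137, .ofNat 0, .ofNat 139, .negSucc 33, .ofNat 0, .ofNat 0, .ofNat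 410, .ofNat 1980, .ofNat 6584016141452455684462687281702045220864, .ofNat 0, .ofNat 757895767253382706267998740344209408, .ofNat 0, .ofNat 0, .ofNat 0, .ofNat 16321356294320203769239536476285304832, .ofNat 0, .ofNat 0, .ofNat 0, .ofNat 0, .ofNat 0, .ofNat 0, .ofNat 0, .ofNat 90435391528198349137654806780384903168, .ofNat 0⟩)
    (by decide +kernel)
theorem L01378 : Good (Phi V5.P V5.D 1 1) ⟨2, 3, 3, 2, 2, 2, 2, 0, 4, 1⟩ :=
  leafX_sound T5.ok_pp T5.Ypp.bz_eq (w := 199) (c := ⟨⟨.negSucc 446, .negSucc 90, .negSucc 20, .ofNat 24, .negSucc 287, .negSucc 1448⟩, ⟨.negSucc 120, .negSucc 220, .negSucc 109, .ofNat 52, .negSucc 122, .negSucc 619⟩, ⟨.negSucc 802, .ofNat 943, .ofNat 2, .negSucc 948, .ofNat 966, .ofNat 895⟩, ⟨.negSucc 564, .ofNat 3, .ofNat 61, .negSucc 267, .negSucc 505, .negSucc 2352⟩, ⟨.negSucc 560, .ofNat 1079, .negSucc 203, .ofNat 683, .ofNat 163, .ofNat 109⟩, .ofNat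 545, .negSucc 532, .ofNat 0, .negSucc 532, .ofNat 1480, .ofNat 0, .ofNat 128, .ofNat 188, .negSucc 99, .ofNat 0, .ofNat 119, .negSucc 28, .ofNat 0, .ofNat 0, .ofNat 284, .ofNat 699, .ofNat 2234580535043999704373763120146486919168, .ofNat 0, .ofNat 320610321510344610634272617732767744, .ofNat 0, .ofNat 0, .ofNat 0, .ofNat 11220342761518738221268961854832508928, .ofNat 0, .ofNat 0, .ofNat 0, .ofNat 49452517605008117830939872366218444800, .ofNat 0, .ofNat 2056173954346907370329395210326225453056, .ofNat 0, .ofNat 4359668128291409798903767516250636288, .ofNat 0⟩)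
    (by decide +kernel)
theorem L01379 : Good (Phi V5.P V5.D 1 1) ⟨3, 4, 3, 2, 2, 3, 2, 0, 3, 0⟩ :=
  out_sound (S := T5.ds_pp) T5.ok_pp (w := 45) (j := 3) (by decide +kernel)
theorem L01380 : Good (Phi V5.P V5.D 1 1) ⟨4, 10, 3, 2, 2, 3, 2, 0, 4, 0⟩ :=
  out_sound (S := T5.ds_pp) T5.ok_pp (w := 51) (j := 3) (by decide +kernel)
theorem L01381 : Good (Phi V5.P V5.D 1 1) ⟨4, 11, 3, 2, 3, 6, 2, 0, 4, 0⟩ :=
  leafX_sound T5.ok_pp T5.Ypp.bz_eq (w := 223) (c := ⟨⟨.ofNat 2387, .ofNat 70, .ofNat 53, .negSucc 213, .ofNat 600, .negSucc 2747⟩, ⟨.ofNat 789, .ofNat 146, .ofNat 84, .negSucc 46, .ofNat 206, .negSucc 988⟩, ⟨.negSucc 2659, .negSucc 182, .ofNat 167, .ofNat 357, .ofNat 40, .ofNat 1385⟩, ⟨.ofNat 3920, .ofNat 11, .negSucc 39, .negSucc 778, .ofNat 942, .negSucc 4573⟩, ⟨.ofNat 915, .negSucc 179, .negSucc 116, .ofNat 985, .ofNat 292, .negSucc 358⟩, .ofNat 536, .negSucc 543, .ofNat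 0, .negSucc 543, .ofNat 1846, .ofNat 0, .ofNat 128, .ofNat 271, .negSucc 331, .ofNat 0, .ofNat 141, .negSucc 94, .ofNat 0, .ofNat 0, .ofNat 537, .ofNat 1169, .ofNat 0, .ofNat 0, .ofNat 452471327988788539855648511747160014848, .ofNat 0, .ofNat 0, .ofNat 0, .ofNat 0, .ofNat 0, .ofNat 0, .ofNat 0, .ofNat 46990712049850534667172871114827973525504, .ofNat 0, .ofNat 0, .ofNat 0, .ofNat 61778892252758596887091484905984021757952, .ofNat 0⟩)
    (by decide +kernel)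
theorem L01382 : Good (Phi V5.P V5.D 1 1) ⟨4, 11, 3, 2, 3, 7, 2, 0, 4, 0⟩ :=
  leafX_sound T5.ok_pp T5.Ypp.bz_eq (w := 222) (c := ⟨⟨.ofNat 1209, .ofNat 125, .ofNat 171, .negSucc 195, .ofNat 571, .negSucc 1782⟩, ⟨.ofNat 433, .ofNat 164, .negSucc 14, .negSucc 45, .ofNat 213, .negSucc 673⟩, ⟨.negSucc 1144, .negSucc 13, .negSucc 207, .ofNat 1398, .negSucc 695, .ofNat 432⟩, ⟨.ofNat 1496, .ofNat 116, .ofNat 230, .negSucc 736, .ofNat 933, .negSucc 2859⟩, ⟨.ofNat 1898, .negSucc 50, .negSucc 190, .ofNat 926, .ofNat 220, .negSucc 551⟩, .ofNat 533, .negSucc 536, .ofNat 0, .negSucc 536, .ofNat 1824, .ofNat 0, .ofNat 128, .ofNat 251, .negSucc 335, .ofNat 0, .ofNat 134, .negSucc 94, .ofNat 0, .ofNat 0, .ofNat 483, .ofNat 726, .ofNat 0, .ofNat 0, .ofNat 0, .ofNat 0, .ofNat 0, .ofNat 0, .ofNat 5527741151541939384420385885227361239040, .ofNat 0, .ofNat 0, .ofNat 0, .ofNat 2082971299906157888996825022660033380352,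 .ofNat 0, .ofNat 0, .ofNat 0, .ofNat 41736255689573429651608667255875552935936, .ofNat 0⟩)
    (by decide +kernel)
theorem L01383 : Good (Phi V5.P V5.D 1 1) ⟨3, 5, 3, 2, 2, 3, 2, 0, 4, 1⟩ :=
  leafX_sound T5.ok_pp T5.Ypp.bz_eq (w := 203) (c := ⟨⟨.negSucc 697, .ofNat 117, .negSucc 224, .ofNat 725, .negSucc 488, .negSucc 1041⟩, ⟨.negSucc 215, .ofNat 69, .negSucc 257, .ofNat 298, .negSucc 173, .negSucc 368⟩, ⟨.negSucc 897, .negSucc 416, .ofNat 567, .ofNat 629, .ofNat 512, .ofNat 506⟩, ⟨.negSucc 1377, .ofNat 300, .negSucc 402, .ofNat 662, .negSucc 885, .negSucc 1871⟩, ⟨.ofNat 320, .ofNat 51, .negSucc 110, .ofNat 1694, .ofNat 127, .ofNat 173⟩, .ofNat 535, .negSucc 543, .ofNat 0, .negSucc 543, .ofNat 1855, .ofNat 0, .ofNat 128, .ofNat 138, .negSucc 138, .ofNat 0, .ofNat 82, .negSucc 34, .ofNat 0, .ofNat 0, .ofNat 302, .ofNat 799, .ofNat 15297435460351005949190024934760122417152,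 .ofNat 0, .ofNat 98404533660454761182136401028710400, .ofNat 0, .ofNat 0, .ofNat 0, .ofNat 0, .ofNat 0, .ofNat 0, .ofNat 0, .ofNat 2344473004434298256447667072529334272, .ofNat 0, .ofNat 0, .ofNat 0, .ofNat 5278460130737282641964205801241313280, .ofNat 0⟩)
    (by decide +kernel)
theorem L01384 : Good (Phi V5.P V5.D 1 1) ⟨5, 24, 3, 2, 3, 6, 3, 0, 4, 0⟩ :=
  leafX_sound T5.ok_pp T5.Ypp.bz_eq (w := 231) (c := ⟨⟨.ofNat 2606, .ofNat 48, .negSucc 142, .negSucc 228, .ofNat 453, .negSucc 3061⟩, ⟨.ofNat 1036, .ofNat 82, .negSucc 81, .negSucc 30, .ofNat 178, .negSucc 1231⟩, ⟨.negSucc 2868, .negSucc 79, .ofNat 312, .ofNat 316, .negSucc 154, .ofNat 1594⟩, ⟨.ofNat 3954, .negSucc 42, .negSucc 212, .negSucc 705, .ofNat 688, .negSucc 4700⟩, ⟨.ofNat 954, .ofNat 94, .negSucc 211, .ofNat 821, .ofNat 191, .negSucc 773⟩, .ofNat 868, .negSucc 1231, .ofNat 0, .negSucc 1231, .ofNat 3232, .ofNat 0,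 .ofNat 128, .ofNat 233, .negSucc 263, .ofNat 0, .ofNat 115, .negSucc 98, .ofNat 0, .ofNat 0, .ofNat 492, .ofNat 1914, .ofNat 0, .ofNat 0, .ofNat 0, .ofNat 0, .ofNat 0, .ofNat 0, .ofNat 0, .ofNat 0, .ofNat 0, .ofNat 0, .ofNat 174065809477089501839382542415558506184704, .ofNat 0, .ofNat 0, .ofNat 0, .ofNat 0, .ofNat 0⟩)
    (by decide +kernel)
theorem L01385 : Good (Phi V5.P V5.D 1 1) ⟨5, 25, 3, 2, 3, 6, 3, 0, 4, 0⟩ :=
  leafX_sound T5.ok_pp T5.Ypp.bz_eq (w := 231) (c := ⟨⟨.ofNat 2834, .ofNat 42, .negSucc 199, .negSucc 253, .ofNat 492, .negSucc 3258⟩, ⟨.ofNat 1268, .ofNat 81, .negSucc 94, .negSucc 86, .ofNat 240, .negSucc 1450⟩, ⟨.negSucc 3267, .negSucc 66, .ofNat 476, .ofNat 432, .negSucc 212, .ofNat 1784⟩, ⟨.ofNat 4187, .negSucc 5, .negSucc 175, .negSucc 815, .ofNat 746, .negSucc 5044⟩, ⟨.ofNat 764, .negSucc 109, .negSucc 386, .ofNat 979, .ofNat 95, .negSucc 187⟩, .ofNat 685,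 .negSucc 779, .ofNat 0, .negSucc 779, .ofNat 1930, .ofNat 0, .ofNat 128, .ofNat 323, .negSucc 336, .ofNat 0, .ofNat 184, .negSucc 132, .ofNat 0, .ofNat 0, .ofNat 583, .ofNat 2225, .ofNat 0, .ofNat 0, .ofNat 0, .ofNat 0, .ofNat 0, .ofNat 0, .ofNat 79773600120995465750791014028438679846912, .ofNat 0, .ofNat 0, .ofNat 0, .ofNat 0, .ofNat 0, .ofNat 0, .ofNat 0, .ofNat 0, .ofNat 0⟩)
    (by decide +kernel)
theorem L01386 : Good (Phi V5.P V5.D 1 1) ⟨4, 12, 3, 2, 3, 6, 3, 1, 4, 0⟩ :=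
  leafX_sound T5.ok_pp T5.Ypp.bz_eq (w := 228) (c := ⟨⟨.ofNat 3444, .ofNat 334, .negSucc 148, .negSucc 313, .ofNat 423, .negSucc 4037⟩, ⟨.ofNat 1398, .ofNat 331, .negSucc 72, .negSucc 32, .ofNat 169, .negSucc 1750⟩, ⟨.negSucc 3082, .negSucc 288, .ofNat 204, .ofNat 100, .ofNat 40, .ofNat 2198⟩, ⟨.ofNat 5338, .ofNat 293, .negSucc 192, .negSucc 959, .ofNat 545, .negSucc 6290⟩, ⟨.ofNat 797, .negSucc 94, .negSucc 179, .ofNat 902, .ofNat 288, .negSucc 267⟩, .ofNat 541, .negSucc 524, .ofNat 0, .negSucc 524, .ofNat 1479, .ofNat 0, .ofNat 128, .ofNat 431, .negSucc 437, .ofNat 0, .ofNat 246, .negSucc 146, .ofNat 0, .ofNat 0, .ofNat 590, .ofNat 1090, .ofNat 0, .ofNat 0, .ofNat 0, .ofNat 0, .ofNat 0, .ofNat 0, .ofNat 239667903930770360400881731333297448943616, .ofNat 0, .ofNat 0, .ofNat 0, .ofNat 0, .ofNat 0, .ofNat 0, .ofNat 0, .ofNat 0, .ofNat 0⟩)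
    (by decide +kernel)
theorem L01387 : Good (Phi V5.P V5.D 1 1) ⟨4, 12, 3, 2, 3, 7, 2, 0, 5, 0⟩ :=
  leafX_sound T5.ok_pp T5.Ypp.bz_eq (w := 227) (c := ⟨⟨.ofNat 1384, .ofNat 324, .negSucc 392, .negSucc 364, .ofNat 1405, .negSucc 1074⟩, ⟨.ofNat 602, .ofNat 337, .negSucc 194, .negSucc 100, .ofNat 605, .negSucc 485⟩, ⟨.negSucc 1279, .negSucc 258, .ofNat 421, .ofNat 1661, .negSucc 1185, .ofNat 196⟩, ⟨.ofNat 1705, .ofNat 340, .negSucc 724, .negSucc 969, .ofNat 2049, .negSucc 1632⟩, ⟨.ofNat 1840, .negSucc 131, .negSucc 243, .ofNat 840, .ofNat 556, .negSucc 374⟩, .ofNat 536, .negSucc 514, .ofNat 0, .negSucc 514, .ofNat 1451, .ofNat 0, .ofNat 128, .ofNat 289, .negSucc 397, .ofNat 0, .ofNat 167, .negSucc 136, .ofNat 0, .ofNat 0, .ofNat 446, .ofNat 380, .ofNat 0, .ofNat 0, .ofNat 0, .ofNat 0, .ofNat 0, .ofNat 0, .ofNat 675938108956749096588680849141705610362880, .ofNat 0, .ofNat 0,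 .ofNat 0, .ofNat 2151121249024980911043444868331221597290496, .ofNat 0, .ofNat 0, .ofNat 0, .ofNat 0, .ofNat 0⟩)
    (by decide +kernel)
theorem L01388 : Good (Phi V5.P V5.D 1 1) ⟨4, 12, 3, 2, 3, 7, 2, 0, 5, 1⟩ :=
  leafX_sound T5.ok_pp T5.Ypp.bz_eq (w := 227) (c := ⟨⟨.ofNat 76, .ofNat 61, .ofNat 3, .ofNat 489, .ofNat 266, .negSucc 640⟩, ⟨.ofNat 119, .ofNat 164, .negSucc 132, .ofNat 242, .ofNat 128, .negSucc 274⟩, ⟨.negSucc 737, .negSucc 47, .ofNat 105, .ofNat 842, .negSucc 540, .ofNat 90⟩, ⟨.negSucc 430, .negSucc 28, .negSucc 2, .ofNat 674, .ofNat 269, .negSucc 978⟩, ⟨.ofNat 1627, .ofNat 36, .negSucc 241, .ofNat 230, .ofNat 349, .negSucc 95⟩, .ofNat 815, .negSucc 1069, .ofNat 0, .negSucc 1069, .ofNat 2702, .ofNat 0, .ofNat 128, .ofNat 360, .negSucc 298, .ofNat 0, .ofNat 194, .negSucc 108, .ofNat 0, .ofNat 0, .ofNat 467, .ofNat 387, .ofNat 0, .ofNat 0, .ofNat 0, .ofNat 0, .ofNat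 0, .ofNat 0, .ofNat 1205663618440482998671649744840141895106560, .ofNat 0, .ofNat 0, .ofNat 0, .ofNat 0, .ofNat 0, .ofNat 0, .ofNat 0, .ofNat 0, .ofNat 0⟩)
    (by decide +kernel)
theorem L01389 : Good (Phi V5.P V5.D 1 1) ⟨5, 26, 3, 2, 3, 6, 2, 0, 5, 0⟩ :=
  leafX_sound T5.ok_pp T5.Ypp.bz_eq (w := 233) (c := ⟨⟨.ofNat 3571, .negSucc 252, .negSucc 570, .negSucc 394, .ofNat 1305, .negSucc 2305⟩, ⟨.ofNat 1597, .negSucc 51, .negSucc 166, .negSucc 115, .ofNat 636, .negSucc 1100⟩, ⟨.negSucc 4198, .ofNat 314, .ofNat 1157, .ofNat 380, .negSucc 392, .ofNat 1432⟩, ⟨.ofNat 5241, .negSucc 417, .negSucc 782, .negSucc 1079, .ofNat 1843, .negSucc 3432⟩, ⟨.ofNat 868, .negSucc 207, .negSucc 481, .ofNat 994, .ofNat 350, .negSucc 299⟩, .ofNat 844, .negSucc 1047, .ofNat 0, .negSucc 1047, .ofNat 2346, .ofNat 0, .ofNat 128, .ofNat 537, .negSucc 523, .ofNat 0, .ofNat 304, .negSucc 227, .ofNat 0, .ofNat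 0, .ofNat 753, .ofNat 1920, .ofNat 0, .ofNat 0, .ofNat 64267237536772952138087510455444763049984, .ofNat 0, .ofNat 0, .ofNat 0, .ofNat 2414476154247208214769189624557869857767424, .ofNat 0, .ofNat 0, .ofNat 0, .ofNat 1200983075725585060099990279641079083958272, .ofNat 0, .ofNat 0, .ofNat 0, .ofNat 1080155489598350529385759019789545115746304, .ofNat 0⟩)
    (by decide +kernel)
theorem L01390 : Good (Phi V5.P V5.D 1 1) ⟨5, 26, 3, 2, 3, 6, 2, 0, 5, 1⟩ :=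
  leafX_sound T5.ok_pp T5.Ypp.bz_eq (w := 232) (c := ⟨⟨.ofNat 1013, .ofNat 158, .negSucc 126, .negSucc 235, .negSucc 83, .negSucc 1291⟩, ⟨.ofNat 562, .ofNat 106, .negSucc 144, .negSucc 36, .negSucc 25, .negSucc 599⟩, ⟨.negSucc 2736, .negSucc 433, .ofNat 801, .ofNat 570, .ofNat 317, .ofNat 739⟩, ⟨.ofNat 1385, .ofNat 233, .negSucc 70, .negSucc 837, .negSucc 210, .negSucc 2021⟩, ⟨.ofNat 457, .negSucc 54, .negSucc 345, .ofNat 1013, .ofNat 174, .ofNat 71⟩, .ofNat 1023, .negSucc 1379, .ofNat 0, .negSucc 1379, .ofNat 2998, .ofNat 0, .ofNat 128, .ofNat 546, .negSucc 337, .ofNat 0, .ofNat 311, .negSucc 143, .ofNat 0, .ofNat 0, .ofNat 578, .ofNat 2077, .ofNat 0, .ofNat 0, .ofNat 0, .ofNat 0, .ofNat 0, .ofNat 0, .ofNat 5318510404787452882250340113808392189902848, .ofNat 0, .ofNat 0, .ofNat 0, .ofNat 885992147490418828529128387675324036415488, .ofNat 0, .ofNat 1187426363775828981597738156727888845447115046912,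 .ofNat 0, .ofNat 767842111923771692770822081323368504623104, .ofNat 0⟩)
    (by decide +kernel)
theorem L01391 : Good (Phi V5.P V5.D 1 1) ⟨5, 27, 3, 2, 3, 6, 2, 0, 4, 0⟩ :=
  out_sound (S := T5.ds_pp) T5.ok_pp (w := 57) (j := 3) (by decide +kernel)
theorem L01392 : Good (Phi V5.P V5.D 1 1) ⟨4, 13, 3, 2, 3, 7, 2, 0, 4, 0⟩ :=
  leafX_sound T5.ok_pp T5.Ypp.bz_eq (w := 224) (c := ⟨⟨.ofNat 1248, .ofNat 188, .negSucc 102, .ofNat 457, .ofNat 507, .negSucc 1846⟩, ⟨.ofNat 852, .ofNat 219, .negSucc 218, .ofNat 267, .ofNat 274, .negSucc 911⟩, ⟨.negSucc 870, .negSucc 445, .ofNat 18, .ofNat 985, .negSucc 733, .ofNat 367⟩, ⟨.ofNat 870, .ofNat 254, .ofNat 269, .ofNat 285, .ofNat 592, .negSucc 2655⟩, ⟨.ofNat 2273, .negSucc 386, .negSucc 886, .ofNat 856, .ofNat 438, .negSucc 473⟩, .ofNat 848, .negSucc 1055, .ofNat 0, .negSucc 1055, .ofNat 2364, .ofNat 0, .ofNat 128, .ofNat 736, .negSucc 640,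 .ofNat 0, .ofNat 421, .negSucc 264, .ofNat 0, .ofNat 0, .ofNat 871, .ofNat 946, .ofNat 938071123942058210240443239541469974703898624, .ofNat 0, .ofNat 2572768524149581742260674657080521523200, .ofNat 0, .ofNat 0, .ofNat 0, .ofNat 173591586823229894998930299364290689236992, .ofNat 0, .ofNat 0, .ofNat 0, .ofNat 964052151434647523190881670315292267380736, .ofNat 0, .ofNat 0, .ofNat 0, .ofNat 106576153972379214047533643197172030636032, .ofNat 0⟩)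
    (by decide +kernel)
theorem L01393 : Good (Phi V5.P V5.D 1 1) ⟨3, 6, 3, 2, 2, 3, 3, 0, 4, 1⟩ :=
  leafX_sound T5.ok_pp T5.Ypp.bz_eq (w := 208) (c := ⟨⟨.negSucc 627, .negSucc 165, .ofNat 33, .ofNat 874, .negSucc 221, .negSucc 1144⟩, ⟨.negSucc 155, .negSucc 0, .negSucc 155, .ofNat 438, .negSucc 85, .negSucc 475⟩, ⟨.negSucc 1407, .ofNat 253, .ofNat 73, .ofNat 813, .ofNat 259, .ofNat 614⟩, ⟨.negSucc 1219, .negSucc 230, .ofNat 105, .ofNat 807, .negSucc 421, .negSucc 1842⟩, ⟨.ofNat 505, .ofNat 312, .negSucc 319, .ofNat 1468, .ofNat 160, .ofNat 33⟩, .ofNat 701, .negSucc 776, .ofNat 0, .negSucc 776, .ofNat 1865, .ofNat 0, .ofNat 128, .ofNat 181, .negSucc 149, .ofNat 0, .ofNat 127, .negSucc 50, .ofNat 0, .ofNat 0, .ofNat 329, .ofNat 1692, .ofNat 0, .ofNat 0, .ofNat 0, .ofNat 0, .ofNat 0, .ofNat 0, .ofNat 72664191760904921915718907825546592256, .ofNat 0, .ofNat 0, .ofNat 0, .ofNat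 130343333947653658366864074179266740224, .ofNat 0, .ofNat 0, .ofNat 0, .ofNat 0, .ofNat 0⟩)
    (by decide +kernel)
theorem L01394 : Good (Phi V5.P V5.D 1 1) ⟨3, 6, 3, 2, 2, 3, 3, 1, 4, 1⟩ :=
  leafX_sound T5.ok_pp T5.Ypp.bz_eq (w := 208) (c := ⟨⟨.negSucc 993, .negSucc 174, .ofNat 82, .ofNat 1217, .negSucc 488, .negSucc 1214⟩, ⟨.negSucc 305, .ofNat 50, .negSucc 175, .ofNat 616, .negSucc 174, .negSucc 513⟩, ⟨.negSucc 764, .ofNat 50, .ofNat 7, .ofNat 62, .ofNat 423, .ofNat 742⟩, ⟨.negSucc 1819, .negSucc 193, .ofNat 118, .ofNat 1363, .negSucc 825, .negSucc 2042⟩, ⟨.ofNat 635, .ofNat 151, .negSucc 177, .ofNat 1312, .ofNat 47, .ofNat 225⟩, .ofNat 701, .negSucc 776, .ofNat 0, .negSucc 776, .ofNat 1865, .ofNat 0, .ofNat 128, .ofNat 190, .negSucc 142, .ofNat 0, .ofNat 127, .negSucc 47, .ofNat 0, .ofNat 0, .ofNat 243, .ofNat 695, .ofNat 0, .ofNat 0, .ofNat 0, .ofNat 0, .ofNat 0, .ofNat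 0, .ofNat 47716181479412661938331602709938962432, .ofNat 0, .ofNat 0, .ofNat 0, .ofNat 79235117867918290857309332049280106496, .ofNat 0, .ofNat 0, .ofNat 0, .ofNat 0, .ofNat 0⟩)
    (by decide +kernel)
theorem L01395 : Good (Phi V5.P V5.D 1 1) ⟨3, 7, 3, 2, 2, 3, 2, 0, 3, 0⟩ :=
  out_sound (S := T5.ds_pp) T5.ok_pp (w := 45) (j := 3) (by decide +kernel)
theorem L01396 : Good (Phi V5.P V5.D 1 1) ⟨3, 4, 3, 2, 1, 1, 2, 1, 3, 0⟩ :=
  out_sound (S := T5.ds_pp) T5.ok_pp (w := 45) (j := 3) (by decide +kernel)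
theorem L01397 : Good (Phi V5.P V5.D 1 1) ⟨4, 10, 3, 2, 1, 1, 2, 1, 4, 0⟩ :=
  out_sound (S := T5.ds_pp) T5.ok_pp (w := 51) (j := 3) (by decide +kernel)
theorem L01398 : Good (Phi V5.P V5.D 1 1) ⟨4, 11, 3, 2, 2, 2, 2, 1, 4, 0⟩ :=
  leafX_sound T5.ok_pp T5.Ypp.bz_eq (w := 209) (c := ⟨⟨.ofNat 3184, .ofNat 447, .negSucc 66, .ofNat 150, .negSucc 350, .negSucc 3913⟩, ⟨.ofNat 1020, .ofNat 299, .ofNat 29, .ofNat 62, .negSucc 100, .negSucc 1380⟩, ⟨.negSucc 2023, .negSucc 289, .ofNat 75, .negSucc 477, .ofNat 401, .ofNat 2003⟩, ⟨.ofNat 5519, .ofNat 531, .negSucc 64, .negSucc 60, .negSucc 782, .negSucc 6442⟩, ⟨.ofNat 485, .negSucc 272, .negSucc 76, .ofNat 885, .ofNat 392, .negSucc 878⟩, .ofNat 595, .negSucc 696, .ofNat 0, .negSucc 696, .ofNat 2226, .ofNat 0, .ofNat 128, .ofNat 286, .negSucc 398, .ofNat 0, .ofNat 139, .negSucc 124, .ofNat 0, .ofNat 0, .ofNat 555, .ofNat 596, .ofNat 0,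 .ofNat 0, .ofNat 0, .ofNat 0, .ofNat 0, .ofNat 0, .ofNat 0, .ofNat 0, .ofNat 0, .ofNat 0, .ofNat 2512659463977414619206440379534540800, .ofNat 0, .ofNat 0, .ofNat 0, .ofNat 0, .ofNat 0⟩)
    (by decide +kernel)
theorem L01399 : Good (Phi V5.P V5.D 1 1) ⟨4, 11, 3, 2, 2, 3, 2, 1, 4, 0⟩ :=
  leafX_sound T5.ok_pp T5.Ypp.bz_eq (w := 210) (c := ⟨⟨.ofNat 3112, .ofNat 228, .negSucc 290, .negSucc 419, .negSucc 1023, .negSucc 3100⟩, ⟨.ofNat 1047, .ofNat 210, .negSucc 109, .negSucc 82, .negSucc 360, .negSucc 1116⟩, ⟨.negSucc 2701, .negSucc 150, .ofNat 494, .ofNat 1089, .ofNat 831, .ofNat 1261⟩, ⟨.ofNat 5031, .ofNat 227, .negSucc 703, .negSucc 1445, .negSucc 1977, .negSucc 4896⟩, ⟨.ofNat 1313, .negSucc 216, .ofNat 110, .ofNat 1987, .ofNat 614, .negSucc 1081⟩, .ofNat 681, .negSucc 886, .ofNat 0, .negSucc 886, .ofNat 2811, .ofNat 0, .ofNat 128, .ofNat 432, .negSucc 505, .ofNat 0, .ofNat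 199, .negSucc 151, .ofNat 0, .ofNat 0, .ofNat 562, .ofNat 465, .ofNat 0, .ofNat 0, .ofNat 0, .ofNat 0, .ofNat 0, .ofNat 0, .ofNat 0, .ofNat 0, .ofNat 0, .ofNat 0, .ofNat 2918381660543627654418714636144607232, .ofNat 0, .ofNat 0, .ofNat 0, .ofNat 3988129895073572876539213273469288448, .ofNat 0⟩)
    (by decide +kernel)
theorem L01400 : Good (Phi V5.P V5.D 1 1) ⟨4, 10, 3, 2, 1, 1, 2, 1, 4, 1⟩ :=
  out_sound (S := T5.ds_pp) T5.ok_pp (w := 51) (j := 3) (by decide +kernel)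
theorem L01401 : Good (Phi V5.P V5.D 1 1) ⟨4, 11, 3, 2, 2, 2, 2, 1, 4, 1⟩ :=
  leafX_sound T5.ok_pp T5.Ypp.bz_eq (w := 208) (c := ⟨⟨.negSucc 46, .negSucc 322, .ofNat 213, .negSucc 495, .negSucc 670, .negSucc 1659⟩, ⟨.ofNat 27, .negSucc 172, .negSucc 21, .negSucc 154, .negSucc 234, .negSucc 565⟩, ⟨.negSucc 422, .ofNat 149, .negSucc 47, .negSucc 301, .ofNat 1026, .ofNat 1172⟩, ⟨.negSucc 6, .negSucc 379, .ofNat 319, .negSucc 1081, .negSucc 1196, .negSucc 2913⟩, ⟨.negSucc 463, .ofNat 44, .ofNat 59, .ofNat 633, .ofNat 140, .ofNat 109⟩, .ofNat 533, .negSucc 537, .ofNat 0, .negSucc 537, .ofNat 1842, .ofNat 0, .ofNat 128, .ofNat 212, .negSucc 181, .ofNat 0, .ofNat 118, .negSucc 47, .ofNat 0, .ofNat 0, .ofNat 331, .ofNat 697, .ofNat 0, .ofNat 0, .ofNat 0, .ofNat 0, .ofNat 0, .ofNat 0, .ofNat 0, .ofNat 0, .ofNat 0, .ofNat 0, .ofNat 4973026288717921297792624289271250944, .ofNat 0, .ofNat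 0, .ofNat 0, .ofNat 2383306208001361750101576337468686336, .ofNat 0⟩)
    (by decide +kernel)
theorem L01402 : Good (Phi V5.P V5.D 1 1) ⟨4, 11, 3, 2, 2, 3, 2, 1, 4, 1⟩ :=
  leafX_sound T5.ok_pp T5.Ypp.bz_eq (w := 209) (c := ⟨⟨.negSucc 948, .negSucc 541, .ofNat 599, .ofNat 1194, .negSucc 1348, .negSucc 1457⟩, ⟨.negSucc 284, .negSucc 175, .negSucc 73, .ofNat 460, .negSucc 449, .negSucc 500⟩, ⟨.negSucc 418, .ofNat 432, .negSucc 264, .negSucc 497, .ofNat 1110, .ofNat 992⟩, ⟨.negSucc 1692, .negSucc 778, .ofNat 935, .ofNat 1445, .negSucc 2550, .negSucc 2703⟩, ⟨.negSucc 163, .ofNat 191, .negSucc 161, .ofNat 1771, .ofNat 738, .ofNat 656⟩, .ofNat 860, .negSucc 1362, .ofNat 0, .negSucc 1362, .ofNat 4222, .ofNat 0, .ofNat 128, .ofNat 314, .negSucc 276, .ofNat 0, .ofNat 140, .negSucc 81, .ofNat 0, .ofNat 0, .ofNat 413, .ofNat 396, .ofNat 0, .ofNat 0, .ofNat 37060571992337724232918817465958400,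 .ofNat 0, .ofNat 0, .ofNat 0, .ofNat 0, .ofNat 0, .ofNat 0, .ofNat 0, .ofNat 3167746747633089327745275482205061120, .ofNat 0, .ofNat 0, .ofNat 0, .ofNat 0, .ofNat 0⟩)
    (by decide +kernel)
theorem L01403 : Good (Phi V5.P V5.D 1 1) ⟨3, 6, 3, 2, 2, 2, 3, 2, 4, 0⟩ :=
  leafX_sound T5.ok_pp T5.Ypp.bz_eq (w := 209) (c := ⟨⟨.ofNat 3638, .ofNat 1305, .negSucc 12, .ofNat 309, .ofNat 141, .negSucc 4630⟩, ⟨.ofNat 1345, .ofNat 925, .ofNat 170, .ofNat 165, .ofNat 107, .negSucc 2024⟩, ⟨.negSucc 2197, .negSucc 502, .negSucc 26, .negSucc 632, .negSucc 16, .ofNat 2207⟩, ⟨.ofNat 5896, .ofNat 1449, .negSucc 44, .ofNat 182, .ofNat 155, .negSucc 7140⟩, ⟨.ofNat 337, .negSucc 16, .negSucc 210, .ofNat 702, .ofNat 123, .negSucc 600⟩, .ofNat 509, .negSucc 442, .ofNat 0, .negSucc 442, .ofNat 1173, .ofNat 0, .ofNat 128, .ofNat 292, .negSucc 325, .ofNat 0, .ofNat 188, .negSucc 115, .ofNat 0, .ofNat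 0, .ofNat 418, .ofNat 571, .ofNat 0, .ofNat 0, .ofNat 4267620263638248678350346978139832320, .ofNat 0, .ofNat 0, .ofNat 0, .ofNat 17284125879093259082455757769473523712, .ofNat 0, .ofNat 0, .ofNat 0, .ofNat 174149506615963217566529299570648678400, .ofNat 0, .ofNat 0, .ofNat 0, .ofNat 100267111140392048574702166438295109632, .ofNat 0⟩)
    (by decide +kernel)
theorem L01404 : Good (Phi V5.P V5.D 1 1) ⟨3, 6, 3, 2, 2, 2, 3, 3, 4, 0⟩ :=
  leafX_sound T5.ok_pp T5.Ypp.bz_eq (w := 209) (c := ⟨⟨.ofNat 4094, .ofNat 1178, .negSucc 226, .ofNat 332, .negSucc 555, .negSucc 5184⟩, ⟨.ofNat 1639, .ofNat 785, .ofNat 28, .ofNat 155, .negSucc 230, .negSucc 2266⟩, ⟨.negSucc 2586, .negSucc 542, .ofNat 93, .negSucc 338, .ofNat 409, .ofNat 2798⟩, ⟨.ofNat 6542, .ofNat 1311, .negSucc 468, .ofNat 171, .negSucc 920, .negSucc 7960⟩, ⟨.ofNat 354, .negSucc 77, .ofNat 172, .ofNat 854, .ofNat 81, .negSucc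 682⟩, .ofNat 701, .negSucc 776, .ofNat 0, .negSucc 776, .ofNat 1865, .ofNat 0, .ofNat 128, .ofNat 256, .negSucc 284, .ofNat 0, .ofNat 157, .negSucc 111, .ofNat 0, .ofNat 0, .ofNat 319, .ofNat 201, .ofNat 0, .ofNat 0, .ofNat 5990619414845547267213327887545401344, .ofNat 0, .ofNat 0, .ofNat 0, .ofNat 44458946052827665207863120414313021440, .ofNat 0, .ofNat 0, .ofNat 0, .ofNat 153467164031170995466625395466520494080, .ofNat 0, .ofNat 0, .ofNat 0, .ofNat 47560061316217080138177656980408107008, .ofNat 0⟩)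
    (by decide +kernel)
theorem L01405 : Good (Phi V5.P V5.D 1 1) ⟨3, 6, 4, 4, 3, 6, 2, 1, 5, 0⟩ :=
  leafX_sound T5.ok_pp T5.Ypp.bz_eq (w := 228) (c := ⟨⟨.ofNat 3982, .ofNat 1969, .ofNat 119, .negSucc 727, .negSucc 312, .negSucc 2964⟩, ⟨.ofNat 1531, .ofNat 1298, .ofNat 100, .negSucc 237, .negSucc 78, .negSucc 1204⟩, ⟨.negSucc 3034, .negSucc 1203, .negSucc 67, .ofNat 219, .ofNat 767, .ofNat 1605⟩, ⟨.ofNat 6079, .ofNat 2360, .ofNat 171, .negSucc 1604, .negSucc 630, .negSucc 4486⟩, ⟨.ofNat 1383, .ofNat 61, .negSucc 185, .ofNat 1140, .ofNat 140, .negSucc 759⟩, .ofNat 723, .negSucc 807, .ofNat 0, .negSucc 807, .ofNat 1955, .ofNat 0, .ofNat 128, .ofNat 274, .negSucc 672, .ofNat 0, .ofNat 161, .negSucc 257, .ofNat 0, .ofNat 0, .ofNat 583, .ofNat 302, .ofNat 0, .ofNat 0, .ofNat 309918150442192885754564357229195135287296, .ofNat 0, .ofNat 0, .ofNat 0, .ofNat 2773083431740245543279567617280641614217216,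 .ofNat 0, .ofNat 0, .ofNat 0, .ofNat 13655041026577524119724095049580880441901056, .ofNat 0, .ofNat 0, .ofNat 0, .ofNat 8565569198512769608043384982353893153308672, .ofNat 0⟩)
    (by decide +kernel)
theorem L01406 : Good (Phi V5.P V5.D 1 1) ⟨3, 6, 4, 5, 3, 6, 2, 1, 5, 0⟩ :=
  leafX_sound T5.ok_pp T5.Ypp.bz_eq (w := 228) (c := ⟨⟨.ofNat 4339, .ofNat 1345, .negSucc 170, .negSucc 1061, .negSucc 860, .negSucc 3124⟩, ⟨.ofNat 1788, .ofNat 1030, .negSucc 58, .negSucc 402, .negSucc 340, .negSucc 1377⟩, ⟨.negSucc 3331, .negSucc 683, .ofNat 111, .ofNat 561, .ofNat 1018, .ofNat 1642⟩, ⟨.ofNat 6728, .ofNat 1602, .negSucc 312, .negSucc 2236, .negSucc 1630, .negSucc 4752⟩, ⟨.ofNat 1047, .negSucc 512, .ofNat 13, .ofNat 1207, .ofNat 489, .negSucc 544⟩, .ofNat 776, .negSucc 920, .ofNat 0, .negSucc 920, .ofNat 2134, .ofNat 0, .ofNat 128, .ofNat 410, .negSucc 696, .ofNat 0, .ofNat 233, .negSucc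 289, .ofNat 0, .ofNat 0, .ofNat 613, .ofNat 421, .ofNat 0, .ofNat 0, .ofNat 568011273313719106146754911706028800212992, .ofNat 0, .ofNat 0, .ofNat 0, .ofNat 8777337212709387412108537550119266364162048, .ofNat 0, .ofNat 0, .ofNat 0, .ofNat 26715437383019472807585617720571872195641344, .ofNat 0, .ofNat 0, .ofNat 0, .ofNat 24888131223391567598338793151544128012550144, .ofNat 0⟩)
    (by decide +kernel)
theorem L01407 : Good (Phi V5.P V5.D 1 1) ⟨4, 12, 3, 2, 3, 7, 3, 2, 5, 0⟩ :=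
  leafX_sound T5.ok_pp T5.Ypp.bz_eq (w := 233) (c := ⟨⟨.ofNat 2331, .ofNat 821, .negSucc 430, .ofNat 909, .negSucc 100, .negSucc 2090⟩, ⟨.ofNat 984, .ofNat 651, .negSucc 209, .ofNat 491, .negSucc 29, .negSucc 984⟩, ⟨.negSucc 1967, .negSucc 196, .ofNat 88, .ofNat 777, .ofNat 113, .ofNat 554⟩, ⟨.ofNat 3009, .ofNat 812, .negSucc 906, .ofNat 954, .negSucc 263, .negSucc 2874⟩, ⟨.ofNat 2555, .ofNat 533, .negSucc 221, .ofNat 1036, .ofNat 204, .negSucc 1036⟩, .ofNat 681, .negSucc 795, .ofNat 0, .negSucc 795, .ofNat 2085, .ofNat 0, .ofNat 128, .ofNat 482, .negSucc 653, .ofNat 0, .ofNat 258, .negSucc 237, .ofNat 0, .ofNat 0, .ofNat 597, .ofNat 473, .ofNat 0, .ofNat 0, .ofNat 3335881344783756068314777364484326063865856, .ofNat 0, .ofNat 0, .ofNat 0, .ofNat 8346577127854127743806392870701677020184576, .ofNat 0, .ofNat 0, .ofNat 0, .ofNat 90566353624493238989823817165659380366966784, .ofNat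 0, .ofNat 0, .ofNat 0, .ofNat 0, .ofNat 0⟩)
    (by decide +kernel)
theorem L01408 : Good (Phi V5.P V5.D 1 1) ⟨4, 12, 3, 2, 4, 14, 3, 3, 5, 0⟩ :=
  leafX_sound T5.ok_pp T5.Ypp.bz_eq (w := 247) (c := ⟨⟨.ofNat 3149, .ofNat 407, .negSucc 616, .negSucc 875, .negSucc 1315, .negSucc 2646⟩, ⟨.ofNat 1386, .ofNat 371, .negSucc 283, .negSucc 324, .negSucc 519, .negSucc 1206⟩, ⟨.negSucc 2299, .negSucc 150, .ofNat 331, .ofNat 765, .ofNat 917, .ofNat 1217⟩, ⟨.ofNat 4329, .ofNat 443, .negSucc 1212, .negSucc 1734, .negSucc 2471, .negSucc 4009⟩, ⟨.ofNat 2282, .ofNat 64, .negSucc 48, .ofNat 760, .ofNat 777, .negSucc 476⟩, .ofNat 537, .negSucc 512, .ofNat 0, .negSucc 512, .ofNat 1422, .ofNat 0, .ofNat 128, .ofNat 507, .negSucc 1488, .ofNat 0, .ofNat 287, .negSucc 521, .ofNat 0, .ofNat 0, .ofNat 1126, .ofNat 317, .ofNat 0, .ofNat 0, .ofNat 0, .ofNat 0, .ofNat 0, .ofNat 0, .ofNat 77838683349874781869146270489819322829944913920,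 .ofNat 0, .ofNat 0, .ofNat 0, .ofNat 1133785260177624455478544496980543003080802697216, .ofNat 0, .ofNat 0, .ofNat 0, .ofNat 0, .ofNat 0⟩)
    (by decide +kernel)
theorem L01409 : Good (Phi V5.P V5.D 1 1) ⟨4, 12, 3, 2, 5, 30, 3, 3, 5, 0⟩ :=
  leafX_sound T5.ok_pp T5.Ypp.bz_eq (w := 261) (c := ⟨⟨.ofNat 1734, .ofNat 526, .negSucc 531, .ofNat 483, .negSucc 1051, .negSucc 1578⟩, ⟨.ofNat 847, .ofNat 476, .negSucc 315, .ofNat 255, .negSucc 433, .negSucc 750⟩, ⟨.negSucc 1122, .negSucc 118, .ofNat 203, .negSucc 29, .ofNat 596, .ofNat 469⟩, ⟨.ofNat 1904, .ofNat 506, .negSucc 1294, .ofNat 610, .negSucc 1968, .negSucc 2185⟩, ⟨.ofNat 2782, .ofNat 278, .ofNat 380, .ofNat 260, .ofNat 643, .negSucc 790⟩, .ofNat 539, .negSucc 518, .ofNat 0, .negSucc 518, .ofNat 1456, .ofNat 0, .ofNat 128, .ofNat 381, .negSucc 893, .ofNat 0, .ofNat 214, .negSucc 299, .ofNat 0, .ofNat 0, .ofNat 686, .ofNat 1069,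 .ofNat 0, .ofNat 0, .ofNat 0, .ofNat 0, .ofNat 0, .ofNat 0, .ofNat 0, .ofNat 0, .ofNat 0, .ofNat 0, .ofNat 18377080397503192045283741227688035183313266231214080, .ofNat 0, .ofNat 0, .ofNat 0, .ofNat 2358519123459350687201517947704188858021213888315392, .ofNat 0⟩)
    (by decide +kernel)
theorem L01410 : Good (Phi V5.P V5.D 1 1) ⟨5, 24, 3, 2, 5, 31, 3, 3, 5, 0⟩ :=
  leafX_sound T5.ok_pp T5.Ypp.bz_eq (w := 265) (c := ⟨⟨.ofNat 2033, .ofNat 585, .negSucc 639, .ofNat 884, .negSucc 898, .negSucc 1508⟩, ⟨.ofNat 983, .ofNat 361, .negSucc 387, .ofNat 377, .negSucc 350, .negSucc 671⟩, ⟨.negSucc 928, .negSucc 185, .ofNat 58, .negSucc 102, .ofNat 428, .ofNat 300⟩, ⟨.ofNat 2094, .ofNat 724, .negSucc 1430, .ofNat 1328, .negSucc 1534, .negSucc 1943⟩, ⟨.ofNat 3508, .ofNat 231, .ofNat 368, .ofNat 323, .ofNat 139, .negSucc 1313⟩, .ofNat 537, .negSucc 525, .ofNat 0, .negSucc 525, .ofNat 1552,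 .ofNat 0, .ofNat 128, .ofNat 582, .negSucc 986, .ofNat 0, .ofNat 315, .negSucc 306, .ofNat 0, .ofNat 0, .ofNat 803, .ofNat 1467, .ofNat 0, .ofNat 0, .ofNat 0, .ofNat 0, .ofNat 0, .ofNat 0, .ofNat 698869054243713469987728220694238873380156520529920, .ofNat 0, .ofNat 0, .ofNat 0, .ofNat 0, .ofNat 0, .ofNat 0, .ofNat 0, .ofNat 0, .ofNat 0⟩)
    (by decide +kernel)
theorem L01411 : Good (Phi V5.P V5.D 1 1) ⟨5, 25, 4, 4, 5, 31, 3, 3, 5, 0⟩ :=
  leafX_sound T5.ok_pp T5.Ypp.bz_eq (w := 269) (c := ⟨⟨.ofNat 2736, .ofNat 802, .negSucc 492, .ofNat 1231, .negSucc 995, .negSucc 2042⟩, ⟨.ofNat 1398, .ofNat 543, .negSucc 230, .ofNat 547, .negSucc 390, .negSucc 967⟩, ⟨.negSucc 1150, .negSucc 164, .ofNat 137, .negSucc 183, .ofNat 448, .ofNat 437⟩, ⟨.ofNat 2960, .ofNat 978, .negSucc 973, .ofNat 1775, .negSucc 1685, .negSucc 2615⟩, ⟨.ofNat 3758, .ofNat 290, .ofNat 104, .ofNat 440, .ofNat 232,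 .negSucc 1542⟩, .ofNat 513, .negSucc 458, .ofNat 0, .negSucc 458, .ofNat 1293, .ofNat 0, .ofNat 128, .ofNat 633, .negSucc 901, .ofNat 0, .ofNat 366, .negSucc 292, .ofNat 0, .ofNat 0, .ofNat 681, .ofNat 1872, .ofNat 0, .ofNat 0, .ofNat 1514106599590690552807466459239605637547027777716224, .ofNat 0, .ofNat 0, .ofNat 0, .ofNat 1608381733754014038679961238097382300798586615496704, .ofNat 0, .ofNat 0, .ofNat 0, .ofNat 29430529905628591839425932008132169349627774597332992, .ofNat 0, .ofNat 0, .ofNat 0, .ofNat 15354325245982790267719580069164543498273842907840512, .ofNat 0⟩)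
    (by decide +kernel)
theorem L01412 : Good (Phi V5.P V5.D 1 1) ⟨5, 25, 4, 5, 5, 31, 3, 3, 5, 0⟩ :=
  leafX_sound T5.ok_pp T5.Ypp.bz_eq (w := 269) (c := ⟨⟨.ofNat 2291, .ofNat 530, .negSucc 427, .ofNat 1186, .negSucc 1053, .negSucc 1624⟩, ⟨.ofNat 1192, .ofNat 426, .negSucc 244, .ofNat 552, .negSucc 453, .negSucc 798⟩, ⟨.negSucc 1036, .negSucc 66, .ofNat 113, .negSucc 231, .ofNat 439, .ofNat 352⟩, ⟨.ofNat 2120, .ofNat 511, .negSucc 907, .ofNat 1751, .negSucc 1796, .negSucc 2002⟩, ⟨.ofNat 3690, .ofNat 366, .ofNat 236, .ofNat 239, .ofNat 321, .negSucc 1218⟩, .ofNat 861, .negSucc 1128, .ofNat 0, .negSucc 1128, .ofNat 2679, .ofNat 0, .ofNat 128, .ofNat 619, .negSucc 688, .ofNat 0, .ofNat 335, .negSucc 266, .ofNat 0, .ofNat 0, .ofNat 570, .ofNat 1371, .ofNat 0, .ofNat 0, .ofNat 1632884361636361406134291667691004132646945810284544, .ofNat 0, .ofNat 0, .ofNat 0, .ofNat 0, .ofNat 0,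 .ofNat 0, .ofNat 0, .ofNat 34447063890912797391413635027222426607510212036263936, .ofNat 0, .ofNat 0, .ofNat 0, .ofNat 0, .ofNat 0⟩)
    (by decide +kernel)
theorem L01413 : Good (Phi V5.P V5.D 1 1) ⟨5, 26, 3, 2, 3, 7, 3, 2, 5, 0⟩ :=
  leafX_sound T5.ok_pp T5.Ypp.bz_eq (w := 238) (c := ⟨⟨.ofNat 3917, .negSucc 1159, .negSucc 1105, .ofNat 1109, .negSucc 234, .negSucc 2418⟩, ⟨.ofNat 1943, .negSucc 384, .negSucc 488, .ofNat 636, .negSucc 68, .negSucc 1208⟩, ⟨.negSucc 3223, .ofNat 625, .ofNat 1008, .ofNat 753, .ofNat 213, .ofNat 797⟩, ⟨.ofNat 5807, .negSucc 1593, .negSucc 2444, .ofNat 904, .negSucc 633, .negSucc 3320⟩, ⟨.ofNat 881, .negSucc 686, .ofNat 1253, .ofNat 1700, .ofNat 571, .negSucc 954⟩, .ofNat 843, .negSucc 1043, .ofNat 0, .negSucc 1043, .ofNat 2339, .ofNat 0, .ofNat 128, .ofNat 705, .negSucc 1324, .ofNat 0, .ofNat 401, .negSucc 556, .ofNat 0, .ofNat 0, .ofNat 1167, .ofNat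 1581, .ofNat 0, .ofNat 0, .ofNat 2384930688995041733806504328519461329960960, .ofNat 0, .ofNat 0, .ofNat 0, .ofNat 26258119498869887084641180091163996355297280, .ofNat 0, .ofNat 0, .ofNat 0, .ofNat 176781326703714946834805227649166616679153664, .ofNat 0, .ofNat 0, .ofNat 0, .ofNat 71499222800082642811939461673095182703132672, .ofNat 0⟩)
    (by decide +kernel)
theorem L01414 : Good (Phi V5.P V5.D 1 1) ⟨5, 26, 4, 4, 3, 7, 3, 3, 5, 0⟩ :=
  out_sound (S := T5.ds_pp) T5.ok_pp (w := 59) (j := 3) (by decide +kernel)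
theorem L01415 : Good (Phi V5.P V5.D 1 1) ⟨5, 26, 4, 5, 4, 14, 3, 3, 5, 0⟩ :=
  leafX_sound T5.ok_pp T5.Ypp.bz_eq (w := 255) (c := ⟨⟨.ofNat 2114, .negSucc 893, .ofNat 1112, .negSucc 351, .negSucc 1809, .negSucc 2863⟩, ⟨.ofNat 1204, .negSucc 252, .ofNat 459, .negSucc 97, .negSucc 793, .negSucc 1382⟩, ⟨.negSucc 1558, .ofNat 649, .negSucc 744, .ofNat 483, .ofNat 1185, .ofNat 1318⟩, ⟨.ofNat 2439, .negSucc 1466, .ofNat 1424, .negSucc 988, .negSucc 3121, .negSucc 4152⟩, ⟨.ofNat 2036, .ofNat 162, .ofNat 305, .ofNat 934, .ofNat 733, .negSucc 535⟩, .ofNat 1146, .negSucc 1612, .ofNat 0, .negSucc 1612, .ofNat 3460, .ofNat 0, .ofNat 128, .ofNat 497, .negSucc 1209, .ofNat 0, .ofNat 279, .negSucc 522, .ofNat 0, .ofNat 0, .ofNat 944, .ofNat 1139, .ofNat 0, .ofNat 0, .ofNat 0, .ofNat 0, .ofNat 0, .ofNat 0, .ofNat 3337541526650537533683898191305002624489132916736, .ofNat 0, .ofNat 0, .ofNat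 0, .ofNat 571451556667501229200314900811816251456795705344, .ofNat 0, .ofNat 0, .ofNat 0, .ofNat 1529943196181735643287436307058645787842583724032, .ofNat 0⟩)
    (by decide +kernel)
theorem L01416 : Good (Phi V5.P V5.D 1 1) ⟨5, 26, 4, 5, 4, 15, 3, 3, 5, 0⟩ :=
  leafX_sound T5.ok_pp T5.Ypp.bz_eq (w := 255) (c := ⟨⟨.ofNat 1819, .negSucc 169, .negSucc 333, .ofNat 2441, .negSucc 1135, .negSucc 1981⟩, ⟨.ofNat 1127, .ofNat 31, .negSucc 177, .ofNat 1194, .negSucc 488, .negSucc 1017⟩, ⟨.negSucc 965, .negSucc 289, .ofNat 212, .negSucc 577, .ofNat 536, .ofNat 486⟩, ⟨.ofNat 1469, .ofNat 50, .negSucc 939, .ofNat 3388, .negSucc 2044, .negSucc 2440⟩, ⟨.ofNat 3235, .negSucc 1006, .ofNat 555, .ofNat 785, .ofNat 600, .negSucc 1335⟩, .ofNat 724, .negSucc 794, .ofNat 0, .negSucc 794, .ofNat 1792, .ofNat 0, .ofNat 128, .ofNat 686, .negSucc 1274, .ofNat 0, .ofNat 414, .negSucc 506, .ofNat 0, .ofNat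 0, .ofNat 946, .ofNat 1947, .ofNat 0, .ofNat 0, .ofNat 122875981482625525080098632850133467041686880256, .ofNat 0, .ofNat 0, .ofNat 0, .ofNat 423953605071145809073166202546374550150052839424, .ofNat 0, .ofNat 0, .ofNat 0, .ofNat 6388506290627267653508931925508283242279692402688, .ofNat 0, .ofNat 0, .ofNat 0, .ofNat 1205071899915998686420672929052711248089017483264, .ofNat 0⟩)
    (by decide +kernel)
theorem L01417 : Good (Phi V5.P V5.D 1 1) ⟨5, 27, 3, 2, 3, 7, 2, 1, 5, 0⟩ :=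
  out_sound (S := T5.ds_pp) T5.ok_pp (w := 57) (j := 3) (by decide +kernel)
theorem L01418 : Good (Phi V5.P V5.D 1 1) ⟨4, 12, 3, 2, 2, 3, 2, 1, 5, 1⟩ :=
  leafX_sound T5.ok_pp T5.Ypp.bz_eq (w := 213) (c := ⟨⟨.ofNat 440, .ofNat 88, .ofNat 70, .ofNat 1305, .negSucc 1090, .negSucc 1490⟩, ⟨.ofNat 175, .ofNat 174, .negSucc 66, .ofNat 666, .negSucc 402, .negSucc 621⟩, ⟨.negSucc 1324, .negSucc 81, .ofNat 24, .ofNat 46, .ofNat 867, .ofNat 612⟩, ⟨.ofNat 578, .ofNat 107, .negSucc 142, .ofNat 1414, .negSucc 2005, .negSucc 2362⟩, ⟨.ofNat 691, .negSucc 35, .ofNat 85, .ofNat 1548, .ofNat 500, .negSucc 16⟩, .ofNat 800, .negSucc 1039, .ofNat 0, .negSucc 1039, .ofNat 2649, .ofNat 0, .ofNat 128, .ofNat 283, .negSucc 401, .ofNat 0, .ofNat 149, .negSucc 145, .ofNat 0, .ofNat 0, .ofNat 405, .ofNat 226, .ofNat 0, .ofNat 0, .ofNat 2406846025115670311379093009964466176, .ofNat 0, .ofNat 0, .ofNat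 0, .ofNat 53613396604956098673166740114202689536, .ofNat 0, .ofNat 0, .ofNat 0, .ofNat 1593135897775311685737558286534705152, .ofNat 0, .ofNat 0, .ofNat 0, .ofNat 0, .ofNat 0⟩)
    (by decide +kernel)
theorem L01419 : Good (Phi V5.P V5.D 1 1) ⟨4, 13, 3, 2, 2, 3, 2, 1, 5, 1⟩ :=
  leafX_sound T5.ok_pp T5.Ypp.bz_eq (w := 215) (c := ⟨⟨.negSucc 2276, .negSucc 2784, .ofNat 2707, .ofNat 1870, .negSucc 1393, .negSucc 1638⟩, ⟨.negSucc 921, .negSucc 1075, .ofNat 1103, .ofNat 1045, .negSucc 565, .negSucc 772⟩, ⟨.ofNat 983, .ofNat 2102, .negSucc 2231, .negSucc 180, .ofNat 918, .ofNat 654⟩, ⟨.negSucc 3744, .negSucc 4158, .ofNat 4260, .ofNat 1981, .negSucc 2801, .negSucc 2503⟩, ⟨.ofNat 734, .negSucc 99, .negSucc 488, .ofNat 2029, .ofNat 1280, .negSucc 65⟩, .ofNat 705, .negSucc 792, .ofNat 0, .negSucc 792, .ofNat 1844, .ofNat 0, .ofNat 128, .ofNat 411, .negSucc 630, .ofNat 0, .ofNat 239,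 .negSucc 244, .ofNat 0, .ofNat 0, .ofNat 632, .ofNat 486, .ofNat 0, .ofNat 0, .ofNat 27240057220267022520725619040782909440, .ofNat 0, .ofNat 0, .ofNat 0, .ofNat 297982221861698548479529164584173699072, .ofNat 0, .ofNat 0, .ofNat 0, .ofNat 468103826919470434832093159050249764864, .ofNat 0, .ofNat 0, .ofNat 0, .ofNat 545826824661135384874335304813926940672, .ofNat 0⟩)
    (by decide +kernel)
theorem L01420 : Good (Phi V5.P V5.D 1 1) ⟨3, 6, 3, 2, 2, 2, 2, 1, 4, 1⟩ :=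
  leafX_sound T5.ok_pp T5.Ypp.bz_eq (w := 204) (c := ⟨⟨.negSucc 85, .negSucc 621, .negSucc 149, .negSucc 520, .negSucc 1008, .negSucc 1724⟩, ⟨.ofNat 61, .negSucc 432, .negSucc 221, .negSucc 177, .negSucc 412, .negSucc 691⟩, ⟨.negSucc 454, .ofNat 282, .ofNat 162, .negSucc 281, .ofNat 1244, .ofNat 1242⟩, ⟨.negSucc 25, .negSucc 588, .negSucc 219, .negSucc 1186, .negSucc 1765, .negSucc 2782⟩, ⟨.negSucc 475, .ofNat 226, .negSucc 115, .ofNat 848, .ofNat 277, .ofNat 4⟩, .ofNat 701, .negSucc 776, .ofNat 0, .negSucc 776, .ofNat 1865, .ofNat 0, .ofNat 128, .ofNat 229, .negSucc 204, .ofNat 0, .ofNat 146, .negSucc 73, .ofNat 0, .ofNat 0, .ofNat 339, .ofNat 563, .ofNat 0, .ofNat 0, .ofNat 0, .ofNat 0, .ofNat 0, .ofNat 0, .ofNat 4702000280388176841954577665497235456, .ofNat 0, .ofNat 0, .ofNat 0, .ofNat 14565571529107401086045456111063007232, .ofNat 0, .ofNat 0, .ofNat 0, .ofNat 7543559427028982238543891268297031680,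 .ofNat 0⟩)
    (by decide +kernel)
theorem L01421 : Good (Phi V5.P V5.D 1 1) ⟨3, 6, 3, 2, 3, 6, 2, 1, 4, 1⟩ :=
  leafX_sound T5.ok_pp T5.Ypp.bz_eq (w := 218) (c := ⟨⟨.negSucc 796, .negSucc 742, .negSucc 14, .negSucc 171, .negSucc 1899, .negSucc 1324⟩, ⟨.negSucc 163, .negSucc 342, .negSucc 272, .negSucc 3, .negSucc 766, .negSucc 529⟩, ⟨.negSucc 636, .ofNat 479, .ofNat 96, .ofNat 132, .ofNat 1691, .ofNat 1087⟩, ⟨.negSucc 1555, .negSucc 868, .negSucc 207, .negSucc 697, .negSucc 3252, .negSucc 1982⟩, ⟨.ofNat 429, .ofNat 384, .ofNat 268, .ofNat 1043, .ofNat 633, .negSucc 341⟩, .ofNat 865, .negSucc 1080, .ofNat 0, .negSucc 1080, .ofNat 2485, .ofNat 0, .ofNat 128, .ofNat 198, .negSucc 196, .ofNat 0, .ofNat 121, .negSucc 69, .ofNat 0, .ofNat 0, .ofNat 256, .ofNat 484, .ofNat 0, .ofNat 0, .ofNat 4300165931223428183413783358366973689856, .ofNat 0, .ofNat 0, .ofNat 0, .ofNat 139645316195206475025411126086205364502528,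 .ofNat 0, .ofNat 0, .ofNat 0, .ofNat 150706896837620564606276632124484986339328, .ofNat 0, .ofNat 0, .ofNat 0, .ofNat 69298578368352144516965679034311135723520, .ofNat 0⟩)
    (by decide +kernel)
theorem L01422 : Good (Phi V5.P V5.D 1 1) ⟨3, 6, 3, 2, 3, 7, 2, 1, 4, 1⟩ :=
  leafX_sound T5.ok_pp T5.Ypp.bz_eq (w := 219) (c := ⟨⟨.negSucc 1229, .negSucc 626, .ofNat 249, .ofNat 1700, .negSucc 1665, .negSucc 1417⟩, ⟨.negSucc 356, .negSucc 44, .negSucc 158, .ofNat 794, .negSucc 641, .negSucc 581⟩, ⟨.negSucc 8, .ofNat 398, .negSucc 150, .negSucc 857, .ofNat 1190, .ofNat 982⟩, ⟨.negSucc 2474, .negSucc 1367, .ofNat 279, .ofNat 2493, .negSucc 3113, .negSucc 2341⟩, ⟨.ofNat 1402, .ofNat 1369, .negSucc 153, .ofNat 450, .ofNat 1001, .ofNat 197⟩, .ofNat 701, .negSucc 776, .ofNat 0, .negSucc 776, .ofNat 1865, .ofNat 0, .ofNat 128, .ofNat 228, .negSucc 255, .ofNat 0, .ofNat 147, .negSucc 82,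 .ofNat 0, .ofNat 0, .ofNat 316, .ofNat 385, .ofNat 0, .ofNat 0, .ofNat 4938658387807050335951161226695576387584, .ofNat 0, .ofNat 0, .ofNat 0, .ofNat 56168881188120881919806288871150808203264, .ofNat 0, .ofNat 0, .ofNat 0, .ofNat 182924292108659601970518147166446934818816, .ofNat 0, .ofNat 0, .ofNat 0, .ofNat 69990113283461371054065351114575814066176, .ofNat 0⟩)
    (by decide +kernel)
theorem L01423 : Good (Phi V5.P V5.D 1 1) ⟨3, 7, 3, 2, 1, 1, 2, 1, 3, 0⟩ :=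
  out_sound (S := T5.ds_pp) T5.ok_pp (w := 45) (j := 3) (by decide +kernel)
theorem L01424 : Good (Phi V5.P V5.D 1 1) ⟨2, 2, 3, 2, 2, 2, 2, 0, 4, 2⟩ :=
  leafX_sound T5.ok_pp T5.Ypp.bz_eq (w := 201) (c := ⟨⟨.negSucc 1304, .negSucc 393, .negSucc 104, .negSucc 48, .negSucc 438, .negSucc 394⟩, ⟨.negSucc 100, .negSucc 506, .negSucc 203, .negSucc 5, .negSucc 149, .negSucc 139⟩, ⟨.ofNat 41, .negSucc 313, .ofNat 310, .negSucc 559, .ofNat 1201, .ofNat 501⟩, ⟨.negSucc 3002, .ofNat 311, .negSucc 172, .negSucc 275, .negSucc 803, .negSucc 632⟩, ⟨.negSucc 641, .ofNat 335, .negSucc 5, .ofNat 565, .ofNat 142, .negSucc 137⟩, .ofNat 870, .negSucc 1372, .ofNat 0, .negSucc 1372, .ofNat 4165, .ofNat 0, .ofNat 128, .ofNat 258, .negSucc 134, .ofNat 0, .ofNat 124, .negSucc 38, .ofNat 0, .ofNat 0, .ofNat 545, .ofNat 2926, .ofNat 3796596926590548315781478631200849395712, .ofNat 0, .ofNat 313541626463862046299134763632427008,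 .ofNat 0, .ofNat 0, .ofNat 0, .ofNat 57695966539598408497450731490995339264, .ofNat 0, .ofNat 0, .ofNat 0, .ofNat 0, .ofNat 0, .ofNat 59208013836231154042564636484026209665024, .ofNat 0, .ofNat 61651824101797051144378251192970510336, .ofNat 0⟩)
    (by decide +kernel)
theorem L01425 : Good (Phi V5.P V5.D 1 1) ⟨2, 2, 3, 2, 2, 2, 2, 0, 4, 3⟩ :=
  leafX_sound T5.ok_pp T5.Ypp.bz_eq (w := 201) (c := ⟨⟨.negSucc 1623, .negSucc 528, .negSucc 59, .ofNat 39, .negSucc 373, .ofNat 73⟩, ⟨.negSucc 167, .negSucc 598, .negSucc 187, .ofNat 26, .negSucc 133, .ofNat 19⟩, ⟨.ofNat 332, .negSucc 30, .ofNat 106, .negSucc 431, .ofNat 1055, .ofNat 150⟩, ⟨.negSucc 3618, .ofNat 125, .negSucc 52, .negSucc 79, .negSucc 668, .ofNat 193⟩, ⟨.negSucc 645, .ofNat 423, .negSucc 104, .ofNat 402, .ofNat 92, .negSucc 196⟩, .ofNat 536, .negSucc 543, .ofNat 0, .negSucc 543, .ofNat 1839, .ofNat 0, .ofNat 128, .ofNat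 157, .negSucc 68, .ofNat 0, .ofNat 104, .negSucc 13, .ofNat 0, .ofNat 0, .ofNat 388, .ofNat 4241, .ofNat 1635977133113051457656379498782995251200, .ofNat 0, .ofNat 2545485786884323050189122029685309440, .ofNat 0, .ofNat 0, .ofNat 0, .ofNat 65255304937567867508664585441553416192, .ofNat 0, .ofNat 0, .ofNat 0, .ofNat 137319418801303530921759448821439397888, .ofNat 0, .ofNat 55269670094799222466016110607489958936576, .ofNat 0, .ofNat 103265454016723673004307474988264325120, .ofNat 0⟩)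
    (by decide +kernel)
theorem L01426 : Good (Phi V5.P V5.D 1 1) ⟨3, 6, 3, 2, 2, 2, 2, 0, 4, 2⟩ :=
  leafX_sound T5.ok_pp T5.Ypp.bz_eq (w := 205) (c := ⟨⟨.negSucc 1789, .negSucc 186, .negSucc 43, .ofNat 83, .negSucc 600, .negSucc 282⟩, ⟨.negSucc 618, .negSucc 286, .negSucc 184, .ofNat 75, .negSucc 246, .negSucc 125⟩, ⟨.negSucc 280, .negSucc 51, .ofNat 117, .negSucc 512, .ofNat 1351, .ofNat 433⟩, ⟨.negSucc 2885, .ofNat 124, .negSucc 23, .negSucc 103, .negSucc 1046, .negSucc 366⟩, ⟨.negSucc 292, .ofNat 398, .negSucc 149, .ofNat 555, .ofNat 237, .negSucc 215⟩, .ofNat 850, .negSucc 1053, .ofNat 0, .negSucc 1053, .ofNat 2429, .ofNat 0, .ofNat 128, .ofNat 233, .negSucc 77, .ofNat 0, .ofNat 160, .negSucc 21, .ofNat 0, .ofNat 0, .ofNat 344, .ofNat 2240, .ofNat 0, .ofNat 0, .ofNat 0, .ofNat 0, .ofNat 0, .ofNat 0, .ofNat 19469169615209755902769478887284932608, .ofNat 0, .ofNat 0, .ofNat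 0, .ofNat 34837282213783340969399217101765345280, .ofNat 0, .ofNat 368533484193325246994916620318506557112320, .ofNat 0, .ofNat 2687220268095322359015736174421475328, .ofNat 0⟩)
    (by decide +kernel)
theorem L01427 : Good (Phi V5.P V5.D 1 1) ⟨3, 6, 3, 2, 2, 2, 2, 0, 4, 3⟩ :=
  leafX_sound T5.ok_pp T5.Ypp.bz_eq (w := 205) (c := ⟨⟨.negSucc 2212, .negSucc 303, .ofNat 5, .ofNat 71, .negSucc 434, .ofNat 159⟩, ⟨.negSucc 784, .negSucc 368, .negSucc 160, .ofNat 52, .negSucc 179, .ofNat 63⟩, ⟨.ofNat 248, .negSucc 34, .ofNat 89, .negSucc 443, .ofNat 1182, .ofNat 91⟩, ⟨.negSucc 3600, .ofNat 66, .ofNat 24, .ofNat 11, .negSucc 741, .ofNat 319⟩, ⟨.negSucc 261, .ofNat 157, .negSucc 47, .ofNat 223, .ofNat 176, .negSucc 180⟩, .ofNat 865, .negSucc 1080, .ofNat 0, .negSucc 1080, .ofNat 2485, .ofNat 0, .ofNat 128, .ofNat 170, .negSucc 58, .ofNat 0, .ofNat 125, .negSucc 13, .ofNat 0, .ofNat 0,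 .ofNat 403, .ofNat 3870, .ofNat 0, .ofNat 0, .ofNat 0, .ofNat 0, .ofNat 0, .ofNat 0, .ofNat 23830195877256903335483865797815697408, .ofNat 0, .ofNat 292527334814618561431105464001144605900800, .ofNat 0, .ofNat 50838872405849735511340419892669054976, .ofNat 0, .ofNat 913610616777974652125239936204515936567296, .ofNat 0, .ofNat 12549028120427029733941969711372697600, .ofNat 0⟩)
    (by decide +kernel)
theorem L01428 : Good (Phi V5.P V5.D 1 1) ⟨3, 7, 3, 2, 2, 2, 2, 0, 3, 1⟩ :=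
  out_sound (S := T5.ds_pp) T5.ok_pp (w := 45) (j := 3) (by decide +kernel)
theorem L01429 : Good (Phi V5.P V5.D 1 1) ⟨3, 4, 3, 2, 2, 3, 2, 0, 3, 1⟩ :=
  out_sound (S := T5.ds_pp) T5.ok_pp (w := 45) (j := 3) (by decide +kernel)
theorem L01430 : Good (Phi V5.P V5.D 1 1) ⟨4, 10, 3, 2, 2, 3, 2, 0, 3, 1⟩ :=
  out_sound (S := T5.ds_pp) T5.ok_pp (w := 51) (j := 3) (by decide +kernel)
theorem L01431 : Good (Phi V5.P V5.D 1 1) ⟨4, 11, 3, 2, 3, 6, 2, 0, 3, 1⟩ :=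
  leafX_sound T5.ok_pp T5.Ypp.bz_eq (w := 217) (c := ⟨⟨.negSucc 1743, .negSucc 118, .ofNat 5, .ofNat 207, .negSucc 582, .negSucc 26⟩, ⟨.negSucc 517, .negSucc 101, .negSucc 195, .ofNat 93, .negSucc 203, .negSucc 29⟩, ⟨.negSucc 493, .ofNat 18, .ofNat 175, .ofNat 56, .ofNat 1059, .ofNat 481⟩, ⟨.negSucc 3284, .negSucc 0, .ofNat 17, .ofNat 96, .negSucc 1015, .ofNat 160⟩, ⟨.ofNat 485, .ofNat 142, .negSucc 117, .ofNat 719, .ofNat 28, .negSucc 630⟩, .ofNat 536, .negSucc 545, .ofNat 0, .negSucc 545, .ofNat 1859, .ofNat 0, .ofNat 143, .ofNat 128, .negSucc 65, .ofNat 0, .ofNat 89, .negSucc 13, .ofNat 0, .ofNat 0, .ofNat 302, .ofNat 1762, .ofNat 82444206495991656572946182266949381606342656, .ofNat 0, .ofNat 0, .ofNat 0, .ofNat 0, .ofNat 0, .ofNat 0, .ofNat 0, .ofNat 0, .ofNat 0, .ofNat 0, .ofNat 0, .ofNat 1519736582955638135028029076865626446204239872, .ofNat 0, .ofNat 771940344776774852634803567939182133248,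 .ofNat 0⟩)
    (by decide +kernel)
theorem L01432 : Good (Phi V5.P V5.D 1 1) ⟨4, 11, 3, 2, 3, 7, 2, 0, 3, 1⟩ :=
  leafX_sound T5.ok_pp T5.Ypp.bz_eq (w := 217) (c := ⟨⟨.negSucc 1547, .negSucc 8, .ofNat 32, .ofNat 491, .negSucc 578, .negSucc 140⟩, ⟨.negSucc 449, .negSucc 13, .negSucc 218, .ofNat 201, .negSucc 199, .negSucc 82⟩, ⟨.negSucc 88, .negSucc 0, .ofNat 11, .ofNat 5, .ofNat 680, .ofNat 427⟩, ⟨.negSucc 3233, .ofNat 161, .ofNat 7, .ofNat 538, .negSucc 1046, .ofNat 64⟩, ⟨.ofNat 1446, .negSucc 43, .negSucc 43, .ofNat 861, .ofNat 159, .negSucc 869⟩, .ofNat 851, .negSucc 1324, .ofNat 0, .negSucc 1324, .ofNat 4057, .ofNat 0, .ofNat 128, .ofNat 164, .negSucc 62, .ofNat 0, .ofNat 91, .negSucc 17, .ofNat 0, .ofNat 0, .ofNat 297, .ofNat 1087, .ofNat 23868630094483831684006968240027141375262720, .ofNat 0, .ofNat 11693487118642933095774892699869511680, .ofNat 0, .ofNat 0, .ofNat 0,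 .ofNat 0, .ofNat 0, .ofNat 0, .ofNat 0, .ofNat 1830021018194420315235981173312796491776, .ofNat 0, .ofNat 1829034565156920494867486322982579480410718208, .ofNat 0, .ofNat 175889551214936128673949523043101442048, .ofNat 0⟩)
    (by decide +kernel)
theorem L01433 : Good (Phi V5.P V5.D 1 1) ⟨4, 12, 3, 2, 3, 6, 2, 0, 4, 2⟩ :=
  leafX_sound T5.ok_pp T5.Ypp.bz_eq (w := 223) (c := ⟨⟨.negSucc 1666, .negSucc 102, .ofNat 22, .ofNat 304, .negSucc 853, .negSucc 225⟩, ⟨.negSucc 526, .negSucc 84, .negSucc 199, .ofNat 185, .negSucc 352, .negSucc 114⟩, ⟨.negSucc 653, .ofNat 27, .ofNat 88, .ofNat 63, .ofNat 1267, .ofNat 361⟩, ⟨.negSucc 2963, .ofNat 28, .ofNat 63, .ofNat 120, .negSucc 1440, .negSucc 223⟩, ⟨.ofNat 537, .ofNat 72, .negSucc 235, .ofNat 861, .ofNat 187, .negSucc 321⟩, .ofNat 538, .negSucc 514, .ofNat 0, .negSucc 514, .ofNat 1434, .ofNat 0, .ofNat 128, .ofNat 132, .negSucc 93, .ofNat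 0, .ofNat 98, .negSucc 24, .ofNat 0, .ofNat 0, .ofNat 289, .ofNat 3158, .ofNat 0, .ofNat 0, .ofNat 0, .ofNat 0, .ofNat 0, .ofNat 0, .ofNat 48051271643310301581978628968257677164544, .ofNat 0, .ofNat 0, .ofNat 0, .ofNat 55845840139707405129917658402195853279232, .ofNat 0, .ofNat 11019574325011286981651759370618345076109082624, .ofNat 0, .ofNat 12222336710953459275766907901291884707840, .ofNat 0⟩)
    (by decide +kernel)
theorem L01434 : Good (Phi V5.P V5.D 1 1) ⟨4, 12, 3, 2, 3, 7, 2, 0, 4, 2⟩ :=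
  leafX_sound T5.ok_pp T5.Ypp.bz_eq (w := 222) (c := ⟨⟨.negSucc 1494, .ofNat 24, .ofNat 48, .ofNat 764, .negSucc 762, .negSucc 280⟩, ⟨.negSucc 433, .ofNat 43, .negSucc 223, .ofNat 385, .negSucc 286, .negSucc 138⟩, ⟨.negSucc 130, .negSucc 103, .ofNat 86, .negSucc 80, .ofNat 756, .ofNat 302⟩, ⟨.negSucc 2908, .ofNat 81, .ofNat 104, .ofNat 871, .negSucc 1409, .negSucc 345⟩, ⟨.ofNat 1293, .ofNat 199, .negSucc 318, .ofNat 773, .ofNat 429, .negSucc 289⟩, .ofNat 678, .negSucc 783, .ofNat 0, .negSucc 783, .ofNat 2037, .ofNat 0, .ofNat 128, .ofNat 158, .negSucc 88, .ofNat 0, .ofNat 111, .negSucc 25, .ofNat 0, .ofNat 0, .ofNat 285, .ofNat 1429, .ofNat 0, .ofNat 0, .ofNat 0, .ofNat 0, .ofNat 0, .ofNat 0, .ofNat 0, .ofNat 0, .ofNat 0, .ofNat 0, .ofNat 0, .ofNat 0, .ofNat 9762947573029393985172480971289145735011893248, .ofNat 0, .ofNat 0, .ofNat 0⟩)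
    (by decide +kernel)
theorem L01435 : Good (Phi V5.P V5.D 1 1) ⟨4, 12, 3, 2, 2, 3, 2, 0, 4, 3⟩ :=
  leafX_sound T5.ok_pp T5.Ypp.bz_eq (w := 209) (c := ⟨⟨.negSucc 2025, .negSucc 73, .ofNat 41, .ofNat 822, .negSucc 640, .ofNat 38⟩, ⟨.negSucc 686, .negSucc 90, .negSucc 174, .ofNat 454, .negSucc 258, .negSucc 19⟩, ⟨.ofNat 81, .negSucc 49, .ofNat 92, .negSucc 42, .ofNat 901, .ofNat 68⟩, ⟨.negSucc 3416, .ofNat 58, .ofNat 109, .ofNat 598, .negSucc 1100, .ofNat 214⟩, ⟨.ofNat 218, .ofNat 115, .negSucc 276, .ofNat 1636, .ofNat 206, .negSucc 325⟩, .ofNat 536, .negSucc 514, .ofNat 0, .negSucc 514, .ofNat 1451, .ofNat 0, .ofNat 128, .ofNat 164, .negSucc 82, .ofNat 0, .ofNat 143, .negSucc 17, .ofNat 0, .ofNat 0, .ofNat 430, .ofNat 2577, .ofNat 0, .ofNat 0, .ofNat 0, .ofNat 0, .ofNat 0, .ofNat 0, .ofNat 4237481189673429664915275397732499456, .ofNat 0, .ofNat 0, .ofNat 0, .ofNat 16163850893203651542504289273020153856,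 .ofNat 0, .ofNat 14188941612311331865763419660751778051260416, .ofNat 0, .ofNat 2074678640570755175412380473290129408, .ofNat 0⟩)
    (by decide +kernel)
theorem L01436 : Good (Phi V5.P V5.D 1 1) ⟨4, 13, 3, 2, 2, 3, 2, 0, 4, 2⟩ :=
  leafX_sound T5.ok_pp T5.Ypp.bz_eq (w := 209) (c := ⟨⟨.negSucc 1884, .negSucc 66, .ofNat 28, .ofNat 1159, .negSucc 834, .negSucc 285⟩, ⟨.negSucc 659, .negSucc 38, .negSucc 196, .ofNat 673, .negSucc 364, .negSucc 154⟩, ⟨.negSucc 400, .ofNat 152, .ofNat 69, .negSucc 69, .ofNat 987, .ofNat 384⟩, ⟨.negSucc 3028, .ofNat 64, .ofNat 28, .ofNat 951, .negSucc 1451, .negSucc 284⟩, ⟨.ofNat 431, .negSucc 7, .negSucc 145, .ofNat 1776, .ofNat 360, .negSucc 329⟩, .ofNat 1077, .negSucc 1483, .ofNat 0, .negSucc 1483, .ofNat 3206, .ofNat 0, .ofNat 128, .ofNat 216, .negSucc 116, .ofNat 0, .ofNat 142, .negSucc 42, .ofNat 0, .ofNat 0, .ofNat 397, .ofNat 1487, .ofNat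 0, .ofNat 0, .ofNat 147914789544866687299615557221875712, .ofNat 0, .ofNat 0, .ofNat 0, .ofNat 14459882289005203278141134120591294464, .ofNat 0, .ofNat 0, .ofNat 0, .ofNat 8188331127712198210182594516807057408, .ofNat 0, .ofNat 8353947821239384286273519145832056652562432, .ofNat 0, .ofNat 4582957433646302273868995338245767168, .ofNat 0⟩)
    (by decide +kernel)
theorem L01437 : Good (Phi V5.P V5.D 1 1) ⟨4, 13, 3, 2, 2, 3, 2, 0, 4, 3⟩ :=
  leafX_sound T5.ok_pp T5.Ypp.bz_eq (w := 209) (c := ⟨⟨.negSucc 2016, .ofNat 194, .negSucc 55, .ofNat 874, .negSucc 634, .ofNat 15⟩, ⟨.negSucc 762, .ofNat 14, .negSucc 200, .ofNat 534, .negSucc 281, .negSucc 18⟩, ⟨.negSucc 71, .negSucc 361, .ofNat 116, .negSucc 28, .ofNat 943, .ofNat 148⟩, ⟨.negSucc 3120, .ofNat 433, .negSucc 137, .ofNat 558, .negSucc 1071, .ofNat 193⟩, ⟨.ofNat 162, .ofNat 98, .negSucc 39, .ofNat 1687, .ofNat 200, .negSucc 355⟩,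 .ofNat 1026, .negSucc 1388, .ofNat 0, .negSucc 1388, .ofNat 3021, .ofNat 0, .ofNat 128, .ofNat 242, .negSucc 85, .ofNat 0, .ofNat 173, .negSucc 27, .ofNat 0, .ofNat 0, .ofNat 514, .ofNat 3187, .ofNat 0, .ofNat 0, .ofNat 206264710316288103287602834298634240, .ofNat 0, .ofNat 0, .ofNat 0, .ofNat 42311286505550601085676002472223571968, .ofNat 0, .ofNat 0, .ofNat 0, .ofNat 27338500822387568793409907023878815744, .ofNat 0, .ofNat 21537512519553691755044866447486110750736384, .ofNat 0, .ofNat 13239079343013449079117409597303816192, .ofNat 0⟩)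
    (by decide +kernel)
theorem L01438 : Good (Phi V5.P V5.D 1 1) ⟨3, 7, 3, 2, 2, 3, 2, 0, 3, 1⟩ :=
  out_sound (S := T5.ds_pp) T5.ok_pp (w := 45) (j := 3) (by decide +kernel)
theorem L01439 : Good (Phi V5.P V5.D 1 1) ⟨2, 2, 3, 2, 2, 2, 2, 1, 4, 2⟩ :=
  leafX_sound T5.ok_pp T5.Ypp.bz_eq (w := 200) (c := ⟨⟨.negSucc 1454, .negSucc 584, .negSucc 87, .negSucc 302, .negSucc 569, .negSucc 294⟩, ⟨.negSucc 94, .negSucc 632, .negSucc 237, .negSucc 85, .negSucc 200, .negSucc 102⟩, ⟨.ofNat 717, .ofNat 109, .ofNat 101, .negSucc 262, .ofNat 947, .ofNat 459⟩, ⟨.negSucc 3484, .ofNat 183, .negSucc 65, .negSucc 725, .negSucc 957, .negSucc 474⟩, ⟨.negSucc 454, .ofNat 333, .negSucc 251, .ofNat 553, .negSucc 67, .negSucc 111⟩, .ofNat 534, .negSucc 539, .ofNat 0, .negSucc 539, .ofNat 1834, .ofNat 0, .ofNat 128, .ofNat 215, .negSucc 109, .ofNat 0, .ofNat 129, .negSucc 26, .ofNat 0, .ofNat 0, .ofNat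 291, .ofNat 748, .ofNat 0, .ofNat 0, .ofNat 0, .ofNat 0, .ofNat 0, .ofNat 0, .ofNat 13399224167267907644932859831009673216, .ofNat 0, .ofNat 0, .ofNat 0, .ofNat 0, .ofNat 0, .ofNat 0, .ofNat 0, .ofNat 47546757459031604182179434250446569472, .ofNat 0⟩)
    (by decide +kernel)
theorem L01440 : Good (Phi V5.P V5.D 1 1) ⟨2, 3, 3, 2, 2, 2, 2, 1, 4, 2⟩ :=
  leafX_sound T5.ok_pp T5.Ypp.bz_eq (w := 200) (c := ⟨⟨.negSucc 2144, .negSucc 1134, .ofNat 3, .negSucc 380, .negSucc 795, .negSucc 108⟩, ⟨.negSucc 714, .negSucc 961, .negSucc 232, .negSucc 111, .negSucc 344, .negSucc 49⟩, ⟨.ofNat 879, .ofNat 452, .ofNat 66, .negSucc 192, .ofNat 1146, .ofNat 327⟩, ⟨.negSucc 3513, .negSucc 580, .ofNat 20, .negSucc 855, .negSucc 1275, .negSucc 136⟩, ⟨.negSucc 180, .ofNat 230, .negSucc 31, .ofNat 546, .ofNat 47, .negSucc 117⟩, .ofNat 581, .negSucc 489, .ofNat 0, .negSucc 489, .ofNat 1050, .ofNat 0,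 .ofNat 133, .ofNat 128, .negSucc 122, .ofNat 0, .ofNat 113, .negSucc 36, .ofNat 0, .ofNat 0, .ofNat 285, .ofNat 569, .ofNat 0, .ofNat 0, .ofNat 751158957582758610678336230478839808, .ofNat 0, .ofNat 0, .ofNat 0, .ofNat 8228209418449924303786284185045434368, .ofNat 0, .ofNat 0, .ofNat 0, .ofNat 23362522583505473235769206014956535808, .ofNat 0, .ofNat 0, .ofNat 0, .ofNat 3811691700999429374040552123343568896, .ofNat 0⟩)
    (by decide +kernel)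
theorem L01441 : Good (Phi V5.P V5.D 1 1) ⟨2, 2, 3, 2, 2, 2, 2, 1, 4, 3⟩ :=
  leafX_sound T5.ok_pp T5.Ypp.bz_eq (w := 201) (c := ⟨⟨.negSucc 1895, .negSucc 629, .negSucc 126, .negSucc 112, .negSucc 373, .ofNat 186⟩, ⟨.negSucc 237, .negSucc 657, .negSucc 234, .negSucc 30, .negSucc 132, .ofNat 60⟩, ⟨.ofNat 1234, .ofNat 113, .ofNat 183, .negSucc 288, .ofNat 790, .ofNat 57⟩, ⟨.negSucc 4286, .ofNat 138, .negSucc 203, .negSucc 304, .negSucc 604, .ofNat 375⟩, ⟨.negSucc 330, .ofNat 183, .ofNat 13, .ofNat 308, .negSucc 94, .negSucc 154⟩, .ofNat 533, .negSucc 538, .ofNat 0, .negSucc 538, .ofNat 1839, .ofNat 0, .ofNat 128, .ofNat 134, .negSucc 55, .ofNat 0, .ofNat 87, .negSucc 12, .ofNat 0, .ofNat 0, .ofNat 239, .ofNat 1457, .ofNat 0, .ofNat 0, .ofNat 0, .ofNat 0, .ofNat 0, .ofNat 0, .ofNat 59157329402266454075283091298732474368, .ofNat 0, .ofNat 0, .ofNat 0, .ofNat 19179982966971351857195863031913906176,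 .ofNat 0, .ofNat 0, .ofNat 0, .ofNat 61416233059528145023457835950675066880, .ofNat 0⟩)
    (by decide +kernel)
theorem L01442 : Good (Phi V5.P V5.D 1 1) ⟨3, 6, 3, 2, 2, 2, 2, 1, 4, 3⟩ :=
  leafX_sound T5.ok_pp T5.Ypp.bz_eq (w := 205) (c := ⟨⟨.negSucc 2592, .negSucc 432, .ofNat 4, .negSucc 114, .negSucc 491, .ofNat 263⟩, ⟨.negSucc 925, .negSucc 450, .negSucc 186, .negSucc 14, .negSucc 214, .ofNat 101⟩, ⟨.ofNat 1403, .ofNat 82, .ofNat 98, .negSucc 299, .ofNat 903, .negSucc 9⟩, ⟨.negSucc 4278, .negSucc 81, .ofNat 34, .negSucc 332, .negSucc 758, .ofNat 526⟩, ⟨.negSucc 74, .ofNat 158, .negSucc 59, .ofNat 335, .negSucc 48, .negSucc 297⟩, .ofNat 509, .negSucc 442, .ofNat 0, .negSucc 442, .ofNat 1173, .ofNat 0, .ofNat 128, .ofNat 151, .negSucc 69, .ofNat 0, .ofNat 123, .negSucc 17, .ofNat 0, .ofNat 0, .ofNat 262, .ofNat 1451, .ofNat 0, .ofNat 0, .ofNat 285756678095011550795557280241680384,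 .ofNat 0, .ofNat 0, .ofNat 0, .ofNat 4148815063457496090327398813857218560, .ofNat 0, .ofNat 0, .ofNat 0, .ofNat 13282472314114665467499264067038609408, .ofNat 0, .ofNat 0, .ofNat 0, .ofNat 3254251910319567103913370985777070080, .ofNat 0⟩)
    (by decide +kernel)
theorem L01443 : Good (Phi V5.P V5.D 1 1) ⟨3, 7, 3, 2, 2, 2, 2, 1, 4, 3⟩ :=
  out_sound (S := T5.ds_pp) T5.ok_pp (w := 45) (j := 3) (by decide +kernel)
theorem L01444 : Good (Phi V5.P V5.D 1 1) ⟨3, 4, 3, 2, 2, 3, 2, 1, 3, 1⟩ :=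
  out_sound (S := T5.ds_pp) T5.ok_pp (w := 45) (j := 3) (by decide +kernel)
theorem L01445 : Good (Phi V5.P V5.D 1 1) ⟨4, 10, 3, 2, 2, 3, 2, 1, 3, 1⟩ :=
  out_sound (S := T5.ds_pp) T5.ok_pp (w := 51) (j := 3) (by decide +kernel)
theorem L01446 : Good (Phi V5.P V5.D 1 1) ⟨4, 11, 3, 2, 3, 6, 2, 1, 3, 1⟩ :=
  leafX_sound T5.ok_pp T5.Ypp.bz_eq (w := 218) (c := ⟨⟨.negSucc 2618, .negSucc 216, .ofNat 42, .ofNat 127, .negSucc 614, .ofNat 451⟩, ⟨.negSucc 792, .negSucc 165, .negSucc 200, .ofNat 64, .negSucc 217, .ofNat 125⟩, ⟨.ofNat 871, .ofNat 88, .ofNat 85, .negSucc 63, .ofNat 874, .ofNat 158⟩, ⟨.negSucc 4883, .negSucc 74, .ofNat 30, .negSucc 21, .negSucc 1038, .ofNat 1034⟩, ⟨.ofNat 638, .ofNat 53, .negSucc 75, .ofNat 681, .negSucc 41, .negSucc 764⟩, .ofNat 852, .negSucc 1327, .ofNat 0, .negSucc 1327, .ofNat 4069, .ofNat 0, .ofNat 128, .ofNat 222, .negSucc 97, .ofNat 0, .ofNat 113,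 .negSucc 27, .ofNat 0, .ofNat 0, .ofNat 361, .ofNat 616, .ofNat 0, .ofNat 0, .ofNat 11188573028407016716889771385219448832, .ofNat 0, .ofNat 0, .ofNat 0, .ofNat 0, .ofNat 0, .ofNat 0, .ofNat 0, .ofNat 2432661306859101013018023823532632309760, .ofNat 0, .ofNat 0, .ofNat 0, .ofNat 0, .ofNat 0⟩)
    (by decide +kernel)
theorem L01447 : Good (Phi V5.P V5.D 1 1) ⟨4, 11, 3, 2, 3, 7, 2, 1, 3, 1⟩ :=
  leafX_sound T5.ok_pp T5.Ypp.bz_eq (w := 217) (c := ⟨⟨.negSucc 2410, .negSucc 165, .ofNat 73, .ofNat 463, .negSucc 665, .ofNat 366⟩, ⟨.negSucc 716, .negSucc 100, .negSucc 238, .ofNat 201, .negSucc 231, .ofNat 86⟩, ⟨.ofNat 840, .ofNat 66, .negSucc 18, .negSucc 182, .ofNat 733, .ofNat 227⟩, ⟨.negSucc 4753, .negSucc 78, .ofNat 31, .ofNat 355, .negSucc 1196, .ofNat 1026⟩, ⟨.ofNat 1424, .ofNat 178, .ofNat 16, .ofNat 1295, .ofNat 56, .negSucc 1125⟩, .ofNat 533, .negSucc 536, .ofNat 0, .negSucc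 536, .ofNat 1839, .ofNat 0, .ofNat 201, .ofNat 128, .negSucc 68, .ofNat 0, .ofNat 97, .negSucc 12, .ofNat 0, .ofNat 0, .ofNat 275, .ofNat 508, .ofNat 0, .ofNat 0, .ofNat 7441932118182196446512992566846160896, .ofNat 0, .ofNat 0, .ofNat 0, .ofNat 0, .ofNat 0, .ofNat 0, .ofNat 0, .ofNat 479375521392007759019270522666764730368, .ofNat 0, .ofNat 0, .ofNat 0, .ofNat 709147184271980955883985308233553149952, .ofNat 0⟩)
    (by decide +kernel)
theorem L01448 : Good (Phi V5.P V5.D 1 1) ⟨3, 6, 3, 2, 3, 6, 2, 1, 4, 2⟩ :=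
  leafX_sound T5.ok_pp T5.Ypp.bz_eq (w := 219) (c := ⟨⟨.negSucc 2792, .negSucc 523, .ofNat 16, .ofNat 224, .negSucc 1136, .ofNat 285⟩, ⟨.negSucc 931, .negSucc 374, .negSucc 267, .ofNat 175, .negSucc 480, .ofNat 83⟩, ⟨.ofNat 869, .ofNat 356, .ofNat 55, .negSucc 100, .ofNat 1219, .ofNat 90⟩, ⟨.negSucc 4884, .negSucc 289, .negSucc 16, .negSucc 99, .negSucc 1892, .ofNat 726⟩, ⟨.ofNat 757, .ofNat 232, .negSucc 56, .ofNat 980, .ofNat 224, .negSucc 714⟩, .ofNat 701, .negSucc 776, .ofNat 0, .negSucc 776, .ofNat 1865, .ofNat 0, .ofNat 128, .ofNat 154, .negSucc 122, .ofNat 0, .ofNat 107, .negSucc 38, .ofNat 0, .ofNat 0, .ofNat 257, .ofNat 680, .ofNat 0, .ofNat 0, .ofNat 6214333074387567764940494722328426446848, .ofNat 0, .ofNat 0, .ofNat 0, .ofNat 103465618383963237324987414925620765786112, .ofNat 0, .ofNat 0, .ofNat 0, .ofNat 83198151851925310270366153784473254100992, .ofNat 0, .ofNat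 0, .ofNat 0, .ofNat 65202794613822841993302840457092852088832, .ofNat 0⟩)
    (by decide +kernel)
theorem L01449 : Good (Phi V5.P V5.D 1 1) ⟨4, 12, 3, 2, 3, 6, 2, 1, 4, 3⟩ :=
  leafX_sound T5.ok_pp T5.Ypp.bz_eq (w := 223) (c := ⟨⟨.negSucc 2700, .negSucc 163, .negSucc 17, .ofNat 235, .negSucc 711, .ofNat 358⟩, ⟨.negSucc 921, .negSucc 158, .negSucc 238, .ofNat 144, .negSucc 312, .ofNat 124⟩, ⟨.ofNat 1179, .ofNat 60, .ofNat 55, .negSucc 168, .ofNat 933, .negSucc 98⟩, ⟨.negSucc 4626, .ofNat 11, .negSucc 17, .ofNat 99, .negSucc 1092, .ofNat 759⟩, ⟨.ofNat 372, .ofNat 83, .negSucc 64, .ofNat 619, .negSucc 74, .negSucc 443⟩, .ofNat 687, .negSucc 807, .ofNat 0, .negSucc 807, .ofNat 2100, .ofNat 0, .ofNat 128, .ofNat 149, .negSucc 49, .ofNat 0, .ofNat 102, .negSucc 13, .ofNat 0, .ofNat 0, .ofNat 213, .ofNat 1443, .ofNat 0, .ofNat 0, .ofNat 2243571311582930299806271639260619603968, .ofNat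 0, .ofNat 0, .ofNat 0, .ofNat 79725411593083374877881023234315344936960, .ofNat 0, .ofNat 0, .ofNat 0, .ofNat 0, .ofNat 0, .ofNat 0, .ofNat 0, .ofNat 0, .ofNat 0⟩)
    (by decide +kernel)
theorem L01450 : Good (Phi V5.P V5.D 1 1) ⟨4, 13, 3, 2, 3, 6, 2, 1, 4, 3⟩ :=
  leafX_sound T5.ok_pp T5.Ypp.bz_eq (w := 224) (c := ⟨⟨.negSucc 2979, .ofNat 91, .ofNat 86, .ofNat 246, .negSucc 809, .ofNat 403⟩, ⟨.negSucc 1146, .negSucc 46, .negSucc 182, .ofNat 169, .negSucc 386, .ofNat 151⟩, ⟨.ofNat 1253, .ofNat 145, .ofNat 17, .negSucc 152, .ofNat 1010, .negSucc 123⟩, ⟨.negSucc 4788, .ofNat 350, .ofNat 150, .ofNat 36, .negSucc 1207, .ofNat 857⟩, ⟨.ofNat 457, .ofNat 183, .negSucc 86, .ofNat 731, .negSucc 86, .negSucc 505⟩, .ofNat 846, .negSucc 1049, .ofNat 0, .negSucc 1049, .ofNat 2351, .ofNat 0, .ofNat 128, .ofNat 173, .negSucc 58, .ofNat 0, .ofNat 120, .negSucc 19, .ofNat 0, .ofNat 0, .ofNat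 239, .ofNat 2051, .ofNat 0, .ofNat 0, .ofNat 3660723082000629417089256842996050034688, .ofNat 0, .ofNat 0, .ofNat 0, .ofNat 199255584023665317317964121658445740900352, .ofNat 0, .ofNat 0, .ofNat 0, .ofNat 326764023531856092191086497650431620022272, .ofNat 0, .ofNat 0, .ofNat 0, .ofNat 39061622216242507735476328840182766764032, .ofNat 0⟩)
    (by decide +kernel)
theorem L01451 : Good (Phi V5.P V5.D 1 1) ⟨4, 12, 3, 2, 3, 7, 2, 1, 4, 2⟩ :=
  leafX_sound T5.ok_pp T5.Ypp.bz_eq (w := 222) (c := ⟨⟨.negSucc 2577, .negSucc 115, .ofNat 18, .ofNat 900, .negSucc 1094, .ofNat 136⟩, ⟨.negSucc 816, .negSucc 28, .negSucc 308, .ofNat 464, .negSucc 426, .ofNat 21⟩, ⟨.ofNat 901, .ofNat 65, .ofNat 42, .negSucc 490, .ofNat 1015, .ofNat 158⟩, ⟨.negSucc 4763, .negSucc 91, .negSucc 107, .ofNat 852, .negSucc 1965, .ofNat 495⟩, ⟨.ofNat 1521, .ofNat 333, .ofNat 4, .ofNat 1378, .ofNat 386, .negSucc 717⟩,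 .ofNat 535, .negSucc 510, .ofNat 0, .negSucc 510, .ofNat 1440, .ofNat 0, .ofNat 128, .ofNat 143, .negSucc 106, .ofNat 0, .ofNat 109, .negSucc 24, .ofNat 0, .ofNat 0, .ofNat 242, .ofNat 550, .ofNat 0, .ofNat 0, .ofNat 1267368953681005635491833061877684895744, .ofNat 0, .ofNat 0, .ofNat 0, .ofNat 5909501671232354792074922318999186309120, .ofNat 0, .ofNat 0, .ofNat 0, .ofNat 0, .ofNat 0, .ofNat 0, .ofNat 0, .ofNat 0, .ofNat 0⟩)
    (by decide +kernel)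
theorem L01452 : Good (Phi V5.P V5.D 1 1) ⟨4, 13, 3, 2, 3, 7, 2, 1, 4, 2⟩ :=
  leafX_sound T5.ok_pp T5.Ypp.bz_eq (w := 223) (c := ⟨⟨.negSucc 2780, .negSucc 106, .ofNat 65, .ofNat 1173, .negSucc 1249, .ofNat 123⟩, ⟨.negSucc 859, .ofNat 10, .negSucc 310, .ofNat 673, .negSucc 538, .ofNat 1⟩, ⟨.ofNat 1030, .ofNat 246, .negSucc 4, .negSucc 620, .ofNat 1081, .ofNat 166⟩, ⟨.negSucc 4885, .ofNat 13, .negSucc 52, .ofNat 1047, .negSucc 2240, .ofNat 555⟩, ⟨.ofNat 1579, .ofNat 42, .ofNat 15, .ofNat 1636, .ofNat 666, .negSucc 777⟩, .ofNat 843, .negSucc 1045, .ofNat 0, .negSucc 1045, .ofNat 2346, .ofNat 0, .ofNat 128, .ofNat 191, .negSucc 116, .ofNat 0, .ofNat 129, .negSucc 38, .ofNat 0, .ofNat 0, .ofNat 273, .ofNat 918, .ofNat 0, .ofNat 0, .ofNat 3241057076437441622353058905080880693248, .ofNat 0, .ofNat 0, .ofNat 0, .ofNat 109260947292066705698876815454667127390208, .ofNat 0, .ofNat 0,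 .ofNat 0, .ofNat 115427207663262542387885015942286058455040, .ofNat 0, .ofNat 0, .ofNat 0, .ofNat 4154980305049960361935712310972846702592, .ofNat 0⟩)
    (by decide +kernel)
theorem L01453 : Good (Phi V5.P V5.D 1 1) ⟨4, 12, 3, 2, 3, 7, 2, 1, 4, 3⟩ :=
  leafX_sound T5.ok_pp T5.Ypp.bz_eq (w := 223) (c := ⟨⟨.negSucc 2510, .negSucc 119, .ofNat 32, .ofNat 653, .negSucc 708, .ofNat 302⟩, ⟨.negSucc 816, .negSucc 74, .negSucc 258, .ofNat 372, .negSucc 301, .ofNat 97⟩, ⟨.ofNat 1078, .ofNat 80, .negSucc 5, .negSucc 233, .ofNat 801, .negSucc 17⟩, ⟨.negSucc 4541, .ofNat 32, .negSucc 32, .ofNat 403, .negSucc 1142, .ofNat 744⟩, ⟨.ofNat 1033, .ofNat 50, .ofNat 55, .ofNat 1468, .ofNat 30, .negSucc 584⟩, .ofNat 539, .negSucc 520, .ofNat 0, .negSucc 520, .ofNat 1459, .ofNat 0, .ofNat 128, .ofNat 189, .negSucc 61, .ofNat 0, .ofNat 164, .negSucc 10, .ofNat 0, .ofNat 0, .ofNat 308, .ofNat 1087,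 .ofNat 0, .ofNat 0, .ofNat 2354777684250131786744621429588360167424, .ofNat 0, .ofNat 0, .ofNat 0, .ofNat 32050682562121228180609839174816712622080, .ofNat 0, .ofNat 0, .ofNat 0, .ofNat 0, .ofNat 0, .ofNat 0, .ofNat 0, .ofNat 0, .ofNat 0⟩)
    (by decide +kernel)
theorem L01454 : Good (Phi V5.P V5.D 1 1) ⟨4, 13, 3, 2, 3, 7, 2, 1, 4, 3⟩ :=
  leafX_sound T5.ok_pp T5.Ypp.bz_eq (w := 223) (c := ⟨⟨.negSucc 2489, .ofNat 284, .negSucc 83, .ofNat 698, .negSucc 818, .ofNat 245⟩, ⟨.negSucc 799, .ofNat 180, .negSucc 341, .ofNat 449, .negSucc 370, .ofNat 65⟩, ⟨.ofNat 1039, .negSucc 149, .ofNat 86, .negSucc 234, .ofNat 856, .ofNat 8⟩, ⟨.negSucc 4369, .ofNat 498, .negSucc 74, .ofNat 306, .negSucc 1333, .ofNat 686⟩, ⟨.ofNat 1267, .ofNat 241, .negSucc 254, .ofNat 1646, .ofNat 156, .negSucc 656⟩, .ofNat 1021, .negSucc 1375, .ofNat 0, .negSucc 1375, .ofNat 2992, .ofNat 0, .ofNat 128, .ofNat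 209, .negSucc 63, .ofNat 0, .ofNat 152, .negSucc 18, .ofNat 0, .ofNat 0, .ofNat 330, .ofNat 1303, .ofNat 0, .ofNat 0, .ofNat 4814455992990668157035638651463365820416, .ofNat 0, .ofNat 0, .ofNat 0, .ofNat 290547690715558442228476138332083625918464, .ofNat 0, .ofNat 0, .ofNat 0, .ofNat 284888337595188994905687783343621171838976, .ofNat 0, .ofNat 0, .ofNat 0, .ofNat 360735073722246750308044791126002042404864, .ofNat 0⟩)
    (by decide +kernel)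
theorem L01455 : Good (Phi V5.P V5.D 1 1) ⟨3, 7, 3, 2, 2, 3, 2, 1, 3, 1⟩ :=
  out_sound (S := T5.ds_pp) T5.ok_pp (w := 45) (j := 3) (by decide +kernel)
theorem L01456 : Good (Phi V5.P V5.D 1 1) ⟨2, 2, 3, 3, 2, 2, 2, 0, 4, 0⟩ :=
  out_sound (S := T5.ds_pp) T5.ok_pp (w := 39) (j := 3) (by decide +kernel)
theorem L01457 : Good (Phi V5.P V5.D 1 1) ⟨3, 6, 3, 3, 2, 2, 3, 0, 5, 0⟩ :=
  leafX_sound T5.ok_pp T5.Ypp.bz_eq (w := 214) (c := ⟨⟨.ofNat 2417, .ofNat 641, .negSucc 143, .negSucc 1, .ofNat 691, .negSucc 1966⟩, ⟨.ofNat 1014, .ofNat 533, .ofNat 49, .ofNat 33, .ofNat 348, .negSucc 987⟩, ⟨.negSucc 1362, .negSucc 204, .ofNat 98, .negSucc 937, .negSucc 352, .ofNat 742⟩, ⟨.ofNat 4121, .ofNat 558, .negSucc 116, .negSucc 292, .ofNat 1000, .negSucc 2927⟩, ⟨.negSucc 225, .negSucc 265, .negSucc 116, .ofNat 556, .ofNat 136, .negSucc 202⟩, .ofNat 628, .negSucc 668, .ofNat 0, .negSucc 668,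 .ofNat 1561, .ofNat 0, .ofNat 128, .ofNat 401, .negSucc 173, .ofNat 0, .ofNat 236, .negSucc 75, .ofNat 0, .ofNat 0, .ofNat 394, .ofNat 3304, .ofNat 0, .ofNat 0, .ofNat 0, .ofNat 0, .ofNat 0, .ofNat 0, .ofNat 3326401667259841216233574793228801015808, .ofNat 0, .ofNat 0, .ofNat 0, .ofNat 12386831437583079390464921633122703900672, .ofNat 0, .ofNat 0, .ofNat 0, .ofNat 4580225280489123290457216909869272006656, .ofNat 0⟩)
    (by decide +kernel)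
theorem L01458 : Good (Phi V5.P V5.D 1 1) ⟨3, 6, 3, 3, 2, 2, 3, 0, 5, 1⟩ :=
  leafX_sound T5.ok_pp T5.Ypp.bz_eq (w := 214) (c := ⟨⟨.ofNat 959, .negSucc 29, .negSucc 41, .negSucc 106, .ofNat 298, .negSucc 1407⟩, ⟨.ofNat 427, .ofNat 10, .ofNat 2, .negSucc 31, .ofNat 145, .negSucc 687⟩, ⟨.negSucc 844, .negSucc 76, .ofNat 138, .negSucc 935, .ofNat 49, .ofNat 493⟩, ⟨.ofNat 1800, .negSucc 48, .negSucc 4, .negSucc 503, .ofNat 443, .negSucc 2220⟩, ⟨.negSucc 607, .negSucc 108, .negSucc 94, .ofNat 680, .ofNat 55, .ofNat 111⟩, .ofNat 625, .negSucc 663, .ofNat 0, .negSucc 663, .ofNat 1558, .ofNat 0, .ofNat 128, .ofNat 328, .negSucc 189, .ofNat 0, .ofNat 198, .negSucc 77, .ofNat 0, .ofNat 0, .ofNat 534, .ofNat 5973, .ofNat 0, .ofNat 0, .ofNat 0, .ofNat 0, .ofNat 0, .ofNat 0, .ofNat 3899722176798855764187640593961717858304, .ofNat 0, .ofNat 0, .ofNat 0, .ofNat 13699404267782981246500159495198566514688,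 .ofNat 0, .ofNat 0, .ofNat 0, .ofNat 0, .ofNat 0⟩)
    (by decide +kernel)
theorem L01459 : Good (Phi V5.P V5.D 1 1) ⟨3, 6, 3, 3, 2, 2, 3, 1, 4, 0⟩ :=
  leafX_sound T5.ok_pp T5.Ypp.bz_eq (w := 210) (c := ⟨⟨.ofNat 3011, .ofNat 1340, .negSucc 435, .ofNat 38, .ofNat 735, .negSucc 4261⟩, ⟨.ofNat 1217, .ofNat 1073, .negSucc 139, .ofNat 66, .ofNat 396, .negSucc 2169⟩, ⟨.negSucc 1677, .negSucc 845, .ofNat 270, .negSucc 736, .negSucc 323, .ofNat 1902⟩, ⟨.ofNat 5084, .ofNat 1326, .negSucc 514, .negSucc 187, .ofNat 962, .negSucc 6506⟩, ⟨.negSucc 22, .negSucc 325, .negSucc 5, .ofNat 447, .ofNat 315, .negSucc 76⟩, .ofNat 628, .negSucc 668, .ofNat 0, .negSucc 668, .ofNat 1568, .ofNat 0, .ofNat 128, .ofNat 457, .negSucc 292, .ofNat 0, .ofNat 272, .negSucc 123, .ofNat 0, .ofNat 0, .ofNat 499, .ofNat 991, .ofNat 0, .ofNat 0, .ofNat 0, .ofNat 0, .ofNat 0, .ofNat 0, .ofNat 271617609383712133026148780008808644608,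 .ofNat 0, .ofNat 0, .ofNat 0, .ofNat 376608409660333198027768764658935136256, .ofNat 0, .ofNat 0, .ofNat 0, .ofNat 204891778983119077105132989243652571136, .ofNat 0⟩)
    (by decide +kernel)
theorem L01460 : Good (Phi V5.P V5.D 1 1) ⟨3, 7, 3, 3, 2, 2, 2, 0, 4, 0⟩ :=
  out_sound (S := T5.ds_pp) T5.ok_pp (w := 45) (j := 3) (by decide +kernel)
theorem L01461 : Good (Phi V5.P V5.D 1 1) ⟨2, 2, 3, 3, 2, 2, 2, 0, 4, 1⟩ :=
  out_sound (S := T5.ds_pp) T5.ok_pp (w := 39) (j := 3) (by decide +kernel)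
theorem L01462 : Good (Phi V5.P V5.D 1 1) ⟨2, 3, 3, 3, 2, 2, 2, 0, 4, 1⟩ :=
  leafX_sound T5.ok_pp T5.Ypp.bz_eq (w := 200) (c := ⟨⟨.negSucc 377, .negSucc 394, .negSucc 4, .ofNat 18, .negSucc 403, .negSucc 1497⟩, ⟨.negSucc 81, .negSucc 466, .negSucc 123, .ofNat 38, .negSucc 201, .negSucc 749⟩, ⟨.negSucc 757, .ofNat 219, .ofNat 78, .negSucc 686, .ofNat 914, .ofNat 968⟩, ⟨.negSucc 422, .ofNat 21, .ofNat 33, .negSucc 300, .negSucc 711, .negSucc 2441⟩, ⟨.negSucc 685, .ofNat 103, .negSucc 40, .ofNat 625, .ofNat 202, .ofNat 279⟩, .ofNat 635, .negSucc 677, .ofNat 0, .negSucc 677, .ofNat 1564, .ofNat 0, .ofNat 128, .ofNat 362, .negSucc 161, .ofNat 0, .ofNat 230, .negSucc 62, .ofNat 0, .ofNat 0, .ofNat 448, .ofNat 924, .ofNat 2879759263463652639790469053959760773120, .ofNat 0, .ofNat 1117474857281840495978844925181558784, .ofNat 0, .ofNat 0, .ofNat 0, .ofNat 29154768023490142475140545090643034112,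 .ofNat 0, .ofNat 0, .ofNat 0, .ofNat 28500569346920810568467532228954423296, .ofNat 12527813707547346733621131866717425317707776, .ofNat 0, .ofNat 0, .ofNat 0, .ofNat 0⟩)
    (by decide +kernel)
theorem L01463 : Good (Phi V5.P V5.D 1 1) ⟨2, 2, 3, 3, 2, 2, 2, 1, 3, 0⟩ :=
  out_sound (S := T5.ds_pp) T5.ok_pp (w := 39) (j := 3) (by decide +kernel)
theorem L01464 : Good (Phi V5.P V5.D 1 1) ⟨4, 12, 3, 3, 2, 2, 2, 1, 4, 0⟩ :=
  leafX_sound T5.ok_pp T5.Ypp.bz_eq (w := 211) (c := ⟨⟨.ofNat 3217, .ofNat 1275, .negSucc 669, .ofNat 587, .negSucc 180, .negSucc 5081⟩, ⟨.ofNat 1392, .ofNat 740, .negSucc 157, .ofNat 294, .negSucc 85, .negSucc 2418⟩, ⟨.negSucc 2081, .negSucc 595, .ofNat 289, .negSucc 649, .ofNat 279, .ofNat 2629⟩, ⟨.ofNat 5195, .ofNat 1644, .negSucc 982, .ofNat 647, .negSucc 433, .negSucc 7598⟩, ⟨.ofNat 342, .negSucc 99, .negSucc 32, .ofNat 563, .ofNat 317, .negSucc 843⟩, .ofNat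 1074, .negSucc 1553, .ofNat 0, .negSucc 1553, .ofNat 3504, .ofNat 0, .ofNat 128, .ofNat 546, .negSucc 537, .ofNat 0, .ofNat 295, .negSucc 234, .ofNat 0, .ofNat 0, .ofNat 722, .ofNat 656, .ofNat 0, .ofNat 0, .ofNat 0, .ofNat 0, .ofNat 0, .ofNat 0, .ofNat 5382211610307288038184652339522043904, .ofNat 0, .ofNat 0, .ofNat 0, .ofNat 8643209211915216052123072907377115136, .ofNat 0, .ofNat 0, .ofNat 0, .ofNat 16169425120851188931648122923983568896, .ofNat 0⟩)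
    (by decide +kernel)

end Crest.Agent.R097C5.N5pp
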