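import Crest.Agent.R097.KP7
import Crest.Agent.R097.T5Ypp

/-!
# Row 97, box cover in dimension n = 5 (generated)
-/

set_option autoImplicit false
set_option Elab.async false
set_option maxHeartbeats 0
set_option maxRecDepth 100000

open Crest.Agent.R097 Crest.Agent.R097.KA


namespace Crest.Agent.R097C5.N5pp

theorem L01465 : Good (Phi V5.P V5.D 1 1) ⟨4, 13, 3, 3, 2, 2, 3, 2, 4, 0⟩ :=
  leafX_sound T5.ok_pp T5.Ypp.bz_eq (w := 214) (c := ⟨⟨.ofNat 4433, .ofNat 152, .ofNat 125, .ofNat 333, .ofNat 48, .negSucc 5714⟩, ⟨.ofNat 2154, .ofNat 287, .ofNat 203, .ofNat 217, .ofNat 23, .negSucc 3002⟩, ⟨.negSucc 2737, .negSucc 7, .ofNat 44, .negSucc 580, .ofNat 48, .ofNat 2916⟩, ⟨.ofNat 6696, .ofNat 106, .ofNat 197, .ofNat 197, .negSucc 44, .negSucc 8242⟩, ⟨.ofNat 209, .negSucc 664, .ofNat 40, .ofNat 614, .ofNat 279, .negSucc 773⟩, .ofNat 939, .negSucc 1146, .ofNat 0, .negSucc 1146, .ofNat 2293,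 .ofNat 0, .ofNat 128, .ofNat 331, .negSucc 282, .ofNat 0, .ofNat 205, .negSucc 136, .ofNat 0, .ofNat 0, .ofNat 369, .ofNat 595, .ofNat 0, .ofNat 0, .ofNat 1528144936478387333034881288478130176, .ofNat 0, .ofNat 0, .ofNat 0, .ofNat 60748789211094612008791894623820709888, .ofNat 0, .ofNat 0, .ofNat 0, .ofNat 94602520169089974069547735696359292928, .ofNat 0, .ofNat 0, .ofNat 0, .ofNat 25314620945202127196888175382364160000, .ofNat 0⟩)
    (by decide +kernel)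
theorem L01466 : Good (Phi V5.P V5.D 1 1) ⟨4, 13, 3, 3, 2, 2, 3, 3, 4, 0⟩ :=
  leafX_sound T5.ok_pp T5.Ypp.bz_eq (w := 214) (c := ⟨⟨.ofNat 5151, .ofNat 444, .negSucc 110, .ofNat 8, .negSucc 697, .negSucc 6261⟩, ⟨.ofNat 2586, .ofNat 430, .ofNat 67, .ofNat 23, .negSucc 394, .negSucc 3306⟩, ⟨.negSucc 3159, .negSucc 290, .ofNat 83, .negSucc 200, .ofNat 540, .ofNat 3493⟩, ⟨.ofNat 7677, .ofNat 48, .ofNat 14, .negSucc 259, .negSucc 1309, .negSucc 9017⟩, ⟨.ofNat 337, .ofNat 455, .negSucc 331, .ofNat 541, .ofNat 547, .negSucc 709⟩, .ofNat 1161, .negSucc 1523, .ofNat 0, .negSucc 1523, .ofNat 2959, .ofNat 0, .ofNat 128, .ofNat 332, .negSucc 426, .ofNat 0, .ofNat 206, .negSucc 211, .ofNat 0, .ofNat 0, .ofNat 460, .ofNat 187, .ofNat 0, .ofNat 0, .ofNat 3148254671649543013025313749276295168, .ofNat 0, .ofNat 0, .ofNat 0, .ofNat 66594648739570936955999274823688650752, .ofNat 0, .ofNat 0, .ofNat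 0, .ofNat 102340312070867269275206263444548354048, .ofNat 0, .ofNat 0, .ofNat 0, .ofNat 28064601736578780639297356177101291520, .ofNat 0⟩)
    (by decide +kernel)
theorem L01467 : Good (Phi V5.P V5.D 1 1) ⟨3, 6, 3, 3, 2, 2, 2, 1, 4, 1⟩ :=
  leafX_sound T5.ok_pp T5.Ypp.bz_eq (w := 204) (c := ⟨⟨.negSucc 83, .negSucc 600, .negSucc 96, .negSucc 719, .negSucc 1198, .negSucc 1652⟩, ⟨.ofNat 81, .negSucc 352, .negSucc 254, .negSucc 355, .negSucc 610, .negSucc 819⟩, ⟨.negSucc 438, .ofNat 386, .ofNat 156, .negSucc 122, .ofNat 1344, .ofNat 1203⟩, ⟨.ofNat 16, .negSucc 464, .negSucc 174, .negSucc 1631, .negSucc 2131, .negSucc 2596⟩, ⟨.negSucc 740, .ofNat 131, .negSucc 84, .ofNat 1081, .ofNat 567, .ofNat 34⟩, .ofNat 634, .negSucc 681, .ofNat 0, .negSucc 681, .ofNat 1591, .ofNat 0, .ofNat 128, .ofNat 323, .negSucc 283, .ofNat 0, .ofNat 201, .negSucc 113, .ofNat 0, .ofNat 0, .ofNat 477, .ofNat 391,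 .ofNat 0, .ofNat 0, .ofNat 0, .ofNat 0, .ofNat 0, .ofNat 0, .ofNat 4251587414063755278016327954242469888, .ofNat 0, .ofNat 0, .ofNat 0, .ofNat 15903018695420282103317936826398801920, .ofNat 0, .ofNat 0, .ofNat 0, .ofNat 0, .ofNat 0⟩)
    (by decide +kernel)
theorem L01468 : Good (Phi V5.P V5.D 1 1) ⟨3, 7, 3, 3, 2, 2, 2, 1, 3, 0⟩ :=
  out_sound (S := T5.ds_pp) T5.ok_pp (w := 45) (j := 3) (by decide +kernel)
theorem L01469 : Good (Phi V5.P V5.D 1 1) ⟨2, 2, 3, 3, 2, 2, 1, 0, 3, 1⟩ :=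
  out_sound (S := T5.ds_pp) T5.ok_pp (w := 39) (j := 3) (by decide +kernel)
theorem L01470 : Good (Phi V5.P V5.D 1 1) ⟨3, 6, 3, 3, 2, 2, 2, 0, 4, 2⟩ :=
  leafX_sound T5.ok_pp T5.Ypp.bz_eq (w := 205) (c := ⟨⟨.negSucc 1817, .negSucc 265, .ofNat 29, .ofNat 103, .negSucc 710, .negSucc 222⟩, ⟨.negSucc 754, .negSucc 310, .negSucc 164, .ofNat 75, .negSucc 349, .negSucc 108⟩, ⟨.negSucc 132, .negSucc 33, .ofNat 138, .negSucc 504, .ofNat 1375, .ofNat 382⟩, ⟨.negSucc 2899, .ofNat 143, .ofNat 15, .negSucc 77, .negSucc 1251, .negSucc 255⟩, ⟨.negSucc 388, .negSucc 3, .ofNat 53, .ofNat 469, .ofNat 380, .negSucc 195⟩, .ofNat 1079, .negSucc 1485, .ofNat 0, .negSucc 1485, .ofNat 3142, .ofNat 0, .ofNat 128, .ofNat 411, .negSucc 128, .ofNat 0, .ofNat 249, .negSucc 52, .ofNat 0, .ofNat 0, .ofNat 518, .ofNat 2063, .ofNat 0, .ofNat 0, .ofNat 0, .ofNat 0, .ofNat 0, .ofNat 0, .ofNat 60962517126557169474846997045858795520,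 .ofNat 0, .ofNat 0, .ofNat 0, .ofNat 73290028548372922841951423877215158272, .ofNat 0, .ofNat 772471250840190558338232312738426986168320, .ofNat 0, .ofNat 12720361823980090912673928871732576256, .ofNat 0⟩)
    (by decide +kernel)
theorem L01471 : Good (Phi V5.P V5.D 1 1) ⟨3, 6, 3, 3, 2, 2, 2, 1, 4, 2⟩ :=
  leafX_sound T5.ok_pp T5.Ypp.bz_eq (w := 205) (c := ⟨⟨.negSucc 2087, .negSucc 955, .ofNat 28, .negSucc 369, .negSucc 815, .ofNat 14⟩, ⟨.negSucc 841, .negSucc 669, .negSucc 245, .negSucc 162, .negSucc 401, .negSucc 2⟩, ⟨.ofNat 866, .ofNat 642, .ofNat 63, .negSucc 207, .ofNat 1148, .ofNat 235⟩, ⟨.negSucc 3360, .negSucc 981, .ofNat 50, .negSucc 911, .negSucc 1376, .ofNat 130⟩, ⟨.negSucc 355, .ofNat 260, .ofNat 25, .ofNat 709, .ofNat 250, .negSucc 237⟩, .ofNat 625, .negSucc 664, .ofNat 0, .negSucc 664, .ofNat 1560, .ofNat 0, .ofNat 128, .ofNat 286, .negSucc 154, .ofNat 0, .ofNat 190,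 .negSucc 57, .ofNat 0, .ofNat 0, .ofNat 398, .ofNat 906, .ofNat 0, .ofNat 0, .ofNat 0, .ofNat 0, .ofNat 0, .ofNat 0, .ofNat 7684844705289185623328011106696298496, .ofNat 0, .ofNat 0, .ofNat 0, .ofNat 18413029528686638381234010502302007296, .ofNat 0, .ofNat 0, .ofNat 0, .ofNat 20328513305770964507225405725930946560, .ofNat 0⟩)
    (by decide +kernel)
theorem L01472 : Good (Phi V5.P V5.D 1 1) ⟨3, 6, 3, 3, 2, 2, 2, 0, 4, 3⟩ :=
  leafX_sound T5.ok_pp T5.Ypp.bz_eq (w := 206) (c := ⟨⟨.negSucc 2146, .negSucc 276, .negSucc 17, .ofNat 109, .negSucc 546, .ofNat 134⟩, ⟨.negSucc 881, .negSucc 379, .negSucc 166, .ofNat 67, .negSucc 273, .ofNat 62⟩, ⟨.ofNat 296, .negSucc 72, .ofNat 92, .negSucc 440, .ofNat 1273, .ofNat 76⟩, ⟨.negSucc 3467, .ofNat 169, .negSucc 2, .ofNat 27, .negSucc 915, .ofNat 272⟩, ⟨.negSucc 306, .negSucc 49, .negSucc 14, .ofNat 277, .ofNat 198, .negSucc 145⟩, .ofNat 661, .negSucc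 735, .ofNat 0, .negSucc 735, .ofNat 1700, .ofNat 0, .ofNat 128, .ofNat 254, .negSucc 88, .ofNat 0, .ofNat 173, .negSucc 27, .ofNat 0, .ofNat 0, .ofNat 577, .ofNat 4553, .ofNat 0, .ofNat 0, .ofNat 0, .ofNat 0, .ofNat 137229472846414750963624055043438288044032, .ofNat 0, .ofNat 21739747452331871161101723842555936768, .ofNat 0, .ofNat 646168904081625193364097505723456958758912, .ofNat 0, .ofNat 60470242631226325598094374033139171328, .ofNat 0, .ofNat 1308021955510536684657273753101559029301248, .ofNat 0, .ofNat 19634073154806745125866274312163426304, .ofNat 0⟩)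
    (by decide +kernel)
theorem L01473 : Good (Phi V5.P V5.D 1 1) ⟨3, 6, 3, 3, 2, 2, 2, 1, 4, 3⟩ :=
  leafX_sound T5.ok_pp T5.Ypp.bz_eq (w := 204) (c := ⟨⟨.negSucc 2672, .negSucc 227, .negSucc 116, .negSucc 49, .negSucc 608, .ofNat 266⟩, ⟨.negSucc 1110, .negSucc 396, .negSucc 236, .negSucc 15, .negSucc 317, .ofNat 130⟩, ⟨.ofNat 1497, .ofNat 13, .ofNat 170, .negSucc 295, .ofNat 984, .negSucc 53⟩, ⟨.negSucc 4366, .ofNat 269, .negSucc 176, .negSucc 247, .negSucc 911, .ofNat 533⟩, ⟨.negSucc 152, .ofNat 76, .ofNat 17, .ofNat 284, .negSucc 32, .negSucc 250⟩, .ofNat 345, .negSucc 221, .ofNat 0, .negSucc 221, .ofNat 651, .ofNat 0, .ofNat 152, .ofNat 128, .negSucc 82, .ofNat 0, .ofNat 123, .negSucc 15, .ofNat 0, .ofNat 0, .ofNat 272, .ofNat 950, .ofNat 0, .ofNat 0, .ofNat 271602836617314375324173495338795008, .ofNat 0, .ofNat 0, .ofNat 0, .ofNat 5834913186032377083388399273918857216, .ofNat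 0, .ofNat 0, .ofNat 0, .ofNat 0, .ofNat 0, .ofNat 0, .ofNat 0, .ofNat 3281148498883619959354872712222736384, .ofNat 0⟩)
    (by decide +kernel)
theorem L01474 : Good (Phi V5.P V5.D 1 1) ⟨3, 7, 3, 3, 2, 2, 1, 0, 3, 1⟩ :=
  out_sound (S := T5.ds_pp) T5.ok_pp (w := 45) (j := 3) (by decide +kernel)
theorem L01475 : Good (Phi V5.P V5.D 1 1) ⟨2, 2, 3, 3, 2, 3, 2, 0, 4, 0⟩ :=
  out_sound (S := T5.ds_pp) T5.ok_pp (w := 39) (j := 3) (by decide +kernel)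
theorem L01476 : Good (Phi V5.P V5.D 1 1) ⟨4, 12, 3, 3, 2, 3, 3, 0, 5, 0⟩ :=
  leafX_sound T5.ok_pp T5.Ypp.bz_eq (w := 219) (c := ⟨⟨.ofNat 2363, .ofNat 284, .negSucc 370, .negSucc 1281, .ofNat 795, .negSucc 1918⟩, ⟨.ofNat 986, .ofNat 304, .negSucc 149, .negSucc 539, .ofNat 378, .negSucc 905⟩, ⟨.negSucc 2368, .negSucc 485, .ofNat 829, .ofNat 2588, .negSucc 634, .ofNat 950⟩, ⟨.ofNat 3665, .ofNat 380, .negSucc 659, .negSucc 2959, .ofNat 1119, .negSucc 2856⟩, ⟨.ofNat 526, .negSucc 369, .negSucc 75, .ofNat 1986, .ofNat 325, .negSucc 333⟩, .ofNat 823, .negSucc 1056, .ofNat 0, .negSucc 1056, .ofNat 2466, .ofNat 0, .ofNat 128, .ofNat 574, .negSucc 629, .ofNat 0, .ofNat 304, .negSucc 266, .ofNat 0, .ofNat 0, .ofNat 865, .ofNat 1641, .ofNat 0, .ofNat 0, .ofNat 0, .ofNat 0, .ofNat 0, .ofNat 0, .ofNat 0, .ofNat 0, .ofNat 0, .ofNat 0, .ofNat 848595687888853830898207194552740085760, .ofNat 0, .ofNat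 0, .ofNat 0, .ofNat 3226341845459636656552979449207395975168, .ofNat 0⟩)
    (by decide +kernel)
theorem L01477 : Good (Phi V5.P V5.D 1 1) ⟨4, 13, 3, 3, 2, 3, 4, 0, 5, 0⟩ :=
  leafX_sound T5.ok_pp T5.Ypp.bz_eq (w := 223) (c := ⟨⟨.ofNat 2619, .negSucc 232, .ofNat 177, .negSucc 1064, .ofNat 364, .negSucc 1995⟩, ⟨.ofNat 1279, .ofNat 52, .ofNat 128, .negSucc 479, .ofNat 211, .negSucc 1031⟩, ⟨.negSucc 2914, .negSucc 83, .ofNat 85, .ofNat 2767, .negSucc 264, .ofNat 1083⟩, ⟨.ofNat 3784, .negSucc 317, .ofNat 386, .negSucc 2385, .ofNat 516, .negSucc 2889⟩, ⟨.ofNat 518, .negSucc 366, .negSucc 428, .ofNat 1530, .ofNat 55, .negSucc 204⟩, .ofNat 1161, .negSucc 1523, .ofNat 0, .negSucc 1523, .ofNat 2959, .ofNat 0, .ofNat 128, .ofNat 434, .negSucc 537, .ofNat 0, .ofNat 256, .negSucc 267, .ofNat 0, .ofNat 0, .ofNat 725, .ofNat 1152, .ofNat 0, .ofNat 0, .ofNat 551054126773062975927678658764462882816,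 .ofNat 0, .ofNat 0, .ofNat 0, .ofNat 38690007163135815008455315610774968205312, .ofNat 0, .ofNat 0, .ofNat 0, .ofNat 124091764240521280679356031164941953138688, .ofNat 0, .ofNat 0, .ofNat 0, .ofNat 63833942282200491567854782351657471574016, .ofNat 0⟩)
    (by decide +kernel)
theorem L01478 : Good (Phi V5.P V5.D 1 1) ⟨4, 13, 3, 3, 2, 3, 4, 1, 5, 0⟩ :=
  leafX_sound T5.ok_pp T5.Ypp.bz_eq (w := 223) (c := ⟨⟨.ofNat 3343, .ofNat 299, .negSucc 294, .negSucc 1377, .ofNat 311, .negSucc 2349⟩, ⟨.ofNat 1644, .ofNat 260, .negSucc 33, .negSucc 615, .ofNat 156, .negSucc 1235⟩, ⟨.negSucc 3247, .negSucc 415, .ofNat 500, .ofNat 2523, .negSucc 178, .ofNat 1175⟩, ⟨.ofNat 4884, .ofNat 114, .negSucc 152, .negSucc 2809, .ofNat 317, .negSucc 3443⟩, ⟨.ofNat 573, .ofNat 235, .negSucc 758, .ofNat 1400, .ofNat 302, .negSucc 136⟩, .ofNat 1161, .negSucc 1523, .ofNat 0, .negSucc 1523, .ofNat 2959, .ofNat 0, .ofNat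 128, .ofNat 568, .negSucc 620, .ofNat 0, .ofNat 335, .negSucc 305, .ofNat 0, .ofNat 0, .ofNat 762, .ofNat 684, .ofNat 0, .ofNat 0, .ofNat 691958559482000729898997908564168671232, .ofNat 0, .ofNat 0, .ofNat 0, .ofNat 42749423117868127609150663535727707422720, .ofNat 0, .ofNat 0, .ofNat 0, .ofNat 217369787963707886779072027300048228319232, .ofNat 0, .ofNat 0, .ofNat 0, .ofNat 70939449968459958207151454170426762067968, .ofNat 0⟩)
    (by decide +kernel)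
theorem L01479 : Good (Phi V5.P V5.D 1 1) ⟨3, 6, 3, 3, 2, 3, 3, 0, 5, 1⟩ :=
  leafX_sound T5.ok_pp T5.Ypp.bz_eq (w := 213) (c := ⟨⟨.ofNat 557, .ofNat 314, .negSucc 366, .ofNat 24, .ofNat 116, .negSucc 1116⟩, ⟨.ofNat 218, .ofNat 293, .negSucc 249, .ofNat 82, .ofNat 69, .negSucc 547⟩, ⟨.negSucc 1706, .negSucc 301, .ofNat 548, .ofNat 1620, .negSucc 174, .ofNat 479⟩, ⟨.ofNat 887, .ofNat 275, .negSucc 499, .negSucc 716, .ofNat 93, .negSucc 1698⟩, ⟨.ofNat 110, .ofNat 114, .negSucc 197, .ofNat 1499, .ofNat 200, .negSucc 1⟩, .ofNat 661, .negSucc 735, .ofNat 0, .negSucc 735, .ofNat 1700, .ofNat 0, .ofNat 128, .ofNat 429, .negSucc 373, .ofNat 0, .ofNat 239, .negSucc 155, .ofNat 0, .ofNat 0, .ofNat 565, .ofNat 1580, .ofNat 0, .ofNat 0, .ofNat 0, .ofNat 0, .ofNat 0, .ofNat 0, .ofNat 3660638625046784259791024264523202691072, .ofNat 0, .ofNat 0, .ofNat 0, .ofNat 13954234289559671468984975861837601964032,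 .ofNat 0, .ofNat 0, .ofNat 0, .ofNat 0, .ofNat 0⟩)
    (by decide +kernel)
theorem L01480 : Good (Phi V5.P V5.D 1 1) ⟨4, 12, 3, 3, 3, 6, 3, 1, 5, 0⟩ :=
  leafX_sound T5.ok_pp T5.Ypp.bz_eq (w := 234) (c := ⟨⟨.ofNat 3481, .ofNat 242, .negSucc 90, .negSucc 527, .ofNat 545, .negSucc 2605⟩, ⟨.ofNat 1524, .ofNat 265, .ofNat 73, .negSucc 213, .ofNat 263, .negSucc 1243⟩, ⟨.negSucc 3048, .negSucc 171, .ofNat 227, .ofNat 259, .negSucc 94, .ofNat 1490⟩, ⟨.ofNat 5421, .ofNat 126, .negSucc 146, .negSucc 1198, .ofNat 750, .negSucc 4037⟩, ⟨.ofNat 555, .negSucc 54, .negSucc 109, .ofNat 769, .ofNat 218, .negSucc 71⟩, .ofNat 1073, .negSucc 1547, .ofNat 0, .negSucc 1547, .ofNat 3475, .ofNat 0, .ofNat 128, .ofNat 477, .negSucc 694, .ofNat 0, .ofNat 248, .negSucc 306, .ofNat 0, .ofNat 0, .ofNat 896, .ofNat 2495, .ofNat 0, .ofNat 0, .ofNat 0, .ofNat 0, .ofNat 0, .ofNat 0, .ofNat 40083137837504006286084198889427151557230592,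 .ofNat 0, .ofNat 0, .ofNat 0, .ofNat 94382494001175472882052087210094358412918784, .ofNat 0, .ofNat 0, .ofNat 0, .ofNat 216540420462730385566410019539212058564231168, .ofNat 0⟩)
    (by decide +kernel)
theorem L01481 : Good (Phi V5.P V5.D 1 1) ⟨4, 13, 3, 3, 3, 6, 3, 1, 5, 0⟩ :=
  leafX_sound T5.ok_pp T5.Ypp.bz_eq (w := 233) (c := ⟨⟨.ofNat 4204, .ofNat 696, .negSucc 582, .negSucc 672, .ofNat 527, .negSucc 2997⟩, ⟨.ofNat 2098, .ofNat 524, .negSucc 199, .negSucc 310, .ofNat 287, .negSucc 1562⟩, ⟨.negSucc 3567, .negSucc 608, .ofNat 622, .ofNat 347, .negSucc 39, .ofNat 1723⟩, ⟨.ofNat 6153, .ofNat 764, .negSucc 710, .negSucc 1422, .ofNat 724, .negSucc 4412⟩, ⟨.ofNat 596, .negSucc 94, .negSucc 372, .ofNat 751, .ofNat 124, .negSucc 191⟩, .ofNat 939, .negSucc 1146, .ofNat 0, .negSucc 1146, .ofNat 2293, .ofNat 0, .ofNat 128, .ofNat 382, .negSucc 540, .ofNat 0, .ofNat 226, .negSucc 262, .ofNat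 0, .ofNat 0, .ofNat 629, .ofNat 875, .ofNat 0, .ofNat 0, .ofNat 0, .ofNat 0, .ofNat 0, .ofNat 0, .ofNat 21543424909189344053078734526621122427879424, .ofNat 0, .ofNat 0, .ofNat 0, .ofNat 84727770869661949328804359114802180233625600, .ofNat 0, .ofNat 0, .ofNat 0, .ofNat 0, .ofNat 0⟩)
    (by decide +kernel)
theorem L01482 : Good (Phi V5.P V5.D 1 1) ⟨4, 12, 3, 3, 3, 7, 3, 1, 5, 0⟩ :=
  leafX_sound T5.ok_pp T5.Ypp.bz_eq (w := 233) (c := ⟨⟨.ofNat 2046, .ofNat 150, .ofNat 634, .negSucc 34, .ofNat 542, .negSucc 1808⟩, ⟨.ofNat 853, .ofNat 298, .ofNat 235, .ofNat 32, .ofNat 270, .negSucc 875⟩, ⟨.negSucc 1801, .ofNat 4, .negSucc 411, .ofNat 1411, .negSucc 476, .ofNat 627⟩, ⟨.ofNat 2657, .negSucc 55, .ofNat 894, .negSucc 708, .ofNat 708, .negSucc 2551⟩, ⟨.ofNat 1736, .ofNat 56, .negSucc 112, .ofNat 1319, .ofNat 330, .negSucc 702⟩, .ofNat 823, .negSucc 1051, .ofNat 0, .negSucc 1051, .ofNat 2442,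 .ofNat 0, .ofNat 128, .ofNat 752, .negSucc 828, .ofNat 0, .ofNat 403, .negSucc 346, .ofNat 0, .ofNat 0, .ofNat 888, .ofNat 1815, .ofNat 0, .ofNat 0, .ofNat 0, .ofNat 0, .ofNat 0, .ofNat 0, .ofNat 8507375631925592195841394472259617141293056, .ofNat 0, .ofNat 0, .ofNat 0, .ofNat 0, .ofNat 0, .ofNat 0, .ofNat 0, .ofNat 182813300314265291730064507091884961643364352, .ofNat 0⟩)
    (by decide +kernel)
theorem L01483 : Good (Phi V5.P V5.D 1 1) ⟨4, 13, 3, 3, 3, 7, 3, 1, 5, 0⟩ :=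
  leafX_sound T5.ok_pp T5.Ypp.bz_eq (w := 233) (c := ⟨⟨.ofNat 2563, .negSucc 444, .negSucc 46, .ofNat 321, .ofNat 527, .negSucc 2138⟩, ⟨.ofNat 1345, .negSucc 1, .negSucc 52, .ofNat 230, .ofNat 283, .negSucc 1124⟩, ⟨.negSucc 2043, .ofNat 554, .ofNat 16, .ofNat 1243, .negSucc 548, .ofNat 873⟩, ⟨.ofNat 3377, .negSucc 857, .negSucc 192, .negSucc 325, .ofNat 557, .negSucc 3093⟩, ⟨.ofNat 1328, .negSucc 23, .negSucc 84, .ofNat 1517, .ofNat 476, .negSucc 366⟩, .ofNat 939, .negSucc 1146, .ofNat 0, .negSucc 1146, .ofNat 2293, .ofNat 0, .ofNat 128, .ofNat 601, .negSucc 1112, .ofNat 0, .ofNat 358, .negSucc 524, .ofNat 0, .ofNat 0, .ofNat 1084, .ofNat 388, .ofNat 0, .ofNat 0, .ofNat 2722804640311371534708456070576536127799296, .ofNat 0, .ofNat 0, .ofNat 0, .ofNat 25474284812106238579669281015330684572532736, .ofNat 0, .ofNat 0, .ofNat 0, .ofNat 166798763607492380566969511331141058824241152, .ofNat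 0, .ofNat 0, .ofNat 0, .ofNat 0, .ofNat 0⟩)
    (by decide +kernel)
theorem L01484 : Good (Phi V5.P V5.D 1 1) ⟨3, 6, 3, 3, 2, 3, 3, 1, 5, 1⟩ :=
  leafX_sound T5.ok_pp T5.Ypp.bz_eq (w := 214) (c := ⟨⟨.ofNat 1104, .negSucc 1586, .ofNat 912, .ofNat 456, .ofNat 82, .negSucc 1259⟩, ⟨.ofNat 446, .negSucc 553, .ofNat 371, .ofNat 315, .ofNat 51, .negSucc 623⟩, ⟨.negSucc 2008, .ofNat 1143, .negSucc 579, .ofNat 1047, .ofNat 0, .ofNat 479⟩, ⟨.ofNat 1565, .negSucc 2549, .ofNat 1261, .ofNat 1, .negSucc 22, .negSucc 1847⟩, ⟨.ofNat 552, .negSucc 94, .ofNat 97, .ofNat 1375, .ofNat 251, .negSucc 240⟩, .ofNat 636, .negSucc 679, .ofNat 0, .negSucc 679, .ofNat 1566, .ofNat 0, .ofNat 128, .ofNat 374, .negSucc 454, .ofNat 0, .ofNat 215, .negSucc 183, .ofNat 0, .ofNat 0, .ofNat 563, .ofNat 636, .ofNat 0, .ofNat 0, .ofNat 0, .ofNat 0, .ofNat 0, .ofNat 0, .ofNat 3143928640522063461964283023295615336448, .ofNat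 0, .ofNat 0, .ofNat 0, .ofNat 9789394287253011726683235901671898873856, .ofNat 0, .ofNat 0, .ofNat 0, .ofNat 0, .ofNat 0⟩)
    (by decide +kernel)
theorem L01485 : Good (Phi V5.P V5.D 1 1) ⟨3, 7, 3, 3, 2, 3, 2, 0, 4, 0⟩ :=
  out_sound (S := T5.ds_pp) T5.ok_pp (w := 45) (j := 3) (by decide +kernel)
theorem L01486 : Good (Phi V5.P V5.D 1 1) ⟨2, 2, 3, 3, 3, 6, 2, 1, 4, 0⟩ :=
  out_sound (S := T5.ds_pp) T5.ok_pp (w := 39) (j := 3) (by decide +kernel)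
theorem L01487 : Good (Phi V5.P V5.D 1 1) ⟨4, 12, 3, 3, 3, 6, 2, 1, 4, 0⟩ :=
  leafX_sound T5.ok_pp T5.Ypp.bz_eq (w := 225) (c := ⟨⟨.ofNat 4202, .ofNat 403, .negSucc 512, .negSucc 562, .negSucc 935, .negSucc 5286⟩, ⟨.ofNat 1848, .ofNat 369, .negSucc 197, .negSucc 224, .negSucc 417, .negSucc 2468⟩, ⟨.negSucc 3156, .negSucc 338, .ofNat 327, .ofNat 266, .ofNat 1058, .ofNat 2971⟩, ⟨.ofNat 6607, .ofNat 374, .negSucc 717, .negSucc 1661, .negSucc 1762, .negSucc 8218⟩, ⟨.ofNat 475, .negSucc 49, .negSucc 311, .ofNat 1614, .ofNat 596, .negSucc 157⟩, .ofNat 1066, .negSucc 1536, .ofNat 0, .negSucc 1536, .ofNat 3465, .ofNat 0, .ofNat 128, .ofNat 610, .negSucc 828, .ofNat 0, .ofNat 319, .negSucc 358, .ofNat 0, .ofNat 0, .ofNat 845, .ofNat 621, .ofNat 0, .ofNat 0, .ofNat 0, .ofNat 0, .ofNat 0, .ofNat 0, .ofNat 46558972188699625694419520387003487092736, .ofNat 0, .ofNat 0, .ofNat 0, .ofNat 213412758048687000207930547045656428544000,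 .ofNat 0, .ofNat 0, .ofNat 0, .ofNat 261051238391709365414782171599645083435008, .ofNat 0⟩)
    (by decide +kernel)
theorem L01488 : Good (Phi V5.P V5.D 1 1) ⟨4, 13, 3, 3, 3, 6, 3, 2, 4, 0⟩ :=
  leafX_sound T5.ok_pp T5.Ypp.bz_eq (w := 229) (c := ⟨⟨.ofNat 5035, .ofNat 95, .negSucc 391, .negSucc 471, .negSucc 133, .negSucc 5950⟩, ⟨.ofNat 2530, .ofNat 113, .negSucc 14, .negSucc 228, .negSucc 58, .negSucc 3096⟩, ⟨.negSucc 3696, .negSucc 86, .ofNat 373, .ofNat 205, .ofNat 254, .ofNat 3341⟩, ⟨.ofNat 7241, .ofNat 96, .negSucc 359, .negSucc 1552, .negSucc 292, .negSucc 8687⟩, ⟨.ofNat 959, .negSucc 41, .negSucc 907, .ofNat 1608, .ofNat 143, .negSucc 413⟩, .ofNat 1161, .negSucc 1523, .ofNat 0, .negSucc 1523, .ofNat 2959, .ofNat 0, .ofNat 128, .ofNat 385, .negSucc 513, .ofNat 0, .ofNat 229, .negSucc 248, .ofNat 0, .ofNat 0, .ofNat 525, .ofNat 371, .ofNat 0, .ofNat 0, .ofNat 29430266244222184801535579734864717414400,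 .ofNat 0, .ofNat 0, .ofNat 0, .ofNat 1283944661568991142104939833777264581935104, .ofNat 0, .ofNat 0, .ofNat 0, .ofNat 3349076331356304941420889090497242262929408, .ofNat 0, .ofNat 0, .ofNat 0, .ofNat 459874317588171449322046943554504279195648, .ofNat 0⟩)
    (by decide +kernel)
theorem L01489 : Good (Phi V5.P V5.D 1 1) ⟨4, 13, 3, 3, 3, 6, 3, 3, 4, 0⟩ :=
  leafX_sound T5.ok_pp T5.Ypp.bz_eq (w := 229) (c := ⟨⟨.ofNat 5260, .ofNat 530, .negSucc 618, .negSucc 1369, .negSucc 1081, .negSucc 6515⟩, ⟨.ofNat 2839, .ofNat 454, .negSucc 437, .negSucc 646, .negSucc 533, .negSucc 3422⟩, ⟨.negSucc 3584, .negSucc 262, .ofNat 416, .ofNat 729, .ofNat 869, .ofNat 3652⟩, ⟨.ofNat 8104, .ofNat 145, .negSucc 845, .negSucc 3065, .negSucc 2091, .negSucc 10127⟩, ⟨.negSucc 234, .ofNat 865, .negSucc 218, .ofNat 1864, .ofNat 886, .ofNat 658⟩, .ofNat 939, .negSucc 1146, .ofNat 0, .negSucc 1146, .ofNat 2293, .ofNat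 0, .ofNat 128, .ofNat 344, .negSucc 634, .ofNat 0, .ofNat 206, .negSucc 302, .ofNat 0, .ofNat 0, .ofNat 529, .ofNat 237, .ofNat 0, .ofNat 0, .ofNat 28702234651835062481955366244148381220864, .ofNat 0, .ofNat 0, .ofNat 0, .ofNat 686390293255564036438720429867732314357760, .ofNat 0, .ofNat 0, .ofNat 0, .ofNat 2266095568667034053529856549998433839087616, .ofNat 0, .ofNat 0, .ofNat 0, .ofNat 1234349382155266288092972369115491615113216, .ofNat 0⟩)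
    (by decide +kernel)
theorem L01490 : Good (Phi V5.P V5.D 1 1) ⟨3, 7, 3, 3, 3, 6, 2, 1, 4, 0⟩ :=
  out_sound (S := T5.ds_pp) T5.ok_pp (w := 45) (j := 3) (by decide +kernel)
theorem L01491 : Good (Phi V5.P V5.D 1 1) ⟨2, 2, 4, 6, 3, 7, 2, 1, 4, 0⟩ :=
  out_sound (S := T5.ds_pp) T5.ok_pp (w := 41) (j := 3) (by decide +kernel)
theorem L01492 : Good (Phi V5.P V5.D 1 1) ⟨4, 12, 4, 6, 4, 14, 2, 1, 4, 0⟩ :=
  leafX_sound T5.ok_pp T5.Ypp.bz_eq (w := 242) (c := ⟨⟨.ofNat 2890, .negSucc 62, .negSucc 169, .ofNat 94, .negSucc 1852, .negSucc 3853⟩, ⟨.ofNat 1321, .ofNat 138, .negSucc 168, .ofNat 84, .negSucc 834, .negSucc 1836⟩, ⟨.negSucc 2422, .ofNat 178, .ofNat 179, .ofNat 163, .ofNat 1305, .ofNat 1964⟩, ⟨.ofNat 4007, .negSucc 296, .negSucc 491, .negSucc 311, .negSucc 3545, .negSucc 5845⟩, ⟨.ofNat 1348, .ofNat 205, .ofNat 346, .ofNat 947, .ofNat 1361, .negSucc 421⟩, .ofNat 1069, .negSucc 1536,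 .ofNat 0, .negSucc 1536, .ofNat 3451, .ofNat 0, .ofNat 128, .ofNat 504, .negSucc 749, .ofNat 0, .ofNat 265, .negSucc 318, .ofNat 0, .ofNat 0, .ofNat 695, .ofNat 649, .ofNat 0, .ofNat 0, .ofNat 0, .ofNat 0, .ofNat 0, .ofNat 0, .ofNat 0, .ofNat 0, .ofNat 0, .ofNat 0, .ofNat 0, .ofNat 0, .ofNat 0, .ofNat 0, .ofNat 0, .ofNat 0⟩)
    (by decide +kernel)
theorem L01493 : Good (Phi V5.P V5.D 1 1) ⟨4, 12, 4, 6, 4, 15, 2, 1, 4, 0⟩ :=
  leafX_sound T5.ok_pp T5.Ypp.bz_eq (w := 242) (c := ⟨⟨.ofNat 1216, .ofNat 295, .negSucc 87, .ofNat 1686, .negSucc 1242, .negSucc 2307⟩, ⟨.ofNat 501, .ofNat 417, .negSucc 152, .ofNat 798, .negSucc 537, .negSucc 1133⟩, ⟨.negSucc 539, .negSucc 217, .negSucc 14, .negSucc 542, .ofNat 549, .ofNat 595⟩, ⟨.ofNat 581, .ofNat 376, .negSucc 339, .ofNat 2629, .negSucc 2495, .negSucc 3096⟩, ⟨.ofNat 3278, .negSucc 263, .ofNat 195, .ofNat 61, .ofNat 1144, .negSucc 1158⟩, .ofNat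 1067, .negSucc 1540, .ofNat 0, .negSucc 1540, .ofNat 3484, .ofNat 0, .ofNat 128, .ofNat 732, .negSucc 902, .ofNat 0, .ofNat 386, .negSucc 372, .ofNat 0, .ofNat 0, .ofNat 891, .ofNat 561, .ofNat 0, .ofNat 0, .ofNat 0, .ofNat 0, .ofNat 0, .ofNat 0, .ofNat 0, .ofNat 0, .ofNat 0, .ofNat 0, .ofNat 0, .ofNat 0, .ofNat 0, .ofNat 0, .ofNat 0, .ofNat 0⟩)
    (by decide +kernel)
theorem L01494 : Good (Phi V5.P V5.D 1 1) ⟨5, 26, 4, 6, 4, 14, 2, 1, 4, 0⟩ :=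
  leafX_sound T5.ok_pp T5.Ypp.bz_eq (w := 246) (c := ⟨⟨.ofNat 2560, .negSucc 333, .ofNat 181, .ofNat 146, .negSucc 2083, .negSucc 3645⟩, ⟨.ofNat 1401, .negSucc 75, .ofNat 16, .ofNat 107, .negSucc 957, .negSucc 1849⟩, ⟨.negSucc 2086, .ofNat 214, .negSucc 68, .ofNat 169, .ofNat 1431, .ofNat 1809⟩, ⟨.ofNat 3309, .negSucc 515, .ofNat 166, .negSucc 214, .negSucc 4071, .negSucc 5509⟩, ⟨.ofNat 1406, .negSucc 149, .ofNat 100, .ofNat 833, .ofNat 1769, .negSucc 163⟩, .ofNat 996, .negSucc 1308, .ofNat 0, .negSucc 1308, .ofNat 2754, .ofNat 0, .ofNat 128, .ofNat 503, .negSucc 828, .ofNat 0, .ofNat 285, .negSucc 368, .ofNat 0, .ofNat 0, .ofNat 762, .ofNat 580, .ofNat 0, .ofNat 0, .ofNat 0, .ofNat 0, .ofNat 0, .ofNat 0, .ofNat 1206630796348555705436580011265479666221187072, .ofNat 0, .ofNat 0, .ofNat 0, .ofNat 2851823891401976946804009428217701525746614272, .ofNat 0, .ofNat 0, .ofNat 0, .ofNat 1279690041369416568551506082872526386067668992,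 .ofNat 0⟩)
    (by decide +kernel)
theorem L01495 : Good (Phi V5.P V5.D 1 1) ⟨5, 26, 4, 6, 4, 15, 3, 2, 4, 0⟩ :=
  leafX_sound T5.ok_pp T5.Ypp.bz_eq (w := 250) (c := ⟨⟨.ofNat 1872, .ofNat 61, .ofNat 13, .ofNat 1670, .negSucc 307, .negSucc 2837⟩, ⟨.ofNat 1094, .ofNat 158, .negSucc 48, .ofNat 864, .negSucc 114, .negSucc 1492⟩, ⟨.negSucc 916, .ofNat 110, .negSucc 85, .negSucc 277, .ofNat 27, .ofNat 795⟩, ⟨.ofNat 1359, .negSucc 57, .negSucc 108, .ofNat 2397, .negSucc 757, .negSucc 3593⟩, ⟨.ofNat 3268, .ofNat 121, .ofNat 24, .ofNat 280, .ofNat 560, .negSucc 1511⟩, .ofNat 911, .negSucc 1138, .ofNat 0, .negSucc 1138, .ofNat 2404, .ofNat 0, .ofNat 128, .ofNat 1027, .negSucc 1194, .ofNat 0, .ofNat 600, .negSucc 509, .ofNat 0, .ofNat 0, .ofNat 1140, .ofNat 1009, .ofNat 0, .ofNat 0, .ofNat 2219884170623488296261284683111710364364963840, .ofNat 0, .ofNat 0, .ofNat 0, .ofNat 7377187648027600555320099714290450572844728320,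 .ofNat 0, .ofNat 0, .ofNat 0, .ofNat 107557339972335952061702122120004142851011117056, .ofNat 0, .ofNat 0, .ofNat 0, .ofNat 0, .ofNat 0⟩)
    (by decide +kernel)
theorem L01496 : Good (Phi V5.P V5.D 1 1) ⟨5, 26, 4, 6, 4, 15, 3, 3, 5, 0⟩ :=
  leafX_sound T5.ok_pp T5.Ypp.bz_eq (w := 255) (c := ⟨⟨.ofNat 1368, .ofNat 540, .negSucc 311, .ofNat 2522, .negSucc 1216, .negSucc 1935⟩, ⟨.ofNat 877, .ofNat 504, .negSucc 250, .ofNat 1299, .negSucc 568, .negSucc 1045⟩, ⟨.negSucc 677, .ofNat 84, .negSucc 55, .negSucc 713, .ofNat 521, .ofNat 451⟩, ⟨.ofNat 375, .ofNat 339, .negSucc 585, .ofNat 3573, .negSucc 2205, .negSucc 2257⟩, ⟨.ofNat 3765, .ofNat 630, .negSucc 50, .ofNat 509, .ofNat 674, .negSucc 1360⟩, .ofNat 911, .negSucc 1138, .ofNat 0, .negSucc 1138, .ofNat 2404, .ofNat 0, .ofNat 128, .ofNat 502, .negSucc 1058, .ofNat 0, .ofNat 294, .negSucc 459, .ofNat 0, .ofNat 0, .ofNat 812, .ofNat 1152,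 .ofNat 0, .ofNat 0, .ofNat 114366692415491680159107820942381210175686049792, .ofNat 0, .ofNat 0, .ofNat 0, .ofNat 310931375243208858725666937583578602624872611840, .ofNat 0, .ofNat 0, .ofNat 0, .ofNat 1075203820585886550464463604670874071450708344832, .ofNat 0, .ofNat 0, .ofNat 0, .ofNat 1821292288571930696857462677046089692467643285504, .ofNat 0⟩)
    (by decide +kernel)
theorem L01497 : Good (Phi V5.P V5.D 1 1) ⟨5, 26, 4, 6, 4, 15, 3, 3, 5, 1⟩ :=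
  leafX_sound T5.ok_pp T5.Ypp.bz_eq (w := 254) (c := ⟨⟨.negSucc 402, .ofNat 64, .negSucc 0, .ofNat 2333, .negSucc 1170, .negSucc 1366⟩, ⟨.negSucc 17, .ofNat 185, .negSucc 116, .ofNat 1163, .negSucc 520, .negSucc 687⟩, ⟨.negSucc 92, .ofNat 191, .negSucc 103, .negSucc 950, .ofNat 629, .ofNat 500⟩, ⟨.negSucc 1886, .negSucc 207, .negSucc 115, .ofNat 3575, .negSucc 2297, .negSucc 2004⟩, ⟨.ofNat 2746, .ofNat 509, .ofNat 13, .negSucc 60, .ofNat 1019, .negSucc 146⟩, .ofNat 911, .negSucc 1138, .ofNat 0, .negSucc 1138, .ofNat 2404, .ofNat 0, .ofNat 128, .ofNat 381, .negSucc 720, .ofNat 0, .ofNat 224, .negSucc 297, .ofNat 0, .ofNat 0, .ofNat 644, .ofNat 1919, .ofNat 0, .ofNat 0, .ofNat 72135827879514199585640339608576474428496412672, .ofNat 0, .ofNat 0, .ofNat 0, .ofNat 480716119182001504573314057061075619186164629504, .ofNat 0, .ofNat 0, .ofNat 0, .ofNat 780178926731203441827240795172434895479968366592,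 .ofNat 0, .ofNat 0, .ofNat 0, .ofNat 0, .ofNat 0⟩)
    (by decide +kernel)
theorem L01498 : Good (Phi V5.P V5.D 1 1) ⟨5, 27, 4, 6, 3, 7, 2, 1, 4, 0⟩ :=
  out_sound (S := T5.ds_pp) T5.ok_pp (w := 59) (j := 3) (by decide +kernel)
theorem L01499 : Good (Phi V5.P V5.D 1 1) ⟨3, 7, 4, 6, 3, 7, 2, 1, 4, 0⟩ :=
  out_sound (S := T5.ds_pp) T5.ok_pp (w := 47) (j := 3) (by decide +kernel)
theorem L01500 : Good (Phi V5.P V5.D 1 1) ⟨2, 2, 4, 7, 3, 7, 2, 1, 4, 0⟩ :=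
  out_sound (S := T5.ds_pp) T5.ok_pp (w := 41) (j := 3) (by decide +kernel)
theorem L01501 : Good (Phi V5.P V5.D 1 1) ⟨4, 12, 4, 7, 3, 7, 2, 1, 4, 0⟩ :=
  leafX_sound T5.ok_pp T5.Ypp.bz_eq (w := 232) (c := ⟨⟨.ofNat 1924, .ofNat 1, .ofNat 3023, .ofNat 1875, .negSucc 1118, .negSucc 3261⟩, ⟨.ofNat 1013, .ofNat 1, .ofNat 1643, .ofNat 978, .negSucc 520, .negSucc 1659⟩, ⟨.negSucc 1504, .negSucc 0, .negSucc 2104, .negSucc 338, .ofNat 719, .ofNat 1206⟩, ⟨.ofNat 2132, .ofNat 0, .ofNat 630, .ofNat 2153, .negSucc 2389, .negSucc 4555⟩, ⟨.ofNat 1780, .ofNat 1, .ofNat 313, .ofNat 1481, .ofNat 1313, .negSucc 997⟩, .ofNat 2529, .negSucc 4273, .ofNat 0, .negSucc 4273, .ofNat 8555, .ofNat 0, .ofNat 128, .ofNat 1554, .negSucc 2055, .ofNat 0, .ofNat 830, .negSucc 980, .ofNat 0, .ofNat 0, .ofNat 1970, .ofNat 1312, .ofNat 0, .ofNat 0, .ofNat 180914760866829497749277958127498500767744, .ofNat 0, .ofNat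 0, .ofNat 0, .ofNat 3358064087597075422709509655814215861010432, .ofNat 0, .ofNat 0, .ofNat 0, .ofNat 3274733769543624648695714048006958140620800, .ofNat 0, .ofNat 0, .ofNat 0, .ofNat 6046248806663460696243780996430923684642816, .ofNat 0⟩)
    (by decide +kernel)
theorem L01502 : Good (Phi V5.P V5.D 1 1) ⟨5, 26, 4, 7, 3, 7, 3, 2, 5, 0⟩ :=
  leafX_sound T5.ok_pp T5.Ypp.bz_eq (w := 242) (c := ⟨⟨.ofNat 1880, .ofNat 510, .negSucc 648, .ofNat 1433, .negSucc 2, .negSucc 2006⟩, ⟨.ofNat 984, .ofNat 432, .negSucc 392, .ofNat 812, .ofNat 24, .negSucc 1079⟩, ⟨.negSucc 1549, .negSucc 195, .ofNat 313, .ofNat 310, .negSucc 65, .ofNat 622⟩, ⟨.ofNat 1920, .ofNat 680, .negSucc 1344, .ofNat 1236, .negSucc 146, .negSucc 2599⟩, ⟨.ofNat 2036, .negSucc 117, .ofNat 523, .ofNat 1784, .ofNat 220, .negSucc 862⟩, .ofNat 1736, .negSucc 2636, .ofNat 0, .negSucc 2636, .ofNat 5140, .ofNat 0, .ofNat 128, .ofNat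 601, .negSucc 1197, .ofNat 0, .ofNat 337, .negSucc 589, .ofNat 0, .ofNat 0, .ofNat 1036, .ofNat 495, .ofNat 0, .ofNat 0, .ofNat 3627288859090217356509284696236917396602880, .ofNat 0, .ofNat 0, .ofNat 0, .ofNat 173833099597902919041919879337501411745202176, .ofNat 0, .ofNat 0, .ofNat 0, .ofNat 38742477582606853971733632670956742057656320, .ofNat 0, .ofNat 0, .ofNat 0, .ofNat 0, .ofNat 0⟩)
    (by decide +kernel)
theorem L01503 : Good (Phi V5.P V5.D 1 1) ⟨5, 26, 4, 7, 4, 14, 3, 3, 5, 0⟩ :=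
  leafX_sound T5.ok_pp T5.Ypp.bz_eq (w := 256) (c := ⟨⟨.ofNat 2452, .negSucc 187, .ofNat 3, .negSucc 242, .negSucc 1584, .negSucc 2524⟩, ⟨.ofNat 1334, .ofNat 81, .negSucc 127, .negSucc 78, .negSucc 803, .negSucc 1343⟩, ⟨.negSucc 1824, .ofNat 164, .negSucc 5, .ofNat 326, .ofNat 973, .ofNat 1191⟩, ⟨.ofNat 2865, .negSucc 293, .negSucc 343, .negSucc 992, .negSucc 3030, .negSucc 3908⟩, ⟨.ofNat 1747, .negSucc 126, .ofNat 452, .ofNat 1159, .ofNat 1228, .ofNat 206⟩, .ofNat 1228, .negSucc 1714, .ofNat 0, .negSucc 1714, .ofNat 3436, .ofNat 0, .ofNat 128, .ofNat 714, .negSucc 1591, .ofNat 0, .ofNat 403, .negSucc 769, .ofNat 0, .ofNat 0, .ofNat 1244, .ofNat 1287, .ofNat 0, .ofNat 0, .ofNat 0, .ofNat 0, .ofNat 0, .ofNat 0, .ofNat 1543792363896673620141380836504973720624211951616, .ofNat 0, .ofNat 0, .ofNat 0, .ofNat 0, .ofNat 0, .ofNat 0, .ofNat 0, .ofNat 0, .ofNat 0⟩)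
    (by decide +kernel)
theorem L01504 : Good (Phi V5.P V5.D 1 1) ⟨5, 26, 4, 7, 4, 15, 3, 3, 5, 0⟩ :=
  leafX_sound T5.ok_pp T5.Ypp.bz_eq (w := 256) (c := ⟨⟨.ofNat 941, .ofNat 310, .negSucc 174, .ofNat 2277, .negSucc 1121, .negSucc 1369⟩, ⟨.ofNat 574, .ofNat 380, .negSucc 201, .ofNat 1218, .negSucc 570, .negSucc 775⟩, ⟨.negSucc 655, .ofNat 17, .negSucc 13, .negSucc 664, .ofNat 459, .ofNat 330⟩, ⟨.negSucc 334, .ofNat 183, .negSucc 565, .ofNat 3351, .negSucc 2169, .negSucc 1648⟩, ⟨.ofNat 3625, .ofNat 223, .ofNat 301, .ofNat 150, .ofNat 913, .negSucc 786⟩, .ofNat 1220, .negSucc 1703, .ofNat 0, .negSucc 1703, .ofNat 3423, .ofNat 0, .ofNat 128, .ofNat 664, .negSucc 1365, .ofNat 0, .ofNat 379, .negSucc 644, .ofNat 0, .ofNat 0, .ofNat 1064, .ofNat 936, .ofNat 0, .ofNat 0, .ofNat 92910838519441801766688632587593567050622042112, .ofNat 0, .ofNat 0, .ofNat 0, .ofNat 0, .ofNat 0, .ofNat 0, .ofNat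 0, .ofNat 1804166214578323289646608471263583229493521678336, .ofNat 0, .ofNat 0, .ofNat 0, .ofNat 0, .ofNat 0⟩)
    (by decide +kernel)
theorem L01505 : Good (Phi V5.P V5.D 1 1) ⟨5, 26, 4, 7, 3, 7, 2, 1, 5, 1⟩ :=
  leafX_sound T5.ok_pp T5.Ypp.bz_eq (w := 237) (c := ⟨⟨.negSucc 422, .ofNat 16, .ofNat 57, .ofNat 2531, .negSucc 1617, .negSucc 1393⟩, ⟨.negSucc 192, .ofNat 130, .negSucc 97, .ofNat 1364, .negSucc 792, .negSucc 712⟩, ⟨.negSucc 168, .ofNat 76, .negSucc 137, .negSucc 976, .ofNat 857, .ofNat 508⟩, ⟨.negSucc 1500, .negSucc 156, .negSucc 95, .ofNat 3702, .negSucc 3564, .negSucc 1893⟩, ⟨.ofNat 1792, .ofNat 240, .ofNat 190, .ofNat 229, .ofNat 2092, .negSucc 444⟩, .ofNat 1216, .negSucc 1684, .ofNat 0, .negSucc 1684, .ofNat 3355, .ofNat 0, .ofNat 128, .ofNat 545, .negSucc 863, .ofNat 0, .ofNat 311, .negSucc 404, .ofNat 0, .ofNat 0, .ofNat 854, .ofNat 815, .ofNat 0, .ofNat 0, .ofNat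 254745617304926793398023503868791055450112, .ofNat 0, .ofNat 0, .ofNat 0, .ofNat 4916412513657797243999150405600415489982464, .ofNat 0, .ofNat 0, .ofNat 0, .ofNat 0, .ofNat 0, .ofNat 0, .ofNat 0, .ofNat 0, .ofNat 0⟩)
    (by decide +kernel)
theorem L01506 : Good (Phi V5.P V5.D 1 1) ⟨6, 54, 4, 7, 4, 14, 2, 1, 5, 0⟩ :=
  leafX_sound T5.ok_pp T5.Ypp.bz_eq (w := 256) (c := ⟨⟨.ofNat 3759, .negSucc 39, .negSucc 318, .negSucc 241, .negSucc 2242, .negSucc 3115⟩, ⟨.ofNat 2194, .ofNat 55, .negSucc 249, .negSucc 93, .negSucc 1159, .negSucc 1730⟩, ⟨.negSucc 2730, .ofNat 120, .ofNat 216, .ofNat 487, .ofNat 1445, .ofNat 1544⟩, ⟨.ofNat 5119, .negSucc 157, .negSucc 569, .negSucc 1184, .negSucc 4568, .negSucc 4599⟩, ⟨.ofNat 1042, .ofNat 38, .ofNat 34, .ofNat 1408, .ofNat 2205, .negSucc 54⟩, .ofNat 1024, .negSucc 1271, .ofNat 0, .negSucc 1271, .ofNat 2442, .ofNat 0, .ofNat 128, .ofNat 630, .negSucc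 1636, .ofNat 0, .ofNat 381, .negSucc 807, .ofNat 0, .ofNat 0, .ofNat 1256, .ofNat 1129, .ofNat 0, .ofNat 0, .ofNat 0, .ofNat 0, .ofNat 0, .ofNat 0, .ofNat 22658770253081288491482455517805514056154480640, .ofNat 0, .ofNat 0, .ofNat 0, .ofNat 10296530869636249907737659824978351469671481344, .ofNat 0, .ofNat 0, .ofNat 0, .ofNat 115882032421801487043748465448031543247199272960, .ofNat 0⟩)
    (by decide +kernel)
theorem L01507 : Good (Phi V5.P V5.D 1 1) ⟨6, 54, 4, 7, 4, 15, 2, 1, 5, 0⟩ :=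
  leafX_sound T5.ok_pp T5.Ypp.bz_eq (w := 256) (c := ⟨⟨.ofNat 2401, .ofNat 260, .negSucc 435, .ofNat 2364, .negSucc 1460, .negSucc 2236⟩, ⟨.ofNat 1545, .ofNat 274, .negSucc 358, .ofNat 1341, .negSucc 748, .negSucc 1277⟩, ⟨.negSucc 914, .negSucc 20, .negSucc 26, .negSucc 641, .ofNat 474, .ofNat 715⟩, ⟨.ofNat 1855, .ofNat 197, .negSucc 691, .ofNat 3262, .negSucc 3234, .negSucc 2684⟩, ⟨.ofNat 3331, .ofNat 116, .negSucc 139, .ofNat 486, .ofNat 1864, .negSucc 1135⟩, .ofNat 1024, .negSucc 1271, .ofNat 0, .negSucc 1271, .ofNat 2442, .ofNat 0, .ofNat 128, .ofNat 716, .negSucc 1604, .ofNat 0, .ofNat 439, .negSucc 770, .ofNat 0, .ofNat 0, .ofNat 1245, .ofNat 1157, .ofNat 0, .ofNat 0, .ofNat 2171294440312828401181844707696656878852374528, .ofNat 0, .ofNat 0, .ofNat 0, .ofNat 5229718510656722771886662916290931313285791744, .ofNat 0, .ofNat 0, .ofNat 0, .ofNat 67558307007120816308923809220226795133942628352,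 .ofNat 0, .ofNat 0, .ofNat 0, .ofNat 62999084071317858869064843293000287767266066432, .ofNat 0⟩)
    (by decide +kernel)
theorem L01508 : Good (Phi V5.P V5.D 1 1) ⟨6, 55, 4, 7, 3, 7, 2, 1, 5, 0⟩ :=
  out_sound (S := T5.ds_pp) T5.ok_pp (w := 65) (j := 3) (by decide +kernel)
theorem L01509 : Good (Phi V5.P V5.D 1 1) ⟨5, 27, 4, 7, 3, 7, 2, 1, 5, 1⟩ :=
  leafX_sound T5.ok_pp T5.Ypp.bz_eq (w := 237) (c := ⟨⟨.negSucc 795, .ofNat 250, .ofNat 139, .ofNat 2856, .negSucc 1519, .negSucc 1200⟩, ⟨.negSucc 275, .ofNat 263, .negSucc 46, .ofNat 1617, .negSucc 759, .negSucc 666⟩, ⟨.negSucc 33, .negSucc 223, .ofNat 12, .negSucc 1119, .ofNat 724, .ofNat 484⟩, ⟨.negSucc 1837, .ofNat 144, .negSucc 118, .ofNat 4006, .negSucc 3445, .negSucc 1718⟩, ⟨.ofNat 1366, .ofNat 262, .ofNat 409, .ofNat 441, .ofNat 2128, .negSucc 127⟩, .ofNat 1184, .negSucc 1504, .ofNat 0, .negSucc 1504, .ofNat 2776, .ofNat 0, .ofNat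 128, .ofNat 471, .negSucc 991, .ofNat 0, .ofNat 292, .negSucc 471, .ofNat 0, .ofNat 0, .ofNat 911, .ofNat 1099, .ofNat 0, .ofNat 0, .ofNat 245560206612379016804389649139574413197312, .ofNat 0, .ofNat 0, .ofNat 0, .ofNat 1368172200894678373960145661347541754576896, .ofNat 0, .ofNat 0, .ofNat 0, .ofNat 1331675868855085310636740601515518371823616, .ofNat 0, .ofNat 0, .ofNat 0, .ofNat 12173132154168033064196226712932305717952512, .ofNat 0⟩)
    (by decide +kernel)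
theorem L01510 : Good (Phi V5.P V5.D 1 1) ⟨3, 7, 4, 7, 3, 7, 2, 1, 4, 0⟩ :=
  out_sound (S := T5.ds_pp) T5.ok_pp (w := 47) (j := 3) (by decide +kernel)
theorem L01511 : Good (Phi V5.P V5.D 1 1) ⟨2, 2, 3, 3, 2, 3, 1, 0, 4, 1⟩ :=
  out_sound (S := T5.ds_pp) T5.ok_pp (w := 39) (j := 3) (by decide +kernel)
theorem L01512 : Good (Phi V5.P V5.D 1 1) ⟨3, 6, 3, 3, 2, 3, 3, 0, 4, 1⟩ :=
  leafX_sound T5.ok_pp T5.Ypp.bz_eq (w := 209) (c := ⟨⟨.negSucc 772, .negSucc 116, .ofNat 82, .ofNat 1067, .negSucc 287, .negSucc 1044⟩, ⟨.negSucc 346, .ofNat 10, .negSucc 114, .ofNat 577, .negSucc 136, .negSucc 511⟩, ⟨.negSucc 896, .negSucc 118, .ofNat 163, .ofNat 598, .ofNat 162, .ofNat 429⟩, ⟨.negSucc 1388, .ofNat 94, .ofNat 137, .ofNat 1045, .negSucc 618, .negSucc 1678⟩, ⟨.ofNat 317, .negSucc 246, .negSucc 162, .ofNat 1162, .ofNat 386, .ofNat 93⟩, .ofNat 661, .negSucc 735, .ofNat 0, .negSucc 735, .ofNat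 1700, .ofNat 0, .ofNat 128, .ofNat 374, .negSucc 266, .ofNat 0, .ofNat 222, .negSucc 104, .ofNat 0, .ofNat 0, .ofNat 548, .ofNat 2163, .ofNat 0, .ofNat 0, .ofNat 0, .ofNat 0, .ofNat 0, .ofNat 0, .ofNat 166469935555870497849076390970332807168, .ofNat 0, .ofNat 0, .ofNat 0, .ofNat 468664596839578135222615625552290119680, .ofNat 0, .ofNat 0, .ofNat 0, .ofNat 0, .ofNat 0⟩)
    (by decide +kernel)
theorem L01513 : Good (Phi V5.P V5.D 1 1) ⟨3, 6, 3, 3, 2, 3, 3, 1, 4, 1⟩ :=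
  leafX_sound T5.ok_pp T5.Ypp.bz_eq (w := 209) (c := ⟨⟨.negSucc 1048, .negSucc 503, .ofNat 91, .ofNat 1432, .negSucc 495, .negSucc 991⟩, ⟨.negSucc 481, .negSucc 150, .negSucc 149, .ofNat 761, .negSucc 221, .negSucc 491⟩, ⟨.negSucc 483, .ofNat 243, .ofNat 60, .negSucc 139, .ofNat 387, .ofNat 484⟩, ⟨.negSucc 1688, .negSucc 648, .ofNat 105, .ofNat 1417, .negSucc 957, .negSucc 1721⟩, ⟨.negSucc 42, .ofNat 226, .negSucc 96, .ofNat 1668, .ofNat 381, .ofNat 352⟩, .ofNat 840, .negSucc 1044, .ofNat 0, .negSucc 1044, .ofNat 2289, .ofNat 0, .ofNat 128, .ofNat 423, .negSucc 201, .ofNat 0, .ofNat 248, .negSucc 82, .ofNat 0, .ofNat 0, .ofNat 368, .ofNat 917, .ofNat 0, .ofNat 0, .ofNat 0, .ofNat 0, .ofNat 0, .ofNat 0, .ofNat 235100184825278631439003937255460962304, .ofNat 0, .ofNat 0, .ofNat 0, .ofNat 541460578898207197121053335496882651136, .ofNat 0, .ofNat 0, .ofNat 0, .ofNat 33295453021206320333692793107525926912,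 .ofNat 0⟩)
    (by decide +kernel)
theorem L01514 : Good (Phi V5.P V5.D 1 1) ⟨4, 12, 3, 3, 2, 3, 2, 1, 4, 1⟩ :=
  leafX_sound T5.ok_pp T5.Ypp.bz_eq (w := 210) (c := ⟨⟨.negSucc 1519, .negSucc 413, .ofNat 405, .ofNat 1916, .negSucc 1660, .negSucc 1358⟩, ⟨.negSucc 738, .negSucc 87, .negSucc 170, .ofNat 986, .negSucc 738, .negSucc 625⟩, ⟨.ofNat 28, .ofNat 261, .negSucc 66, .negSucc 1034, .ofNat 1285, .ofNat 1033⟩, ⟨.negSucc 2561, .negSucc 533, .ofNat 399, .ofNat 1959, .negSucc 3186, .negSucc 2119⟩, ⟨.ofNat 86, .ofNat 192, .ofNat 71, .ofNat 2243, .ofNat 1222, .negSucc 14⟩, .ofNat 823, .negSucc 1059, .ofNat 0, .negSucc 1059, .ofNat 2489, .ofNat 0, .ofNat 128, .ofNat 438, .negSucc 437, .ofNat 0, .ofNat 243, .negSucc 168, .ofNat 0, .ofNat 0, .ofNat 582, .ofNat 609, .ofNat 0, .ofNat 0, .ofNat 0, .ofNat 0, .ofNat 0, .ofNat 0, .ofNat 1253872152484122776956113142446817280, .ofNat 0, .ofNat 0,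 .ofNat 0, .ofNat 10610436799314313241550170302512627712, .ofNat 0, .ofNat 0, .ofNat 0, .ofNat 10078348853614564852666795718193709056, .ofNat 0⟩)
    (by decide +kernel)
theorem L01515 : Good (Phi V5.P V5.D 1 1) ⟨4, 13, 3, 3, 3, 6, 2, 1, 4, 1⟩ :=
  leafX_sound T5.ok_pp T5.Ypp.bz_eq (w := 223) (c := ⟨⟨.negSucc 1302, .ofNat 12, .negSucc 134, .negSucc 70, .negSucc 2244, .negSucc 1073⟩, ⟨.negSucc 494, .negSucc 56, .negSucc 354, .ofNat 46, .negSucc 1101, .negSucc 560⟩, ⟨.negSucc 245, .ofNat 22, .ofNat 208, .ofNat 52, .ofNat 1879, .ofNat 949⟩, ⟨.negSucc 2245, .ofNat 139, .negSucc 409, .negSucc 822, .negSucc 3750, .negSucc 1453⟩, ⟨.ofNat 461, .ofNat 312, .ofNat 199, .ofNat 1390, .ofNat 734, .negSucc 313⟩, .ofNat 1161, .negSucc 1523, .ofNat 0, .negSucc 1523, .ofNat 2959, .ofNat 0, .ofNat 128, .ofNat 317, .negSucc 288, .ofNat 0, .ofNat 195, .negSucc 132, .ofNat 0, .ofNat 0, .ofNat 376, .ofNat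 710, .ofNat 0, .ofNat 0, .ofNat 2684358971343611713614046866702990311424, .ofNat 0, .ofNat 0, .ofNat 0, .ofNat 195418284785655909857846053644373604696064, .ofNat 0, .ofNat 0, .ofNat 0, .ofNat 125359381965340387436922907279629937016832, .ofNat 0, .ofNat 0, .ofNat 0, .ofNat 50007345664614075723292772141999444721664, .ofNat 0⟩)
    (by decide +kernel)
theorem L01516 : Good (Phi V5.P V5.D 1 1) ⟨4, 13, 3, 3, 3, 7, 2, 1, 4, 1⟩ :=
  leafX_sound T5.ok_pp T5.Ypp.bz_eq (w := 223) (c := ⟨⟨.negSucc 1471, .negSucc 423, .ofNat 116, .ofNat 1870, .negSucc 1924, .negSucc 1149⟩, ⟨.negSucc 527, .ofNat 6, .negSucc 336, .ofNat 1050, .negSucc 935, .negSucc 601⟩, ⟨.ofNat 246, .ofNat 391, .negSucc 82, .negSucc 1042, .ofNat 1319, .ofNat 823⟩, ⟨.negSucc 2794, .negSucc 608, .negSucc 108, .ofNat 2400, .negSucc 3984, .negSucc 1739⟩, ⟨.ofNat 1224, .ofNat 98, .ofNat 225, .ofNat 820, .ofNat 2069, .ofNat 27⟩, .ofNat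 939, .negSucc 1146, .ofNat 0, .negSucc 1146, .ofNat 2293, .ofNat 0, .ofNat 128, .ofNat 311, .negSucc 317, .ofNat 0, .ofNat 195, .negSucc 133, .ofNat 0, .ofNat 0, .ofNat 388, .ofNat 497, .ofNat 0, .ofNat 0, .ofNat 4480108649580901843418674276240455630848, .ofNat 0, .ofNat 0, .ofNat 0, .ofNat 29864128557254558115683536709271045537792, .ofNat 0, .ofNat 0, .ofNat 0, .ofNat 70905554927350006389004521424961434288128, .ofNat 0, .ofNat 0, .ofNat 0, .ofNat 97846653557384409161189878417822182277120, .ofNat 0⟩)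
    (by decide +kernel)
theorem L01517 : Good (Phi V5.P V5.D 1 1) ⟨3, 7, 3, 3, 2, 3, 1, 0, 4, 1⟩ :=
  out_sound (S := T5.ds_pp) T5.ok_pp (w := 45) (j := 3) (by decide +kernel)
theorem L01518 : Good (Phi V5.P V5.D 1 1) ⟨2, 2, 3, 3, 2, 3, 2, 0, 3, 1⟩ :=
  out_sound (S := T5.ds_pp) T5.ok_pp (w := 39) (j := 3) (by decide +kernel)
theorem L01519 : Good (Phi V5.P V5.D 1 1) ⟨4, 12, 3, 3, 2, 3, 2, 0, 4, 2⟩ :=
  leafX_sound T5.ok_pp T5.Ypp.bz_eq (w := 209) (c := ⟨⟨.negSucc 1817, .negSucc 73, .ofNat 124, .ofNat 1133, .negSucc 816, .negSucc 267⟩, ⟨.negSucc 795, .negSucc 50, .negSucc 141, .ofNat 593, .negSucc 367, .negSucc 141⟩, ⟨.negSucc 300, .ofNat 76, .negSucc 48, .negSucc 86, .ofNat 924, .ofNat 321⟩, ⟨.negSucc 3070, .ofNat 62, .ofNat 191, .ofNat 998, .negSucc 1497, .negSucc 293⟩, ⟨.ofNat 188, .ofNat 40, .negSucc 176, .ofNat 1628, .ofNat 437, .negSucc 254⟩, .ofNat 819, .negSucc 1047, .ofNat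 0, .negSucc 1047, .ofNat 2445, .ofNat 0, .ofNat 128, .ofNat 308, .negSucc 147, .ofNat 0, .ofNat 191, .negSucc 53, .ofNat 0, .ofNat 0, .ofNat 507, .ofNat 1885, .ofNat 183556310442563874342807282301034347626496, .ofNat 0, .ofNat 71519195976858081074373112327307264, .ofNat 0, .ofNat 0, .ofNat 0, .ofNat 4673376823778231012682386015187369984, .ofNat 0, .ofNat 0, .ofNat 0, .ofNat 0, .ofNat 0, .ofNat 10744919035105746614542180254760634480066560, .ofNat 0, .ofNat 3134115349583105890592685605708103680, .ofNat 0⟩)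
    (by decide +kernel)
theorem L01520 : Good (Phi V5.P V5.D 1 1) ⟨4, 13, 3, 3, 3, 6, 2, 0, 4, 2⟩ :=
  leafX_sound T5.ok_pp T5.Ypp.bz_eq (w := 223) (c := ⟨⟨.negSucc 1736, .negSucc 105, .negSucc 0, .ofNat 358, .negSucc 946, .negSucc 223⟩, ⟨.negSucc 758, .negSucc 102, .negSucc 195, .ofNat 218, .negSucc 478, .negSucc 129⟩, ⟨.negSucc 504, .negSucc 21, .ofNat 128, .negSucc 5, .ofNat 1317, .ofNat 319⟩, ⟨.negSucc 2827, .negSucc 23, .ofNat 68, .ofNat 152, .negSucc 1619, .negSucc 172⟩, ⟨.ofNat 322, .ofNat 157, .negSucc 207, .ofNat 739, .ofNat 364, .negSucc 320⟩, .ofNat 939, .negSucc 1146, .ofNat 0, .negSucc 1146, .ofNat 2293, .ofNat 0, .ofNat 128, .ofNat 253, .negSucc 127, .ofNat 0, .ofNat 172, .negSucc 52, .ofNat 0, .ofNat 0, .ofNat 416, .ofNat 3298, .ofNat 0, .ofNat 0, .ofNat 0, .ofNat 0, .ofNat 0, .ofNat 0, .ofNat 114736754423793916822022219761331638108160, .ofNat 0, .ofNat 0, .ofNat 0,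 .ofNat 84519645890323542486897115658614908911616, .ofNat 0, .ofNat 30957655417445488295400052932251162310720094208, .ofNat 0, .ofNat 43818251333314140042013312248787251494912, .ofNat 0⟩)
    (by decide +kernel)
theorem L01521 : Good (Phi V5.P V5.D 1 1) ⟨4, 13, 3, 3, 3, 7, 2, 0, 4, 2⟩ :=
  leafX_sound T5.ok_pp T5.Ypp.bz_eq (w := 223) (c := ⟨⟨.negSucc 1439, .negSucc 43, .ofNat 74, .ofNat 886, .negSucc 787, .negSucc 355⟩, ⟨.negSucc 582, .ofNat 12, .negSucc 184, .ofNat 509, .negSucc 382, .negSucc 204⟩, ⟨.negSucc 87, .ofNat 18, .ofNat 39, .negSucc 122, .ofNat 690, .ofNat 312⟩, ⟨.negSucc 2607, .negSucc 81, .ofNat 207, .ofNat 894, .negSucc 1566, .negSucc 429⟩, ⟨.ofNat 843, .ofNat 312, .negSucc 344, .ofNat 816, .ofNat 730, .negSucc 185⟩, .ofNat 1130, .negSucc 1521, .ofNat 0, .negSucc 1521, .ofNat 3046, .ofNat 0, .ofNat 128, .ofNat 400, .negSucc 142, .ofNat 0, .ofNat 256, .negSucc 59, .ofNat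 0, .ofNat 0, .ofNat 481, .ofNat 2081, .ofNat 273036866022173616648525840996662632209448960, .ofNat 0, .ofNat 1415275473957788429565601739385266503680, .ofNat 0, .ofNat 0, .ofNat 0, .ofNat 201429560901147318337376220321091820716032, .ofNat 0, .ofNat 0, .ofNat 0, .ofNat 188877176154085002218631416122270331961344, .ofNat 0, .ofNat 25484464030105708679727361025418154421732245504, .ofNat 0, .ofNat 22423462600181587205353387361660370419712, .ofNat 0⟩)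
    (by decide +kernel)
theorem L01522 : Good (Phi V5.P V5.D 1 1) ⟨3, 6, 3, 3, 2, 3, 2, 0, 4, 3⟩ :=
  leafX_sound T5.ok_pp T5.Ypp.bz_eq (w := 205) (c := ⟨⟨.negSucc 1980, .negSucc 257, .ofNat 80, .ofNat 951, .negSucc 636, .negSucc 14⟩, ⟨.negSucc 864, .negSucc 210, .negSucc 149, .ofNat 554, .negSucc 312, .negSucc 16⟩, ⟨.ofNat 7, .ofNat 194, .negSucc 28, .negSucc 103, .ofNat 956, .ofNat 99⟩, ⟨.negSucc 3252, .ofNat 31, .ofNat 142, .ofNat 629, .negSucc 1132, .ofNat 138⟩, ⟨.negSucc 37, .ofNat 185, .negSucc 215, .ofNat 1564, .ofNat 314, .negSucc 294⟩, .ofNat 635, .negSucc 677, .ofNat 0, .negSucc 677, .ofNat 1558, .ofNat 0, .ofNat 128, .ofNat 216, .negSucc 86, .ofNat 0, .ofNat 166, .negSucc 24, .ofNat 0, .ofNat 0, .ofNat 491, .ofNat 2243, .ofNat 0, .ofNat 0, .ofNat 205941554253460453557879930680770560, .ofNat 0, .ofNat 0, .ofNat 0, .ofNat 16246434025781146289452094664524955648, .ofNat 0,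 .ofNat 0, .ofNat 0, .ofNat 51671085643869587756113142996560510976, .ofNat 0, .ofNat 924403537395094899868718599814127418343424, .ofNat 0, .ofNat 10492976354717914597434595049314713600, .ofNat 0⟩)
    (by decide +kernel)
theorem L01523 : Good (Phi V5.P V5.D 1 1) ⟨3, 7, 3, 3, 2, 3, 2, 0, 3, 1⟩ :=
  out_sound (S := T5.ds_pp) T5.ok_pp (w := 45) (j := 3) (by decide +kernel)
theorem L01524 : Good (Phi V5.P V5.D 1 1) ⟨2, 2, 3, 3, 2, 3, 2, 1, 3, 1⟩ :=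
  out_sound (S := T5.ds_pp) T5.ok_pp (w := 39) (j := 3) (by decide +kernel)
theorem L01525 : Good (Phi V5.P V5.D 1 1) ⟨4, 12, 3, 3, 2, 3, 2, 1, 4, 2⟩ :=
  leafX_sound T5.ok_pp T5.Ypp.bz_eq (w := 209) (c := ⟨⟨.negSucc 2771, .negSucc 326, .ofNat 270, .ofNat 1281, .negSucc 1120, .ofNat 28⟩, ⟨.negSucc 1213, .negSucc 174, .negSucc 166, .ofNat 693, .negSucc 511, .negSucc 13⟩, ⟨.ofNat 1001, .ofNat 220, .negSucc 19, .negSucc 788, .ofNat 1133, .ofNat 211⟩, ⟨.negSucc 4769, .negSucc 260, .ofNat 422, .ofNat 849, .negSucc 1966, .ofNat 367⟩, ⟨.ofNat 440, .ofNat 109, .negSucc 257, .ofNat 2436, .ofNat 433, .negSucc 657⟩, .ofNat 825, .negSucc 1060, .ofNat 0, .negSucc 1060, .ofNat 2470, .ofNat 0, .ofNat 128, .ofNat 310, .negSucc 142, .ofNat 0, .ofNat 187, .negSucc 52, .ofNat 0, .ofNat 0, .ofNat 334, .ofNat 766, .ofNat 0, .ofNat 0, .ofNat 106676168994885879042543133879435264, .ofNat 0, .ofNat 0, .ofNat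 0, .ofNat 2703090110981852124159564133263474688, .ofNat 0, .ofNat 0, .ofNat 0, .ofNat 11234802477748164760045646660035936256, .ofNat 0, .ofNat 0, .ofNat 0, .ofNat 2278462344680713173242468392660631552, .ofNat 0⟩)
    (by decide +kernel)
theorem L01526 : Good (Phi V5.P V5.D 1 1) ⟨4, 13, 3, 3, 3, 6, 2, 1, 4, 2⟩ :=
  leafX_sound T5.ok_pp T5.Ypp.bz_eq (w := 223) (c := ⟨⟨.negSucc 2972, .negSucc 203, .negSucc 39, .ofNat 285, .negSucc 1345, .ofNat 261⟩, ⟨.negSucc 1312, .negSucc 155, .negSucc 325, .ofNat 197, .negSucc 688, .ofNat 102⟩, ⟨.ofNat 1104, .ofNat 188, .ofNat 72, .negSucc 179, .ofNat 1343, .ofNat 62⟩, ⟨.negSucc 4712, .negSucc 118, .negSucc 231, .negSucc 316, .negSucc 2214, .ofNat 754⟩, ⟨.ofNat 347, .ofNat 350, .ofNat 133, .ofNat 1401, .ofNat 367, .negSucc 686⟩, .ofNat 1137, .negSucc 1538, .ofNat 0, .negSucc 1538, .ofNat 3086, .ofNat 0, .ofNat 128, .ofNat 276, .negSucc 135, .ofNat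 0, .ofNat 170, .negSucc 60, .ofNat 0, .ofNat 0, .ofNat 308, .ofNat 947, .ofNat 0, .ofNat 0, .ofNat 2944979226978788261975514222746776109056, .ofNat 0, .ofNat 0, .ofNat 0, .ofNat 229275191552403621749874114747410293981184, .ofNat 0, .ofNat 0, .ofNat 0, .ofNat 250490305449841864522865534168061915955200, .ofNat 0, .ofNat 0, .ofNat 0, .ofNat 63533220205764168651130135646631781990400, .ofNat 0⟩)
    (by decide +kernel)
theorem L01527 : Good (Phi V5.P V5.D 1 1) ⟨4, 13, 3, 3, 4, 14, 2, 1, 4, 2⟩ :=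
  leafX_sound T5.ok_pp T5.Ypp.bz_eq (w := 237) (c := ⟨⟨.negSucc 2704, .negSucc 238, .ofNat 101, .ofNat 507, .negSucc 1372, .ofNat 225⟩, ⟨.negSucc 1125, .negSucc 57, .negSucc 293, .ofNat 291, .negSucc 686, .ofNat 70⟩, ⟨.ofNat 1035, .ofNat 194, .negSucc 33, .negSucc 310, .ofNat 1213, .ofNat 61⟩, ⟨.negSucc 4907, .negSucc 247, .ofNat 14, .ofNat 353, .negSucc 2510, .ofNat 833⟩, ⟨.ofNat 1599, .ofNat 240, .ofNat 20, .ofNat 774, .ofNat 837, .negSucc 932⟩, .ofNat 939, .negSucc 1146, .ofNat 0, .negSucc 1146, .ofNat 2293, .ofNat 0, .ofNat 128, .ofNat 257, .negSucc 153, .ofNat 0, .ofNat 175, .negSucc 61, .ofNat 0, .ofNat 0, .ofNat 323, .ofNat 1004, .ofNat 0, .ofNat 0, .ofNat 63853169953503647930574298954598705373642752, .ofNat 0, .ofNat 0, .ofNat 0, .ofNat 1304551788161943015854271680102962805468037120, .ofNat 0, .ofNat 0, .ofNat 0, .ofNat 1130212977123658561107341915582510875021410304, .ofNat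 0, .ofNat 0, .ofNat 0, .ofNat 1070450059044558558580705264539114393909067776, .ofNat 0⟩)
    (by decide +kernel)
theorem L01528 : Good (Phi V5.P V5.D 1 1) ⟨4, 13, 3, 3, 4, 15, 2, 1, 4, 2⟩ :=
  leafX_sound T5.ok_pp T5.Ypp.bz_eq (w := 238) (c := ⟨⟨.negSucc 2136, .negSucc 73, .ofNat 129, .ofNat 809, .negSucc 1267, .negSucc 166⟩, ⟨.negSucc 836, .ofNat 114, .negSucc 298, .ofNat 477, .negSucc 608, .negSucc 121⟩, ⟨.ofNat 739, .ofNat 139, .negSucc 50, .negSucc 368, .ofNat 1030, .ofNat 308⟩, ⟨.negSucc 4110, .negSucc 502, .ofNat 238, .ofNat 673, .negSucc 2713, .ofNat 27⟩, ⟨.ofNat 1831, .ofNat 991, .negSucc 406, .ofNat 1035, .ofNat 1526, .negSucc 522⟩, .ofNat 1156, .negSucc 1561, .ofNat 0, .negSucc 1561, .ofNat 3102, .ofNat 0, .ofNat 128, .ofNat 327, .negSucc 144, .ofNat 0, .ofNat 211, .negSucc 58, .ofNat 0, .ofNat 0, .ofNat 368, .ofNat 887, .ofNat 0, .ofNat 0, .ofNat 40754136804182043533911916618883884382158848,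 .ofNat 0, .ofNat 0, .ofNat 0, .ofNat 2331617205260667686322078456188862893513506816, .ofNat 0, .ofNat 0, .ofNat 0, .ofNat 1671306312389839593461287243839675286620733440, .ofNat 0, .ofNat 0, .ofNat 0, .ofNat 0, .ofNat 0⟩)
    (by decide +kernel)
theorem L01529 : Good (Phi V5.P V5.D 1 1) ⟨3, 6, 3, 3, 3, 6, 3, 2, 4, 3⟩ :=
  leafX_sound T5.ok_pp T5.Ypp.bz_eq (w := 224) (c := ⟨⟨.negSucc 2717, .negSucc 275, .negSucc 45, .ofNat 258, .negSucc 384, .ofNat 351⟩, ⟨.negSucc 1154, .negSucc 320, .negSucc 235, .ofNat 157, .negSucc 192, .ofNat 159⟩, ⟨.ofNat 1225, .ofNat 52, .ofNat 107, .negSucc 170, .ofNat 517, .negSucc 85⟩, ⟨.negSucc 4613, .ofNat 107, .negSucc 53, .ofNat 80, .negSucc 601, .ofNat 758⟩, ⟨.ofNat 251, .ofNat 172, .negSucc 85, .ofNat 626, .ofNat 27, .negSucc 453⟩, .ofNat 627, .negSucc 669, .ofNat 0, .negSucc 669, .ofNat 1571, .ofNat 0, .ofNat 128, .ofNat 187, .negSucc 78, .ofNat 0, .ofNat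 135, .negSucc 24, .ofNat 0, .ofNat 0, .ofNat 326, .ofNat 2979, .ofNat 0, .ofNat 0, .ofNat 179235974692695328384205469596004110041088, .ofNat 0, .ofNat 0, .ofNat 0, .ofNat 4811052251378461524839648175126088240857088, .ofNat 0, .ofNat 0, .ofNat 0, .ofNat 8026074924002150532071915230370711124049920, .ofNat 0, .ofNat 0, .ofNat 0, .ofNat 0, .ofNat 0⟩)
    (by decide +kernel)
theorem L01530 : Good (Phi V5.P V5.D 1 1) ⟨3, 6, 3, 3, 3, 6, 3, 3, 4, 3⟩ :=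
  leafX_sound T5.ok_pp T5.Ypp.bz_eq (w := 223) (c := ⟨⟨.negSucc 3106, .negSucc 489, .negSucc 39, .ofNat 252, .negSucc 397, .ofNat 531⟩, ⟨.negSucc 1342, .negSucc 396, .negSucc 292, .ofNat 158, .negSucc 204, .ofNat 252⟩, ⟨.ofNat 1799, .ofNat 144, .ofNat 130, .negSucc 231, .ofNat 492, .negSucc 226⟩, ⟨.negSucc 5257, .negSucc 149, .negSucc 43, .ofNat 26, .negSucc 614, .ofNat 1078⟩, ⟨.ofNat 292, .ofNat 161, .negSucc 79, .ofNat 698, .negSucc 4, .negSucc 548⟩, .ofNat 345, .negSucc 222, .ofNat 0, .negSucc 222, .ofNat 650, .ofNat 0, .ofNat 156, .ofNat 126, .negSucc 113, .ofNat 0, .ofNat 128, .negSucc 16, .ofNat 0, .ofNat 0, .ofNat 334, .ofNat 1125, .ofNat 0, .ofNat 0, .ofNat 139078747754189890883797952477895501807616, .ofNat 0, .ofNat 0, .ofNat 0, .ofNat 875733346859738970016867008937245315956736, .ofNat 0, .ofNat 0, .ofNat 0, .ofNat 0, .ofNat 0, .ofNat 0, .ofNat 0, .ofNat 0, .ofNat 0⟩)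
    (by decide +kernel)
theorem L01531 : Good (Phi V5.P V5.D 1 1) ⟨4, 12, 3, 3, 3, 7, 2, 1, 4, 3⟩ :=
  leafX_sound T5.ok_pp T5.Ypp.bz_eq (w := 223) (c := ⟨⟨.negSucc 2392, .negSucc 162, .ofNat 38, .ofNat 660, .negSucc 766, .ofNat 237⟩, ⟨.negSucc 1039, .negSucc 83, .negSucc 250, .ofNat 379, .negSucc 353, .ofNat 90⟩, ⟨.ofNat 993, .ofNat 127, .negSucc 7, .negSucc 214, .ofNat 812, .ofNat 22⟩, ⟨.negSucc 4344, .negSucc 99, .negSucc 7, .ofNat 293, .negSucc 1290, .ofNat 687⟩, ⟨.ofNat 913, .ofNat 146, .negSucc 61, .ofNat 1571, .ofNat 194, .negSucc 664⟩, .ofNat 1059, .negSucc 1511, .ofNat 0, .negSucc 1511, .ofNat 3382, .ofNat 0, .ofNat 128, .ofNat 243, .negSucc 57, .ofNat 0, .ofNat 157, .negSucc 18, .ofNat 0, .ofNat 0, .ofNat 326, .ofNat 1423, .ofNat 0, .ofNat 0, .ofNat 865223271763748236608646910102598582272, .ofNat 0, .ofNat 0, .ofNat 0, .ofNat 0, .ofNat 0, .ofNat 0, .ofNat 0, .ofNat 257057121634057073032050861907089473667072,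 .ofNat 0, .ofNat 0, .ofNat 0, .ofNat 78609177998482436708691331746044038873088, .ofNat 0⟩)
    (by decide +kernel)
theorem L01532 : Good (Phi V5.P V5.D 1 1) ⟨4, 13, 3, 3, 3, 7, 2, 1, 4, 3⟩ :=
  leafX_sound T5.ok_pp T5.Ypp.bz_eq (w := 223) (c := ⟨⟨.negSucc 2537, .negSucc 128, .ofNat 13, .ofNat 729, .negSucc 845, .ofNat 218⟩, ⟨.negSucc 1120, .negSucc 37, .negSucc 268, .ofNat 464, .negSucc 429, .ofNat 87⟩, ⟨.ofNat 1092, .ofNat 115, .ofNat 5, .negSucc 209, .ofNat 870, .ofNat 14⟩, ⟨.negSucc 4258, .negSucc 160, .negSucc 38, .ofNat 189, .negSucc 1478, .ofNat 680⟩, ⟨.ofNat 793, .ofNat 403, .negSucc 81, .ofNat 1712, .ofNat 395, .negSucc 647⟩, .ofNat 939, .negSucc 1146, .ofNat 0, .negSucc 1146, .ofNat 2293, .ofNat 0, .ofNat 128, .ofNat 238, .negSucc 80, .ofNat 0, .ofNat 182, .negSucc 24, .ofNat 0, .ofNat 0, .ofNat 405, .ofNat 1506, .ofNat 0, .ofNat 0, .ofNat 5614002937170433836202359971702884007936,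 .ofNat 0, .ofNat 0, .ofNat 0, .ofNat 204807099609639310436018992878820157030400, .ofNat 0, .ofNat 0, .ofNat 0, .ofNat 306767754007534071985344316079365626527744, .ofNat 0, .ofNat 0, .ofNat 0, .ofNat 0, .ofNat 0⟩)
    (by decide +kernel)
theorem L01533 : Good (Phi V5.P V5.D 1 1) ⟨3, 7, 3, 3, 2, 3, 2, 1, 3, 1⟩ :=
  out_sound (S := T5.ds_pp) T5.ok_pp (w := 45) (j := 3) (by decide +kernel)
theorem L01534 : Good (Phi V5.P V5.D 1 1) ⟨3, 4, 2, 1, 2, 2, 1, 0, 3, 2⟩ :=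
  out_sound (S := T5.ds_pp) T5.ok_pp (w := 43) (j := 3) (by decide +kernel)
theorem L01535 : Good (Phi V5.P V5.D 1 1) ⟨3, 5, 2, 1, 2, 2, 3, 0, 4, 4⟩ :=
  leafX_sound T5.ok_pp T5.Ypp.bz_eq (w := 212) (c := ⟨⟨.negSucc 2045, .negSucc 232, .ofNat 15, .ofNat 298, .negSucc 196, .ofNat 144⟩, ⟨.negSucc 552, .negSucc 267, .negSucc 303, .ofNat 126, .negSucc 73, .ofNat 41⟩, ⟨.ofNat 268, .negSucc 113, .ofNat 131, .negSucc 196, .ofNat 587, .ofNat 69⟩, ⟨.negSucc 3659, .ofNat 97, .ofNat 114, .ofNat 245, .negSucc 331, .ofNat 309⟩, ⟨.negSucc 779, .ofNat 126, .negSucc 228, .ofNat 725, .ofNat 1, .negSucc 151⟩, .ofNat 327, .negSucc 162, .ofNat 0, .negSucc 162, .ofNat 729, .ofNat 0, .ofNat 128, .ofNat 111, .negSucc 46, .ofNat 0, .ofNat 163, .ofNat 2, .ofNat 0, .ofNat 0, .ofNat 300, .ofNat 166654, .ofNat 4181360111001913642546250036276343047454720, .ofNat 0, .ofNat 104856182400904277058823984380433661952,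 .ofNat 0, .ofNat 10770570155106845920709119965790993911906304, .ofNat 0, .ofNat 36377920442160947603562356633713508352, .ofNat 0, .ofNat 32803039995151161544351728198672482436120576, .ofNat 0, .ofNat 266468157834816048910662977864786247680, .ofNat 0, .ofNat 9288557952298471474246839855107067973992448, .ofNat 0, .ofNat 120056620544299418719290649698243706880, .ofNat 0⟩)
    (by decide +kernel)
theorem L01536 : Good (Phi V5.P V5.D 1 1) ⟨3, 5, 2, 1, 2, 2, 3, 1, 4, 4⟩ :=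
  leafX_sound T5.ok_pp T5.Ypp.bz_eq (w := 208) (c := ⟨⟨.negSucc 2019, .negSucc 265, .negSucc 2, .ofNat 64, .negSucc 149, .ofNat 170⟩, ⟨.negSucc 511, .negSucc 307, .negSucc 295, .ofNat 30, .negSucc 52, .ofNat 57⟩, ⟨.ofNat 1013, .ofNat 4, .ofNat 96, .negSucc 434, .ofNat 470, .ofNat 3⟩, ⟨.negSucc 3801, .ofNat 89, .ofNat 57, .ofNat 26, .negSucc 251, .ofNat 324⟩, ⟨.negSucc 376, .ofNat 123, .negSucc 107, .ofNat 228, .ofNat 2, .negSucc 101⟩, .ofNat 533, .negSucc 536, .ofNat 0, .negSucc 536, .ofNat 1836, .ofNat 0, .ofNat 128, .ofNat 157, .negSucc 38, .ofNat 0, .ofNat 109, .negSucc 6, .ofNat 0, .ofNat 0, .ofNat 334, .ofNat 14416, .ofNat 209139905070181684306945875604594327814144, .ofNat 0, .ofNat 11604578138770915890436683625186459648, .ofNat 0, .ofNat 0, .ofNat 0, .ofNat 317215439005568814436183998346878255104, .ofNat 0, .ofNat 0, .ofNat 0, .ofNat 0, .ofNat 0, .ofNat 692649821293167282105184243666600501182464,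 .ofNat 0, .ofNat 190811826704598558869014799327504105472, .ofNat 0⟩)
    (by decide +kernel)
theorem L01537 : Good (Phi V5.P V5.D 1 1) ⟨3, 5, 2, 1, 2, 2, 3, 2, 4, 4⟩ :=
  leafX_sound T5.ok_pp T5.Ypp.bz_eq (w := 207) (c := ⟨⟨.negSucc 2065, .negSucc 353, .negSucc 43, .negSucc 23, .negSucc 129, .ofNat 196⟩, ⟨.negSucc 520, .negSucc 345, .negSucc 321, .negSucc 4, .negSucc 44, .ofNat 64⟩, ⟨.ofNat 1394, .ofNat 58, .ofNat 182, .negSucc 332, .ofNat 347, .negSucc 17⟩, ⟨.negSucc 3924, .negSucc 21, .negSucc 7, .negSucc 95, .negSucc 207, .ofNat 370⟩, ⟨.negSucc 288, .ofNat 62, .negSucc 86, .ofNat 148, .negSucc 43, .negSucc 88⟩, .ofNat 537, .negSucc 549, .ofNat 0, .negSucc 549, .ofNat 1873, .ofNat 0, .ofNat 128, .ofNat 146, .negSucc 34, .ofNat 0, .ofNat 99, .negSucc 6, .ofNat 0, .ofNat 0, .ofNat 263, .ofNat 5134, .ofNat 65509146144825373669077143581463794417664, .ofNat 0, .ofNat 3948337197845807657623193696212090880,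 .ofNat 0, .ofNat 0, .ofNat 0, .ofNat 0, .ofNat 0, .ofNat 0, .ofNat 0, .ofNat 0, .ofNat 0, .ofNat 0, .ofNat 0, .ofNat 90893428338145597959281389662625595392, .ofNat 0⟩)
    (by decide +kernel)
theorem L01538 : Good (Phi V5.P V5.D 1 1) ⟨3, 5, 2, 1, 2, 2, 3, 3, 4, 4⟩ :=
  leafX_sound T5.ok_pp T5.Ypp.bz_eq (w := 207) (c := ⟨⟨.negSucc 2128, .negSucc 419, .negSucc 107, .negSucc 118, .negSucc 125, .ofNat 246⟩, ⟨.negSucc 527, .negSucc 386, .negSucc 361, .negSucc 38, .negSucc 44, .ofNat 81⟩, ⟨.ofNat 1621, .ofNat 186, .ofNat 111, .negSucc 207, .ofNat 306, .negSucc 81⟩, ⟨.negSucc 4047, .negSucc 105, .negSucc 67, .negSucc 236, .negSucc 196, .ofNat 452⟩, ⟨.negSucc 337, .ofNat 98, .negSucc 170, .ofNat 89, .negSucc 52, .negSucc 96⟩, .ofNat 534, .negSucc 541, .ofNat 0, .negSucc 541, .ofNat 1872, .ofNat 0, .ofNat 141, .ofNat 128, .negSucc 35, .ofNat 0, .ofNat 87, .negSucc 7, .ofNat 0, .ofNat 0, .ofNat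 249, .ofNat 3223, .ofNat 0, .ofNat 0, .ofNat 0, .ofNat 0, .ofNat 0, .ofNat 0, .ofNat 0, .ofNat 0, .ofNat 0, .ofNat 0, .ofNat 129219212607089247521177651205271191552, .ofNat 0, .ofNat 0, .ofNat 0, .ofNat 54445753949254786555397176209709203456, .ofNat 0⟩)
    (by decide +kernel)
theorem L01539 : Good (Phi V5.P V5.D 1 1) ⟨3, 5, 2, 1, 2, 2, 2, 0, 4, 5⟩ :=
  leafX_sound T5.ok_pp T5.Ypp.bz_eq (w := 205) (c := ⟨⟨.negSucc 1762, .negSucc 272, .ofNat 4, .ofNat 145, .negSucc 285, .ofNat 195⟩, ⟨.negSucc 439, .negSucc 298, .negSucc 275, .ofNat 61, .negSucc 101, .ofNat 67⟩, ⟨.ofNat 603, .negSucc 47, .ofNat 19, .negSucc 369, .ofNat 871, .negSucc 109⟩, ⟨.negSucc 3321, .ofNat 46, .ofNat 66, .ofNat 154, .negSucc 452, .ofNat 354⟩, ⟨.negSucc 458, .ofNat 117, .negSucc 81, .ofNat 265, .negSucc 51, .negSucc 70⟩, .ofNat 851, .negSucc 1322, .ofNat 0, .negSucc 1322, .ofNat 4041, .ofNat 0, .ofNat 128, .ofNat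 202, .negSucc 58, .ofNat 0, .ofNat 111, .negSucc 13, .ofNat 0, .ofNat 0, .ofNat 978, .ofNat 26734, .ofNat 90719488815426747495964979678482257674240, .ofNat 0, .ofNat 1853781028761355673485465432002396160, .ofNat 0, .ofNat 322565477713031325094182799527693567131648, .ofNat 0, .ofNat 63206454848761713044266363806814306304, .ofNat 0, .ofNat 1023949044997603440514604246635995738406912, .ofNat 0, .ofNat 11156199815735420979019515567007596544, .ofNat 0, .ofNat 1445889656950918763671185573100546930245632, .ofNat 0, .ofNat 35622953937275696945393502191284649984, .ofNat 0⟩)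
    (by decide +kernel)
theorem L01540 : Good (Phi V5.P V5.D 1 1) ⟨3, 5, 2, 1, 2, 2, 3, 2, 4, 5⟩ :=
  leafX_sound T5.ok_pp T5.Ypp.bz_eq (w := 209) (c := ⟨⟨.negSucc 1919, .negSucc 309, .negSucc 33, .ofNat 18, .negSucc 120, .ofNat 204⟩, ⟨.negSucc 475, .negSucc 326, .negSucc 291, .ofNat 7, .negSucc 44, .ofNat 71⟩, ⟨.ofNat 1403, .ofNat 26, .ofNat 28, .negSucc 341, .ofNat 358, .negSucc 113⟩, ⟨.negSucc 3642, .ofNat 26, .ofNat 17, .ofNat 7, .negSucc 187, .ofNat 365⟩, ⟨.negSucc 316, .ofNat 47, .negSucc 85, .ofNat 70, .negSucc 39, .negSucc 61⟩, .ofNat 538, .negSucc 548, .ofNat 0, .negSucc 548, .ofNat 1851, .ofNat 0, .ofNat 128, .ofNat 204, .negSucc 42, .ofNat 0, .ofNat 146, .negSucc 7, .ofNat 0, .ofNat 0, .ofNat 574, .ofNat 15225, .ofNat 438681549287888970478350006571381240627200, .ofNat 0, .ofNat 13175881979662952526269926618708312064, .ofNat 0, .ofNat 0, .ofNat 0, .ofNat 471603734286506806287257973188416503808,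 .ofNat 0, .ofNat 0, .ofNat 0, .ofNat 0, .ofNat 0, .ofNat 0, .ofNat 0, .ofNat 421400543145353408542869068630565322752, .ofNat 0⟩)
    (by decide +kernel)
theorem L01541 : Good (Phi V5.P V5.D 1 1) ⟨3, 5, 2, 1, 2, 2, 3, 3, 4, 5⟩ :=
  leafX_sound T5.ok_pp T5.Ypp.bz_eq (w := 208) (c := ⟨⟨.negSucc 1983, .negSucc 364, .ofNat 52, .negSucc 27, .negSucc 100, .ofNat 204⟩, ⟨.negSucc 495, .negSucc 352, .negSucc 257, .negSucc 7, .negSucc 35, .ofNat 69⟩, ⟨.ofNat 1649, .ofNat 142, .negSucc 161, .negSucc 270, .ofNat 250, .negSucc 129⟩, ⟨.negSucc 3752, .negSucc 46, .ofNat 157, .negSucc 55, .negSucc 151, .ofNat 366⟩, ⟨.negSucc 343, .ofNat 38, .negSucc 97, .ofNat 11, .negSucc 55, .negSucc 54⟩, .ofNat 532, .negSucc 536, .ofNat 0, .negSucc 536, .ofNat 1858, .ofNat 0, .ofNat 128, .ofNat 165, .negSucc 30, .ofNat 0, .ofNat 118, .negSucc 6, .ofNat 0, .ofNat 0, .ofNat 443, .ofNat 6893, .ofNat 0, .ofNat 0, .ofNat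 0, .ofNat 0, .ofNat 0, .ofNat 0, .ofNat 299539925589157947309665916106286563328, .ofNat 0, .ofNat 0, .ofNat 0, .ofNat 370980736453321739481409207043916562432, .ofNat 0, .ofNat 0, .ofNat 3648990290327345564177610980778756276224, .ofNat 125435121372703192032795144336269377536, .ofNat 0⟩)
    (by decide +kernel)
theorem L01542 : Good (Phi V5.P V5.D 1 1) ⟨4, 12, 2, 1, 3, 4, 2, 0, 4, 4⟩ :=
  leafX_sound T5.ok_pp T5.Ypp.bz_eq (w := 223) (c := ⟨⟨.negSucc 2128, .negSucc 173, .negSucc 15, .ofNat 0, .negSucc 315, .ofNat 191⟩, ⟨.negSucc 747, .negSucc 201, .negSucc 306, .ofNat 1, .negSucc 135, .ofNat 79⟩, ⟨.ofNat 517, .negSucc 18, .ofNat 141, .negSucc 276, .ofNat 1006, .negSucc 22⟩, ⟨.negSucc 3463, .ofNat 16, .ofNat 25, .negSucc 7, .negSucc 513, .ofNat 334⟩, ⟨.negSucc 266, .ofNat 18, .negSucc 34, .ofNat 15, .ofNat 25, .negSucc 64⟩, .ofNat 340, .negSucc 208, .ofNat 0, .negSucc 208, .ofNat 696,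 .ofNat 0, .ofNat 160, .ofNat 120, .negSucc 77, .ofNat 0, .ofNat 128, .ofNat 1, .ofNat 0, .ofNat 0, .ofNat 681, .ofNat 16519, .ofNat 2830554342717518843705396297651629030436241408, .ofNat 0, .ofNat 1049956418316420892203113688022866984960, .ofNat 0, .ofNat 15012859686897563742502629671435961692007170048, .ofNat 0, .ofNat 15900729846408412125938880672824630968320, .ofNat 0, .ofNat 20776283029677365210367406587976791702196191232, .ofNat 0, .ofNat 84232501368946814265188064670836030701568, .ofNat 0, .ofNat 49277745003147368052464983361304392794084737024, .ofNat 0, .ofNat 0, .ofNat 0⟩)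
    (by decide +kernel)
theorem L01543 : Good (Phi V5.P V5.D 1 1) ⟨4, 12, 2, 1, 3, 5, 2, 0, 4, 4⟩ :=
  leafX_sound T5.ok_pp T5.Ypp.bz_eq (w := 221) (c := ⟨⟨.negSucc 2060, .negSucc 144, .negSucc 10, .ofNat 92, .negSucc 432, .ofNat 215⟩, ⟨.negSucc 721, .negSucc 179, .negSucc 301, .ofNat 53, .negSucc 185, .ofNat 83⟩, ⟨.ofNat 167, .negSucc 42, .ofNat 117, .negSucc 183, .ofNat 1128, .negSucc 40⟩, ⟨.negSucc 3398, .ofNat 42, .ofNat 70, .ofNat 68, .negSucc 669, .ofNat 392⟩, ⟨.negSucc 147, .ofNat 27, .negSucc 147, .ofNat 187, .negSucc 23, .negSucc 124⟩, .ofNat 328, .negSucc 182, .ofNat 0, .negSucc 182, .ofNat 642, .ofNat 0, .ofNat 128, .ofNat 115, .negSucc 45, .ofNat 0, .ofNat 146, .ofNat 1, .ofNat 0, .ofNat 0, .ofNat 335, .ofNat 4660, .ofNat 294120338925529504958493561500644782536392704, .ofNat 0, .ofNat 666910852060923113292502642749725474816, .ofNat 0, .ofNat 3278350210063770242615694772058884577584742400,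 .ofNat 0, .ofNat 3932056224120794660151955136320198672384, .ofNat 0, .ofNat 0, .ofNat 0, .ofNat 0, .ofNat 0, .ofNat 7462566642387811921495245502415035299765682176, .ofNat 0, .ofNat 25564597668766044521627737728201890201600, .ofNat 0⟩)
    (by decide +kernel)
theorem L01544 : Good (Phi V5.P V5.D 1 1) ⟨4, 12, 2, 1, 2, 2, 2, 0, 4, 5⟩ :=
  leafX_sound T5.ok_pp T5.Ypp.bz_eq (w := 209) (c := ⟨⟨.negSucc 2009, .negSucc 138, .negSucc 5, .ofNat 180, .negSucc 345, .ofNat 203⟩, ⟨.negSucc 705, .negSucc 172, .negSucc 274, .ofNat 84, .negSucc 159, .ofNat 85⟩, ⟨.ofNat 444, .negSucc 39, .ofNat 13, .negSucc 367, .ofNat 1003, .negSucc 171⟩, ⟨.negSucc 3244, .ofNat 39, .ofNat 83, .ofNat 179, .negSucc 509, .ofNat 359⟩, ⟨.negSucc 315, .ofNat 31, .negSucc 153, .ofNat 272, .negSucc 89, .negSucc 75⟩, .ofNat 329, .negSucc 184, .ofNat 0, .negSucc 184, .ofNat 655, .ofNat 0, .ofNat 148, .ofNat 95, .negSucc 53,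 .ofNat 0, .ofNat 128, .ofNat 6, .ofNat 0, .ofNat 0, .ofNat 739, .ofNat 24070, .ofNat 1724038698397618138608929831174795903893504, .ofNat 0, .ofNat 0, .ofNat 0, .ofNat 8001232788089090428413246727285409469956096, .ofNat 0, .ofNat 1486832981002872216248047418726154240, .ofNat 0, .ofNat 7562783615091858987853262872626629644910592, .ofNat 0, .ofNat 2971137778099758681064066128615047168, .ofNat 0, .ofNat 19579948191115644525968012653052074313908224, .ofNat 0, .ofNat 0, .ofNat 0⟩)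
    (by decide +kernel)
theorem L01545 : Good (Phi V5.P V5.D 1 1) ⟨4, 12, 2, 1, 3, 4, 2, 1, 4, 4⟩ :=
  leafX_sound T5.ok_pp T5.Ypp.bz_eq (w := 222) (c := ⟨⟨.negSucc 2410, .negSucc 226, .negSucc 4, .negSucc 50, .negSucc 282, .ofNat 217⟩, ⟨.negSucc 858, .negSucc 243, .negSucc 301, .negSucc 19, .negSucc 126, .ofNat 91⟩, ⟨.ofNat 1489, .ofNat 59, .ofNat 70, .negSucc 172, .ofNat 693, .negSucc 74⟩, ⟨.negSucc 3942, .negSucc 38, .ofNat 42, .negSucc 84, .negSucc 410, .ofNat 377⟩, ⟨.negSucc 222, .ofNat 9, .negSucc 22, .negSucc 4, .negSucc 97, .negSucc 66⟩, .ofNat 330, .negSucc 185, .ofNat 0, .negSucc 185, .ofNat 654, .ofNat 0, .ofNat 168, .ofNat 114, .negSucc 61, .ofNat 0, .ofNat 128, .negSucc 6, .ofNat 0, .ofNat 0, .ofNat 341, .ofNat 4757, .ofNat 514684473751915307856083672510547762280923136, .ofNat 0, .ofNat 299042188287572429130949957808933568512, .ofNat 0, .ofNat 0, .ofNat 0, .ofNat 0, .ofNat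 0, .ofNat 0, .ofNat 0, .ofNat 34891016414367021356712421371590167494656, .ofNat 0, .ofNat 0, .ofNat 0, .ofNat 39416467746785151306655062401170695782400, .ofNat 0⟩)
    (by decide +kernel)
theorem L01546 : Good (Phi V5.P V5.D 1 1) ⟨4, 12, 2, 1, 3, 5, 2, 1, 4, 4⟩ :=
  leafX_sound T5.ok_pp T5.Ypp.bz_eq (w := 221) (c := ⟨⟨.negSucc 2503, .negSucc 188, .ofNat 25, .ofNat 43, .negSucc 404, .ofNat 295⟩, ⟨.negSucc 897, .negSucc 209, .negSucc 301, .ofNat 24, .negSucc 179, .ofNat 118⟩, ⟨.ofNat 1313, .ofNat 17, .ofNat 72, .negSucc 153, .ofNat 825, .negSucc 123⟩, ⟨.negSucc 4095, .negSucc 0, .ofNat 103, .negSucc 7, .negSucc 582, .ofNat 523⟩, ⟨.negSucc 169, .ofNat 29, .negSucc 84, .ofNat 158, .negSucc 145, .negSucc 134⟩, .ofNat 340, .negSucc 208, .ofNat 0, .negSucc 208, .ofNat 696, .ofNat 0, .ofNat 157, .ofNat 120, .negSucc 55, .ofNat 0, .ofNat 128, .negSucc 5, .ofNat 0, .ofNat 0, .ofNat 316, .ofNat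 3781, .ofNat 0, .ofNat 0, .ofNat 0, .ofNat 0, .ofNat 0, .ofNat 0, .ofNat 0, .ofNat 0, .ofNat 0, .ofNat 0, .ofNat 34155783312468018255841506838460105752576, .ofNat 0, .ofNat 0, .ofNat 0, .ofNat 48663546605921967582976355039050458988544, .ofNat 0⟩)
    (by decide +kernel)
theorem L01547 : Good (Phi V5.P V5.D 1 1) ⟨4, 12, 2, 1, 3, 4, 3, 2, 4, 5⟩ :=
  leafX_sound T5.ok_pp T5.Ypp.bz_eq (w := 228) (c := ⟨⟨.negSucc 2227, .negSucc 184, .negSucc 17, .negSucc 21, .negSucc 128, .ofNat 213⟩, ⟨.negSucc 799, .negSucc 210, .negSucc 278, .negSucc 10, .negSucc 58, .ofNat 90⟩, ⟨.ofNat 1464, .ofNat 26, .ofNat 23, .negSucc 192, .ofNat 359, .negSucc 138⟩, ⟨.negSucc 3624, .negSucc 4, .ofNat 38, .negSucc 21, .negSucc 184, .ofNat 362⟩, ⟨.negSucc 258, .ofNat 14, .negSucc 46, .negSucc 30, .negSucc 46, .negSucc 47⟩, .ofNat 332, .negSucc 190, .ofNat 0, .negSucc 190, .ofNat 664, .ofNat 0, .ofNat 128, .ofNat 113,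 .negSucc 62, .ofNat 0, .ofNat 133, .negSucc 5, .ofNat 0, .ofNat 0, .ofNat 619, .ofNat 24227, .ofNat 33262828887445471942210493486048041000140537856, .ofNat 0, .ofNat 67292819980256839277536507355973992579072, .ofNat 0, .ofNat 69635818438261176152006874747258695170167668736, .ofNat 0, .ofNat 892744781424670631998722948593576528838656, .ofNat 0, .ofNat 0, .ofNat 0, .ofNat 0, .ofNat 0, .ofNat 0, .ofNat 0, .ofNat 0, .ofNat 0⟩)
    (by decide +kernel)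
theorem L01548 : Good (Phi V5.P V5.D 1 1) ⟨4, 12, 2, 1, 3, 5, 3, 2, 4, 5⟩ :=
  leafX_sound T5.ok_pp T5.Ypp.bz_eq (w := 227) (c := ⟨⟨.negSucc 2252, .negSucc 163, .negSucc 2, .ofNat 69, .negSucc 154, .ofNat 222⟩, ⟨.negSucc 811, .negSucc 195, .negSucc 275, .ofNat 34, .negSucc 67, .ofNat 90⟩, ⟨.ofNat 1271, .ofNat 1, .ofNat 5, .negSucc 197, .ofNat 399, .negSucc 165⟩, ⟨.negSucc 3658, .ofNat 16, .ofNat 85, .ofNat 67, .negSucc 220, .ofNat 390⟩, ⟨.negSucc 257, .ofNat 27, .negSucc 112, .ofNat 98, .negSucc 63, .negSucc 71⟩, .ofNat 331, .negSucc 188, .ofNat 0, .negSucc 188, .ofNat 658, .ofNat 0, .ofNat 167, .ofNat 100, .negSucc 61, .ofNat 0, .ofNat 128, .ofNat 2, .ofNat 0, .ofNat 0, .ofNat 863, .ofNat 19817, .ofNat 0, .ofNat 0, .ofNat 0, .ofNat 0, .ofNat 0, .ofNat 0, .ofNat 2518583564677176262512832010973526366355456, .ofNat 0, .ofNat 0, .ofNat 0, .ofNat 1149529823633407638960324259418373881856000,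 .ofNat 0, .ofNat 0, .ofNat 0, .ofNat 0, .ofNat 0⟩)
    (by decide +kernel)
theorem L01549 : Good (Phi V5.P V5.D 1 1) ⟨4, 12, 2, 1, 2, 2, 3, 3, 4, 5⟩ :=
  leafX_sound T5.ok_pp T5.Ypp.bz_eq (w := 212) (c := ⟨⟨.negSucc 2356, .negSucc 183, .negSucc 27, .negSucc 8, .negSucc 147, .ofNat 231⟩, ⟨.negSucc 851, .negSucc 216, .negSucc 291, .negSucc 2, .negSucc 65, .ofNat 94⟩, ⟨.ofNat 1815, .ofNat 52, .negSucc 18, .negSucc 342, .ofNat 305, .negSucc 174⟩, ⟨.negSucc 3812, .ofNat 0, .ofNat 37, .negSucc 18, .negSucc 197, .ofNat 389⟩, ⟨.negSucc 311, .ofNat 16, .negSucc 56, .ofNat 1, .negSucc 84, .negSucc 43⟩, .ofNat 329, .negSucc 184, .ofNat 0, .negSucc 184, .ofNat 655, .ofNat 0, .ofNat 128, .ofNat 122, .negSucc 37, .ofNat 0, .ofNat 150, .negSucc 3, .ofNat 0, .ofNat 0, .ofNat 423, .ofNat 4561, .ofNat 0, .ofNat 0, .ofNat 0, .ofNat 0, .ofNat 0, .ofNat 0, .ofNat 0, .ofNat 0, .ofNat 0, .ofNat 0, .ofNat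 0, .ofNat 0, .ofNat 0, .ofNat 183309023933993207170136538833621417459712, .ofNat 20804344968934815259677882562084077568, .ofNat 0⟩)
    (by decide +kernel)
theorem L01550 : Good (Phi V5.P V5.D 1 1) ⟨4, 13, 2, 1, 3, 4, 2, 0, 4, 4⟩ :=
  leafX_sound T5.ok_pp T5.Ypp.bz_eq (w := 223) (c := ⟨⟨.negSucc 2300, .negSucc 203, .negSucc 0, .ofNat 6, .negSucc 343, .ofNat 216⟩, ⟨.negSucc 940, .negSucc 246, .negSucc 285, .ofNat 3, .negSucc 173, .ofNat 109⟩, ⟨.ofNat 496, .negSucc 13, .ofNat 134, .negSucc 281, .ofNat 1043, .negSucc 89⟩, ⟨.negSucc 3477, .ofNat 4, .ofNat 40, .ofNat 18, .negSucc 518, .ofNat 354⟩, ⟨.negSucc 227, .negSucc 3, .negSucc 25, .negSucc 16, .ofNat 17, .negSucc 61⟩, .ofNat 1089, .negSucc 1448, .ofNat 0, .negSucc 1448, .ofNat 2919, .ofNat 0, .ofNat 128, .ofNat 221, .negSucc 68, .ofNat 0, .ofNat 148, .negSucc 27, .ofNat 0, .ofNat 0, .ofNat 588, .ofNat 16039, .ofNat 2547746069022343098058253416507471156205322240,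 .ofNat 0, .ofNat 3308186352241149232325999210713736806400, .ofNat 0, .ofNat 0, .ofNat 0, .ofNat 370671370869972636189376041718635156209664, .ofNat 0, .ofNat 35577669879514086133582847948453537510544375808, .ofNat 0, .ofNat 335547510503565947284706593452274449645568, .ofNat 0, .ofNat 47741531779202020245073683379120341205288747008, .ofNat 0, .ofNat 153604087806742917796401719099781290131456, .ofNat 0⟩)
    (by decide +kernel)
theorem L01551 : Good (Phi V5.P V5.D 1 1) ⟨4, 13, 2, 1, 3, 5, 2, 0, 4, 4⟩ :=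
  leafX_sound T5.ok_pp T5.Ypp.bz_eq (w := 221) (c := ⟨⟨.negSucc 2210, .negSucc 150, .negSucc 0, .ofNat 128, .negSucc 473, .ofNat 232⟩, ⟨.negSucc 892, .negSucc 208, .negSucc 287, .ofNat 76, .negSucc 246, .ofNat 114⟩, ⟨.ofNat 97, .negSucc 35, .ofNat 132, .negSucc 188, .ofNat 1205, .negSucc 129⟩, ⟨.negSucc 3367, .ofNat 28, .ofNat 109, .ofNat 112, .negSucc 732, .ofNat 420⟩, ⟨.negSucc 153, .ofNat 65, .negSucc 166, .ofNat 152, .ofNat 49, .negSucc 135⟩, .ofNat 650, .negSucc 688, .ofNat 0, .negSucc 688, .ofNat 1506, .ofNat 0, .ofNat 128, .ofNat 172, .negSucc 45, .ofNat 0, .ofNat 132, .negSucc 13, .ofNat 0, .ofNat 0, .ofNat 405, .ofNat 5483, .ofNat 265856122530086160601232901685050086766149632, .ofNat 0, .ofNat 2458291515735691298935545708503273308160, .ofNat 0, .ofNat 0, .ofNat 0, .ofNat 34803403042297788935490115482772561723392, .ofNat 0, .ofNat 0, .ofNat 0, .ofNat 68241798624473926593511948051423537659904,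 .ofNat 0, .ofNat 14006237271970201405147364863056900789463154688, .ofNat 0, .ofNat 42176343875608248192228413247795566215168, .ofNat 0⟩)
    (by decide +kernel)
theorem L01552 : Good (Phi V5.P V5.D 1 1) ⟨4, 13, 2, 1, 2, 2, 2, 0, 4, 5⟩ :=
  leafX_sound T5.ok_pp T5.Ypp.bz_eq (w := 209) (c := ⟨⟨.negSucc 2170, .negSucc 145, .ofNat 1, .ofNat 249, .negSucc 395, .ofNat 207⟩, ⟨.negSucc 903, .negSucc 204, .negSucc 254, .ofNat 140, .negSucc 207, .ofNat 105⟩, ⟨.ofNat 332, .negSucc 98, .ofNat 73, .negSucc 436, .ofNat 1134, .negSucc 279⟩, ⟨.negSucc 3227, .ofNat 52, .ofNat 102, .ofNat 266, .negSucc 583, .ofNat 362⟩, ⟨.negSucc 293, .ofNat 4, .negSucc 133, .ofNat 209, .negSucc 29, .negSucc 92⟩, .ofNat 349, .negSucc 229, .ofNat 0, .negSucc 229, .ofNat 637, .ofNat 0, .ofNat 157, .ofNat 110, .negSucc 67, .ofNat 0, .ofNat 128, .ofNat 5, .ofNat 0, .ofNat 0, .ofNat 905, .ofNat 21666, .ofNat 934139923134540491749761458577087232212992,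 .ofNat 0, .ofNat 0, .ofNat 0, .ofNat 6497327512200663456857754298815929009569792, .ofNat 0, .ofNat 0, .ofNat 0, .ofNat 10947806149836270055146237702803296085868544, .ofNat 0, .ofNat 4060891572398477076263450197536800768, .ofNat 0, .ofNat 23855181804543505931445319595497432541036544, .ofNat 0, .ofNat 0, .ofNat 0⟩)
    (by decide +kernel)
theorem L01553 : Good (Phi V5.P V5.D 1 1) ⟨4, 13, 2, 1, 3, 4, 2, 1, 5, 8⟩ :=
  leafX_sound T5.ok_pp T5.Ypp.bz_eq (w := 227) (c := ⟨⟨.negSucc 2622, .negSucc 251, .ofNat 5, .negSucc 63, .negSucc 379, .ofNat 145⟩, ⟨.negSucc 1078, .negSucc 280, .negSucc 312, .negSucc 31, .negSucc 203, .ofNat 75⟩, ⟨.ofNat 1539, .ofNat 71, .ofNat 84, .negSucc 168, .ofNat 796, .negSucc 83⟩, ⟨.negSucc 3987, .negSucc 75, .ofNat 71, .negSucc 89, .negSucc 528, .ofNat 247⟩, ⟨.negSucc 189, .ofNat 46, .negSucc 50, .negSucc 14, .negSucc 74, .negSucc 58⟩, .ofNat 638, .negSucc 669,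 .ofNat 0, .negSucc 669, .ofNat 1486, .ofNat 0, .ofNat 128, .ofNat 471, .negSucc 113, .ofNat 0, .ofNat 350, .negSucc 40, .ofNat 0, .ofNat 0, .ofNat 668, .ofNat 6880, .ofNat 0, .ofNat 0, .ofNat 34361800709617034942262125845821867950080, .ofNat 0, .ofNat 0, .ofNat 0, .ofNat 5573918167882965733355681232868045743980544, .ofNat 0, .ofNat 0, .ofNat 0, .ofNat 0, .ofNat 0, .ofNat 0, .ofNat 0, .ofNat 0, .ofNat 0⟩)
    (by decide +kernel)
theorem L01554 : Good (Phi V5.P V5.D 1 1) ⟨4, 13, 2, 1, 3, 4, 2, 1, 5, 9⟩ :=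
  leafX_sound T5.ok_pp T5.Ypp.bz_eq (w := 227) (c := ⟨⟨.negSucc 2483, .negSucc 235, .negSucc 28, .negSucc 58, .negSucc 345, .ofNat 139⟩, ⟨.negSucc 1018, .negSucc 270, .negSucc 313, .negSucc 35, .negSucc 188, .ofNat 75⟩, ⟨.ofNat 1488, .ofNat 74, .ofNat 90, .negSucc 157, .ofNat 738, .negSucc 93⟩, ⟨.negSucc 3769, .negSucc 51, .ofNat 21, .negSucc 64, .negSucc 459, .ofNat 226⟩, ⟨.negSucc 213, .ofNat 29, .negSucc 37, .negSucc 45, .negSucc 115, .negSucc 38⟩, .ofNat 348, .negSucc 227, .ofNat 0, .negSucc 227, .ofNat 632, .ofNat 0, .ofNat 128, .ofNat 166, .negSucc 75, .ofNat 0, .ofNat 172, .negSucc 13, .ofNat 0, .ofNat 0, .ofNat 467, .ofNat 8714, .ofNat 4460199521178871516427513071599512591414591488, .ofNat 0, .ofNat 70517694063777640395923245269109222408192, .ofNat 0, .ofNat 0, .ofNat 0, .ofNat 330967278033764804645189137671239229243392, .ofNat 0, .ofNat 0, .ofNat 0, .ofNat 9390581754004618308066619902593751387734016,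 .ofNat 0, .ofNat 40023596468190863997113222529620830146879553536, .ofNat 0, .ofNat 5005720330766900804028325081025809494310912, .ofNat 0⟩)
    (by decide +kernel)
theorem L01555 : Good (Phi V5.P V5.D 1 1) ⟨4, 13, 2, 1, 3, 5, 2, 1, 4, 4⟩ :=
  leafX_sound T5.ok_pp T5.Ypp.bz_eq (w := 221) (c := ⟨⟨.negSucc 2685, .negSucc 195, .negSucc 16, .ofNat 72, .negSucc 473, .ofNat 323⟩, ⟨.negSucc 1118, .negSucc 252, .negSucc 314, .ofNat 46, .negSucc 252, .ofNat 165⟩, ⟨.ofNat 1342, .ofNat 12, .ofNat 149, .negSucc 188, .ofNat 869, .negSucc 206⟩, ⟨.negSucc 4093, .ofNat 37, .ofNat 19, .ofNat 49, .negSucc 643, .ofNat 566⟩, ⟨.negSucc 153, .negSucc 24, .negSucc 22, .ofNat 105, .negSucc 134, .negSucc 155⟩, .ofNat 647, .negSucc 686, .ofNat 0, .negSucc 686, .ofNat 1515, .ofNat 0, .ofNat 128, .ofNat 236, .negSucc 40, .ofNat 0, .ofNat 178, .negSucc 12, .ofNat 0, .ofNat 0, .ofNat 291, .ofNat 3810, .ofNat 0,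 .ofNat 0, .ofNat 1163799733274525224838349702578854428672, .ofNat 0, .ofNat 0, .ofNat 0, .ofNat 150911662358932264547153823160006376161280, .ofNat 0, .ofNat 0, .ofNat 0, .ofNat 50829254118495243188074869227405076070400, .ofNat 0, .ofNat 0, .ofNat 0, .ofNat 28241361287191467239250391398781183590400, .ofNat 0⟩)
    (by decide +kernel)
theorem L01556 : Good (Phi V5.P V5.D 1 1) ⟨5, 26, 2, 1, 2, 2, 3, 2, 4, 5⟩ :=
  leafX_sound T5.ok_pp T5.Ypp.bz_eq (w := 217) (c := ⟨⟨.negSucc 2429, .negSucc 83, .negSucc 8, .ofNat 80, .negSucc 164, .ofNat 221⟩, ⟨.negSucc 1024, .negSucc 111, .negSucc 268, .ofNat 42, .negSucc 86, .ofNat 112⟩, ⟨.ofNat 1504, .negSucc 7, .ofNat 12, .negSucc 439, .ofNat 426, .negSucc 242⟩, ⟨.negSucc 3664, .ofNat 15, .ofNat 57, .ofNat 114, .negSucc 223, .ofNat 377⟩, ⟨.negSucc 232, .ofNat 6, .negSucc 59, .ofNat 8, .negSucc 50, .negSucc 79⟩, .ofNat 331, .negSucc 193, .ofNat 0, .negSucc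 193, .ofNat 588, .ofNat 0, .ofNat 128, .ofNat 113, .negSucc 61, .ofNat 0, .ofNat 140, .negSucc 1, .ofNat 0, .ofNat 0, .ofNat 673, .ofNat 13775, .ofNat 56915318110308740409512135611089113516605440, .ofNat 0, .ofNat 673943753561151470718908412431695872, .ofNat 0, .ofNat 34937936213459968129747031635815138699771904, .ofNat 0, .ofNat 11346697964353354557717218573322027008, .ofNat 0, .ofNat 0, .ofNat 0, .ofNat 32379415435425228714199341641114845184, .ofNat 0, .ofNat 0, .ofNat 0, .ofNat 0, .ofNat 0⟩)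
    (by decide +kernel)
theorem L01557 : Good (Phi V5.P V5.D 1 1) ⟨5, 27, 2, 1, 2, 2, 3, 2, 4, 5⟩ :=
  leafX_sound T5.ok_pp T5.Ypp.bz_eq (w := 217) (c := ⟨⟨.negSucc 2430, .negSucc 59, .negSucc 94, .ofNat 88, .negSucc 185, .ofNat 228⟩, ⟨.negSucc 1090, .negSucc 105, .negSucc 316, .ofNat 48, .negSucc 104, .ofNat 122⟩, ⟨.ofNat 1404, .negSucc 19, .ofNat 118, .negSucc 450, .ofNat 441, .negSucc 247⟩, ⟨.negSucc 3555, .ofNat 37, .negSucc 42, .ofNat 132, .negSucc 245, .ofNat 382⟩, ⟨.negSucc 196, .ofNat 37, .negSucc 87, .negSucc 1, .negSucc 53, .negSucc 80⟩, .ofNat 836, .negSucc 918, .ofNat 0, .negSucc 918, .ofNat 1825, .ofNat 0, .ofNat 128, .ofNat 282, .negSucc 50, .ofNat 0, .ofNat 252, .negSucc 12, .ofNat 0, .ofNat 0, .ofNat 708, .ofNat 15545, .ofNat 54987310913118650670558458217825585795694592, .ofNat 0, .ofNat 2790333721309304853471384123547320320, .ofNat 0, .ofNat 0, .ofNat 0, .ofNat 44976163063114609263313334300607250432,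 .ofNat 0, .ofNat 0, .ofNat 0, .ofNat 113351646566108590631110281406969806848, .ofNat 0, .ofNat 0, .ofNat 0, .ofNat 174419709196401080265366580844979814400, .ofNat 0⟩)
    (by decide +kernel)
theorem L01558 : Good (Phi V5.P V5.D 1 1) ⟨4, 13, 2, 1, 2, 2, 3, 3, 4, 5⟩ :=
  leafX_sound T5.ok_pp T5.Ypp.bz_eq (w := 211) (c := ⟨⟨.negSucc 2563, .negSucc 236, .ofNat 15, .negSucc 40, .negSucc 169, .ofNat 248⟩, ⟨.negSucc 1087, .negSucc 284, .negSucc 255, .negSucc 26, .negSucc 91, .ofNat 126⟩, ⟨.ofNat 1894, .ofNat 56, .negSucc 10, .negSucc 336, .ofNat 309, .negSucc 245⟩, ⟨.negSucc 3855, .negSucc 25, .ofNat 76, .negSucc 13, .negSucc 207, .ofNat 407⟩, ⟨.negSucc 286, .negSucc 22, .negSucc 7, .negSucc 95, .negSucc 92, .negSucc 61⟩, .ofNat 347, .negSucc 225, .ofNat 0, .negSucc 225, .ofNat 633, .ofNat 0, .ofNat 128, .ofNat 139, .negSucc 42, .ofNat 0, .ofNat 151, .negSucc 7, .ofNat 0, .ofNat 0, .ofNat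 401, .ofNat 2290, .ofNat 0, .ofNat 0, .ofNat 0, .ofNat 0, .ofNat 0, .ofNat 0, .ofNat 27815818677540622134546605557732605952, .ofNat 0, .ofNat 0, .ofNat 0, .ofNat 0, .ofNat 0, .ofNat 0, .ofNat 210393411999547083864228842910090400890880, .ofNat 48598154360885667966740966525196304384, .ofNat 0⟩)
    (by decide +kernel)
theorem L01559 : Good (Phi V5.P V5.D 1 1) ⟨3, 7, 2, 1, 2, 2, 1, 0, 3, 2⟩ :=
  out_sound (S := T5.ds_pp) T5.ok_pp (w := 43) (j := 3) (by decide +kernel)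
theorem L01560 : Good (Phi V5.P V5.D 1 1) ⟨2, 2, 2, 1, 2, 3, 2, 0, 4, 4⟩ :=
  leafX_sound T5.ok_pp T5.Ypp.bz_eq (w := 198) (c := ⟨⟨.negSucc 1549, .negSucc 476, .ofNat 135, .ofNat 520, .negSucc 365, .ofNat 176⟩, ⟨.negSucc 278, .negSucc 427, .negSucc 276, .ofNat 218, .negSucc 122, .ofNat 59⟩, ⟨.ofNat 224, .negSucc 31, .negSucc 35, .ofNat 34, .ofNat 816, .ofNat 42⟩, ⟨.negSucc 3439, .ofNat 76, .ofNat 210, .ofNat 408, .negSucc 644, .ofNat 366⟩, ⟨.negSucc 120, .ofNat 90, .negSucc 144, .ofNat 1376, .ofNat 39, .negSucc 181⟩, .ofNat 532, .negSucc 535, .ofNat 0, .negSucc 535, .ofNat 1839, .ofNat 0, .ofNat 128, .ofNat 270, .negSucc 45, .ofNat 0, .ofNat 220, .negSucc 5, .ofNat 0, .ofNat 0, .ofNat 522, .ofNat 1982, .ofNat 40469017247173478828423887841694580736, .ofNat 0, .ofNat 1499233558719921195314396959512461312, .ofNat 0, .ofNat 0, .ofNat 20203483664004100721105058222567325696, .ofNat 38045709266792715718719018084146872320,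 .ofNat 0, .ofNat 0, .ofNat 0, .ofNat 0, .ofNat 0, .ofNat 3019864171191299076263410021956541480960, .ofNat 74184088930089848124412522828534906880, .ofNat 57896314281115834385018415400318140416, .ofNat 0⟩)
    (by decide +kernel)
theorem L01561 : Good (Phi V5.P V5.D 1 1) ⟨3, 4, 2, 1, 2, 3, 2, 1, 4, 4⟩ :=
  out_sound (S := T5.ds_pp) T5.ok_pp (w := 43) (j := 3) (by decide +kernel)
theorem L01562 : Good (Phi V5.P V5.D 1 1) ⟨3, 5, 2, 1, 2, 3, 2, 1, 4, 4⟩ :=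
  leafX_sound T5.ok_pp T5.Ypp.bz_eq (w := 201) (c := ⟨⟨.negSucc 2125, .negSucc 304, .ofNat 39, .ofNat 465, .negSucc 420, .ofNat 249⟩, ⟨.negSucc 573, .negSucc 275, .negSucc 333, .ofNat 196, .negSucc 146, .ofNat 81⟩, ⟨.ofNat 1048, .ofNat 80, .ofNat 16, .negSucc 113, .ofNat 711, .ofNat 11⟩, ⟨.negSucc 4045, .negSucc 10, .ofNat 94, .ofNat 307, .negSucc 662, .ofNat 497⟩, ⟨.negSucc 82, .ofNat 90, .negSucc 295, .ofNat 1429, .negSucc 158, .negSucc 198⟩, .ofNat 532, .negSucc 536, .ofNat 0, .negSucc 536, .ofNat 1853, .ofNat 0, .ofNat 128, .ofNat 158, .negSucc 27, .ofNat 0, .ofNat 127, .negSucc 2, .ofNat 0, .ofNat 0, .ofNat 364, .ofNat 1074, .ofNat 0, .ofNat 0, .ofNat 0, .ofNat 0, .ofNat 0, .ofNat 0, .ofNat 0, .ofNat 0, .ofNat 0, .ofNat 0, .ofNat 0, .ofNat 0, .ofNat 0, .ofNat 2012011136520987703413940419208511750144, .ofNat 3903881016492013425569493794062073856, .ofNat 0⟩)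
    (by decide +kernel)
theorem L01563 : Good (Phi V5.P V5.D 1 1) ⟨3, 6, 2, 1, 2, 3, 2, 0, 4, 4⟩ :=
  leafX_sound T5.ok_pp T5.Ypp.bz_eq (w := 201) (c := ⟨⟨.negSucc 1972, .negSucc 230, .ofNat 60, .ofNat 658, .negSucc 483, .ofNat 137⟩, ⟨.negSucc 681, .negSucc 218, .negSucc 331, .ofNat 383, .negSucc 229, .ofNat 61⟩, ⟨.ofNat 195, .negSucc 27, .ofNat 11, .ofNat 9, .ofNat 876, .negSucc 41⟩, ⟨.negSucc 3213, .ofNat 24, .ofNat 204, .ofNat 328, .negSucc 812, .ofNat 336⟩, ⟨.negSucc 42, .ofNat 169, .negSucc 399, .ofNat 1463, .ofNat 149, .negSucc 248⟩, .ofNat 334, .negSucc 198, .ofNat 0, .negSucc 198, .ofNat 623, .ofNat 0, .ofNat 128, .ofNat 97, .negSucc 47, .ofNat 0, .ofNat 153, .ofNat 6, .ofNat 0, .ofNat 0, .ofNat 442, .ofNat 1734, .ofNat 189628463219650767027646549947077099520, .ofNat 0, .ofNat 181011854808071148083595790203748352, .ofNat 0, .ofNat 18967093710061976484594279183405960658944,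 .ofNat 222537796756119375400637637464925667328, .ofNat 377855085959190349560142611045416960, .ofNat 0, .ofNat 0, .ofNat 0, .ofNat 13042541553460773776302989016238653440, .ofNat 0, .ofNat 30219722847332743019466692798638272282624, .ofNat 0, .ofNat 5246012281210007404979621305182584832, .ofNat 0⟩)
    (by decide +kernel)
theorem L01564 : Good (Phi V5.P V5.D 1 1) ⟨4, 12, 2, 1, 2, 3, 2, 1, 4, 4⟩ :=
  leafX_sound T5.ok_pp T5.Ypp.bz_eq (w := 206) (c := ⟨⟨.negSucc 2477, .negSucc 141, .ofNat 67, .ofNat 602, .negSucc 476, .ofNat 262⟩, ⟨.negSucc 885, .negSucc 138, .negSucc 343, .ofNat 338, .negSucc 215, .ofNat 101⟩, ⟨.ofNat 1151, .ofNat 46, .ofNat 18, .negSucc 165, .ofNat 749, .negSucc 71⟩, ⟨.negSucc 4033, .negSucc 0, .ofNat 55, .ofNat 281, .negSucc 701, .ofNat 516⟩, ⟨.negSucc 38, .ofNat 34, .negSucc 42, .ofNat 1505, .negSucc 130, .negSucc 254⟩, .ofNat 553, .negSucc 549, .ofNat 0, .negSucc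 549, .ofNat 1514, .ofNat 0, .ofNat 128, .ofNat 189, .negSucc 36, .ofNat 0, .ofNat 162, .negSucc 3, .ofNat 0, .ofNat 0, .ofNat 454, .ofNat 1208, .ofNat 0, .ofNat 0, .ofNat 46344376613825635891344029387849728, .ofNat 0, .ofNat 0, .ofNat 22499974090048536636051520805764962713600, .ofNat 2225339461050285946566366834490081280, .ofNat 0, .ofNat 0, .ofNat 0, .ofNat 7377507092654190988463504346438434816, .ofNat 0, .ofNat 0, .ofNat 47228998176331648537281368277802381475840, .ofNat 1362414979446528434477751416651776000, .ofNat 0⟩)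
    (by decide +kernel)
theorem L01565 : Good (Phi V5.P V5.D 1 1) ⟨4, 13, 2, 1, 3, 6, 2, 1, 4, 4⟩ :=
  leafX_sound T5.ok_pp T5.Ypp.bz_eq (w := 220) (c := ⟨⟨.negSucc 2558, .negSucc 157, .negSucc 48, .ofNat 243, .negSucc 574, .ofNat 304⟩, ⟨.negSucc 1039, .negSucc 205, .negSucc 350, .ofNat 154, .negSucc 310, .ofNat 152⟩, ⟨.ofNat 1217, .ofNat 39, .ofNat 97, .negSucc 190, .ofNat 837, .negSucc 212⟩, ⟨.negSucc 4026, .ofNat 28, .ofNat 35, .ofNat 116, .negSucc 790, .ofNat 614⟩, ⟨.ofNat 163, .negSucc 5, .negSucc 181, .ofNat 469, .negSucc 155, .negSucc 309⟩, .ofNat 327, .negSucc 187, .ofNat 0, .negSucc 187, .ofNat 553, .ofNat 0, .ofNat 153, .ofNat 91, .negSucc 40, .ofNat 0, .ofNat 128, .ofNat 2, .ofNat 0, .ofNat 0, .ofNat 293, .ofNat 1989, .ofNat 0, .ofNat 0, .ofNat 813485898605418214218936551032414535680, .ofNat 0, .ofNat 0, .ofNat 0, .ofNat 9717919998164204190546097967780262313984, .ofNat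 0, .ofNat 0, .ofNat 0, .ofNat 26169289647334948166432516496920860950528, .ofNat 0, .ofNat 0, .ofNat 15298885657104233933529503459400706305294336, .ofNat 20822439103199530645679668305018857979904, .ofNat 0⟩)
    (by decide +kernel)
theorem L01566 : Good (Phi V5.P V5.D 1 1) ⟨4, 13, 2, 1, 3, 7, 2, 1, 4, 4⟩ :=
  leafX_sound T5.ok_pp T5.Ypp.bz_eq (w := 220) (c := ⟨⟨.negSucc 2244, .negSucc 69, .negSucc 47, .ofNat 504, .negSucc 653, .ofNat 169⟩, ⟨.negSucc 782, .negSucc 34, .negSucc 485, .ofNat 339, .negSucc 340, .ofNat 76⟩, ⟨.ofNat 1043, .ofNat 48, .ofNat 4, .ofNat 65, .ofNat 749, .negSucc 78⟩, ⟨.negSucc 3655, .negSucc 12, .negSucc 44, .negSucc 40, .negSucc 1030, .ofNat 475⟩, ⟨.ofNat 492, .ofNat 159, .negSucc 118, .ofNat 1479, .ofNat 89, .negSucc 434⟩, .ofNat 879, .negSucc 1081, .ofNat 0, .negSucc 1081, .ofNat 2244, .ofNat 0, .ofNat 128, .ofNat 238, .negSucc 17, .ofNat 0, .ofNat 185, .ofNat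 1, .ofNat 0, .ofNat 0, .ofNat 401, .ofNat 1439, .ofNat 0, .ofNat 0, .ofNat 628117147134596808675311916424842182656, .ofNat 0, .ofNat 0, .ofNat 0, .ofNat 113427832974630818915201336500688867295232, .ofNat 0, .ofNat 0, .ofNat 0, .ofNat 59926654388304997724986797423793706893312, .ofNat 0, .ofNat 0, .ofNat 198429663524685257177458285351022763163254784, .ofNat 20447089223103060095730430800321891532800, .ofNat 0⟩)
    (by decide +kernel)
theorem L01567 : Good (Phi V5.P V5.D 1 1) ⟨3, 7, 2, 1, 2, 3, 1, 0, 4, 4⟩ :=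
  out_sound (S := T5.ds_pp) T5.ok_pp (w := 43) (j := 3) (by decide +kernel)
theorem L01568 : Good (Phi V5.P V5.D 1 1) ⟨3, 4, 2, 1, 2, 3, 1, 0, 4, 5⟩ :=
  out_sound (S := T5.ds_pp) T5.ok_pp (w := 43) (j := 3) (by decide +kernel)
theorem L01569 : Good (Phi V5.P V5.D 1 1) ⟨4, 10, 2, 1, 2, 3, 1, 0, 4, 5⟩ :=
  out_sound (S := T5.ds_pp) T5.ok_pp (w := 49) (j := 3) (by decide +kernel)
theorem L01570 : Good (Phi V5.P V5.D 1 1) ⟨4, 11, 2, 1, 3, 6, 1, 0, 4, 5⟩ :=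
  leafX_sound T5.ok_pp T5.Ypp.bz_eq (w := 214) (c := ⟨⟨.negSucc 1730, .negSucc 111, .ofNat 25, .ofNat 149, .negSucc 632, .ofNat 183⟩, ⟨.negSucc 521, .negSucc 125, .negSucc 280, .ofNat 60, .negSucc 231, .ofNat 58⟩, ⟨.ofNat 285, .negSucc 27, .negSucc 119, .negSucc 78, .ofNat 1540, .negSucc 103⟩, ⟨.negSucc 3113, .ofNat 34, .ofNat 148, .ofNat 117, .negSucc 968, .ofNat 357⟩, ⟨.negSucc 37, .ofNat 78, .negSucc 299, .ofNat 403, .negSucc 306, .negSucc 106⟩, .ofNat 328, .negSucc 164, .ofNat 0, .negSucc 164, .ofNat 728, .ofNat 0, .ofNat 134, .ofNat 79, .negSucc 12, .ofNat 0, .ofNat 128, .ofNat 4, .ofNat 0, .ofNat 0, .ofNat 332, .ofNat 577, .ofNat 1225190982447302707940827902653097660383232, .ofNat 0, .ofNat 12977847348219630728213949716753285120, .ofNat 0, .ofNat 0, .ofNat 0, .ofNat 0, .ofNat 0, .ofNat 0, .ofNat 0, .ofNat 0, .ofNat 0, .ofNat 167404428055444888755829901435914228359757824, .ofNat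 20297639239619793436278457805137020941500416, .ofNat 433943175652692177149911678907423129600, .ofNat 0⟩)
    (by decide +kernel)
theorem L01571 : Good (Phi V5.P V5.D 1 1) ⟨4, 11, 2, 1, 3, 7, 1, 0, 4, 5⟩ :=
  leafX_sound T5.ok_pp T5.Ypp.bz_eq (w := 215) (c := ⟨⟨.negSucc 1555, .negSucc 92, .ofNat 16, .ofNat 262, .negSucc 680, .ofNat 139⟩, ⟨.negSucc 466, .negSucc 90, .negSucc 325, .ofNat 112, .negSucc 239, .ofNat 45⟩, ⟨.ofNat 177, .negSucc 31, .negSucc 3, .ofNat 171, .ofNat 1602, .negSucc 33⟩, ⟨.negSucc 2913, .ofNat 16, .ofNat 122, .ofNat 167, .negSucc 1099, .ofNat 299⟩, ⟨.ofNat 352, .ofNat 119, .negSucc 393, .ofNat 796, .negSucc 194, .negSucc 178⟩, .ofNat 328, .negSucc 164, .ofNat 0, .negSucc 164, .ofNat 728, .ofNat 0, .ofNat 142, .ofNat 65, .negSucc 12, .ofNat 0, .ofNat 128, .ofNat 8, .ofNat 0, .ofNat 0, .ofNat 411, .ofNat 1493, .ofNat 0, .ofNat 0, .ofNat 0, .ofNat 0, .ofNat 0, .ofNat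 49390965792931535223025501149766299158577152, .ofNat 0, .ofNat 0, .ofNat 0, .ofNat 0, .ofNat 3087415631545558652340267685220133634048, .ofNat 0, .ofNat 80606892434656684088543494901995619070509056, .ofNat 85000516438610787032187021087045311073878016, .ofNat 1972238417654887652990893899912088387584, .ofNat 0⟩)
    (by decide +kernel)
theorem L01572 : Good (Phi V5.P V5.D 1 1) ⟨3, 6, 2, 1, 2, 3, 2, 0, 4, 5⟩ :=
  leafX_sound T5.ok_pp T5.Ypp.bz_eq (w := 200) (c := ⟨⟨.negSucc 1781, .negSucc 212, .ofNat 10, .ofNat 471, .negSucc 432, .ofNat 165⟩, ⟨.negSucc 597, .negSucc 265, .negSucc 289, .ofNat 278, .negSucc 215, .ofNat 71⟩, ⟨.ofNat 90, .negSucc 42, .negSucc 105, .negSucc 74, .ofNat 994, .negSucc 191⟩, ⟨.negSucc 2985, .ofNat 88, .ofNat 150, .ofNat 276, .negSucc 613, .ofNat 316⟩, ⟨.negSucc 50, .ofNat 176, .negSucc 344, .ofNat 952, .negSucc 56, .negSucc 101⟩, .ofNat 335, .negSucc 198, .ofNat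 0, .negSucc 198, .ofNat 643, .ofNat 0, .ofNat 128, .ofNat 99, .negSucc 22, .ofNat 0, .ofNat 144, .ofNat 9, .ofNat 0, .ofNat 0, .ofNat 504, .ofNat 861, .ofNat 43931709694676147383429637666393554944, .ofNat 0, .ofNat 71421953760461425052209460665122816, .ofNat 0, .ofNat 0, .ofNat 0, .ofNat 0, .ofNat 0, .ofNat 0, .ofNat 7968775217408725689455047496996891918336, .ofNat 4854616615036502645923057976146395136, .ofNat 0, .ofNat 171335092696421458270616192557277438279680, .ofNat 5939543866328979995250840238968258166784, .ofNat 4155744548004176692741097394307858432, .ofNat 0⟩)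
    (by decide +kernel)

end Crest.Agent.R097C5.N5pp
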