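import Crest.Agent.R097.KP7
import Crest.Agent.R097.T5Ypp

/-!
# Row 97, box cover in dimension n = 5 (generated)
-/

set_option autoImplicit false
set_option Elab.async false
set_option maxHeartbeats 0
set_option maxRecDepth 100000

open Crest.Agent.R097 Crest.Agent.R097.KA


namespace Crest.Agent.R097C5.N5pp

theorem L01573 : Good (Phi V5.P V5.D 1 1) ⟨3, 6, 2, 1, 2, 3, 2, 1, 4, 5⟩ :=
  leafX_sound T5.ok_pp T5.Ypp.bz_eq (w := 201) (c := ⟨⟨.negSucc 2175, .negSucc 309, .ofNat 3, .ofNat 421, .negSucc 403, .ofNat 221⟩, ⟨.negSucc 771, .negSucc 367, .negSucc 298, .ofNat 247, .negSucc 200, .ofNat 103⟩, ⟨.ofNat 1123, .negSucc 33, .negSucc 22, .negSucc 272, .ofNat 755, .negSucc 260⟩, ⟨.negSucc 3583, .ofNat 17, .ofNat 133, .ofNat 250, .negSucc 530, .ofNat 408⟩, ⟨.negSucc 94, .ofNat 120, .negSucc 252, .ofNat 786, .negSucc 203, .negSucc 139⟩, .ofNat 337, .negSucc 203,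 .ofNat 0, .negSucc 203, .ofNat 643, .ofNat 0, .ofNat 128, .ofNat 115, .negSucc 14, .ofNat 0, .ofNat 156, .ofNat 6, .ofNat 0, .ofNat 0, .ofNat 349, .ofNat 535, .ofNat 0, .ofNat 0, .ofNat 42787550202397394437630383643164672, .ofNat 0, .ofNat 0, .ofNat 1903559747212236133770033958444811157504, .ofNat 996690186161910119551650429235363840, .ofNat 0, .ofNat 0, .ofNat 7331209745810674441049050571325466214400, .ofNat 8184835183223031863585877111240392704, .ofNat 0, .ofNat 0, .ofNat 3668544392115642846650449088340182433792, .ofNat 1017977809814805111471144160028786688, .ofNat 0⟩)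
    (by decide +kernel)
theorem L01574 : Good (Phi V5.P V5.D 1 1) ⟨3, 7, 2, 1, 2, 3, 1, 0, 4, 5⟩ :=
  out_sound (S := T5.ds_pp) T5.ok_pp (w := 43) (j := 3) (by decide +kernel)
theorem L01575 : Good (Phi V5.P V5.D 1 1) ⟨3, 4, 2, 1, 1, 1, 1, 0, 3, 3⟩ :=
  out_sound (S := T5.ds_pp) T5.ok_pp (w := 43) (j := 3) (by decide +kernel)
theorem L01576 : Good (Phi V5.P V5.D 1 1) ⟨3, 5, 2, 1, 2, 2, 1, 0, 3, 3⟩ :=
  leafX_sound T5.ok_pp T5.Ypp.bz_eq (w := 193) (c := ⟨⟨.negSucc 1514, .negSucc 350, .negSucc 6, .ofNat 18, .negSucc 389, .ofNat 338⟩, ⟨.negSucc 339, .negSucc 343, .negSucc 257, .ofNat 9, .negSucc 135, .ofNat 116⟩, ⟨.ofNat 842, .ofNat 149, .negSucc 135, .negSucc 349, .ofNat 929, .negSucc 350⟩, ⟨.negSucc 3005, .negSucc 36, .ofNat 53, .ofNat 36, .negSucc 566, .ofNat 585⟩, ⟨.negSucc 131, .ofNat 12, .negSucc 39, .negSucc 33, .negSucc 292, .negSucc 18⟩, .ofNat 535,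 .negSucc 542, .ofNat 0, .negSucc 542, .ofNat 1859, .ofNat 0, .ofNat 128, .ofNat 158, .negSucc 24, .ofNat 0, .ofNat 115, .negSucc 5, .ofNat 0, .ofNat 0, .ofNat 703, .ofNat 2051, .ofNat 360749806199393093931991651016140390400, .ofNat 1341948380206795039698999881030959104, .ofNat 9842362976737782382604389974016, .ofNat 0, .ofNat 0, .ofNat 112552212559483335166221676597060042752, .ofNat 0, .ofNat 0, .ofNat 0, .ofNat 0, .ofNat 0, .ofNat 0, .ofNat 7220570058087165284683851587953404936192, .ofNat 456955182179646079614290283691916656640, .ofNat 15761450028006830192013111749246976, .ofNat 0⟩)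
    (by decide +kernel)
theorem L01577 : Good (Phi V5.P V5.D 1 1) ⟨3, 5, 2, 1, 2, 3, 1, 0, 3, 3⟩ :=
  leafX_sound T5.ok_pp T5.Ypp.bz_eq (w := 193) (c := ⟨⟨.negSucc 1474, .negSucc 266, .ofNat 10, .ofNat 196, .negSucc 481, .ofNat 1⟩, ⟨.negSucc 339, .negSucc 282, .negSucc 251, .ofNat 68, .negSucc 176, .ofNat 0⟩, ⟨.ofNat 249, .negSucc 80, .negSucc 117, .negSucc 437, .ofNat 1534, .ofNat 0⟩, ⟨.negSucc 2908, .ofNat 34, .ofNat 102, .ofNat 217, .negSucc 712, .ofNat 2⟩, ⟨.negSucc 101, .ofNat 62, .negSucc 166, .ofNat 375, .negSucc 298, .ofNat 0⟩, .ofNat 328, .negSucc 164, .ofNat 0, .negSucc 164, .ofNat 733, .ofNat 0, .ofNat 128, .ofNat 85, .negSucc 8, .ofNat 0, .ofNat 132, .ofNat 7, .ofNat 0, .ofNat 0, .ofNat 597, .ofNat 2323, .ofNat 0, .ofNat 0, .ofNat 0, .ofNat 0, .ofNat 3183500345011911626194806339610899120128, .ofNat 651046054416586730023346367938632351744, .ofNat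 16111362910013079986050269496475648, .ofNat 0, .ofNat 0, .ofNat 798155946925049148138463123808666517504, .ofNat 164817226826638330673677151766577152, .ofNat 0, .ofNat 13104279830660608610088489826915375382528, .ofNat 1750319519028757006347102500617220784128, .ofNat 29317742759794310663887847243644928, .ofNat 0⟩)
    (by decide +kernel)
theorem L01578 : Good (Phi V5.P V5.D 1 1) ⟨3, 6, 2, 1, 2, 2, 1, 0, 4, 6⟩ :=
  leafX_sound T5.ok_pp T5.Ypp.bz_eq (w := 199) (c := ⟨⟨.negSucc 1645, .negSucc 362, .negSucc 25, .ofNat 2, .negSucc 641, .ofNat 172⟩, ⟨.negSucc 524, .negSucc 436, .negSucc 267, .negSucc 1, .negSucc 313, .ofNat 75⟩, ⟨.ofNat 762, .ofNat 89, .negSucc 160, .negSucc 415, .ofNat 1259, .negSucc 262⟩, ⟨.negSucc 2865, .ofNat 14, .ofNat 43, .ofNat 46, .negSucc 788, .ofNat 283⟩, ⟨.ofNat 41, .ofNat 0, .negSucc 38, .negSucc 99, .negSucc 460, .negSucc 27⟩, .ofNat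 570, .negSucc 560, .ofNat 0, .negSucc 560, .ofNat 1384, .ofNat 0, .ofNat 128, .ofNat 245, .negSucc 26, .ofNat 0, .ofNat 206, .negSucc 1, .ofNat 0, .ofNat 0, .ofNat 1091, .ofNat 3082, .ofNat 3209501150197075752313932807223182884864, .ofNat 0, .ofNat 42165815560113293687466020816551936, .ofNat 0, .ofNat 16870018574150948369785804018900780711936, .ofNat 1046558894614449652859343449117163520000, .ofNat 1266527309384731259791447812779016192, .ofNat 0, .ofNat 7848653414459967361190595068879393783808, .ofNat 0, .ofNat 2059870333630153675381263920846077952, .ofNat 0, .ofNat 163117376339557775601986461452848378937344, .ofNat 7497111595723408717860044233578639261696, .ofNat 1060155239213591255031694998974234624, .ofNat 0⟩)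
    (by decide +kernel)
theorem L01579 : Good (Phi V5.P V5.D 1 1) ⟨3, 6, 2, 1, 2, 3, 1, 0, 4, 6⟩ :=
  leafX_sound T5.ok_pp T5.Ypp.bz_eq (w := 197) (c := ⟨⟨.negSucc 1656, .negSucc 278, .negSucc 14, .ofNat 261, .negSucc 628, .ofNat 154⟩, ⟨.negSucc 536, .negSucc 348, .negSucc 268, .ofNat 138, .negSucc 324, .ofNat 78⟩, ⟨.ofNat 13, .negSucc 143, .negSucc 112, .negSucc 595, .ofNat 1821, .negSucc 281⟩, ⟨.negSucc 2814, .ofNat 68, .ofNat 105, .ofNat 259, .negSucc 828, .ofNat 265⟩, ⟨.negSucc 56, .ofNat 55, .negSucc 200, .ofNat 292, .negSucc 256, .negSucc 56⟩, .ofNat 337, .negSucc 204, .ofNat 0, .negSucc 204, .ofNat 645, .ofNat 0, .ofNat 128, .ofNat 110, .negSucc 11, .ofNat 0, .ofNat 148, .ofNat 10, .ofNat 0, .ofNat 0, .ofNat 650, .ofNat 1371, .ofNat 1022960505181785535290127813575939457024, .ofNat 60235411650252932125225461827753738240, .ofNat 0, .ofNat 0, .ofNat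 5059111399073066507094562591406202814464, .ofNat 2259881199969149125191841980500150321152, .ofNat 0, .ofNat 0, .ofNat 0, .ofNat 2493868202270395895911862849959303839744, .ofNat 1900224326095693547523825547972968448, .ofNat 0, .ofNat 111487145127137495519887559038434214412288, .ofNat 14430838414902484422545283344208022732800, .ofNat 1000468173881369226308150174559502336, .ofNat 0⟩)
    (by decide +kernel)
theorem L01580 : Good (Phi V5.P V5.D 1 1) ⟨4, 12, 3, 2, 2, 2, 2, 0, 4, 7⟩ :=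
  out_sound (S := T5.ds_pp) T5.ok_pp (w := 24) (j := 1) (by decide +kernel)
theorem L01581 : Good (Phi V5.P V5.D 1 1) ⟨4, 12, 3, 2, 3, 4, 3, 2, 4, 7⟩ :=
  out_sound (S := T5.ds_pp) T5.ok_pp (w := 27) (j := 1) (by decide +kernel)
theorem L01582 : Good (Phi V5.P V5.D 1 1) ⟨4, 12, 3, 2, 4, 8, 3, 3, 5, 14⟩ :=
  out_sound (S := T5.ds_pp) T5.ok_pp (w := 31) (j := 1) (by decide +kernel)
theorem L01583 : Good (Phi V5.P V5.D 1 1) ⟨4, 12, 3, 2, 4, 9, 4, 6, 5, 14⟩ :=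
  out_sound (S := T5.ds_pp) T5.ok_pp (w := 32) (j := 1) (by decide +kernel)
theorem L01584 : Good (Phi V5.P V5.D 1 1) ⟨4, 12, 3, 2, 5, 18, 4, 7, 6, 28⟩ :=
  leafX_sound T5.ok_pp T5.Ypp.bz_eq (w := 280) (c := ⟨⟨.negSucc 2044, .negSucc 192, .negSucc 8, .negSucc 0, .negSucc 62, .ofNat 1⟩, ⟨.negSucc 741, .negSucc 219, .negSucc 118, .ofNat 0, .negSucc 29, .ofNat 0⟩, ⟨.ofNat 1579, .ofNat 82, .negSucc 197, .ofNat 1, .ofNat 57, .negSucc 0⟩, ⟨.negSucc 3267, .negSucc 17, .ofNat 23, .negSucc 0, .negSucc 71, .ofNat 2⟩, ⟨.negSucc 419, .negSucc 14, .negSucc 8, .ofNat 0, .negSucc 52, .ofNat 0⟩, .ofNat 163, .negSucc 35, .ofNat 0, .negSucc 35, .ofNat 228, .ofNat 0, .ofNat 128, .ofNat 44, .negSucc 3, .ofNat 0, .ofNat 148, .negSucc 4, .ofNat 0, .ofNat 0, .ofNat 285, .ofNat 3608993, .ofNat 0, .ofNat 0, .ofNat 0, .ofNat 0, .ofNat 196903207063412921164932921340825085990058104852263630536704,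 .ofNat 860406270302259715797425764686565831506852443593103114240, .ofNat 8376361423942312133496021213185610850359501493423308800, .ofNat 0, .ofNat 126008654453878169632569383115645747564361984884381237379072, .ofNat 0, .ofNat 0, .ofNat 0, .ofNat 130738074348390951802218534996643590560122519235615059345408, .ofNat 105775768615016639784002596608280399764647654071652581376, .ofNat 0, .ofNat 0⟩)
    (by decide +kernel)
theorem L01585 : Good (Phi V5.P V5.D 1 1) ⟨4, 12, 3, 2, 5, 19, 6, 28, 7, 56⟩ :=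
  out_sound (S := T5.ds_pp) T5.ok_pp (w := 40) (j := 1) (by decide +kernel)
theorem L01586 : Good (Phi V5.P V5.D 1 1) ⟨4, 12, 3, 2, 6, 38, 6, 29, 7, 56⟩ :=
  out_sound (S := T5.ds_pp) T5.ok_pp (w := 42) (j := 1) (by decide +kernel)
theorem L01587 : Good (Phi V5.P V5.D 1 1) ⟨4, 12, 3, 2, 6, 39, 6, 29, 7, 56⟩ :=
  out_sound (S := T5.ds_pp) T5.ok_pp (w := 52) (j := 2) (by decide +kernel)
theorem L01588 : Good (Phi V5.P V5.D 1 1) ⟨4, 12, 3, 2, 5, 19, 5, 14, 7, 57⟩ :=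
  out_sound (S := T5.ds_pp) T5.ok_pp (w := 39) (j := 1) (by decide +kernel)
theorem L01589 : Good (Phi V5.P V5.D 1 1) ⟨4, 12, 3, 2, 7, 76, 6, 30, 7, 56⟩ :=
  out_sound (S := T5.ds_pp) T5.ok_pp (w := 44) (j := 1) (by decide +kernel)
theorem L01590 : Good (Phi V5.P V5.D 1 1) ⟨4, 12, 3, 2, 8, 152, 8, 124, 9, 224⟩ :=
  out_sound (S := T5.ds_pp) T5.ok_pp (w := 52) (j := 1) (by decide +kernel)
theorem L01591 : Good (Phi V5.P V5.D 1 1) ⟨4, 12, 3, 2, 8, 152, 9, 250, 10, 448⟩ :=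
  out_sound (S := T5.ds_pp) T5.ok_pp (w := 55) (j := 1) (by decide +kernel)
theorem L01592 : Good (Phi V5.P V5.D 1 1) ⟨4, 12, 3, 2, 9, 304, 9, 251, 10, 448⟩ :=
  out_sound (S := T5.ds_pp) T5.ok_pp (w := 57) (j := 1) (by decide +kernel)
theorem L01593 : Good (Phi V5.P V5.D 1 1) ⟨4, 12, 3, 2, 9, 305, 9, 251, 10, 448⟩ :=
  out_sound (S := T5.ds_pp) T5.ok_pp (w := 70) (j := 2) (by decide +kernel)
theorem L01594 : Good (Phi V5.P V5.D 1 1) ⟨4, 12, 3, 2, 8, 152, 8, 125, 10, 449⟩ :=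
  out_sound (S := T5.ds_pp) T5.ok_pp (w := 54) (j := 1) (by decide +kernel)
theorem L01595 : Good (Phi V5.P V5.D 1 1) ⟨4, 12, 3, 2, 8, 152, 7, 62, 9, 225⟩ :=
  out_sound (S := T5.ds_pp) T5.ok_pp (w := 51) (j := 1) (by decide +kernel)
theorem L01596 : Good (Phi V5.P V5.D 1 1) ⟨4, 12, 3, 2, 10, 608, 9, 252, 10, 448⟩ :=
  out_sound (S := T5.ds_pp) T5.ok_pp (w := 59) (j := 1) (by decide +kernel)
theorem L01597 : Good (Phi V5.P V5.D 1 1) ⟨4, 12, 3, 2, 11, 1216, 10, 506, 11, 896⟩ :=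
  out_sound (S := T5.ds_pp) T5.ok_pp (w := 64) (j := 1) (by decide +kernel)
theorem L01598 : Good (Phi V5.P V5.D 1 1) ⟨4, 12, 3, 2, 11, 1216, 10, 507, 11, 896⟩ :=
  out_sound (S := T5.ds_pp) T5.ok_pp (w := 78) (j := 2) (by decide +kernel)
theorem L01599 : Good (Phi V5.P V5.D 1 1) ⟨4, 12, 3, 2, 11, 1217, 9, 253, 11, 896⟩ :=
  out_sound (S := T5.ds_pp) T5.ok_pp (w := 76) (j := 2) (by decide +kernel)
theorem L01600 : Good (Phi V5.P V5.D 1 1) ⟨4, 12, 3, 2, 10, 608, 9, 253, 11, 897⟩ :=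
  out_sound (S := T5.ds_pp) T5.ok_pp (w := 74) (j := 2) (by decide +kernel)
theorem L01601 : Good (Phi V5.P V5.D 1 1) ⟨4, 12, 3, 2, 10, 609, 8, 126, 10, 448⟩ :=
  out_sound (S := T5.ds_pp) T5.ok_pp (w := 70) (j := 2) (by decide +kernel)
theorem L01602 : Good (Phi V5.P V5.D 1 1) ⟨4, 12, 3, 2, 9, 304, 8, 126, 10, 449⟩ :=
  out_sound (S := T5.ds_pp) T5.ok_pp (w := 56) (j := 1) (by decide +kernel)
theorem L01603 : Good (Phi V5.P V5.D 1 1) ⟨4, 12, 3, 2, 9, 304, 8, 127, 9, 224⟩ :=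
  out_sound (S := T5.ds_pp) T5.ok_pp (w := 66) (j := 2) (by decide +kernel)
theorem L01604 : Good (Phi V5.P V5.D 1 1) ⟨4, 12, 3, 2, 9, 305, 7, 63, 9, 224⟩ :=
  out_sound (S := T5.ds_pp) T5.ok_pp (w := 64) (j := 2) (by decide +kernel)
theorem L01605 : Good (Phi V5.P V5.D 1 1) ⟨4, 12, 3, 2, 8, 152, 7, 63, 9, 225⟩ :=
  out_sound (S := T5.ds_pp) T5.ok_pp (w := 62) (j := 2) (by decide +kernel)
theorem L01606 : Good (Phi V5.P V5.D 1 1) ⟨4, 12, 3, 2, 8, 153, 6, 31, 8, 112⟩ :=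
  out_sound (S := T5.ds_pp) T5.ok_pp (w := 58) (j := 2) (by decide +kernel)
theorem L01607 : Good (Phi V5.P V5.D 1 1) ⟨4, 12, 3, 2, 7, 76, 6, 31, 8, 113⟩ :=
  out_sound (S := T5.ds_pp) T5.ok_pp (w := 56) (j := 2) (by decide +kernel)
theorem L01608 : Good (Phi V5.P V5.D 1 1) ⟨4, 12, 3, 2, 8, 154, 6, 30, 8, 112⟩ :=
  out_sound (S := T5.ds_pp) T5.ok_pp (w := 48) (j := 1) (by decide +kernel)
theorem L01609 : Good (Phi V5.P V5.D 1 1) ⟨4, 12, 3, 2, 8, 155, 6, 30, 8, 112⟩ :=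
  out_sound (S := T5.ds_pp) T5.ok_pp (w := 58) (j := 2) (by decide +kernel)
theorem L01610 : Good (Phi V5.P V5.D 1 1) ⟨4, 12, 3, 2, 7, 77, 6, 30, 8, 113⟩ :=
  out_sound (S := T5.ds_pp) T5.ok_pp (w := 46) (j := 1) (by decide +kernel)
theorem L01611 : Good (Phi V5.P V5.D 1 1) ⟨4, 12, 3, 2, 7, 77, 6, 31, 7, 56⟩ :=
  out_sound (S := T5.ds_pp) T5.ok_pp (w := 54) (j := 2) (by decide +kernel)
theorem L01612 : Good (Phi V5.P V5.D 1 1) ⟨4, 12, 3, 2, 6, 38, 5, 15, 7, 57⟩ :=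
  out_sound (S := T5.ds_pp) T5.ok_pp (w := 50) (j := 2) (by decide +kernel)
theorem L01613 : Good (Phi V5.P V5.D 1 1) ⟨4, 12, 3, 2, 6, 39, 5, 15, 6, 28⟩ :=
  out_sound (S := T5.ds_pp) T5.ok_pp (w := 48) (j := 2) (by decide +kernel)
theorem L01614 : Good (Phi V5.P V5.D 1 1) ⟨4, 12, 3, 2, 4, 9, 4, 7, 6, 29⟩ :=
  out_sound (S := T5.ds_pp) T5.ok_pp (w := 34) (j := 1) (by decide +kernel)
theorem L01615 : Good (Phi V5.P V5.D 1 1) ⟨4, 12, 3, 2, 3, 4, 3, 3, 5, 15⟩ :=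
  out_sound (S := T5.ds_pp) T5.ok_pp (w := 29) (j := 1) (by decide +kernel)
theorem L01616 : Good (Phi V5.P V5.D 1 1) ⟨4, 12, 3, 2, 4, 10, 3, 2, 5, 14⟩ :=
  out_sound (S := T5.ds_pp) T5.ok_pp (w := 31) (j := 1) (by decide +kernel)
theorem L01617 : Good (Phi V5.P V5.D 1 1) ⟨4, 12, 3, 2, 5, 20, 5, 12, 6, 28⟩ :=
  out_sound (S := T5.ds_pp) T5.ok_pp (w := 37) (j := 1) (by decide +kernel)
theorem L01618 : Good (Phi V5.P V5.D 1 1) ⟨4, 12, 3, 2, 5, 20, 5, 13, 6, 28⟩ :=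
  out_sound (S := T5.ds_pp) T5.ok_pp (w := 46) (j := 2) (by decide +kernel)
theorem L01619 : Good (Phi V5.P V5.D 1 1) ⟨4, 12, 3, 2, 5, 20, 4, 7, 6, 28⟩ :=
  out_sound (S := T5.ds_pp) T5.ok_pp (w := 44) (j := 2) (by decide +kernel)
theorem L01620 : Good (Phi V5.P V5.D 1 1) ⟨4, 12, 3, 2, 5, 20, 3, 3, 6, 29⟩ :=
  out_sound (S := T5.ds_pp) T5.ok_pp (w := 42) (j := 2) (by decide +kernel)
theorem L01621 : Good (Phi V5.P V5.D 1 1) ⟨4, 12, 3, 2, 5, 21, 3, 3, 5, 14⟩ :=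
  out_sound (S := T5.ds_pp) T5.ok_pp (w := 40) (j := 2) (by decide +kernel)
theorem L01622 : Good (Phi V5.P V5.D 1 1) ⟨4, 12, 3, 2, 4, 10, 2, 1, 5, 15⟩ :=
  out_sound (S := T5.ds_pp) T5.ok_pp (w := 36) (j := 2) (by decide +kernel)
theorem L01623 : Good (Phi V5.P V5.D 1 1) ⟨4, 12, 3, 2, 4, 11, 2, 1, 4, 7⟩ :=
  out_sound (S := T5.ds_pp) T5.ok_pp (w := 34) (j := 2) (by decide +kernel)
theorem L01624 : Good (Phi V5.P V5.D 1 1) ⟨4, 12, 3, 2, 2, 3, 1, 0, 4, 7⟩ :=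
  out_sound (S := T5.ds_pp) T5.ok_pp (w := 28) (j := 2) (by decide +kernel)
theorem L01625 : Good (Phi V5.P V5.D 1 1) ⟨5, 26, 4, 4, 1, 1, 1, 0, 4, 7⟩ :=
  out_sound (S := T5.ds_pp) T5.ok_pp (w := 59) (j := 3) (by decide +kernel)
theorem L01626 : Good (Phi V5.P V5.D 1 1) ⟨6, 52, 5, 10, 1, 1, 1, 0, 4, 7⟩ :=
  out_sound (S := T5.ds_pp) T5.ok_pp (w := 67) (j := 3) (by decide +kernel)
theorem L01627 : Good (Phi V5.P V5.D 1 1) ⟨7, 104, 5, 11, 2, 2, 2, 0, 4, 7⟩ :=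
  out_sound (S := T5.ds_pp) T5.ok_pp (w := 24) (j := 1) (by decide +kernel)
theorem L01628 : Good (Phi V5.P V5.D 1 1) ⟨8, 208, 7, 44, 2, 2, 2, 1, 4, 7⟩ :=
  out_sound (S := T5.ds_pp) T5.ok_pp (w := 83) (j := 3) (by decide +kernel)
theorem L01629 : Good (Phi V5.P V5.D 1 1) ⟨9, 416, 7, 45, 3, 4, 3, 2, 4, 7⟩ :=
  out_sound (S := T5.ds_pp) T5.ok_pp (w := 27) (j := 1) (by decide +kernel)
theorem L01630 : Good (Phi V5.P V5.D 1 1) ⟨9, 416, 7, 45, 4, 8, 3, 3, 5, 14⟩ :=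
  out_sound (S := T5.ds_pp) T5.ok_pp (w := 31) (j := 1) (by decide +kernel)
theorem L01631 : Good (Phi V5.P V5.D 1 1) ⟨9, 416, 7, 45, 4, 9, 4, 6, 5, 14⟩ :=
  out_sound (S := T5.ds_pp) T5.ok_pp (w := 32) (j := 1) (by decide +kernel)
theorem L01632 : Good (Phi V5.P V5.D 1 1) ⟨9, 416, 7, 45, 5, 18, 4, 7, 6, 28⟩ :=
  leafX_sound T5.ok_pp T5.Ypp.bz_eq (w := 313) (c := ⟨⟨.negSucc 2234, .negSucc 5, .negSucc 0, .negSucc 0, .negSucc 73, .ofNat 1⟩, ⟨.negSucc 1053, .negSucc 7, .negSucc 6, .ofNat 0, .negSucc 37, .ofNat 1⟩, ⟨.ofNat 1497, .ofNat 2, .negSucc 11, .ofNat 1, .ofNat 60, .negSucc 0⟩, ⟨.negSucc 3249, .negSucc 0, .ofNat 2, .negSucc 0, .negSucc 88, .ofNat 2⟩, ⟨.negSucc 441, .ofNat 0, .negSucc 0, .ofNat 0, .negSucc 52, .ofNat 0⟩, .ofNat 163, .negSucc 39, .ofNat 0, .negSucc 39, .ofNat 221, .ofNat 0, .ofNat 153, .ofNat 42, .negSucc 8, .ofNat 0, .ofNat 128, .negSucc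 6, .ofNat 0, .ofNat 0, .ofNat 466, .ofNat 6215024, .ofNat 0, .ofNat 0, .ofNat 0, .ofNat 0, .ofNat 1777280089214887241534299954548807403517717068056431119312725550825472, .ofNat 7704646239684300965515236570617814652482839075806660440317824598016, .ofNat 390797856881846351830703063070011101779902313013444608, .ofNat 0, .ofNat 752784299416226215105507717979841548798734679302000400955609588957184, .ofNat 0, .ofNat 0, .ofNat 0, .ofNat 1566010141525085171877872412704959315103128347070962535256275407601664, .ofNat 1303547453381745151918224469242168972134181440070360905115427143680, .ofNat 0, .ofNat 0⟩)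
    (by decide +kernel)
theorem L01633 : Good (Phi V5.P V5.D 1 1) ⟨9, 416, 7, 45, 5, 19, 6, 28, 7, 56⟩ :=
  out_sound (S := T5.ds_pp) T5.ok_pp (w := 40) (j := 1) (by decide +kernel)
theorem L01634 : Good (Phi V5.P V5.D 1 1) ⟨9, 416, 7, 45, 6, 38, 6, 29, 7, 56⟩ :=
  out_sound (S := T5.ds_pp) T5.ok_pp (w := 42) (j := 1) (by decide +kernel)
theorem L01635 : Good (Phi V5.P V5.D 1 1) ⟨9, 416, 7, 45, 6, 39, 6, 29, 7, 56⟩ :=
  out_sound (S := T5.ds_pp) T5.ok_pp (w := 52) (j := 2) (by decide +kernel)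
theorem L01636 : Good (Phi V5.P V5.D 1 1) ⟨9, 416, 7, 45, 5, 19, 5, 14, 7, 57⟩ :=
  out_sound (S := T5.ds_pp) T5.ok_pp (w := 39) (j := 1) (by decide +kernel)
theorem L01637 : Good (Phi V5.P V5.D 1 1) ⟨9, 416, 7, 45, 7, 76, 6, 30, 7, 56⟩ :=
  out_sound (S := T5.ds_pp) T5.ok_pp (w := 44) (j := 1) (by decide +kernel)
theorem L01638 : Good (Phi V5.P V5.D 1 1) ⟨9, 416, 7, 45, 8, 152, 8, 124, 9, 224⟩ :=
  out_sound (S := T5.ds_pp) T5.ok_pp (w := 52) (j := 1) (by decide +kernel)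
theorem L01639 : Good (Phi V5.P V5.D 1 1) ⟨9, 416, 7, 45, 8, 152, 9, 250, 10, 448⟩ :=
  out_sound (S := T5.ds_pp) T5.ok_pp (w := 55) (j := 1) (by decide +kernel)
theorem L01640 : Good (Phi V5.P V5.D 1 1) ⟨9, 416, 7, 45, 9, 304, 9, 251, 10, 448⟩ :=
  out_sound (S := T5.ds_pp) T5.ok_pp (w := 57) (j := 1) (by decide +kernel)
theorem L01641 : Good (Phi V5.P V5.D 1 1) ⟨9, 416, 7, 45, 9, 305, 9, 251, 10, 448⟩ :=
  out_sound (S := T5.ds_pp) T5.ok_pp (w := 70) (j := 2) (by decide +kernel)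
theorem L01642 : Good (Phi V5.P V5.D 1 1) ⟨9, 416, 7, 45, 8, 152, 8, 125, 10, 449⟩ :=
  out_sound (S := T5.ds_pp) T5.ok_pp (w := 54) (j := 1) (by decide +kernel)
theorem L01643 : Good (Phi V5.P V5.D 1 1) ⟨9, 416, 7, 45, 8, 152, 7, 62, 9, 225⟩ :=
  out_sound (S := T5.ds_pp) T5.ok_pp (w := 51) (j := 1) (by decide +kernel)
theorem L01644 : Good (Phi V5.P V5.D 1 1) ⟨9, 416, 7, 45, 10, 608, 9, 252, 10, 448⟩ :=
  out_sound (S := T5.ds_pp) T5.ok_pp (w := 59) (j := 1) (by decide +kernel)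
theorem L01645 : Good (Phi V5.P V5.D 1 1) ⟨9, 416, 7, 45, 11, 1216, 10, 506, 11, 896⟩ :=
  out_sound (S := T5.ds_pp) T5.ok_pp (w := 64) (j := 1) (by decide +kernel)
theorem L01646 : Good (Phi V5.P V5.D 1 1) ⟨9, 416, 7, 45, 11, 1216, 10, 507, 11, 896⟩ :=
  out_sound (S := T5.ds_pp) T5.ok_pp (w := 78) (j := 2) (by decide +kernel)
theorem L01647 : Good (Phi V5.P V5.D 1 1) ⟨9, 416, 7, 45, 11, 1217, 9, 253, 11, 896⟩ :=
  out_sound (S := T5.ds_pp) T5.ok_pp (w := 76) (j := 2) (by decide +kernel)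
theorem L01648 : Good (Phi V5.P V5.D 1 1) ⟨9, 416, 7, 45, 10, 608, 9, 253, 11, 897⟩ :=
  out_sound (S := T5.ds_pp) T5.ok_pp (w := 74) (j := 2) (by decide +kernel)
theorem L01649 : Good (Phi V5.P V5.D 1 1) ⟨9, 416, 7, 45, 10, 609, 8, 126, 10, 448⟩ :=
  out_sound (S := T5.ds_pp) T5.ok_pp (w := 70) (j := 2) (by decide +kernel)
theorem L01650 : Good (Phi V5.P V5.D 1 1) ⟨9, 416, 7, 45, 9, 304, 8, 126, 10, 449⟩ :=
  out_sound (S := T5.ds_pp) T5.ok_pp (w := 56) (j := 1) (by decide +kernel)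
theorem L01651 : Good (Phi V5.P V5.D 1 1) ⟨9, 416, 7, 45, 9, 304, 8, 127, 9, 224⟩ :=
  out_sound (S := T5.ds_pp) T5.ok_pp (w := 66) (j := 2) (by decide +kernel)
theorem L01652 : Good (Phi V5.P V5.D 1 1) ⟨9, 416, 7, 45, 9, 305, 7, 63, 9, 224⟩ :=
  out_sound (S := T5.ds_pp) T5.ok_pp (w := 64) (j := 2) (by decide +kernel)
theorem L01653 : Good (Phi V5.P V5.D 1 1) ⟨9, 416, 7, 45, 8, 152, 7, 63, 9, 225⟩ :=
  out_sound (S := T5.ds_pp) T5.ok_pp (w := 62) (j := 2) (by decide +kernel)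
theorem L01654 : Good (Phi V5.P V5.D 1 1) ⟨9, 416, 7, 45, 8, 153, 6, 31, 8, 112⟩ :=
  out_sound (S := T5.ds_pp) T5.ok_pp (w := 58) (j := 2) (by decide +kernel)
theorem L01655 : Good (Phi V5.P V5.D 1 1) ⟨9, 416, 7, 45, 7, 76, 6, 31, 8, 113⟩ :=
  out_sound (S := T5.ds_pp) T5.ok_pp (w := 56) (j := 2) (by decide +kernel)
theorem L01656 : Good (Phi V5.P V5.D 1 1) ⟨9, 416, 7, 45, 8, 154, 6, 30, 8, 112⟩ :=
  out_sound (S := T5.ds_pp) T5.ok_pp (w := 48) (j := 1) (by decide +kernel)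
theorem L01657 : Good (Phi V5.P V5.D 1 1) ⟨9, 416, 7, 45, 8, 155, 6, 30, 8, 112⟩ :=
  out_sound (S := T5.ds_pp) T5.ok_pp (w := 58) (j := 2) (by decide +kernel)
theorem L01658 : Good (Phi V5.P V5.D 1 1) ⟨9, 416, 7, 45, 7, 77, 6, 30, 8, 113⟩ :=
  out_sound (S := T5.ds_pp) T5.ok_pp (w := 46) (j := 1) (by decide +kernel)
theorem L01659 : Good (Phi V5.P V5.D 1 1) ⟨9, 416, 7, 45, 7, 77, 6, 31, 7, 56⟩ :=
  out_sound (S := T5.ds_pp) T5.ok_pp (w := 54) (j := 2) (by decide +kernel)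
theorem L01660 : Good (Phi V5.P V5.D 1 1) ⟨9, 416, 7, 45, 6, 38, 5, 15, 7, 57⟩ :=
  out_sound (S := T5.ds_pp) T5.ok_pp (w := 50) (j := 2) (by decide +kernel)
theorem L01661 : Good (Phi V5.P V5.D 1 1) ⟨9, 416, 7, 45, 6, 39, 5, 15, 6, 28⟩ :=
  out_sound (S := T5.ds_pp) T5.ok_pp (w := 48) (j := 2) (by decide +kernel)
theorem L01662 : Good (Phi V5.P V5.D 1 1) ⟨9, 416, 7, 45, 4, 9, 4, 7, 6, 29⟩ :=
  out_sound (S := T5.ds_pp) T5.ok_pp (w := 34) (j := 1) (by decide +kernel)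
theorem L01663 : Good (Phi V5.P V5.D 1 1) ⟨9, 416, 7, 45, 3, 4, 3, 3, 5, 15⟩ :=
  out_sound (S := T5.ds_pp) T5.ok_pp (w := 29) (j := 1) (by decide +kernel)
theorem L01664 : Good (Phi V5.P V5.D 1 1) ⟨9, 416, 7, 45, 4, 10, 3, 2, 5, 14⟩ :=
  out_sound (S := T5.ds_pp) T5.ok_pp (w := 31) (j := 1) (by decide +kernel)
theorem L01665 : Good (Phi V5.P V5.D 1 1) ⟨9, 416, 7, 45, 5, 20, 5, 12, 6, 28⟩ :=
  out_sound (S := T5.ds_pp) T5.ok_pp (w := 37) (j := 1) (by decide +kernel)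
theorem L01666 : Good (Phi V5.P V5.D 1 1) ⟨9, 416, 7, 45, 5, 20, 5, 13, 6, 28⟩ :=
  out_sound (S := T5.ds_pp) T5.ok_pp (w := 46) (j := 2) (by decide +kernel)
theorem L01667 : Good (Phi V5.P V5.D 1 1) ⟨9, 416, 7, 45, 5, 20, 4, 7, 6, 28⟩ :=
  out_sound (S := T5.ds_pp) T5.ok_pp (w := 44) (j := 2) (by decide +kernel)
theorem L01668 : Good (Phi V5.P V5.D 1 1) ⟨9, 416, 7, 45, 5, 20, 3, 3, 6, 29⟩ :=
  out_sound (S := T5.ds_pp) T5.ok_pp (w := 42) (j := 2) (by decide +kernel)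
theorem L01669 : Good (Phi V5.P V5.D 1 1) ⟨9, 416, 7, 45, 5, 21, 3, 3, 5, 14⟩ :=
  out_sound (S := T5.ds_pp) T5.ok_pp (w := 40) (j := 2) (by decide +kernel)
theorem L01670 : Good (Phi V5.P V5.D 1 1) ⟨9, 416, 7, 45, 4, 10, 2, 1, 5, 15⟩ :=
  out_sound (S := T5.ds_pp) T5.ok_pp (w := 36) (j := 2) (by decide +kernel)
theorem L01671 : Good (Phi V5.P V5.D 1 1) ⟨9, 416, 7, 45, 4, 11, 2, 1, 4, 7⟩ :=
  out_sound (S := T5.ds_pp) T5.ok_pp (w := 34) (j := 2) (by decide +kernel)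
theorem L01672 : Good (Phi V5.P V5.D 1 1) ⟨9, 417, 7, 45, 2, 2, 2, 1, 4, 7⟩ :=
  out_sound (S := T5.ds_pp) T5.ok_pp (w := 89) (j := 3) (by decide +kernel)
theorem L01673 : Good (Phi V5.P V5.D 1 1) ⟨8, 209, 6, 22, 2, 2, 2, 1, 4, 7⟩ :=
  out_sound (S := T5.ds_pp) T5.ok_pp (w := 81) (j := 3) (by decide +kernel)
theorem L01674 : Good (Phi V5.P V5.D 1 1) ⟨7, 104, 6, 23, 3, 4, 3, 2, 4, 7⟩ :=
  out_sound (S := T5.ds_pp) T5.ok_pp (w := 27) (j := 1) (by decide +kernel)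
theorem L01675 : Good (Phi V5.P V5.D 1 1) ⟨7, 104, 6, 23, 4, 8, 3, 3, 5, 14⟩ :=
  out_sound (S := T5.ds_pp) T5.ok_pp (w := 31) (j := 1) (by decide +kernel)
theorem L01676 : Good (Phi V5.P V5.D 1 1) ⟨7, 104, 6, 23, 4, 9, 4, 6, 5, 14⟩ :=
  out_sound (S := T5.ds_pp) T5.ok_pp (w := 32) (j := 1) (by decide +kernel)
theorem L01677 : Good (Phi V5.P V5.D 1 1) ⟨7, 104, 6, 23, 5, 18, 4, 7, 6, 28⟩ :=
  leafX_sound T5.ok_pp T5.Ypp.bz_eq (w := 302) (c := ⟨⟨.negSucc 2233, .negSucc 24, .negSucc 0, .negSucc 0, .negSucc 74, .ofNat 1⟩, ⟨.negSucc 1059, .negSucc 30, .negSucc 14, .ofNat 0, .negSucc 38, .ofNat 1⟩, ⟨.ofNat 1485, .ofNat 10, .negSucc 23, .ofNat 1, .ofNat 60, .negSucc 0⟩, ⟨.negSucc 3247, .negSucc 1, .ofNat 3, .negSucc 0, .negSucc 89, .ofNat 2⟩, ⟨.negSucc 442, .negSucc 1, .negSucc 1, .ofNat 0, .negSucc 52, .ofNat 0⟩, .ofNat 163, .negSucc 40, .ofNat 0, .negSucc 40,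 .ofNat 221, .ofNat 0, .ofNat 153, .ofNat 43, .negSucc 8, .ofNat 0, .ofNat 128, .negSucc 6, .ofNat 0, .ofNat 0, .ofNat 465, .ofNat 5855024, .ofNat 0, .ofNat 0, .ofNat 0, .ofNat 0, .ofNat 814715140673831633756155823243226273378191010877572342277782634496, .ofNat 3532928359028759919226529400109753097433862797158853741039845376, .ofNat 0, .ofNat 0, .ofNat 385377031950023732366492296169070580565887180127264369829453234176, .ofNat 0, .ofNat 0, .ofNat 0, .ofNat 744395499568909668795027205330363482861955218206422762518680174592, .ofNat 645711582235934342105007022615848628584352775058767469439090688, .ofNat 0, .ofNat 0⟩)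
    (by decide +kernel)
theorem L01678 : Good (Phi V5.P V5.D 1 1) ⟨7, 104, 6, 23, 5, 19, 6, 28, 7, 56⟩ :=
  out_sound (S := T5.ds_pp) T5.ok_pp (w := 40) (j := 1) (by decide +kernel)
theorem L01679 : Good (Phi V5.P V5.D 1 1) ⟨7, 104, 6, 23, 6, 38, 6, 29, 7, 56⟩ :=
  out_sound (S := T5.ds_pp) T5.ok_pp (w := 42) (j := 1) (by decide +kernel)
theorem L01680 : Good (Phi V5.P V5.D 1 1) ⟨7, 104, 6, 23, 6, 39, 6, 29, 7, 56⟩ :=
  out_sound (S := T5.ds_pp) T5.ok_pp (w := 52) (j := 2) (by decide +kernel)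
theorem L01681 : Good (Phi V5.P V5.D 1 1) ⟨7, 104, 6, 23, 5, 19, 5, 14, 7, 57⟩ :=
  out_sound (S := T5.ds_pp) T5.ok_pp (w := 39) (j := 1) (by decide +kernel)
theorem L01682 : Good (Phi V5.P V5.D 1 1) ⟨7, 104, 6, 23, 7, 76, 6, 30, 7, 56⟩ :=
  out_sound (S := T5.ds_pp) T5.ok_pp (w := 44) (j := 1) (by decide +kernel)
theorem L01683 : Good (Phi V5.P V5.D 1 1) ⟨7, 104, 6, 23, 8, 152, 8, 124, 9, 224⟩ :=
  out_sound (S := T5.ds_pp) T5.ok_pp (w := 52) (j := 1) (by decide +kernel)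
theorem L01684 : Good (Phi V5.P V5.D 1 1) ⟨7, 104, 6, 23, 8, 152, 9, 250, 10, 448⟩ :=
  out_sound (S := T5.ds_pp) T5.ok_pp (w := 55) (j := 1) (by decide +kernel)
theorem L01685 : Good (Phi V5.P V5.D 1 1) ⟨7, 104, 6, 23, 9, 304, 9, 251, 10, 448⟩ :=
  out_sound (S := T5.ds_pp) T5.ok_pp (w := 57) (j := 1) (by decide +kernel)
theorem L01686 : Good (Phi V5.P V5.D 1 1) ⟨7, 104, 6, 23, 9, 305, 9, 251, 10, 448⟩ :=
  out_sound (S := T5.ds_pp) T5.ok_pp (w := 70) (j := 2) (by decide +kernel)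
theorem L01687 : Good (Phi V5.P V5.D 1 1) ⟨7, 104, 6, 23, 8, 152, 8, 125, 10, 449⟩ :=
  out_sound (S := T5.ds_pp) T5.ok_pp (w := 54) (j := 1) (by decide +kernel)
theorem L01688 : Good (Phi V5.P V5.D 1 1) ⟨7, 104, 6, 23, 8, 152, 7, 62, 9, 225⟩ :=
  out_sound (S := T5.ds_pp) T5.ok_pp (w := 51) (j := 1) (by decide +kernel)
theorem L01689 : Good (Phi V5.P V5.D 1 1) ⟨7, 104, 6, 23, 10, 608, 9, 252, 10, 448⟩ :=
  out_sound (S := T5.ds_pp) T5.ok_pp (w := 59) (j := 1) (by decide +kernel)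
theorem L01690 : Good (Phi V5.P V5.D 1 1) ⟨7, 104, 6, 23, 11, 1216, 10, 506, 11, 896⟩ :=
  out_sound (S := T5.ds_pp) T5.ok_pp (w := 64) (j := 1) (by decide +kernel)
theorem L01691 : Good (Phi V5.P V5.D 1 1) ⟨7, 104, 6, 23, 11, 1216, 10, 507, 11, 896⟩ :=
  out_sound (S := T5.ds_pp) T5.ok_pp (w := 78) (j := 2) (by decide +kernel)
theorem L01692 : Good (Phi V5.P V5.D 1 1) ⟨7, 104, 6, 23, 11, 1217, 9, 253, 11, 896⟩ :=
  out_sound (S := T5.ds_pp) T5.ok_pp (w := 76) (j := 2) (by decide +kernel)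
theorem L01693 : Good (Phi V5.P V5.D 1 1) ⟨7, 104, 6, 23, 10, 608, 9, 253, 11, 897⟩ :=
  out_sound (S := T5.ds_pp) T5.ok_pp (w := 74) (j := 2) (by decide +kernel)
theorem L01694 : Good (Phi V5.P V5.D 1 1) ⟨7, 104, 6, 23, 10, 609, 8, 126, 10, 448⟩ :=
  out_sound (S := T5.ds_pp) T5.ok_pp (w := 70) (j := 2) (by decide +kernel)
theorem L01695 : Good (Phi V5.P V5.D 1 1) ⟨7, 104, 6, 23, 9, 304, 8, 126, 10, 449⟩ :=
  out_sound (S := T5.ds_pp) T5.ok_pp (w := 56) (j := 1) (by decide +kernel)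
theorem L01696 : Good (Phi V5.P V5.D 1 1) ⟨7, 104, 6, 23, 9, 304, 8, 127, 9, 224⟩ :=
  out_sound (S := T5.ds_pp) T5.ok_pp (w := 66) (j := 2) (by decide +kernel)
theorem L01697 : Good (Phi V5.P V5.D 1 1) ⟨7, 104, 6, 23, 9, 305, 7, 63, 9, 224⟩ :=
  out_sound (S := T5.ds_pp) T5.ok_pp (w := 64) (j := 2) (by decide +kernel)
theorem L01698 : Good (Phi V5.P V5.D 1 1) ⟨7, 104, 6, 23, 8, 152, 7, 63, 9, 225⟩ :=
  out_sound (S := T5.ds_pp) T5.ok_pp (w := 62) (j := 2) (by decide +kernel)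
theorem L01699 : Good (Phi V5.P V5.D 1 1) ⟨7, 104, 6, 23, 8, 153, 6, 31, 8, 112⟩ :=
  out_sound (S := T5.ds_pp) T5.ok_pp (w := 58) (j := 2) (by decide +kernel)
theorem L01700 : Good (Phi V5.P V5.D 1 1) ⟨7, 104, 6, 23, 7, 76, 6, 31, 8, 113⟩ :=
  out_sound (S := T5.ds_pp) T5.ok_pp (w := 56) (j := 2) (by decide +kernel)
theorem L01701 : Good (Phi V5.P V5.D 1 1) ⟨7, 104, 6, 23, 8, 154, 6, 30, 8, 112⟩ :=
  out_sound (S := T5.ds_pp) T5.ok_pp (w := 48) (j := 1) (by decide +kernel)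
theorem L01702 : Good (Phi V5.P V5.D 1 1) ⟨7, 104, 6, 23, 8, 155, 6, 30, 8, 112⟩ :=
  out_sound (S := T5.ds_pp) T5.ok_pp (w := 58) (j := 2) (by decide +kernel)
theorem L01703 : Good (Phi V5.P V5.D 1 1) ⟨7, 104, 6, 23, 7, 77, 6, 30, 8, 113⟩ :=
  out_sound (S := T5.ds_pp) T5.ok_pp (w := 46) (j := 1) (by decide +kernel)
theorem L01704 : Good (Phi V5.P V5.D 1 1) ⟨7, 104, 6, 23, 7, 77, 6, 31, 7, 56⟩ :=
  out_sound (S := T5.ds_pp) T5.ok_pp (w := 54) (j := 2) (by decide +kernel)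
theorem L01705 : Good (Phi V5.P V5.D 1 1) ⟨7, 104, 6, 23, 6, 38, 5, 15, 7, 57⟩ :=
  out_sound (S := T5.ds_pp) T5.ok_pp (w := 50) (j := 2) (by decide +kernel)
theorem L01706 : Good (Phi V5.P V5.D 1 1) ⟨7, 104, 6, 23, 6, 39, 5, 15, 6, 28⟩ :=
  out_sound (S := T5.ds_pp) T5.ok_pp (w := 48) (j := 2) (by decide +kernel)
theorem L01707 : Good (Phi V5.P V5.D 1 1) ⟨7, 104, 6, 23, 4, 9, 4, 7, 6, 29⟩ :=
  out_sound (S := T5.ds_pp) T5.ok_pp (w := 34) (j := 1) (by decide +kernel)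
theorem L01708 : Good (Phi V5.P V5.D 1 1) ⟨7, 104, 6, 23, 3, 4, 3, 3, 5, 15⟩ :=
  out_sound (S := T5.ds_pp) T5.ok_pp (w := 29) (j := 1) (by decide +kernel)
theorem L01709 : Good (Phi V5.P V5.D 1 1) ⟨7, 104, 6, 23, 4, 10, 3, 2, 5, 14⟩ :=
  out_sound (S := T5.ds_pp) T5.ok_pp (w := 31) (j := 1) (by decide +kernel)
theorem L01710 : Good (Phi V5.P V5.D 1 1) ⟨7, 104, 6, 23, 5, 20, 5, 12, 6, 28⟩ :=
  out_sound (S := T5.ds_pp) T5.ok_pp (w := 37) (j := 1) (by decide +kernel)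
theorem L01711 : Good (Phi V5.P V5.D 1 1) ⟨7, 104, 6, 23, 5, 20, 5, 13, 6, 28⟩ :=
  out_sound (S := T5.ds_pp) T5.ok_pp (w := 46) (j := 2) (by decide +kernel)
theorem L01712 : Good (Phi V5.P V5.D 1 1) ⟨7, 104, 6, 23, 5, 20, 4, 7, 6, 28⟩ :=
  out_sound (S := T5.ds_pp) T5.ok_pp (w := 44) (j := 2) (by decide +kernel)
theorem L01713 : Good (Phi V5.P V5.D 1 1) ⟨7, 104, 6, 23, 5, 20, 3, 3, 6, 29⟩ :=
  out_sound (S := T5.ds_pp) T5.ok_pp (w := 42) (j := 2) (by decide +kernel)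
theorem L01714 : Good (Phi V5.P V5.D 1 1) ⟨7, 104, 6, 23, 5, 21, 3, 3, 5, 14⟩ :=
  out_sound (S := T5.ds_pp) T5.ok_pp (w := 40) (j := 2) (by decide +kernel)
theorem L01715 : Good (Phi V5.P V5.D 1 1) ⟨7, 104, 6, 23, 4, 10, 2, 1, 5, 15⟩ :=
  out_sound (S := T5.ds_pp) T5.ok_pp (w := 36) (j := 2) (by decide +kernel)
theorem L01716 : Good (Phi V5.P V5.D 1 1) ⟨7, 104, 6, 23, 4, 11, 2, 1, 4, 7⟩ :=
  out_sound (S := T5.ds_pp) T5.ok_pp (w := 34) (j := 2) (by decide +kernel)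
theorem L01717 : Good (Phi V5.P V5.D 1 1) ⟨7, 104, 5, 11, 2, 3, 1, 0, 4, 7⟩ :=
  out_sound (S := T5.ds_pp) T5.ok_pp (w := 28) (j := 2) (by decide +kernel)
theorem L01718 : Good (Phi V5.P V5.D 1 1) ⟨7, 105, 5, 11, 1, 1, 1, 0, 4, 7⟩ :=
  out_sound (S := T5.ds_pp) T5.ok_pp (w := 73) (j := 3) (by decide +kernel)
theorem L01719 : Good (Phi V5.P V5.D 1 1) ⟨6, 53, 4, 5, 1, 1, 1, 0, 4, 7⟩ :=
  out_sound (S := T5.ds_pp) T5.ok_pp (w := 65) (j := 3) (by decide +kernel)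
theorem L01720 : Good (Phi V5.P V5.D 1 1) ⟨5, 27, 3, 2, 1, 1, 1, 0, 4, 7⟩ :=
  out_sound (S := T5.ds_pp) T5.ok_pp (w := 57) (j := 3) (by decide +kernel)
theorem L01721 : Good (Phi V5.P V5.D 1 1) ⟨5, 24, 4, 6, 1, 1, 1, 0, 4, 7⟩ :=
  out_sound (S := T5.ds_pp) T5.ok_pp (w := 59) (j := 3) (by decide +kernel)
theorem L01722 : Good (Phi V5.P V5.D 1 1) ⟨5, 25, 5, 12, 2, 2, 2, 0, 4, 7⟩ :=
  out_sound (S := T5.ds_pp) T5.ok_pp (w := 24) (j := 1) (by decide +kernel)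
theorem L01723 : Good (Phi V5.P V5.D 1 1) ⟨5, 25, 5, 12, 3, 4, 3, 2, 4, 7⟩ :=
  out_sound (S := T5.ds_pp) T5.ok_pp (w := 27) (j := 1) (by decide +kernel)
theorem L01724 : Good (Phi V5.P V5.D 1 1) ⟨5, 25, 5, 12, 4, 8, 3, 3, 5, 14⟩ :=
  out_sound (S := T5.ds_pp) T5.ok_pp (w := 31) (j := 1) (by decide +kernel)
theorem L01725 : Good (Phi V5.P V5.D 1 1) ⟨5, 25, 5, 12, 4, 9, 4, 6, 5, 14⟩ :=
  out_sound (S := T5.ds_pp) T5.ok_pp (w := 32) (j := 1) (by decide +kernel)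
theorem L01726 : Good (Phi V5.P V5.D 1 1) ⟨5, 25, 5, 12, 5, 18, 4, 7, 6, 28⟩ :=
  leafX_sound T5.ok_pp T5.Ypp.bz_eq (w := 291) (c := ⟨⟨.negSucc 2140, .negSucc 98, .negSucc 1, .negSucc 0, .negSucc 68, .ofNat 1⟩, ⟨.negSucc 956, .negSucc 116, .negSucc 27, .ofNat 0, .negSucc 39, .ofNat 1⟩, ⟨.ofNat 1442, .ofNat 39, .negSucc 46, .ofNat 1, .ofNat 40, .negSucc 0⟩, ⟨.negSucc 3242, .negSucc 8, .ofNat 7, .negSucc 0, .negSucc 81, .ofNat 2⟩, ⟨.negSucc 443, .negSucc 7, .negSucc 2, .ofNat 0, .negSucc 45, .ofNat 0⟩, .ofNat 164, .negSucc 40, .ofNat 0, .negSucc 40, .ofNat 228, .ofNat 0, .ofNat 155, .ofNat 44, .negSucc 9, .ofNat 0, .ofNat 128, .negSucc 5, .ofNat 0, .ofNat 0, .ofNat 476, .ofNat 5591859, .ofNat 0, .ofNat 0, .ofNat 0, .ofNat 0, .ofNat 373363613146320500632698673190214516972075549709001868443648000, .ofNat 1571196784966489810169665454105772479900398243340490253533184,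 .ofNat 0, .ofNat 0, .ofNat 202416185331681556437507377541349090743708905790291602399297536, .ofNat 0, .ofNat 34410104838270921373288812546724968458939213138590957568, .ofNat 0, .ofNat 376983268682204272279422872078187476435681292362616766541594624, .ofNat 403978837409413429084798266365530531826896337508869427167232, .ofNat 0, .ofNat 0⟩)
    (by decide +kernel)
theorem L01727 : Good (Phi V5.P V5.D 1 1) ⟨5, 25, 5, 12, 5, 19, 6, 28, 7, 56⟩ :=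
  out_sound (S := T5.ds_pp) T5.ok_pp (w := 40) (j := 1) (by decide +kernel)
theorem L01728 : Good (Phi V5.P V5.D 1 1) ⟨5, 25, 5, 12, 6, 38, 6, 29, 7, 56⟩ :=
  out_sound (S := T5.ds_pp) T5.ok_pp (w := 42) (j := 1) (by decide +kernel)
theorem L01729 : Good (Phi V5.P V5.D 1 1) ⟨5, 25, 5, 12, 6, 39, 6, 29, 7, 56⟩ :=
  out_sound (S := T5.ds_pp) T5.ok_pp (w := 52) (j := 2) (by decide +kernel)
theorem L01730 : Good (Phi V5.P V5.D 1 1) ⟨5, 25, 5, 12, 5, 19, 5, 14, 7, 57⟩ :=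
  out_sound (S := T5.ds_pp) T5.ok_pp (w := 39) (j := 1) (by decide +kernel)
theorem L01731 : Good (Phi V5.P V5.D 1 1) ⟨5, 25, 5, 12, 7, 76, 6, 30, 7, 56⟩ :=
  out_sound (S := T5.ds_pp) T5.ok_pp (w := 44) (j := 1) (by decide +kernel)
theorem L01732 : Good (Phi V5.P V5.D 1 1) ⟨5, 25, 5, 12, 8, 152, 8, 124, 9, 224⟩ :=
  out_sound (S := T5.ds_pp) T5.ok_pp (w := 52) (j := 1) (by decide +kernel)
theorem L01733 : Good (Phi V5.P V5.D 1 1) ⟨5, 25, 5, 12, 8, 152, 9, 250, 10, 448⟩ :=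
  out_sound (S := T5.ds_pp) T5.ok_pp (w := 55) (j := 1) (by decide +kernel)
theorem L01734 : Good (Phi V5.P V5.D 1 1) ⟨5, 25, 5, 12, 9, 304, 9, 251, 10, 448⟩ :=
  out_sound (S := T5.ds_pp) T5.ok_pp (w := 57) (j := 1) (by decide +kernel)
theorem L01735 : Good (Phi V5.P V5.D 1 1) ⟨5, 25, 5, 12, 9, 305, 9, 251, 10, 448⟩ :=
  out_sound (S := T5.ds_pp) T5.ok_pp (w := 70) (j := 2) (by decide +kernel)
theorem L01736 : Good (Phi V5.P V5.D 1 1) ⟨5, 25, 5, 12, 8, 152, 8, 125, 10, 449⟩ :=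
  out_sound (S := T5.ds_pp) T5.ok_pp (w := 54) (j := 1) (by decide +kernel)
theorem L01737 : Good (Phi V5.P V5.D 1 1) ⟨5, 25, 5, 12, 8, 152, 7, 62, 9, 225⟩ :=
  out_sound (S := T5.ds_pp) T5.ok_pp (w := 51) (j := 1) (by decide +kernel)
theorem L01738 : Good (Phi V5.P V5.D 1 1) ⟨5, 25, 5, 12, 10, 608, 9, 252, 10, 448⟩ :=
  out_sound (S := T5.ds_pp) T5.ok_pp (w := 59) (j := 1) (by decide +kernel)
theorem L01739 : Good (Phi V5.P V5.D 1 1) ⟨5, 25, 5, 12, 11, 1216, 10, 506, 11, 896⟩ :=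
  out_sound (S := T5.ds_pp) T5.ok_pp (w := 64) (j := 1) (by decide +kernel)
theorem L01740 : Good (Phi V5.P V5.D 1 1) ⟨5, 25, 5, 12, 11, 1216, 10, 507, 11, 896⟩ :=
  out_sound (S := T5.ds_pp) T5.ok_pp (w := 78) (j := 2) (by decide +kernel)
theorem L01741 : Good (Phi V5.P V5.D 1 1) ⟨5, 25, 5, 12, 11, 1217, 9, 253, 11, 896⟩ :=
  out_sound (S := T5.ds_pp) T5.ok_pp (w := 76) (j := 2) (by decide +kernel)
theorem L01742 : Good (Phi V5.P V5.D 1 1) ⟨5, 25, 5, 12, 10, 608, 9, 253, 11, 897⟩ :=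
  out_sound (S := T5.ds_pp) T5.ok_pp (w := 74) (j := 2) (by decide +kernel)
theorem L01743 : Good (Phi V5.P V5.D 1 1) ⟨5, 25, 5, 12, 10, 609, 8, 126, 10, 448⟩ :=
  out_sound (S := T5.ds_pp) T5.ok_pp (w := 70) (j := 2) (by decide +kernel)
theorem L01744 : Good (Phi V5.P V5.D 1 1) ⟨5, 25, 5, 12, 9, 304, 8, 126, 10, 449⟩ :=
  out_sound (S := T5.ds_pp) T5.ok_pp (w := 56) (j := 1) (by decide +kernel)
theorem L01745 : Good (Phi V5.P V5.D 1 1) ⟨5, 25, 5, 12, 9, 304, 8, 127, 9, 224⟩ :=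
  out_sound (S := T5.ds_pp) T5.ok_pp (w := 66) (j := 2) (by decide +kernel)
theorem L01746 : Good (Phi V5.P V5.D 1 1) ⟨5, 25, 5, 12, 9, 305, 7, 63, 9, 224⟩ :=
  out_sound (S := T5.ds_pp) T5.ok_pp (w := 64) (j := 2) (by decide +kernel)
theorem L01747 : Good (Phi V5.P V5.D 1 1) ⟨5, 25, 5, 12, 8, 152, 7, 63, 9, 225⟩ :=
  out_sound (S := T5.ds_pp) T5.ok_pp (w := 62) (j := 2) (by decide +kernel)
theorem L01748 : Good (Phi V5.P V5.D 1 1) ⟨5, 25, 5, 12, 8, 153, 6, 31, 8, 112⟩ :=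
  out_sound (S := T5.ds_pp) T5.ok_pp (w := 58) (j := 2) (by decide +kernel)
theorem L01749 : Good (Phi V5.P V5.D 1 1) ⟨5, 25, 5, 12, 7, 76, 6, 31, 8, 113⟩ :=
  out_sound (S := T5.ds_pp) T5.ok_pp (w := 56) (j := 2) (by decide +kernel)
theorem L01750 : Good (Phi V5.P V5.D 1 1) ⟨5, 25, 5, 12, 8, 154, 6, 30, 8, 112⟩ :=
  out_sound (S := T5.ds_pp) T5.ok_pp (w := 48) (j := 1) (by decide +kernel)
theorem L01751 : Good (Phi V5.P V5.D 1 1) ⟨5, 25, 5, 12, 8, 155, 6, 30, 8, 112⟩ :=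
  out_sound (S := T5.ds_pp) T5.ok_pp (w := 58) (j := 2) (by decide +kernel)
theorem L01752 : Good (Phi V5.P V5.D 1 1) ⟨5, 25, 5, 12, 7, 77, 6, 30, 8, 113⟩ :=
  out_sound (S := T5.ds_pp) T5.ok_pp (w := 46) (j := 1) (by decide +kernel)
theorem L01753 : Good (Phi V5.P V5.D 1 1) ⟨5, 25, 5, 12, 7, 77, 6, 31, 7, 56⟩ :=
  out_sound (S := T5.ds_pp) T5.ok_pp (w := 54) (j := 2) (by decide +kernel)
theorem L01754 : Good (Phi V5.P V5.D 1 1) ⟨5, 25, 5, 12, 6, 38, 5, 15, 7, 57⟩ :=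
  out_sound (S := T5.ds_pp) T5.ok_pp (w := 50) (j := 2) (by decide +kernel)
theorem L01755 : Good (Phi V5.P V5.D 1 1) ⟨5, 25, 5, 12, 6, 39, 5, 15, 6, 28⟩ :=
  out_sound (S := T5.ds_pp) T5.ok_pp (w := 48) (j := 2) (by decide +kernel)
theorem L01756 : Good (Phi V5.P V5.D 1 1) ⟨5, 25, 5, 12, 4, 9, 4, 7, 6, 29⟩ :=
  out_sound (S := T5.ds_pp) T5.ok_pp (w := 34) (j := 1) (by decide +kernel)
theorem L01757 : Good (Phi V5.P V5.D 1 1) ⟨5, 25, 5, 12, 3, 4, 3, 3, 5, 15⟩ :=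
  out_sound (S := T5.ds_pp) T5.ok_pp (w := 29) (j := 1) (by decide +kernel)
theorem L01758 : Good (Phi V5.P V5.D 1 1) ⟨5, 25, 5, 12, 4, 10, 3, 2, 5, 14⟩ :=
  out_sound (S := T5.ds_pp) T5.ok_pp (w := 31) (j := 1) (by decide +kernel)
theorem L01759 : Good (Phi V5.P V5.D 1 1) ⟨5, 25, 5, 12, 5, 20, 5, 12, 6, 28⟩ :=
  out_sound (S := T5.ds_pp) T5.ok_pp (w := 37) (j := 1) (by decide +kernel)
theorem L01760 : Good (Phi V5.P V5.D 1 1) ⟨5, 25, 5, 12, 5, 20, 5, 13, 6, 28⟩ :=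
  out_sound (S := T5.ds_pp) T5.ok_pp (w := 46) (j := 2) (by decide +kernel)
theorem L01761 : Good (Phi V5.P V5.D 1 1) ⟨5, 25, 5, 12, 5, 20, 4, 7, 6, 28⟩ :=
  out_sound (S := T5.ds_pp) T5.ok_pp (w := 44) (j := 2) (by decide +kernel)
theorem L01762 : Good (Phi V5.P V5.D 1 1) ⟨5, 25, 5, 12, 5, 20, 3, 3, 6, 29⟩ :=
  out_sound (S := T5.ds_pp) T5.ok_pp (w := 42) (j := 2) (by decide +kernel)
theorem L01763 : Good (Phi V5.P V5.D 1 1) ⟨5, 25, 5, 12, 5, 21, 3, 3, 5, 14⟩ :=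
  out_sound (S := T5.ds_pp) T5.ok_pp (w := 40) (j := 2) (by decide +kernel)
theorem L01764 : Good (Phi V5.P V5.D 1 1) ⟨5, 25, 5, 12, 4, 10, 2, 1, 5, 15⟩ :=
  out_sound (S := T5.ds_pp) T5.ok_pp (w := 36) (j := 2) (by decide +kernel)
theorem L01765 : Good (Phi V5.P V5.D 1 1) ⟨5, 25, 5, 12, 4, 11, 2, 1, 4, 7⟩ :=
  out_sound (S := T5.ds_pp) T5.ok_pp (w := 34) (j := 2) (by decide +kernel)
theorem L01766 : Good (Phi V5.P V5.D 1 1) ⟨5, 25, 5, 12, 2, 3, 1, 0, 4, 7⟩ :=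
  out_sound (S := T5.ds_pp) T5.ok_pp (w := 28) (j := 2) (by decide +kernel)
theorem L01767 : Good (Phi V5.P V5.D 1 1) ⟨6, 50, 5, 13, 1, 1, 1, 0, 4, 7⟩ :=
  out_sound (S := T5.ds_pp) T5.ok_pp (w := 67) (j := 3) (by decide +kernel)
theorem L01768 : Good (Phi V5.P V5.D 1 1) ⟨6, 51, 5, 13, 2, 2, 2, 0, 4, 7⟩ :=
  out_sound (S := T5.ds_pp) T5.ok_pp (w := 24) (j := 1) (by decide +kernel)
theorem L01769 : Good (Phi V5.P V5.D 1 1) ⟨6, 51, 5, 13, 3, 4, 3, 2, 4, 7⟩ :=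
  out_sound (S := T5.ds_pp) T5.ok_pp (w := 27) (j := 1) (by decide +kernel)
theorem L01770 : Good (Phi V5.P V5.D 1 1) ⟨6, 51, 5, 13, 4, 8, 3, 3, 5, 14⟩ :=
  out_sound (S := T5.ds_pp) T5.ok_pp (w := 31) (j := 1) (by decide +kernel)
theorem L01771 : Good (Phi V5.P V5.D 1 1) ⟨6, 51, 5, 13, 4, 9, 4, 6, 5, 14⟩ :=
  out_sound (S := T5.ds_pp) T5.ok_pp (w := 32) (j := 1) (by decide +kernel)
theorem L01772 : Good (Phi V5.P V5.D 1 1) ⟨6, 51, 5, 13, 5, 18, 4, 7, 6, 28⟩ :=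
  leafX_sound T5.ok_pp T5.Ypp.bz_eq (w := 295) (c := ⟨⟨.negSucc 2192, .negSucc 49, .negSucc 1, .negSucc 0, .negSucc 68, .ofNat 1⟩, ⟨.negSucc 1045, .negSucc 59, .negSucc 28, .ofNat 0, .negSucc 36, .ofNat 1⟩, ⟨.ofNat 1418, .ofNat 19, .negSucc 45, .ofNat 1, .ofNat 36, .negSucc 0⟩, ⟨.negSucc 3240, .negSucc 3, .ofNat 7, .negSucc 0, .negSucc 81, .ofNat 2⟩, ⟨.negSucc 450, .negSucc 3, .negSucc 3, .ofNat 0, .negSucc 45, .ofNat 0⟩, .ofNat 164, .negSucc 42, .ofNat 0, .negSucc 42, .ofNat 228, .ofNat 0, .ofNat 155, .ofNat 46, .negSucc 10, .ofNat 0, .ofNat 128, .negSucc 5, .ofNat 0, .ofNat 0, .ofNat 474, .ofNat 5448268, .ofNat 0, .ofNat 0, .ofNat 0, .ofNat 0, .ofNat 5828337469334011320842997691030108018414373056897694225519345664, .ofNat 24322978085843189436347196564275304036862756255191190606970880, .ofNat 0, .ofNat 0, .ofNat 3026278438715613804980775915201860257019682138234241897749020672,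 .ofNat 0, .ofNat 3550523964515076144122359484607916629450813760455311360, .ofNat 0, .ofNat 6285789326697776397804133994648671276471895314622146647039148032, .ofNat 6805809897975936669317386320605478859534232517361608257699840, .ofNat 0, .ofNat 0⟩)
    (by decide +kernel)
theorem L01773 : Good (Phi V5.P V5.D 1 1) ⟨6, 51, 5, 13, 5, 19, 6, 28, 7, 56⟩ :=
  out_sound (S := T5.ds_pp) T5.ok_pp (w := 40) (j := 1) (by decide +kernel)
theorem L01774 : Good (Phi V5.P V5.D 1 1) ⟨6, 51, 5, 13, 6, 38, 6, 29, 7, 56⟩ :=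
  out_sound (S := T5.ds_pp) T5.ok_pp (w := 42) (j := 1) (by decide +kernel)
theorem L01775 : Good (Phi V5.P V5.D 1 1) ⟨6, 51, 5, 13, 6, 39, 6, 29, 7, 56⟩ :=
  out_sound (S := T5.ds_pp) T5.ok_pp (w := 52) (j := 2) (by decide +kernel)
theorem L01776 : Good (Phi V5.P V5.D 1 1) ⟨6, 51, 5, 13, 5, 19, 5, 14, 7, 57⟩ :=
  out_sound (S := T5.ds_pp) T5.ok_pp (w := 39) (j := 1) (by decide +kernel)
theorem L01777 : Good (Phi V5.P V5.D 1 1) ⟨6, 51, 5, 13, 7, 76, 6, 30, 7, 56⟩ :=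
  out_sound (S := T5.ds_pp) T5.ok_pp (w := 44) (j := 1) (by decide +kernel)
theorem L01778 : Good (Phi V5.P V5.D 1 1) ⟨6, 51, 5, 13, 8, 152, 8, 124, 9, 224⟩ :=
  out_sound (S := T5.ds_pp) T5.ok_pp (w := 52) (j := 1) (by decide +kernel)
theorem L01779 : Good (Phi V5.P V5.D 1 1) ⟨6, 51, 5, 13, 8, 152, 9, 250, 10, 448⟩ :=
  out_sound (S := T5.ds_pp) T5.ok_pp (w := 55) (j := 1) (by decide +kernel)
theorem L01780 : Good (Phi V5.P V5.D 1 1) ⟨6, 51, 5, 13, 9, 304, 9, 251, 10, 448⟩ :=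
  out_sound (S := T5.ds_pp) T5.ok_pp (w := 57) (j := 1) (by decide +kernel)
theorem L01781 : Good (Phi V5.P V5.D 1 1) ⟨6, 51, 5, 13, 9, 305, 9, 251, 10, 448⟩ :=
  out_sound (S := T5.ds_pp) T5.ok_pp (w := 70) (j := 2) (by decide +kernel)
theorem L01782 : Good (Phi V5.P V5.D 1 1) ⟨6, 51, 5, 13, 8, 152, 8, 125, 10, 449⟩ :=
  out_sound (S := T5.ds_pp) T5.ok_pp (w := 54) (j := 1) (by decide +kernel)
theorem L01783 : Good (Phi V5.P V5.D 1 1) ⟨6, 51, 5, 13, 8, 152, 7, 62, 9, 225⟩ :=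
  out_sound (S := T5.ds_pp) T5.ok_pp (w := 51) (j := 1) (by decide +kernel)
theorem L01784 : Good (Phi V5.P V5.D 1 1) ⟨6, 51, 5, 13, 10, 608, 9, 252, 10, 448⟩ :=
  out_sound (S := T5.ds_pp) T5.ok_pp (w := 59) (j := 1) (by decide +kernel)
theorem L01785 : Good (Phi V5.P V5.D 1 1) ⟨6, 51, 5, 13, 11, 1216, 10, 506, 11, 896⟩ :=
  out_sound (S := T5.ds_pp) T5.ok_pp (w := 64) (j := 1) (by decide +kernel)
theorem L01786 : Good (Phi V5.P V5.D 1 1) ⟨6, 51, 5, 13, 11, 1216, 10, 507, 11, 896⟩ :=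
  out_sound (S := T5.ds_pp) T5.ok_pp (w := 78) (j := 2) (by decide +kernel)
theorem L01787 : Good (Phi V5.P V5.D 1 1) ⟨6, 51, 5, 13, 11, 1217, 9, 253, 11, 896⟩ :=
  out_sound (S := T5.ds_pp) T5.ok_pp (w := 76) (j := 2) (by decide +kernel)
theorem L01788 : Good (Phi V5.P V5.D 1 1) ⟨6, 51, 5, 13, 10, 608, 9, 253, 11, 897⟩ :=
  out_sound (S := T5.ds_pp) T5.ok_pp (w := 74) (j := 2) (by decide +kernel)
theorem L01789 : Good (Phi V5.P V5.D 1 1) ⟨6, 51, 5, 13, 10, 609, 8, 126, 10, 448⟩ :=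
  out_sound (S := T5.ds_pp) T5.ok_pp (w := 70) (j := 2) (by decide +kernel)
theorem L01790 : Good (Phi V5.P V5.D 1 1) ⟨6, 51, 5, 13, 9, 304, 8, 126, 10, 449⟩ :=
  out_sound (S := T5.ds_pp) T5.ok_pp (w := 56) (j := 1) (by decide +kernel)
theorem L01791 : Good (Phi V5.P V5.D 1 1) ⟨6, 51, 5, 13, 9, 304, 8, 127, 9, 224⟩ :=
  out_sound (S := T5.ds_pp) T5.ok_pp (w := 66) (j := 2) (by decide +kernel)
theorem L01792 : Good (Phi V5.P V5.D 1 1) ⟨6, 51, 5, 13, 9, 305, 7, 63, 9, 224⟩ :=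
  out_sound (S := T5.ds_pp) T5.ok_pp (w := 64) (j := 2) (by decide +kernel)
theorem L01793 : Good (Phi V5.P V5.D 1 1) ⟨6, 51, 5, 13, 8, 152, 7, 63, 9, 225⟩ :=
  out_sound (S := T5.ds_pp) T5.ok_pp (w := 62) (j := 2) (by decide +kernel)
theorem L01794 : Good (Phi V5.P V5.D 1 1) ⟨6, 51, 5, 13, 8, 153, 6, 31, 8, 112⟩ :=
  out_sound (S := T5.ds_pp) T5.ok_pp (w := 58) (j := 2) (by decide +kernel)
theorem L01795 : Good (Phi V5.P V5.D 1 1) ⟨6, 51, 5, 13, 7, 76, 6, 31, 8, 113⟩ :=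
  out_sound (S := T5.ds_pp) T5.ok_pp (w := 56) (j := 2) (by decide +kernel)
theorem L01796 : Good (Phi V5.P V5.D 1 1) ⟨6, 51, 5, 13, 8, 154, 6, 30, 8, 112⟩ :=
  out_sound (S := T5.ds_pp) T5.ok_pp (w := 48) (j := 1) (by decide +kernel)
theorem L01797 : Good (Phi V5.P V5.D 1 1) ⟨6, 51, 5, 13, 8, 155, 6, 30, 8, 112⟩ :=
  out_sound (S := T5.ds_pp) T5.ok_pp (w := 58) (j := 2) (by decide +kernel)
theorem L01798 : Good (Phi V5.P V5.D 1 1) ⟨6, 51, 5, 13, 7, 77, 6, 30, 8, 113⟩ :=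
  out_sound (S := T5.ds_pp) T5.ok_pp (w := 46) (j := 1) (by decide +kernel)
theorem L01799 : Good (Phi V5.P V5.D 1 1) ⟨6, 51, 5, 13, 7, 77, 6, 31, 7, 56⟩ :=
  out_sound (S := T5.ds_pp) T5.ok_pp (w := 54) (j := 2) (by decide +kernel)
theorem L01800 : Good (Phi V5.P V5.D 1 1) ⟨6, 51, 5, 13, 6, 38, 5, 15, 7, 57⟩ :=
  out_sound (S := T5.ds_pp) T5.ok_pp (w := 50) (j := 2) (by decide +kernel)
theorem L01801 : Good (Phi V5.P V5.D 1 1) ⟨6, 51, 5, 13, 6, 39, 5, 15, 6, 28⟩ :=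
  out_sound (S := T5.ds_pp) T5.ok_pp (w := 48) (j := 2) (by decide +kernel)
theorem L01802 : Good (Phi V5.P V5.D 1 1) ⟨6, 51, 5, 13, 4, 9, 4, 7, 6, 29⟩ :=
  out_sound (S := T5.ds_pp) T5.ok_pp (w := 34) (j := 1) (by decide +kernel)
theorem L01803 : Good (Phi V5.P V5.D 1 1) ⟨6, 51, 5, 13, 3, 4, 3, 3, 5, 15⟩ :=
  out_sound (S := T5.ds_pp) T5.ok_pp (w := 29) (j := 1) (by decide +kernel)
theorem L01804 : Good (Phi V5.P V5.D 1 1) ⟨6, 51, 5, 13, 4, 10, 3, 2, 5, 14⟩ :=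
  out_sound (S := T5.ds_pp) T5.ok_pp (w := 31) (j := 1) (by decide +kernel)
theorem L01805 : Good (Phi V5.P V5.D 1 1) ⟨6, 51, 5, 13, 5, 20, 5, 12, 6, 28⟩ :=
  out_sound (S := T5.ds_pp) T5.ok_pp (w := 37) (j := 1) (by decide +kernel)
theorem L01806 : Good (Phi V5.P V5.D 1 1) ⟨6, 51, 5, 13, 5, 20, 5, 13, 6, 28⟩ :=
  out_sound (S := T5.ds_pp) T5.ok_pp (w := 46) (j := 2) (by decide +kernel)
theorem L01807 : Good (Phi V5.P V5.D 1 1) ⟨6, 51, 5, 13, 5, 20, 4, 7, 6, 28⟩ :=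
  out_sound (S := T5.ds_pp) T5.ok_pp (w := 44) (j := 2) (by decide +kernel)
theorem L01808 : Good (Phi V5.P V5.D 1 1) ⟨6, 51, 5, 13, 5, 20, 3, 3, 6, 29⟩ :=
  out_sound (S := T5.ds_pp) T5.ok_pp (w := 42) (j := 2) (by decide +kernel)
theorem L01809 : Good (Phi V5.P V5.D 1 1) ⟨6, 51, 5, 13, 5, 21, 3, 3, 5, 14⟩ :=
  out_sound (S := T5.ds_pp) T5.ok_pp (w := 40) (j := 2) (by decide +kernel)
theorem L01810 : Good (Phi V5.P V5.D 1 1) ⟨6, 51, 5, 13, 4, 10, 2, 1, 5, 15⟩ :=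
  out_sound (S := T5.ds_pp) T5.ok_pp (w := 36) (j := 2) (by decide +kernel)
theorem L01811 : Good (Phi V5.P V5.D 1 1) ⟨6, 51, 5, 13, 4, 11, 2, 1, 4, 7⟩ :=
  out_sound (S := T5.ds_pp) T5.ok_pp (w := 34) (j := 2) (by decide +kernel)
theorem L01812 : Good (Phi V5.P V5.D 1 1) ⟨6, 51, 5, 13, 2, 3, 1, 0, 4, 7⟩ :=
  out_sound (S := T5.ds_pp) T5.ok_pp (w := 28) (j := 2) (by decide +kernel)
theorem L01813 : Good (Phi V5.P V5.D 1 1) ⟨5, 24, 4, 7, 1, 1, 1, 0, 4, 7⟩ :=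
  out_sound (S := T5.ds_pp) T5.ok_pp (w := 59) (j := 3) (by decide +kernel)
theorem L01814 : Good (Phi V5.P V5.D 1 1) ⟨6, 50, 5, 14, 1, 1, 1, 0, 4, 7⟩ :=
  out_sound (S := T5.ds_pp) T5.ok_pp (w := 67) (j := 3) (by decide +kernel)
theorem L01815 : Good (Phi V5.P V5.D 1 1) ⟨7, 102, 5, 14, 1, 1, 1, 0, 4, 7⟩ :=
  out_sound (S := T5.ds_pp) T5.ok_pp (w := 73) (j := 3) (by decide +kernel)
theorem L01816 : Good (Phi V5.P V5.D 1 1) ⟨8, 206, 6, 28, 1, 1, 1, 0, 4, 7⟩ :=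
  out_sound (S := T5.ds_pp) T5.ok_pp (w := 81) (j := 3) (by decide +kernel)
theorem L01817 : Good (Phi V5.P V5.D 1 1) ⟨9, 414, 7, 56, 1, 1, 1, 0, 4, 7⟩ :=
  out_sound (S := T5.ds_pp) T5.ok_pp (w := 89) (j := 3) (by decide +kernel)
theorem L01818 : Good (Phi V5.P V5.D 1 1) ⟨10, 830, 8, 112, 1, 1, 1, 0, 4, 7⟩ :=
  out_sound (S := T5.ds_pp) T5.ok_pp (w := 97) (j := 3) (by decide +kernel)
theorem L01819 : Good (Phi V5.P V5.D 1 1) ⟨10, 831, 9, 224, 2, 2, 2, 0, 4, 7⟩ :=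
  out_sound (S := T5.ds_pp) T5.ok_pp (w := 24) (j := 1) (by decide +kernel)
theorem L01820 : Good (Phi V5.P V5.D 1 1) ⟨11, 1662, 9, 224, 2, 2, 2, 1, 4, 7⟩ :=
  out_sound (S := T5.ds_pp) T5.ok_pp (w := 105) (j := 3) (by decide +kernel)
theorem L01821 : Good (Phi V5.P V5.D 1 1) ⟨11, 1663, 9, 224, 3, 4, 3, 2, 4, 7⟩ :=
  out_sound (S := T5.ds_pp) T5.ok_pp (w := 27) (j := 1) (by decide +kernel)
theorem L01822 : Good (Phi V5.P V5.D 1 1) ⟨11, 1663, 9, 224, 4, 8, 3, 3, 5, 14⟩ :=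
  out_sound (S := T5.ds_pp) T5.ok_pp (w := 31) (j := 1) (by decide +kernel)
theorem L01823 : Good (Phi V5.P V5.D 1 1) ⟨11, 1663, 9, 224, 4, 9, 4, 6, 5, 14⟩ :=
  out_sound (S := T5.ds_pp) T5.ok_pp (w := 32) (j := 1) (by decide +kernel)
theorem L01824 : Good (Phi V5.P V5.D 1 1) ⟨11, 1663, 9, 224, 5, 18, 4, 7, 6, 28⟩ :=
  leafX_sound T5.ok_pp T5.Ypp.bz_eq (w := 328) (c := ⟨⟨.negSucc 2245, .negSucc 1, .ofNat 0, .negSucc 0, .negSucc 65, .ofNat 1⟩, ⟨.negSucc 1134, .negSucc 1, .negSucc 1, .ofNat 0, .negSucc 34, .ofNat 1⟩, ⟨.ofNat 1394, .ofNat 0, .negSucc 2, .ofNat 1, .ofNat 32, .negSucc 0⟩, ⟨.negSucc 3254, .ofNat 0, .ofNat 1, .negSucc 0, .negSucc 64, .ofNat 2⟩, ⟨.negSucc 469, .ofNat 0, .ofNat 0, .ofNat 0, .negSucc 33, .ofNat 0⟩, .ofNat 662, .negSucc 737, .ofNat 0, .negSucc 737, .ofNat 1705, .ofNat 0, .ofNat 128, .ofNat 165, .negSucc 13, .ofNat 0, .ofNat 122, .negSucc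 6, .ofNat 0, .ofNat 0, .ofNat 763, .ofNat 8889732, .ofNat 0, .ofNat 0, .ofNat 0, .ofNat 0, .ofNat 34508711806121299516124293482448184688417171470709942516144735406396538880, .ofNat 138589052100989272098532317516142432093701828984148768922487166137794560, .ofNat 0, .ofNat 0, .ofNat 49531345987583776288246579470750671974373120916347727307626279468191973376, .ofNat 135075281370698624689793091432310409729210243380852537628418033592565760, .ofNat 0, .ofNat 0, .ofNat 70241905021270891216700379610145793891329944735697513542585064916300857344, .ofNat 67611688072355467481279631664283163984550472167641224826178147364896768, .ofNat 805989847622194880605460740612630357635190982019383296, .ofNat 0⟩)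
    (by decide +kernel)
theorem L01825 : Good (Phi V5.P V5.D 1 1) ⟨11, 1663, 9, 224, 5, 19, 6, 28, 7, 56⟩ :=
  out_sound (S := T5.ds_pp) T5.ok_pp (w := 40) (j := 1) (by decide +kernel)
theorem L01826 : Good (Phi V5.P V5.D 1 1) ⟨11, 1663, 9, 224, 6, 38, 6, 29, 7, 56⟩ :=
  out_sound (S := T5.ds_pp) T5.ok_pp (w := 42) (j := 1) (by decide +kernel)
theorem L01827 : Good (Phi V5.P V5.D 1 1) ⟨11, 1663, 9, 224, 6, 39, 6, 29, 7, 56⟩ :=
  out_sound (S := T5.ds_pp) T5.ok_pp (w := 52) (j := 2) (by decide +kernel)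
theorem L01828 : Good (Phi V5.P V5.D 1 1) ⟨11, 1663, 9, 224, 5, 19, 5, 14, 7, 57⟩ :=
  out_sound (S := T5.ds_pp) T5.ok_pp (w := 39) (j := 1) (by decide +kernel)
theorem L01829 : Good (Phi V5.P V5.D 1 1) ⟨11, 1663, 9, 224, 7, 76, 6, 30, 7, 56⟩ :=
  out_sound (S := T5.ds_pp) T5.ok_pp (w := 44) (j := 1) (by decide +kernel)
theorem L01830 : Good (Phi V5.P V5.D 1 1) ⟨11, 1663, 9, 224, 8, 152, 8, 124, 9, 224⟩ :=
  out_sound (S := T5.ds_pp) T5.ok_pp (w := 52) (j := 1) (by decide +kernel)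
theorem L01831 : Good (Phi V5.P V5.D 1 1) ⟨11, 1663, 9, 224, 8, 152, 9, 250, 10, 448⟩ :=
  out_sound (S := T5.ds_pp) T5.ok_pp (w := 55) (j := 1) (by decide +kernel)
theorem L01832 : Good (Phi V5.P V5.D 1 1) ⟨11, 1663, 9, 224, 9, 304, 9, 251, 10, 448⟩ :=
  out_sound (S := T5.ds_pp) T5.ok_pp (w := 57) (j := 1) (by decide +kernel)
theorem L01833 : Good (Phi V5.P V5.D 1 1) ⟨11, 1663, 9, 224, 9, 305, 9, 251, 10, 448⟩ :=
  out_sound (S := T5.ds_pp) T5.ok_pp (w := 70) (j := 2) (by decide +kernel)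
theorem L01834 : Good (Phi V5.P V5.D 1 1) ⟨11, 1663, 9, 224, 8, 152, 8, 125, 10, 449⟩ :=
  out_sound (S := T5.ds_pp) T5.ok_pp (w := 54) (j := 1) (by decide +kernel)
theorem L01835 : Good (Phi V5.P V5.D 1 1) ⟨11, 1663, 9, 224, 8, 152, 7, 62, 9, 225⟩ :=
  out_sound (S := T5.ds_pp) T5.ok_pp (w := 51) (j := 1) (by decide +kernel)
theorem L01836 : Good (Phi V5.P V5.D 1 1) ⟨11, 1663, 9, 224, 10, 608, 9, 252, 10, 448⟩ :=
  out_sound (S := T5.ds_pp) T5.ok_pp (w := 59) (j := 1) (by decide +kernel)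
theorem L01837 : Good (Phi V5.P V5.D 1 1) ⟨11, 1663, 9, 224, 11, 1216, 10, 506, 11, 896⟩ :=
  out_sound (S := T5.ds_pp) T5.ok_pp (w := 64) (j := 1) (by decide +kernel)
theorem L01838 : Good (Phi V5.P V5.D 1 1) ⟨11, 1663, 9, 224, 11, 1216, 10, 507, 11, 896⟩ :=
  out_sound (S := T5.ds_pp) T5.ok_pp (w := 78) (j := 2) (by decide +kernel)
theorem L01839 : Good (Phi V5.P V5.D 1 1) ⟨11, 1663, 9, 224, 11, 1217, 9, 253, 11, 896⟩ :=
  out_sound (S := T5.ds_pp) T5.ok_pp (w := 76) (j := 2) (by decide +kernel)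
theorem L01840 : Good (Phi V5.P V5.D 1 1) ⟨11, 1663, 9, 224, 10, 608, 9, 253, 11, 897⟩ :=
  out_sound (S := T5.ds_pp) T5.ok_pp (w := 74) (j := 2) (by decide +kernel)
theorem L01841 : Good (Phi V5.P V5.D 1 1) ⟨11, 1663, 9, 224, 10, 609, 8, 126, 10, 448⟩ :=
  out_sound (S := T5.ds_pp) T5.ok_pp (w := 70) (j := 2) (by decide +kernel)
theorem L01842 : Good (Phi V5.P V5.D 1 1) ⟨11, 1663, 9, 224, 9, 304, 8, 126, 10, 449⟩ :=
  out_sound (S := T5.ds_pp) T5.ok_pp (w := 56) (j := 1) (by decide +kernel)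
theorem L01843 : Good (Phi V5.P V5.D 1 1) ⟨11, 1663, 9, 224, 9, 304, 8, 127, 9, 224⟩ :=
  out_sound (S := T5.ds_pp) T5.ok_pp (w := 66) (j := 2) (by decide +kernel)
theorem L01844 : Good (Phi V5.P V5.D 1 1) ⟨11, 1663, 9, 224, 9, 305, 7, 63, 9, 224⟩ :=
  out_sound (S := T5.ds_pp) T5.ok_pp (w := 64) (j := 2) (by decide +kernel)
theorem L01845 : Good (Phi V5.P V5.D 1 1) ⟨11, 1663, 9, 224, 8, 152, 7, 63, 9, 225⟩ :=
  out_sound (S := T5.ds_pp) T5.ok_pp (w := 62) (j := 2) (by decide +kernel)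
theorem L01846 : Good (Phi V5.P V5.D 1 1) ⟨11, 1663, 9, 224, 8, 153, 6, 31, 8, 112⟩ :=
  out_sound (S := T5.ds_pp) T5.ok_pp (w := 58) (j := 2) (by decide +kernel)
theorem L01847 : Good (Phi V5.P V5.D 1 1) ⟨11, 1663, 9, 224, 7, 76, 6, 31, 8, 113⟩ :=
  out_sound (S := T5.ds_pp) T5.ok_pp (w := 56) (j := 2) (by decide +kernel)
theorem L01848 : Good (Phi V5.P V5.D 1 1) ⟨11, 1663, 9, 224, 8, 154, 6, 30, 8, 112⟩ :=
  out_sound (S := T5.ds_pp) T5.ok_pp (w := 48) (j := 1) (by decide +kernel)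
theorem L01849 : Good (Phi V5.P V5.D 1 1) ⟨11, 1663, 9, 224, 8, 155, 6, 30, 8, 112⟩ :=
  out_sound (S := T5.ds_pp) T5.ok_pp (w := 58) (j := 2) (by decide +kernel)
theorem L01850 : Good (Phi V5.P V5.D 1 1) ⟨11, 1663, 9, 224, 7, 77, 6, 30, 8, 113⟩ :=
  out_sound (S := T5.ds_pp) T5.ok_pp (w := 46) (j := 1) (by decide +kernel)
theorem L01851 : Good (Phi V5.P V5.D 1 1) ⟨11, 1663, 9, 224, 7, 77, 6, 31, 7, 56⟩ :=
  out_sound (S := T5.ds_pp) T5.ok_pp (w := 54) (j := 2) (by decide +kernel)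
theorem L01852 : Good (Phi V5.P V5.D 1 1) ⟨11, 1663, 9, 224, 6, 38, 5, 15, 7, 57⟩ :=
  out_sound (S := T5.ds_pp) T5.ok_pp (w := 50) (j := 2) (by decide +kernel)
theorem L01853 : Good (Phi V5.P V5.D 1 1) ⟨11, 1663, 9, 224, 6, 39, 5, 15, 6, 28⟩ :=
  out_sound (S := T5.ds_pp) T5.ok_pp (w := 48) (j := 2) (by decide +kernel)
theorem L01854 : Good (Phi V5.P V5.D 1 1) ⟨11, 1663, 9, 224, 4, 9, 4, 7, 6, 29⟩ :=
  out_sound (S := T5.ds_pp) T5.ok_pp (w := 34) (j := 1) (by decide +kernel)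
theorem L01855 : Good (Phi V5.P V5.D 1 1) ⟨11, 1663, 9, 224, 3, 4, 3, 3, 5, 15⟩ :=
  out_sound (S := T5.ds_pp) T5.ok_pp (w := 29) (j := 1) (by decide +kernel)
theorem L01856 : Good (Phi V5.P V5.D 1 1) ⟨11, 1663, 9, 224, 4, 10, 3, 2, 5, 14⟩ :=
  out_sound (S := T5.ds_pp) T5.ok_pp (w := 31) (j := 1) (by decide +kernel)
theorem L01857 : Good (Phi V5.P V5.D 1 1) ⟨11, 1663, 9, 224, 5, 20, 5, 12, 6, 28⟩ :=
  out_sound (S := T5.ds_pp) T5.ok_pp (w := 37) (j := 1) (by decide +kernel)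
theorem L01858 : Good (Phi V5.P V5.D 1 1) ⟨11, 1663, 9, 224, 5, 20, 5, 13, 6, 28⟩ :=
  out_sound (S := T5.ds_pp) T5.ok_pp (w := 46) (j := 2) (by decide +kernel)
theorem L01859 : Good (Phi V5.P V5.D 1 1) ⟨11, 1663, 9, 224, 5, 20, 4, 7, 6, 28⟩ :=
  out_sound (S := T5.ds_pp) T5.ok_pp (w := 44) (j := 2) (by decide +kernel)
theorem L01860 : Good (Phi V5.P V5.D 1 1) ⟨11, 1663, 9, 224, 5, 20, 3, 3, 6, 29⟩ :=
  out_sound (S := T5.ds_pp) T5.ok_pp (w := 42) (j := 2) (by decide +kernel)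
theorem L01861 : Good (Phi V5.P V5.D 1 1) ⟨11, 1663, 9, 224, 5, 21, 3, 3, 5, 14⟩ :=
  out_sound (S := T5.ds_pp) T5.ok_pp (w := 40) (j := 2) (by decide +kernel)
theorem L01862 : Good (Phi V5.P V5.D 1 1) ⟨11, 1663, 9, 224, 4, 10, 2, 1, 5, 15⟩ :=
  out_sound (S := T5.ds_pp) T5.ok_pp (w := 36) (j := 2) (by decide +kernel)
theorem L01863 : Good (Phi V5.P V5.D 1 1) ⟨11, 1663, 9, 224, 4, 11, 2, 1, 4, 7⟩ :=
  out_sound (S := T5.ds_pp) T5.ok_pp (w := 34) (j := 2) (by decide +kernel)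
theorem L01864 : Good (Phi V5.P V5.D 1 1) ⟨10, 831, 9, 224, 2, 3, 1, 0, 4, 7⟩ :=
  out_sound (S := T5.ds_pp) T5.ok_pp (w := 28) (j := 2) (by decide +kernel)
theorem L01865 : Good (Phi V5.P V5.D 1 1) ⟨10, 831, 9, 225, 1, 1, 1, 0, 4, 7⟩ :=
  out_sound (S := T5.ds_pp) T5.ok_pp (w := 99) (j := 3) (by decide +kernel)
theorem L01866 : Good (Phi V5.P V5.D 1 1) ⟨9, 415, 8, 113, 1, 1, 1, 0, 4, 7⟩ :=
  out_sound (S := T5.ds_pp) T5.ok_pp (w := 91) (j := 3) (by decide +kernel)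
theorem L01867 : Good (Phi V5.P V5.D 1 1) ⟨8, 207, 7, 57, 1, 1, 1, 0, 4, 7⟩ :=
  out_sound (S := T5.ds_pp) T5.ok_pp (w := 83) (j := 3) (by decide +kernel)
theorem L01868 : Good (Phi V5.P V5.D 1 1) ⟨7, 103, 6, 29, 1, 1, 1, 0, 4, 7⟩ :=
  out_sound (S := T5.ds_pp) T5.ok_pp (w := 75) (j := 3) (by decide +kernel)
theorem L01869 : Good (Phi V5.P V5.D 1 1) ⟨5, 25, 5, 15, 1, 1, 1, 0, 4, 7⟩ :=
  out_sound (S := T5.ds_pp) T5.ok_pp (w := 61) (j := 3) (by decide +kernel)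
theorem L01870 : Good (Phi V5.P V5.D 1 1) ⟨6, 52, 4, 6, 2, 2, 2, 0, 4, 7⟩ :=
  out_sound (S := T5.ds_pp) T5.ok_pp (w := 24) (j := 1) (by decide +kernel)
theorem L01871 : Good (Phi V5.P V5.D 1 1) ⟨6, 52, 4, 6, 3, 4, 3, 2, 4, 7⟩ :=
  out_sound (S := T5.ds_pp) T5.ok_pp (w := 27) (j := 1) (by decide +kernel)
theorem L01872 : Good (Phi V5.P V5.D 1 1) ⟨6, 52, 4, 6, 4, 8, 3, 3, 5, 14⟩ :=
  out_sound (S := T5.ds_pp) T5.ok_pp (w := 31) (j := 1) (by decide +kernel)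
theorem L01873 : Good (Phi V5.P V5.D 1 1) ⟨6, 52, 4, 6, 4, 9, 4, 6, 5, 14⟩ :=
  out_sound (S := T5.ds_pp) T5.ok_pp (w := 32) (j := 1) (by decide +kernel)
theorem L01874 : Good (Phi V5.P V5.D 1 1) ⟨6, 52, 4, 6, 5, 18, 4, 7, 6, 28⟩ :=
  leafX_sound T5.ok_pp T5.Ypp.bz_eq (w := 292) (c := ⟨⟨.negSucc 2236, .negSucc 51, .negSucc 3, .negSucc 0, .negSucc 72, .ofNat 1⟩, ⟨.negSucc 1074, .negSucc 62, .negSucc 57, .ofNat 0, .negSucc 38, .ofNat 1⟩, ⟨.ofNat 1473, .ofNat 19, .negSucc 93, .ofNat 1, .ofNat 47, .negSucc 0⟩, ⟨.negSucc 3245, .negSucc 3, .ofNat 14, .negSucc 0, .negSucc 87, .ofNat 2⟩, ⟨.negSucc 447, .negSucc 3, .negSucc 6, .ofNat 0, .negSucc 48, .ofNat 0⟩, .ofNat 163, .negSucc 42, .ofNat 0, .negSucc 42, .ofNat 223, .ofNat 0, .ofNat 153, .ofNat 46, .negSucc 10, .ofNat 0, .ofNat 128, .negSucc 5, .ofNat 0, .ofNat 0, .ofNat 466, .ofNat 5263318, .ofNat 0, .ofNat 0,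 .ofNat 0, .ofNat 0, .ofNat 720384290945529471925265242028319559786359958401063374934769664, .ofNat 3041634683863740488027364023709493445827326710804296048312320, .ofNat 317434328308872702987613089827745547531562330051575808, .ofNat 0, .ofNat 341552552648942428500405167535956972336726534861615082736975872, .ofNat 0, .ofNat 0, .ofNat 0, .ofNat 763113376181790528506504244761235562470855557049754295361077248, .ofNat 675975087898990055505576724839857304773651619688157236166656, .ofNat 0, .ofNat 0⟩)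
    (by decide +kernel)
theorem L01875 : Good (Phi V5.P V5.D 1 1) ⟨6, 52, 4, 6, 5, 19, 6, 28, 7, 56⟩ :=
  out_sound (S := T5.ds_pp) T5.ok_pp (w := 40) (j := 1) (by decide +kernel)
theorem L01876 : Good (Phi V5.P V5.D 1 1) ⟨6, 52, 4, 6, 6, 38, 6, 29, 7, 56⟩ :=
  out_sound (S := T5.ds_pp) T5.ok_pp (w := 42) (j := 1) (by decide +kernel)
theorem L01877 : Good (Phi V5.P V5.D 1 1) ⟨6, 52, 4, 6, 6, 39, 6, 29, 7, 56⟩ :=
  out_sound (S := T5.ds_pp) T5.ok_pp (w := 52) (j := 2) (by decide +kernel)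
theorem L01878 : Good (Phi V5.P V5.D 1 1) ⟨6, 52, 4, 6, 5, 19, 5, 14, 7, 57⟩ :=
  out_sound (S := T5.ds_pp) T5.ok_pp (w := 39) (j := 1) (by decide +kernel)
theorem L01879 : Good (Phi V5.P V5.D 1 1) ⟨6, 52, 4, 6, 7, 76, 6, 30, 7, 56⟩ :=
  out_sound (S := T5.ds_pp) T5.ok_pp (w := 44) (j := 1) (by decide +kernel)
theorem L01880 : Good (Phi V5.P V5.D 1 1) ⟨6, 52, 4, 6, 8, 152, 8, 124, 9, 224⟩ :=
  out_sound (S := T5.ds_pp) T5.ok_pp (w := 52) (j := 1) (by decide +kernel)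
theorem L01881 : Good (Phi V5.P V5.D 1 1) ⟨6, 52, 4, 6, 8, 152, 9, 250, 10, 448⟩ :=
  out_sound (S := T5.ds_pp) T5.ok_pp (w := 55) (j := 1) (by decide +kernel)
theorem L01882 : Good (Phi V5.P V5.D 1 1) ⟨6, 52, 4, 6, 9, 304, 9, 251, 10, 448⟩ :=
  out_sound (S := T5.ds_pp) T5.ok_pp (w := 57) (j := 1) (by decide +kernel)
theorem L01883 : Good (Phi V5.P V5.D 1 1) ⟨6, 52, 4, 6, 9, 305, 9, 251, 10, 448⟩ :=
  out_sound (S := T5.ds_pp) T5.ok_pp (w := 70) (j := 2) (by decide +kernel)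
theorem L01884 : Good (Phi V5.P V5.D 1 1) ⟨6, 52, 4, 6, 8, 152, 8, 125, 10, 449⟩ :=
  out_sound (S := T5.ds_pp) T5.ok_pp (w := 54) (j := 1) (by decide +kernel)
theorem L01885 : Good (Phi V5.P V5.D 1 1) ⟨6, 52, 4, 6, 8, 152, 7, 62, 9, 225⟩ :=
  out_sound (S := T5.ds_pp) T5.ok_pp (w := 51) (j := 1) (by decide +kernel)
theorem L01886 : Good (Phi V5.P V5.D 1 1) ⟨6, 52, 4, 6, 10, 608, 9, 252, 10, 448⟩ :=
  out_sound (S := T5.ds_pp) T5.ok_pp (w := 59) (j := 1) (by decide +kernel)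
theorem L01887 : Good (Phi V5.P V5.D 1 1) ⟨6, 52, 4, 6, 11, 1216, 10, 506, 11, 896⟩ :=
  out_sound (S := T5.ds_pp) T5.ok_pp (w := 64) (j := 1) (by decide +kernel)
theorem L01888 : Good (Phi V5.P V5.D 1 1) ⟨6, 52, 4, 6, 11, 1216, 10, 507, 11, 896⟩ :=
  out_sound (S := T5.ds_pp) T5.ok_pp (w := 78) (j := 2) (by decide +kernel)
theorem L01889 : Good (Phi V5.P V5.D 1 1) ⟨6, 52, 4, 6, 11, 1217, 9, 253, 11, 896⟩ :=
  out_sound (S := T5.ds_pp) T5.ok_pp (w := 76) (j := 2) (by decide +kernel)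
theorem L01890 : Good (Phi V5.P V5.D 1 1) ⟨6, 52, 4, 6, 10, 608, 9, 253, 11, 897⟩ :=
  out_sound (S := T5.ds_pp) T5.ok_pp (w := 74) (j := 2) (by decide +kernel)
theorem L01891 : Good (Phi V5.P V5.D 1 1) ⟨6, 52, 4, 6, 10, 609, 8, 126, 10, 448⟩ :=
  out_sound (S := T5.ds_pp) T5.ok_pp (w := 70) (j := 2) (by decide +kernel)
theorem L01892 : Good (Phi V5.P V5.D 1 1) ⟨6, 52, 4, 6, 9, 304, 8, 126, 10, 449⟩ :=
  out_sound (S := T5.ds_pp) T5.ok_pp (w := 56) (j := 1) (by decide +kernel)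
theorem L01893 : Good (Phi V5.P V5.D 1 1) ⟨6, 52, 4, 6, 9, 304, 8, 127, 9, 224⟩ :=
  out_sound (S := T5.ds_pp) T5.ok_pp (w := 66) (j := 2) (by decide +kernel)
theorem L01894 : Good (Phi V5.P V5.D 1 1) ⟨6, 52, 4, 6, 9, 305, 7, 63, 9, 224⟩ :=
  out_sound (S := T5.ds_pp) T5.ok_pp (w := 64) (j := 2) (by decide +kernel)
theorem L01895 : Good (Phi V5.P V5.D 1 1) ⟨6, 52, 4, 6, 8, 152, 7, 63, 9, 225⟩ :=
  out_sound (S := T5.ds_pp) T5.ok_pp (w := 62) (j := 2) (by decide +kernel)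
theorem L01896 : Good (Phi V5.P V5.D 1 1) ⟨6, 52, 4, 6, 8, 153, 6, 31, 8, 112⟩ :=
  out_sound (S := T5.ds_pp) T5.ok_pp (w := 58) (j := 2) (by decide +kernel)
theorem L01897 : Good (Phi V5.P V5.D 1 1) ⟨6, 52, 4, 6, 7, 76, 6, 31, 8, 113⟩ :=
  out_sound (S := T5.ds_pp) T5.ok_pp (w := 56) (j := 2) (by decide +kernel)
theorem L01898 : Good (Phi V5.P V5.D 1 1) ⟨6, 52, 4, 6, 8, 154, 6, 30, 8, 112⟩ :=
  out_sound (S := T5.ds_pp) T5.ok_pp (w := 48) (j := 1) (by decide +kernel)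
theorem L01899 : Good (Phi V5.P V5.D 1 1) ⟨6, 52, 4, 6, 8, 155, 6, 30, 8, 112⟩ :=
  out_sound (S := T5.ds_pp) T5.ok_pp (w := 58) (j := 2) (by decide +kernel)
theorem L01900 : Good (Phi V5.P V5.D 1 1) ⟨6, 52, 4, 6, 7, 77, 6, 30, 8, 113⟩ :=
  out_sound (S := T5.ds_pp) T5.ok_pp (w := 46) (j := 1) (by decide +kernel)
theorem L01901 : Good (Phi V5.P V5.D 1 1) ⟨6, 52, 4, 6, 7, 77, 6, 31, 7, 56⟩ :=
  out_sound (S := T5.ds_pp) T5.ok_pp (w := 54) (j := 2) (by decide +kernel)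
theorem L01902 : Good (Phi V5.P V5.D 1 1) ⟨6, 52, 4, 6, 6, 38, 5, 15, 7, 57⟩ :=
  out_sound (S := T5.ds_pp) T5.ok_pp (w := 50) (j := 2) (by decide +kernel)
theorem L01903 : Good (Phi V5.P V5.D 1 1) ⟨6, 52, 4, 6, 6, 39, 5, 15, 6, 28⟩ :=
  out_sound (S := T5.ds_pp) T5.ok_pp (w := 48) (j := 2) (by decide +kernel)
theorem L01904 : Good (Phi V5.P V5.D 1 1) ⟨6, 52, 4, 6, 4, 9, 4, 7, 6, 29⟩ :=
  out_sound (S := T5.ds_pp) T5.ok_pp (w := 34) (j := 1) (by decide +kernel)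
theorem L01905 : Good (Phi V5.P V5.D 1 1) ⟨6, 52, 4, 6, 3, 4, 3, 3, 5, 15⟩ :=
  out_sound (S := T5.ds_pp) T5.ok_pp (w := 29) (j := 1) (by decide +kernel)
theorem L01906 : Good (Phi V5.P V5.D 1 1) ⟨6, 52, 4, 6, 4, 10, 3, 2, 5, 14⟩ :=
  out_sound (S := T5.ds_pp) T5.ok_pp (w := 31) (j := 1) (by decide +kernel)
theorem L01907 : Good (Phi V5.P V5.D 1 1) ⟨6, 52, 4, 6, 5, 20, 5, 12, 6, 28⟩ :=
  out_sound (S := T5.ds_pp) T5.ok_pp (w := 37) (j := 1) (by decide +kernel)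
theorem L01908 : Good (Phi V5.P V5.D 1 1) ⟨6, 52, 4, 6, 5, 20, 5, 13, 6, 28⟩ :=
  out_sound (S := T5.ds_pp) T5.ok_pp (w := 46) (j := 2) (by decide +kernel)
theorem L01909 : Good (Phi V5.P V5.D 1 1) ⟨6, 52, 4, 6, 5, 20, 4, 7, 6, 28⟩ :=
  out_sound (S := T5.ds_pp) T5.ok_pp (w := 44) (j := 2) (by decide +kernel)
theorem L01910 : Good (Phi V5.P V5.D 1 1) ⟨6, 52, 4, 6, 5, 20, 3, 3, 6, 29⟩ :=
  out_sound (S := T5.ds_pp) T5.ok_pp (w := 42) (j := 2) (by decide +kernel)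
theorem L01911 : Good (Phi V5.P V5.D 1 1) ⟨6, 52, 4, 6, 5, 21, 3, 3, 5, 14⟩ :=
  out_sound (S := T5.ds_pp) T5.ok_pp (w := 40) (j := 2) (by decide +kernel)
theorem L01912 : Good (Phi V5.P V5.D 1 1) ⟨6, 52, 4, 6, 4, 10, 2, 1, 5, 15⟩ :=
  out_sound (S := T5.ds_pp) T5.ok_pp (w := 36) (j := 2) (by decide +kernel)
theorem L01913 : Good (Phi V5.P V5.D 1 1) ⟨6, 52, 4, 6, 4, 11, 2, 1, 4, 7⟩ :=
  out_sound (S := T5.ds_pp) T5.ok_pp (w := 34) (j := 2) (by decide +kernel)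
theorem L01914 : Good (Phi V5.P V5.D 1 1) ⟨6, 52, 4, 6, 2, 3, 1, 0, 4, 7⟩ :=
  out_sound (S := T5.ds_pp) T5.ok_pp (w := 28) (j := 2) (by decide +kernel)
theorem L01915 : Good (Phi V5.P V5.D 1 1) ⟨6, 53, 5, 12, 1, 1, 1, 0, 4, 7⟩ :=
  out_sound (S := T5.ds_pp) T5.ok_pp (w := 67) (j := 3) (by decide +kernel)
theorem L01916 : Good (Phi V5.P V5.D 1 1) ⟨7, 106, 5, 13, 2, 2, 2, 0, 4, 7⟩ :=
  out_sound (S := T5.ds_pp) T5.ok_pp (w := 24) (j := 1) (by decide +kernel)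
theorem L01917 : Good (Phi V5.P V5.D 1 1) ⟨9, 424, 8, 104, 2, 2, 2, 1, 4, 7⟩ :=
  out_sound (S := T5.ds_pp) T5.ok_pp (w := 91) (j := 3) (by decide +kernel)
theorem L01918 : Good (Phi V5.P V5.D 1 1) ⟨10, 848, 9, 210, 2, 2, 2, 1, 4, 7⟩ :=
  out_sound (S := T5.ds_pp) T5.ok_pp (w := 99) (j := 3) (by decide +kernel)
theorem L01919 : Good (Phi V5.P V5.D 1 1) ⟨11, 1696, 9, 211, 3, 4, 3, 2, 4, 7⟩ :=
  out_sound (S := T5.ds_pp) T5.ok_pp (w := 27) (j := 1) (by decide +kernel)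
theorem L01920 : Good (Phi V5.P V5.D 1 1) ⟨11, 1696, 9, 211, 4, 8, 3, 3, 5, 14⟩ :=
  out_sound (S := T5.ds_pp) T5.ok_pp (w := 31) (j := 1) (by decide +kernel)
theorem L01921 : Good (Phi V5.P V5.D 1 1) ⟨11, 1696, 9, 211, 4, 9, 4, 6, 5, 14⟩ :=
  out_sound (S := T5.ds_pp) T5.ok_pp (w := 32) (j := 1) (by decide +kernel)
theorem L01922 : Good (Phi V5.P V5.D 1 1) ⟨11, 1696, 9, 211, 5, 18, 4, 7, 6, 28⟩ :=
  leafX_sound T5.ok_pp T5.Ypp.bz_eq (w := 327) (c := ⟨⟨.negSucc 2287, .negSucc 1, .ofNat 0, .negSucc 0, .negSucc 75, .ofNat 1⟩, ⟨.negSucc 1169, .negSucc 1, .negSucc 1, .ofNat 0, .negSucc 41, .ofNat 1⟩, ⟨.ofNat 1431, .ofNat 0, .negSucc 2, .ofNat 1, .ofNat 52, .negSucc 0⟩, ⟨.negSucc 3246, .ofNat 0, .ofNat 0, .negSucc 0, .negSucc 82, .ofNat 2⟩, ⟨.negSucc 457, .ofNat 0, .ofNat 0, .ofNat 0, .negSucc 46, .ofNat 0⟩, .ofNat 339, .negSucc 210, .ofNat 0, .negSucc 210, .ofNat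 614, .ofNat 0, .ofNat 152, .ofNat 106, .negSucc 11, .ofNat 0, .ofNat 128, .negSucc 5, .ofNat 0, .ofNat 0, .ofNat 645, .ofNat 7595731, .ofNat 0, .ofNat 0, .ofNat 0, .ofNat 0, .ofNat 35057039736290353470407145829495820864594153032996918498292677490142871552, .ofNat 145854652052728437474541325460468596543797262991540726810567852219695104, .ofNat 1409771667054277861133919104644529920843523916390465536, .ofNat 0, .ofNat 30602683783250296630069139852661108401589726613342840894008982644218396672, .ofNat 61150864863101064798889001066038715489105357791794017940094893514817536, .ofNat 0, .ofNat 0, .ofNat 49472828419276413754138842867069037784282680235225461983766031215116681216, .ofNat 35527462736137329281524368556326263634092711333411500119832245619916800, .ofNat 0, .ofNat 0⟩)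
    (by decide +kernel)
theorem L01923 : Good (Phi V5.P V5.D 1 1) ⟨11, 1696, 9, 211, 5, 19, 6, 28, 7, 56⟩ :=
  out_sound (S := T5.ds_pp) T5.ok_pp (w := 40) (j := 1) (by decide +kernel)
theorem L01924 : Good (Phi V5.P V5.D 1 1) ⟨11, 1696, 9, 211, 6, 38, 6, 29, 7, 56⟩ :=
  out_sound (S := T5.ds_pp) T5.ok_pp (w := 42) (j := 1) (by decide +kernel)
theorem L01925 : Good (Phi V5.P V5.D 1 1) ⟨11, 1696, 9, 211, 6, 39, 6, 29, 7, 56⟩ :=
  out_sound (S := T5.ds_pp) T5.ok_pp (w := 52) (j := 2) (by decide +kernel)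
theorem L01926 : Good (Phi V5.P V5.D 1 1) ⟨11, 1696, 9, 211, 5, 19, 5, 14, 7, 57⟩ :=
  out_sound (S := T5.ds_pp) T5.ok_pp (w := 39) (j := 1) (by decide +kernel)
theorem L01927 : Good (Phi V5.P V5.D 1 1) ⟨11, 1696, 9, 211, 7, 76, 6, 30, 7, 56⟩ :=
  out_sound (S := T5.ds_pp) T5.ok_pp (w := 44) (j := 1) (by decide +kernel)
theorem L01928 : Good (Phi V5.P V5.D 1 1) ⟨11, 1696, 9, 211, 8, 152, 8, 124, 9, 224⟩ :=
  out_sound (S := T5.ds_pp) T5.ok_pp (w := 52) (j := 1) (by decide +kernel)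
theorem L01929 : Good (Phi V5.P V5.D 1 1) ⟨11, 1696, 9, 211, 8, 152, 9, 250, 10, 448⟩ :=
  out_sound (S := T5.ds_pp) T5.ok_pp (w := 55) (j := 1) (by decide +kernel)
theorem L01930 : Good (Phi V5.P V5.D 1 1) ⟨11, 1696, 9, 211, 9, 304, 9, 251, 10, 448⟩ :=
  out_sound (S := T5.ds_pp) T5.ok_pp (w := 57) (j := 1) (by decide +kernel)
theorem L01931 : Good (Phi V5.P V5.D 1 1) ⟨11, 1696, 9, 211, 9, 305, 9, 251, 10, 448⟩ :=
  out_sound (S := T5.ds_pp) T5.ok_pp (w := 70) (j := 2) (by decide +kernel)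
theorem L01932 : Good (Phi V5.P V5.D 1 1) ⟨11, 1696, 9, 211, 8, 152, 8, 125, 10, 449⟩ :=
  out_sound (S := T5.ds_pp) T5.ok_pp (w := 54) (j := 1) (by decide +kernel)
theorem L01933 : Good (Phi V5.P V5.D 1 1) ⟨11, 1696, 9, 211, 8, 152, 7, 62, 9, 225⟩ :=
  out_sound (S := T5.ds_pp) T5.ok_pp (w := 51) (j := 1) (by decide +kernel)
theorem L01934 : Good (Phi V5.P V5.D 1 1) ⟨11, 1696, 9, 211, 10, 608, 9, 252, 10, 448⟩ :=
  out_sound (S := T5.ds_pp) T5.ok_pp (w := 59) (j := 1) (by decide +kernel)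
theorem L01935 : Good (Phi V5.P V5.D 1 1) ⟨11, 1696, 9, 211, 11, 1216, 10, 506, 11, 896⟩ :=
  out_sound (S := T5.ds_pp) T5.ok_pp (w := 64) (j := 1) (by decide +kernel)
theorem L01936 : Good (Phi V5.P V5.D 1 1) ⟨11, 1696, 9, 211, 11, 1216, 10, 507, 11, 896⟩ :=
  out_sound (S := T5.ds_pp) T5.ok_pp (w := 78) (j := 2) (by decide +kernel)
theorem L01937 : Good (Phi V5.P V5.D 1 1) ⟨11, 1696, 9, 211, 11, 1217, 9, 253, 11, 896⟩ :=
  out_sound (S := T5.ds_pp) T5.ok_pp (w := 76) (j := 2) (by decide +kernel)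
theorem L01938 : Good (Phi V5.P V5.D 1 1) ⟨11, 1696, 9, 211, 10, 608, 9, 253, 11, 897⟩ :=
  out_sound (S := T5.ds_pp) T5.ok_pp (w := 74) (j := 2) (by decide +kernel)
theorem L01939 : Good (Phi V5.P V5.D 1 1) ⟨11, 1696, 9, 211, 10, 609, 8, 126, 10, 448⟩ :=
  out_sound (S := T5.ds_pp) T5.ok_pp (w := 70) (j := 2) (by decide +kernel)
theorem L01940 : Good (Phi V5.P V5.D 1 1) ⟨11, 1696, 9, 211, 9, 304, 8, 126, 10, 449⟩ :=
  out_sound (S := T5.ds_pp) T5.ok_pp (w := 56) (j := 1) (by decide +kernel)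
theorem L01941 : Good (Phi V5.P V5.D 1 1) ⟨11, 1696, 9, 211, 9, 304, 8, 127, 9, 224⟩ :=
  out_sound (S := T5.ds_pp) T5.ok_pp (w := 66) (j := 2) (by decide +kernel)
theorem L01942 : Good (Phi V5.P V5.D 1 1) ⟨11, 1696, 9, 211, 9, 305, 7, 63, 9, 224⟩ :=
  out_sound (S := T5.ds_pp) T5.ok_pp (w := 64) (j := 2) (by decide +kernel)
theorem L01943 : Good (Phi V5.P V5.D 1 1) ⟨11, 1696, 9, 211, 8, 152, 7, 63, 9, 225⟩ :=
  out_sound (S := T5.ds_pp) T5.ok_pp (w := 62) (j := 2) (by decide +kernel)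
theorem L01944 : Good (Phi V5.P V5.D 1 1) ⟨11, 1696, 9, 211, 8, 153, 6, 31, 8, 112⟩ :=
  out_sound (S := T5.ds_pp) T5.ok_pp (w := 58) (j := 2) (by decide +kernel)
theorem L01945 : Good (Phi V5.P V5.D 1 1) ⟨11, 1696, 9, 211, 7, 76, 6, 31, 8, 113⟩ :=
  out_sound (S := T5.ds_pp) T5.ok_pp (w := 56) (j := 2) (by decide +kernel)
theorem L01946 : Good (Phi V5.P V5.D 1 1) ⟨11, 1696, 9, 211, 8, 154, 6, 30, 8, 112⟩ :=
  out_sound (S := T5.ds_pp) T5.ok_pp (w := 48) (j := 1) (by decide +kernel)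
theorem L01947 : Good (Phi V5.P V5.D 1 1) ⟨11, 1696, 9, 211, 8, 155, 6, 30, 8, 112⟩ :=
  out_sound (S := T5.ds_pp) T5.ok_pp (w := 58) (j := 2) (by decide +kernel)
theorem L01948 : Good (Phi V5.P V5.D 1 1) ⟨11, 1696, 9, 211, 7, 77, 6, 30, 8, 113⟩ :=
  out_sound (S := T5.ds_pp) T5.ok_pp (w := 46) (j := 1) (by decide +kernel)
theorem L01949 : Good (Phi V5.P V5.D 1 1) ⟨11, 1696, 9, 211, 7, 77, 6, 31, 7, 56⟩ :=
  out_sound (S := T5.ds_pp) T5.ok_pp (w := 54) (j := 2) (by decide +kernel)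
theorem L01950 : Good (Phi V5.P V5.D 1 1) ⟨11, 1696, 9, 211, 6, 38, 5, 15, 7, 57⟩ :=
  out_sound (S := T5.ds_pp) T5.ok_pp (w := 50) (j := 2) (by decide +kernel)
theorem L01951 : Good (Phi V5.P V5.D 1 1) ⟨11, 1696, 9, 211, 6, 39, 5, 15, 6, 28⟩ :=
  out_sound (S := T5.ds_pp) T5.ok_pp (w := 48) (j := 2) (by decide +kernel)
theorem L01952 : Good (Phi V5.P V5.D 1 1) ⟨11, 1696, 9, 211, 4, 9, 4, 7, 6, 29⟩ :=
  out_sound (S := T5.ds_pp) T5.ok_pp (w := 34) (j := 1) (by decide +kernel)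
theorem L01953 : Good (Phi V5.P V5.D 1 1) ⟨11, 1696, 9, 211, 3, 4, 3, 3, 5, 15⟩ :=
  out_sound (S := T5.ds_pp) T5.ok_pp (w := 29) (j := 1) (by decide +kernel)
theorem L01954 : Good (Phi V5.P V5.D 1 1) ⟨11, 1696, 9, 211, 4, 10, 3, 2, 5, 14⟩ :=
  out_sound (S := T5.ds_pp) T5.ok_pp (w := 31) (j := 1) (by decide +kernel)
theorem L01955 : Good (Phi V5.P V5.D 1 1) ⟨11, 1696, 9, 211, 5, 20, 5, 12, 6, 28⟩ :=
  out_sound (S := T5.ds_pp) T5.ok_pp (w := 37) (j := 1) (by decide +kernel)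
theorem L01956 : Good (Phi V5.P V5.D 1 1) ⟨11, 1696, 9, 211, 5, 20, 5, 13, 6, 28⟩ :=
  out_sound (S := T5.ds_pp) T5.ok_pp (w := 46) (j := 2) (by decide +kernel)
theorem L01957 : Good (Phi V5.P V5.D 1 1) ⟨11, 1696, 9, 211, 5, 20, 4, 7, 6, 28⟩ :=
  out_sound (S := T5.ds_pp) T5.ok_pp (w := 44) (j := 2) (by decide +kernel)
theorem L01958 : Good (Phi V5.P V5.D 1 1) ⟨11, 1696, 9, 211, 5, 20, 3, 3, 6, 29⟩ :=
  out_sound (S := T5.ds_pp) T5.ok_pp (w := 42) (j := 2) (by decide +kernel)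
theorem L01959 : Good (Phi V5.P V5.D 1 1) ⟨11, 1696, 9, 211, 5, 21, 3, 3, 5, 14⟩ :=
  out_sound (S := T5.ds_pp) T5.ok_pp (w := 40) (j := 2) (by decide +kernel)
theorem L01960 : Good (Phi V5.P V5.D 1 1) ⟨11, 1696, 9, 211, 4, 10, 2, 1, 5, 15⟩ :=
  out_sound (S := T5.ds_pp) T5.ok_pp (w := 36) (j := 2) (by decide +kernel)
theorem L01961 : Good (Phi V5.P V5.D 1 1) ⟨11, 1696, 9, 211, 4, 11, 2, 1, 4, 7⟩ :=
  out_sound (S := T5.ds_pp) T5.ok_pp (w := 34) (j := 2) (by decide +kernel)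
theorem L01962 : Good (Phi V5.P V5.D 1 1) ⟨11, 1697, 9, 211, 2, 2, 2, 1, 4, 7⟩ :=
  out_sound (S := T5.ds_pp) T5.ok_pp (w := 105) (j := 3) (by decide +kernel)
theorem L01963 : Good (Phi V5.P V5.D 1 1) ⟨10, 849, 8, 105, 2, 2, 2, 1, 4, 7⟩ :=
  out_sound (S := T5.ds_pp) T5.ok_pp (w := 97) (j := 3) (by decide +kernel)
theorem L01964 : Good (Phi V5.P V5.D 1 1) ⟨9, 425, 7, 52, 2, 2, 2, 1, 4, 7⟩ :=
  out_sound (S := T5.ds_pp) T5.ok_pp (w := 89) (j := 3) (by decide +kernel)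
theorem L01965 : Good (Phi V5.P V5.D 1 1) ⟨8, 212, 7, 53, 3, 4, 3, 2, 4, 7⟩ :=
  out_sound (S := T5.ds_pp) T5.ok_pp (w := 27) (j := 1) (by decide +kernel)
theorem L01966 : Good (Phi V5.P V5.D 1 1) ⟨8, 212, 7, 53, 4, 8, 3, 3, 5, 14⟩ :=
  out_sound (S := T5.ds_pp) T5.ok_pp (w := 31) (j := 1) (by decide +kernel)
theorem L01967 : Good (Phi V5.P V5.D 1 1) ⟨8, 212, 7, 53, 4, 9, 4, 6, 5, 14⟩ :=
  out_sound (S := T5.ds_pp) T5.ok_pp (w := 32) (j := 1) (by decide +kernel)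
theorem L01968 : Good (Phi V5.P V5.D 1 1) ⟨8, 212, 7, 53, 5, 18, 4, 7, 6, 28⟩ :=
  leafX_sound T5.ok_pp T5.Ypp.bz_eq (w := 309) (c := ⟨⟨.negSucc 2289, .negSucc 12, .ofNat 0, .negSucc 0, .negSucc 73, .ofNat 1⟩, ⟨.negSucc 1172, .negSucc 15, .negSucc 6, .negSucc 0, .negSucc 40, .ofNat 1⟩, ⟨.ofNat 1437, .ofNat 5, .negSucc 11, .ofNat 1, .ofNat 43, .negSucc 0⟩, ⟨.negSucc 3243, .negSucc 0, .ofNat 2, .negSucc 0, .negSucc 85, .ofNat 2⟩, ⟨.negSucc 455, .negSucc 0, .negSucc 0, .ofNat 0, .negSucc 48, .ofNat 0⟩, .ofNat 163, .negSucc 43, .ofNat 0, .negSucc 43, .ofNat 220, .ofNat 0, .ofNat 151, .ofNat 47, .negSucc 10, .ofNat 0, .ofNat 128, .negSucc 5, .ofNat 0, .ofNat 0, .ofNat 460, .ofNat 5366572, .ofNat 0, .ofNat 0, .ofNat 0, .ofNat 0, .ofNat 92871713946350224118507299944418365642913148454105389774641016340480, .ofNat 383996190698218708179169675998072266941932844338241238750715707392,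 .ofNat 17353631455252103624702976079591844291964534534438912, .ofNat 0, .ofNat 46327284973502994967309009977596626247237966811446899999616725417984, .ofNat 0, .ofNat 0, .ofNat 0, .ofNat 98303899052280213812289131591584996611112932030984354466614950756352, .ofNat 79268583617318032351136595380391097911223511899503510486683484160, .ofNat 571006817559018150071275096165048769341664940078923776, .ofNat 0⟩)
    (by decide +kernel)
theorem L01969 : Good (Phi V5.P V5.D 1 1) ⟨8, 212, 7, 53, 5, 19, 6, 28, 7, 56⟩ :=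
  out_sound (S := T5.ds_pp) T5.ok_pp (w := 40) (j := 1) (by decide +kernel)
theorem L01970 : Good (Phi V5.P V5.D 1 1) ⟨8, 212, 7, 53, 6, 38, 6, 29, 7, 56⟩ :=
  out_sound (S := T5.ds_pp) T5.ok_pp (w := 42) (j := 1) (by decide +kernel)
theorem L01971 : Good (Phi V5.P V5.D 1 1) ⟨8, 212, 7, 53, 6, 39, 6, 29, 7, 56⟩ :=
  out_sound (S := T5.ds_pp) T5.ok_pp (w := 52) (j := 2) (by decide +kernel)
theorem L01972 : Good (Phi V5.P V5.D 1 1) ⟨8, 212, 7, 53, 5, 19, 5, 14, 7, 57⟩ :=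
  out_sound (S := T5.ds_pp) T5.ok_pp (w := 39) (j := 1) (by decide +kernel)
theorem L01973 : Good (Phi V5.P V5.D 1 1) ⟨8, 212, 7, 53, 7, 76, 6, 30, 7, 56⟩ :=
  out_sound (S := T5.ds_pp) T5.ok_pp (w := 44) (j := 1) (by decide +kernel)
theorem L01974 : Good (Phi V5.P V5.D 1 1) ⟨8, 212, 7, 53, 8, 152, 8, 124, 9, 224⟩ :=
  out_sound (S := T5.ds_pp) T5.ok_pp (w := 52) (j := 1) (by decide +kernel)
theorem L01975 : Good (Phi V5.P V5.D 1 1) ⟨8, 212, 7, 53, 8, 152, 9, 250, 10, 448⟩ :=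
  out_sound (S := T5.ds_pp) T5.ok_pp (w := 55) (j := 1) (by decide +kernel)
theorem L01976 : Good (Phi V5.P V5.D 1 1) ⟨8, 212, 7, 53, 9, 304, 9, 251, 10, 448⟩ :=
  out_sound (S := T5.ds_pp) T5.ok_pp (w := 57) (j := 1) (by decide +kernel)
theorem L01977 : Good (Phi V5.P V5.D 1 1) ⟨8, 212, 7, 53, 9, 305, 9, 251, 10, 448⟩ :=
  out_sound (S := T5.ds_pp) T5.ok_pp (w := 70) (j := 2) (by decide +kernel)
theorem L01978 : Good (Phi V5.P V5.D 1 1) ⟨8, 212, 7, 53, 8, 152, 8, 125, 10, 449⟩ :=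
  out_sound (S := T5.ds_pp) T5.ok_pp (w := 54) (j := 1) (by decide +kernel)
theorem L01979 : Good (Phi V5.P V5.D 1 1) ⟨8, 212, 7, 53, 8, 152, 7, 62, 9, 225⟩ :=
  out_sound (S := T5.ds_pp) T5.ok_pp (w := 51) (j := 1) (by decide +kernel)
theorem L01980 : Good (Phi V5.P V5.D 1 1) ⟨8, 212, 7, 53, 10, 608, 9, 252, 10, 448⟩ :=
  out_sound (S := T5.ds_pp) T5.ok_pp (w := 59) (j := 1) (by decide +kernel)
theorem L01981 : Good (Phi V5.P V5.D 1 1) ⟨8, 212, 7, 53, 11, 1216, 10, 506, 11, 896⟩ :=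
  out_sound (S := T5.ds_pp) T5.ok_pp (w := 64) (j := 1) (by decide +kernel)
theorem L01982 : Good (Phi V5.P V5.D 1 1) ⟨8, 212, 7, 53, 11, 1216, 10, 507, 11, 896⟩ :=
  out_sound (S := T5.ds_pp) T5.ok_pp (w := 78) (j := 2) (by decide +kernel)
theorem L01983 : Good (Phi V5.P V5.D 1 1) ⟨8, 212, 7, 53, 11, 1217, 9, 253, 11, 896⟩ :=
  out_sound (S := T5.ds_pp) T5.ok_pp (w := 76) (j := 2) (by decide +kernel)
theorem L01984 : Good (Phi V5.P V5.D 1 1) ⟨8, 212, 7, 53, 10, 608, 9, 253, 11, 897⟩ :=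
  out_sound (S := T5.ds_pp) T5.ok_pp (w := 74) (j := 2) (by decide +kernel)
theorem L01985 : Good (Phi V5.P V5.D 1 1) ⟨8, 212, 7, 53, 10, 609, 8, 126, 10, 448⟩ :=
  out_sound (S := T5.ds_pp) T5.ok_pp (w := 70) (j := 2) (by decide +kernel)
theorem L01986 : Good (Phi V5.P V5.D 1 1) ⟨8, 212, 7, 53, 9, 304, 8, 126, 10, 449⟩ :=
  out_sound (S := T5.ds_pp) T5.ok_pp (w := 56) (j := 1) (by decide +kernel)
theorem L01987 : Good (Phi V5.P V5.D 1 1) ⟨8, 212, 7, 53, 9, 304, 8, 127, 9, 224⟩ :=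
  out_sound (S := T5.ds_pp) T5.ok_pp (w := 66) (j := 2) (by decide +kernel)
theorem L01988 : Good (Phi V5.P V5.D 1 1) ⟨8, 212, 7, 53, 9, 305, 7, 63, 9, 224⟩ :=
  out_sound (S := T5.ds_pp) T5.ok_pp (w := 64) (j := 2) (by decide +kernel)
theorem L01989 : Good (Phi V5.P V5.D 1 1) ⟨8, 212, 7, 53, 8, 152, 7, 63, 9, 225⟩ :=
  out_sound (S := T5.ds_pp) T5.ok_pp (w := 62) (j := 2) (by decide +kernel)
theorem L01990 : Good (Phi V5.P V5.D 1 1) ⟨8, 212, 7, 53, 8, 153, 6, 31, 8, 112⟩ :=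
  out_sound (S := T5.ds_pp) T5.ok_pp (w := 58) (j := 2) (by decide +kernel)
theorem L01991 : Good (Phi V5.P V5.D 1 1) ⟨8, 212, 7, 53, 7, 76, 6, 31, 8, 113⟩ :=
  out_sound (S := T5.ds_pp) T5.ok_pp (w := 56) (j := 2) (by decide +kernel)
theorem L01992 : Good (Phi V5.P V5.D 1 1) ⟨8, 212, 7, 53, 8, 154, 6, 30, 8, 112⟩ :=
  out_sound (S := T5.ds_pp) T5.ok_pp (w := 48) (j := 1) (by decide +kernel)
theorem L01993 : Good (Phi V5.P V5.D 1 1) ⟨8, 212, 7, 53, 8, 155, 6, 30, 8, 112⟩ :=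
  out_sound (S := T5.ds_pp) T5.ok_pp (w := 58) (j := 2) (by decide +kernel)
theorem L01994 : Good (Phi V5.P V5.D 1 1) ⟨8, 212, 7, 53, 7, 77, 6, 30, 8, 113⟩ :=
  out_sound (S := T5.ds_pp) T5.ok_pp (w := 46) (j := 1) (by decide +kernel)
theorem L01995 : Good (Phi V5.P V5.D 1 1) ⟨8, 212, 7, 53, 7, 77, 6, 31, 7, 56⟩ :=
  out_sound (S := T5.ds_pp) T5.ok_pp (w := 54) (j := 2) (by decide +kernel)
theorem L01996 : Good (Phi V5.P V5.D 1 1) ⟨8, 212, 7, 53, 6, 38, 5, 15, 7, 57⟩ :=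
  out_sound (S := T5.ds_pp) T5.ok_pp (w := 50) (j := 2) (by decide +kernel)
theorem L01997 : Good (Phi V5.P V5.D 1 1) ⟨8, 212, 7, 53, 6, 39, 5, 15, 6, 28⟩ :=
  out_sound (S := T5.ds_pp) T5.ok_pp (w := 48) (j := 2) (by decide +kernel)
theorem L01998 : Good (Phi V5.P V5.D 1 1) ⟨8, 212, 7, 53, 4, 9, 4, 7, 6, 29⟩ :=
  out_sound (S := T5.ds_pp) T5.ok_pp (w := 34) (j := 1) (by decide +kernel)
theorem L01999 : Good (Phi V5.P V5.D 1 1) ⟨8, 212, 7, 53, 3, 4, 3, 3, 5, 15⟩ :=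
  out_sound (S := T5.ds_pp) T5.ok_pp (w := 29) (j := 1) (by decide +kernel)
theorem L02000 : Good (Phi V5.P V5.D 1 1) ⟨8, 212, 7, 53, 4, 10, 3, 2, 5, 14⟩ :=
  out_sound (S := T5.ds_pp) T5.ok_pp (w := 31) (j := 1) (by decide +kernel)
theorem L02001 : Good (Phi V5.P V5.D 1 1) ⟨8, 212, 7, 53, 5, 20, 5, 12, 6, 28⟩ :=
  out_sound (S := T5.ds_pp) T5.ok_pp (w := 37) (j := 1) (by decide +kernel)
theorem L02002 : Good (Phi V5.P V5.D 1 1) ⟨8, 212, 7, 53, 5, 20, 5, 13, 6, 28⟩ :=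
  out_sound (S := T5.ds_pp) T5.ok_pp (w := 46) (j := 2) (by decide +kernel)
theorem L02003 : Good (Phi V5.P V5.D 1 1) ⟨8, 212, 7, 53, 5, 20, 4, 7, 6, 28⟩ :=
  out_sound (S := T5.ds_pp) T5.ok_pp (w := 44) (j := 2) (by decide +kernel)
theorem L02004 : Good (Phi V5.P V5.D 1 1) ⟨8, 212, 7, 53, 5, 20, 3, 3, 6, 29⟩ :=
  out_sound (S := T5.ds_pp) T5.ok_pp (w := 42) (j := 2) (by decide +kernel)
theorem L02005 : Good (Phi V5.P V5.D 1 1) ⟨8, 212, 7, 53, 5, 21, 3, 3, 5, 14⟩ :=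
  out_sound (S := T5.ds_pp) T5.ok_pp (w := 40) (j := 2) (by decide +kernel)
theorem L02006 : Good (Phi V5.P V5.D 1 1) ⟨8, 212, 7, 53, 4, 10, 2, 1, 5, 15⟩ :=
  out_sound (S := T5.ds_pp) T5.ok_pp (w := 36) (j := 2) (by decide +kernel)
theorem L02007 : Good (Phi V5.P V5.D 1 1) ⟨8, 212, 7, 53, 4, 11, 2, 1, 4, 7⟩ :=
  out_sound (S := T5.ds_pp) T5.ok_pp (w := 34) (j := 2) (by decide +kernel)
theorem L02008 : Good (Phi V5.P V5.D 1 1) ⟨8, 213, 6, 26, 2, 2, 2, 1, 4, 7⟩ :=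
  out_sound (S := T5.ds_pp) T5.ok_pp (w := 81) (j := 3) (by decide +kernel)
theorem L02009 : Good (Phi V5.P V5.D 1 1) ⟨7, 106, 6, 27, 3, 4, 3, 2, 4, 7⟩ :=
  out_sound (S := T5.ds_pp) T5.ok_pp (w := 27) (j := 1) (by decide +kernel)
theorem L02010 : Good (Phi V5.P V5.D 1 1) ⟨7, 106, 6, 27, 4, 8, 3, 3, 5, 14⟩ :=
  out_sound (S := T5.ds_pp) T5.ok_pp (w := 31) (j := 1) (by decide +kernel)
theorem L02011 : Good (Phi V5.P V5.D 1 1) ⟨7, 106, 6, 27, 4, 9, 4, 6, 5, 14⟩ :=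
  out_sound (S := T5.ds_pp) T5.ok_pp (w := 32) (j := 1) (by decide +kernel)
theorem L02012 : Good (Phi V5.P V5.D 1 1) ⟨7, 106, 6, 27, 5, 18, 4, 7, 6, 28⟩ :=
  leafX_sound T5.ok_pp T5.Ypp.bz_eq (w := 302) (c := ⟨⟨.negSucc 2286, .negSucc 25, .negSucc 0, .negSucc 0, .negSucc 76, .ofNat 1⟩, ⟨.negSucc 1177, .negSucc 32, .negSucc 13, .negSucc 0, .negSucc 41, .ofNat 1⟩, ⟨.ofNat 1420, .ofNat 9, .negSucc 23, .ofNat 1, .ofNat 49, .negSucc 0⟩, ⟨.negSucc 3238, .negSucc 1, .ofNat 4, .negSucc 0, .negSucc 89, .ofNat 2⟩, ⟨.negSucc 454, .negSucc 1, .negSucc 1, .ofNat 0, .negSucc 50, .ofNat 0⟩, .ofNat 163, .negSucc 44, .ofNat 0, .negSucc 44, .ofNat 220, .ofNat 0, .ofNat 150, .ofNat 48, .negSucc 11, .ofNat 0, .ofNat 128, .negSucc 5, .ofNat 0, .ofNat 0, .ofNat 460, .ofNat 4987737, .ofNat 0, .ofNat 0, .ofNat 0, .ofNat 0, .ofNat 665949112139725307623341617481298706279130851242345731688683798528,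 .ofNat 2801791271794248975752906356490243151338144107613373769896165376, .ofNat 0, .ofNat 0, .ofNat 357627992874834184756562986242204908837490024904058564526221557760, .ofNat 214223518989537064131717058847235747350464330889057323515379712, .ofNat 0, .ofNat 0, .ofNat 739190288919111728952861196916072314300078262751380509417837428736, .ofNat 621989181318790798287624348446306532570655914668189127570096128, .ofNat 0, .ofNat 0⟩)
    (by decide +kernel)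
theorem L02013 : Good (Phi V5.P V5.D 1 1) ⟨7, 106, 6, 27, 5, 19, 6, 28, 7, 56⟩ :=
  out_sound (S := T5.ds_pp) T5.ok_pp (w := 40) (j := 1) (by decide +kernel)
theorem L02014 : Good (Phi V5.P V5.D 1 1) ⟨7, 106, 6, 27, 6, 38, 6, 29, 7, 56⟩ :=
  out_sound (S := T5.ds_pp) T5.ok_pp (w := 42) (j := 1) (by decide +kernel)
theorem L02015 : Good (Phi V5.P V5.D 1 1) ⟨7, 106, 6, 27, 6, 39, 6, 29, 7, 56⟩ :=
  out_sound (S := T5.ds_pp) T5.ok_pp (w := 52) (j := 2) (by decide +kernel)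
theorem L02016 : Good (Phi V5.P V5.D 1 1) ⟨7, 106, 6, 27, 5, 19, 5, 14, 7, 57⟩ :=
  out_sound (S := T5.ds_pp) T5.ok_pp (w := 39) (j := 1) (by decide +kernel)
theorem L02017 : Good (Phi V5.P V5.D 1 1) ⟨7, 106, 6, 27, 7, 76, 6, 30, 7, 56⟩ :=
  out_sound (S := T5.ds_pp) T5.ok_pp (w := 44) (j := 1) (by decide +kernel)
theorem L02018 : Good (Phi V5.P V5.D 1 1) ⟨7, 106, 6, 27, 8, 152, 8, 124, 9, 224⟩ :=
  out_sound (S := T5.ds_pp) T5.ok_pp (w := 52) (j := 1) (by decide +kernel)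
theorem L02019 : Good (Phi V5.P V5.D 1 1) ⟨7, 106, 6, 27, 8, 152, 9, 250, 10, 448⟩ :=
  out_sound (S := T5.ds_pp) T5.ok_pp (w := 55) (j := 1) (by decide +kernel)
theorem L02020 : Good (Phi V5.P V5.D 1 1) ⟨7, 106, 6, 27, 9, 304, 9, 251, 10, 448⟩ :=
  out_sound (S := T5.ds_pp) T5.ok_pp (w := 57) (j := 1) (by decide +kernel)
theorem L02021 : Good (Phi V5.P V5.D 1 1) ⟨7, 106, 6, 27, 9, 305, 9, 251, 10, 448⟩ :=
  out_sound (S := T5.ds_pp) T5.ok_pp (w := 70) (j := 2) (by decide +kernel)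
theorem L02022 : Good (Phi V5.P V5.D 1 1) ⟨7, 106, 6, 27, 8, 152, 8, 125, 10, 449⟩ :=
  out_sound (S := T5.ds_pp) T5.ok_pp (w := 54) (j := 1) (by decide +kernel)
theorem L02023 : Good (Phi V5.P V5.D 1 1) ⟨7, 106, 6, 27, 8, 152, 7, 62, 9, 225⟩ :=
  out_sound (S := T5.ds_pp) T5.ok_pp (w := 51) (j := 1) (by decide +kernel)
theorem L02024 : Good (Phi V5.P V5.D 1 1) ⟨7, 106, 6, 27, 10, 608, 9, 252, 10, 448⟩ :=
  out_sound (S := T5.ds_pp) T5.ok_pp (w := 59) (j := 1) (by decide +kernel)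
theorem L02025 : Good (Phi V5.P V5.D 1 1) ⟨7, 106, 6, 27, 11, 1216, 10, 506, 11, 896⟩ :=
  out_sound (S := T5.ds_pp) T5.ok_pp (w := 64) (j := 1) (by decide +kernel)
theorem L02026 : Good (Phi V5.P V5.D 1 1) ⟨7, 106, 6, 27, 11, 1216, 10, 507, 11, 896⟩ :=
  out_sound (S := T5.ds_pp) T5.ok_pp (w := 78) (j := 2) (by decide +kernel)
theorem L02027 : Good (Phi V5.P V5.D 1 1) ⟨7, 106, 6, 27, 11, 1217, 9, 253, 11, 896⟩ :=
  out_sound (S := T5.ds_pp) T5.ok_pp (w := 76) (j := 2) (by decide +kernel)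
theorem L02028 : Good (Phi V5.P V5.D 1 1) ⟨7, 106, 6, 27, 10, 608, 9, 253, 11, 897⟩ :=
  out_sound (S := T5.ds_pp) T5.ok_pp (w := 74) (j := 2) (by decide +kernel)
theorem L02029 : Good (Phi V5.P V5.D 1 1) ⟨7, 106, 6, 27, 10, 609, 8, 126, 10, 448⟩ :=
  out_sound (S := T5.ds_pp) T5.ok_pp (w := 70) (j := 2) (by decide +kernel)
theorem L02030 : Good (Phi V5.P V5.D 1 1) ⟨7, 106, 6, 27, 9, 304, 8, 126, 10, 449⟩ :=
  out_sound (S := T5.ds_pp) T5.ok_pp (w := 56) (j := 1) (by decide +kernel)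
theorem L02031 : Good (Phi V5.P V5.D 1 1) ⟨7, 106, 6, 27, 9, 304, 8, 127, 9, 224⟩ :=
  out_sound (S := T5.ds_pp) T5.ok_pp (w := 66) (j := 2) (by decide +kernel)
theorem L02032 : Good (Phi V5.P V5.D 1 1) ⟨7, 106, 6, 27, 9, 305, 7, 63, 9, 224⟩ :=
  out_sound (S := T5.ds_pp) T5.ok_pp (w := 64) (j := 2) (by decide +kernel)
theorem L02033 : Good (Phi V5.P V5.D 1 1) ⟨7, 106, 6, 27, 8, 152, 7, 63, 9, 225⟩ :=
  out_sound (S := T5.ds_pp) T5.ok_pp (w := 62) (j := 2) (by decide +kernel)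
theorem L02034 : Good (Phi V5.P V5.D 1 1) ⟨7, 106, 6, 27, 8, 153, 6, 31, 8, 112⟩ :=
  out_sound (S := T5.ds_pp) T5.ok_pp (w := 58) (j := 2) (by decide +kernel)
theorem L02035 : Good (Phi V5.P V5.D 1 1) ⟨7, 106, 6, 27, 7, 76, 6, 31, 8, 113⟩ :=
  out_sound (S := T5.ds_pp) T5.ok_pp (w := 56) (j := 2) (by decide +kernel)
theorem L02036 : Good (Phi V5.P V5.D 1 1) ⟨7, 106, 6, 27, 8, 154, 6, 30, 8, 112⟩ :=
  out_sound (S := T5.ds_pp) T5.ok_pp (w := 48) (j := 1) (by decide +kernel)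
theorem L02037 : Good (Phi V5.P V5.D 1 1) ⟨7, 106, 6, 27, 8, 155, 6, 30, 8, 112⟩ :=
  out_sound (S := T5.ds_pp) T5.ok_pp (w := 58) (j := 2) (by decide +kernel)
theorem L02038 : Good (Phi V5.P V5.D 1 1) ⟨7, 106, 6, 27, 7, 77, 6, 30, 8, 113⟩ :=
  out_sound (S := T5.ds_pp) T5.ok_pp (w := 46) (j := 1) (by decide +kernel)
theorem L02039 : Good (Phi V5.P V5.D 1 1) ⟨7, 106, 6, 27, 7, 77, 6, 31, 7, 56⟩ :=
  out_sound (S := T5.ds_pp) T5.ok_pp (w := 54) (j := 2) (by decide +kernel)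
theorem L02040 : Good (Phi V5.P V5.D 1 1) ⟨7, 106, 6, 27, 6, 38, 5, 15, 7, 57⟩ :=
  out_sound (S := T5.ds_pp) T5.ok_pp (w := 50) (j := 2) (by decide +kernel)
theorem L02041 : Good (Phi V5.P V5.D 1 1) ⟨7, 106, 6, 27, 6, 39, 5, 15, 6, 28⟩ :=
  out_sound (S := T5.ds_pp) T5.ok_pp (w := 48) (j := 2) (by decide +kernel)
theorem L02042 : Good (Phi V5.P V5.D 1 1) ⟨7, 106, 6, 27, 4, 9, 4, 7, 6, 29⟩ :=
  out_sound (S := T5.ds_pp) T5.ok_pp (w := 34) (j := 1) (by decide +kernel)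
theorem L02043 : Good (Phi V5.P V5.D 1 1) ⟨7, 106, 6, 27, 3, 4, 3, 3, 5, 15⟩ :=
  out_sound (S := T5.ds_pp) T5.ok_pp (w := 29) (j := 1) (by decide +kernel)
theorem L02044 : Good (Phi V5.P V5.D 1 1) ⟨7, 106, 6, 27, 4, 10, 3, 2, 5, 14⟩ :=
  out_sound (S := T5.ds_pp) T5.ok_pp (w := 31) (j := 1) (by decide +kernel)
theorem L02045 : Good (Phi V5.P V5.D 1 1) ⟨7, 106, 6, 27, 5, 20, 5, 12, 6, 28⟩ :=
  out_sound (S := T5.ds_pp) T5.ok_pp (w := 37) (j := 1) (by decide +kernel)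
theorem L02046 : Good (Phi V5.P V5.D 1 1) ⟨7, 106, 6, 27, 5, 20, 5, 13, 6, 28⟩ :=
  out_sound (S := T5.ds_pp) T5.ok_pp (w := 46) (j := 2) (by decide +kernel)
theorem L02047 : Good (Phi V5.P V5.D 1 1) ⟨7, 106, 6, 27, 5, 20, 4, 7, 6, 28⟩ :=
  out_sound (S := T5.ds_pp) T5.ok_pp (w := 44) (j := 2) (by decide +kernel)
theorem L02048 : Good (Phi V5.P V5.D 1 1) ⟨7, 106, 6, 27, 5, 20, 3, 3, 6, 29⟩ :=
  out_sound (S := T5.ds_pp) T5.ok_pp (w := 42) (j := 2) (by decide +kernel)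
theorem L02049 : Good (Phi V5.P V5.D 1 1) ⟨7, 106, 6, 27, 5, 21, 3, 3, 5, 14⟩ :=
  out_sound (S := T5.ds_pp) T5.ok_pp (w := 40) (j := 2) (by decide +kernel)
theorem L02050 : Good (Phi V5.P V5.D 1 1) ⟨7, 106, 6, 27, 4, 10, 2, 1, 5, 15⟩ :=
  out_sound (S := T5.ds_pp) T5.ok_pp (w := 36) (j := 2) (by decide +kernel)
theorem L02051 : Good (Phi V5.P V5.D 1 1) ⟨7, 106, 6, 27, 4, 11, 2, 1, 4, 7⟩ :=
  out_sound (S := T5.ds_pp) T5.ok_pp (w := 34) (j := 2) (by decide +kernel)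
theorem L02052 : Good (Phi V5.P V5.D 1 1) ⟨7, 106, 5, 13, 2, 3, 1, 0, 4, 7⟩ :=
  out_sound (S := T5.ds_pp) T5.ok_pp (w := 28) (j := 2) (by decide +kernel)
theorem L02053 : Good (Phi V5.P V5.D 1 1) ⟨7, 107, 5, 13, 1, 1, 1, 0, 4, 7⟩ :=
  out_sound (S := T5.ds_pp) T5.ok_pp (w := 73) (j := 3) (by decide +kernel)
theorem L02054 : Good (Phi V5.P V5.D 1 1) ⟨5, 27, 4, 6, 1, 1, 1, 0, 4, 7⟩ :=
  out_sound (S := T5.ds_pp) T5.ok_pp (w := 59) (j := 3) (by decide +kernel)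
theorem L02055 : Good (Phi V5.P V5.D 1 1) ⟨5, 26, 4, 7, 2, 2, 2, 0, 4, 7⟩ :=
  out_sound (S := T5.ds_pp) T5.ok_pp (w := 24) (j := 1) (by decide +kernel)
theorem L02056 : Good (Phi V5.P V5.D 1 1) ⟨5, 26, 5, 14, 3, 4, 3, 2, 4, 7⟩ :=
  out_sound (S := T5.ds_pp) T5.ok_pp (w := 27) (j := 1) (by decide +kernel)
theorem L02057 : Good (Phi V5.P V5.D 1 1) ⟨5, 26, 5, 14, 4, 8, 3, 3, 5, 14⟩ :=
  out_sound (S := T5.ds_pp) T5.ok_pp (w := 31) (j := 1) (by decide +kernel)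
theorem L02058 : Good (Phi V5.P V5.D 1 1) ⟨5, 26, 5, 14, 4, 9, 4, 6, 5, 14⟩ :=
  out_sound (S := T5.ds_pp) T5.ok_pp (w := 32) (j := 1) (by decide +kernel)
theorem L02059 : Good (Phi V5.P V5.D 1 1) ⟨5, 26, 5, 14, 5, 18, 4, 7, 6, 28⟩ :=
  leafX_sound T5.ok_pp T5.Ypp.bz_eq (w := 291) (c := ⟨⟨.negSucc 2238, .negSucc 103, .negSucc 1, .negSucc 0, .negSucc 73, .ofNat 1⟩, ⟨.negSucc 1130, .negSucc 129, .negSucc 28, .negSucc 0, .negSucc 39, .ofNat 1⟩, ⟨.ofNat 1386, .ofNat 37, .negSucc 45, .ofNat 1, .ofNat 41, .negSucc 0⟩, ⟨.negSucc 3232, .negSucc 7, .ofNat 7, .negSucc 0, .negSucc 87, .ofNat 2⟩, ⟨.negSucc 455, .negSucc 7, .negSucc 3, .ofNat 0, .negSucc 47, .ofNat 0⟩, .ofNat 164, .negSucc 45, .ofNat 0, .negSucc 45, .ofNat 223, .ofNat 0, .ofNat 151, .ofNat 49, .negSucc 11, .ofNat 0, .ofNat 128, .negSucc 4, .ofNat 0, .ofNat 0, .ofNat 464, .ofNat 4695530, .ofNat 0, .ofNat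 0, .ofNat 0, .ofNat 0, .ofNat 304802681631821799915034781698055460248029182325690531936468992, .ofNat 1265209293033554929616591674969157309453579685688898586935296, .ofNat 4764711939178042747159440668921976365929125945739837440, .ofNat 0, .ofNat 184142089893884786080015454083948902869915659788104085238972416, .ofNat 0, .ofNat 0, .ofNat 0, .ofNat 362628018206498721525244034070594055658228545060318160793632768, .ofNat 311075943183174161604165466465477677488188185231388428992512, .ofNat 7473413283949055828912388444501050775382369338998652928, .ofNat 0⟩)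
    (by decide +kernel)
theorem L02060 : Good (Phi V5.P V5.D 1 1) ⟨5, 26, 5, 14, 5, 19, 6, 28, 7, 56⟩ :=
  out_sound (S := T5.ds_pp) T5.ok_pp (w := 40) (j := 1) (by decide +kernel)
theorem L02061 : Good (Phi V5.P V5.D 1 1) ⟨5, 26, 5, 14, 6, 38, 6, 29, 7, 56⟩ :=
  out_sound (S := T5.ds_pp) T5.ok_pp (w := 42) (j := 1) (by decide +kernel)
theorem L02062 : Good (Phi V5.P V5.D 1 1) ⟨5, 26, 5, 14, 6, 39, 6, 29, 7, 56⟩ :=
  out_sound (S := T5.ds_pp) T5.ok_pp (w := 52) (j := 2) (by decide +kernel)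
theorem L02063 : Good (Phi V5.P V5.D 1 1) ⟨5, 26, 5, 14, 5, 19, 5, 14, 7, 57⟩ :=
  out_sound (S := T5.ds_pp) T5.ok_pp (w := 39) (j := 1) (by decide +kernel)
theorem L02064 : Good (Phi V5.P V5.D 1 1) ⟨5, 26, 5, 14, 7, 76, 6, 30, 7, 56⟩ :=
  out_sound (S := T5.ds_pp) T5.ok_pp (w := 44) (j := 1) (by decide +kernel)
theorem L02065 : Good (Phi V5.P V5.D 1 1) ⟨5, 26, 5, 14, 8, 152, 8, 124, 9, 224⟩ :=
  out_sound (S := T5.ds_pp) T5.ok_pp (w := 52) (j := 1) (by decide +kernel)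
theorem L02066 : Good (Phi V5.P V5.D 1 1) ⟨5, 26, 5, 14, 8, 152, 9, 250, 10, 448⟩ :=
  out_sound (S := T5.ds_pp) T5.ok_pp (w := 55) (j := 1) (by decide +kernel)
theorem L02067 : Good (Phi V5.P V5.D 1 1) ⟨5, 26, 5, 14, 9, 304, 9, 251, 10, 448⟩ :=
  out_sound (S := T5.ds_pp) T5.ok_pp (w := 57) (j := 1) (by decide +kernel)
theorem L02068 : Good (Phi V5.P V5.D 1 1) ⟨5, 26, 5, 14, 9, 305, 9, 251, 10, 448⟩ :=
  out_sound (S := T5.ds_pp) T5.ok_pp (w := 70) (j := 2) (by decide +kernel)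
theorem L02069 : Good (Phi V5.P V5.D 1 1) ⟨5, 26, 5, 14, 8, 152, 8, 125, 10, 449⟩ :=
  out_sound (S := T5.ds_pp) T5.ok_pp (w := 54) (j := 1) (by decide +kernel)
theorem L02070 : Good (Phi V5.P V5.D 1 1) ⟨5, 26, 5, 14, 8, 152, 7, 62, 9, 225⟩ :=
  out_sound (S := T5.ds_pp) T5.ok_pp (w := 51) (j := 1) (by decide +kernel)
theorem L02071 : Good (Phi V5.P V5.D 1 1) ⟨5, 26, 5, 14, 10, 608, 9, 252, 10, 448⟩ :=
  out_sound (S := T5.ds_pp) T5.ok_pp (w := 59) (j := 1) (by decide +kernel)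
theorem L02072 : Good (Phi V5.P V5.D 1 1) ⟨5, 26, 5, 14, 11, 1216, 10, 506, 11, 896⟩ :=
  out_sound (S := T5.ds_pp) T5.ok_pp (w := 64) (j := 1) (by decide +kernel)
theorem L02073 : Good (Phi V5.P V5.D 1 1) ⟨5, 26, 5, 14, 11, 1216, 10, 507, 11, 896⟩ :=
  out_sound (S := T5.ds_pp) T5.ok_pp (w := 78) (j := 2) (by decide +kernel)
theorem L02074 : Good (Phi V5.P V5.D 1 1) ⟨5, 26, 5, 14, 11, 1217, 9, 253, 11, 896⟩ :=
  out_sound (S := T5.ds_pp) T5.ok_pp (w := 76) (j := 2) (by decide +kernel)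
theorem L02075 : Good (Phi V5.P V5.D 1 1) ⟨5, 26, 5, 14, 10, 608, 9, 253, 11, 897⟩ :=
  out_sound (S := T5.ds_pp) T5.ok_pp (w := 74) (j := 2) (by decide +kernel)
theorem L02076 : Good (Phi V5.P V5.D 1 1) ⟨5, 26, 5, 14, 10, 609, 8, 126, 10, 448⟩ :=
  out_sound (S := T5.ds_pp) T5.ok_pp (w := 70) (j := 2) (by decide +kernel)
theorem L02077 : Good (Phi V5.P V5.D 1 1) ⟨5, 26, 5, 14, 9, 304, 8, 126, 10, 449⟩ :=
  out_sound (S := T5.ds_pp) T5.ok_pp (w := 56) (j := 1) (by decide +kernel)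
theorem L02078 : Good (Phi V5.P V5.D 1 1) ⟨5, 26, 5, 14, 9, 304, 8, 127, 9, 224⟩ :=
  out_sound (S := T5.ds_pp) T5.ok_pp (w := 66) (j := 2) (by decide +kernel)
theorem L02079 : Good (Phi V5.P V5.D 1 1) ⟨5, 26, 5, 14, 9, 305, 7, 63, 9, 224⟩ :=
  out_sound (S := T5.ds_pp) T5.ok_pp (w := 64) (j := 2) (by decide +kernel)
theorem L02080 : Good (Phi V5.P V5.D 1 1) ⟨5, 26, 5, 14, 8, 152, 7, 63, 9, 225⟩ :=
  out_sound (S := T5.ds_pp) T5.ok_pp (w := 62) (j := 2) (by decide +kernel)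
theorem L02081 : Good (Phi V5.P V5.D 1 1) ⟨5, 26, 5, 14, 8, 153, 6, 31, 8, 112⟩ :=
  out_sound (S := T5.ds_pp) T5.ok_pp (w := 58) (j := 2) (by decide +kernel)
theorem L02082 : Good (Phi V5.P V5.D 1 1) ⟨5, 26, 5, 14, 7, 76, 6, 31, 8, 113⟩ :=
  out_sound (S := T5.ds_pp) T5.ok_pp (w := 56) (j := 2) (by decide +kernel)
theorem L02083 : Good (Phi V5.P V5.D 1 1) ⟨5, 26, 5, 14, 8, 154, 6, 30, 8, 112⟩ :=
  out_sound (S := T5.ds_pp) T5.ok_pp (w := 48) (j := 1) (by decide +kernel)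
theorem L02084 : Good (Phi V5.P V5.D 1 1) ⟨5, 26, 5, 14, 8, 155, 6, 30, 8, 112⟩ :=
  out_sound (S := T5.ds_pp) T5.ok_pp (w := 58) (j := 2) (by decide +kernel)
theorem L02085 : Good (Phi V5.P V5.D 1 1) ⟨5, 26, 5, 14, 7, 77, 6, 30, 8, 113⟩ :=
  out_sound (S := T5.ds_pp) T5.ok_pp (w := 46) (j := 1) (by decide +kernel)
theorem L02086 : Good (Phi V5.P V5.D 1 1) ⟨5, 26, 5, 14, 7, 77, 6, 31, 7, 56⟩ :=
  out_sound (S := T5.ds_pp) T5.ok_pp (w := 54) (j := 2) (by decide +kernel)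
theorem L02087 : Good (Phi V5.P V5.D 1 1) ⟨5, 26, 5, 14, 6, 38, 5, 15, 7, 57⟩ :=
  out_sound (S := T5.ds_pp) T5.ok_pp (w := 50) (j := 2) (by decide +kernel)
theorem L02088 : Good (Phi V5.P V5.D 1 1) ⟨5, 26, 5, 14, 6, 39, 5, 15, 6, 28⟩ :=
  out_sound (S := T5.ds_pp) T5.ok_pp (w := 48) (j := 2) (by decide +kernel)
theorem L02089 : Good (Phi V5.P V5.D 1 1) ⟨5, 26, 5, 14, 4, 9, 4, 7, 6, 29⟩ :=
  out_sound (S := T5.ds_pp) T5.ok_pp (w := 34) (j := 1) (by decide +kernel)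
theorem L02090 : Good (Phi V5.P V5.D 1 1) ⟨5, 26, 5, 14, 3, 4, 3, 3, 5, 15⟩ :=
  out_sound (S := T5.ds_pp) T5.ok_pp (w := 29) (j := 1) (by decide +kernel)
theorem L02091 : Good (Phi V5.P V5.D 1 1) ⟨5, 26, 5, 14, 4, 10, 3, 2, 5, 14⟩ :=
  out_sound (S := T5.ds_pp) T5.ok_pp (w := 31) (j := 1) (by decide +kernel)
theorem L02092 : Good (Phi V5.P V5.D 1 1) ⟨5, 26, 5, 14, 5, 20, 5, 12, 6, 28⟩ :=
  out_sound (S := T5.ds_pp) T5.ok_pp (w := 37) (j := 1) (by decide +kernel)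
theorem L02093 : Good (Phi V5.P V5.D 1 1) ⟨5, 26, 5, 14, 5, 20, 5, 13, 6, 28⟩ :=
  out_sound (S := T5.ds_pp) T5.ok_pp (w := 46) (j := 2) (by decide +kernel)
theorem L02094 : Good (Phi V5.P V5.D 1 1) ⟨5, 26, 5, 14, 5, 20, 4, 7, 6, 28⟩ :=
  out_sound (S := T5.ds_pp) T5.ok_pp (w := 44) (j := 2) (by decide +kernel)
theorem L02095 : Good (Phi V5.P V5.D 1 1) ⟨5, 26, 5, 14, 5, 20, 3, 3, 6, 29⟩ :=
  out_sound (S := T5.ds_pp) T5.ok_pp (w := 42) (j := 2) (by decide +kernel)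
theorem L02096 : Good (Phi V5.P V5.D 1 1) ⟨5, 26, 5, 14, 5, 21, 3, 3, 5, 14⟩ :=
  out_sound (S := T5.ds_pp) T5.ok_pp (w := 40) (j := 2) (by decide +kernel)
theorem L02097 : Good (Phi V5.P V5.D 1 1) ⟨5, 26, 5, 14, 4, 10, 2, 1, 5, 15⟩ :=
  out_sound (S := T5.ds_pp) T5.ok_pp (w := 36) (j := 2) (by decide +kernel)
theorem L02098 : Good (Phi V5.P V5.D 1 1) ⟨5, 26, 5, 14, 4, 11, 2, 1, 4, 7⟩ :=
  out_sound (S := T5.ds_pp) T5.ok_pp (w := 34) (j := 2) (by decide +kernel)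
theorem L02099 : Good (Phi V5.P V5.D 1 1) ⟨7, 104, 5, 15, 2, 2, 2, 1, 4, 7⟩ :=
  out_sound (S := T5.ds_pp) T5.ok_pp (w := 73) (j := 3) (by decide +kernel)
theorem L02100 : Good (Phi V5.P V5.D 1 1) ⟨8, 210, 6, 30, 2, 2, 2, 1, 4, 7⟩ :=
  out_sound (S := T5.ds_pp) T5.ok_pp (w := 81) (j := 3) (by decide +kernel)
theorem L02101 : Good (Phi V5.P V5.D 1 1) ⟨8, 211, 7, 60, 3, 4, 3, 2, 4, 7⟩ :=
  out_sound (S := T5.ds_pp) T5.ok_pp (w := 27) (j := 1) (by decide +kernel)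
theorem L02102 : Good (Phi V5.P V5.D 1 1) ⟨8, 211, 7, 60, 4, 8, 3, 3, 5, 14⟩ :=
  out_sound (S := T5.ds_pp) T5.ok_pp (w := 31) (j := 1) (by decide +kernel)
theorem L02103 : Good (Phi V5.P V5.D 1 1) ⟨8, 211, 7, 60, 4, 9, 4, 6, 5, 14⟩ :=
  out_sound (S := T5.ds_pp) T5.ok_pp (w := 32) (j := 1) (by decide +kernel)
theorem L02104 : Good (Phi V5.P V5.D 1 1) ⟨8, 211, 7, 60, 5, 18, 4, 7, 6, 28⟩ :=
  leafX_sound T5.ok_pp T5.Ypp.bz_eq (w := 309) (c := ⟨⟨.negSucc 2281, .negSucc 12, .ofNat 0, .negSucc 0, .negSucc 71, .ofNat 1⟩, ⟨.negSucc 1207, .negSucc 15, .negSucc 6, .negSucc 0, .negSucc 38, .ofNat 1⟩, ⟨.ofNat 1361, .ofNat 4, .negSucc 10, .ofNat 1, .ofNat 34, .negSucc 0⟩, ⟨.negSucc 3241, .negSucc 0, .ofNat 2, .negSucc 0, .negSucc 74, .ofNat 2⟩, ⟨.negSucc 470, .negSucc 0, .negSucc 0, .ofNat 0, .negSucc 40, .ofNat 0⟩, .ofNat 354, .negSucc 240, .ofNat 0, .negSucc 240,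 .ofNat 664, .ofNat 0, .ofNat 149, .ofNat 117, .negSucc 13, .ofNat 0, .ofNat 128, .negSucc 6, .ofNat 0, .ofNat 0, .ofNat 657, .ofNat 7037289, .ofNat 0, .ofNat 0, .ofNat 0, .ofNat 0, .ofNat 117514144747333403505753062469644147634552459061529750741697460961280, .ofNat 474885699171899649229485033244746053534353317102347781353737551872, .ofNat 0, .ofNat 0, .ofNat 115846223844672703172476105253753239633177385468813775068976319037440, .ofNat 252487086003413218503537528766172291468260869779419116337119625216, .ofNat 5547931941194889511544397746321690661539031617948876800, .ofNat 0, .ofNat 199038374938046442709812809596323097048036870887654145380091313520640, .ofNat 188524001260484656687490574392236178583685400078612427918698086400, .ofNat 2311242346814351842972458628565054112276197998856241152, .ofNat 0⟩)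
    (by decide +kernel)
theorem L02105 : Good (Phi V5.P V5.D 1 1) ⟨8, 211, 7, 60, 5, 19, 6, 28, 7, 56⟩ :=
  out_sound (S := T5.ds_pp) T5.ok_pp (w := 40) (j := 1) (by decide +kernel)
theorem L02106 : Good (Phi V5.P V5.D 1 1) ⟨8, 211, 7, 60, 6, 38, 6, 29, 7, 56⟩ :=
  out_sound (S := T5.ds_pp) T5.ok_pp (w := 42) (j := 1) (by decide +kernel)
theorem L02107 : Good (Phi V5.P V5.D 1 1) ⟨8, 211, 7, 60, 6, 39, 6, 29, 7, 56⟩ :=
  out_sound (S := T5.ds_pp) T5.ok_pp (w := 52) (j := 2) (by decide +kernel)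
theorem L02108 : Good (Phi V5.P V5.D 1 1) ⟨8, 211, 7, 60, 5, 19, 5, 14, 7, 57⟩ :=
  out_sound (S := T5.ds_pp) T5.ok_pp (w := 39) (j := 1) (by decide +kernel)
theorem L02109 : Good (Phi V5.P V5.D 1 1) ⟨8, 211, 7, 60, 7, 76, 6, 30, 7, 56⟩ :=
  out_sound (S := T5.ds_pp) T5.ok_pp (w := 44) (j := 1) (by decide +kernel)
theorem L02110 : Good (Phi V5.P V5.D 1 1) ⟨8, 211, 7, 60, 8, 152, 8, 124, 9, 224⟩ :=
  out_sound (S := T5.ds_pp) T5.ok_pp (w := 52) (j := 1) (by decide +kernel)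
theorem L02111 : Good (Phi V5.P V5.D 1 1) ⟨8, 211, 7, 60, 8, 152, 9, 250, 10, 448⟩ :=
  out_sound (S := T5.ds_pp) T5.ok_pp (w := 55) (j := 1) (by decide +kernel)
theorem L02112 : Good (Phi V5.P V5.D 1 1) ⟨8, 211, 7, 60, 9, 304, 9, 251, 10, 448⟩ :=
  out_sound (S := T5.ds_pp) T5.ok_pp (w := 57) (j := 1) (by decide +kernel)
theorem L02113 : Good (Phi V5.P V5.D 1 1) ⟨8, 211, 7, 60, 9, 305, 9, 251, 10, 448⟩ :=
  out_sound (S := T5.ds_pp) T5.ok_pp (w := 70) (j := 2) (by decide +kernel)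
theorem L02114 : Good (Phi V5.P V5.D 1 1) ⟨8, 211, 7, 60, 8, 152, 8, 125, 10, 449⟩ :=
  out_sound (S := T5.ds_pp) T5.ok_pp (w := 54) (j := 1) (by decide +kernel)
theorem L02115 : Good (Phi V5.P V5.D 1 1) ⟨8, 211, 7, 60, 8, 152, 7, 62, 9, 225⟩ :=
  out_sound (S := T5.ds_pp) T5.ok_pp (w := 51) (j := 1) (by decide +kernel)
theorem L02116 : Good (Phi V5.P V5.D 1 1) ⟨8, 211, 7, 60, 10, 608, 9, 252, 10, 448⟩ :=
  out_sound (S := T5.ds_pp) T5.ok_pp (w := 59) (j := 1) (by decide +kernel)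
theorem L02117 : Good (Phi V5.P V5.D 1 1) ⟨8, 211, 7, 60, 11, 1216, 10, 506, 11, 896⟩ :=
  out_sound (S := T5.ds_pp) T5.ok_pp (w := 64) (j := 1) (by decide +kernel)
theorem L02118 : Good (Phi V5.P V5.D 1 1) ⟨8, 211, 7, 60, 11, 1216, 10, 507, 11, 896⟩ :=
  out_sound (S := T5.ds_pp) T5.ok_pp (w := 78) (j := 2) (by decide +kernel)
theorem L02119 : Good (Phi V5.P V5.D 1 1) ⟨8, 211, 7, 60, 11, 1217, 9, 253, 11, 896⟩ :=
  out_sound (S := T5.ds_pp) T5.ok_pp (w := 76) (j := 2) (by decide +kernel)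
theorem L02120 : Good (Phi V5.P V5.D 1 1) ⟨8, 211, 7, 60, 10, 608, 9, 253, 11, 897⟩ :=
  out_sound (S := T5.ds_pp) T5.ok_pp (w := 74) (j := 2) (by decide +kernel)
theorem L02121 : Good (Phi V5.P V5.D 1 1) ⟨8, 211, 7, 60, 10, 609, 8, 126, 10, 448⟩ :=
  out_sound (S := T5.ds_pp) T5.ok_pp (w := 70) (j := 2) (by decide +kernel)
theorem L02122 : Good (Phi V5.P V5.D 1 1) ⟨8, 211, 7, 60, 9, 304, 8, 126, 10, 449⟩ :=
  out_sound (S := T5.ds_pp) T5.ok_pp (w := 56) (j := 1) (by decide +kernel)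
theorem L02123 : Good (Phi V5.P V5.D 1 1) ⟨8, 211, 7, 60, 9, 304, 8, 127, 9, 224⟩ :=
  out_sound (S := T5.ds_pp) T5.ok_pp (w := 66) (j := 2) (by decide +kernel)
theorem L02124 : Good (Phi V5.P V5.D 1 1) ⟨8, 211, 7, 60, 9, 305, 7, 63, 9, 224⟩ :=
  out_sound (S := T5.ds_pp) T5.ok_pp (w := 64) (j := 2) (by decide +kernel)
theorem L02125 : Good (Phi V5.P V5.D 1 1) ⟨8, 211, 7, 60, 8, 152, 7, 63, 9, 225⟩ :=
  out_sound (S := T5.ds_pp) T5.ok_pp (w := 62) (j := 2) (by decide +kernel)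
theorem L02126 : Good (Phi V5.P V5.D 1 1) ⟨8, 211, 7, 60, 8, 153, 6, 31, 8, 112⟩ :=
  out_sound (S := T5.ds_pp) T5.ok_pp (w := 58) (j := 2) (by decide +kernel)
theorem L02127 : Good (Phi V5.P V5.D 1 1) ⟨8, 211, 7, 60, 7, 76, 6, 31, 8, 113⟩ :=
  out_sound (S := T5.ds_pp) T5.ok_pp (w := 56) (j := 2) (by decide +kernel)
theorem L02128 : Good (Phi V5.P V5.D 1 1) ⟨8, 211, 7, 60, 8, 154, 6, 30, 8, 112⟩ :=
  out_sound (S := T5.ds_pp) T5.ok_pp (w := 48) (j := 1) (by decide +kernel)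
theorem L02129 : Good (Phi V5.P V5.D 1 1) ⟨8, 211, 7, 60, 8, 155, 6, 30, 8, 112⟩ :=
  out_sound (S := T5.ds_pp) T5.ok_pp (w := 58) (j := 2) (by decide +kernel)
theorem L02130 : Good (Phi V5.P V5.D 1 1) ⟨8, 211, 7, 60, 7, 77, 6, 30, 8, 113⟩ :=
  out_sound (S := T5.ds_pp) T5.ok_pp (w := 46) (j := 1) (by decide +kernel)
theorem L02131 : Good (Phi V5.P V5.D 1 1) ⟨8, 211, 7, 60, 7, 77, 6, 31, 7, 56⟩ :=
  out_sound (S := T5.ds_pp) T5.ok_pp (w := 54) (j := 2) (by decide +kernel)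
theorem L02132 : Good (Phi V5.P V5.D 1 1) ⟨8, 211, 7, 60, 6, 38, 5, 15, 7, 57⟩ :=
  out_sound (S := T5.ds_pp) T5.ok_pp (w := 50) (j := 2) (by decide +kernel)
theorem L02133 : Good (Phi V5.P V5.D 1 1) ⟨8, 211, 7, 60, 6, 39, 5, 15, 6, 28⟩ :=
  out_sound (S := T5.ds_pp) T5.ok_pp (w := 48) (j := 2) (by decide +kernel)
theorem L02134 : Good (Phi V5.P V5.D 1 1) ⟨8, 211, 7, 60, 4, 9, 4, 7, 6, 29⟩ :=
  out_sound (S := T5.ds_pp) T5.ok_pp (w := 34) (j := 1) (by decide +kernel)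
theorem L02135 : Good (Phi V5.P V5.D 1 1) ⟨8, 211, 7, 60, 3, 4, 3, 3, 5, 15⟩ :=
  out_sound (S := T5.ds_pp) T5.ok_pp (w := 29) (j := 1) (by decide +kernel)
theorem L02136 : Good (Phi V5.P V5.D 1 1) ⟨8, 211, 7, 60, 4, 10, 3, 2, 5, 14⟩ :=
  out_sound (S := T5.ds_pp) T5.ok_pp (w := 31) (j := 1) (by decide +kernel)
theorem L02137 : Good (Phi V5.P V5.D 1 1) ⟨8, 211, 7, 60, 5, 20, 5, 12, 6, 28⟩ :=
  out_sound (S := T5.ds_pp) T5.ok_pp (w := 37) (j := 1) (by decide +kernel)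
theorem L02138 : Good (Phi V5.P V5.D 1 1) ⟨8, 211, 7, 60, 5, 20, 5, 13, 6, 28⟩ :=
  out_sound (S := T5.ds_pp) T5.ok_pp (w := 46) (j := 2) (by decide +kernel)
theorem L02139 : Good (Phi V5.P V5.D 1 1) ⟨8, 211, 7, 60, 5, 20, 4, 7, 6, 28⟩ :=
  out_sound (S := T5.ds_pp) T5.ok_pp (w := 44) (j := 2) (by decide +kernel)
theorem L02140 : Good (Phi V5.P V5.D 1 1) ⟨8, 211, 7, 60, 5, 20, 3, 3, 6, 29⟩ :=
  out_sound (S := T5.ds_pp) T5.ok_pp (w := 42) (j := 2) (by decide +kernel)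
theorem L02141 : Good (Phi V5.P V5.D 1 1) ⟨8, 211, 7, 60, 5, 21, 3, 3, 5, 14⟩ :=
  out_sound (S := T5.ds_pp) T5.ok_pp (w := 40) (j := 2) (by decide +kernel)
theorem L02142 : Good (Phi V5.P V5.D 1 1) ⟨8, 211, 7, 60, 4, 10, 2, 1, 5, 15⟩ :=
  out_sound (S := T5.ds_pp) T5.ok_pp (w := 36) (j := 2) (by decide +kernel)
theorem L02143 : Good (Phi V5.P V5.D 1 1) ⟨8, 211, 7, 60, 4, 11, 2, 1, 4, 7⟩ :=
  out_sound (S := T5.ds_pp) T5.ok_pp (w := 34) (j := 2) (by decide +kernel)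
theorem L02144 : Good (Phi V5.P V5.D 1 1) ⟨8, 211, 7, 61, 2, 2, 2, 1, 4, 7⟩ :=
  out_sound (S := T5.ds_pp) T5.ok_pp (w := 83) (j := 3) (by decide +kernel)
theorem L02145 : Good (Phi V5.P V5.D 1 1) ⟨7, 105, 6, 31, 2, 2, 2, 1, 4, 7⟩ :=
  out_sound (S := T5.ds_pp) T5.ok_pp (w := 75) (j := 3) (by decide +kernel)
theorem L02146 : Good (Phi V5.P V5.D 1 1) ⟨6, 53, 5, 15, 3, 4, 3, 2, 4, 7⟩ :=
  out_sound (S := T5.ds_pp) T5.ok_pp (w := 27) (j := 1) (by decide +kernel)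
theorem L02147 : Good (Phi V5.P V5.D 1 1) ⟨6, 53, 5, 15, 4, 8, 3, 3, 5, 14⟩ :=
  out_sound (S := T5.ds_pp) T5.ok_pp (w := 31) (j := 1) (by decide +kernel)
theorem L02148 : Good (Phi V5.P V5.D 1 1) ⟨6, 53, 5, 15, 4, 9, 4, 6, 5, 14⟩ :=
  out_sound (S := T5.ds_pp) T5.ok_pp (w := 32) (j := 1) (by decide +kernel)
theorem L02149 : Good (Phi V5.P V5.D 1 1) ⟨6, 53, 5, 15, 5, 18, 4, 7, 6, 28⟩ :=
  leafX_sound T5.ok_pp T5.Ypp.bz_eq (w := 295) (c := ⟨⟨.negSucc 2291, .negSucc 52, .negSucc 1, .negSucc 0, .negSucc 74, .ofNat 1⟩, ⟨.negSucc 1221, .negSucc 66, .negSucc 27, .negSucc 0, .negSucc 40, .ofNat 1⟩, ⟨.ofNat 1361, .ofNat 18, .negSucc 44, .ofNat 1, .ofNat 39, .negSucc 0⟩, ⟨.negSucc 3238, .negSucc 3, .ofNat 8, .negSucc 0, .negSucc 78, .ofNat 2⟩, ⟨.negSucc 468, .negSucc 3, .negSucc 3, .ofNat 0, .negSucc 42, .ofNat 0⟩, .ofNat 354, .negSucc 240, .ofNat 0, .negSucc 240,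 .ofNat 650, .ofNat 0, .ofNat 147, .ofNat 116, .negSucc 13, .ofNat 0, .ofNat 128, .negSucc 6, .ofNat 0, .ofNat 0, .ofNat 645, .ofNat 6258585, .ofNat 0, .ofNat 0, .ofNat 0, .ofNat 0, .ofNat 6224245472736038806387784147801802276169374705654030528287866880, .ofNat 26575418325234794848832737163284808612858263162349096995389440, .ofNat 0, .ofNat 0, .ofNat 6319311699978778519062759021163536277132784608163615330067808256, .ofNat 12853611820794619423474130887300458529324475087086753616494592, .ofNat 0, .ofNat 0, .ofNat 11119653437255543667550664373471255156877429642229432507812544512, .ofNat 9972221249211871185800161137692960034369581102581663869698048, .ofNat 0, .ofNat 0⟩)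
    (by decide +kernel)
theorem L02150 : Good (Phi V5.P V5.D 1 1) ⟨6, 53, 5, 15, 5, 19, 6, 28, 7, 56⟩ :=
  out_sound (S := T5.ds_pp) T5.ok_pp (w := 40) (j := 1) (by decide +kernel)
theorem L02151 : Good (Phi V5.P V5.D 1 1) ⟨6, 53, 5, 15, 6, 38, 6, 29, 7, 56⟩ :=
  out_sound (S := T5.ds_pp) T5.ok_pp (w := 42) (j := 1) (by decide +kernel)
theorem L02152 : Good (Phi V5.P V5.D 1 1) ⟨6, 53, 5, 15, 6, 39, 6, 29, 7, 56⟩ :=
  out_sound (S := T5.ds_pp) T5.ok_pp (w := 52) (j := 2) (by decide +kernel)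
theorem L02153 : Good (Phi V5.P V5.D 1 1) ⟨6, 53, 5, 15, 5, 19, 5, 14, 7, 57⟩ :=
  out_sound (S := T5.ds_pp) T5.ok_pp (w := 39) (j := 1) (by decide +kernel)
theorem L02154 : Good (Phi V5.P V5.D 1 1) ⟨6, 53, 5, 15, 7, 76, 6, 30, 7, 56⟩ :=
  out_sound (S := T5.ds_pp) T5.ok_pp (w := 44) (j := 1) (by decide +kernel)
theorem L02155 : Good (Phi V5.P V5.D 1 1) ⟨6, 53, 5, 15, 8, 152, 8, 124, 9, 224⟩ :=
  out_sound (S := T5.ds_pp) T5.ok_pp (w := 52) (j := 1) (by decide +kernel)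
theorem L02156 : Good (Phi V5.P V5.D 1 1) ⟨6, 53, 5, 15, 8, 152, 9, 250, 10, 448⟩ :=
  out_sound (S := T5.ds_pp) T5.ok_pp (w := 55) (j := 1) (by decide +kernel)
theorem L02157 : Good (Phi V5.P V5.D 1 1) ⟨6, 53, 5, 15, 9, 304, 9, 251, 10, 448⟩ :=
  out_sound (S := T5.ds_pp) T5.ok_pp (w := 57) (j := 1) (by decide +kernel)
theorem L02158 : Good (Phi V5.P V5.D 1 1) ⟨6, 53, 5, 15, 9, 305, 9, 251, 10, 448⟩ :=
  out_sound (S := T5.ds_pp) T5.ok_pp (w := 70) (j := 2) (by decide +kernel)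
theorem L02159 : Good (Phi V5.P V5.D 1 1) ⟨6, 53, 5, 15, 8, 152, 8, 125, 10, 449⟩ :=
  out_sound (S := T5.ds_pp) T5.ok_pp (w := 54) (j := 1) (by decide +kernel)
theorem L02160 : Good (Phi V5.P V5.D 1 1) ⟨6, 53, 5, 15, 8, 152, 7, 62, 9, 225⟩ :=
  out_sound (S := T5.ds_pp) T5.ok_pp (w := 51) (j := 1) (by decide +kernel)
theorem L02161 : Good (Phi V5.P V5.D 1 1) ⟨6, 53, 5, 15, 10, 608, 9, 252, 10, 448⟩ :=
  out_sound (S := T5.ds_pp) T5.ok_pp (w := 59) (j := 1) (by decide +kernel)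
theorem L02162 : Good (Phi V5.P V5.D 1 1) ⟨6, 53, 5, 15, 11, 1216, 10, 506, 11, 896⟩ :=
  out_sound (S := T5.ds_pp) T5.ok_pp (w := 64) (j := 1) (by decide +kernel)
theorem L02163 : Good (Phi V5.P V5.D 1 1) ⟨6, 53, 5, 15, 11, 1216, 10, 507, 11, 896⟩ :=
  out_sound (S := T5.ds_pp) T5.ok_pp (w := 78) (j := 2) (by decide +kernel)
theorem L02164 : Good (Phi V5.P V5.D 1 1) ⟨6, 53, 5, 15, 11, 1217, 9, 253, 11, 896⟩ :=
  out_sound (S := T5.ds_pp) T5.ok_pp (w := 76) (j := 2) (by decide +kernel)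
theorem L02165 : Good (Phi V5.P V5.D 1 1) ⟨6, 53, 5, 15, 10, 608, 9, 253, 11, 897⟩ :=
  out_sound (S := T5.ds_pp) T5.ok_pp (w := 74) (j := 2) (by decide +kernel)
theorem L02166 : Good (Phi V5.P V5.D 1 1) ⟨6, 53, 5, 15, 10, 609, 8, 126, 10, 448⟩ :=
  out_sound (S := T5.ds_pp) T5.ok_pp (w := 70) (j := 2) (by decide +kernel)
theorem L02167 : Good (Phi V5.P V5.D 1 1) ⟨6, 53, 5, 15, 9, 304, 8, 126, 10, 449⟩ :=
  out_sound (S := T5.ds_pp) T5.ok_pp (w := 56) (j := 1) (by decide +kernel)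
theorem L02168 : Good (Phi V5.P V5.D 1 1) ⟨6, 53, 5, 15, 9, 304, 8, 127, 9, 224⟩ :=
  out_sound (S := T5.ds_pp) T5.ok_pp (w := 66) (j := 2) (by decide +kernel)
theorem L02169 : Good (Phi V5.P V5.D 1 1) ⟨6, 53, 5, 15, 9, 305, 7, 63, 9, 224⟩ :=
  out_sound (S := T5.ds_pp) T5.ok_pp (w := 64) (j := 2) (by decide +kernel)
theorem L02170 : Good (Phi V5.P V5.D 1 1) ⟨6, 53, 5, 15, 8, 152, 7, 63, 9, 225⟩ :=
  out_sound (S := T5.ds_pp) T5.ok_pp (w := 62) (j := 2) (by decide +kernel)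
theorem L02171 : Good (Phi V5.P V5.D 1 1) ⟨6, 53, 5, 15, 8, 153, 6, 31, 8, 112⟩ :=
  out_sound (S := T5.ds_pp) T5.ok_pp (w := 58) (j := 2) (by decide +kernel)
theorem L02172 : Good (Phi V5.P V5.D 1 1) ⟨6, 53, 5, 15, 7, 76, 6, 31, 8, 113⟩ :=
  out_sound (S := T5.ds_pp) T5.ok_pp (w := 56) (j := 2) (by decide +kernel)
theorem L02173 : Good (Phi V5.P V5.D 1 1) ⟨6, 53, 5, 15, 8, 154, 6, 30, 8, 112⟩ :=
  out_sound (S := T5.ds_pp) T5.ok_pp (w := 48) (j := 1) (by decide +kernel)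
theorem L02174 : Good (Phi V5.P V5.D 1 1) ⟨6, 53, 5, 15, 8, 155, 6, 30, 8, 112⟩ :=
  out_sound (S := T5.ds_pp) T5.ok_pp (w := 58) (j := 2) (by decide +kernel)
theorem L02175 : Good (Phi V5.P V5.D 1 1) ⟨6, 53, 5, 15, 7, 77, 6, 30, 8, 113⟩ :=
  out_sound (S := T5.ds_pp) T5.ok_pp (w := 46) (j := 1) (by decide +kernel)
theorem L02176 : Good (Phi V5.P V5.D 1 1) ⟨6, 53, 5, 15, 7, 77, 6, 31, 7, 56⟩ :=
  out_sound (S := T5.ds_pp) T5.ok_pp (w := 54) (j := 2) (by decide +kernel)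
theorem L02177 : Good (Phi V5.P V5.D 1 1) ⟨6, 53, 5, 15, 6, 38, 5, 15, 7, 57⟩ :=
  out_sound (S := T5.ds_pp) T5.ok_pp (w := 50) (j := 2) (by decide +kernel)
theorem L02178 : Good (Phi V5.P V5.D 1 1) ⟨6, 53, 5, 15, 6, 39, 5, 15, 6, 28⟩ :=
  out_sound (S := T5.ds_pp) T5.ok_pp (w := 48) (j := 2) (by decide +kernel)
theorem L02179 : Good (Phi V5.P V5.D 1 1) ⟨6, 53, 5, 15, 4, 9, 4, 7, 6, 29⟩ :=
  out_sound (S := T5.ds_pp) T5.ok_pp (w := 34) (j := 1) (by decide +kernel)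
theorem L02180 : Good (Phi V5.P V5.D 1 1) ⟨6, 53, 5, 15, 3, 4, 3, 3, 5, 15⟩ :=
  out_sound (S := T5.ds_pp) T5.ok_pp (w := 29) (j := 1) (by decide +kernel)
theorem L02181 : Good (Phi V5.P V5.D 1 1) ⟨6, 53, 5, 15, 4, 10, 3, 2, 5, 14⟩ :=
  out_sound (S := T5.ds_pp) T5.ok_pp (w := 31) (j := 1) (by decide +kernel)
theorem L02182 : Good (Phi V5.P V5.D 1 1) ⟨6, 53, 5, 15, 5, 20, 5, 12, 6, 28⟩ :=
  out_sound (S := T5.ds_pp) T5.ok_pp (w := 37) (j := 1) (by decide +kernel)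
theorem L02183 : Good (Phi V5.P V5.D 1 1) ⟨6, 53, 5, 15, 5, 20, 5, 13, 6, 28⟩ :=
  out_sound (S := T5.ds_pp) T5.ok_pp (w := 46) (j := 2) (by decide +kernel)
theorem L02184 : Good (Phi V5.P V5.D 1 1) ⟨6, 53, 5, 15, 5, 20, 4, 7, 6, 28⟩ :=
  out_sound (S := T5.ds_pp) T5.ok_pp (w := 44) (j := 2) (by decide +kernel)
theorem L02185 : Good (Phi V5.P V5.D 1 1) ⟨6, 53, 5, 15, 5, 20, 3, 3, 6, 29⟩ :=
  out_sound (S := T5.ds_pp) T5.ok_pp (w := 42) (j := 2) (by decide +kernel)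
theorem L02186 : Good (Phi V5.P V5.D 1 1) ⟨6, 53, 5, 15, 5, 21, 3, 3, 5, 14⟩ :=
  out_sound (S := T5.ds_pp) T5.ok_pp (w := 40) (j := 2) (by decide +kernel)
theorem L02187 : Good (Phi V5.P V5.D 1 1) ⟨6, 53, 5, 15, 4, 10, 2, 1, 5, 15⟩ :=
  out_sound (S := T5.ds_pp) T5.ok_pp (w := 36) (j := 2) (by decide +kernel)
theorem L02188 : Good (Phi V5.P V5.D 1 1) ⟨6, 53, 5, 15, 4, 11, 2, 1, 4, 7⟩ :=
  out_sound (S := T5.ds_pp) T5.ok_pp (w := 34) (j := 2) (by decide +kernel)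
theorem L02189 : Good (Phi V5.P V5.D 1 1) ⟨5, 26, 4, 7, 2, 3, 1, 0, 4, 7⟩ :=
  out_sound (S := T5.ds_pp) T5.ok_pp (w := 28) (j := 2) (by decide +kernel)
theorem L02190 : Good (Phi V5.P V5.D 1 1) ⟨6, 54, 5, 14, 1, 1, 1, 0, 4, 7⟩ :=
  out_sound (S := T5.ds_pp) T5.ok_pp (w := 67) (j := 3) (by decide +kernel)
theorem L02191 : Good (Phi V5.P V5.D 1 1) ⟨7, 108, 5, 15, 2, 2, 2, 0, 4, 7⟩ :=
  out_sound (S := T5.ds_pp) T5.ok_pp (w := 24) (j := 1) (by decide +kernel)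
theorem L02192 : Good (Phi V5.P V5.D 1 1) ⟨8, 216, 6, 30, 3, 4, 3, 2, 4, 7⟩ :=
  out_sound (S := T5.ds_pp) T5.ok_pp (w := 27) (j := 1) (by decide +kernel)
theorem L02193 : Good (Phi V5.P V5.D 1 1) ⟨8, 216, 6, 30, 4, 8, 3, 3, 5, 14⟩ :=
  out_sound (S := T5.ds_pp) T5.ok_pp (w := 31) (j := 1) (by decide +kernel)
theorem L02194 : Good (Phi V5.P V5.D 1 1) ⟨8, 216, 6, 30, 4, 9, 4, 6, 5, 14⟩ :=
  out_sound (S := T5.ds_pp) T5.ok_pp (w := 32) (j := 1) (by decide +kernel)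
theorem L02195 : Good (Phi V5.P V5.D 1 1) ⟨8, 216, 6, 30, 5, 18, 4, 7, 6, 28⟩ :=
  leafX_sound T5.ok_pp T5.Ypp.bz_eq (w := 306) (c := ⟨⟨.negSucc 2338, .negSucc 12, .negSucc 0, .negSucc 0, .negSucc 80, .ofNat 1⟩, ⟨.negSucc 1283, .negSucc 16, .negSucc 13, .negSucc 0, .negSucc 46, .ofNat 1⟩, ⟨.ofNat 1371, .ofNat 5, .negSucc 22, .ofNat 1, .ofNat 47, .negSucc 0⟩, ⟨.negSucc 3229, .negSucc 0, .ofNat 4, .negSucc 0, .negSucc 91, .ofNat 2⟩, ⟨.negSucc 464, .negSucc 0, .negSucc 1, .ofNat 0, .negSucc 50, .ofNat 0⟩, .ofNat 164, .negSucc 47, .ofNat 0, .negSucc 47, .ofNat 219, .ofNat 0, .ofNat 148, .ofNat 51, .negSucc 13, .ofNat 0, .ofNat 128, .negSucc 4, .ofNat 0, .ofNat 0, .ofNat 455, .ofNat 4409778, .ofNat 0, .ofNat 0, .ofNat 0, .ofNat 0, .ofNat 9145076382482371137679559523488826514376316340628103333329900666880, .ofNat 37384643497592909567039972079913402820862752155690520025302564864,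 .ofNat 383486095300542256417187968779457209908402543942172672, .ofNat 0, .ofNat 5194243889146241132624288961298858890373877639301662007191113039872, .ofNat 0, .ofNat 0, .ofNat 0, .ofNat 11368142210809828742260249729043713202523301045088432379380895842304, .ofNat 10416024166879877698519547810479075694717440349995861622468378624, .ofNat 972637712413899189989949499475040378863053804685754368, .ofNat 0⟩)
    (by decide +kernel)
theorem L02196 : Good (Phi V5.P V5.D 1 1) ⟨10, 864, 9, 240, 5, 19, 4, 7, 6, 28⟩ :=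
  out_sound (S := T5.ds_pp) T5.ok_pp (w := 99) (j := 3) (by decide +kernel)
theorem L02197 : Good (Phi V5.P V5.D 1 1) ⟨11, 1728, 10, 482, 5, 19, 4, 7, 6, 28⟩ :=
  out_sound (S := T5.ds_pp) T5.ok_pp (w := 107) (j := 3) (by decide +kernel)
theorem L02198 : Good (Phi V5.P V5.D 1 1) ⟨12, 3456, 11, 966, 5, 19, 4, 7, 6, 28⟩ :=
  out_sound (S := T5.ds_pp) T5.ok_pp (w := 115) (j := 3) (by decide +kernel)
theorem L02199 : Good (Phi V5.P V5.D 1 1) ⟨13, 6912, 11, 967, 5, 19, 6, 28, 7, 56⟩ :=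
  out_sound (S := T5.ds_pp) T5.ok_pp (w := 40) (j := 1) (by decide +kernel)
theorem L02200 : Good (Phi V5.P V5.D 1 1) ⟨13, 6912, 11, 967, 6, 38, 6, 29, 7, 56⟩ :=
  out_sound (S := T5.ds_pp) T5.ok_pp (w := 42) (j := 1) (by decide +kernel)
theorem L02201 : Good (Phi V5.P V5.D 1 1) ⟨13, 6912, 11, 967, 6, 39, 6, 29, 7, 56⟩ :=
  out_sound (S := T5.ds_pp) T5.ok_pp (w := 52) (j := 2) (by decide +kernel)
theorem L02202 : Good (Phi V5.P V5.D 1 1) ⟨13, 6912, 11, 967, 5, 19, 5, 14, 7, 57⟩ :=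
  out_sound (S := T5.ds_pp) T5.ok_pp (w := 39) (j := 1) (by decide +kernel)
theorem L02203 : Good (Phi V5.P V5.D 1 1) ⟨13, 6912, 11, 967, 7, 76, 6, 30, 7, 56⟩ :=
  out_sound (S := T5.ds_pp) T5.ok_pp (w := 44) (j := 1) (by decide +kernel)
theorem L02204 : Good (Phi V5.P V5.D 1 1) ⟨13, 6912, 11, 967, 8, 152, 8, 124, 9, 224⟩ :=
  out_sound (S := T5.ds_pp) T5.ok_pp (w := 52) (j := 1) (by decide +kernel)
theorem L02205 : Good (Phi V5.P V5.D 1 1) ⟨13, 6912, 11, 967, 8, 152, 9, 250, 10, 448⟩ :=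
  out_sound (S := T5.ds_pp) T5.ok_pp (w := 55) (j := 1) (by decide +kernel)
theorem L02206 : Good (Phi V5.P V5.D 1 1) ⟨13, 6912, 11, 967, 9, 304, 9, 251, 10, 448⟩ :=
  out_sound (S := T5.ds_pp) T5.ok_pp (w := 57) (j := 1) (by decide +kernel)
theorem L02207 : Good (Phi V5.P V5.D 1 1) ⟨13, 6912, 11, 967, 9, 305, 9, 251, 10, 448⟩ :=
  out_sound (S := T5.ds_pp) T5.ok_pp (w := 70) (j := 2) (by decide +kernel)
theorem L02208 : Good (Phi V5.P V5.D 1 1) ⟨13, 6912, 11, 967, 8, 152, 8, 125, 10, 449⟩ :=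
  out_sound (S := T5.ds_pp) T5.ok_pp (w := 54) (j := 1) (by decide +kernel)
theorem L02209 : Good (Phi V5.P V5.D 1 1) ⟨13, 6912, 11, 967, 8, 152, 7, 62, 9, 225⟩ :=
  out_sound (S := T5.ds_pp) T5.ok_pp (w := 51) (j := 1) (by decide +kernel)
theorem L02210 : Good (Phi V5.P V5.D 1 1) ⟨13, 6912, 11, 967, 10, 608, 9, 252, 10, 448⟩ :=
  out_sound (S := T5.ds_pp) T5.ok_pp (w := 59) (j := 1) (by decide +kernel)
theorem L02211 : Good (Phi V5.P V5.D 1 1) ⟨13, 6912, 11, 967, 11, 1216, 10, 506, 11, 896⟩ :=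
  out_sound (S := T5.ds_pp) T5.ok_pp (w := 64) (j := 1) (by decide +kernel)
theorem L02212 : Good (Phi V5.P V5.D 1 1) ⟨13, 6912, 11, 967, 11, 1216, 10, 507, 11, 896⟩ :=
  out_sound (S := T5.ds_pp) T5.ok_pp (w := 78) (j := 2) (by decide +kernel)
theorem L02213 : Good (Phi V5.P V5.D 1 1) ⟨13, 6912, 11, 967, 11, 1217, 9, 253, 11, 896⟩ :=
  out_sound (S := T5.ds_pp) T5.ok_pp (w := 76) (j := 2) (by decide +kernel)
theorem L02214 : Good (Phi V5.P V5.D 1 1) ⟨13, 6912, 11, 967, 10, 608, 9, 253, 11, 897⟩ :=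
  out_sound (S := T5.ds_pp) T5.ok_pp (w := 74) (j := 2) (by decide +kernel)
theorem L02215 : Good (Phi V5.P V5.D 1 1) ⟨13, 6912, 11, 967, 10, 609, 8, 126, 10, 448⟩ :=
  out_sound (S := T5.ds_pp) T5.ok_pp (w := 70) (j := 2) (by decide +kernel)
theorem L02216 : Good (Phi V5.P V5.D 1 1) ⟨13, 6912, 11, 967, 9, 304, 8, 126, 10, 449⟩ :=
  out_sound (S := T5.ds_pp) T5.ok_pp (w := 56) (j := 1) (by decide +kernel)
theorem L02217 : Good (Phi V5.P V5.D 1 1) ⟨13, 6912, 11, 967, 9, 304, 8, 127, 9, 224⟩ :=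
  out_sound (S := T5.ds_pp) T5.ok_pp (w := 66) (j := 2) (by decide +kernel)
theorem L02218 : Good (Phi V5.P V5.D 1 1) ⟨13, 6912, 11, 967, 9, 305, 7, 63, 9, 224⟩ :=
  out_sound (S := T5.ds_pp) T5.ok_pp (w := 64) (j := 2) (by decide +kernel)
theorem L02219 : Good (Phi V5.P V5.D 1 1) ⟨13, 6912, 11, 967, 8, 152, 7, 63, 9, 225⟩ :=
  out_sound (S := T5.ds_pp) T5.ok_pp (w := 62) (j := 2) (by decide +kernel)
theorem L02220 : Good (Phi V5.P V5.D 1 1) ⟨13, 6912, 11, 967, 8, 153, 6, 31, 8, 112⟩ :=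
  out_sound (S := T5.ds_pp) T5.ok_pp (w := 58) (j := 2) (by decide +kernel)
theorem L02221 : Good (Phi V5.P V5.D 1 1) ⟨13, 6912, 11, 967, 7, 76, 6, 31, 8, 113⟩ :=
  out_sound (S := T5.ds_pp) T5.ok_pp (w := 56) (j := 2) (by decide +kernel)
theorem L02222 : Good (Phi V5.P V5.D 1 1) ⟨13, 6912, 11, 967, 8, 154, 6, 30, 8, 112⟩ :=
  out_sound (S := T5.ds_pp) T5.ok_pp (w := 48) (j := 1) (by decide +kernel)
theorem L02223 : Good (Phi V5.P V5.D 1 1) ⟨13, 6912, 11, 967, 8, 155, 6, 30, 8, 112⟩ :=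
  out_sound (S := T5.ds_pp) T5.ok_pp (w := 58) (j := 2) (by decide +kernel)
theorem L02224 : Good (Phi V5.P V5.D 1 1) ⟨13, 6912, 11, 967, 7, 77, 6, 30, 8, 113⟩ :=
  out_sound (S := T5.ds_pp) T5.ok_pp (w := 46) (j := 1) (by decide +kernel)
theorem L02225 : Good (Phi V5.P V5.D 1 1) ⟨13, 6912, 11, 967, 7, 77, 6, 31, 7, 56⟩ :=
  out_sound (S := T5.ds_pp) T5.ok_pp (w := 54) (j := 2) (by decide +kernel)
theorem L02226 : Good (Phi V5.P V5.D 1 1) ⟨13, 6912, 11, 967, 6, 38, 5, 15, 7, 57⟩ :=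
  out_sound (S := T5.ds_pp) T5.ok_pp (w := 50) (j := 2) (by decide +kernel)
theorem L02227 : Good (Phi V5.P V5.D 1 1) ⟨13, 6912, 11, 967, 6, 39, 5, 15, 6, 28⟩ :=
  out_sound (S := T5.ds_pp) T5.ok_pp (w := 48) (j := 2) (by decide +kernel)
theorem L02228 : Good (Phi V5.P V5.D 1 1) ⟨13, 6913, 11, 967, 5, 19, 4, 7, 6, 28⟩ :=
  out_sound (S := T5.ds_pp) T5.ok_pp (w := 121) (j := 3) (by decide +kernel)
theorem L02229 : Good (Phi V5.P V5.D 1 1) ⟨12, 3457, 10, 483, 5, 19, 4, 7, 6, 28⟩ :=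
  out_sound (S := T5.ds_pp) T5.ok_pp (w := 113) (j := 3) (by decide +kernel)
theorem L02230 : Good (Phi V5.P V5.D 1 1) ⟨11, 1729, 9, 241, 5, 19, 4, 7, 6, 28⟩ :=
  out_sound (S := T5.ds_pp) T5.ok_pp (w := 105) (j := 3) (by decide +kernel)
theorem L02231 : Good (Phi V5.P V5.D 1 1) ⟨10, 865, 8, 120, 5, 19, 4, 7, 6, 28⟩ :=
  out_sound (S := T5.ds_pp) T5.ok_pp (w := 97) (j := 3) (by decide +kernel)
theorem L02232 : Good (Phi V5.P V5.D 1 1) ⟨9, 432, 8, 121, 5, 19, 6, 28, 7, 56⟩ :=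
  out_sound (S := T5.ds_pp) T5.ok_pp (w := 40) (j := 1) (by decide +kernel)
theorem L02233 : Good (Phi V5.P V5.D 1 1) ⟨9, 432, 8, 121, 6, 38, 6, 29, 7, 56⟩ :=
  out_sound (S := T5.ds_pp) T5.ok_pp (w := 42) (j := 1) (by decide +kernel)
theorem L02234 : Good (Phi V5.P V5.D 1 1) ⟨9, 432, 8, 121, 6, 39, 6, 29, 7, 56⟩ :=
  out_sound (S := T5.ds_pp) T5.ok_pp (w := 52) (j := 2) (by decide +kernel)
theorem L02235 : Good (Phi V5.P V5.D 1 1) ⟨9, 432, 8, 121, 5, 19, 5, 14, 7, 57⟩ :=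
  out_sound (S := T5.ds_pp) T5.ok_pp (w := 39) (j := 1) (by decide +kernel)
theorem L02236 : Good (Phi V5.P V5.D 1 1) ⟨9, 432, 8, 121, 7, 76, 6, 30, 7, 56⟩ :=
  out_sound (S := T5.ds_pp) T5.ok_pp (w := 44) (j := 1) (by decide +kernel)
theorem L02237 : Good (Phi V5.P V5.D 1 1) ⟨9, 432, 8, 121, 8, 152, 8, 124, 9, 224⟩ :=
  out_sound (S := T5.ds_pp) T5.ok_pp (w := 52) (j := 1) (by decide +kernel)
theorem L02238 : Good (Phi V5.P V5.D 1 1) ⟨9, 432, 8, 121, 8, 152, 9, 250, 10, 448⟩ :=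
  out_sound (S := T5.ds_pp) T5.ok_pp (w := 55) (j := 1) (by decide +kernel)
theorem L02239 : Good (Phi V5.P V5.D 1 1) ⟨9, 432, 8, 121, 9, 304, 9, 251, 10, 448⟩ :=
  out_sound (S := T5.ds_pp) T5.ok_pp (w := 57) (j := 1) (by decide +kernel)
theorem L02240 : Good (Phi V5.P V5.D 1 1) ⟨9, 432, 8, 121, 9, 305, 9, 251, 10, 448⟩ :=
  out_sound (S := T5.ds_pp) T5.ok_pp (w := 70) (j := 2) (by decide +kernel)
theorem L02241 : Good (Phi V5.P V5.D 1 1) ⟨9, 432, 8, 121, 8, 152, 8, 125, 10, 449⟩ :=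
  out_sound (S := T5.ds_pp) T5.ok_pp (w := 54) (j := 1) (by decide +kernel)
theorem L02242 : Good (Phi V5.P V5.D 1 1) ⟨9, 432, 8, 121, 8, 152, 7, 62, 9, 225⟩ :=
  out_sound (S := T5.ds_pp) T5.ok_pp (w := 51) (j := 1) (by decide +kernel)
theorem L02243 : Good (Phi V5.P V5.D 1 1) ⟨9, 432, 8, 121, 10, 608, 9, 252, 10, 448⟩ :=
  out_sound (S := T5.ds_pp) T5.ok_pp (w := 59) (j := 1) (by decide +kernel)
theorem L02244 : Good (Phi V5.P V5.D 1 1) ⟨9, 432, 8, 121, 11, 1216, 10, 506, 11, 896⟩ :=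
  out_sound (S := T5.ds_pp) T5.ok_pp (w := 64) (j := 1) (by decide +kernel)
theorem L02245 : Good (Phi V5.P V5.D 1 1) ⟨9, 432, 8, 121, 11, 1216, 10, 507, 11, 896⟩ :=
  out_sound (S := T5.ds_pp) T5.ok_pp (w := 78) (j := 2) (by decide +kernel)
theorem L02246 : Good (Phi V5.P V5.D 1 1) ⟨9, 432, 8, 121, 11, 1217, 9, 253, 11, 896⟩ :=
  out_sound (S := T5.ds_pp) T5.ok_pp (w := 76) (j := 2) (by decide +kernel)
theorem L02247 : Good (Phi V5.P V5.D 1 1) ⟨9, 432, 8, 121, 10, 608, 9, 253, 11, 897⟩ :=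
  out_sound (S := T5.ds_pp) T5.ok_pp (w := 74) (j := 2) (by decide +kernel)
theorem L02248 : Good (Phi V5.P V5.D 1 1) ⟨9, 432, 8, 121, 10, 609, 8, 126, 10, 448⟩ :=
  out_sound (S := T5.ds_pp) T5.ok_pp (w := 70) (j := 2) (by decide +kernel)
theorem L02249 : Good (Phi V5.P V5.D 1 1) ⟨9, 432, 8, 121, 9, 304, 8, 126, 10, 449⟩ :=
  out_sound (S := T5.ds_pp) T5.ok_pp (w := 56) (j := 1) (by decide +kernel)
theorem L02250 : Good (Phi V5.P V5.D 1 1) ⟨9, 432, 8, 121, 9, 304, 8, 127, 9, 224⟩ :=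
  out_sound (S := T5.ds_pp) T5.ok_pp (w := 66) (j := 2) (by decide +kernel)
theorem L02251 : Good (Phi V5.P V5.D 1 1) ⟨9, 432, 8, 121, 9, 305, 7, 63, 9, 224⟩ :=
  out_sound (S := T5.ds_pp) T5.ok_pp (w := 64) (j := 2) (by decide +kernel)
theorem L02252 : Good (Phi V5.P V5.D 1 1) ⟨9, 432, 8, 121, 8, 152, 7, 63, 9, 225⟩ :=
  out_sound (S := T5.ds_pp) T5.ok_pp (w := 62) (j := 2) (by decide +kernel)
theorem L02253 : Good (Phi V5.P V5.D 1 1) ⟨9, 432, 8, 121, 8, 153, 6, 31, 8, 112⟩ :=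
  out_sound (S := T5.ds_pp) T5.ok_pp (w := 58) (j := 2) (by decide +kernel)
theorem L02254 : Good (Phi V5.P V5.D 1 1) ⟨9, 432, 8, 121, 7, 76, 6, 31, 8, 113⟩ :=
  out_sound (S := T5.ds_pp) T5.ok_pp (w := 56) (j := 2) (by decide +kernel)
theorem L02255 : Good (Phi V5.P V5.D 1 1) ⟨9, 432, 8, 121, 8, 154, 6, 30, 8, 112⟩ :=
  out_sound (S := T5.ds_pp) T5.ok_pp (w := 48) (j := 1) (by decide +kernel)
theorem L02256 : Good (Phi V5.P V5.D 1 1) ⟨9, 432, 8, 121, 8, 155, 6, 30, 8, 112⟩ :=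
  out_sound (S := T5.ds_pp) T5.ok_pp (w := 58) (j := 2) (by decide +kernel)
theorem L02257 : Good (Phi V5.P V5.D 1 1) ⟨9, 432, 8, 121, 7, 77, 6, 30, 8, 113⟩ :=
  out_sound (S := T5.ds_pp) T5.ok_pp (w := 46) (j := 1) (by decide +kernel)
theorem L02258 : Good (Phi V5.P V5.D 1 1) ⟨9, 432, 8, 121, 7, 77, 6, 31, 7, 56⟩ :=
  out_sound (S := T5.ds_pp) T5.ok_pp (w := 54) (j := 2) (by decide +kernel)
theorem L02259 : Good (Phi V5.P V5.D 1 1) ⟨9, 432, 8, 121, 6, 38, 5, 15, 7, 57⟩ :=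
  out_sound (S := T5.ds_pp) T5.ok_pp (w := 50) (j := 2) (by decide +kernel)
theorem L02260 : Good (Phi V5.P V5.D 1 1) ⟨9, 432, 8, 121, 6, 39, 5, 15, 6, 28⟩ :=
  out_sound (S := T5.ds_pp) T5.ok_pp (w := 48) (j := 2) (by decide +kernel)
theorem L02261 : Good (Phi V5.P V5.D 1 1) ⟨9, 433, 7, 60, 5, 19, 4, 7, 6, 28⟩ :=
  out_sound (S := T5.ds_pp) T5.ok_pp (w := 89) (j := 3) (by decide +kernel)
theorem L02262 : Good (Phi V5.P V5.D 1 1) ⟨8, 216, 7, 61, 5, 19, 6, 28, 7, 56⟩ :=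
  out_sound (S := T5.ds_pp) T5.ok_pp (w := 40) (j := 1) (by decide +kernel)
theorem L02263 : Good (Phi V5.P V5.D 1 1) ⟨8, 216, 7, 61, 6, 38, 6, 29, 7, 56⟩ :=
  out_sound (S := T5.ds_pp) T5.ok_pp (w := 42) (j := 1) (by decide +kernel)
theorem L02264 : Good (Phi V5.P V5.D 1 1) ⟨8, 216, 7, 61, 6, 39, 6, 29, 7, 56⟩ :=
  out_sound (S := T5.ds_pp) T5.ok_pp (w := 52) (j := 2) (by decide +kernel)
theorem L02265 : Good (Phi V5.P V5.D 1 1) ⟨8, 216, 7, 61, 5, 19, 5, 14, 7, 57⟩ :=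
  out_sound (S := T5.ds_pp) T5.ok_pp (w := 39) (j := 1) (by decide +kernel)
theorem L02266 : Good (Phi V5.P V5.D 1 1) ⟨8, 216, 7, 61, 7, 76, 6, 30, 7, 56⟩ :=
  out_sound (S := T5.ds_pp) T5.ok_pp (w := 44) (j := 1) (by decide +kernel)
theorem L02267 : Good (Phi V5.P V5.D 1 1) ⟨8, 216, 7, 61, 8, 152, 8, 124, 9, 224⟩ :=
  out_sound (S := T5.ds_pp) T5.ok_pp (w := 52) (j := 1) (by decide +kernel)
theorem L02268 : Good (Phi V5.P V5.D 1 1) ⟨8, 216, 7, 61, 8, 152, 9, 250, 10, 448⟩ :=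
  out_sound (S := T5.ds_pp) T5.ok_pp (w := 55) (j := 1) (by decide +kernel)
theorem L02269 : Good (Phi V5.P V5.D 1 1) ⟨8, 216, 7, 61, 9, 304, 9, 251, 10, 448⟩ :=
  out_sound (S := T5.ds_pp) T5.ok_pp (w := 57) (j := 1) (by decide +kernel)
theorem L02270 : Good (Phi V5.P V5.D 1 1) ⟨8, 216, 7, 61, 9, 305, 9, 251, 10, 448⟩ :=
  out_sound (S := T5.ds_pp) T5.ok_pp (w := 70) (j := 2) (by decide +kernel)
theorem L02271 : Good (Phi V5.P V5.D 1 1) ⟨8, 216, 7, 61, 8, 152, 8, 125, 10, 449⟩ :=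
  out_sound (S := T5.ds_pp) T5.ok_pp (w := 54) (j := 1) (by decide +kernel)
theorem L02272 : Good (Phi V5.P V5.D 1 1) ⟨8, 216, 7, 61, 8, 152, 7, 62, 9, 225⟩ :=
  out_sound (S := T5.ds_pp) T5.ok_pp (w := 51) (j := 1) (by decide +kernel)
theorem L02273 : Good (Phi V5.P V5.D 1 1) ⟨8, 216, 7, 61, 10, 608, 9, 252, 10, 448⟩ :=
  out_sound (S := T5.ds_pp) T5.ok_pp (w := 59) (j := 1) (by decide +kernel)
theorem L02274 : Good (Phi V5.P V5.D 1 1) ⟨8, 216, 7, 61, 11, 1216, 10, 506, 11, 896⟩ :=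
  out_sound (S := T5.ds_pp) T5.ok_pp (w := 64) (j := 1) (by decide +kernel)
theorem L02275 : Good (Phi V5.P V5.D 1 1) ⟨8, 216, 7, 61, 11, 1216, 10, 507, 11, 896⟩ :=
  out_sound (S := T5.ds_pp) T5.ok_pp (w := 78) (j := 2) (by decide +kernel)
theorem L02276 : Good (Phi V5.P V5.D 1 1) ⟨8, 216, 7, 61, 11, 1217, 9, 253, 11, 896⟩ :=
  out_sound (S := T5.ds_pp) T5.ok_pp (w := 76) (j := 2) (by decide +kernel)
theorem L02277 : Good (Phi V5.P V5.D 1 1) ⟨8, 216, 7, 61, 10, 608, 9, 253, 11, 897⟩ :=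
  out_sound (S := T5.ds_pp) T5.ok_pp (w := 74) (j := 2) (by decide +kernel)
theorem L02278 : Good (Phi V5.P V5.D 1 1) ⟨8, 216, 7, 61, 10, 609, 8, 126, 10, 448⟩ :=
  out_sound (S := T5.ds_pp) T5.ok_pp (w := 70) (j := 2) (by decide +kernel)
theorem L02279 : Good (Phi V5.P V5.D 1 1) ⟨8, 216, 7, 61, 9, 304, 8, 126, 10, 449⟩ :=
  out_sound (S := T5.ds_pp) T5.ok_pp (w := 56) (j := 1) (by decide +kernel)
theorem L02280 : Good (Phi V5.P V5.D 1 1) ⟨8, 216, 7, 61, 9, 304, 8, 127, 9, 224⟩ :=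
  out_sound (S := T5.ds_pp) T5.ok_pp (w := 66) (j := 2) (by decide +kernel)
theorem L02281 : Good (Phi V5.P V5.D 1 1) ⟨8, 216, 7, 61, 9, 305, 7, 63, 9, 224⟩ :=
  out_sound (S := T5.ds_pp) T5.ok_pp (w := 64) (j := 2) (by decide +kernel)
theorem L02282 : Good (Phi V5.P V5.D 1 1) ⟨8, 216, 7, 61, 8, 152, 7, 63, 9, 225⟩ :=
  out_sound (S := T5.ds_pp) T5.ok_pp (w := 62) (j := 2) (by decide +kernel)
theorem L02283 : Good (Phi V5.P V5.D 1 1) ⟨8, 216, 7, 61, 8, 153, 6, 31, 8, 112⟩ :=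
  out_sound (S := T5.ds_pp) T5.ok_pp (w := 58) (j := 2) (by decide +kernel)
theorem L02284 : Good (Phi V5.P V5.D 1 1) ⟨8, 216, 7, 61, 7, 76, 6, 31, 8, 113⟩ :=
  out_sound (S := T5.ds_pp) T5.ok_pp (w := 56) (j := 2) (by decide +kernel)
theorem L02285 : Good (Phi V5.P V5.D 1 1) ⟨8, 216, 7, 61, 8, 154, 6, 30, 8, 112⟩ :=
  out_sound (S := T5.ds_pp) T5.ok_pp (w := 48) (j := 1) (by decide +kernel)
theorem L02286 : Good (Phi V5.P V5.D 1 1) ⟨8, 216, 7, 61, 8, 155, 6, 30, 8, 112⟩ :=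
  out_sound (S := T5.ds_pp) T5.ok_pp (w := 58) (j := 2) (by decide +kernel)
theorem L02287 : Good (Phi V5.P V5.D 1 1) ⟨8, 216, 7, 61, 7, 77, 6, 30, 8, 113⟩ :=
  out_sound (S := T5.ds_pp) T5.ok_pp (w := 46) (j := 1) (by decide +kernel)
theorem L02288 : Good (Phi V5.P V5.D 1 1) ⟨8, 216, 7, 61, 7, 77, 6, 31, 7, 56⟩ :=
  out_sound (S := T5.ds_pp) T5.ok_pp (w := 54) (j := 2) (by decide +kernel)
theorem L02289 : Good (Phi V5.P V5.D 1 1) ⟨8, 216, 7, 61, 6, 38, 5, 15, 7, 57⟩ :=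
  out_sound (S := T5.ds_pp) T5.ok_pp (w := 50) (j := 2) (by decide +kernel)
theorem L02290 : Good (Phi V5.P V5.D 1 1) ⟨8, 216, 7, 61, 6, 39, 5, 15, 6, 28⟩ :=
  out_sound (S := T5.ds_pp) T5.ok_pp (w := 48) (j := 2) (by decide +kernel)
theorem L02291 : Good (Phi V5.P V5.D 1 1) ⟨8, 216, 6, 30, 4, 9, 4, 7, 6, 29⟩ :=
  out_sound (S := T5.ds_pp) T5.ok_pp (w := 34) (j := 1) (by decide +kernel)
theorem L02292 : Good (Phi V5.P V5.D 1 1) ⟨8, 216, 6, 30, 3, 4, 3, 3, 5, 15⟩ :=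
  out_sound (S := T5.ds_pp) T5.ok_pp (w := 29) (j := 1) (by decide +kernel)
theorem L02293 : Good (Phi V5.P V5.D 1 1) ⟨8, 216, 6, 30, 4, 10, 3, 2, 5, 14⟩ :=
  out_sound (S := T5.ds_pp) T5.ok_pp (w := 31) (j := 1) (by decide +kernel)
theorem L02294 : Good (Phi V5.P V5.D 1 1) ⟨8, 216, 6, 30, 5, 20, 5, 12, 6, 28⟩ :=
  out_sound (S := T5.ds_pp) T5.ok_pp (w := 37) (j := 1) (by decide +kernel)
theorem L02295 : Good (Phi V5.P V5.D 1 1) ⟨8, 216, 6, 30, 5, 20, 5, 13, 6, 28⟩ :=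
  out_sound (S := T5.ds_pp) T5.ok_pp (w := 46) (j := 2) (by decide +kernel)
theorem L02296 : Good (Phi V5.P V5.D 1 1) ⟨8, 216, 6, 30, 5, 20, 4, 7, 6, 28⟩ :=
  out_sound (S := T5.ds_pp) T5.ok_pp (w := 44) (j := 2) (by decide +kernel)
theorem L02297 : Good (Phi V5.P V5.D 1 1) ⟨8, 216, 6, 30, 5, 20, 3, 3, 6, 29⟩ :=
  out_sound (S := T5.ds_pp) T5.ok_pp (w := 42) (j := 2) (by decide +kernel)
theorem L02298 : Good (Phi V5.P V5.D 1 1) ⟨8, 216, 6, 30, 5, 21, 3, 3, 5, 14⟩ :=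
  out_sound (S := T5.ds_pp) T5.ok_pp (w := 40) (j := 2) (by decide +kernel)
theorem L02299 : Good (Phi V5.P V5.D 1 1) ⟨8, 216, 6, 30, 4, 10, 2, 1, 5, 15⟩ :=
  out_sound (S := T5.ds_pp) T5.ok_pp (w := 36) (j := 2) (by decide +kernel)
theorem L02300 : Good (Phi V5.P V5.D 1 1) ⟨8, 216, 6, 30, 4, 11, 2, 1, 4, 7⟩ :=
  out_sound (S := T5.ds_pp) T5.ok_pp (w := 34) (j := 2) (by decide +kernel)
theorem L02301 : Good (Phi V5.P V5.D 1 1) ⟨8, 217, 6, 30, 2, 2, 2, 1, 4, 7⟩ :=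
  out_sound (S := T5.ds_pp) T5.ok_pp (w := 81) (j := 3) (by decide +kernel)
theorem L02302 : Good (Phi V5.P V5.D 1 1) ⟨7, 108, 6, 31, 3, 4, 3, 2, 4, 7⟩ :=
  out_sound (S := T5.ds_pp) T5.ok_pp (w := 27) (j := 1) (by decide +kernel)
theorem L02303 : Good (Phi V5.P V5.D 1 1) ⟨7, 108, 6, 31, 4, 8, 3, 3, 5, 14⟩ :=
  out_sound (S := T5.ds_pp) T5.ok_pp (w := 31) (j := 1) (by decide +kernel)
theorem L02304 : Good (Phi V5.P V5.D 1 1) ⟨7, 108, 6, 31, 4, 9, 4, 6, 5, 14⟩ :=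
  out_sound (S := T5.ds_pp) T5.ok_pp (w := 32) (j := 1) (by decide +kernel)
theorem L02305 : Good (Phi V5.P V5.D 1 1) ⟨7, 108, 6, 31, 5, 18, 4, 7, 6, 28⟩ :=
  leafX_sound T5.ok_pp T5.Ypp.bz_eq (w := 302) (c := ⟨⟨.negSucc 2340, .negSucc 26, .negSucc 0, .negSucc 0, .negSucc 79, .ofNat 1⟩, ⟨.negSucc 1297, .negSucc 34, .negSucc 13, .negSucc 0, .negSucc 45, .ofNat 1⟩, ⟨.ofNat 1354, .ofNat 9, .negSucc 22, .ofNat 1, .ofNat 41, .negSucc 0⟩, ⟨.negSucc 3227, .negSucc 1, .ofNat 4, .negSucc 0, .negSucc 89, .ofNat 2⟩, ⟨.negSucc 468, .negSucc 1, .negSucc 1, .ofNat 0, .negSucc 49, .ofNat 0⟩, .ofNat 164, .negSucc 48, .ofNat 0, .negSucc 48, .ofNat 220, .ofNat 0, .ofNat 148, .ofNat 52, .negSucc 13, .ofNat 0, .ofNat 128, .negSucc 4, .ofNat 0, .ofNat 0, .ofNat 456, .ofNat 4384025, .ofNat 0, .ofNat 0, .ofNat 0, .ofNat 0, .ofNat 563683886734131116181767384029509299007610129340208595505357258752,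 .ofNat 2288808577469201100873643639187945171843656715884363094945693696, .ofNat 2878132124498444682223618130467581781889130630800736256, .ofNat 0, .ofNat 327090870588091402119515532620375169019683332537268718430536597504, .ofNat 0, .ofNat 0, .ofNat 0, .ofNat 730835579464194639687832899783288066954509870049393988706846638080, .ofNat 621837712580644358438148598201858547887870673685618554348503040, .ofNat 611085895960553193178473473430309429688176740501815296, .ofNat 0⟩)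
    (by decide +kernel)
theorem L02306 : Good (Phi V5.P V5.D 1 1) ⟨7, 108, 6, 31, 5, 19, 6, 28, 7, 56⟩ :=
  out_sound (S := T5.ds_pp) T5.ok_pp (w := 40) (j := 1) (by decide +kernel)
theorem L02307 : Good (Phi V5.P V5.D 1 1) ⟨7, 108, 6, 31, 6, 38, 6, 29, 7, 56⟩ :=
  out_sound (S := T5.ds_pp) T5.ok_pp (w := 42) (j := 1) (by decide +kernel)
theorem L02308 : Good (Phi V5.P V5.D 1 1) ⟨7, 108, 6, 31, 6, 39, 6, 29, 7, 56⟩ :=
  out_sound (S := T5.ds_pp) T5.ok_pp (w := 52) (j := 2) (by decide +kernel)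
theorem L02309 : Good (Phi V5.P V5.D 1 1) ⟨7, 108, 6, 31, 5, 19, 5, 14, 7, 57⟩ :=
  out_sound (S := T5.ds_pp) T5.ok_pp (w := 39) (j := 1) (by decide +kernel)
theorem L02310 : Good (Phi V5.P V5.D 1 1) ⟨7, 108, 6, 31, 7, 76, 6, 30, 7, 56⟩ :=
  out_sound (S := T5.ds_pp) T5.ok_pp (w := 44) (j := 1) (by decide +kernel)
theorem L02311 : Good (Phi V5.P V5.D 1 1) ⟨7, 108, 6, 31, 8, 152, 8, 124, 9, 224⟩ :=
  out_sound (S := T5.ds_pp) T5.ok_pp (w := 52) (j := 1) (by decide +kernel)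
theorem L02312 : Good (Phi V5.P V5.D 1 1) ⟨7, 108, 6, 31, 8, 152, 9, 250, 10, 448⟩ :=
  out_sound (S := T5.ds_pp) T5.ok_pp (w := 55) (j := 1) (by decide +kernel)
theorem L02313 : Good (Phi V5.P V5.D 1 1) ⟨7, 108, 6, 31, 9, 304, 9, 251, 10, 448⟩ :=
  out_sound (S := T5.ds_pp) T5.ok_pp (w := 57) (j := 1) (by decide +kernel)
theorem L02314 : Good (Phi V5.P V5.D 1 1) ⟨7, 108, 6, 31, 9, 305, 9, 251, 10, 448⟩ :=
  out_sound (S := T5.ds_pp) T5.ok_pp (w := 70) (j := 2) (by decide +kernel)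
theorem L02315 : Good (Phi V5.P V5.D 1 1) ⟨7, 108, 6, 31, 8, 152, 8, 125, 10, 449⟩ :=
  out_sound (S := T5.ds_pp) T5.ok_pp (w := 54) (j := 1) (by decide +kernel)
theorem L02316 : Good (Phi V5.P V5.D 1 1) ⟨7, 108, 6, 31, 8, 152, 7, 62, 9, 225⟩ :=
  out_sound (S := T5.ds_pp) T5.ok_pp (w := 51) (j := 1) (by decide +kernel)
theorem L02317 : Good (Phi V5.P V5.D 1 1) ⟨7, 108, 6, 31, 10, 608, 9, 252, 10, 448⟩ :=
  out_sound (S := T5.ds_pp) T5.ok_pp (w := 59) (j := 1) (by decide +kernel)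
theorem L02318 : Good (Phi V5.P V5.D 1 1) ⟨7, 108, 6, 31, 11, 1216, 10, 506, 11, 896⟩ :=
  out_sound (S := T5.ds_pp) T5.ok_pp (w := 64) (j := 1) (by decide +kernel)
theorem L02319 : Good (Phi V5.P V5.D 1 1) ⟨7, 108, 6, 31, 11, 1216, 10, 507, 11, 896⟩ :=
  out_sound (S := T5.ds_pp) T5.ok_pp (w := 78) (j := 2) (by decide +kernel)
theorem L02320 : Good (Phi V5.P V5.D 1 1) ⟨7, 108, 6, 31, 11, 1217, 9, 253, 11, 896⟩ :=
  out_sound (S := T5.ds_pp) T5.ok_pp (w := 76) (j := 2) (by decide +kernel)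
theorem L02321 : Good (Phi V5.P V5.D 1 1) ⟨7, 108, 6, 31, 10, 608, 9, 253, 11, 897⟩ :=
  out_sound (S := T5.ds_pp) T5.ok_pp (w := 74) (j := 2) (by decide +kernel)
theorem L02322 : Good (Phi V5.P V5.D 1 1) ⟨7, 108, 6, 31, 10, 609, 8, 126, 10, 448⟩ :=
  out_sound (S := T5.ds_pp) T5.ok_pp (w := 70) (j := 2) (by decide +kernel)
theorem L02323 : Good (Phi V5.P V5.D 1 1) ⟨7, 108, 6, 31, 9, 304, 8, 126, 10, 449⟩ :=
  out_sound (S := T5.ds_pp) T5.ok_pp (w := 56) (j := 1) (by decide +kernel)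
theorem L02324 : Good (Phi V5.P V5.D 1 1) ⟨7, 108, 6, 31, 9, 304, 8, 127, 9, 224⟩ :=
  out_sound (S := T5.ds_pp) T5.ok_pp (w := 66) (j := 2) (by decide +kernel)
theorem L02325 : Good (Phi V5.P V5.D 1 1) ⟨7, 108, 6, 31, 9, 305, 7, 63, 9, 224⟩ :=
  out_sound (S := T5.ds_pp) T5.ok_pp (w := 64) (j := 2) (by decide +kernel)
theorem L02326 : Good (Phi V5.P V5.D 1 1) ⟨7, 108, 6, 31, 8, 152, 7, 63, 9, 225⟩ :=
  out_sound (S := T5.ds_pp) T5.ok_pp (w := 62) (j := 2) (by decide +kernel)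
theorem L02327 : Good (Phi V5.P V5.D 1 1) ⟨7, 108, 6, 31, 8, 153, 6, 31, 8, 112⟩ :=
  out_sound (S := T5.ds_pp) T5.ok_pp (w := 58) (j := 2) (by decide +kernel)
theorem L02328 : Good (Phi V5.P V5.D 1 1) ⟨7, 108, 6, 31, 7, 76, 6, 31, 8, 113⟩ :=
  out_sound (S := T5.ds_pp) T5.ok_pp (w := 56) (j := 2) (by decide +kernel)
theorem L02329 : Good (Phi V5.P V5.D 1 1) ⟨7, 108, 6, 31, 8, 154, 6, 30, 8, 112⟩ :=
  out_sound (S := T5.ds_pp) T5.ok_pp (w := 48) (j := 1) (by decide +kernel)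
theorem L02330 : Good (Phi V5.P V5.D 1 1) ⟨7, 108, 6, 31, 8, 155, 6, 30, 8, 112⟩ :=
  out_sound (S := T5.ds_pp) T5.ok_pp (w := 58) (j := 2) (by decide +kernel)
theorem L02331 : Good (Phi V5.P V5.D 1 1) ⟨7, 108, 6, 31, 7, 77, 6, 30, 8, 113⟩ :=
  out_sound (S := T5.ds_pp) T5.ok_pp (w := 46) (j := 1) (by decide +kernel)
theorem L02332 : Good (Phi V5.P V5.D 1 1) ⟨7, 108, 6, 31, 7, 77, 6, 31, 7, 56⟩ :=
  out_sound (S := T5.ds_pp) T5.ok_pp (w := 54) (j := 2) (by decide +kernel)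
theorem L02333 : Good (Phi V5.P V5.D 1 1) ⟨7, 108, 6, 31, 6, 38, 5, 15, 7, 57⟩ :=
  out_sound (S := T5.ds_pp) T5.ok_pp (w := 50) (j := 2) (by decide +kernel)
theorem L02334 : Good (Phi V5.P V5.D 1 1) ⟨7, 108, 6, 31, 6, 39, 5, 15, 6, 28⟩ :=
  out_sound (S := T5.ds_pp) T5.ok_pp (w := 48) (j := 2) (by decide +kernel)
theorem L02335 : Good (Phi V5.P V5.D 1 1) ⟨7, 108, 6, 31, 4, 9, 4, 7, 6, 29⟩ :=
  out_sound (S := T5.ds_pp) T5.ok_pp (w := 34) (j := 1) (by decide +kernel)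
theorem L02336 : Good (Phi V5.P V5.D 1 1) ⟨7, 108, 6, 31, 3, 4, 3, 3, 5, 15⟩ :=
  out_sound (S := T5.ds_pp) T5.ok_pp (w := 29) (j := 1) (by decide +kernel)
theorem L02337 : Good (Phi V5.P V5.D 1 1) ⟨7, 108, 6, 31, 4, 10, 3, 2, 5, 14⟩ :=
  out_sound (S := T5.ds_pp) T5.ok_pp (w := 31) (j := 1) (by decide +kernel)
theorem L02338 : Good (Phi V5.P V5.D 1 1) ⟨7, 108, 6, 31, 5, 20, 5, 12, 6, 28⟩ :=
  out_sound (S := T5.ds_pp) T5.ok_pp (w := 37) (j := 1) (by decide +kernel)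
theorem L02339 : Good (Phi V5.P V5.D 1 1) ⟨7, 108, 6, 31, 5, 20, 5, 13, 6, 28⟩ :=
  out_sound (S := T5.ds_pp) T5.ok_pp (w := 46) (j := 2) (by decide +kernel)
theorem L02340 : Good (Phi V5.P V5.D 1 1) ⟨7, 108, 6, 31, 5, 20, 4, 7, 6, 28⟩ :=
  out_sound (S := T5.ds_pp) T5.ok_pp (w := 44) (j := 2) (by decide +kernel)
theorem L02341 : Good (Phi V5.P V5.D 1 1) ⟨7, 108, 6, 31, 5, 20, 3, 3, 6, 29⟩ :=
  out_sound (S := T5.ds_pp) T5.ok_pp (w := 42) (j := 2) (by decide +kernel)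
theorem L02342 : Good (Phi V5.P V5.D 1 1) ⟨7, 108, 6, 31, 5, 21, 3, 3, 5, 14⟩ :=
  out_sound (S := T5.ds_pp) T5.ok_pp (w := 40) (j := 2) (by decide +kernel)
theorem L02343 : Good (Phi V5.P V5.D 1 1) ⟨7, 108, 6, 31, 4, 10, 2, 1, 5, 15⟩ :=
  out_sound (S := T5.ds_pp) T5.ok_pp (w := 36) (j := 2) (by decide +kernel)
theorem L02344 : Good (Phi V5.P V5.D 1 1) ⟨7, 108, 6, 31, 4, 11, 2, 1, 4, 7⟩ :=
  out_sound (S := T5.ds_pp) T5.ok_pp (w := 34) (j := 2) (by decide +kernel)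
theorem L02345 : Good (Phi V5.P V5.D 1 1) ⟨7, 108, 5, 15, 2, 3, 1, 0, 4, 7⟩ :=
  out_sound (S := T5.ds_pp) T5.ok_pp (w := 28) (j := 2) (by decide +kernel)
theorem L02346 : Good (Phi V5.P V5.D 1 1) ⟨7, 109, 5, 15, 1, 1, 1, 0, 4, 7⟩ :=
  out_sound (S := T5.ds_pp) T5.ok_pp (w := 73) (j := 3) (by decide +kernel)
theorem L02347 : Good (Phi V5.P V5.D 1 1) ⟨6, 55, 4, 7, 1, 1, 1, 0, 4, 7⟩ :=
  out_sound (S := T5.ds_pp) T5.ok_pp (w := 65) (j := 3) (by decide +kernel)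
theorem L02348 : Good (Phi V5.P V5.D 1 1) ⟨3, 7, 2, 1, 1, 1, 1, 0, 3, 3⟩ :=
  out_sound (S := T5.ds_pp) T5.ok_pp (w := 43) (j := 3) (by decide +kernel)
theorem L02349 : Good (Phi V5.P V5.D 1 1) ⟨1, 1, 2, 1, 3, 4, 1, 0, 3, 4⟩ :=
  out_sound (S := T5.ds_pp) T5.ok_pp (w := 23) (j := 1) (by decide +kernel)
theorem L02350 : Good (Phi V5.P V5.D 1 1) ⟨1, 1, 2, 1, 3, 5, 1, 0, 3, 4⟩ :=
  out_sound (S := T5.ds_pp) T5.ok_pp (w := 28) (j := 2) (by decide +kernel)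
theorem L02351 : Good (Phi V5.P V5.D 1 1) ⟨1, 1, 2, 1, 2, 2, 1, 0, 3, 5⟩ :=
  out_sound (S := T5.ds_pp) T5.ok_pp (w := 21) (j := 1) (by decide +kernel)
theorem L02352 : Good (Phi V5.P V5.D 1 1) ⟨1, 1, 2, 1, 2, 2, 1, 0, 2, 3⟩ :=
  out_sound (S := T5.ds_pp) T5.ok_pp (w := 19) (j := 1) (by decide +kernel)
theorem L02353 : Good (Phi V5.P V5.D 1 1) ⟨1, 1, 2, 1, 2, 3, 1, 0, 1, 1⟩ :=
  out_sound (S := T5.ds_pp) T5.ok_pp (w := 22) (j := 2) (by decide +kernel)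
theorem L02354 : Good (Phi V5.P V5.D 1 1) ⟨3, 4, 3, 2, 1, 1, 1, 1, 3, 0⟩ :=
  out_sound (S := T5.ds_pp) T5.ok_pp (w := 45) (j := 3) (by decide +kernel)
theorem L02355 : Good (Phi V5.P V5.D 1 1) ⟨4, 10, 3, 2, 2, 2, 1, 1, 4, 0⟩ :=
  out_sound (S := T5.ds_pp) T5.ok_pp (w := 51) (j := 3) (by decide +kernel)
theorem L02356 : Good (Phi V5.P V5.D 1 1) ⟨4, 11, 3, 2, 2, 2, 2, 2, 4, 0⟩ :=
  leafX_sound T5.ok_pp T5.Ypp.bz_eq (w := 210) (c := ⟨⟨.ofNat 2936, .negSucc 69, .ofNat 89, .negSucc 505, .negSucc 2056, .negSucc 3314⟩, ⟨.ofNat 1020, .ofNat 3, .ofNat 28, .negSucc 160, .negSucc 705, .negSucc 1162⟩, ⟨.negSucc 2046, .ofNat 136, .negSucc 42, .ofNat 113, .ofNat 1757, .ofNat 2139⟩, ⟨.ofNat 5003, .negSucc 249, .ofNat 55, .negSucc 1157, .negSucc 3588, .negSucc 5562⟩, ⟨.ofNat 74, .ofNat 411, .ofNat 229, .ofNat 882, .ofNat 208, .negSucc 403⟩, .ofNat 864, .negSucc 1361, .ofNat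 0, .negSucc 1361, .ofNat 4168, .ofNat 0, .ofNat 128, .ofNat 272, .negSucc 356, .ofNat 0, .ofNat 124, .negSucc 114, .ofNat 0, .ofNat 0, .ofNat 418, .ofNat 222, .ofNat 0, .ofNat 0, .ofNat 0, .ofNat 0, .ofNat 0, .ofNat 0, .ofNat 0, .ofNat 0, .ofNat 0, .ofNat 0, .ofNat 1142464599112467422205413217601060864, .ofNat 0, .ofNat 0, .ofNat 0, .ofNat 2184459903593501075271653624488394752, .ofNat 0⟩)
    (by decide +kernel)
theorem L02357 : Good (Phi V5.P V5.D 1 1) ⟨4, 11, 3, 2, 2, 2, 2, 3, 4, 0⟩ :=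
  leafX_sound T5.ok_pp T5.Ypp.bz_eq (w := 209) (c := ⟨⟨.ofNat 803, .negSucc 290, .negSucc 559, .negSucc 1301, .negSucc 1916, .negSucc 2495⟩, ⟨.ofNat 389, .negSucc 140, .negSucc 522, .negSucc 416, .negSucc 639, .negSucc 911⟩, ⟨.negSucc 231, .ofNat 224, .ofNat 358, .ofNat 636, .ofNat 2202, .ofNat 1717⟩, ⟨.ofNat 1490, .negSucc 517, .negSucc 994, .negSucc 2973, .negSucc 3938, .negSucc 4203⟩, ⟨.negSucc 347, .ofNat 510, .ofNat 272, .ofNat 1920, .ofNat 1826, .negSucc 457⟩, .ofNat 536, .negSucc 545, .ofNat 0, .negSucc 545, .ofNat 1873, .ofNat 0, .ofNat 128, .ofNat 228, .negSucc 687, .ofNat 0, .ofNat 128, .negSucc 197, .ofNat 0, .ofNat 0, .ofNat 695, .ofNat 41, .ofNat 0, .ofNat 0, .ofNat 39427954175489064989585167643312128, .ofNat 0, .ofNat 0, .ofNat 0, .ofNat 0, .ofNat 0, .ofNat 0, .ofNat 0, .ofNat 0, .ofNat 0, .ofNat 0, .ofNat 231211993398759468129676806419473758158848,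 .ofNat 3274939458335452192648966791988510720, .ofNat 0⟩)
    (by decide +kernel)
theorem L02358 : Good (Phi V5.P V5.D 1 1) ⟨4, 10, 3, 2, 2, 3, 1, 1, 4, 0⟩ :=
  out_sound (S := T5.ds_pp) T5.ok_pp (w := 51) (j := 3) (by decide +kernel)
theorem L02359 : Good (Phi V5.P V5.D 1 1) ⟨4, 11, 3, 2, 3, 6, 2, 2, 4, 0⟩ :=
  leafX_sound T5.ok_pp T5.Ypp.bz_eq (w := 224) (c := ⟨⟨.ofNat 2718, .ofNat 216, .negSucc 1020, .negSucc 1252, .negSucc 2945, .negSucc 4093⟩, ⟨.ofNat 995, .ofNat 119, .negSucc 667, .negSucc 386, .negSucc 995, .negSucc 1454⟩, ⟨.negSucc 1972, .negSucc 56, .ofNat 533, .ofNat 604, .ofNat 2362, .ofNat 2329⟩, ⟨.ofNat 4316, .ofNat 142, .negSucc 1692, .negSucc 2640, .negSucc 5428, .negSucc 6577⟩, ⟨.ofNat 893, .ofNat 645, .ofNat 137, .ofNat 1213, .ofNat 1043, .negSucc 860⟩, .ofNat 533, .negSucc 535, .ofNat 0, .negSucc 535, .ofNat 1817, .ofNat 0, .ofNat 128, .ofNat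 294, .negSucc 537, .ofNat 0, .ofNat 149, .negSucc 153, .ofNat 0, .ofNat 0, .ofNat 468, .ofNat 196, .ofNat 0, .ofNat 0, .ofNat 0, .ofNat 0, .ofNat 0, .ofNat 0, .ofNat 0, .ofNat 0, .ofNat 0, .ofNat 0, .ofNat 0, .ofNat 0, .ofNat 0, .ofNat 0, .ofNat 25942414667177821542147943348914932940800, .ofNat 0⟩)
    (by decide +kernel)
theorem L02360 : Good (Phi V5.P V5.D 1 1) ⟨4, 11, 3, 2, 3, 7, 2, 2, 4, 0⟩ :=
  leafX_sound T5.ok_pp T5.Ypp.bz_eq (w := 224) (c := ⟨⟨.negSucc 723, .ofNat 143, .negSucc 571, .ofNat 1772, .negSucc 2317, .negSucc 1976⟩, ⟨.negSucc 199, .ofNat 164, .negSucc 470, .ofNat 616, .negSucc 758, .negSucc 722⟩, ⟨.ofNat 328, .negSucc 93, .ofNat 103, .negSucc 1061, .ofNat 1462, .ofNat 932⟩, ⟨.negSucc 1815, .ofNat 97, .negSucc 1384, .ofNat 2783, .negSucc 4576, .negSucc 3206⟩, ⟨.ofNat 1866, .ofNat 416, .ofNat 417, .ofNat 617, .ofNat 1766, .negSucc 463⟩, .ofNat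 867, .negSucc 1366, .ofNat 0, .negSucc 1366, .ofNat 4169, .ofNat 0, .ofNat 128, .ofNat 295, .negSucc 609, .ofNat 0, .ofNat 128, .negSucc 189, .ofNat 0, .ofNat 0, .ofNat 526, .ofNat 253, .ofNat 0, .ofNat 0, .ofNat 0, .ofNat 0, .ofNat 0, .ofNat 0, .ofNat 51994131131167139291668395931854994145280, .ofNat 0, .ofNat 0, .ofNat 0, .ofNat 2527122895953522543074936768989197500416, .ofNat 0, .ofNat 0, .ofNat 0, .ofNat 86313694955337093864682951569636969152512, .ofNat 0⟩)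
    (by decide +kernel)
theorem L02361 : Good (Phi V5.P V5.D 1 1) ⟨4, 11, 3, 2, 3, 6, 2, 3, 4, 0⟩ :=
  leafX_sound T5.ok_pp T5.Ypp.bz_eq (w := 225) (c := ⟨⟨.ofNat 15, .negSucc 1892, .ofNat 1525, .negSucc 1673, .negSucc 2438, .negSucc 2566⟩, ⟨.ofNat 145, .negSucc 590, .negSucc 24, .negSucc 554, .negSucc 798, .negSucc 921⟩, ⟨.ofNat 237, .ofNat 1176, .negSucc 924, .ofNat 735, .ofNat 2577, .ofNat 1568⟩, ⟨.negSucc 363, .negSucc 3171, .ofNat 1852, .negSucc 3612, .negSucc 5277, .negSucc 4349⟩, ⟨.ofNat 534, .ofNat 874, .ofNat 1097, .ofNat 2243, .ofNat 3358, .negSucc 122⟩, .ofNat 854, .negSucc 1344, .ofNat 0, .negSucc 1344, .ofNat 4170, .ofNat 0, .ofNat 128, .ofNat 416, .negSucc 1025, .ofNat 0, .ofNat 185, .negSucc 321, .ofNat 0, .ofNat 0, .ofNat 877, .ofNat 51, .ofNat 0, .ofNat 0, .ofNat 1034902292794017265115777178507346444288, .ofNat 0, .ofNat 0, .ofNat 0, .ofNat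 7414287375247230639925327940309047312384, .ofNat 0, .ofNat 0, .ofNat 0, .ofNat 0, .ofNat 0, .ofNat 0, .ofNat 799914892729994479041922772703326578778570752, .ofNat 152415460518434975425941093404561268277248, .ofNat 0⟩)
    (by decide +kernel)
theorem L02362 : Good (Phi V5.P V5.D 1 1) ⟨5, 22, 3, 2, 3, 7, 2, 3, 4, 0⟩ :=
  leafX_sound T5.ok_pp T5.Ypp.bz_eq (w := 229) (c := ⟨⟨.negSucc 2701, .negSucc 672, .ofNat 1139, .ofNat 1563, .negSucc 1778, .negSucc 1702⟩, ⟨.negSucc 799, .negSucc 191, .negSucc 120, .ofNat 520, .negSucc 525, .negSucc 563⟩, ⟨.ofNat 1829, .ofNat 403, .negSucc 898, .negSucc 1502, .ofNat 1708, .ofNat 914⟩, ⟨.negSucc 5753, .negSucc 1237, .ofNat 1505, .ofNat 2657, .negSucc 3974, .negSucc 2950⟩, ⟨.ofNat 2992, .ofNat 583, .ofNat 467, .ofNat 179, .ofNat 2646, .negSucc 88⟩, .ofNat 877, .negSucc 1453, .ofNat 0, .negSucc 1453, .ofNat 4679, .ofNat 0, .ofNat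 128, .ofNat 496, .negSucc 690, .ofNat 0, .ofNat 206, .negSucc 203, .ofNat 0, .ofNat 0, .ofNat 581, .ofNat 412, .ofNat 0, .ofNat 0, .ofNat 0, .ofNat 0, .ofNat 0, .ofNat 2018364448615383759235306490385051631107440640, .ofNat 15055748513382567537977269082974509334528, .ofNat 0, .ofNat 0, .ofNat 0, .ofNat 0, .ofNat 0, .ofNat 0, .ofNat 0, .ofNat 31686657069588997712578776043582182653952, .ofNat 0⟩)
    (by decide +kernel)
theorem L02363 : Good (Phi V5.P V5.D 1 1) ⟨5, 23, 3, 2, 3, 7, 2, 3, 4, 0⟩ :=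
  leafX_sound T5.ok_pp T5.Ypp.bz_eq (w := 228) (c := ⟨⟨.negSucc 3725, .negSucc 598, .ofNat 524, .ofNat 2537, .negSucc 2174, .negSucc 1769⟩, ⟨.negSucc 1123, .negSucc 176, .negSucc 323, .ofNat 916, .negSucc 670, .negSucc 632⟩, ⟨.ofNat 2464, .ofNat 390, .negSucc 483, .negSucc 2008, .ofNat 1892, .ofNat 893⟩, ⟨.negSucc 7476, .negSucc 959, .negSucc 64, .ofNat 4092, .negSucc 4769, .negSucc 2803⟩, ⟨.ofNat 3546, .ofNat 290, .ofNat 1284, .ofNat 256, .ofNat 3006, .negSucc 526⟩, .ofNat 580, .negSucc 646, .ofNat 0, .negSucc 646, .ofNat 2004, .ofNat 0, .ofNat 128, .ofNat 371, .negSucc 658, .ofNat 0, .ofNat 187, .negSucc 194, .ofNat 0, .ofNat 0, .ofNat 504, .ofNat 113, .ofNat 0, .ofNat 0, .ofNat 0, .ofNat 0, .ofNat 0, .ofNat 0, .ofNat 0, .ofNat 0, .ofNat 0, .ofNat 0, .ofNat 0, .ofNat 0, .ofNat 0, .ofNat 2660934847560369321709129498115310024138948608, .ofNat 12560787600550812763384453459955360464896,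 .ofNat 0⟩)
    (by decide +kernel)
theorem L02364 : Good (Phi V5.P V5.D 1 1) ⟨4, 10, 3, 2, 2, 2, 1, 1, 4, 1⟩ :=
  out_sound (S := T5.ds_pp) T5.ok_pp (w := 51) (j := 3) (by decide +kernel)
theorem L02365 : Good (Phi V5.P V5.D 1 1) ⟨4, 11, 3, 2, 2, 2, 2, 2, 4, 1⟩ :=
  leafX_sound T5.ok_pp T5.Ypp.bz_eq (w := 209) (c := ⟨⟨.negSucc 212, .negSucc 404, .negSucc 227, .negSucc 1422, .negSucc 1134, .negSucc 1546⟩, ⟨.negSucc 14, .negSucc 226, .negSucc 279, .negSucc 462, .negSucc 387, .negSucc 523⟩, ⟨.ofNat 24, .ofNat 205, .ofNat 252, .ofNat 533, .ofNat 1371, .ofNat 1217⟩, ⟨.negSucc 313, .negSucc 350, .negSucc 813, .negSucc 2724, .negSucc 2159, .negSucc 2657⟩, ⟨.negSucc 534, .negSucc 162, .ofNat 1242, .ofNat 784, .ofNat 573, .negSucc 75⟩, .ofNat 864, .negSucc 1354, .ofNat 0, .negSucc 1354, .ofNat 4109, .ofNat 0, .ofNat 128, .ofNat 306, .negSucc 282, .ofNat 0, .ofNat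 141, .negSucc 89, .ofNat 0, .ofNat 0, .ofNat 416, .ofNat 447, .ofNat 0, .ofNat 0, .ofNat 0, .ofNat 0, .ofNat 0, .ofNat 0, .ofNat 0, .ofNat 0, .ofNat 0, .ofNat 0, .ofNat 2666128310064352982896403640550948864, .ofNat 0, .ofNat 0, .ofNat 0, .ofNat 83206544386746915465316407703502848, .ofNat 0⟩)
    (by decide +kernel)
theorem L02366 : Good (Phi V5.P V5.D 1 1) ⟨4, 11, 3, 2, 2, 2, 2, 3, 4, 1⟩ :=
  leafX_sound T5.ok_pp T5.Ypp.bz_eq (w := 208) (c := ⟨⟨.negSucc 1318, .negSucc 841, .ofNat 130, .negSucc 1903, .negSucc 2235, .negSucc 936⟩, ⟨.negSucc 330, .negSucc 425, .negSucc 341, .negSucc 616, .negSucc 762, .negSucc 331⟩, ⟨.ofNat 1311, .ofNat 597, .negSucc 159, .ofNat 1012, .ofNat 2327, .ofNat 726⟩, ⟨.negSucc 2310, .negSucc 1267, .ofNat 79, .negSucc 3823, .negSucc 4233, .negSucc 1328⟩, ⟨.negSucc 348, .ofNat 592, .ofNat 377, .ofNat 1485, .ofNat 1071, .negSucc 845⟩,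 .ofNat 532, .negSucc 535, .ofNat 0, .negSucc 535, .ofNat 1855, .ofNat 0, .ofNat 128, .ofNat 137, .negSucc 368, .ofNat 0, .ofNat 78, .negSucc 100, .ofNat 0, .ofNat 0, .ofNat 445, .ofNat 40, .ofNat 0, .ofNat 244759811124046329499927285584785047552, .ofNat 27022630255529052004515536013623296, .ofNat 0, .ofNat 0, .ofNat 0, .ofNat 0, .ofNat 0, .ofNat 0, .ofNat 8050753154671007571812664983779943645184, .ofNat 167060624143183921080017616745005056, .ofNat 0, .ofNat 0, .ofNat 135471451934145741227075059647834195230720, .ofNat 1647789888340282556543473949129834496, .ofNat 0⟩)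
    (by decide +kernel)
theorem L02367 : Good (Phi V5.P V5.D 1 1) ⟨4, 10, 3, 2, 2, 3, 1, 1, 4, 1⟩ :=
  out_sound (S := T5.ds_pp) T5.ok_pp (w := 51) (j := 3) (by decide +kernel)
theorem L02368 : Good (Phi V5.P V5.D 1 1) ⟨4, 11, 3, 2, 2, 3, 2, 2, 4, 1⟩ :=
  leafX_sound T5.ok_pp T5.Ypp.bz_eq (w := 210) (c := ⟨⟨.negSucc 2716, .negSucc 584, .ofNat 556, .ofNat 1418, .negSucc 1742, .negSucc 1113⟩, ⟨.negSucc 872, .negSucc 228, .negSucc 174, .ofNat 573, .negSucc 569, .negSucc 385⟩, ⟨.ofNat 1497, .ofNat 336, .negSucc 300, .negSucc 1343, .ofNat 1458, .ofNat 762⟩, ⟨.negSucc 4691, .negSucc 858, .ofNat 343, .ofNat 1548, .negSucc 3504, .negSucc 1997⟩, ⟨.negSucc 233, .ofNat 530, .ofNat 1240, .ofNat 2481, .ofNat 1534, .ofNat 58⟩, .ofNat 862, .negSucc 1354, .ofNat 0, .negSucc 1354, .ofNat 4131, .ofNat 0, .ofNat 128, .ofNat 296, .negSucc 337, .ofNat 0, .ofNat 132, .negSucc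 101, .ofNat 0, .ofNat 0, .ofNat 401, .ofNat 272, .ofNat 0, .ofNat 0, .ofNat 0, .ofNat 0, .ofNat 0, .ofNat 0, .ofNat 0, .ofNat 0, .ofNat 0, .ofNat 0, .ofNat 1131452045907328042915217656730615808, .ofNat 0, .ofNat 0, .ofNat 0, .ofNat 2388270879776398952148269698253848576, .ofNat 0⟩)
    (by decide +kernel)
theorem L02369 : Good (Phi V5.P V5.D 1 1) ⟨4, 11, 3, 2, 2, 3, 2, 3, 5, 2⟩ :=
  leafX_sound T5.ok_pp T5.Ypp.bz_eq (w := 215) (c := ⟨⟨.negSucc 4540, .negSucc 1014, .negSucc 144, .ofNat 1741, .negSucc 1994, .negSucc 669⟩, ⟨.negSucc 1438, .negSucc 339, .negSucc 663, .ofNat 669, .negSucc 610, .negSucc 243⟩, ⟨.ofNat 3512, .ofNat 523, .ofNat 13, .negSucc 2293, .ofNat 1773, .ofNat 478⟩, ⟨.negSucc 8243, .negSucc 1689, .negSucc 957, .ofNat 2076, .negSucc 4225, .negSucc 1161⟩, ⟨.ofNat 938, .ofNat 980, .ofNat 1406, .ofNat 2245, .ofNat 2303, .ofNat 86⟩, .ofNat 595, .negSucc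 696, .ofNat 0, .negSucc 696, .ofNat 2226, .ofNat 0, .ofNat 128, .ofNat 216, .negSucc 758, .ofNat 0, .ofNat 107, .negSucc 218, .ofNat 0, .ofNat 0, .ofNat 695, .ofNat 128, .ofNat 0, .ofNat 0, .ofNat 0, .ofNat 0, .ofNat 0, .ofNat 0, .ofNat 53115602860577686811911855531817435136, .ofNat 0, .ofNat 0, .ofNat 0, .ofNat 0, .ofNat 0, .ofNat 0, .ofNat 1734805748666917965022590433506741532491776, .ofNat 138598497763773983427249304078613741568, .ofNat 0⟩)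
    (by decide +kernel)
theorem L02370 : Good (Phi V5.P V5.D 1 1) ⟨4, 11, 3, 2, 2, 3, 3, 6, 5, 3⟩ :=
  leafX_sound T5.ok_pp T5.Ypp.bz_eq (w := 219) (c := ⟨⟨.negSucc 5231, .negSucc 832, .negSucc 445, .ofNat 1320, .negSucc 470, .ofNat 192⟩, ⟨.negSucc 1700, .negSucc 324, .negSucc 725, .ofNat 554, .negSucc 120, .ofNat 80⟩, ⟨.ofNat 3964, .ofNat 390, .ofNat 332, .negSucc 1970, .ofNat 529, .ofNat 44⟩, ⟨.negSucc 9567, .negSucc 1183, .negSucc 969, .ofNat 1273, .negSucc 1040, .ofNat 504⟩, ⟨.ofNat 1273, .ofNat 678, .negSucc 95, .ofNat 2724, .ofNat 590, .negSucc 661⟩, .ofNat 842, .negSucc 1301, .ofNat 0, .negSucc 1301, .ofNat 4001, .ofNat 0, .ofNat 128, .ofNat 279, .negSucc 570, .ofNat 0, .ofNat 128, .negSucc 167, .ofNat 0, .ofNat 0, .ofNat 707, .ofNat 269, .ofNat 0, .ofNat 0, .ofNat 0, .ofNat 0, .ofNat 0, .ofNat 0, .ofNat 0, .ofNat 0, .ofNat 0, .ofNat 0, .ofNat 790297834153742745510632796420334157824,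 .ofNat 0, .ofNat 0, .ofNat 0, .ofNat 0, .ofNat 0⟩)
    (by decide +kernel)
theorem L02371 : Good (Phi V5.P V5.D 1 1) ⟨4, 11, 3, 2, 2, 3, 3, 7, 5, 3⟩ :=
  leafX_sound T5.ok_pp T5.Ypp.bz_eq (w := 219) (c := ⟨⟨.negSucc 5849, .negSucc 927, .ofNat 81, .ofNat 1227, .negSucc 1043, .ofNat 280⟩, ⟨.negSucc 1838, .negSucc 356, .negSucc 601, .ofNat 505, .negSucc 320, .ofNat 81⟩, ⟨.ofNat 4822, .ofNat 471, .ofNat 31, .negSucc 2253, .ofNat 1018, .negSucc 53⟩, ⟨.negSucc 10902, .negSucc 1275, .negSucc 578, .ofNat 1046, .negSucc 2284, .ofNat 760⟩, ⟨.ofNat 1809, .ofNat 559, .ofNat 1062, .ofNat 2918, .ofNat 1454, .negSucc 676⟩, .ofNat 532, .negSucc 537, .ofNat 0, .negSucc 537, .ofNat 1848, .ofNat 0, .ofNat 128, .ofNat 253, .negSucc 799, .ofNat 0, .ofNat 139, .negSucc 190, .ofNat 0, .ofNat 0, .ofNat 916, .ofNat 141, .ofNat 0, .ofNat 179334690970475861236475793131732251705344,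 .ofNat 0, .ofNat 0, .ofNat 0, .ofNat 1892386003440949267023988490624508155133952, .ofNat 0, .ofNat 0, .ofNat 0, .ofNat 2733247123945025667738592318117952920485888, .ofNat 0, .ofNat 0, .ofNat 0, .ofNat 0, .ofNat 0, .ofNat 0⟩)
    (by decide +kernel)
theorem L02372 : Good (Phi V5.P V5.D 1 1) ⟨3, 6, 3, 2, 3, 4, 2, 2, 4, 0⟩ :=
  leafX_sound T5.ok_pp T5.Ypp.bz_eq (w := 219) (c := ⟨⟨.ofNat 3343, .ofNat 248, .ofNat 330, .negSucc 101, .negSucc 1878, .negSucc 4446⟩, ⟨.ofNat 1415, .ofNat 217, .ofNat 253, .negSucc 63, .negSucc 790, .negSucc 1950⟩, ⟨.negSucc 2299, .negSucc 126, .negSucc 151, .ofNat 46, .ofNat 1575, .ofNat 2991⟩, ⟨.ofNat 5189, .ofNat 27, .ofNat 532, .negSucc 148, .negSucc 3196, .negSucc 6913⟩, ⟨.ofNat 225, .ofNat 784, .negSucc 394, .ofNat 105, .ofNat 506, .negSucc 24⟩, .ofNat 701, .negSucc 776, .ofNat 0, .negSucc 776, .ofNat 1865, .ofNat 0, .ofNat 128,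 .ofNat 213, .negSucc 414, .ofNat 0, .ofNat 139, .negSucc 166, .ofNat 0, .ofNat 0, .ofNat 438, .ofNat 135, .ofNat 0, .ofNat 0, .ofNat 2286344456801968952700348347556164534272, .ofNat 0, .ofNat 0, .ofNat 0, .ofNat 44021800824184159972246993603541579333632, .ofNat 0, .ofNat 0, .ofNat 0, .ofNat 153831585192292427810582552034761676685312, .ofNat 0, .ofNat 0, .ofNat 0, .ofNat 51746605989827052192755015175463514406912, .ofNat 0⟩)
    (by decide +kernel)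
theorem L02373 : Good (Phi V5.P V5.D 1 1) ⟨4, 12, 3, 2, 3, 5, 2, 2, 4, 0⟩ :=
  leafX_sound T5.ok_pp T5.Ypp.bz_eq (w := 224) (c := ⟨⟨.ofNat 3864, .ofNat 866, .negSucc 577, .negSucc 162, .negSucc 2590, .negSucc 5496⟩, ⟨.ofNat 1643, .ofNat 462, .negSucc 313, .ofNat 7, .negSucc 1051, .negSucc 2361⟩, ⟨.negSucc 2547, .negSucc 388, .ofNat 290, .ofNat 65, .ofNat 2102, .ofNat 3227⟩, ⟨.ofNat 6088, .ofNat 1109, .negSucc 768, .negSucc 706, .negSucc 4601, .negSucc 8606⟩, ⟨.ofNat 215, .ofNat 507, .negSucc 574, .ofNat 922, .ofNat 1231, .negSucc 72⟩, .ofNat 814, .negSucc 1066, .ofNat 0, .negSucc 1066, .ofNat 2695, .ofNat 0, .ofNat 128, .ofNat 291, .negSucc 486, .ofNat 0, .ofNat 158, .negSucc 188, .ofNat 0, .ofNat 0, .ofNat 455, .ofNat 146, .ofNat 0, .ofNat 0, .ofNat 0, .ofNat 0, .ofNat 0, .ofNat 0, .ofNat 27334842230269260419292080072109951287296, .ofNat 0, .ofNat 0, .ofNat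 0, .ofNat 15768554131402878157190561430063240183808, .ofNat 0, .ofNat 0, .ofNat 0, .ofNat 3104359731716771857322308201568935084032, .ofNat 0⟩)
    (by decide +kernel)
theorem L02374 : Good (Phi V5.P V5.D 1 1) ⟨4, 13, 3, 2, 3, 5, 2, 2, 4, 0⟩ :=
  leafX_sound T5.ok_pp T5.Ypp.bz_eq (w := 226) (c := ⟨⟨.ofNat 4499, .negSucc 4497, .ofNat 802, .negSucc 723, .negSucc 2993, .negSucc 7050⟩, ⟨.ofNat 2152, .negSucc 2153, .ofNat 380, .negSucc 277, .negSucc 1338, .negSucc 3360⟩, ⟨.negSucc 3486, .ofNat 1521, .ofNat 261, .ofNat 329, .ofNat 2393, .ofNat 4145⟩, ⟨.ofNat 7108, .negSucc 5463, .ofNat 600, .negSucc 1452, .negSucc 4988, .negSucc 10381⟩, ⟨.ofNat 15, .negSucc 2423, .ofNat 964, .ofNat 672, .ofNat 805, .negSucc 1038⟩, .ofNat 1151, .negSucc 1623, .ofNat 0, .negSucc 1623, .ofNat 3483, .ofNat 0, .ofNat 128, .ofNat 605, .negSucc 1078, .ofNat 0, .ofNat 352, .negSucc 478,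 .ofNat 0, .ofNat 0, .ofNat 976, .ofNat 171, .ofNat 0, .ofNat 0, .ofNat 7493046702544805056901854164727948640256, .ofNat 0, .ofNat 0, .ofNat 0, .ofNat 876221317638176966886884609470595183149056, .ofNat 0, .ofNat 0, .ofNat 0, .ofNat 248764891301743521248970061373892200497152, .ofNat 0, .ofNat 0, .ofNat 0, .ofNat 93559813413585474518450137936541681451008, .ofNat 0⟩)
    (by decide +kernel)
theorem L02375 : Good (Phi V5.P V5.D 1 1) ⟨3, 7, 3, 2, 2, 2, 2, 2, 4, 0⟩ :=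
  out_sound (S := T5.ds_pp) T5.ok_pp (w := 45) (j := 3) (by decide +kernel)
theorem L02376 : Good (Phi V5.P V5.D 1 1) ⟨5, 24, 3, 2, 2, 2, 3, 6, 4, 0⟩ :=
  leafX_sound T5.ok_pp T5.Ypp.bz_eq (w := 217) (c := ⟨⟨.ofNat 799, .negSucc 779, .ofNat 178, .negSucc 1854, .negSucc 1294, .negSucc 2778⟩, ⟨.ofNat 494, .negSucc 293, .negSucc 210, .negSucc 677, .negSucc 514, .negSucc 1167⟩, ⟨.negSucc 203, .ofNat 537, .negSucc 62, .ofNat 958, .ofNat 1303, .ofNat 1885⟩, ⟨.ofNat 1407, .negSucc 1156, .ofNat 105, .negSucc 3932, .negSucc 2388, .negSucc 4493⟩, ⟨.ofNat 63, .ofNat 0, .ofNat 244, .ofNat 2215, .ofNat 573, .negSucc 512⟩, .ofNat 537, .negSucc 523, .ofNat 0, .negSucc 523, .ofNat 1548, .ofNat 0, .ofNat 128, .ofNat 206, .negSucc 541, .ofNat 0, .ofNat 126, .negSucc 182, .ofNat 0, .ofNat 0, .ofNat 515, .ofNat 140, .ofNat 0, .ofNat 0, .ofNat 0, .ofNat 0, .ofNat 0, .ofNat 0,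 .ofNat 0, .ofNat 0, .ofNat 0, .ofNat 0, .ofNat 0, .ofNat 0, .ofNat 0, .ofNat 0, .ofNat 10635246965839685443205811808979910656, .ofNat 0⟩)
    (by decide +kernel)
theorem L02377 : Good (Phi V5.P V5.D 1 1) ⟨5, 25, 3, 2, 2, 2, 3, 6, 4, 0⟩ :=
  leafX_sound T5.ok_pp T5.Ypp.bz_eq (w := 217) (c := ⟨⟨.ofNat 921, .negSucc 586, .ofNat 631, .negSucc 2703, .negSucc 1482, .negSucc 3510⟩, ⟨.ofNat 535, .negSucc 197, .negSucc 67, .negSucc 944, .negSucc 527, .negSucc 1553⟩, ⟨.negSucc 297, .ofNat 377, .negSucc 293, .ofNat 1500, .ofNat 1437, .ofNat 2353⟩, ⟨.ofNat 1299, .negSucc 638, .ofNat 506, .negSucc 4810, .negSucc 2599, .negSucc 5376⟩, ⟨.ofNat 444, .negSucc 387, .ofNat 992, .ofNat 1271, .ofNat 505, .negSucc 562⟩, .ofNat 814, .negSucc 1031, .ofNat 0, .negSucc 1031, .ofNat 2482, .ofNat 0, .ofNat 128, .ofNat 182, .negSucc 432, .ofNat 0, .ofNat 108, .negSucc 175, .ofNat 0,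 .ofNat 0, .ofNat 401, .ofNat 75, .ofNat 0, .ofNat 0, .ofNat 0, .ofNat 0, .ofNat 0, .ofNat 0, .ofNat 0, .ofNat 0, .ofNat 0, .ofNat 0, .ofNat 1568069493075611610451534638856798208, .ofNat 0, .ofNat 0, .ofNat 0, .ofNat 6338943314979907818940758634396647424, .ofNat 0⟩)
    (by decide +kernel)
theorem L02378 : Good (Phi V5.P V5.D 1 1) ⟨4, 13, 3, 2, 2, 2, 3, 6, 4, 0⟩ :=
  leafX_sound T5.ok_pp T5.Ypp.bz_eq (w := 215) (c := ⟨⟨.ofNat 839, .negSucc 433, .ofNat 415, .negSucc 2959, .negSucc 2082, .negSucc 4212⟩, ⟨.ofNat 795, .negSucc 198, .negSucc 207, .negSucc 1204, .negSucc 908, .negSucc 2006⟩, ⟨.negSucc 177, .ofNat 357, .negSucc 244, .ofNat 1652, .ofNat 1818, .ofNat 2832⟩, ⟨.ofNat 787, .ofNat 73, .ofNat 952, .negSucc 5639, .negSucc 3532, .negSucc 6231⟩, ⟨.ofNat 1345, .negSucc 934, .negSucc 986, .ofNat 2325, .ofNat 709, .negSucc 528⟩, .ofNat 1142, .negSucc 1604, .ofNat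 0, .negSucc 1604, .ofNat 3443, .ofNat 0, .ofNat 128, .ofNat 353, .negSucc 707, .ofNat 0, .ofNat 215, .negSucc 315, .ofNat 0, .ofNat 0, .ofNat 645, .ofNat 228, .ofNat 0, .ofNat 0, .ofNat 2501363538678632301159927350130900992, .ofNat 0, .ofNat 0, .ofNat 0, .ofNat 663091176866969686941252597256948809728, .ofNat 0, .ofNat 0, .ofNat 0, .ofNat 158792837853089291333478952908412157952, .ofNat 0, .ofNat 0, .ofNat 0, .ofNat 153852773716300737328158294691106783232, .ofNat 0⟩)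
    (by decide +kernel)
theorem L02379 : Good (Phi V5.P V5.D 1 1) ⟨5, 24, 3, 2, 2, 2, 3, 7, 4, 0⟩ :=
  leafX_sound T5.ok_pp T5.Ypp.bz_eq (w := 217) (c := ⟨⟨.negSucc 216, .negSucc 924, .ofNat 475, .negSucc 2653, .negSucc 1701, .negSucc 2739⟩, ⟨.ofNat 99, .negSucc 332, .negSucc 234, .negSucc 856, .negSucc 617, .negSucc 1148⟩, ⟨.ofNat 786, .ofNat 703, .negSucc 277, .ofNat 1619, .ofNat 1758, .ofNat 1905⟩, ⟨.negSucc 632, .negSucc 1316, .ofNat 549, .negSucc 5295, .negSucc 3239, .negSucc 4294⟩, ⟨.ofNat 705, .negSucc 60, .ofNat 186, .ofNat 2533, .ofNat 1240, .negSucc 657⟩, .ofNat 814, .negSucc 1111, .ofNat 0, .negSucc 1111, .ofNat 2975, .ofNat 0, .ofNat 128, .ofNat 194, .negSucc 491, .ofNat 0, .ofNat 107, .negSucc 180, .ofNat 0, .ofNat 0, .ofNat 457, .ofNat 32, .ofNat 0, .ofNat 0, .ofNat 0, .ofNat 0, .ofNat 0, .ofNat 0, .ofNat 0, .ofNat 0, .ofNat 0, .ofNat 0, .ofNat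 0, .ofNat 0, .ofNat 0, .ofNat 6125193787533760292659527713648934165413888, .ofNat 0, .ofNat 0⟩)
    (by decide +kernel)
theorem L02380 : Good (Phi V5.P V5.D 1 1) ⟨5, 25, 3, 2, 3, 4, 3, 7, 4, 0⟩ :=
  leafX_sound T5.ok_pp T5.Ypp.bz_eq (w := 231) (c := ⟨⟨.negSucc 725, .negSucc 892, .ofNat 669, .negSucc 1494, .negSucc 2076, .negSucc 3111⟩, ⟨.ofNat 29, .negSucc 405, .negSucc 152, .negSucc 537, .negSucc 829, .negSucc 1397⟩, ⟨.ofNat 1228, .ofNat 709, .negSucc 512, .ofNat 943, .ofNat 1993, .ofNat 2163⟩, ⟨.negSucc 1637, .negSucc 1241, .ofNat 1015, .negSucc 2684, .negSucc 3603, .negSucc 4646⟩, ⟨.ofNat 1136, .ofNat 53, .negSucc 7, .ofNat 682, .ofNat 782, .negSucc 751⟩, .ofNat 820, .negSucc 1044, .ofNat 0, .negSucc 1044, .ofNat 2507, .ofNat 0, .ofNat 128, .ofNat 237, .negSucc 660, .ofNat 0, .ofNat 145, .negSucc 272, .ofNat 0, .ofNat 0, .ofNat 613, .ofNat 68, .ofNat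 0, .ofNat 0, .ofNat 0, .ofNat 0, .ofNat 0, .ofNat 15302980060750401553482828602370792256654278656, .ofNat 80592179856949149771529017565226022731776, .ofNat 0, .ofNat 0, .ofNat 0, .ofNat 0, .ofNat 0, .ofNat 0, .ofNat 60607917021788847346631041119843976472764088320, .ofNat 51969037256497365971548725716274546475008, .ofNat 0⟩)
    (by decide +kernel)
theorem L02381 : Good (Phi V5.P V5.D 1 1) ⟨5, 25, 4, 4, 3, 5, 3, 7, 4, 0⟩ :=
  leafX_sound T5.ok_pp T5.Ypp.bz_eq (w := 235) (c := ⟨⟨.ofNat 66, .negSucc 394, .ofNat 32, .negSucc 3294, .negSucc 3819, .negSucc 5554⟩, ⟨.ofNat 409, .negSucc 236, .negSucc 306, .negSucc 1123, .negSucc 1406, .negSucc 2326⟩, ⟨.ofNat 765, .ofNat 374, .negSucc 32, .ofNat 1915, .ofNat 3246, .ofNat 3567⟩, ⟨.negSucc 832, .negSucc 229, .ofNat 48, .negSucc 5887, .negSucc 6836, .negSucc 8499⟩, ⟨.ofNat 2259, .negSucc 478, .negSucc 130, .ofNat 1564,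 .ofNat 2015, .negSucc 760⟩, .ofNat 840, .negSucc 1093, .ofNat 0, .negSucc 1093, .ofNat 2720, .ofNat 0, .ofNat 128, .ofNat 245, .negSucc 849, .ofNat 0, .ofNat 144, .negSucc 327, .ofNat 0, .ofNat 0, .ofNat 681, .ofNat 82, .ofNat 0, .ofNat 0, .ofNat 48230638009264078839618763746145887846400, .ofNat 0, .ofNat 0, .ofNat 52027880994872230472083957313446073699856809984, .ofNat 210775624840561846092756039886043615330304, .ofNat 0, .ofNat 0, .ofNat 0, .ofNat 738413705905227809099147114227060564819968, .ofNat 0, .ofNat 0, .ofNat 474646837722878110510368057204535979237777080320, .ofNat 1176188837631709460224668408862825554903040, .ofNat 0⟩)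
    (by decide +kernel)
theorem L02382 : Good (Phi V5.P V5.D 1 1) ⟨5, 25, 4, 5, 3, 5, 3, 7, 4, 0⟩ :=
  leafX_sound T5.ok_pp T5.Ypp.bz_eq (w := 236) (c := ⟨⟨.ofNat 544, .negSucc 2688, .ofNat 636, .negSucc 2406, .negSucc 2929, .negSucc 5437⟩, ⟨.ofNat 503, .negSucc 1190, .negSucc 25, .negSucc 933, .negSucc 1144, .negSucc 2416⟩, ⟨.ofNat 430, .ofNat 1786, .negSucc 426, .ofNat 1417, .ofNat 2631, .ofNat 3542⟩, ⟨.negSucc 14, .negSucc 4022, .ofNat 922, .negSucc 4590, .negSucc 5211, .negSucc 8482⟩, ⟨.ofNat 1772, .ofNat 113, .ofNat 66, .ofNat 1813, .ofNat 1461, .negSucc 223⟩, .ofNat 976, .negSucc 1358, .ofNat 0, .negSucc 1358, .ofNat 3167, .ofNat 0, .ofNat 128, .ofNat 304, .negSucc 950, .ofNat 0, .ofNat 175, .negSucc 397, .ofNat 0, .ofNat 0, .ofNat 765, .ofNat 57, .ofNat 0, .ofNat 0, .ofNat 0, .ofNat 0, .ofNat 0, .ofNat 0, .ofNat 676227651135209579125073755883274250485760,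 .ofNat 0, .ofNat 0, .ofNat 0, .ofNat 468939495528503640910408908747904462618624, .ofNat 0, .ofNat 0, .ofNat 368539143413831479643698593416543548795248443392, .ofNat 774240480038599090778653586902627429384192, .ofNat 0⟩)
    (by decide +kernel)
theorem L02383 : Good (Phi V5.P V5.D 1 1) ⟨4, 13, 3, 2, 2, 2, 3, 7, 4, 0⟩ :=
  leafX_sound T5.ok_pp T5.Ypp.bz_eq (w := 215) (c := ⟨⟨.ofNat 1951, .negSucc 3170, .negSucc 2291, .negSucc 4586, .negSucc 2056, .negSucc 3868⟩, ⟨.ofNat 1361, .negSucc 1688, .negSucc 1462, .negSucc 1879, .negSucc 878, .negSucc 1888⟩, ⟨.negSucc 451, .ofNat 1753, .ofNat 1404, .ofNat 2868, .ofNat 2081, .ofNat 2663⟩, ⟨.ofNat 3740, .negSucc 4942, .negSucc 4167, .negSucc 8986, .negSucc 3962, .negSucc 6033⟩, ⟨.negSucc 1264, .negSucc 32, .ofNat 1413, .ofNat 4069, .ofNat 1654, .negSucc 366⟩, .ofNat 739, .negSucc 778, .ofNat 0, .negSucc 778, .ofNat 1693,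 .ofNat 0, .ofNat 128, .ofNat 211, .negSucc 918, .ofNat 0, .ofNat 152, .negSucc 404, .ofNat 0, .ofNat 0, .ofNat 686, .ofNat 51, .ofNat 0, .ofNat 0, .ofNat 3397410470884124139388285238011494400, .ofNat 0, .ofNat 0, .ofNat 0, .ofNat 48314190997969032776483935643347451904, .ofNat 0, .ofNat 0, .ofNat 0, .ofNat 38280394793138457014985089131227381760, .ofNat 0, .ofNat 0, .ofNat 0, .ofNat 137662723763700477013230220032004325376, .ofNat 0⟩)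
    (by decide +kernel)
theorem L02384 : Good (Phi V5.P V5.D 1 1) ⟨3, 7, 3, 2, 2, 2, 2, 3, 4, 0⟩ :=
  out_sound (S := T5.ds_pp) T5.ok_pp (w := 45) (j := 3) (by decide +kernel)
theorem L02385 : Good (Phi V5.P V5.D 1 1) ⟨4, 12, 4, 4, 3, 6, 2, 2, 4, 0⟩ :=
  leafX_sound T5.ok_pp T5.Ypp.bz_eq (w := 227) (c := ⟨⟨.ofNat 3810, .negSucc 708, .ofNat 228, .negSucc 1502, .negSucc 4216, .negSucc 5532⟩, ⟨.ofNat 1666, .negSucc 181, .ofNat 1, .negSucc 517, .negSucc 1580, .negSucc 2264⟩, ⟨.negSucc 2546, .ofNat 426, .negSucc 50, .ofNat 740, .ofNat 3099, .ofNat 3074⟩, ⟨.ofNat 5928, .negSucc 1332, .ofNat 296, .negSucc 3136, .negSucc 7515, .negSucc 8788⟩, ⟨.ofNat 338, .ofNat 802, .negSucc 111, .ofNat 1749, .ofNat 1901, .ofNat 26⟩, .ofNat 714, .negSucc 854, .ofNat 0, .negSucc 854, .ofNat 2269, .ofNat 0, .ofNat 128, .ofNat 354, .negSucc 782, .ofNat 0, .ofNat 191, .negSucc 282,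 .ofNat 0, .ofNat 0, .ofNat 602, .ofNat 142, .ofNat 0, .ofNat 0, .ofNat 2888208493365050935660072582228014530560, .ofNat 0, .ofNat 0, .ofNat 0, .ofNat 36343444719468851948834802553346320236544, .ofNat 0, .ofNat 0, .ofNat 0, .ofNat 170635465665569455068864735941653444952064, .ofNat 0, .ofNat 0, .ofNat 0, .ofNat 175406653403280339833942828521207206248448, .ofNat 0⟩)
    (by decide +kernel)
theorem L02386 : Good (Phi V5.P V5.D 1 1) ⟨4, 13, 4, 4, 3, 6, 2, 2, 4, 0⟩ :=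
  out_sound (S := T5.ds_pp) T5.ok_pp (w := 53) (j := 3) (by decide +kernel)

end Crest.Agent.R097C5.N5pp
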