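import Crest.Agent.R097.KP7
import Crest.Agent.R097.T5Ypp

/-!
# Row 97, box cover in dimension n = 5 (generated)
-/

set_option autoImplicit false
set_option Elab.async false
set_option maxHeartbeats 0
set_option maxRecDepth 100000

open Crest.Agent.R097 Crest.Agent.R097.KA


namespace Crest.Agent.R097C5.N5pp

theorem L02387 : Good (Phi V5.P V5.D 1 1) ⟨4, 12, 4, 5, 3, 6, 2, 2, 5, 0⟩ :=
  leafX_sound T5.ok_pp T5.Ypp.bz_eq (w := 233) (c := ⟨⟨.ofNat 4351, .negSucc 1094, .ofNat 54, .negSucc 2375, .negSucc 4344, .negSucc 3093⟩, ⟨.ofNat 1946, .negSucc 368, .negSucc 103, .negSucc 913, .negSucc 1787, .negSucc 1381⟩, ⟨.negSucc 2883, .ofNat 733, .negSucc 21, .ofNat 1272, .ofNat 3145, .ofNat 1668⟩, ⟨.ofNat 7084, .negSucc 1991, .negSucc 105, .negSucc 4506, .negSucc 7973, .negSucc 5203⟩, ⟨.negSucc 497, .ofNat 712, .ofNat 327, .ofNat 1554, .ofNat 2625, .ofNat 858⟩, .ofNat 887, .negSucc 1213, .ofNat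 0, .negSucc 1213, .ofNat 2968, .ofNat 0, .ofNat 128, .ofNat 426, .negSucc 963, .ofNat 0, .ofNat 224, .negSucc 385, .ofNat 0, .ofNat 0, .ofNat 738, .ofNat 126, .ofNat 0, .ofNat 0, .ofNat 0, .ofNat 0, .ofNat 0, .ofNat 0, .ofNat 4557130656975351473406760933539100619702272, .ofNat 0, .ofNat 0, .ofNat 0, .ofNat 3806715920280864776495871961723523450273792, .ofNat 0, .ofNat 0, .ofNat 0, .ofNat 0, .ofNat 0⟩)
    (by decide +kernel)
theorem L02388 : Good (Phi V5.P V5.D 1 1) ⟨4, 12, 4, 5, 3, 6, 2, 2, 5, 1⟩ :=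
  leafX_sound T5.ok_pp T5.Ypp.bz_eq (w := 232) (c := ⟨⟨.ofNat 801, .negSucc 1905, .ofNat 420, .negSucc 1723, .negSucc 3700, .negSucc 2069⟩, ⟨.ofNat 460, .negSucc 783, .negSucc 46, .negSucc 629, .negSucc 1511, .negSucc 911⟩, ⟨.negSucc 936, .ofNat 1090, .negSucc 111, .ofNat 828, .ofNat 2878, .ofNat 1303⟩, ⟨.ofNat 1409, .negSucc 3067, .ofNat 443, .negSucc 3702, .negSucc 6857, .negSucc 3424⟩, ⟨.negSucc 747, .ofNat 792, .ofNat 438, .ofNat 2297, .ofNat 2292, .ofNat 377⟩, .ofNat 727, .negSucc 895, .ofNat 0, .negSucc 895, .ofNat 2300, .ofNat 0, .ofNat 128, .ofNat 351, .negSucc 774, .ofNat 0, .ofNat 186, .negSucc 289, .ofNat 0, .ofNat 0, .ofNat 654, .ofNat 304, .ofNat 0, .ofNat 0, .ofNat 0, .ofNat 0, .ofNat 0, .ofNat 0, .ofNat 3859541127741646478598150084415901052960768, .ofNat 0, .ofNat 0, .ofNat 0, .ofNat 422813892061938521800913987919651518021632, .ofNat 0, .ofNat 0, .ofNat 0, .ofNat 1680121362536876313264518576751366931218432,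 .ofNat 0⟩)
    (by decide +kernel)
theorem L02389 : Good (Phi V5.P V5.D 1 1) ⟨4, 13, 4, 5, 3, 6, 2, 2, 4, 0⟩ :=
  leafX_sound T5.ok_pp T5.Ypp.bz_eq (w := 229) (c := ⟨⟨.ofNat 3904, .negSucc 3143, .ofNat 206, .negSucc 2663, .negSucc 5183, .negSucc 6261⟩, ⟨.ofNat 1973, .negSucc 1440, .negSucc 41, .negSucc 1049, .negSucc 2261, .negSucc 2922⟩, ⟨.negSucc 2652, .ofNat 1379, .ofNat 62, .ofNat 1375, .ofNat 3673, .ofNat 3572⟩, ⟨.ofNat 6124, .negSucc 4054, .negSucc 95, .negSucc 5266, .negSucc 8995, .negSucc 9603⟩, ⟨.ofNat 17, .negSucc 593, .ofNat 618, .ofNat 2455, .ofNat 2140, .negSucc 102⟩, .ofNat 1027, .negSucc 1388, .ofNat 0, .negSucc 1388, .ofNat 3020, .ofNat 0, .ofNat 128, .ofNat 381, .negSucc 992, .ofNat 0, .ofNat 218, .negSucc 429, .ofNat 0, .ofNat 0, .ofNat 774, .ofNat 349, .ofNat 0, .ofNat 0, .ofNat 11651343501111948927608521450447196651520, .ofNat 0, .ofNat 0, .ofNat 0, .ofNat 1122369374335952316256791772406918210912256,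 .ofNat 0, .ofNat 0, .ofNat 0, .ofNat 540159769756391101768893446794449921245184, .ofNat 0, .ofNat 0, .ofNat 0, .ofNat 468670741959152143781232784322642512445440, .ofNat 0⟩)
    (by decide +kernel)
theorem L02390 : Good (Phi V5.P V5.D 1 1) ⟨5, 24, 3, 2, 4, 14, 2, 2, 4, 0⟩ :=
  leafX_sound T5.ok_pp T5.Ypp.bz_eq (w := 242) (c := ⟨⟨.ofNat 790, .negSucc 553, .ofNat 150, .ofNat 255, .negSucc 3736, .negSucc 3487⟩, ⟨.ofNat 552, .negSucc 154, .negSucc 342, .ofNat 146, .negSucc 1371, .negSucc 1383⟩, ⟨.negSucc 728, .ofNat 354, .negSucc 71, .negSucc 243, .ofNat 2544, .ofNat 1795⟩, ⟨.ofNat 530, .negSucc 958, .negSucc 311, .ofNat 43, .negSucc 6741, .negSucc 5392⟩, ⟨.ofNat 2052, .ofNat 422, .ofNat 762, .ofNat 846, .ofNat 1580, .negSucc 648⟩, .ofNat 665, .negSucc 784, .ofNat 0, .negSucc 784, .ofNat 2189, .ofNat 0, .ofNat 128, .ofNat 304, .negSucc 861, .ofNat 0, .ofNat 157, .negSucc 289, .ofNat 0, .ofNat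 0, .ofNat 666, .ofNat 325, .ofNat 0, .ofNat 0, .ofNat 0, .ofNat 0, .ofNat 0, .ofNat 0, .ofNat 0, .ofNat 0, .ofNat 0, .ofNat 0, .ofNat 0, .ofNat 0, .ofNat 0, .ofNat 0, .ofNat 0, .ofNat 0⟩)
    (by decide +kernel)
theorem L02391 : Good (Phi V5.P V5.D 1 1) ⟨5, 24, 3, 2, 4, 15, 2, 2, 4, 0⟩ :=
  leafX_sound T5.ok_pp T5.Ypp.bz_eq (w := 242) (c := ⟨⟨.negSucc 94, .ofNat 116, .negSucc 36, .ofNat 2006, .negSucc 2947, .negSucc 2425⟩, ⟨.ofNat 173, .ofNat 166, .negSucc 347, .ofNat 778, .negSucc 1041, .negSucc 986⟩, ⟨.ofNat 96, .ofNat 67, .negSucc 196, .negSucc 886, .ofNat 1685, .ofNat 805⟩, ⟨.negSucc 1344, .ofNat 132, .negSucc 711, .ofNat 3174, .negSucc 5320, .negSucc 3522⟩, ⟨.ofNat 3253, .ofNat 29, .ofNat 1011, .ofNat 293, .ofNat 1315, .negSucc 1020⟩, .ofNat 799, .negSucc 1075, .ofNat 0, .negSucc 1075, .ofNat 2885, .ofNat 0, .ofNat 128, .ofNat 337, .negSucc 599, .ofNat 0, .ofNat 170, .negSucc 200,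 .ofNat 0, .ofNat 0, .ofNat 493, .ofNat 322, .ofNat 0, .ofNat 0, .ofNat 0, .ofNat 0, .ofNat 0, .ofNat 0, .ofNat 0, .ofNat 0, .ofNat 0, .ofNat 0, .ofNat 0, .ofNat 0, .ofNat 0, .ofNat 0, .ofNat 669751776545875284170513558518603990811279360, .ofNat 0⟩)
    (by decide +kernel)
theorem L02392 : Good (Phi V5.P V5.D 1 1) ⟨5, 25, 3, 2, 4, 14, 2, 2, 5, 0⟩ :=
  leafX_sound T5.ok_pp T5.Ypp.bz_eq (w := 246) (c := ⟨⟨.ofNat 437, .negSucc 1118, .ofNat 336, .ofNat 314, .negSucc 4561, .negSucc 1863⟩, ⟨.ofNat 604, .negSucc 372, .negSucc 247, .ofNat 199, .negSucc 1830, .negSucc 869⟩, ⟨.negSucc 495, .ofNat 754, .negSucc 176, .negSucc 225, .ofNat 2884, .ofNat 869⟩, ⟨.ofNat 134, .negSucc 1983, .negSucc 211, .negSucc 7, .negSucc 8028, .negSucc 2793⟩, ⟨.ofNat 1625, .ofNat 597, .ofNat 1152, .ofNat 1109, .ofNat 1921, .negSucc 302⟩, .ofNat 832, .negSucc 1069, .ofNat 0, .negSucc 1069, .ofNat 2559, .ofNat 0, .ofNat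 128, .ofNat 191, .negSucc 521, .ofNat 0, .ofNat 104, .negSucc 205, .ofNat 0, .ofNat 0, .ofNat 369, .ofNat 138, .ofNat 0, .ofNat 0, .ofNat 0, .ofNat 0, .ofNat 0, .ofNat 0, .ofNat 6872866324860765416165541212080194078399004672, .ofNat 0, .ofNat 0, .ofNat 0, .ofNat 2977968420743773356181600281876204925506027520, .ofNat 0, .ofNat 0, .ofNat 0, .ofNat 5004678088380149933000653148232691576710627328, .ofNat 0⟩)
    (by decide +kernel)
theorem L02393 : Good (Phi V5.P V5.D 1 1) ⟨5, 25, 3, 2, 5, 30, 2, 2, 5, 0⟩ :=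
  leafX_sound T5.ok_pp T5.Ypp.bz_eq (w := 260) (c := ⟨⟨.ofNat 519, .negSucc 316, .negSucc 307, .ofNat 793, .negSucc 4087, .negSucc 1374⟩, ⟨.ofNat 578, .ofNat 11, .negSucc 446, .ofNat 352, .negSucc 1595, .negSucc 622⟩, ⟨.negSucc 316, .ofNat 237, .ofNat 84, .negSucc 393, .ofNat 2400, .ofNat 515⟩, ⟨.negSucc 403, .negSucc 670, .negSucc 1107, .ofNat 1245, .negSucc 7400, .negSucc 1803⟩, ⟨.ofNat 3318, .ofNat 382, .ofNat 821, .negSucc 0, .ofNat 2077, .negSucc 904⟩, .ofNat 673, .negSucc 756, .ofNat 0, .negSucc 756, .ofNat 1894, .ofNat 0, .ofNat 128, .ofNat 152, .negSucc 453, .ofNat 0, .ofNat 85, .negSucc 165, .ofNat 0, .ofNat 0, .ofNat 316, .ofNat 225, .ofNat 0, .ofNat 0, .ofNat 0, .ofNat 0, .ofNat 0, .ofNat 0, .ofNat 0, .ofNat 0, .ofNat 0, .ofNat 0, .ofNat 30813228279415096555460228942152861286071535665152, .ofNat 0, .ofNat 0, .ofNat 0, .ofNat 69690062892343746147372074896240005076168030027776,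 .ofNat 0⟩)
    (by decide +kernel)
theorem L02394 : Good (Phi V5.P V5.D 1 1) ⟨5, 25, 4, 4, 5, 31, 2, 2, 5, 0⟩ :=
  leafX_sound T5.ok_pp T5.Ypp.bz_eq (w := 264) (c := ⟨⟨.ofNat 1053, .ofNat 33, .negSucc 205, .ofNat 1659, .negSucc 3740, .negSucc 1195⟩, ⟨.ofNat 740, .ofNat 269, .negSucc 191, .ofNat 706, .negSucc 1399, .negSucc 556⟩, ⟨.negSucc 283, .ofNat 111, .ofNat 9, .negSucc 577, .ofNat 1883, .ofNat 214⟩, ⟨.ofNat 261, .negSucc 111, .negSucc 645, .ofNat 2555, .negSucc 6501, .negSucc 1452⟩, ⟨.ofNat 3830, .ofNat 190, .ofNat 344, .ofNat 160, .ofNat 1385, .negSucc 1104⟩, .ofNat 677, .negSucc 750, .ofNat 0, .negSucc 750, .ofNat 1932, .ofNat 0, .ofNat 128, .ofNat 351, .negSucc 408, .ofNat 0, .ofNat 195, .negSucc 137, .ofNat 0, .ofNat 0, .ofNat 290, .ofNat 655, .ofNat 0, .ofNat 0, .ofNat 45089889307143966525268630380663587974720771850240, .ofNat 0, .ofNat 0, .ofNat 0, .ofNat 0, .ofNat 0, .ofNat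 0, .ofNat 0, .ofNat 523275940061231881945712190160087844368253659906048, .ofNat 0, .ofNat 0, .ofNat 0, .ofNat 326973868244227182130272621369373436213236663844864, .ofNat 0⟩)
    (by decide +kernel)
theorem L02395 : Good (Phi V5.P V5.D 1 1) ⟨5, 25, 4, 5, 5, 31, 2, 2, 5, 0⟩ :=
  leafX_sound T5.ok_pp T5.Ypp.bz_eq (w := 264) (c := ⟨⟨.ofNat 696, .ofNat 234, .negSucc 253, .ofNat 1575, .negSucc 3594, .negSucc 1160⟩, ⟨.ofNat 537, .ofNat 316, .negSucc 248, .ofNat 708, .negSucc 1490, .negSucc 574⟩, ⟨.negSucc 244, .ofNat 114, .negSucc 9, .negSucc 641, .ofNat 1858, .ofNat 250⟩, ⟨.negSucc 514, .ofNat 38, .negSucc 718, .ofNat 2545, .negSucc 6541, .negSucc 1359⟩, ⟨.ofNat 3944, .ofNat 522, .ofNat 337, .negSucc 180, .ofNat 2031, .negSucc 1030⟩, .ofNat 703, .negSucc 815, .ofNat 0, .negSucc 815, .ofNat 1997, .ofNat 0, .ofNat 128, .ofNat 412, .negSucc 736, .ofNat 0, .ofNat 230, .negSucc 264, .ofNat 0,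 .ofNat 0, .ofNat 546, .ofNat 702, .ofNat 0, .ofNat 0, .ofNat 39940457609777078592445337247693037460643970547712, .ofNat 0, .ofNat 0, .ofNat 0, .ofNat 0, .ofNat 0, .ofNat 0, .ofNat 0, .ofNat 666873577411612559345784006174873553449616041574400, .ofNat 0, .ofNat 0, .ofNat 0, .ofNat 0, .ofNat 0⟩)
    (by decide +kernel)
theorem L02396 : Good (Phi V5.P V5.D 1 1) ⟨5, 25, 3, 2, 3, 7, 2, 2, 5, 1⟩ :=
  leafX_sound T5.ok_pp T5.Ypp.bz_eq (w := 233) (c := ⟨⟨.negSucc 3101, .negSucc 182, .ofNat 49, .ofNat 4061, .negSucc 3403, .negSucc 1347⟩, ⟨.negSucc 1036, .ofNat 71, .negSucc 314, .ofNat 1747, .negSucc 1290, .negSucc 535⟩, ⟨.ofNat 1523, .ofNat 188, .negSucc 130, .negSucc 2237, .ofNat 2105, .ofNat 670⟩, ⟨.negSucc 5645, .negSucc 482, .negSucc 503, .ofNat 6208, .negSucc 6345, .negSucc 2117⟩, ⟨.ofNat 2146, .ofNat 622, .ofNat 677, .ofNat 345, .ofNat 2295, .negSucc 50⟩, .ofNat 746, .negSucc 892, .ofNat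 0, .negSucc 892, .ofNat 2207, .ofNat 0, .ofNat 128, .ofNat 165, .negSucc 496, .ofNat 0, .ofNat 92, .negSucc 177, .ofNat 0, .ofNat 0, .ofNat 384, .ofNat 210, .ofNat 0, .ofNat 0, .ofNat 10157629121482346813927147511709161226240, .ofNat 0, .ofNat 0, .ofNat 0, .ofNat 295764886386887772670442012456652755697664, .ofNat 0, .ofNat 0, .ofNat 0, .ofNat 63167703844255904315181667710343671971840, .ofNat 0, .ofNat 0, .ofNat 0, .ofNat 151776041491852994098674651866359507451904, .ofNat 0⟩)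
    (by decide +kernel)
theorem L02397 : Good (Phi V5.P V5.D 1 1) ⟨5, 26, 4, 4, 3, 7, 2, 2, 4, 0⟩ :=
  out_sound (S := T5.ds_pp) T5.ok_pp (w := 59) (j := 3) (by decide +kernel)
theorem L02398 : Good (Phi V5.P V5.D 1 1) ⟨5, 26, 4, 5, 4, 14, 2, 2, 5, 0⟩ :=
  leafX_sound T5.ok_pp T5.Ypp.bz_eq (w := 252) (c := ⟨⟨.ofNat 230, .negSucc 3873, .ofNat 238, .ofNat 256, .negSucc 5130, .negSucc 1962⟩, ⟨.ofNat 466, .negSucc 1700, .negSucc 68, .ofNat 201, .negSucc 2177, .negSucc 937⟩, ⟨.negSucc 226, .ofNat 2121, .negSucc 229, .negSucc 183, .ofNat 3290, .ofNat 885⟩, ⟨.negSucc 604, .negSucc 5691, .negSucc 82, .negSucc 151, .negSucc 9309, .negSucc 2789⟩, ⟨.ofNat 2394, .negSucc 82, .ofNat 530, .ofNat 1182, .ofNat 3004, .negSucc 474⟩, .ofNat 1028, .negSucc 1388, .ofNat 0, .negSucc 1388, .ofNat 3017, .ofNat 0, .ofNat 128, .ofNat 495, .negSucc 1487, .ofNat 0, .ofNat 281, .negSucc 635, .ofNat 0, .ofNat 0,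 .ofNat 1033, .ofNat 598, .ofNat 0, .ofNat 0, .ofNat 1556103488057310634118654386527579062050750464, .ofNat 0, .ofNat 0, .ofNat 0, .ofNat 150186085874161247746496853094892324501330067456, .ofNat 0, .ofNat 0, .ofNat 0, .ofNat 57599171831608188319683422348052773821522903040, .ofNat 0, .ofNat 0, .ofNat 0, .ofNat 83522747605972628037202400918348098089898737664, .ofNat 0⟩)
    (by decide +kernel)
theorem L02399 : Good (Phi V5.P V5.D 1 1) ⟨6, 52, 4, 5, 5, 30, 2, 2, 5, 0⟩ :=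
  leafX_sound T5.ok_pp T5.Ypp.bz_eq (w := 270) (c := ⟨⟨.negSucc 94, .ofNat 81, .negSucc 194, .ofNat 1159, .negSucc 4465, .negSucc 1211⟩, ⟨.ofNat 411, .ofNat 139, .negSucc 284, .ofNat 560, .negSucc 1883, .negSucc 614⟩, ⟨.negSucc 157, .ofNat 31, .ofNat 256, .negSucc 546, .ofNat 2639, .ofNat 421⟩, ⟨.negSucc 1558, .negSucc 33, .negSucc 773, .ofNat 1684, .negSucc 8188, .negSucc 1575⟩, ⟨.ofNat 3252, .ofNat 301, .ofNat 766, .ofNat 206, .ofNat 2827, .negSucc 612⟩, .ofNat 1157, .negSucc 1633, .ofNat 0, .negSucc 1633, .ofNat 3497, .ofNat 0, .ofNat 128, .ofNat 977, .negSucc 1690, .ofNat 0, .ofNat 553, .negSucc 704, .ofNat 0, .ofNat 0, .ofNat 1194, .ofNat 454, .ofNat 0, .ofNat 0, .ofNat 6296887064267598077321956865384159027496180776960, .ofNat 0, .ofNat 0, .ofNat 0, .ofNat 445156972811271259765828010951204991476856554258432, .ofNat 0, .ofNat 0, .ofNat 0, .ofNat 0, .ofNat 0, .ofNat 0, .ofNat 0,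 .ofNat 588899990686433239101183817131715326182496684474368, .ofNat 0⟩)
    (by decide +kernel)
theorem L02400 : Good (Phi V5.P V5.D 1 1) ⟨6, 52, 4, 5, 5, 31, 2, 2, 5, 0⟩ :=
  leafX_sound T5.ok_pp T5.Ypp.bz_eq (w := 270) (c := ⟨⟨.ofNat 585, .ofNat 115, .ofNat 129, .ofNat 1722, .negSucc 3941, .negSucc 1261⟩, ⟨.ofNat 730, .ofNat 185, .negSucc 98, .ofNat 803, .negSucc 1668, .negSucc 659⟩, ⟨.negSucc 96, .ofNat 141, .negSucc 114, .negSucc 709, .ofNat 2110, .ofNat 306⟩, ⟨.negSucc 732, .negSucc 61, .negSucc 277, .ofNat 2676, .negSucc 7213, .negSucc 1511⟩, ⟨.ofNat 3838, .ofNat 409, .ofNat 671, .negSucc 58, .ofNat 2436, .negSucc 908⟩, .ofNat 846, .negSucc 1049, .ofNat 0, .negSucc 1049, .ofNat 2350, .ofNat 0, .ofNat 128, .ofNat 843, .negSucc 945, .ofNat 0, .ofNat 484, .negSucc 369, .ofNat 0, .ofNat 0, .ofNat 695, .ofNat 1715, .ofNat 0, .ofNat 0, .ofNat 30217593673633948305490096110395329063937514668032,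 .ofNat 0, .ofNat 0, .ofNat 0, .ofNat 480475279404372449648946568809626313456856328044544, .ofNat 0, .ofNat 0, .ofNat 0, .ofNat 1547356134585273319392593166964446057003099071971328, .ofNat 0, .ofNat 0, .ofNat 0, .ofNat 338530457171172821035846923381648384736028042199040, .ofNat 0⟩)
    (by decide +kernel)
theorem L02401 : Good (Phi V5.P V5.D 1 1) ⟨6, 53, 4, 5, 4, 15, 2, 2, 5, 0⟩ :=
  out_sound (S := T5.ds_pp) T5.ok_pp (w := 65) (j := 3) (by decide +kernel)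
theorem L02402 : Good (Phi V5.P V5.D 1 1) ⟨5, 26, 4, 5, 3, 7, 2, 2, 5, 1⟩ :=
  leafX_sound T5.ok_pp T5.Ypp.bz_eq (w := 238) (c := ⟨⟨.negSucc 3777, .negSucc 704, .ofNat 89, .ofNat 4681, .negSucc 3615, .negSucc 1418⟩, ⟨.negSucc 1396, .negSucc 130, .negSucc 150, .ofNat 2226, .negSucc 1479, .negSucc 647⟩, ⟨.ofNat 1988, .ofNat 443, .negSucc 88, .negSucc 2648, .ofNat 2274, .ofNat 708⟩, ⟨.negSucc 6937, .negSucc 1352, .negSucc 91, .ofNat 6954, .negSucc 6869, .negSucc 2299⟩, ⟨.ofNat 2743, .ofNat 811, .ofNat 93, .ofNat 527, .ofNat 2810, .ofNat 257⟩, .ofNat 1147, .negSucc 1615, .ofNat 0, .negSucc 1615, .ofNat 3465, .ofNat 0, .ofNat 128, .ofNat 313, .negSucc 1022, .ofNat 0, .ofNat 178, .negSucc 417, .ofNat 0, .ofNat 0, .ofNat 819, .ofNat 472, .ofNat 0, .ofNat 0, .ofNat 79092462237711770145821026088890748895232, .ofNat 0, .ofNat 0, .ofNat 0, .ofNat 7806080270674288398395659781939666251415552, .ofNat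 0, .ofNat 0, .ofNat 0, .ofNat 1831120325068334817569056777283420345597952, .ofNat 0, .ofNat 0, .ofNat 0, .ofNat 3896374324407488891850708096760916719173632, .ofNat 0⟩)
    (by decide +kernel)
theorem L02403 : Good (Phi V5.P V5.D 1 1) ⟨5, 27, 3, 2, 3, 7, 2, 2, 4, 0⟩ :=
  out_sound (S := T5.ds_pp) T5.ok_pp (w := 57) (j := 3) (by decide +kernel)
theorem L02404 : Good (Phi V5.P V5.D 1 1) ⟨3, 7, 3, 2, 2, 3, 2, 2, 4, 0⟩ :=
  out_sound (S := T5.ds_pp) T5.ok_pp (w := 45) (j := 3) (by decide +kernel)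
theorem L02405 : Good (Phi V5.P V5.D 1 1) ⟨5, 24, 4, 4, 3, 6, 2, 3, 4, 0⟩ :=
  leafX_sound T5.ok_pp T5.Ypp.bz_eq (w := 232) (c := ⟨⟨.negSucc 337, .negSucc 2011, .ofNat 692, .negSucc 2294, .negSucc 3476, .negSucc 4095⟩, ⟨.ofNat 89, .negSucc 741, .negSucc 66, .negSucc 719, .negSucc 1065, .negSucc 1574⟩, ⟨.ofNat 510, .ofNat 1213, .negSucc 349, .ofNat 935, .ofNat 3441, .ofNat 2418⟩, ⟨.negSucc 1219, .negSucc 3159, .ofNat 731, .negSucc 4541, .negSucc 7004, .negSucc 6459⟩, ⟨.ofNat 1462, .ofNat 484, .ofNat 683, .ofNat 2124, .ofNat 3601, .negSucc 584⟩, .ofNat 744, .negSucc 948, .ofNat 0, .negSucc 948, .ofNat 2605, .ofNat 0, .ofNat 128, .ofNat 468, .negSucc 1033, .ofNat 0, .ofNat 249, .negSucc 361, .ofNat 0, .ofNat 0, .ofNat 777, .ofNat 101, .ofNat 0, .ofNat 0, .ofNat 0, .ofNat 0, .ofNat 0, .ofNat 0, .ofNat 0, .ofNat 0, .ofNat 0, .ofNat 0, .ofNat 0, .ofNat 0, .ofNat 0, .ofNat 80858042727170384993041814826038090833728634880,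 .ofNat 0, .ofNat 0⟩)
    (by decide +kernel)
theorem L02406 : Good (Phi V5.P V5.D 1 1) ⟨5, 25, 4, 4, 3, 6, 2, 3, 4, 0⟩ :=
  leafX_sound T5.ok_pp T5.Ypp.bz_eq (w := 232) (c := ⟨⟨.negSucc 2452, .negSucc 1980, .ofNat 846, .negSucc 1993, .negSucc 4865, .negSucc 3887⟩, ⟨.negSucc 597, .negSucc 769, .negSucc 49, .negSucc 576, .negSucc 1622, .negSucc 1615⟩, ⟨.ofNat 1900, .ofNat 1031, .negSucc 464, .ofNat 677, .ofNat 4319, .ofNat 2275⟩, ⟨.negSucc 4236, .negSucc 3212, .ofNat 838, .negSucc 4351, .negSucc 9284, .negSucc 6091⟩, ⟨.ofNat 732, .ofNat 1040, .ofNat 937, .ofNat 2901, .ofNat 3957, .negSucc 118⟩, .ofNat 834, .negSucc 1061, .ofNat 0, .negSucc 1061, .ofNat 2609, .ofNat 0, .ofNat 128, .ofNat 252, .negSucc 956, .ofNat 0, .ofNat 146, .negSucc 362, .ofNat 0, .ofNat 0, .ofNat 652, .ofNat 77, .ofNat 0, .ofNat 0, .ofNat 1630356358554070914100469096981704212480, .ofNat 0, .ofNat 0, .ofNat 0, .ofNat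 20933345731489074701421155936057625149440, .ofNat 0, .ofNat 0, .ofNat 0, .ofNat 37887853243755738093552662350709798207488, .ofNat 0, .ofNat 0, .ofNat 53805368514341263196205751699794490577572069376, .ofNat 76120505042395870475705093804732866101248, .ofNat 0⟩)
    (by decide +kernel)
theorem L02407 : Good (Phi V5.P V5.D 1 1) ⟨4, 13, 4, 4, 3, 6, 2, 3, 4, 0⟩ :=
  out_sound (S := T5.ds_pp) T5.ok_pp (w := 53) (j := 3) (by decide +kernel)
theorem L02408 : Good (Phi V5.P V5.D 1 1) ⟨5, 24, 4, 4, 4, 14, 2, 3, 5, 0⟩ :=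
  leafX_sound T5.ok_pp T5.Ypp.bz_eq (w := 251) (c := ⟨⟨.negSucc 4440, .negSucc 1254, .ofNat 615, .ofNat 1044, .negSucc 1974, .negSucc 1020⟩, ⟨.negSucc 1350, .negSucc 370, .negSucc 92, .ofNat 445, .negSucc 509, .negSucc 420⟩, ⟨.ofNat 2722, .ofNat 734, .negSucc 311, .negSucc 916, .ofNat 2232, .ofNat 457⟩, ⟨.negSucc 8654, .negSucc 2073, .ofNat 525, .ofNat 1555, .negSucc 4543, .negSucc 1534⟩, ⟨.ofNat 3728, .ofNat 510, .ofNat 692, .ofNat 359, .ofNat 3556, .negSucc 333⟩, .ofNat 759, .negSucc 980, .ofNat 0, .negSucc 980, .ofNat 2669, .ofNat 0, .ofNat 128, .ofNat 633, .negSucc 828, .ofNat 0, .ofNat 329, .negSucc 288, .ofNat 0, .ofNat 0, .ofNat 566, .ofNat 159, .ofNat 0, .ofNat 0, .ofNat 0, .ofNat 0, .ofNat 0, .ofNat 0, .ofNat 0, .ofNat 0, .ofNat 0, .ofNat 0, .ofNat 0, .ofNat 0, .ofNat 0, .ofNat 956438604464183501528570048833693869753837121699840, .ofNat 0, .ofNat 0⟩)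
    (by decide +kernel)
theorem L02409 : Good (Phi V5.P V5.D 1 1) ⟨5, 25, 4, 4, 4, 14, 2, 3, 5, 0⟩ :=
  leafX_sound T5.ok_pp T5.Ypp.bz_eq (w := 252) (c := ⟨⟨.negSucc 6324, .negSucc 2346, .ofNat 890, .ofNat 1987, .negSucc 2555, .negSucc 1179⟩, ⟨.negSucc 1979, .negSucc 841, .ofNat 5, .ofNat 861, .negSucc 691, .negSucc 516⟩, ⟨.ofNat 3689, .ofNat 1248, .negSucc 396, .negSucc 1417, .ofNat 2704, .ofNat 596⟩, ⟨.negSucc 11529, .negSucc 3761, .ofNat 790, .ofNat 2944, .negSucc 5690, .negSucc 1740⟩, ⟨.ofNat 3823, .ofNat 670, .ofNat 1072, .ofNat 474, .ofNat 4031, .negSucc 294⟩, .ofNat 789, .negSucc 985, .ofNat 0, .negSucc 985, .ofNat 2462, .ofNat 0, .ofNat 128, .ofNat 503, .negSucc 1047, .ofNat 0, .ofNat 281, .negSucc 392, .ofNat 0, .ofNat 0, .ofNat 668, .ofNat 160, .ofNat 0, .ofNat 0, .ofNat 683128872720288318142993976889286025843572736, .ofNat 0, .ofNat 0, .ofNat 0, .ofNat 4768055770103150676411949799193488245223587840,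 .ofNat 0, .ofNat 0, .ofNat 0, .ofNat 35419854309116117310594639192287061956095901696, .ofNat 0, .ofNat 0, .ofNat 0, .ofNat 43640515521088355716633846995986969551622373376, .ofNat 0⟩)
    (by decide +kernel)
theorem L02410 : Good (Phi V5.P V5.D 1 1) ⟨4, 12, 4, 4, 4, 15, 3, 6, 5, 0⟩ :=
  leafX_sound T5.ok_pp T5.Ypp.bz_eq (w := 251) (c := ⟨⟨.negSucc 3826, .negSucc 784, .negSucc 62, .ofNat 2788, .negSucc 1216, .negSucc 829⟩, ⟨.negSucc 1152, .negSucc 12, .negSucc 241, .ofNat 1086, .negSucc 369, .negSucc 359⟩, ⟨.ofNat 2211, .ofNat 683, .negSucc 41, .negSucc 1574, .ofNat 897, .ofNat 271⟩, ⟨.negSucc 7890, .negSucc 1698, .negSucc 507, .ofNat 4655, .negSucc 2472, .negSucc 1131⟩, ⟨.ofNat 4546, .ofNat 1414, .ofNat 599, .negSucc 508, .ofNat 1281, .negSucc 455⟩, .ofNat 751, .negSucc 950, .ofNat 0, .negSucc 950, .ofNat 2534, .ofNat 0, .ofNat 128, .ofNat 351, .negSucc 657, .ofNat 0, .ofNat 182, .negSucc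 219, .ofNat 0, .ofNat 0, .ofNat 470, .ofNat 354, .ofNat 0, .ofNat 0, .ofNat 77053375907551791120391990525741275755952734208, .ofNat 0, .ofNat 0, .ofNat 0, .ofNat 596478481983445471679942748051180470332372811776, .ofNat 0, .ofNat 0, .ofNat 0, .ofNat 1607650314950407229804443731439472853332552318976, .ofNat 0, .ofNat 0, .ofNat 0, .ofNat 1409632153878708212450765477603391398608652730368, .ofNat 0⟩)
    (by decide +kernel)
theorem L02411 : Good (Phi V5.P V5.D 1 1) ⟨5, 24, 4, 4, 4, 15, 3, 7, 5, 0⟩ :=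
  leafX_sound T5.ok_pp T5.Ypp.bz_eq (w := 255) (c := ⟨⟨.negSucc 4644, .negSucc 218, .ofNat 1, .ofNat 2303, .negSucc 511, .negSucc 1213⟩, ⟨.negSucc 1316, .ofNat 92, .negSucc 297, .ofNat 843, .negSucc 72, .negSucc 497⟩, ⟨.ofNat 3067, .ofNat 335, .negSucc 124, .negSucc 1555, .ofNat 765, .ofNat 421⟩, ⟨.negSucc 9803, .negSucc 607, .negSucc 423, .ofNat 3962, .negSucc 1428, .negSucc 1748⟩, ⟨.ofNat 6000, .ofNat 841, .ofNat 535, .negSucc 573, .ofNat 1583, .negSucc 622⟩, .ofNat 748, .negSucc 958, .ofNat 0, .negSucc 958, .ofNat 2624, .ofNat 0, .ofNat 128, .ofNat 469, .negSucc 721, .ofNat 0, .ofNat 240, .negSucc 241, .ofNat 0, .ofNat 0, .ofNat 489, .ofNat 207, .ofNat 0, .ofNat 0, .ofNat 0, .ofNat 0, .ofNat 0, .ofNat 0, .ofNat 0, .ofNat 0, .ofNat 0, .ofNat 0, .ofNat 0, .ofNat 0, .ofNat 0, .ofNat 0, .ofNat 0, .ofNat 0⟩)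
    (by decide +kernel)
theorem L02412 : Good (Phi V5.P V5.D 1 1) ⟨5, 25, 4, 4, 4, 15, 3, 7, 5, 0⟩ :=
  leafX_sound T5.ok_pp T5.Ypp.bz_eq (w := 256) (c := ⟨⟨.negSucc 5579, .negSucc 23, .ofNat 19, .ofNat 3225, .negSucc 502, .negSucc 1661⟩, ⟨.negSucc 1497, .ofNat 239, .negSucc 332, .ofNat 1249, .negSucc 24, .negSucc 744⟩, ⟨.ofNat 3688, .ofNat 257, .negSucc 67, .negSucc 1975, .ofNat 872, .ofNat 545⟩, ⟨.negSucc 11434, .negSucc 422, .negSucc 462, .ofNat 5345, .negSucc 1530, .negSucc 2391⟩, ⟨.ofNat 6702, .ofNat 1098, .ofNat 638, .negSucc 596, .ofNat 1775, .negSucc 591⟩, .ofNat 838, .negSucc 1090, .ofNat 0, .negSucc 1090, .ofNat 2717, .ofNat 0, .ofNat 128, .ofNat 648, .negSucc 998, .ofNat 0, .ofNat 353, .negSucc 363, .ofNat 0, .ofNat 0, .ofNat 630, .ofNat 194, .ofNat 0, .ofNat 0, .ofNat 15444077162766985674538937849022080781668843520, .ofNat 0, .ofNat 0, .ofNat 0, .ofNat 81418451487844905994985465209936378296289722368,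 .ofNat 0, .ofNat 0, .ofNat 0, .ofNat 1038072380531459848464275394291442978415651586048, .ofNat 0, .ofNat 0, .ofNat 0, .ofNat 776081770172608788145004519393589029590855057408, .ofNat 0⟩)
    (by decide +kernel)
theorem L02413 : Good (Phi V5.P V5.D 1 1) ⟨5, 24, 4, 4, 3, 7, 2, 3, 5, 1⟩ :=
  leafX_sound T5.ok_pp T5.Ypp.bz_eq (w := 237) (c := ⟨⟨.negSucc 6066, .negSucc 920, .ofNat 504, .ofNat 3682, .negSucc 2678, .negSucc 954⟩, ⟨.negSucc 1959, .negSucc 259, .negSucc 117, .ofNat 1423, .negSucc 832, .negSucc 380⟩, ⟨.ofNat 3795, .ofNat 414, .negSucc 219, .negSucc 2838, .ofNat 2258, .ofNat 540⟩, ⟨.negSucc 11253, .negSucc 1501, .ofNat 339, .ofNat 5948, .negSucc 5492, .negSucc 1565⟩, ⟨.ofNat 3674, .ofNat 473, .ofNat 738, .ofNat 103, .ofNat 2854, .negSucc 49⟩, .ofNat 758, .negSucc 983, .ofNat 0, .negSucc 983, .ofNat 2696, .ofNat 0, .ofNat 128, .ofNat 327, .negSucc 765, .ofNat 0, .ofNat 168, .negSucc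 252, .ofNat 0, .ofNat 0, .ofNat 577, .ofNat 150, .ofNat 0, .ofNat 0, .ofNat 0, .ofNat 0, .ofNat 0, .ofNat 0, .ofNat 0, .ofNat 0, .ofNat 0, .ofNat 286261246866053909732947026591959766993066786816, .ofNat 0, .ofNat 0, .ofNat 0, .ofNat 0, .ofNat 0, .ofNat 0⟩)
    (by decide +kernel)
theorem L02414 : Good (Phi V5.P V5.D 1 1) ⟨5, 25, 4, 4, 3, 7, 2, 3, 5, 1⟩ :=
  leafX_sound T5.ok_pp T5.Ypp.bz_eq (w := 238) (c := ⟨⟨.negSucc 7885, .negSucc 929, .ofNat 319, .ofNat 5410, .negSucc 3408, .negSucc 1018⟩, ⟨.negSucc 2624, .negSucc 253, .negSucc 188, .ofNat 2201, .negSucc 1121, .negSucc 419⟩, ⟨.ofNat 4708, .ofNat 516, .negSucc 81, .negSucc 3683, .ofNat 2612, .ofNat 654⟩, ⟨.negSucc 14081, .negSucc 1766, .ofNat 42, .ofNat 8611, .negSucc 6805, .negSucc 1644⟩, ⟨.ofNat 4110, .ofNat 1061, .ofNat 752, .negSucc 143, .ofNat 3344, .ofNat 58⟩, .ofNat 677, .negSucc 750, .ofNat 0, .negSucc 750, .ofNat 1932, .ofNat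 0, .ofNat 128, .ofNat 398, .negSucc 1120, .ofNat 0, .ofNat 228, .negSucc 382, .ofNat 0, .ofNat 0, .ofNat 776, .ofNat 166, .ofNat 0, .ofNat 0, .ofNat 35403954533919459590589936898535367639040, .ofNat 0, .ofNat 0, .ofNat 0, .ofNat 307931625413346444800719570210703515058176, .ofNat 0, .ofNat 0, .ofNat 0, .ofNat 2485361962609499155674393024185686479077376, .ofNat 0, .ofNat 0, .ofNat 810903765221269641741567517850349224599329177600, .ofNat 3705409957935563628173542055655119238725632, .ofNat 0⟩)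
    (by decide +kernel)
theorem L02415 : Good (Phi V5.P V5.D 1 1) ⟨4, 13, 4, 4, 3, 7, 2, 3, 4, 0⟩ :=
  out_sound (S := T5.ds_pp) T5.ok_pp (w := 53) (j := 3) (by decide +kernel)
theorem L02416 : Good (Phi V5.P V5.D 1 1) ⟨3, 7, 4, 4, 2, 3, 2, 3, 4, 0⟩ :=
  out_sound (S := T5.ds_pp) T5.ok_pp (w := 47) (j := 3) (by decide +kernel)
theorem L02417 : Good (Phi V5.P V5.D 1 1) ⟨5, 24, 5, 10, 3, 6, 2, 3, 4, 0⟩ :=
  leafX_sound T5.ok_pp T5.Ypp.bz_eq (w := 235) (c := ⟨⟨.negSucc 508, .negSucc 1349, .ofNat 358, .negSucc 2157, .negSucc 2886, .negSucc 3561⟩, ⟨.negSucc 89, .negSucc 494, .negSucc 2, .negSucc 787, .negSucc 1033, .negSucc 1477⟩, ⟨.ofNat 576, .ofNat 861, .negSucc 199, .ofNat 939, .ofNat 2997, .ofNat 2176⟩, ⟨.negSucc 1442, .negSucc 2182, .ofNat 355, .negSucc 4506, .negSucc 6230, .negSucc 5815⟩, ⟨.ofNat 1338, .ofNat 455, .ofNat 269, .ofNat 2392, .ofNat 3823, .ofNat 17⟩, .ofNat 932, .negSucc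 1374, .ofNat 0, .negSucc 1374, .ofNat 3547, .ofNat 0, .ofNat 128, .ofNat 483, .negSucc 960, .ofNat 0, .ofNat 245, .negSucc 361, .ofNat 0, .ofNat 0, .ofNat 752, .ofNat 185, .ofNat 0, .ofNat 0, .ofNat 0, .ofNat 0, .ofNat 0, .ofNat 0, .ofNat 0, .ofNat 0, .ofNat 0, .ofNat 0, .ofNat 0, .ofNat 0, .ofNat 0, .ofNat 739141411387920112753695897545664441289428434944, .ofNat 0, .ofNat 0⟩)
    (by decide +kernel)
theorem L02418 : Good (Phi V5.P V5.D 1 1) ⟨5, 25, 5, 10, 3, 6, 2, 3, 4, 0⟩ :=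
  leafX_sound T5.ok_pp T5.Ypp.bz_eq (w := 236) (c := ⟨⟨.negSucc 1893, .negSucc 2877, .ofNat 813, .negSucc 1870, .negSucc 4401, .negSucc 3693⟩, ⟨.negSucc 633, .negSucc 1150, .ofNat 140, .negSucc 589, .negSucc 1568, .negSucc 1596⟩, ⟨.ofNat 1513, .ofNat 1695, .negSucc 486, .ofNat 674, .ofNat 4060, .ofNat 2218⟩, ⟨.negSucc 3722, .negSucc 4660, .ofNat 1118, .negSucc 4179, .negSucc 8795, .negSucc 5711⟩, ⟨.ofNat 1452, .ofNat 1097, .ofNat 178, .ofNat 2882, .ofNat 4393, .negSucc 273⟩, .ofNat 947, .negSucc 1293, .ofNat 0, .negSucc 1293, .ofNat 3045, .ofNat 0, .ofNat 128, .ofNat 445, .negSucc 1404, .ofNat 0, .ofNat 251, .negSucc 564, .ofNat 0, .ofNat 0, .ofNat 1003, .ofNat 99, .ofNat 0, .ofNat 0, .ofNat 1663923170127605019421885579122576457728, .ofNat 0, .ofNat 0, .ofNat 0, .ofNat 72719908436903767904411876103712977977344, .ofNat 0, .ofNat 0, .ofNat 0, .ofNat 219090096072232787755208594441058333491200,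 .ofNat 0, .ofNat 0, .ofNat 723814487094278793577847717470438303402490331136, .ofNat 298681426358031874729121129367634739986432, .ofNat 0⟩)
    (by decide +kernel)
theorem L02419 : Good (Phi V5.P V5.D 1 1) ⟨5, 24, 5, 10, 3, 7, 3, 6, 4, 0⟩ :=
  leafX_sound T5.ok_pp T5.Ypp.bz_eq (w := 239) (c := ⟨⟨.negSucc 4657, .negSucc 974, .ofNat 91, .ofNat 3389, .negSucc 1038, .negSucc 1616⟩, ⟨.negSucc 1697, .negSucc 318, .negSucc 114, .ofNat 1393, .negSucc 366, .negSucc 666⟩, ⟨.ofNat 3026, .ofNat 517, .negSucc 50, .negSucc 2406, .ofNat 796, .ofNat 773⟩, ⟨.negSucc 9391, .negSucc 1661, .negSucc 27, .ofNat 5402, .negSucc 2218, .negSucc 2623⟩, ⟨.ofNat 4389, .ofNat 604, .ofNat 196, .ofNat 245, .ofNat 1237, .negSucc 103⟩, .ofNat 928, .negSucc 1360, .ofNat 0, .negSucc 1360, .ofNat 3493, .ofNat 0, .ofNat 128, .ofNat 268, .negSucc 813, .ofNat 0, .ofNat 134, .negSucc 294, .ofNat 0, .ofNat 0, .ofNat 628, .ofNat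 279, .ofNat 0, .ofNat 0, .ofNat 0, .ofNat 0, .ofNat 0, .ofNat 0, .ofNat 0, .ofNat 0, .ofNat 0, .ofNat 0, .ofNat 0, .ofNat 0, .ofNat 0, .ofNat 0, .ofNat 0, .ofNat 0⟩)
    (by decide +kernel)
theorem L02420 : Good (Phi V5.P V5.D 1 1) ⟨5, 25, 5, 10, 4, 14, 3, 6, 4, 0⟩ :=
  leafX_sound T5.ok_pp T5.Ypp.bz_eq (w := 254) (c := ⟨⟨.negSucc 5396, .negSucc 2034, .ofNat 436, .ofNat 1439, .negSucc 1587, .negSucc 1912⟩, ⟨.negSucc 1940, .negSucc 749, .negSucc 3, .ofNat 680, .negSucc 560, .negSucc 835⟩, ⟨.ofNat 3261, .ofNat 1113, .negSucc 215, .negSucc 1135, .ofNat 1342, .ofNat 1140⟩, ⟨.negSucc 10536, .negSucc 3351, .ofNat 417, .ofNat 2019, .negSucc 3228, .negSucc 2863⟩, ⟨.ofNat 4641, .ofNat 969, .ofNat 395, .ofNat 492, .ofNat 1693, .negSucc 384⟩, .ofNat 1080, .negSucc 1565, .ofNat 0, .negSucc 1565, .ofNat 3622, .ofNat 0, .ofNat 128, .ofNat 432, .negSucc 1236, .ofNat 0, .ofNat 236, .negSucc 483, .ofNat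 0, .ofNat 0, .ofNat 876, .ofNat 279, .ofNat 0, .ofNat 0, .ofNat 0, .ofNat 0, .ofNat 0, .ofNat 0, .ofNat 25898915759051623771222040866998272827108360192, .ofNat 0, .ofNat 0, .ofNat 0, .ofNat 56817335289698518078976435866753588452562829312, .ofNat 0, .ofNat 0, .ofNat 0, .ofNat 101069613840565647213598900541367249904829726720, .ofNat 0⟩)
    (by decide +kernel)
theorem L02421 : Good (Phi V5.P V5.D 1 1) ⟨5, 25, 5, 10, 4, 15, 3, 6, 4, 0⟩ :=
  leafX_sound T5.ok_pp T5.Ypp.bz_eq (w := 253) (c := ⟨⟨.negSucc 4567, .negSucc 578, .ofNat 64, .ofNat 3292, .negSucc 1213, .negSucc 1908⟩, ⟨.negSucc 1562, .negSucc 20, .negSucc 118, .ofNat 1406, .negSucc 424, .negSucc 873⟩, ⟨.ofNat 2635, .ofNat 515, .negSucc 17, .negSucc 1896, .ofNat 937, .ofNat 802⟩, ⟨.negSucc 9588, .negSucc 1264, .negSucc 155, .ofNat 5378, .negSucc 2542, .negSucc 2770⟩, ⟨.ofNat 5640, .ofNat 930, .ofNat 352, .negSucc 497, .ofNat 1466,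 .negSucc 500⟩, .ofNat 795, .negSucc 995, .ofNat 0, .negSucc 995, .ofNat 2420, .ofNat 0, .ofNat 128, .ofNat 313, .negSucc 600, .ofNat 0, .ofNat 173, .negSucc 214, .ofNat 0, .ofNat 0, .ofNat 444, .ofNat 449, .ofNat 0, .ofNat 0, .ofNat 1438489197347962002792949425339378516424130560, .ofNat 0, .ofNat 0, .ofNat 0, .ofNat 0, .ofNat 0, .ofNat 0, .ofNat 0, .ofNat 27804920384390128125967357934960209995927388160, .ofNat 0, .ofNat 0, .ofNat 0, .ofNat 0, .ofNat 0⟩)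
    (by decide +kernel)
theorem L02422 : Good (Phi V5.P V5.D 1 1) ⟨5, 24, 5, 10, 3, 7, 3, 7, 4, 0⟩ :=
  leafX_sound T5.ok_pp T5.Ypp.bz_eq (w := 240) (c := ⟨⟨.negSucc 5228, .negSucc 797, .ofNat 104, .ofNat 2911, .negSucc 1068, .negSucc 2385⟩, ⟨.negSucc 1869, .negSucc 182, .negSucc 158, .ofNat 1164, .negSucc 367, .negSucc 967⟩, ⟨.ofNat 3851, .ofNat 510, .negSucc 89, .negSucc 2561, .ofNat 1013, .ofNat 1191⟩, ⟨.negSucc 11088, .negSucc 1408, .negSucc 164, .ofNat 4940, .negSucc 2219, .negSucc 3983⟩, ⟨.ofNat 6248, .ofNat 635, .ofNat 522, .negSucc 526, .ofNat 1194, .ofNat 234⟩, .ofNat 1271, .negSucc 2139, .ofNat 0, .negSucc 2139, .ofNat 5325, .ofNat 0, .ofNat 128, .ofNat 450, .negSucc 766, .ofNat 0, .ofNat 219, .negSucc 290, .ofNat 0, .ofNat 0, .ofNat 558, .ofNat 217, .ofNat 0, .ofNat 0, .ofNat 0, .ofNat 0, .ofNat 0, .ofNat 0, .ofNat 0, .ofNat 0, .ofNat 0, .ofNat 0, .ofNat 0, .ofNat 0, .ofNat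 0, .ofNat 2066718992359948637865149745595625150602715070464, .ofNat 0, .ofNat 0⟩)
    (by decide +kernel)
theorem L02423 : Good (Phi V5.P V5.D 1 1) ⟨5, 25, 5, 10, 3, 7, 3, 7, 5, 0⟩ :=
  leafX_sound T5.ok_pp T5.Ypp.bz_eq (w := 245) (c := ⟨⟨.negSucc 7350, .negSucc 823, .ofNat 74, .ofNat 5079, .negSucc 652, .negSucc 1454⟩, ⟨.negSucc 2636, .negSucc 112, .negSucc 144, .ofNat 2145, .negSucc 122, .negSucc 673⟩, ⟨.ofNat 5086, .ofNat 645, .negSucc 148, .negSucc 3513, .ofNat 967, .ofNat 558⟩, ⟨.negSucc 14679, .negSucc 1785, .negSucc 167, .ofNat 8312, .negSucc 1895, .negSucc 1978⟩, ⟨.ofNat 7295, .ofNat 1407, .ofNat 352, .negSucc 831, .ofNat 1946, .negSucc 676⟩, .ofNat 947, .negSucc 1293, .ofNat 0, .negSucc 1293, .ofNat 3045, .ofNat 0, .ofNat 128, .ofNat 425, .negSucc 1165, .ofNat 0, .ofNat 237, .negSucc 454, .ofNat 0, .ofNat 0, .ofNat 750, .ofNat 202, .ofNat 0, .ofNat 0, .ofNat 1363230493560471180183379036325540580556800,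 .ofNat 0, .ofNat 0, .ofNat 3210389023076875878309350546282734457107790168064, .ofNat 32461829593598065852371036813431881739534336, .ofNat 0, .ofNat 0, .ofNat 0, .ofNat 98691704036371238744251894656686608860839936, .ofNat 0, .ofNat 0, .ofNat 23263754482312488614464832759308397930980457840640, .ofNat 110551994131394690151559277017686688116244480, .ofNat 0⟩)
    (by decide +kernel)
theorem L02424 : Good (Phi V5.P V5.D 1 1) ⟨5, 25, 5, 10, 3, 7, 3, 7, 5, 1⟩ :=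
  leafX_sound T5.ok_pp T5.Ypp.bz_eq (w := 245) (c := ⟨⟨.negSucc 8883, .negSucc 1262, .ofNat 227, .ofNat 5397, .negSucc 1952, .negSucc 1266⟩, ⟨.negSucc 3298, .negSucc 336, .negSucc 122, .ofNat 2303, .negSucc 680, .negSucc 551⟩, ⟨.ofNat 5904, .ofNat 777, .negSucc 62, .negSucc 4076, .ofNat 1606, .ofNat 724⟩, ⟨.negSucc 16969, .negSucc 2228, .ofNat 147, .ofNat 8797, .negSucc 3977, .negSucc 2056⟩, ⟨.ofNat 6910, .ofNat 1079, .ofNat 203, .negSucc 852, .ofNat 2136, .ofNat 144⟩, .ofNat 1050, .negSucc 1502, .ofNat 0, .negSucc 1502, .ofNat 3487, .ofNat 0, .ofNat 128, .ofNat 312, .negSucc 899, .ofNat 0, .ofNat 174, .negSucc 343, .ofNat 0, .ofNat 0, .ofNat 636, .ofNat 230, .ofNat 0, .ofNat 0, .ofNat 0, .ofNat 0, .ofNat 0, .ofNat 0, .ofNat 0, .ofNat 0, .ofNat 0, .ofNat 5523595167754755005397335396284791118970950254592, .ofNat 18476701500156647822973031832624040522022912, .ofNat 0, .ofNat 0, .ofNat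 12772906315263870640044790287689770281919831867392, .ofNat 116719086727812558940638616800640171792924672, .ofNat 0⟩)
    (by decide +kernel)
theorem L02425 : Good (Phi V5.P V5.D 1 1) ⟨4, 13, 5, 10, 2, 3, 2, 3, 4, 0⟩ :=
  out_sound (S := T5.ds_pp) T5.ok_pp (w := 55) (j := 3) (by decide +kernel)
theorem L02426 : Good (Phi V5.P V5.D 1 1) ⟨5, 24, 5, 11, 3, 6, 2, 3, 4, 0⟩ :=
  leafX_sound T5.ok_pp T5.Ypp.bz_eq (w := 236) (c := ⟨⟨.negSucc 438, .negSucc 1479, .ofNat 253, .negSucc 1873, .negSucc 2721, .negSucc 3494⟩, ⟨.negSucc 149, .negSucc 554, .negSucc 69, .negSucc 697, .negSucc 1030, .negSucc 1505⟩, ⟨.ofNat 515, .ofNat 899, .negSucc 108, .ofNat 806, .ofNat 2914, .ofNat 2161⟩, ⟨.negSucc 1638, .negSucc 2218, .ofNat 297, .negSucc 4133, .negSucc 5881, .negSucc 5582⟩, ⟨.ofNat 1820, .ofNat 94, .ofNat 71, .ofNat 2598, .ofNat 3501, .negSucc 149⟩, .ofNat 1616, .negSucc 2857, .ofNat 0, .negSucc 2857,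 .ofNat 6777, .ofNat 0, .ofNat 128, .ofNat 496, .negSucc 1092, .ofNat 0, .ofNat 245, .negSucc 446, .ofNat 0, .ofNat 0, .ofNat 853, .ofNat 369, .ofNat 0, .ofNat 0, .ofNat 0, .ofNat 0, .ofNat 0, .ofNat 13511822499462492332524679680672852911499247616, .ofNat 0, .ofNat 0, .ofNat 0, .ofNat 0, .ofNat 0, .ofNat 0, .ofNat 0, .ofNat 0, .ofNat 0, .ofNat 0⟩)
    (by decide +kernel)
theorem L02427 : Good (Phi V5.P V5.D 1 1) ⟨5, 25, 5, 11, 4, 12, 2, 3, 4, 0⟩ :=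
  leafX_sound T5.ok_pp T5.Ypp.bz_eq (w := 250) (c := ⟨⟨.negSucc 534, .negSucc 2071, .ofNat 542, .negSucc 1225, .negSucc 4104, .negSucc 4825⟩, ⟨.negSucc 40, .negSucc 862, .ofNat 65, .negSucc 473, .negSucc 1627, .negSucc 2203⟩, ⟨.ofNat 565, .ofNat 1277, .negSucc 310, .ofNat 621, .ofNat 3924, .ofNat 2969⟩, ⟨.negSucc 1489, .negSucc 3456, .ofNat 689, .negSucc 2599, .negSucc 8361, .negSucc 7654⟩, ⟨.ofNat 1261, .ofNat 1065, .ofNat 193, .ofNat 1535, .ofNat 4402, .ofNat 9⟩, .ofNat 902, .negSucc 1209, .ofNat 0, .negSucc 1209, .ofNat 2828, .ofNat 0, .ofNat 128, .ofNat 544, .negSucc 1864, .ofNat 0, .ofNat 307, .negSucc 775, .ofNat 0, .ofNat 0, .ofNat 1393, .ofNat 79, .ofNat 0, .ofNat 0, .ofNat 0, .ofNat 0, .ofNat 0, .ofNat 646933308033368958613259207560409501000751413985280, .ofNat 981206573433411259902182572244364496352575488, .ofNat 0, .ofNat 0, .ofNat 0, .ofNat 0, .ofNat 0, .ofNat 0, .ofNat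 0, .ofNat 0, .ofNat 0⟩)
    (by decide +kernel)
theorem L02428 : Good (Phi V5.P V5.D 1 1) ⟨5, 25, 5, 11, 4, 13, 2, 3, 4, 0⟩ :=
  leafX_sound T5.ok_pp T5.Ypp.bz_eq (w := 250) (c := ⟨⟨.negSucc 3230, .negSucc 2505, .ofNat 438, .negSucc 453, .negSucc 3736, .negSucc 3072⟩, ⟨.negSucc 1221, .negSucc 991, .negSucc 12, .negSucc 98, .negSucc 1386, .negSucc 1412⟩, ⟨.ofNat 2071, .ofNat 1532, .negSucc 257, .ofNat 14, .ofNat 3738, .ofNat 1883⟩, ⟨.negSucc 6359, .negSucc 4166, .ofNat 497, .negSucc 1366, .negSucc 8061, .negSucc 4892⟩, ⟨.ofNat 2676, .ofNat 1165, .ofNat 208, .ofNat 1462, .ofNat 4934, .ofNat 97⟩, .ofNat 1055, .negSucc 1512, .ofNat 0, .negSucc 1512, .ofNat 3451, .ofNat 0, .ofNat 128, .ofNat 561, .negSucc 1381, .ofNat 0, .ofNat 312, .negSucc 576, .ofNat 0, .ofNat 0, .ofNat 998, .ofNat 109, .ofNat 0, .ofNat 0, .ofNat 0, .ofNat 0, .ofNat 0, .ofNat 574966277795901283800426635444128271488455211483136,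 .ofNat 1803261259887089946894156179886018486454976512, .ofNat 0, .ofNat 0, .ofNat 0, .ofNat 0, .ofNat 0, .ofNat 0, .ofNat 0, .ofNat 0, .ofNat 0⟩)
    (by decide +kernel)
theorem L02429 : Good (Phi V5.P V5.D 1 1) ⟨4, 13, 5, 11, 3, 6, 2, 3, 4, 0⟩ :=
  leafX_sound T5.ok_pp T5.Ypp.bz_eq (w := 232) (c := ⟨⟨.negSucc 4022, .negSucc 3717, .ofNat 492, .negSucc 1821, .negSucc 5050, .negSucc 3297⟩, ⟨.negSucc 1590, .negSucc 1892, .ofNat 28, .negSucc 542, .negSucc 1960, .negSucc 1547⟩, ⟨.ofNat 2757, .ofNat 2226, .negSucc 327, .ofNat 746, .ofNat 4548, .ofNat 2021⟩, ⟨.negSucc 6637, .negSucc 4079, .ofNat 315, .negSucc 4789, .negSucc 10231, .negSucc 5049⟩, ⟨.ofNat 1086, .negSucc 1075, .ofNat 681, .ofNat 4249, .ofNat 5273, .negSucc 75⟩, .ofNat 1143, .negSucc 1608, .ofNat 0, .negSucc 1608, .ofNat 3455, .ofNat 0, .ofNat 128, .ofNat 425, .negSucc 1596, .ofNat 0, .ofNat 251, .negSucc 695, .ofNat 0, .ofNat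 0, .ofNat 1137, .ofNat 110, .ofNat 0, .ofNat 0, .ofNat 34669792636946327738295306239540631437312, .ofNat 0, .ofNat 0, .ofNat 1108427969339614229364549056501849941958721536, .ofNat 2133950719832378686265594846336259975020544, .ofNat 0, .ofNat 0, .ofNat 0, .ofNat 1143720890890421526234967012068739470327808, .ofNat 0, .ofNat 0, .ofNat 0, .ofNat 2590821351656915860941353313507799658921984, .ofNat 0⟩)
    (by decide +kernel)
theorem L02430 : Good (Phi V5.P V5.D 1 1) ⟨4, 12, 6, 22, 4, 14, 2, 3, 4, 0⟩ :=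
  leafX_sound T5.ok_pp T5.Ypp.bz_eq (w := 249) (c := ⟨⟨.negSucc 3528, .negSucc 3359, .ofNat 293, .ofNat 1340, .negSucc 2977, .negSucc 1847⟩, ⟨.negSucc 1437, .negSucc 1171, .ofNat 14, .ofNat 637, .negSucc 1048, .negSucc 836⟩, ⟨.ofNat 2128, .ofNat 2064, .negSucc 166, .negSucc 1127, .ofNat 2894, .ofNat 1067⟩, ⟨.negSucc 7542, .negSucc 5788, .ofNat 351, .ofNat 1991, .negSucc 6593, .negSucc 2855⟩, ⟨.ofNat 3984, .ofNat 2090, .ofNat 54, .ofNat 225, .ofNat 4325, .negSucc 194⟩, .ofNat 918, .negSucc 1270, .ofNat 0, .negSucc 1270, .ofNat 3054, .ofNat 0, .ofNat 128, .ofNat 744, .negSucc 1586, .ofNat 0, .ofNat 400, .negSucc 619, .ofNat 0, .ofNat 0, .ofNat 1150, .ofNat 91, .ofNat 0, .ofNat 0, .ofNat 261653632105999039685858087190578818925461504, .ofNat 0, .ofNat 0, .ofNat 0, .ofNat 0, .ofNat 0, .ofNat 0, .ofNat 0, .ofNat 49714091575383347038246902735617266609956061184, .ofNat 0, .ofNat 0, .ofNat 0,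 .ofNat 0, .ofNat 0⟩)
    (by decide +kernel)
theorem L02431 : Good (Phi V5.P V5.D 1 1) ⟨4, 12, 6, 23, 4, 14, 2, 3, 4, 0⟩ :=
  leafX_sound T5.ok_pp T5.Ypp.bz_eq (w := 249) (c := ⟨⟨.negSucc 2822, .negSucc 3918, .ofNat 351, .ofNat 1352, .negSucc 3017, .negSucc 2165⟩, ⟨.negSucc 1214, .negSucc 1410, .ofNat 33, .ofNat 654, .negSucc 1133, .negSucc 986⟩, ⟨.ofNat 1698, .ofNat 2357, .negSucc 188, .negSucc 1145, .ofNat 2928, .ofNat 1341⟩, ⟨.negSucc 6528, .negSucc 6685, .ofNat 465, .ofNat 1948, .negSucc 6643, .negSucc 3376⟩, ⟨.ofNat 4043, .ofNat 2120, .ofNat 60, .ofNat 304, .ofNat 4270, .negSucc 81⟩, .ofNat 1133, .negSucc 1690, .ofNat 0, .negSucc 1690, .ofNat 3872, .ofNat 0, .ofNat 128, .ofNat 619, .negSucc 1059, .ofNat 0, .ofNat 332, .negSucc 435, .ofNat 0, .ofNat 0, .ofNat 768, .ofNat 133, .ofNat 0, .ofNat 0, .ofNat 0, .ofNat 0, .ofNat 0, .ofNat 0, .ofNat 0, .ofNat 0, .ofNat 0, .ofNat 0, .ofNat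 0, .ofNat 0, .ofNat 0, .ofNat 989739531776524103988537134730337318428780351455232, .ofNat 0, .ofNat 0⟩)
    (by decide +kernel)
theorem L02432 : Good (Phi V5.P V5.D 1 1) ⟨4, 13, 5, 11, 4, 14, 2, 3, 4, 0⟩ :=
  leafX_sound T5.ok_pp T5.Ypp.bz_eq (w := 246) (c := ⟨⟨.negSucc 7367, .negSucc 3001, .ofNat 275, .ofNat 1991, .negSucc 3953, .negSucc 1631⟩, ⟨.negSucc 2823, .negSucc 933, .negSucc 114, .ofNat 984, .negSucc 1460, .negSucc 788⟩, ⟨.ofNat 4491, .ofNat 2115, .negSucc 144, .negSucc 1574, .ofNat 3574, .ofNat 934⟩, ⟨.negSucc 13951, .negSucc 5009, .ofNat 166, .ofNat 2805, .negSucc 8618, .negSucc 2362⟩, ⟨.ofNat 5744, .ofNat 1280, .ofNat 432, .ofNat 565, .ofNat 5441, .negSucc 450⟩, .ofNat 809, .negSucc 908, .ofNat 0, .negSucc 908, .ofNat 1906, .ofNat 0, .ofNat 128, .ofNat 510, .negSucc 1701, .ofNat 0, .ofNat 328, .negSucc 714, .ofNat 0, .ofNat 0, .ofNat 1058, .ofNat 227, .ofNat 0, .ofNat 0,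 .ofNat 520502262475307805055243299601404192784121856, .ofNat 0, .ofNat 0, .ofNat 0, .ofNat 2042167646609995004720514217598447707513421824, .ofNat 0, .ofNat 0, .ofNat 0, .ofNat 6211914057926150693188737012980065694491082752, .ofNat 0, .ofNat 0, .ofNat 326540491193249744880369273874038754941434001883136, .ofNat 43936240083687235401913000055170332448801161216, .ofNat 0⟩)
    (by decide +kernel)
theorem L02433 : Good (Phi V5.P V5.D 1 1) ⟨4, 12, 5, 11, 4, 15, 3, 6, 5, 0⟩ :=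
  leafX_sound T5.ok_pp T5.Ypp.bz_eq (w := 254) (c := ⟨⟨.negSucc 3611, .negSucc 998, .negSucc 82, .ofNat 2739, .negSucc 1369, .negSucc 660⟩, ⟨.negSucc 1489, .negSucc 39, .negSucc 175, .ofNat 1193, .negSucc 518, .negSucc 321⟩, ⟨.ofNat 1922, .ofNat 889, .negSucc 38, .negSucc 1568, .ofNat 989, .ofNat 243⟩, ⟨.negSucc 8040, .negSucc 2272, .negSucc 327, .ofNat 4629, .negSucc 2821, .negSucc 866⟩, ⟨.ofNat 5225, .ofNat 1794, .ofNat 179, .negSucc 754, .ofNat 1504, .negSucc 349⟩, .ofNat 934, .negSucc 1297, .ofNat 0, .negSucc 1297, .ofNat 3090, .ofNat 0, .ofNat 128, .ofNat 341, .negSucc 611, .ofNat 0, .ofNat 181, .negSucc 233, .ofNat 0, .ofNat 0, .ofNat 437, .ofNat 422, .ofNat 0, .ofNat 0, .ofNat 0, .ofNat 0, .ofNat 0, .ofNat 0, .ofNat 0, .ofNat 0, .ofNat 0, .ofNat 0, .ofNat 0, .ofNat 0, .ofNat 0, .ofNat 0, .ofNat 0, .ofNat 0⟩)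
    (by decide +kernel)
theorem L02434 : Good (Phi V5.P V5.D 1 1) ⟨4, 12, 5, 11, 4, 15, 3, 7, 5, 0⟩ :=
  leafX_sound T5.ok_pp T5.Ypp.bz_eq (w := 255) (c := ⟨⟨.negSucc 4475, .negSucc 1122, .negSucc 71, .ofNat 2582, .negSucc 519, .negSucc 1212⟩, ⟨.negSucc 1820, .ofNat 31, .negSucc 241, .ofNat 1101, .negSucc 147, .negSucc 567⟩, ⟨.ofNat 2718, .ofNat 1168, .negSucc 36, .negSucc 1731, .ofNat 790, .ofNat 459⟩, ⟨.negSucc 10069, .negSucc 2732, .negSucc 252, .ofNat 4610, .negSucc 1458, .negSucc 1927⟩, ⟨.ofNat 6722, .ofNat 2454, .negSucc 6, .negSucc 1321, .ofNat 1440, .ofNat 93⟩, .ofNat 1093, .negSucc 1619, .ofNat 0, .negSucc 1619, .ofNat 3766, .ofNat 0, .ofNat 128, .ofNat 687, .negSucc 1035, .ofNat 0, .ofNat 365, .negSucc 410, .ofNat 0, .ofNat 0, .ofNat 712, .ofNat 253, .ofNat 0, .ofNat 0, .ofNat 0, .ofNat 0, .ofNat 0, .ofNat 0, .ofNat 0, .ofNat 0, .ofNat 0, .ofNat 0, .ofNat 14933000581071087381828216268136661963125324513280,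 .ofNat 0, .ofNat 0, .ofNat 8970037668504701940234398399317055430411167838765056, .ofNat 0, .ofNat 0⟩)
    (by decide +kernel)
theorem L02435 : Good (Phi V5.P V5.D 1 1) ⟨6, 52, 5, 11, 4, 15, 3, 6, 5, 0⟩ :=
  leafX_sound T5.ok_pp T5.Ypp.bz_eq (w := 263) (c := ⟨⟨.negSucc 5453, .negSucc 665, .ofNat 144, .ofNat 3671, .negSucc 1373, .negSucc 684⟩, ⟨.negSucc 1904, .negSucc 148, .negSucc 103, .ofNat 1678, .negSucc 516, .negSucc 364⟩, ⟨.ofNat 3166, .ofNat 366, .negSucc 59, .negSucc 2031, .ofNat 1084, .ofNat 237⟩, ⟨.negSucc 11525, .negSucc 1329, .negSucc 40, .ofNat 5920, .negSucc 2948, .negSucc 761⟩, ⟨.ofNat 6911, .ofNat 695, .ofNat 312, .negSucc 585, .ofNat 1786, .negSucc 626⟩, .ofNat 1030, .negSucc 1392, .ofNat 0, .negSucc 1392, .ofNat 3021, .ofNat 0, .ofNat 128, .ofNat 346, .negSucc 587, .ofNat 0, .ofNat 198, .negSucc 237, .ofNat 0, .ofNat 0, .ofNat 405, .ofNat 1001, .ofNat 0, .ofNat 0, .ofNat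 25912263518078330751560110470530694430087708672, .ofNat 0, .ofNat 0, .ofNat 0, .ofNat 1258905254322473294452180858093955074633779642368, .ofNat 0, .ofNat 0, .ofNat 0, .ofNat 467675028656400318850465877962347965271183982592, .ofNat 0, .ofNat 0, .ofNat 0, .ofNat 438807785227725756238481985264581673002647683072, .ofNat 0⟩)
    (by decide +kernel)
theorem L02436 : Good (Phi V5.P V5.D 1 1) ⟨6, 52, 5, 11, 4, 15, 3, 7, 5, 0⟩ :=
  leafX_sound T5.ok_pp T5.Ypp.bz_eq (w := 264) (c := ⟨⟨.negSucc 6619, .negSucc 1160, .ofNat 281, .ofNat 3887, .negSucc 442, .negSucc 1748⟩, ⟨.negSucc 2252, .negSucc 329, .negSucc 95, .ofNat 1727, .negSucc 58, .negSucc 847⟩, ⟨.ofNat 4346, .ofNat 735, .negSucc 136, .negSucc 2424, .ofNat 892, .ofNat 713⟩, ⟨.negSucc 14328, .negSucc 2253, .ofNat 191, .ofNat 6585, .negSucc 1647, .negSucc 2526⟩, ⟨.ofNat 9094, .ofNat 1050, .ofNat 235, .negSucc 1273, .ofNat 2066, .negSucc 395⟩,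 .ofNat 790, .negSucc 931, .ofNat 0, .negSucc 931, .ofNat 2093, .ofNat 0, .ofNat 128, .ofNat 650, .negSucc 1814, .ofNat 0, .ofNat 388, .negSucc 716, .ofNat 0, .ofNat 0, .ofNat 1144, .ofNat 652, .ofNat 0, .ofNat 0, .ofNat 23826219482370555828299264765751207926477881344, .ofNat 0, .ofNat 0, .ofNat 0, .ofNat 533965828457210636169759899020729637709899890688, .ofNat 0, .ofNat 0, .ofNat 1749461837055079495466371963382837931465375871305515008, .ofNat 949227582747228446047055750114060321808732651520, .ofNat 0, .ofNat 0, .ofNat 0, .ofNat 1651666417934595208561327419856786927042674294784, .ofNat 0⟩)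
    (by decide +kernel)
theorem L02437 : Good (Phi V5.P V5.D 1 1) ⟨6, 53, 5, 11, 4, 15, 2, 3, 5, 0⟩ :=
  out_sound (S := T5.ds_pp) T5.ok_pp (w := 67) (j := 3) (by decide +kernel)
theorem L02438 : Good (Phi V5.P V5.D 1 1) ⟨5, 27, 5, 11, 4, 15, 2, 3, 5, 0⟩ :=
  out_sound (S := T5.ds_pp) T5.ok_pp (w := 61) (j := 3) (by decide +kernel)
theorem L02439 : Good (Phi V5.P V5.D 1 1) ⟨4, 12, 5, 11, 4, 15, 2, 3, 5, 1⟩ :=
  leafX_sound T5.ok_pp T5.Ypp.bz_eq (w := 250) (c := ⟨⟨.negSucc 3883, .negSucc 1776, .ofNat 231, .ofNat 2644, .negSucc 3303, .negSucc 1155⟩, ⟨.negSucc 1596, .negSucc 408, .negSucc 94, .ofNat 1143, .negSucc 1286, .negSucc 491⟩, ⟨.ofNat 2118, .ofNat 1202, .negSucc 133, .negSucc 1768, .ofNat 2475, .ofNat 638⟩, ⟨.negSucc 8388, .negSucc 3304, .ofNat 118, .ofNat 4524, .negSucc 6727, .negSucc 1934⟩, ⟨.ofNat 4784, .ofNat 1821, .ofNat 264, .negSucc 820, .ofNat 3403, .ofNat 156⟩, .ofNat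 942, .negSucc 1316, .ofNat 0, .negSucc 1316, .ofNat 3131, .ofNat 0, .ofNat 128, .ofNat 441, .negSucc 913, .ofNat 0, .ofNat 234, .negSucc 347, .ofNat 0, .ofNat 0, .ofNat 694, .ofNat 122, .ofNat 0, .ofNat 0, .ofNat 0, .ofNat 0, .ofNat 0, .ofNat 0, .ofNat 0, .ofNat 0, .ofNat 0, .ofNat 1065642229310362663056724171740417363336530000609280, .ofNat 168725878187282232020547858312970968138757701632, .ofNat 0, .ofNat 0, .ofNat 0, .ofNat 0, .ofNat 0⟩)
    (by decide +kernel)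
theorem L02440 : Good (Phi V5.P V5.D 1 1) ⟨4, 13, 5, 11, 4, 15, 2, 3, 5, 1⟩ :=
  leafX_sound T5.ok_pp T5.Ypp.bz_eq (w := 252) (c := ⟨⟨.negSucc 5932, .negSucc 2353, .ofNat 73, .ofNat 3400, .negSucc 3611, .negSucc 1185⟩, ⟨.negSucc 2133, .negSucc 643, .negSucc 164, .ofNat 1540, .negSucc 1395, .negSucc 546⟩, ⟨.ofNat 3532, .ofNat 1282, .negSucc 44, .negSucc 2180, .ofNat 2709, .ofNat 612⟩, ⟨.negSucc 12036, .negSucc 2615, .negSucc 294, .ofNat 5528, .negSucc 7346, .negSucc 1847⟩, ⟨.ofNat 6397, .negSucc 140, .ofNat 535, .negSucc 612, .ofNat 3852, .ofNat 48⟩, .ofNat 1141, .negSucc 1604, .ofNat 0, .negSucc 1604, .ofNat 3447, .ofNat 0, .ofNat 128, .ofNat 650, .negSucc 1385, .ofNat 0, .ofNat 374, .negSucc 550, .ofNat 0, .ofNat 0, .ofNat 1023, .ofNat 430, .ofNat 0, .ofNat 0, .ofNat 18703758342851350455327409844556040523395104768, .ofNat 0, .ofNat 0, .ofNat 0, .ofNat 644257525011512250372090381789199807455803998208,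 .ofNat 0, .ofNat 0, .ofNat 2024542086862471378629793556659633909263008144556032, .ofNat 756406500009084589897157516469687676455295647744, .ofNat 0, .ofNat 0, .ofNat 0, .ofNat 2259883147168977306112850451983459256937983508480, .ofNat 0⟩)
    (by decide +kernel)
theorem L02441 : Good (Phi V5.P V5.D 1 1) ⟨3, 7, 4, 5, 2, 3, 2, 3, 4, 0⟩ :=
  out_sound (S := T5.ds_pp) T5.ok_pp (w := 47) (j := 3) (by decide +kernel)
theorem L02442 : Good (Phi V5.P V5.D 1 1) ⟨3, 6, 3, 2, 2, 2, 2, 2, 4, 1⟩ :=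
  leafX_sound T5.ok_pp T5.Ypp.bz_eq (w := 204) (c := ⟨⟨.negSucc 961, .negSucc 1486, .ofNat 9, .negSucc 1623, .negSucc 1406, .negSucc 1138⟩, ⟨.negSucc 171, .negSucc 850, .negSucc 285, .negSucc 638, .negSucc 598, .negSucc 473⟩, ⟨.ofNat 487, .ofNat 882, .ofNat 95, .ofNat 561, .ofNat 1605, .ofNat 966⟩, ⟨.negSucc 1430, .negSucc 1585, .negSucc 185, .negSucc 3032, .negSucc 2561, .negSucc 1775⟩, ⟨.negSucc 615, .negSucc 387, .ofNat 484, .ofNat 1071, .ofNat 769, .negSucc 143⟩, .ofNat 701, .negSucc 776, .ofNat 0, .negSucc 776, .ofNat 1865, .ofNat 0, .ofNat 128, .ofNat 235, .negSucc 315, .ofNat 0, .ofNat 151, .negSucc 118, .ofNat 0, .ofNat 0, .ofNat 401, .ofNat 110, .ofNat 0, .ofNat 0, .ofNat 338726390650914980295427936636370944, .ofNat 0, .ofNat 0, .ofNat 0, .ofNat 3916551073909888577127936342215360512, .ofNat 0, .ofNat 0, .ofNat 0, .ofNat 11084877844634196744626260521097625600, .ofNat 0, .ofNat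 0, .ofNat 0, .ofNat 7342228164713735613635238921494331392, .ofNat 0⟩)
    (by decide +kernel)
theorem L02443 : Good (Phi V5.P V5.D 1 1) ⟨3, 6, 3, 2, 3, 6, 2, 2, 5, 2⟩ :=
  leafX_sound T5.ok_pp T5.Ypp.bz_eq (w := 224) (c := ⟨⟨.negSucc 2109, .negSucc 3152, .ofNat 251, .negSucc 1036, .negSucc 3200, .negSucc 495⟩, ⟨.negSucc 555, .negSucc 1395, .negSucc 379, .negSucc 300, .negSucc 1265, .negSucc 229⟩, ⟨.ofNat 844, .ofNat 1887, .negSucc 32, .ofNat 410, .ofNat 2538, .ofNat 447⟩, ⟨.negSucc 3312, .negSucc 4955, .ofNat 7, .negSucc 2625, .negSucc 5769, .negSucc 741⟩, ⟨.negSucc 565, .ofNat 1892, .ofNat 683, .ofNat 2338, .ofNat 1630, .negSucc 104⟩, .ofNat 701, .negSucc 776, .ofNat 0, .negSucc 776, .ofNat 1865, .ofNat 0, .ofNat 128, .ofNat 192, .negSucc 457, .ofNat 0, .ofNat 115, .negSucc 168, .ofNat 0, .ofNat 0, .ofNat 408, .ofNat 214, .ofNat 0, .ofNat 0, .ofNat 367734901045991429385034720366843404484608,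 .ofNat 0, .ofNat 0, .ofNat 0, .ofNat 2374068652162833194293109508041246876106752, .ofNat 0, .ofNat 0, .ofNat 0, .ofNat 3756359446858125409161306629415941999427584, .ofNat 0, .ofNat 0, .ofNat 0, .ofNat 5216106982083462202590723029760741910511616, .ofNat 0⟩)
    (by decide +kernel)
theorem L02444 : Good (Phi V5.P V5.D 1 1) ⟨4, 12, 3, 2, 3, 7, 2, 2, 5, 2⟩ :=
  leafX_sound T5.ok_pp T5.Ypp.bz_eq (w := 229) (c := ⟨⟨.negSucc 4021, .negSucc 912, .ofNat 631, .ofNat 3108, .negSucc 2814, .negSucc 541⟩, ⟨.negSucc 1331, .negSucc 249, .negSucc 182, .ofNat 1353, .negSucc 1094, .negSucc 241⟩, ⟨.ofNat 2010, .ofNat 544, .negSucc 264, .negSucc 2053, .ofNat 1918, .ofNat 428⟩, ⟨.negSucc 6952, .negSucc 1686, .ofNat 362, .ofNat 4653, .negSucc 5439, .negSucc 881⟩, ⟨.ofNat 1406, .ofNat 1165, .ofNat 909, .ofNat 544, .ofNat 2252, .ofNat 34⟩, .ofNat 684, .negSucc 803, .ofNat 0, .negSucc 803, .ofNat 2117, .ofNat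 0, .ofNat 128, .ofNat 297, .negSucc 534, .ofNat 0, .ofNat 163, .negSucc 173, .ofNat 0, .ofNat 0, .ofNat 502, .ofNat 285, .ofNat 0, .ofNat 0, .ofNat 80985187126051477454906559908945101586432, .ofNat 0, .ofNat 0, .ofNat 0, .ofNat 736838146981247690097459999944177566613504, .ofNat 0, .ofNat 0, .ofNat 0, .ofNat 0, .ofNat 0, .ofNat 0, .ofNat 0, .ofNat 0, .ofNat 0⟩)
    (by decide +kernel)
theorem L02445 : Good (Phi V5.P V5.D 1 1) ⟨4, 13, 3, 2, 3, 7, 2, 2, 5, 2⟩ :=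
  leafX_sound T5.ok_pp T5.Ypp.bz_eq (w := 230) (c := ⟨⟨.negSucc 5160, .negSucc 2949, .ofNat 722, .ofNat 3517, .negSucc 3232, .negSucc 664⟩, ⟨.negSucc 1528, .negSucc 954, .negSucc 382, .ofNat 1723, .negSucc 1323, .negSucc 311⟩, ⟨.ofNat 2776, .ofNat 1123, .negSucc 416, .negSucc 2302, .ofNat 2243, .ofNat 470⟩, ⟨.negSucc 8793, .negSucc 3822, .ofNat 514, .ofNat 4896, .negSucc 6089, .negSucc 993⟩, ⟨.ofNat 2670, .ofNat 68, .ofNat 334, .ofNat 1114, .ofNat 2387, .negSucc 75⟩, .ofNat 1156, .negSucc 1632, .ofNat 0, .negSucc 1632, .ofNat 3501, .ofNat 0, .ofNat 128, .ofNat 376, .negSucc 726, .ofNat 0, .ofNat 217, .negSucc 286, .ofNat 0, .ofNat 0, .ofNat 687, .ofNat 305, .ofNat 0, .ofNat 0, .ofNat 165229876158563399414805043527642226098176, .ofNat 0, .ofNat 0, .ofNat 0, .ofNat 25287010796423321409769456778479861445427200, .ofNat 0, .ofNat 0, .ofNat 0, .ofNat 4085232437164718415771497271008849475665920,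 .ofNat 0, .ofNat 0, .ofNat 0, .ofNat 2858860510690611644789231363190515893796864, .ofNat 0⟩)
    (by decide +kernel)
theorem L02446 : Good (Phi V5.P V5.D 1 1) ⟨3, 6, 3, 2, 3, 6, 2, 2, 5, 3⟩ :=
  leafX_sound T5.ok_pp T5.Ypp.bz_eq (w := 224) (c := ⟨⟨.negSucc 3625, .negSucc 2200, .ofNat 222, .negSucc 333, .negSucc 2126, .ofNat 265⟩, ⟨.negSucc 1193, .negSucc 1063, .negSucc 337, .negSucc 13, .negSucc 855, .ofNat 89⟩, ⟨.ofNat 1881, .ofNat 1349, .negSucc 6, .ofNat 7, .ofNat 1893, .negSucc 20⟩, ⟨.negSucc 6151, .negSucc 3022, .ofNat 111, .negSucc 1296, .negSucc 3775, .ofNat 670⟩, ⟨.ofNat 422, .ofNat 1059, .ofNat 336, .ofNat 1729, .ofNat 971, .negSucc 593⟩, .ofNat 701, .negSucc 776, .ofNat 0, .negSucc 776, .ofNat 1865, .ofNat 0, .ofNat 128, .ofNat 160, .negSucc 272, .ofNat 0, .ofNat 99, .negSucc 95, .ofNat 0, .ofNat 0, .ofNat 303, .ofNat 260, .ofNat 0, .ofNat 0, .ofNat 377786285481475052925773396243541152235520,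 .ofNat 0, .ofNat 0, .ofNat 0, .ofNat 2466318853982140764550148049969264738697216, .ofNat 0, .ofNat 0, .ofNat 0, .ofNat 3331426814738290706747149784929813242314752, .ofNat 0, .ofNat 0, .ofNat 0, .ofNat 6695280741387816544930062323951861088911360, .ofNat 0⟩)
    (by decide +kernel)
theorem L02447 : Good (Phi V5.P V5.D 1 1) ⟨4, 12, 3, 2, 3, 7, 2, 2, 5, 3⟩ :=
  leafX_sound T5.ok_pp T5.Ypp.bz_eq (w := 229) (c := ⟨⟨.negSucc 4160, .negSucc 667, .ofNat 26, .ofNat 2054, .negSucc 2001, .ofNat 82⟩, ⟨.negSucc 1422, .negSucc 204, .negSucc 462, .ofNat 989, .negSucc 738, .ofNat 52⟩, ⟨.ofNat 2169, .ofNat 422, .ofNat 32, .negSucc 1469, .ofNat 1519, .ofNat 124⟩, ⟨.negSucc 7404, .negSucc 1142, .negSucc 398, .ofNat 2617, .negSucc 3804, .ofNat 380⟩, ⟨.ofNat 1830, .ofNat 822, .ofNat 642, .ofNat 1469, .ofNat 1381, .negSucc 665⟩, .ofNat 536, .negSucc 514, .ofNat 0, .negSucc 514, .ofNat 1451, .ofNat 0, .ofNat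 128, .ofNat 195, .negSucc 360, .ofNat 0, .ofNat 121, .negSucc 99, .ofNat 0, .ofNat 0, .ofNat 398, .ofNat 366, .ofNat 0, .ofNat 0, .ofNat 68875718106511632988391763616327691927552, .ofNat 0, .ofNat 0, .ofNat 0, .ofNat 0, .ofNat 0, .ofNat 0, .ofNat 0, .ofNat 0, .ofNat 0, .ofNat 0, .ofNat 0, .ofNat 0, .ofNat 0⟩)
    (by decide +kernel)
theorem L02448 : Good (Phi V5.P V5.D 1 1) ⟨4, 13, 3, 2, 3, 7, 2, 2, 5, 3⟩ :=
  leafX_sound T5.ok_pp T5.Ypp.bz_eq (w := 230) (c := ⟨⟨.negSucc 5866, .ofNat 1489, .ofNat 789, .ofNat 2486, .negSucc 2357, .ofNat 347⟩, ⟨.negSucc 1990, .ofNat 674, .negSucc 195, .ofNat 1302, .negSucc 975, .ofNat 107⟩, ⟨.ofNat 3094, .negSucc 385, .negSucc 304, .negSucc 1702, .ofNat 1722, .negSucc 47⟩, ⟨.negSucc 10177, .ofNat 2776, .ofNat 967, .ofNat 2940, .negSucc 4480, .ofNat 932⟩, ⟨.ofNat 2884, .negSucc 746, .ofNat 53, .ofNat 1886, .ofNat 1805, .negSucc 800⟩, .ofNat 632, .negSucc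 606, .ofNat 0, .negSucc 606, .ofNat 1376, .ofNat 0, .ofNat 128, .ofNat 178, .negSucc 372, .ofNat 0, .ofNat 128, .negSucc 111, .ofNat 0, .ofNat 0, .ofNat 407, .ofNat 419, .ofNat 0, .ofNat 0, .ofNat 196727349209644168356033500864054976053248, .ofNat 0, .ofNat 0, .ofNat 0, .ofNat 2890896066673601781605341989261105017389056, .ofNat 0, .ofNat 0, .ofNat 0, .ofNat 2660833660440967535088639541154793304096768, .ofNat 0, .ofNat 0, .ofNat 0, .ofNat 2055451220021761650017692709238137436504064, .ofNat 0⟩)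
    (by decide +kernel)
theorem L02449 : Good (Phi V5.P V5.D 1 1) ⟨3, 7, 3, 2, 1, 1, 2, 2, 4, 1⟩ :=
  out_sound (S := T5.ds_pp) T5.ok_pp (w := 45) (j := 3) (by decide +kernel)
theorem L02450 : Good (Phi V5.P V5.D 1 1) ⟨3, 6, 3, 2, 2, 2, 3, 6, 4, 1⟩ :=
  leafX_sound T5.ok_pp T5.Ypp.bz_eq (w := 209) (c := ⟨⟨.negSucc 1989, .negSucc 2215, .negSucc 143, .negSucc 2682, .negSucc 1178, .negSucc 531⟩, ⟨.negSucc 521, .negSucc 1361, .negSucc 400, .negSucc 1052, .negSucc 473, .negSucc 231⟩, ⟨.ofNat 1818, .ofNat 1556, .ofNat 142, .ofNat 1359, .ofNat 1195, .ofNat 444⟩, ⟨.negSucc 3358, .negSucc 2786, .negSucc 437, .negSucc 4928, .negSucc 2119, .negSucc 486⟩, ⟨.negSucc 285, .ofNat 581, .ofNat 479, .ofNat 1617, .ofNat 627, .negSucc 834⟩, .ofNat 804, .negSucc 965, .ofNat 0, .negSucc 965, .ofNat 2252, .ofNat 0, .ofNat 128, .ofNat 189, .negSucc 351, .ofNat 0, .ofNat 120, .negSucc 136, .ofNat 0, .ofNat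 0, .ofNat 391, .ofNat 67, .ofNat 0, .ofNat 0, .ofNat 3766224415604622111711493834997235712, .ofNat 0, .ofNat 0, .ofNat 0, .ofNat 61718971165068483110344780174709489664, .ofNat 0, .ofNat 0, .ofNat 0, .ofNat 117788698135854748664972356678938787840, .ofNat 0, .ofNat 0, .ofNat 0, .ofNat 47895794411322953227761407384168169472, .ofNat 0⟩)
    (by decide +kernel)
theorem L02451 : Good (Phi V5.P V5.D 1 1) ⟨4, 12, 3, 2, 3, 6, 3, 6, 5, 2⟩ :=
  leafX_sound T5.ok_pp T5.Ypp.bz_eq (w := 233) (c := ⟨⟨.negSucc 5477, .negSucc 2781, .ofNat 977, .negSucc 1007, .negSucc 1289, .ofNat 236⟩, ⟨.negSucc 1789, .negSucc 1188, .negSucc 272, .negSucc 251, .negSucc 445, .ofNat 55⟩, ⟨.ofNat 3659, .ofNat 1674, .negSucc 449, .ofNat 147, .ofNat 1286, .ofNat 8⟩, ⟨.negSucc 9406, .negSucc 4222, .ofNat 1104, .negSucc 2637, .negSucc 2594, .ofNat 545⟩, ⟨.ofNat 1097, .ofNat 983, .ofNat 635, .ofNat 2450, .ofNat 1256, .negSucc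 500⟩, .ofNat 670, .negSucc 775, .ofNat 0, .negSucc 775, .ofNat 2065, .ofNat 0, .ofNat 128, .ofNat 221, .negSucc 628, .ofNat 0, .ofNat 124, .negSucc 216, .ofNat 0, .ofNat 0, .ofNat 562, .ofNat 218, .ofNat 0, .ofNat 0, .ofNat 1899537970839332801790535746028272172924928, .ofNat 0, .ofNat 0, .ofNat 0, .ofNat 14770247387406783656659166940347285391802368, .ofNat 0, .ofNat 0, .ofNat 0, .ofNat 10303825632036782066688810779191767967203328, .ofNat 0, .ofNat 0, .ofNat 0, .ofNat 3908475661853442638998531585480668315910144, .ofNat 0⟩)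
    (by decide +kernel)
theorem L02452 : Good (Phi V5.P V5.D 1 1) ⟨4, 12, 3, 2, 3, 7, 3, 6, 5, 2⟩ :=
  leafX_sound T5.ok_pp T5.Ypp.bz_eq (w := 234) (c := ⟨⟨.negSucc 6724, .negSucc 1482, .ofNat 566, .ofNat 3111, .negSucc 1206, .negSucc 172⟩, ⟨.negSucc 2241, .negSucc 462, .negSucc 400, .ofNat 1357, .negSucc 431, .negSucc 113⟩, ⟨.ofNat 4076, .ofNat 762, .negSucc 178, .negSucc 2376, .ofNat 1022, .ofNat 245⟩, ⟨.negSucc 12318, .negSucc 2450, .ofNat 58, .ofNat 4807, .negSucc 2582, .negSucc 127⟩, ⟨.ofNat 3703, .ofNat 1197, .ofNat 1178, .ofNat 284, .ofNat 1566, .negSucc 309⟩, .ofNat 678, .negSucc 791, .ofNat 0, .negSucc 791, .ofNat 2087, .ofNat 0, .ofNat 128, .ofNat 230, .negSucc 532, .ofNat 0, .ofNat 127, .negSucc 172, .ofNat 0, .ofNat 0, .ofNat 471, .ofNat 209, .ofNat 0, .ofNat 0, .ofNat 1260928363089966977104323347270423518642176, .ofNat 0, .ofNat 0, .ofNat 0, .ofNat 5141290837390039033410648844393324098879488,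 .ofNat 0, .ofNat 0, .ofNat 0, .ofNat 11651624860949159793260949335099994070319104, .ofNat 0, .ofNat 0, .ofNat 0, .ofNat 3927996865388919636128734672682738239143936, .ofNat 0⟩)
    (by decide +kernel)
theorem L02453 : Good (Phi V5.P V5.D 1 1) ⟨4, 12, 3, 2, 2, 3, 3, 6, 5, 3⟩ :=
  leafX_sound T5.ok_pp T5.Ypp.bz_eq (w := 220) (c := ⟨⟨.negSucc 7238, .negSucc 1104, .ofNat 324, .ofNat 2514, .negSucc 897, .ofNat 838⟩, ⟨.negSucc 2661, .negSucc 359, .negSucc 478, .ofNat 1303, .negSucc 299, .ofNat 341⟩, ⟨.ofNat 5101, .ofNat 622, .negSucc 135, .negSucc 2637, .ofNat 801, .negSucc 356⟩, ⟨.negSucc 12181, .negSucc 1675, .negSucc 69, .ofNat 2547, .negSucc 1856, .ofNat 1660⟩, ⟨.ofNat 1583, .ofNat 846, .ofNat 759, .ofNat 3176, .ofNat 976, .negSucc 917⟩, .ofNat 817, .negSucc 1069, .ofNat 0, .negSucc 1069, .ofNat 2686, .ofNat 0, .ofNat 128, .ofNat 226, .negSucc 424, .ofNat 0, .ofNat 126, .negSucc 145, .ofNat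 0, .ofNat 0, .ofNat 484, .ofNat 214, .ofNat 0, .ofNat 0, .ofNat 69923817337810371551041183926070542336, .ofNat 0, .ofNat 0, .ofNat 0, .ofNat 1095638313632198249482126595972554293248, .ofNat 0, .ofNat 0, .ofNat 0, .ofNat 1084202160789433734851684689830341509120, .ofNat 0, .ofNat 0, .ofNat 0, .ofNat 0, .ofNat 0⟩)
    (by decide +kernel)
theorem L02454 : Good (Phi V5.P V5.D 1 1) ⟨4, 13, 3, 2, 3, 6, 3, 6, 4, 1⟩ :=
  leafX_sound T5.ok_pp T5.Ypp.bz_eq (w := 230) (c := ⟨⟨.negSucc 9376, .negSucc 3160, .ofNat 1148, .negSucc 396, .negSucc 956, .ofNat 2142⟩, ⟨.negSucc 3412, .negSucc 1438, .negSucc 254, .ofNat 11, .negSucc 353, .ofNat 861⟩, ⟨.ofNat 6074, .ofNat 1754, .negSucc 596, .negSucc 141, .ofNat 1062, .negSucc 1130⟩, ⟨.negSucc 15010, .negSucc 3921, .ofNat 1002, .negSucc 1917, .negSucc 2072, .ofNat 4114⟩, ⟨.ofNat 1851, .ofNat 259, .ofNat 926, .ofNat 2782, .ofNat 1274, .negSucc 1764⟩, .ofNat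 1026, .negSucc 1385, .ofNat 0, .negSucc 1385, .ofNat 3016, .ofNat 0, .ofNat 128, .ofNat 299, .negSucc 664, .ofNat 0, .ofNat 177, .negSucc 271, .ofNat 0, .ofNat 0, .ofNat 662, .ofNat 289, .ofNat 0, .ofNat 0, .ofNat 76334829444208673934397933396042788634624, .ofNat 0, .ofNat 0, .ofNat 0, .ofNat 10123676783057905394324962766415606734389248, .ofNat 0, .ofNat 0, .ofNat 0, .ofNat 1997854322602602050879898692848962584444928, .ofNat 0, .ofNat 0, .ofNat 0, .ofNat 1967013120047148082550525973097614736883712, .ofNat 0⟩)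
    (by decide +kernel)
theorem L02455 : Good (Phi V5.P V5.D 1 1) ⟨4, 13, 3, 2, 3, 7, 3, 6, 4, 1⟩ :=
  leafX_sound T5.ok_pp T5.Ypp.bz_eq (w := 229) (c := ⟨⟨.negSucc 9208, .negSucc 2280, .ofNat 840, .ofNat 2480, .negSucc 1020, .ofNat 1581⟩, ⟨.negSucc 3084, .negSucc 690, .negSucc 453, .ofNat 1321, .negSucc 386, .ofNat 579⟩, ⟨.ofNat 5611, .ofNat 1442, .negSucc 492, .negSucc 2081, .ofNat 933, .negSucc 594⟩, ⟨.negSucc 16006, .negSucc 3608, .ofNat 277, .ofNat 2980, .negSucc 2174, .ofNat 3464⟩, ⟨.ofNat 4850, .ofNat 1522, .ofNat 1088, .ofNat 1912, .ofNat 1257, .negSucc 2193⟩, .ofNat 632, .negSucc 606, .ofNat 0, .negSucc 606, .ofNat 1376, .ofNat 0, .ofNat 128, .ofNat 223, .negSucc 497, .ofNat 0, .ofNat 153, .negSucc 155, .ofNat 0, .ofNat 0, .ofNat 453, .ofNat 301, .ofNat 0, .ofNat 0, .ofNat 68508212630474920342272699838623133990912, .ofNat 0, .ofNat 0, .ofNat 0, .ofNat 646384965638069352357285548581989805719552,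 .ofNat 0, .ofNat 0, .ofNat 0, .ofNat 1078730757195513152979812877369259627380736, .ofNat 0, .ofNat 0, .ofNat 0, .ofNat 1672041123450602704900843546049284210163712, .ofNat 0⟩)
    (by decide +kernel)
theorem L02456 : Good (Phi V5.P V5.D 1 1) ⟨5, 24, 3, 2, 2, 2, 3, 7, 5, 2⟩ :=
  leafX_sound T5.ok_pp T5.Ypp.bz_eq (w := 222) (c := ⟨⟨.negSucc 2318, .negSucc 1029, .ofNat 282, .negSucc 3928, .negSucc 2598, .negSucc 697⟩, ⟨.negSucc 655, .negSucc 438, .negSucc 399, .negSucc 1386, .negSucc 1007, .negSucc 339⟩, ⟨.ofNat 2416, .ofNat 688, .negSucc 134, .ofNat 2253, .ofNat 2340, .ofNat 483⟩, ⟨.negSucc 3687, .negSucc 1575, .ofNat 217, .negSucc 7486, .negSucc 4772, .negSucc 1007⟩, ⟨.negSucc 364, .ofNat 437, .ofNat 401, .ofNat 2716, .ofNat 1202, .negSucc 458⟩, .ofNat 678, .negSucc 814, .ofNat 0, .negSucc 814, .ofNat 2255, .ofNat 0, .ofNat 128, .ofNat 143, .negSucc 441, .ofNat 0, .ofNat 81, .negSucc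 153, .ofNat 0, .ofNat 0, .ofNat 434, .ofNat 68, .ofNat 0, .ofNat 0, .ofNat 0, .ofNat 0, .ofNat 0, .ofNat 0, .ofNat 0, .ofNat 0, .ofNat 0, .ofNat 0, .ofNat 0, .ofNat 0, .ofNat 0, .ofNat 91353033418475594445062193999371093550301184, .ofNat 115556582512006473209382925697984495616, .ofNat 0⟩)
    (by decide +kernel)
theorem L02457 : Good (Phi V5.P V5.D 1 1) ⟨5, 25, 3, 2, 2, 2, 3, 7, 5, 2⟩ :=
  leafX_sound T5.ok_pp T5.Ypp.bz_eq (w := 223) (c := ⟨⟨.negSucc 3048, .negSucc 818, .ofNat 487, .negSucc 4434, .negSucc 3914, .negSucc 954⟩, ⟨.negSucc 908, .negSucc 525, .negSucc 384, .negSucc 1655, .negSucc 1616, .negSucc 363⟩, ⟨.ofNat 2942, .ofNat 558, .negSucc 275, .ofNat 2531, .ofNat 3196, .ofNat 649⟩, ⟨.negSucc 4648, .negSucc 1412, .ofNat 480, .negSucc 8398, .negSucc 6762, .negSucc 1179⟩, ⟨.negSucc 689, .ofNat 973, .ofNat 647, .ofNat 3199, .ofNat 1442, .negSucc 691⟩, .ofNat 746, .negSucc 892, .ofNat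 0, .negSucc 892, .ofNat 2207, .ofNat 0, .ofNat 128, .ofNat 150, .negSucc 483, .ofNat 0, .ofNat 92, .negSucc 186, .ofNat 0, .ofNat 0, .ofNat 445, .ofNat 45, .ofNat 0, .ofNat 0, .ofNat 32533618672145580354330503834230587392, .ofNat 0, .ofNat 0, .ofNat 0, .ofNat 471076053916246655470570619837249224704, .ofNat 0, .ofNat 0, .ofNat 10529604819507227359135853468973189652545536, .ofNat 58606376219781432723589096674628206592, .ofNat 0, .ofNat 0, .ofNat 85280564984936081179161786729960684730187776, .ofNat 144252693095529502743519825971730448384, .ofNat 0⟩)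
    (by decide +kernel)
theorem L02458 : Good (Phi V5.P V5.D 1 1) ⟨4, 12, 3, 2, 2, 2, 4, 14, 5, 3⟩ :=
  leafX_sound T5.ok_pp T5.Ypp.bz_eq (w := 222) (c := ⟨⟨.negSucc 3585, .negSucc 1586, .ofNat 169, .negSucc 3118, .negSucc 913, .ofNat 308⟩, ⟨.negSucc 1131, .negSucc 842, .negSucc 446, .negSucc 1141, .negSucc 352, .ofNat 112⟩, ⟨.ofNat 3309, .ofNat 1099, .negSucc 57, .ofNat 1700, .ofNat 830, .negSucc 232⟩, ⟨.negSucc 5768, .negSucc 1945, .negSucc 32, .negSucc 6235, .negSucc 1721, .ofNat 896⟩, ⟨.negSucc 503, .ofNat 19, .ofNat 653, .ofNat 2973, .ofNat 529, .negSucc 1001⟩, .ofNat 540, .negSucc 522, .ofNat 0, .negSucc 522, .ofNat 1472, .ofNat 0, .ofNat 128, .ofNat 157, .negSucc 320, .ofNat 0, .ofNat 101, .negSucc 105, .ofNat 0, .ofNat 0, .ofNat 358, .ofNat 138, .ofNat 0, .ofNat 0, .ofNat 0, .ofNat 0, .ofNat 0, .ofNat 0, .ofNat 0, .ofNat 0, .ofNat 0, .ofNat 0, .ofNat 0, .ofNat 0, .ofNat 0, .ofNat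 0, .ofNat 0, .ofNat 0⟩)
    (by decide +kernel)
theorem L02459 : Good (Phi V5.P V5.D 1 1) ⟨4, 12, 3, 2, 2, 2, 4, 15, 5, 3⟩ :=
  leafX_sound T5.ok_pp T5.Ypp.bz_eq (w := 223) (c := ⟨⟨.negSucc 4961, .negSucc 2161, .ofNat 754, .negSucc 2803, .negSucc 2487, .ofNat 717⟩, ⟨.negSucc 1620, .negSucc 1096, .negSucc 287, .negSucc 952, .negSucc 1042, .ofNat 215⟩, ⟨.ofNat 4596, .ofNat 1423, .negSucc 481, .ofNat 1399, .ofNat 1890, .negSucc 575⟩, ⟨.negSucc 8130, .negSucc 2790, .ofNat 954, .negSucc 5740, .negSucc 4868, .ofNat 1549⟩, ⟨.negSucc 377, .ofNat 230, .ofNat 397, .ofNat 3091, .ofNat 2419, .negSucc 1088⟩, .ofNat 788, .negSucc 1012, .ofNat 0, .negSucc 1012, .ofNat 2587, .ofNat 0, .ofNat 128, .ofNat 279, .negSucc 440, .ofNat 0, .ofNat 162, .negSucc 161, .ofNat 0, .ofNat 0, .ofNat 465, .ofNat 102, .ofNat 0, .ofNat 0, .ofNat 2976891360136086812391529529841637392384, .ofNat 0, .ofNat 0, .ofNat 21802585676466462965356679297010295841488896,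 .ofNat 16024917729740078830469772882451336527872, .ofNat 0, .ofNat 0, .ofNat 37343486762633583128601568880757724340551680, .ofNat 8099348475770672613965058582626976137216, .ofNat 0, .ofNat 0, .ofNat 43830590954090850732390398554006592124092416, .ofNat 25110541372484131301197360812928656211968, .ofNat 0⟩)
    (by decide +kernel)
theorem L02460 : Good (Phi V5.P V5.D 1 1) ⟨5, 26, 3, 2, 2, 2, 4, 14, 4, 1⟩ :=
  leafX_sound T5.ok_pp T5.Ypp.bz_eq (w := 223) (c := ⟨⟨.negSucc 5614, .ofNat 707, .ofNat 443, .negSucc 3378, .negSucc 1026, .ofNat 633⟩, ⟨.negSucc 2042, .ofNat 234, .negSucc 387, .negSucc 1317, .negSucc 428, .ofNat 201⟩, ⟨.ofNat 4711, .negSucc 679, .negSucc 133, .ofNat 1789, .ofNat 899, .negSucc 542⟩, ⟨.negSucc 8651, .ofNat 929, .ofNat 622, .negSucc 6788, .negSucc 1870, .ofNat 1581⟩, ⟨.ofNat 116, .ofNat 1067, .negSucc 27, .ofNat 3398, .ofNat 624, .negSucc 1304⟩, .ofNat 1117, .negSucc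 1558, .ofNat 0, .negSucc 1558, .ofNat 3352, .ofNat 0, .ofNat 128, .ofNat 273, .negSucc 630, .ofNat 0, .ofNat 167, .negSucc 271, .ofNat 0, .ofNat 0, .ofNat 646, .ofNat 191, .ofNat 0, .ofNat 0, .ofNat 13058989365125518047362286573760544768, .ofNat 0, .ofNat 0, .ofNat 0, .ofNat 2400185600612552725103528413307022082048, .ofNat 0, .ofNat 0, .ofNat 0, .ofNat 248810759505104024594695253371194966016, .ofNat 0, .ofNat 0, .ofNat 0, .ofNat 321179947642480044418592440787933331456, .ofNat 0⟩)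
    (by decide +kernel)
theorem L02461 : Good (Phi V5.P V5.D 1 1) ⟨5, 26, 3, 2, 2, 2, 4, 15, 4, 1⟩ :=
  leafX_sound T5.ok_pp T5.Ypp.bz_eq (w := 223) (c := ⟨⟨.negSucc 7417, .negSucc 5532, .ofNat 1465, .negSucc 2952, .negSucc 3305, .ofNat 671⟩, ⟨.negSucc 2818, .negSucc 2753, .ofNat 61, .negSucc 1083, .negSucc 1463, .ofNat 209⟩, ⟨.ofNat 6526, .ofNat 3675, .negSucc 1068, .ofNat 1438, .ofNat 2419, .negSucc 740⟩, ⟨.negSucc 10240, .negSucc 7269, .ofNat 603, .negSucc 6355, .negSucc 5550, .ofNat 1692⟩, ⟨.negSucc 1759, .negSucc 1100, .ofNat 2565, .ofNat 3885, .ofNat 1023, .negSucc 1378⟩, .ofNat 1111, .negSucc 1545, .ofNat 0, .negSucc 1545, .ofNat 3324, .ofNat 0, .ofNat 128, .ofNat 217, .negSucc 584, .ofNat 0, .ofNat 134, .negSucc 252, .ofNat 0, .ofNat 0, .ofNat 559, .ofNat 94, .ofNat 0, .ofNat 0, .ofNat 25644485024494130761407825023302893568, .ofNat 0, .ofNat 0, .ofNat 0, .ofNat 922250490470308503321387117671151042560,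 .ofNat 0, .ofNat 0, .ofNat 20710918381149389748053516083896530986074112, .ofNat 303631246723644820638174817933594722304, .ofNat 0, .ofNat 0, .ofNat 92230236384560125898364642042779410284675072, .ofNat 556486741747442493386977255038740594688, .ofNat 0⟩)
    (by decide +kernel)
theorem L02462 : Good (Phi V5.P V5.D 1 1) ⟨5, 27, 3, 2, 2, 2, 3, 7, 4, 1⟩ :=
  out_sound (S := T5.ds_pp) T5.ok_pp (w := 57) (j := 3) (by decide +kernel)
theorem L02463 : Good (Phi V5.P V5.D 1 1) ⟨5, 24, 3, 2, 3, 6, 3, 7, 5, 2⟩ :=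
  leafX_sound T5.ok_pp T5.Ypp.bz_eq (w := 238) (c := ⟨⟨.negSucc 7609, .negSucc 1714, .ofNat 1267, .ofNat 158, .negSucc 2042, .ofNat 729⟩, ⟨.negSucc 2522, .negSucc 666, .negSucc 305, .ofNat 202, .negSucc 637, .ofNat 225⟩, ⟨.ofNat 5600, .ofNat 1042, .negSucc 598, .negSucc 732, .ofNat 1998, .negSucc 388⟩, ⟨.negSucc 13329, .negSucc 2665, .ofNat 1404, .negSucc 628, .negSucc 4066, .ofNat 1293⟩, ⟨.ofNat 2187, .ofNat 653, .ofNat 927, .ofNat 2239, .ofNat 1915, .negSucc 356⟩, .ofNat 810, .negSucc 1098, .ofNat 0, .negSucc 1098, .ofNat 2935, .ofNat 0, .ofNat 128, .ofNat 209, .negSucc 720, .ofNat 0, .ofNat 111, .negSucc 248, .ofNat 0, .ofNat 0, .ofNat 637, .ofNat 116, .ofNat 0, .ofNat 0, .ofNat 0, .ofNat 0, .ofNat 0, .ofNat 130045220547877741541199990566898095035997224960, .ofNat 0, .ofNat 0, .ofNat 0, .ofNat 148996238238031837041609454135252111777834467328, .ofNat 0, .ofNat 0, .ofNat 0, .ofNat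 0, .ofNat 0, .ofNat 0⟩)
    (by decide +kernel)
theorem L02464 : Good (Phi V5.P V5.D 1 1) ⟨5, 25, 4, 4, 3, 6, 3, 7, 5, 2⟩ :=
  leafX_sound T5.ok_pp T5.Ypp.bz_eq (w := 241) (c := ⟨⟨.negSucc 9606, .negSucc 2416, .ofNat 783, .negSucc 85, .negSucc 2780, .ofNat 1539⟩, ⟨.negSucc 3355, .negSucc 956, .negSucc 124, .ofNat 205, .negSucc 900, .ofNat 540⟩, ⟨.ofNat 6737, .ofNat 1497, .negSucc 312, .negSucc 535, .ofNat 2471, .negSucc 904⟩, ⟨.negSucc 16281, .negSucc 3783, .ofNat 760, .negSucc 1196, .negSucc 5440, .ofNat 2747⟩, ⟨.ofNat 2476, .ofNat 1036, .ofNat 812, .ofNat 2649, .ofNat 2589, .negSucc 810⟩, .ofNat 908, .negSucc 1232, .ofNat 0, .negSucc 1232, .ofNat 3024, .ofNat 0, .ofNat 128, .ofNat 217, .negSucc 777, .ofNat 0, .ofNat 125, .negSucc 279, .ofNat 0, .ofNat 0, .ofNat 644, .ofNat 130, .ofNat 0, .ofNat 0, .ofNat 1918025117900973690498278988024827026079744, .ofNat 0, .ofNat 0, .ofNat 678665978852113532920453689165018468300500238336,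 .ofNat 13518704308425839348658673619429182574428160, .ofNat 0, .ofNat 0, .ofNat 1401228532474156325751064798026339980836283088896, .ofNat 17771673446243669999666177414196148196868096, .ofNat 0, .ofNat 0, .ofNat 0, .ofNat 47313728083638658117397028085248774572605440, .ofNat 0⟩)
    (by decide +kernel)
theorem L02465 : Good (Phi V5.P V5.D 1 1) ⟨5, 25, 4, 5, 3, 6, 3, 7, 5, 2⟩ :=
  leafX_sound T5.ok_pp T5.Ypp.bz_eq (w := 242) (c := ⟨⟨.negSucc 9452, .negSucc 1930, .ofNat 1111, .ofNat 615, .negSucc 2551, .ofNat 1228⟩, ⟨.negSucc 3692, .negSucc 832, .ofNat 13, .ofNat 472, .negSucc 908, .ofNat 474⟩, ⟨.ofNat 6751, .ofNat 1220, .negSucc 598, .negSucc 895, .ofNat 2369, .negSucc 741⟩, ⟨.negSucc 16225, .negSucc 2944, .ofNat 1280, .negSucc 459, .negSucc 5239, .ofNat 2288⟩, ⟨.ofNat 2944, .ofNat 701, .ofNat 650, .ofNat 3130, .ofNat 2823, .negSucc 856⟩, .ofNat 1062, .negSucc 1520, .ofNat 0, .negSucc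 1520, .ofNat 3469, .ofNat 0, .ofNat 128, .ofNat 251, .negSucc 763, .ofNat 0, .ofNat 143, .negSucc 305, .ofNat 0, .ofNat 0, .ofNat 642, .ofNat 118, .ofNat 0, .ofNat 0, .ofNat 0, .ofNat 0, .ofNat 0, .ofNat 753971359391811427937451797063278020161578205184, .ofNat 23075106470675117381876380675660462348566528, .ofNat 0, .ofNat 0, .ofNat 1608249664914430589007898924620191294805585690624, .ofNat 8873146582127719783757117483537006315175936, .ofNat 0, .ofNat 0, .ofNat 4086747476063597074890356546054274980070989758464, .ofNat 35042735707632946665914436314232028863135744, .ofNat 0⟩)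
    (by decide +kernel)
theorem L02466 : Good (Phi V5.P V5.D 1 1) ⟨5, 24, 3, 2, 3, 7, 3, 7, 5, 2⟩ :=
  leafX_sound T5.ok_pp T5.Ypp.bz_eq (w := 238) (c := ⟨⟨.negSucc 7551, .negSucc 1027, .ofNat 714, .ofNat 2485, .negSucc 1669, .ofNat 6⟩, ⟨.negSucc 2408, .negSucc 340, .negSucc 494, .ofNat 991, .negSucc 558, .negSucc 28⟩, ⟨.ofNat 5191, .ofNat 530, .negSucc 262, .negSucc 2550, .ofNat 1315, .ofNat 28⟩, ⟨.negSucc 14030, .negSucc 1596, .ofNat 70, .ofNat 3679, .negSucc 3212, .ofNat 113⟩, ⟨.ofNat 4465, .ofNat 471, .ofNat 1733, .ofNat 922, .ofNat 1224, .negSucc 323⟩, .ofNat 868, .negSucc 1231, .ofNat 0, .negSucc 1231, .ofNat 3232, .ofNat 0, .ofNat 128, .ofNat 190, .negSucc 467, .ofNat 0, .ofNat 98, .negSucc 159, .ofNat 0, .ofNat 0, .ofNat 410, .ofNat 136, .ofNat 0, .ofNat 8205913652631996268821371555790210911998836736, .ofNat 0, .ofNat 0, .ofNat 0, .ofNat 0, .ofNat 0, .ofNat 0, .ofNat 0, .ofNat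 14413618058424315311192343006851304614975766528, .ofNat 0, .ofNat 0, .ofNat 0, .ofNat 250455564695895618595962900358439647105362427904, .ofNat 10213216687510656318850122045996570224099328, .ofNat 0⟩)
    (by decide +kernel)
theorem L02467 : Good (Phi V5.P V5.D 1 1) ⟨5, 25, 3, 2, 3, 7, 3, 7, 5, 2⟩ :=
  leafX_sound T5.ok_pp T5.Ypp.bz_eq (w := 238) (c := ⟨⟨.negSucc 9067, .negSucc 885, .ofNat 637, .ofNat 3345, .negSucc 1726, .negSucc 13⟩, ⟨.negSucc 2977, .negSucc 203, .negSucc 601, .ofNat 1476, .negSucc 615, .negSucc 47⟩, ⟨.ofNat 5998, .ofNat 589, .negSucc 226, .negSucc 3029, .ofNat 1384, .ofNat 95⟩, ⟨.negSucc 16406, .negSucc 1621, .negSucc 138, .ofNat 5154, .negSucc 3561, .ofNat 243⟩, ⟨.ofNat 5237, .ofNat 1111, .ofNat 1663, .ofNat 227, .ofNat 1930, .negSucc 557⟩, .ofNat 746, .negSucc 892, .ofNat 0, .negSucc 892, .ofNat 2207, .ofNat 0, .ofNat 128, .ofNat 249, .negSucc 754, .ofNat 0, .ofNat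 144, .negSucc 257, .ofNat 0, .ofNat 0, .ofNat 626, .ofNat 142, .ofNat 0, .ofNat 5249647911926929421364997543463086377006006272, .ofNat 353788051651905178355003608553883822981120, .ofNat 0, .ofNat 0, .ofNat 0, .ofNat 6169872342942873274124674587672251100823552, .ofNat 0, .ofNat 0, .ofNat 91364863806811577890096958960307312890048675840, .ofNat 4364089249588918031082345895255346979536896, .ofNat 0, .ofNat 0, .ofNat 647218478164091414373136839485511603353934626816, .ofNat 1002806155482338171009823151967748436787200, .ofNat 0⟩)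
    (by decide +kernel)
theorem L02468 : Good (Phi V5.P V5.D 1 1) ⟨4, 12, 3, 2, 3, 6, 3, 7, 5, 3⟩ :=
  leafX_sound T5.ok_pp T5.Ypp.bz_eq (w := 234) (c := ⟨⟨.negSucc 7563, .negSucc 1773, .ofNat 562, .ofNat 240, .negSucc 1570, .ofNat 1413⟩, ⟨.negSucc 2580, .negSucc 747, .negSucc 511, .ofNat 264, .negSucc 517, .ofNat 499⟩, ⟨.ofNat 5582, .ofNat 1033, .negSucc 168, .negSucc 579, .ofNat 1570, .negSucc 848⟩, ⟨.negSucc 13220, .negSucc 2434, .ofNat 315, .negSucc 418, .negSucc 3385, .ofNat 2755⟩, ⟨.ofNat 2256, .ofNat 652, .ofNat 848, .ofNat 1870, .ofNat 2088, .negSucc 1280⟩, .ofNat 671, .negSucc 774, .ofNat 0, .negSucc 774, .ofNat 2037, .ofNat 0, .ofNat 128, .ofNat 316, .negSucc 577, .ofNat 0, .ofNat 186, .negSucc 189, .ofNat 0, .ofNat 0, .ofNat 612, .ofNat 192, .ofNat 0, .ofNat 0, .ofNat 0, .ofNat 0, .ofNat 0, .ofNat 6891483835951703951472369218770642542193016832, .ofNat 13712201933750844826632053892365290183852032,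 .ofNat 0, .ofNat 0, .ofNat 22828353450306000890449511789416555734473113600, .ofNat 21983877763724776658171991850128497400872960, .ofNat 0, .ofNat 0, .ofNat 48861582529566321238680692641860037524915748864, .ofNat 13418989461755928837995035917554525197565952, .ofNat 0⟩)
    (by decide +kernel)
theorem L02469 : Good (Phi V5.P V5.D 1 1) ⟨4, 12, 3, 2, 3, 7, 3, 7, 5, 3⟩ :=
  leafX_sound T5.ok_pp T5.Ypp.bz_eq (w := 234) (c := ⟨⟨.negSucc 7278, .negSucc 1147, .ofNat 398, .ofNat 1614, .negSucc 1022, .ofNat 775⟩, ⟨.negSucc 2433, .negSucc 287, .negSucc 541, .ofNat 758, .negSucc 355, .ofNat 281⟩, ⟨.ofNat 5003, .ofNat 687, .negSucc 60, .negSucc 1980, .ofNat 875, .negSucc 308⟩, ⟨.negSucc 13444, .negSucc 1817, .negSucc 263, .ofNat 2170, .negSucc 2028, .ofNat 1559⟩, ⟨.ofNat 4388, .ofNat 989, .ofNat 1268, .ofNat 804, .ofNat 1055, .negSucc 843⟩, .ofNat 800, .negSucc 1039, .ofNat 0, .negSucc 1039, .ofNat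 2649, .ofNat 0, .ofNat 128, .ofNat 272, .negSucc 362, .ofNat 0, .ofNat 154, .negSucc 114, .ofNat 0, .ofNat 0, .ofNat 423, .ofNat 223, .ofNat 0, .ofNat 949159390611485011362630031446607466908876800, .ofNat 1275318053838831897046422538528384295632896, .ofNat 0, .ofNat 0, .ofNat 5968867448715798419362692626145066798259634176, .ofNat 12733910668565398627770366841445072406315008, .ofNat 0, .ofNat 0, .ofNat 4412918322584198737027244927270386776837980160, .ofNat 8783020382680580181946973090940699757510656, .ofNat 0, .ofNat 0, .ofNat 39344600853645775147308016668634190956619366400, .ofNat 6223929507887627036995101493441534439194624, .ofNat 0⟩)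
    (by decide +kernel)
theorem L02470 : Good (Phi V5.P V5.D 1 1) ⟨4, 13, 3, 2, 3, 6, 3, 7, 4, 1⟩ :=
  leafX_sound T5.ok_pp T5.Ypp.bz_eq (w := 230) (c := ⟨⟨.negSucc 12750, .negSucc 1700, .ofNat 1897, .ofNat 424, .negSucc 1962, .ofNat 3644⟩, ⟨.negSucc 4648, .negSucc 691, .negSucc 137, .ofNat 432, .negSucc 687, .ofNat 1469⟩, ⟨.ofNat 8720, .ofNat 1064, .negSucc 1038, .negSucc 683, .ofNat 2037, .negSucc 2226⟩, ⟨.negSucc 21191, .negSucc 1937, .ofNat 2322, .negSucc 869, .negSucc 4530, .ofNat 7083⟩, ⟨.ofNat 4128, .ofNat 416, .ofNat 410, .ofNat 3243, .ofNat 3169, .negSucc 3156⟩, .ofNat 951, .negSucc 1246, .ofNat 0, .negSucc 1246, .ofNat 2739, .ofNat 0, .ofNat 128, .ofNat 333, .negSucc 1066, .ofNat 0, .ofNat 202, .negSucc 429, .ofNat 0, .ofNat 0, .ofNat 972, .ofNat 93, .ofNat 0, .ofNat 0, .ofNat 188395539932812821530218479041309149495296, .ofNat 0, .ofNat 0, .ofNat 969622451457677436094507139932778466398699520,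 .ofNat 2997810739759563108432999828433986123726848, .ofNat 0, .ofNat 0, .ofNat 2910490726070228046092772428439286627560325120, .ofNat 2421339770395714217615617403138302512463872, .ofNat 0, .ofNat 0, .ofNat 0, .ofNat 1719637227462729784670014483215796727185408, .ofNat 0⟩)
    (by decide +kernel)
theorem L02471 : Good (Phi V5.P V5.D 1 1) ⟨4, 13, 3, 2, 3, 7, 3, 7, 5, 2⟩ :=
  leafX_sound T5.ok_pp T5.Ypp.bz_eq (w := 236) (c := ⟨⟨.negSucc 10446, .negSucc 4186, .ofNat 834, .ofNat 3703, .negSucc 1950, .ofNat 97⟩, ⟨.negSucc 3354, .negSucc 1569, .negSucc 613, .ofNat 1746, .negSucc 755, .negSucc 4⟩, ⟨.ofNat 7324, .ofNat 1517, .negSucc 706, .negSucc 3329, .ofNat 1545, .ofNat 61⟩, ⟨.negSucc 19032, .negSucc 5437, .ofNat 352, .ofNat 5637, .negSucc 3991, .ofNat 543⟩, ⟨.ofNat 7521, .negSucc 242, .ofNat 632, .ofNat 154, .ofNat 2083, .negSucc 808⟩, .ofNat 951, .negSucc 1246, .ofNat 0, .negSucc 1246, .ofNat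 2738, .ofNat 0, .ofNat 128, .ofNat 422, .negSucc 1353, .ofNat 0, .ofNat 250, .negSucc 521, .ofNat 0, .ofNat 0, .ofNat 1162, .ofNat 279, .ofNat 0, .ofNat 762350231921151674878673678757595490463776768, .ofNat 5817819499363063516103907451756982493511680, .ofNat 0, .ofNat 0, .ofNat 0, .ofNat 215637155963445346358834265130548075700420608, .ofNat 0, .ofNat 0, .ofNat 22132223500996466957972626252041697113432653824, .ofNat 130715560530862304517002314463448445220814848, .ofNat 0, .ofNat 0, .ofNat 0, .ofNat 281400278455770623358660407878568050440536064, .ofNat 0⟩)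
    (by decide +kernel)
theorem L02472 : Good (Phi V5.P V5.D 1 1) ⟨4, 13, 3, 2, 3, 7, 3, 7, 5, 3⟩ :=
  leafX_sound T5.ok_pp T5.Ypp.bz_eq (w := 234) (c := ⟨⟨.negSucc 8676, .negSucc 226, .ofNat 253, .ofNat 1931, .negSucc 1229, .ofNat 928⟩, ⟨.negSucc 2834, .ofNat 166, .negSucc 679, .ofNat 1015, .negSucc 469, .ofNat 332⟩, ⟨.ofNat 5856, .ofNat 140, .ofNat 37, .negSucc 2156, .ofNat 1060, .negSucc 425⟩, ⟨.negSucc 15251, .ofNat 19, .negSucc 814, .ofNat 2286, .negSucc 2563, .ofNat 2098⟩, ⟨.ofNat 4872, .ofNat 125, .ofNat 1675, .ofNat 1477, .ofNat 1432, .negSucc 1417⟩, .ofNat 742, .negSucc 783, .ofNat 0, .negSucc 783, .ofNat 1703, .ofNat 0, .ofNat 128, .ofNat 323, .negSucc 556, .ofNat 0, .ofNat 226, .negSucc 154, .ofNat 0, .ofNat 0, .ofNat 628, .ofNat 304, .ofNat 0, .ofNat 949227971369256044321740255792164919056531456, .ofNat 3089712162943525686147768368689922789343232, .ofNat 0, .ofNat 0, .ofNat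 5103665948081690744448926877205637990895845376, .ofNat 12892965593196055769979425928667669653880832, .ofNat 0, .ofNat 0, .ofNat 17470501324213688800926873144270404742698500096, .ofNat 65235336137741824819619752000372360416854016, .ofNat 0, .ofNat 0, .ofNat 0, .ofNat 79994134036514779515207516377394611188924416, .ofNat 0⟩)
    (by decide +kernel)
theorem L02473 : Good (Phi V5.P V5.D 1 1) ⟨3, 7, 3, 2, 1, 1, 2, 3, 4, 1⟩ :=
  out_sound (S := T5.ds_pp) T5.ok_pp (w := 45) (j := 3) (by decide +kernel)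
theorem L02474 : Good (Phi V5.P V5.D 1 1) ⟨2, 2, 3, 2, 2, 2, 2, 2, 4, 2⟩ :=
  leafX_sound T5.ok_pp T5.Ypp.bz_eq (w := 201) (c := ⟨⟨.negSucc 592, .negSucc 2088, .ofNat 122, .negSucc 874, .negSucc 742, .negSucc 14⟩, ⟨.ofNat 308, .negSucc 1264, .negSucc 209, .negSucc 287, .negSucc 256, .negSucc 8⟩, ⟨.ofNat 439, .ofNat 1395, .negSucc 84, .ofNat 246, .ofNat 1052, .ofNat 181⟩, ⟨.negSucc 2396, .negSucc 1898, .ofNat 141, .negSucc 1737, .negSucc 1339, .ofNat 53⟩, ⟨.negSucc 291, .negSucc 114, .ofNat 167, .ofNat 712, .ofNat 234, .negSucc 218⟩, .ofNat 866, .negSucc 1363, .ofNat 0, .negSucc 1363, .ofNat 4152, .ofNat 0, .ofNat 128, .ofNat 271, .negSucc 182, .ofNat 0, .ofNat 129, .negSucc 56, .ofNat 0, .ofNat 0, .ofNat 397, .ofNat 419, .ofNat 0, .ofNat 0, .ofNat 3099946142376030438990984280415404032, .ofNat 0, .ofNat 0, .ofNat 0, .ofNat 32502056826536769801226885976092049408, .ofNat 0, .ofNat 0, .ofNat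 0, .ofNat 107929982159097961205165954721592115200, .ofNat 0, .ofNat 0, .ofNat 0, .ofNat 156453323346902843466981113800266088448, .ofNat 0⟩)
    (by decide +kernel)
theorem L02475 : Good (Phi V5.P V5.D 1 1) ⟨3, 6, 3, 2, 2, 2, 2, 2, 4, 2⟩ :=
  leafX_sound T5.ok_pp T5.Ypp.bz_eq (w := 204) (c := ⟨⟨.negSucc 2653, .negSucc 1009, .ofNat 8, .negSucc 1151, .negSucc 1020, .ofNat 325⟩, ⟨.negSucc 906, .negSucc 744, .negSucc 240, .negSucc 433, .negSucc 431, .ofNat 125⟩, ⟨.ofNat 1851, .ofNat 575, .ofNat 70, .ofNat 346, .ofNat 1237, .negSucc 77⟩, ⟨.negSucc 4379, .negSucc 914, .ofNat 37, .negSucc 2215, .negSucc 1663, .ofNat 744⟩, ⟨.negSucc 161, .ofNat 334, .negSucc 40, .ofNat 886, .ofNat 103, .negSucc 581⟩, .ofNat 542, .negSucc 522, .ofNat 0, .negSucc 522, .ofNat 1441, .ofNat 0, .ofNat 128, .ofNat 179, .negSucc 173, .ofNat 0, .ofNat 121, .negSucc 54, .ofNat 0, .ofNat 0, .ofNat 341, .ofNat 270, .ofNat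 0, .ofNat 0, .ofNat 144672219651217186347449882517700608, .ofNat 0, .ofNat 0, .ofNat 0, .ofNat 2626948884891446858745334458220544000, .ofNat 0, .ofNat 0, .ofNat 0, .ofNat 7194736135857487679454254407998242816, .ofNat 0, .ofNat 0, .ofNat 0, .ofNat 7045008088927398067606321758669373440, .ofNat 0⟩)
    (by decide +kernel)
theorem L02476 : Good (Phi V5.P V5.D 1 1) ⟨3, 7, 3, 2, 2, 2, 2, 2, 4, 2⟩ :=
  out_sound (S := T5.ds_pp) T5.ok_pp (w := 45) (j := 3) (by decide +kernel)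
theorem L02477 : Good (Phi V5.P V5.D 1 1) ⟨2, 2, 3, 2, 2, 2, 2, 2, 4, 3⟩ :=
  leafX_sound T5.ok_pp T5.Ypp.bz_eq (w := 200) (c := ⟨⟨.negSucc 1327, .negSucc 1509, .negSucc 11, .negSucc 468, .negSucc 472, .ofNat 242⟩, ⟨.ofNat 64, .negSucc 1080, .negSucc 195, .negSucc 155, .negSucc 172, .ofNat 80⟩, ⟨.ofNat 1347, .ofNat 745, .ofNat 107, .ofNat 36, .ofNat 763, .negSucc 86⟩, ⟨.negSucc 3481, .negSucc 1155, .negSucc 20, .negSucc 881, .negSucc 740, .ofNat 479⟩, ⟨.negSucc 709, .ofNat 569, .negSucc 54, .ofNat 190, .negSucc 193, .negSucc 199⟩, .ofNat 533, .negSucc 539, .ofNat 0, .negSucc 539, .ofNat 1847, .ofNat 0, .ofNat 128, .ofNat 157, .negSucc 73, .ofNat 0, .ofNat 100, .negSucc 17, .ofNat 0, .ofNat 0, .ofNat 260, .ofNat 722, .ofNat 0, .ofNat 0, .ofNat 0, .ofNat 0, .ofNat 0, .ofNat 0, .ofNat 3794535538815937375659494045439229952, .ofNat 0, .ofNat 0, .ofNat 0, .ofNat 170872092555514349934511952145508466688,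 .ofNat 0, .ofNat 0, .ofNat 0, .ofNat 67443537703591458401687767477544550400, .ofNat 0⟩)
    (by decide +kernel)

end Crest.Agent.R097C5.N5pp
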