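import Crest.Agent.R097.KP7
import Crest.Agent.R097.T5Ypp

/-!
# Row 97, box cover in dimension n = 5 (generated)
-/

set_option autoImplicit false
set_option Elab.async false
set_option maxHeartbeats 0
set_option maxRecDepth 100000

open Crest.Agent.R097 Crest.Agent.R097.KA


namespace Crest.Agent.R097C5.N5pp

theorem L02478 : Good (Phi V5.P V5.D 1 1) ⟨3, 6, 3, 2, 2, 2, 2, 2, 4, 3⟩ :=
  leafX_sound T5.ok_pp T5.Ypp.bz_eq (w := 205) (c := ⟨⟨.negSucc 2931, .negSucc 499, .negSucc 54, .negSucc 424, .negSucc 607, .ofNat 412⟩, ⟨.negSucc 1037, .negSucc 546, .negSucc 222, .negSucc 157, .negSucc 272, .ofNat 159⟩, ⟨.ofNat 2205, .ofNat 251, .ofNat 76, .negSucc 44, .ofNat 861, .negSucc 210⟩, ⟨.negSucc 4801, .negSucc 70, .negSucc 77, .negSucc 804, .negSucc 913, .ofNat 770⟩, ⟨.negSucc 217, .ofNat 96, .ofNat 63, .ofNat 278, .negSucc 91, .negSucc 309⟩, .ofNat 542, .negSucc 524, .ofNat 0, .negSucc 524, .ofNat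 1472, .ofNat 0, .ofNat 128, .ofNat 198, .negSucc 84, .ofNat 0, .ofNat 141, .negSucc 24, .ofNat 0, .ofNat 0, .ofNat 278, .ofNat 620, .ofNat 0, .ofNat 0, .ofNat 276281393750750462710059659717246976, .ofNat 0, .ofNat 0, .ofNat 0, .ofNat 8269516389567806478963157391523184640, .ofNat 0, .ofNat 0, .ofNat 0, .ofNat 22406299929080900711136324368501571584, .ofNat 0, .ofNat 0, .ofNat 0, .ofNat 4597064274390532056014127810253684736, .ofNat 0⟩)
    (by decide +kernel)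
theorem L02479 : Good (Phi V5.P V5.D 1 1) ⟨3, 7, 3, 2, 2, 2, 2, 2, 4, 3⟩ :=
  out_sound (S := T5.ds_pp) T5.ok_pp (w := 45) (j := 3) (by decide +kernel)
theorem L02480 : Good (Phi V5.P V5.D 1 1) ⟨3, 4, 3, 2, 2, 3, 2, 2, 3, 1⟩ :=
  out_sound (S := T5.ds_pp) T5.ok_pp (w := 45) (j := 3) (by decide +kernel)
theorem L02481 : Good (Phi V5.P V5.D 1 1) ⟨3, 5, 3, 2, 2, 3, 2, 2, 4, 2⟩ :=
  leafX_sound T5.ok_pp T5.Ypp.bz_eq (w := 205) (c := ⟨⟨.negSucc 3373, .negSucc 516, .negSucc 81, .ofNat 794, .negSucc 996, .ofNat 339⟩, ⟨.negSucc 1006, .negSucc 287, .negSucc 369, .ofNat 352, .negSucc 346, .ofNat 91⟩, ⟨.ofNat 2006, .ofNat 287, .ofNat 136, .negSucc 867, .ofNat 987, .ofNat 55⟩, ⟨.negSucc 6515, .negSucc 221, .negSucc 475, .ofNat 545, .negSucc 1896, .ofNat 876⟩, ⟨.ofNat 666, .ofNat 33, .ofNat 571, .ofNat 2134, .ofNat 650, .negSucc 780⟩, .ofNat 688, .negSucc 909, .ofNat 0, .negSucc 909, .ofNat 2902, .ofNat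 0, .ofNat 128, .ofNat 274, .negSucc 175, .ofNat 0, .ofNat 141, .negSucc 46, .ofNat 0, .ofNat 0, .ofNat 349, .ofNat 461, .ofNat 0, .ofNat 0, .ofNat 0, .ofNat 0, .ofNat 0, .ofNat 0, .ofNat 651964504951967594868778600857862144, .ofNat 0, .ofNat 0, .ofNat 0, .ofNat 0, .ofNat 0, .ofNat 0, .ofNat 0, .ofNat 4173870480368239231684921283017965568, .ofNat 0⟩)
    (by decide +kernel)
theorem L02482 : Good (Phi V5.P V5.D 1 1) ⟨3, 5, 3, 2, 2, 3, 2, 2, 4, 3⟩ :=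
  leafX_sound T5.ok_pp T5.Ypp.bz_eq (w := 204) (c := ⟨⟨.negSucc 2989, .negSucc 379, .negSucc 73, .ofNat 621, .negSucc 688, .ofNat 402⟩, ⟨.negSucc 875, .negSucc 281, .negSucc 302, .ofNat 290, .negSucc 245, .ofNat 127⟩, ⟨.ofNat 1801, .ofNat 369, .negSucc 143, .negSucc 487, .ofNat 745, .negSucc 49⟩, ⟨.negSucc 5589, .negSucc 85, .negSucc 255, .ofNat 208, .negSucc 1222, .ofNat 946⟩, ⟨.negSucc 25, .ofNat 172, .ofNat 122, .ofNat 2349, .ofNat 156, .negSucc 732⟩, .ofNat 534, .negSucc 540, .ofNat 0, .negSucc 540, .ofNat 1845, .ofNat 0, .ofNat 128, .ofNat 131, .negSucc 45, .ofNat 0, .ofNat 93, .negSucc 7, .ofNat 0, .ofNat 0, .ofNat 247, .ofNat 330, .ofNat 0, .ofNat 0, .ofNat 0, .ofNat 0, .ofNat 0, .ofNat 0, .ofNat 0, .ofNat 0, .ofNat 0, .ofNat 0, .ofNat 0, .ofNat 0, .ofNat 0, .ofNat 3638210856095259531496032374711545495552, .ofNat 5667243734404472931037139818157965312, .ofNat 0⟩)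
    (by decide +kernel)
theorem L02483 : Good (Phi V5.P V5.D 1 1) ⟨4, 12, 3, 2, 3, 6, 2, 2, 4, 2⟩ :=
  leafX_sound T5.ok_pp T5.Ypp.bz_eq (w := 223) (c := ⟨⟨.negSucc 4307, .negSucc 591, .ofNat 136, .ofNat 145, .negSucc 1149, .ofNat 971⟩, ⟨.negSucc 1502, .negSucc 347, .negSucc 269, .ofNat 131, .negSucc 484, .ofNat 345⟩, ⟨.ofNat 2555, .ofNat 323, .ofNat 0, .negSucc 274, .ofNat 1180, .negSucc 422⟩, ⟨.negSucc 7409, .negSucc 674, .ofNat 119, .negSucc 268, .negSucc 2050, .ofNat 2053⟩, ⟨.ofNat 880, .ofNat 366, .ofNat 50, .ofNat 1142, .ofNat 467, .negSucc 1206⟩, .ofNat 545, .negSucc 531, .ofNat 0, .negSucc 531, .ofNat 1474, .ofNat 0, .ofNat 128, .ofNat 152, .negSucc 151, .ofNat 0, .ofNat 100, .negSucc 42, .ofNat 0, .ofNat 0, .ofNat 264, .ofNat 370, .ofNat 0, .ofNat 0, .ofNat 1508869795647929481728626372439877615616, .ofNat 0, .ofNat 0, .ofNat 0, .ofNat 22977299785009938464409553776134085148672, .ofNat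 0, .ofNat 0, .ofNat 0, .ofNat 0, .ofNat 0, .ofNat 0, .ofNat 0, .ofNat 0, .ofNat 0⟩)
    (by decide +kernel)
theorem L02484 : Good (Phi V5.P V5.D 1 1) ⟨4, 12, 3, 2, 3, 7, 3, 4, 4, 2⟩ :=
  leafX_sound T5.ok_pp T5.Ypp.bz_eq (w := 227) (c := ⟨⟨.negSucc 3833, .negSucc 310, .ofNat 62, .ofNat 1068, .negSucc 734, .ofNat 489⟩, ⟨.negSucc 1272, .negSucc 132, .negSucc 337, .ofNat 607, .negSucc 312, .ofNat 141⟩, ⟨.ofNat 2039, .ofNat 191, .ofNat 25, .negSucc 698, .ofNat 598, .negSucc 33⟩, ⟨.negSucc 6923, .negSucc 313, .negSucc 221, .ofNat 931, .negSucc 1314, .ofNat 1215⟩, ⟨.ofNat 1664, .ofNat 300, .ofNat 397, .ofNat 1770, .ofNat 360, .negSucc 948⟩, .ofNat 540, .negSucc 522, .ofNat 0, .negSucc 522, .ofNat 1472, .ofNat 0, .ofNat 128, .ofNat 203, .negSucc 131, .ofNat 0, .ofNat 146, .negSucc 29, .ofNat 0, .ofNat 0, .ofNat 270, .ofNat 417, .ofNat 0, .ofNat 0, .ofNat 21660228745162569235701445554381229391872,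 .ofNat 0, .ofNat 0, .ofNat 0, .ofNat 0, .ofNat 0, .ofNat 0, .ofNat 0, .ofNat 0, .ofNat 0, .ofNat 0, .ofNat 0, .ofNat 0, .ofNat 0⟩)
    (by decide +kernel)
theorem L02485 : Good (Phi V5.P V5.D 1 1) ⟨4, 12, 3, 2, 3, 7, 3, 5, 4, 2⟩ :=
  leafX_sound T5.ok_pp T5.Ypp.bz_eq (w := 228) (c := ⟨⟨.negSucc 4745, .negSucc 446, .ofNat 58, .ofNat 1042, .negSucc 585, .ofNat 868⟩, ⟨.negSucc 1618, .negSucc 178, .negSucc 403, .ofNat 585, .negSucc 229, .ofNat 292⟩, ⟨.ofNat 2820, .ofNat 309, .negSucc 2, .negSucc 856, .ofNat 503, .negSucc 250⟩, ⟨.negSucc 8458, .negSucc 526, .negSucc 329, .ofNat 845, .negSucc 1127, .ofNat 1957⟩, ⟨.ofNat 1989, .ofNat 371, .ofNat 571, .ofNat 1973, .ofNat 373, .negSucc 1421⟩, .ofNat 539, .negSucc 520, .ofNat 0, .negSucc 520, .ofNat 1461, .ofNat 0, .ofNat 128, .ofNat 194, .negSucc 164, .ofNat 0, .ofNat 135, .negSucc 36, .ofNat 0, .ofNat 0, .ofNat 328, .ofNat 467, .ofNat 0, .ofNat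 0, .ofNat 40979542469220904455812628635324472360960, .ofNat 0, .ofNat 0, .ofNat 0, .ofNat 125500258102552263478080470892001735213056, .ofNat 0, .ofNat 0, .ofNat 0, .ofNat 0, .ofNat 0, .ofNat 0, .ofNat 0, .ofNat 0, .ofNat 0⟩)
    (by decide +kernel)
theorem L02486 : Good (Phi V5.P V5.D 1 1) ⟨5, 26, 3, 2, 3, 6, 2, 2, 4, 2⟩ :=
  leafX_sound T5.ok_pp T5.Ypp.bz_eq (w := 228) (c := ⟨⟨.negSucc 5274, .negSucc 473, .ofNat 448, .ofNat 154, .negSucc 1248, .ofNat 1173⟩, ⟨.negSucc 2004, .negSucc 209, .negSucc 175, .ofNat 161, .negSucc 566, .ofNat 458⟩, ⟨.ofNat 2949, .ofNat 215, .negSucc 41, .negSucc 246, .ofNat 1247, .negSucc 557⟩, ⟨.negSucc 8650, .negSucc 722, .ofNat 633, .negSucc 330, .negSucc 2033, .ofNat 2366⟩, ⟨.ofNat 1328, .ofNat 561, .negSucc 128, .ofNat 1220, .ofNat 239, .negSucc 1206⟩, .ofNat 1153, .negSucc 1628, .ofNat 0, .negSucc 1628, .ofNat 3499, .ofNat 0, .ofNat 128, .ofNat 238, .negSucc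 192, .ofNat 0, .ofNat 148, .negSucc 73, .ofNat 0, .ofNat 0, .ofNat 385, .ofNat 486, .ofNat 0, .ofNat 0, .ofNat 839616459742212697660520591572040941568, .ofNat 0, .ofNat 0, .ofNat 0, .ofNat 161997556785466035362159482505751355719680, .ofNat 0, .ofNat 0, .ofNat 0, .ofNat 22650485316538757040748420827915682316288, .ofNat 0, .ofNat 0, .ofNat 0, .ofNat 8214794563424645720592613837435180154880, .ofNat 0⟩)
    (by decide +kernel)
theorem L02487 : Good (Phi V5.P V5.D 1 1) ⟨5, 26, 3, 2, 3, 7, 2, 2, 4, 2⟩ :=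
  leafX_sound T5.ok_pp T5.Ypp.bz_eq (w := 228) (c := ⟨⟨.negSucc 4724, .negSucc 481, .ofNat 434, .ofNat 1176, .negSucc 1392, .ofNat 722⟩, ⟨.negSucc 1580, .negSucc 149, .negSucc 281, .ofNat 727, .negSucc 600, .ofNat 234⟩, ⟨.ofNat 2497, .ofNat 344, .negSucc 69, .negSucc 773, .ofNat 1152, .negSucc 215⟩, ⟨.negSucc 8021, .negSucc 857, .ofNat 293, .ofNat 767, .negSucc 2517, .ofNat 1782⟩, ⟨.ofNat 1973, .ofNat 605, .ofNat 383, .ofNat 2250, .ofNat 787, .negSucc 1435⟩, .ofNat 794, .negSucc 908, .ofNat 0, .negSucc 908, .ofNat 2031, .ofNat 0, .ofNat 128, .ofNat 193, .negSucc 161, .ofNat 0, .ofNat 146, .negSucc 42, .ofNat 0, .ofNat 0, .ofNat 319, .ofNat 606, .ofNat 0, .ofNat 0, .ofNat 906306064437443154751194424022860300288, .ofNat 0, .ofNat 0, .ofNat 0, .ofNat 29476576874772782062952986325640240168960, .ofNat 0, .ofNat 0, .ofNat 0, .ofNat 28436649823301440806844188171527920812032, .ofNat 0, .ofNat 0,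 .ofNat 0, .ofNat 7097452472023733024688425696424143880192, .ofNat 0⟩)
    (by decide +kernel)
theorem L02488 : Good (Phi V5.P V5.D 1 1) ⟨5, 27, 3, 2, 2, 3, 2, 2, 4, 2⟩ :=
  out_sound (S := T5.ds_pp) T5.ok_pp (w := 57) (j := 3) (by decide +kernel)
theorem L02489 : Good (Phi V5.P V5.D 1 1) ⟨4, 12, 3, 2, 2, 3, 2, 2, 4, 3⟩ :=
  leafX_sound T5.ok_pp T5.Ypp.bz_eq (w := 209) (c := ⟨⟨.negSucc 3647, .negSucc 229, .ofNat 18, .ofNat 749, .negSucc 711, .ofNat 614⟩, ⟨.negSucc 1332, .negSucc 157, .negSucc 274, .ofNat 453, .negSucc 305, .ofNat 236⟩, ⟨.ofNat 2296, .ofNat 91, .ofNat 33, .negSucc 612, .ofNat 807, .negSucc 202⟩, ⟨.negSucc 5910, .negSucc 83, .negSucc 95, .ofNat 131, .negSucc 1122, .ofNat 1234⟩, ⟨.negSucc 127, .ofNat 119, .ofNat 127, .ofNat 2485, .ofNat 8, .negSucc 571⟩, .ofNat 546, .negSucc 531, .ofNat 0, .negSucc 531, .ofNat 1467, .ofNat 0, .ofNat 128, .ofNat 167, .negSucc 61, .ofNat 0, .ofNat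 130, .negSucc 10, .ofNat 0, .ofNat 0, .ofNat 292, .ofNat 458, .ofNat 0, .ofNat 0, .ofNat 113141358256719752168820438420422656, .ofNat 0, .ofNat 0, .ofNat 47236336386511272242831474908915736510464, .ofNat 1616737169422316685435312714431856640, .ofNat 0, .ofNat 0, .ofNat 0, .ofNat 4896441899849717610382250700804456448, .ofNat 0, .ofNat 0, .ofNat 99580474680598526437412936848867539812352, .ofNat 0, .ofNat 0⟩)
    (by decide +kernel)
theorem L02490 : Good (Phi V5.P V5.D 1 1) ⟨4, 13, 3, 2, 3, 6, 2, 2, 4, 3⟩ :=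
  leafX_sound T5.ok_pp T5.Ypp.bz_eq (w := 224) (c := ⟨⟨.negSucc 3982, .negSucc 257, .ofNat 126, .ofNat 233, .negSucc 788, .ofNat 702⟩, ⟨.negSucc 1589, .negSucc 250, .negSucc 184, .ofNat 164, .negSucc 382, .ofNat 276⟩, ⟨.ofNat 2444, .ofNat 316, .ofNat 13, .negSucc 265, .ofNat 890, .negSucc 346⟩, ⟨.negSucc 6300, .negSucc 10, .ofNat 161, .ofNat 9, .negSucc 1121, .ofNat 1392⟩, ⟨.ofNat 366, .ofNat 10, .ofNat 37, .ofNat 749, .negSucc 194, .negSucc 670⟩, .ofNat 1025, .negSucc 1385, .ofNat 0, .negSucc 1385, .ofNat 3016, .ofNat 0, .ofNat 128, .ofNat 197, .negSucc 83, .ofNat 0, .ofNat 132, .negSucc 27, .ofNat 0, .ofNat 0, .ofNat 365, .ofNat 1342, .ofNat 0, .ofNat 0, .ofNat 2334183875689750473146926262857758670848, .ofNat 0, .ofNat 0, .ofNat 0, .ofNat 787899157403249670155638005496154823852032, .ofNat 0, .ofNat 0, .ofNat 0, .ofNat 253555127653919322400450287624353283571712, .ofNat 0, .ofNat 0, .ofNat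 0, .ofNat 304316929567567258234096564839480834392064, .ofNat 0⟩)
    (by decide +kernel)
theorem L02491 : Good (Phi V5.P V5.D 1 1) ⟨4, 13, 3, 2, 3, 7, 2, 2, 4, 3⟩ :=
  leafX_sound T5.ok_pp T5.Ypp.bz_eq (w := 224) (c := ⟨⟨.negSucc 3824, .negSucc 183, .ofNat 337, .ofNat 687, .negSucc 901, .ofNat 487⟩, ⟨.negSucc 1419, .negSucc 47, .negSucc 136, .ofNat 489, .negSucc 409, .ofNat 148⟩, ⟨.ofNat 2155, .negSucc 299, .negSucc 32, .negSucc 326, .ofNat 779, .negSucc 130⟩, ⟨.negSucc 6050, .negSucc 31, .ofNat 100, .negSucc 20, .negSucc 1460, .ofNat 1249⟩, ⟨.ofNat 586, .ofNat 117, .ofNat 620, .ofNat 2307, .ofNat 158, .negSucc 1065⟩, .ofNat 1152, .negSucc 1624, .ofNat 0, .negSucc 1624, .ofNat 3482, .ofNat 0, .ofNat 128, .ofNat 191, .negSucc 56, .ofNat 0, .ofNat 138, .negSucc 10, .ofNat 0, .ofNat 0, .ofNat 405, .ofNat 893, .ofNat 0, .ofNat 0, .ofNat 3975316977662203348362130079122479644672, .ofNat 0, .ofNat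 0, .ofNat 0, .ofNat 569429967941749191804163869082080046481408, .ofNat 0, .ofNat 0, .ofNat 187804399069512781467326263195473406500798464, .ofNat 510158322739734437778320364852216562974720, .ofNat 0, .ofNat 0, .ofNat 955777602265364977810934433821486204818817024, .ofNat 114774326264949736528353730257716275838976, .ofNat 0⟩)
    (by decide +kernel)
theorem L02492 : Good (Phi V5.P V5.D 1 1) ⟨3, 7, 3, 2, 2, 3, 2, 2, 3, 1⟩ :=
  out_sound (S := T5.ds_pp) T5.ok_pp (w := 45) (j := 3) (by decide +kernel)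
theorem L02493 : Good (Phi V5.P V5.D 1 1) ⟨3, 4, 3, 2, 1, 1, 2, 3, 3, 1⟩ :=
  out_sound (S := T5.ds_pp) T5.ok_pp (w := 45) (j := 3) (by decide +kernel)
theorem L02494 : Good (Phi V5.P V5.D 1 1) ⟨4, 10, 3, 2, 1, 1, 2, 3, 3, 1⟩ :=
  out_sound (S := T5.ds_pp) T5.ok_pp (w := 51) (j := 3) (by decide +kernel)
theorem L02495 : Good (Phi V5.P V5.D 1 1) ⟨4, 11, 3, 2, 2, 2, 2, 3, 4, 2⟩ :=
  leafX_sound T5.ok_pp T5.Ypp.bz_eq (w := 208) (c := ⟨⟨.negSucc 2833, .negSucc 577, .ofNat 94, .negSucc 1118, .negSucc 1665, .ofNat 276⟩, ⟨.negSucc 847, .negSucc 357, .negSucc 276, .negSucc 365, .negSucc 579, .ofNat 79⟩, ⟨.ofNat 2509, .ofNat 419, .negSucc 71, .ofNat 524, .ofNat 1719, .negSucc 230⟩, ⟨.negSucc 5016, .negSucc 543, .ofNat 56, .negSucc 2247, .negSucc 3002, .ofNat 690⟩, ⟨.negSucc 196, .negSucc 35, .ofNat 487, .ofNat 857, .ofNat 321, .negSucc 686⟩, .ofNat 535, .negSucc 542, .ofNat 0, .negSucc 542, .ofNat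 1855, .ofNat 0, .ofNat 128, .ofNat 166, .negSucc 223, .ofNat 0, .ofNat 98, .negSucc 58, .ofNat 0, .ofNat 0, .ofNat 382, .ofNat 121, .ofNat 0, .ofNat 0, .ofNat 0, .ofNat 0, .ofNat 0, .ofNat 70416673275245632699151373256594498256896, .ofNat 0, .ofNat 0, .ofNat 0, .ofNat 97725743785625245214471556581363839664128, .ofNat 491420968232546780914272999753908224, .ofNat 0, .ofNat 0, .ofNat 166913481312634133070059940108668281815040, .ofNat 740685192804519685734166393172000768, .ofNat 0⟩)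
    (by decide +kernel)
theorem L02496 : Good (Phi V5.P V5.D 1 1) ⟨4, 11, 3, 2, 3, 6, 2, 3, 4, 2⟩ :=
  leafX_sound T5.ok_pp T5.Ypp.bz_eq (w := 223) (c := ⟨⟨.negSucc 4539, .negSucc 671, .ofNat 144, .negSucc 44, .negSucc 1021, .ofNat 1032⟩, ⟨.negSucc 1399, .negSucc 359, .negSucc 362, .ofNat 22, .negSucc 328, .ofNat 315⟩, ⟨.ofNat 3368, .ofNat 315, .ofNat 93, .negSucc 261, .ofNat 1433, .negSucc 529⟩, ⟨.negSucc 8320, .negSucc 708, .negSucc 71, .negSucc 518, .negSucc 2236, .ofNat 2178⟩, ⟨.ofNat 804, .ofNat 173, .ofNat 474, .ofNat 1257, .ofNat 1317, .negSucc 1221⟩, .ofNat 533, .negSucc 537, .ofNat 0, .negSucc 537, .ofNat 1853, .ofNat 0, .ofNat 128, .ofNat 143, .negSucc 172, .ofNat 0, .ofNat 84, .negSucc 38, .ofNat 0, .ofNat 0, .ofNat 324, .ofNat 189, .ofNat 0, .ofNat 0, .ofNat 0, .ofNat 0, .ofNat 0, .ofNat 0, .ofNat 0, .ofNat 0, .ofNat 0, .ofNat 174767901423248032019572507741626718035640320, .ofNat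 9100298478856962246598106672199198834688, .ofNat 0, .ofNat 0, .ofNat 544012442029453631018293557838401301116878848, .ofNat 15301736114991191856936993564963058483200, .ofNat 0⟩)
    (by decide +kernel)
theorem L02497 : Good (Phi V5.P V5.D 1 1) ⟨4, 11, 3, 2, 3, 7, 2, 3, 4, 2⟩ :=
  leafX_sound T5.ok_pp T5.Ypp.bz_eq (w := 223) (c := ⟨⟨.negSucc 4509, .negSucc 492, .ofNat 111, .ofNat 506, .negSucc 1097, .ofNat 827⟩, ⟨.negSucc 1415, .negSucc 217, .negSucc 396, .ofNat 241, .negSucc 342, .ofNat 258⟩, ⟨.ofNat 3081, .ofNat 201, .ofNat 34, .negSucc 822, .ofNat 1049, .negSucc 219⟩, ⟨.negSucc 8569, .negSucc 591, .negSucc 212, .ofNat 168, .negSucc 2377, .ofNat 1825⟩, ⟨.ofNat 1934, .ofNat 311, .ofNat 581, .ofNat 2021, .ofNat 1338, .negSucc 1174⟩, .ofNat 532, .negSucc 535, .ofNat 0, .negSucc 535, .ofNat 1844, .ofNat 0, .ofNat 128, .ofNat 155, .negSucc 146, .ofNat 0, .ofNat 97, .negSucc 24, .ofNat 0, .ofNat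 0, .ofNat 359, .ofNat 199, .ofNat 0, .ofNat 18213628948123082589668954172965955752165376, .ofNat 0, .ofNat 0, .ofNat 0, .ofNat 176129381112977486815841684187246976879820800, .ofNat 0, .ofNat 0, .ofNat 0, .ofNat 135634335819026562819482422593205923634741248, .ofNat 17968344577189002318140504171956427292672, .ofNat 0, .ofNat 0, .ofNat 668040985797955161233098511675029227214733312, .ofNat 44862586948658380608982467465524128251904, .ofNat 0⟩)
    (by decide +kernel)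
theorem L02498 : Good (Phi V5.P V5.D 1 1) ⟨4, 11, 3, 2, 2, 2, 2, 3, 4, 3⟩ :=
  leafX_sound T5.ok_pp T5.Ypp.bz_eq (w := 208) (c := ⟨⟨.negSucc 2882, .negSucc 504, .ofNat 66, .negSucc 576, .negSucc 1036, .ofNat 342⟩, ⟨.negSucc 867, .negSucc 356, .negSucc 198, .negSucc 191, .negSucc 373, .ofNat 109⟩, ⟨.ofNat 2638, .ofNat 284, .negSucc 71, .ofNat 227, .ofNat 959, .negSucc 270⟩, ⟨.negSucc 5075, .negSucc 402, .ofNat 185, .negSucc 1075, .negSucc 1655, .ofNat 676⟩, ⟨.negSucc 391, .ofNat 22, .negSucc 107, .ofNat 202, .negSucc 355, .negSucc 281⟩, .ofNat 537, .negSucc 547, .ofNat 0, .negSucc 547, .ofNat 1855, .ofNat 0, .ofNat 128, .ofNat 144, .negSucc 90, .ofNat 0, .ofNat 90, .negSucc 23, .ofNat 0, .ofNat 0, .ofNat 284, .ofNat 243, .ofNat 0, .ofNat 0, .ofNat 0, .ofNat 0, .ofNat 0, .ofNat 223991204483311667601014679144306965479424, .ofNat 0, .ofNat 0, .ofNat 0, .ofNat 278817374207596291954944352763081119498240,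 .ofNat 644981652039503189707103020286738432, .ofNat 0, .ofNat 0, .ofNat 118875857701399249934367091506710717661184, .ofNat 0, .ofNat 0⟩)
    (by decide +kernel)
theorem L02499 : Good (Phi V5.P V5.D 1 1) ⟨4, 11, 3, 2, 2, 3, 2, 3, 4, 3⟩ :=
  leafX_sound T5.ok_pp T5.Ypp.bz_eq (w := 209) (c := ⟨⟨.negSucc 3763, .negSucc 422, .ofNat 34, .ofNat 316, .negSucc 641, .ofNat 727⟩, ⟨.negSucc 1180, .negSucc 257, .negSucc 292, .ofNat 163, .negSucc 224, .ofNat 227⟩, ⟨.ofNat 2984, .ofNat 207, .ofNat 53, .negSucc 681, .ofNat 915, .negSucc 368⟩, ⟨.negSucc 6721, .negSucc 255, .ofNat 15, .negSucc 251, .negSucc 1202, .ofNat 1484⟩, ⟨.ofNat 39, .negSucc 180, .ofNat 152, .ofNat 2423, .ofNat 372, .negSucc 662⟩, .ofNat 535, .negSucc 544, .ofNat 0, .negSucc 544, .ofNat 1865, .ofNat 0, .ofNat 128, .ofNat 167, .negSucc 66, .ofNat 0, .ofNat 109, .negSucc 11, .ofNat 0, .ofNat 0, .ofNat 294, .ofNat 386, .ofNat 0, .ofNat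 13744141507838770982722582648535245651968, .ofNat 0, .ofNat 0, .ofNat 0, .ofNat 198106658629465342451235897093205249753088, .ofNat 0, .ofNat 0, .ofNat 0, .ofNat 114724134617584594186308980224193023967232, .ofNat 0, .ofNat 0, .ofNat 0, .ofNat 225345329709229311902409456231302391922688, .ofNat 568275336113327583870495961907200000, .ofNat 0⟩)
    (by decide +kernel)
theorem L02500 : Good (Phi V5.P V5.D 1 1) ⟨4, 12, 3, 2, 2, 2, 3, 6, 4, 2⟩ :=
  leafX_sound T5.ok_pp T5.Ypp.bz_eq (w := 213) (c := ⟨⟨.negSucc 3686, .negSucc 1074, .ofNat 535, .negSucc 1348, .negSucc 802, .ofNat 682⟩, ⟨.negSucc 1241, .negSucc 646, .negSucc 92, .negSucc 540, .negSucc 343, .ofNat 251⟩, ⟨.ofNat 3124, .ofNat 723, .negSucc 321, .ofNat 518, .ofNat 811, .negSucc 459⟩, ⟨.negSucc 6061, .negSucc 1290, .ofNat 833, .negSucc 2607, .negSucc 1355, .ofNat 1412⟩, ⟨.negSucc 236, .ofNat 342, .negSucc 56, .ofNat 1016, .ofNat 197, .negSucc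 753⟩, .ofNat 544, .negSucc 528, .ofNat 0, .negSucc 528, .ofNat 1459, .ofNat 0, .ofNat 128, .ofNat 144, .negSucc 164, .ofNat 0, .ofNat 96, .negSucc 52, .ofNat 0, .ofNat 0, .ofNat 284, .ofNat 261, .ofNat 0, .ofNat 0, .ofNat 0, .ofNat 0, .ofNat 0, .ofNat 0, .ofNat 14057230669311144840783334746189987840, .ofNat 0, .ofNat 0, .ofNat 0, .ofNat 22835156393104057127727601866183278592, .ofNat 0, .ofNat 0, .ofNat 0, .ofNat 19753667908420071826374582323124371456, .ofNat 0⟩)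
    (by decide +kernel)
theorem L02501 : Good (Phi V5.P V5.D 1 1) ⟨4, 12, 3, 2, 2, 2, 3, 7, 4, 2⟩ :=
  leafX_sound T5.ok_pp T5.Ypp.bz_eq (w := 213) (c := ⟨⟨.negSucc 4595, .negSucc 1030, .ofNat 38, .negSucc 1116, .negSucc 1904, .ofNat 1028⟩, ⟨.negSucc 1587, .negSucc 677, .negSucc 363, .negSucc 387, .negSucc 787, .ofNat 372⟩, ⟨.ofNat 4137, .ofNat 597, .ofNat 3, .ofNat 385, .ofNat 1486, .negSucc 814⟩, ⟨.negSucc 7437, .negSucc 1107, .negSucc 28, .negSucc 2523, .negSucc 3237, .ofNat 2122⟩, ⟨.negSucc 500, .ofNat 242, .ofNat 244, .ofNat 1639, .ofNat 375, .negSucc 1160⟩, .ofNat 538, .negSucc 519, .ofNat 0, .negSucc 519, .ofNat 1475, .ofNat 0, .ofNat 128, .ofNat 167, .negSucc 236, .ofNat 0, .ofNat 110, .negSucc 72, .ofNat 0, .ofNat 0, .ofNat 361, .ofNat 96, .ofNat 0, .ofNat 46858117770244049289529643726757727043584, .ofNat 882388775776836736351730627386540032, .ofNat 0, .ofNat 0, .ofNat 312405494537664656650321424784709325422592,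 .ofNat 9196196017759479472225307950242070528, .ofNat 0, .ofNat 0, .ofNat 598936442474770600428947661543135005114368, .ofNat 970038636571116572884138109565927424, .ofNat 0, .ofNat 0, .ofNat 836826658136964500057822106517215616434176, .ofNat 12952682798330394074435161816173641728, .ofNat 0⟩)
    (by decide +kernel)
theorem L02502 : Good (Phi V5.P V5.D 1 1) ⟨4, 12, 3, 2, 2, 3, 3, 6, 4, 2⟩ :=
  leafX_sound T5.ok_pp T5.Ypp.bz_eq (w := 214) (c := ⟨⟨.negSucc 5911, .negSucc 498, .ofNat 137, .ofNat 1243, .negSucc 463, .ofNat 1206⟩, ⟨.negSucc 2206, .negSucc 172, .negSucc 414, .ofNat 797, .negSucc 148, .ofNat 458⟩, ⟨.ofNat 4144, .ofNat 315, .ofNat 19, .negSucc 1594, .ofNat 496, .negSucc 428⟩, ⟨.negSucc 9754, .negSucc 643, .negSucc 233, .ofNat 307, .negSucc 893, .ofNat 2574⟩, ⟨.ofNat 755, .ofNat 436, .ofNat 607, .ofNat 3795, .ofNat 421, .negSucc 1635⟩, .ofNat 670, .negSucc 769, .ofNat 0, .negSucc 769,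 .ofNat 2014, .ofNat 0, .ofNat 128, .ofNat 240, .negSucc 179, .ofNat 0, .ofNat 152, .negSucc 49, .ofNat 0, .ofNat 0, .ofNat 375, .ofNat 299, .ofNat 0, .ofNat 5345518287395532489268563816644396187648, .ofNat 2027636600999856177800360854185574400, .ofNat 0, .ofNat 0, .ofNat 87784753093732707201570991465039199731712, .ofNat 18539458096064716028133184304268181504, .ofNat 0, .ofNat 0, .ofNat 0, .ofNat 0, .ofNat 0, .ofNat 0, .ofNat 0, .ofNat 0, .ofNat 0⟩)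
    (by decide +kernel)
theorem L02503 : Good (Phi V5.P V5.D 1 1) ⟨4, 12, 3, 2, 3, 6, 3, 7, 4, 2⟩ :=
  leafX_sound T5.ok_pp T5.Ypp.bz_eq (w := 228) (c := ⟨⟨.negSucc 6479, .negSucc 920, .ofNat 201, .ofNat 364, .negSucc 924, .ofNat 1870⟩, ⟨.negSucc 2236, .negSucc 538, .negSucc 408, .ofNat 271, .negSucc 255, .ofNat 652⟩, ⟨.ofNat 4897, .ofNat 466, .ofNat 59, .negSucc 529, .ofNat 1048, .negSucc 1191⟩, ⟨.negSucc 11182, .negSucc 986, .negSucc 88, .negSucc 102, .negSucc 1882, .ofNat 3673⟩, ⟨.ofNat 1478, .ofNat 205, .ofNat 722, .ofNat 1616, .ofNat 994, .negSucc 1784⟩, .ofNat 800, .negSucc 1039, .ofNat 0, .negSucc 1039, .ofNat 2649, .ofNat 0, .ofNat 128, .ofNat 230, .negSucc 159, .ofNat 0, .ofNat 138, .negSucc 46, .ofNat 0, .ofNat 0, .ofNat 294, .ofNat 292, .ofNat 0, .ofNat 0, .ofNat 0, .ofNat 0, .ofNat 0, .ofNat 1471601327703923588047323804061255571823656960, .ofNat 842560823631872226194207082276458577526784,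 .ofNat 0, .ofNat 0, .ofNat 3077473911713733531597250583139961376860012544, .ofNat 300948383985370468219173737431842504572928, .ofNat 0, .ofNat 0, .ofNat 2686396377681394524827044325117395851848712192, .ofNat 270019820626454332841347010097068745162752, .ofNat 0⟩)
    (by decide +kernel)
theorem L02504 : Good (Phi V5.P V5.D 1 1) ⟨4, 12, 3, 2, 3, 7, 3, 7, 4, 2⟩ :=
  leafX_sound T5.ok_pp T5.Ypp.bz_eq (w := 228) (c := ⟨⟨.negSucc 6151, .negSucc 689, .ofNat 146, .ofNat 906, .negSucc 595, .ofNat 1667⟩, ⟨.negSucc 2083, .negSucc 156, .negSucc 561, .ofNat 520, .negSucc 121, .ofNat 601⟩, ⟨.ofNat 4431, .ofNat 411, .ofNat 0, .negSucc 1398, .ofNat 483, .negSucc 844⟩, ⟨.negSucc 11206, .negSucc 916, .negSucc 470, .ofNat 666, .negSucc 1359, .ofNat 3604⟩, ⟨.ofNat 3211, .ofNat 503, .ofNat 961, .ofNat 1834, .ofNat 822, .negSucc 2237⟩, .ofNat 536, .negSucc 514, .ofNat 0, .negSucc 514, .ofNat 1451, .ofNat 0, .ofNat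 128, .ofNat 190, .negSucc 109, .ofNat 0, .ofNat 132, .negSucc 10, .ofNat 0, .ofNat 0, .ofNat 294, .ofNat 229, .ofNat 0, .ofNat 156743076283297281318358874164393301893971968, .ofNat 22648539242273839710850768822485762703360, .ofNat 0, .ofNat 0, .ofNat 1393847334619224518557526232266937054177263616, .ofNat 0, .ofNat 0, .ofNat 0, .ofNat 2133201218789476387258458487526957630548344832, .ofNat 44702832420114857003608847988106096279552, .ofNat 0, .ofNat 0, .ofNat 3420040939524245503551379708388851890064982016, .ofNat 279440801316539173652332968218723746840576, .ofNat 0⟩)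
    (by decide +kernel)
theorem L02505 : Good (Phi V5.P V5.D 1 1) ⟨5, 26, 4, 4, 2, 2, 2, 3, 4, 2⟩ :=
  out_sound (S := T5.ds_pp) T5.ok_pp (w := 59) (j := 3) (by decide +kernel)
theorem L02506 : Good (Phi V5.P V5.D 1 1) ⟨5, 26, 4, 5, 2, 2, 3, 6, 4, 2⟩ :=
  leafX_sound T5.ok_pp T5.Ypp.bz_eq (w := 221) (c := ⟨⟨.negSucc 3722, .negSucc 540, .negSucc 580, .negSucc 1549, .negSucc 903, .ofNat 819⟩, ⟨.negSucc 1584, .negSucc 376, .negSucc 425, .negSucc 647, .negSucc 421, .ofNat 323⟩, ⟨.ofNat 3162, .ofNat 302, .ofNat 426, .ofNat 633, .ofNat 843, .negSucc 556⟩, ⟨.negSucc 5776, .negSucc 522, .negSucc 896, .negSucc 2860, .negSucc 1390, .ofNat 1643⟩, ⟨.ofNat 46, .negSucc 11, .ofNat 1, .ofNat 1025, .ofNat 0, .negSucc 816⟩, .ofNat 1141, .negSucc 1603, .ofNat 0, .negSucc 1603, .ofNat 3443, .ofNat 0, .ofNat 128, .ofNat 207, .negSucc 204, .ofNat 0, .ofNat 129, .negSucc 84, .ofNat 0, .ofNat 0, .ofNat 356, .ofNat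 399, .ofNat 0, .ofNat 0, .ofNat 0, .ofNat 0, .ofNat 0, .ofNat 0, .ofNat 166998218873337620380313623329884864512, .ofNat 0, .ofNat 0, .ofNat 0, .ofNat 125962318732648622269536517074527977472, .ofNat 0, .ofNat 0, .ofNat 0, .ofNat 19675850626922950748119869509683118080, .ofNat 0⟩)
    (by decide +kernel)
theorem L02507 : Good (Phi V5.P V5.D 1 1) ⟨5, 26, 4, 5, 2, 2, 3, 7, 4, 2⟩ :=
  leafX_sound T5.ok_pp T5.Ypp.bz_eq (w := 222) (c := ⟨⟨.negSucc 5222, .negSucc 1087, .negSucc 165, .negSucc 1271, .negSucc 2535, .ofNat 1234⟩, ⟨.negSucc 2278, .negSucc 697, .negSucc 227, .negSucc 494, .negSucc 1165, .ofNat 487⟩, ⟨.ofNat 4482, .ofNat 670, .ofNat 192, .ofNat 456, .ofNat 1862, .negSucc 1028⟩, ⟨.negSucc 7925, .negSucc 1016, .negSucc 512, .negSucc 2578, .negSucc 3991, .ofNat 2483⟩, ⟨.negSucc 293, .negSucc 607, .ofNat 532, .ofNat 1338, .ofNat 195, .negSucc 1252⟩, .ofNat 1150, .negSucc 1619, .ofNat 0, .negSucc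 1619, .ofNat 3473, .ofNat 0, .ofNat 128, .ofNat 353, .negSucc 327, .ofNat 0, .ofNat 222, .negSucc 134, .ofNat 0, .ofNat 0, .ofNat 527, .ofNat 185, .ofNat 0, .ofNat 12949856837073107027169835121720755513982976, .ofNat 1457425805642556810081408456444608512, .ofNat 0, .ofNat 0, .ofNat 64024526640272309827043722767700074055073792, .ofNat 135512392707040257061736217681892212736, .ofNat 0, .ofNat 0, .ofNat 298327023623088795236916637753769058317107200, .ofNat 145259175720723560427732640636040380416, .ofNat 0, .ofNat 0, .ofNat 310414691928974080050844845732510611110100992, .ofNat 16721785664580336844523482078047633408, .ofNat 0⟩)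
    (by decide +kernel)
theorem L02508 : Good (Phi V5.P V5.D 1 1) ⟨5, 27, 3, 2, 2, 2, 2, 3, 4, 2⟩ :=
  out_sound (S := T5.ds_pp) T5.ok_pp (w := 57) (j := 3) (by decide +kernel)
theorem L02509 : Good (Phi V5.P V5.D 1 1) ⟨5, 26, 3, 2, 2, 3, 3, 6, 4, 2⟩ :=
  leafX_sound T5.ok_pp T5.Ypp.bz_eq (w := 218) (c := ⟨⟨.negSucc 6112, .ofNat 193, .negSucc 479, .ofNat 1530, .negSucc 572, .ofNat 1274⟩, ⟨.negSucc 2242, .ofNat 190, .negSucc 787, .ofNat 1058, .negSucc 220, .ofNat 469⟩, ⟨.ofNat 4203, .ofNat 78, .ofNat 426, .negSucc 1662, .ofNat 521, .negSucc 546⟩, ⟨.negSucc 9538, .negSucc 6, .negSucc 1187, .ofNat 188, .negSucc 1151, .ofNat 2827⟩, ⟨.ofNat 799, .ofNat 998, .ofNat 387, .ofNat 4640, .ofNat 585, .negSucc 1847⟩, .ofNat 798, .negSucc 915, .ofNat 0, .negSucc 915, .ofNat 2045, .ofNat 0, .ofNat 128, .ofNat 260, .negSucc 273, .ofNat 0, .ofNat 187, .negSucc 73, .ofNat 0, .ofNat 0, .ofNat 515, .ofNat 314,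 .ofNat 0, .ofNat 53861349689123592534091101541226334126080, .ofNat 1951414685247499096252577232703193088, .ofNat 0, .ofNat 0, .ofNat 3858032667879934086395659307168155362656256, .ofNat 19758102988247048329681961697257979904, .ofNat 0, .ofNat 0, .ofNat 0, .ofNat 34493177337783538787727779431415021568, .ofNat 0, .ofNat 0, .ofNat 0, .ofNat 0, .ofNat 0⟩)
    (by decide +kernel)
theorem L02510 : Good (Phi V5.P V5.D 1 1) ⟨5, 26, 3, 2, 3, 6, 3, 7, 4, 2⟩ :=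
  leafX_sound T5.ok_pp T5.Ypp.bz_eq (w := 233) (c := ⟨⟨.negSucc 7848, .negSucc 608, .ofNat 426, .ofNat 490, .negSucc 873, .ofNat 2214⟩, ⟨.negSucc 3002, .negSucc 354, .negSucc 316, .ofNat 377, .negSucc 312, .ofNat 866⟩, ⟨.ofNat 5678, .ofNat 298, .negSucc 126, .negSucc 553, .ofNat 1056, .negSucc 1461⟩, ⟨.negSucc 12813, .negSucc 795, .ofNat 285, .negSucc 199, .negSucc 1976, .ofNat 4549⟩, ⟨.ofNat 1784, .ofNat 305, .ofNat 500, .ofNat 2034, .ofNat 1341, .negSucc 2406⟩, .ofNat 705, .negSucc 793, .ofNat 0, .negSucc 793, .ofNat 1842, .ofNat 0, .ofNat 128, .ofNat 215, .negSucc 228, .ofNat 0, .ofNat 142, .negSucc 73, .ofNat 0, .ofNat 0, .ofNat 373, .ofNat 552, .ofNat 0, .ofNat 0, .ofNat 0, .ofNat 0, .ofNat 0, .ofNat 43784173786170281442781889420544553604700176384, .ofNat 1195637517702502944539471443888568748998656, .ofNat 0, .ofNat 0, .ofNat 59198459274360933931921500237403962101169389568, .ofNat 337567619497373330937658896544032243056640,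 .ofNat 0, .ofNat 0, .ofNat 80879100194830717394804063201166102757032067072, .ofNat 379886044373108716146072941924572693790720, .ofNat 0⟩)
    (by decide +kernel)
theorem L02511 : Good (Phi V5.P V5.D 1 1) ⟨5, 26, 3, 2, 3, 7, 3, 7, 4, 2⟩ :=
  leafX_sound T5.ok_pp T5.Ypp.bz_eq (w := 233) (c := ⟨⟨.negSucc 6855, .negSucc 861, .ofNat 66, .ofNat 1101, .negSucc 1117, .ofNat 1706⟩, ⟨.negSucc 2233, .negSucc 256, .negSucc 653, .ofNat 679, .negSucc 429, .ofNat 601⟩, ⟨.ofNat 4819, .ofNat 644, .ofNat 87, .negSucc 1499, .ofNat 929, .negSucc 889⟩, ⟨.negSucc 11783, .negSucc 1373, .negSucc 817, .ofNat 659, .negSucc 2257, .ofNat 3907⟩, ⟨.ofNat 3336, .ofNat 541, .ofNat 1198, .ofNat 2222, .ofNat 1146, .negSucc 2757⟩, .ofNat 747, .negSucc 825, .ofNat 0, .negSucc 825, .ofNat 1871, .ofNat 0, .ofNat 128, .ofNat 277, .negSucc 146, .ofNat 0, .ofNat 206, .negSucc 9, .ofNat 0, .ofNat 0, .ofNat 442, .ofNat 310, .ofNat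 0, .ofNat 4259779536082887051012352534357439209472524288, .ofNat 48276214086680955201170121706907847622656, .ofNat 0, .ofNat 0, .ofNat 27172389408219241337024978731861748336153329664, .ofNat 199664717726595590712182579544229784059904, .ofNat 0, .ofNat 0, .ofNat 20504947595591124536746465930419538137578471424, .ofNat 419188803553846195126353781029254494945280, .ofNat 0, .ofNat 0, .ofNat 0, .ofNat 1220131183973854813087471248327685626134528, .ofNat 0⟩)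
    (by decide +kernel)
theorem L02512 : Good (Phi V5.P V5.D 1 1) ⟨5, 27, 3, 2, 2, 3, 2, 3, 4, 2⟩ :=
  out_sound (S := T5.ds_pp) T5.ok_pp (w := 57) (j := 3) (by decide +kernel)
theorem L02513 : Good (Phi V5.P V5.D 1 1) ⟨4, 12, 3, 2, 2, 2, 2, 3, 4, 3⟩ :=
  leafX_sound T5.ok_pp T5.Ypp.bz_eq (w := 208) (c := ⟨⟨.negSucc 3433, .negSucc 463, .ofNat 0, .negSucc 537, .negSucc 1370, .ofNat 504⟩, ⟨.negSucc 1206, .negSucc 413, .negSucc 228, .negSucc 210, .negSucc 608, .ofNat 187⟩, ⟨.ofNat 3041, .ofNat 252, .ofNat 30, .ofNat 87, .ofNat 1135, .negSucc 431⟩, ⟨.negSucc 5594, .negSucc 241, .ofNat 9, .negSucc 985, .negSucc 2013, .ofNat 974⟩, ⟨.negSucc 407, .negSucc 37, .ofNat 89, .ofNat 269, .negSucc 401, .negSucc 412⟩, .ofNat 545, .negSucc 531, .ofNat 0, .negSucc 531, .ofNat 1484, .ofNat 0, .ofNat 128, .ofNat 133, .negSucc 69, .ofNat 0, .ofNat 94, .negSucc 20, .ofNat 0, .ofNat 0, .ofNat 213, .ofNat 148,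 .ofNat 0, .ofNat 7504345570539635928619794898098508005376, .ofNat 98642758898703279089124935190183936, .ofNat 0, .ofNat 0, .ofNat 211010789328080752701576669096596903821312, .ofNat 599346071331813366689563796861616128, .ofNat 0, .ofNat 0, .ofNat 190475763648285508062938829272590401404928, .ofNat 68144219857439502627407029661073408, .ofNat 0, .ofNat 0, .ofNat 81723687801305859128776237160369148133376, .ofNat 0, .ofNat 0⟩)
    (by decide +kernel)
theorem L02514 : Good (Phi V5.P V5.D 1 1) ⟨4, 12, 3, 2, 3, 6, 2, 3, 4, 3⟩ :=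
  leafX_sound T5.ok_pp T5.Ypp.bz_eq (w := 223) (c := ⟨⟨.negSucc 4315, .negSucc 423, .ofNat 26, .ofNat 209, .negSucc 834, .ofNat 914⟩, ⟨.negSucc 1539, .negSucc 354, .negSucc 274, .ofNat 145, .negSucc 343, .ofNat 335⟩, ⟨.ofNat 3269, .ofNat 142, .ofNat 78, .negSucc 334, .ofNat 1049, .negSucc 549⟩, ⟨.negSucc 7138, .negSucc 213, .negSucc 63, .negSucc 68, .negSucc 1406, .ofNat 1771⟩, ⟨.ofNat 67, .negSucc 29, .ofNat 220, .ofNat 938, .ofNat 148, .negSucc 799⟩, .ofNat 538, .negSucc 517, .ofNat 0, .negSucc 517, .ofNat 1454, .ofNat 0, .ofNat 128, .ofNat 132, .negSucc 49, .ofNat 0, .ofNat 97, .negSucc 9, .ofNat 0, .ofNat 0, .ofNat 206, .ofNat 369, .ofNat 0, .ofNat 0, .ofNat 0, .ofNat 0, .ofNat 0, .ofNat 554495329432153804288004988957571275840028672, .ofNat 12143492930148464770862647783719297875968, .ofNat 0, .ofNat 0, .ofNat 514874333877573377666061912389654327462985728, .ofNat 33070030460610648290245265765512196915200,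 .ofNat 0, .ofNat 0, .ofNat 440013193864963924937975466884184679334805504, .ofNat 7395111948987579067481368461089450229760, .ofNat 0⟩)
    (by decide +kernel)
theorem L02515 : Good (Phi V5.P V5.D 1 1) ⟨4, 12, 3, 2, 3, 7, 2, 3, 4, 3⟩ :=
  leafX_sound T5.ok_pp T5.Ypp.bz_eq (w := 223) (c := ⟨⟨.negSucc 4176, .negSucc 326, .ofNat 43, .ofNat 549, .negSucc 786, .ofNat 925⟩, ⟨.negSucc 1463, .negSucc 139, .negSucc 364, .ofNat 390, .negSucc 285, .ofNat 344⟩, ⟨.ofNat 2940, .ofNat 154, .ofNat 29, .negSucc 618, .ofNat 793, .negSucc 401⟩, ⟨.negSucc 7145, .negSucc 264, .negSucc 246, .negSucc 133, .negSucc 1481, .ofNat 2018⟩, ⟨.ofNat 902, .ofNat 189, .ofNat 401, .ofNat 2329, .ofNat 734, .negSucc 1209⟩, .ofNat 539, .negSucc 519, .ofNat 0, .negSucc 519, .ofNat 1462, .ofNat 0, .ofNat 128, .ofNat 255, .negSucc 50, .ofNat 0, .ofNat 197, .negSucc 2, .ofNat 0, .ofNat 0, .ofNat 258, .ofNat 263, .ofNat 0, .ofNat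 48932645071000581235911089591171067903213568, .ofNat 2227271927481899182422235617910472048640, .ofNat 0, .ofNat 0, .ofNat 894238164627507822519869896392023777038303232, .ofNat 0, .ofNat 0, .ofNat 0, .ofNat 1855194737470991874899920769947304686595866624, .ofNat 74865917389078558068528473773576466464768, .ofNat 0, .ofNat 0, .ofNat 1510518353041959420826724520383029875816005632, .ofNat 2217734255364596941584315112818548408320, .ofNat 0⟩)
    (by decide +kernel)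
theorem L02516 : Good (Phi V5.P V5.D 1 1) ⟨5, 26, 3, 2, 2, 2, 2, 3, 4, 3⟩ :=
  leafX_sound T5.ok_pp T5.Ypp.bz_eq (w := 214) (c := ⟨⟨.negSucc 3806, .ofNat 42, .negSucc 174, .negSucc 558, .negSucc 1439, .ofNat 583⟩, ⟨.negSucc 1565, .negSucc 98, .negSucc 317, .negSucc 249, .negSucc 711, .ofNat 243⟩, ⟨.ofNat 3262, .negSucc 5, .ofNat 138, .ofNat 29, .ofNat 1085, .negSucc 479⟩, ⟨.negSucc 5804, .ofNat 246, .negSucc 186, .negSucc 926, .negSucc 1960, .ofNat 1070⟩, ⟨.negSucc 262, .ofNat 124, .negSucc 70, .ofNat 143, .negSucc 537, .negSucc 370⟩, .ofNat 1150, .negSucc 1621, .ofNat 0, .negSucc 1621, .ofNat 3484, .ofNat 0, .ofNat 128, .ofNat 334, .negSucc 148, .ofNat 0, .ofNat 217, .negSucc 59, .ofNat 0, .ofNat 0, .ofNat 474, .ofNat 293, .ofNat 0, .ofNat 248092338391289227830758920593955302146048, .ofNat 137889129719463849330649989531041792, .ofNat 0, .ofNat 0, .ofNat 4533426926241273333642098730799343534604288,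 .ofNat 7445119366925687744926246706729713664, .ofNat 0, .ofNat 0, .ofNat 17501763640407434844225428887332751289614336, .ofNat 9511604920029024141079478738943475712, .ofNat 0, .ofNat 0, .ofNat 5652039137914728612228179729797254668615680, .ofNat 0, .ofNat 0⟩)
    (by decide +kernel)
theorem L02517 : Good (Phi V5.P V5.D 1 1) ⟨5, 26, 3, 2, 2, 3, 2, 3, 4, 3⟩ :=
  leafX_sound T5.ok_pp T5.Ypp.bz_eq (w := 214) (c := ⟨⟨.negSucc 4865, .negSucc 333, .negSucc 21, .ofNat 988, .negSucc 637, .ofNat 974⟩, ⟨.negSucc 1928, .negSucc 231, .negSucc 383, .ofNat 761, .negSucc 202, .ofNat 391⟩, ⟨.ofNat 3542, .negSucc 117, .ofNat 149, .negSucc 1138, .ofNat 627, .negSucc 588⟩, ⟨.negSucc 7457, .negSucc 187, .negSucc 20, .negSucc 334, .negSucc 1373, .ofNat 1949⟩, ⟨.ofNat 70, .negSucc 310, .negSucc 209, .ofNat 3980, .ofNat 831, .negSucc 959⟩, .ofNat 1029, .negSucc 1392, .ofNat 0, .negSucc 1392, .ofNat 3030, .ofNat 0,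 .ofNat 128, .ofNat 373, .negSucc 103, .ofNat 0, .ofNat 248, .negSucc 30, .ofNat 0, .ofNat 0, .ofNat 465, .ofNat 352, .ofNat 0, .ofNat 251597352131608062093764030329288770191360, .ofNat 111042890463643033833451323071135744, .ofNat 0, .ofNat 0, .ofNat 5099326242469816273590513361331333892145152, .ofNat 3624442023290051744048467342039973888, .ofNat 0, .ofNat 0, .ofNat 14867920961242228052405477452081497626378240, .ofNat 1942622320103020131182820036079255552, .ofNat 0, .ofNat 0, .ofNat 10944172335331041298632225812009707942969344, .ofNat 1319983715978358151707219503263776768, .ofNat 0⟩)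
    (by decide +kernel)
theorem L02518 : Good (Phi V5.P V5.D 1 1) ⟨5, 27, 3, 2, 1, 1, 2, 3, 4, 3⟩ :=
  out_sound (S := T5.ds_pp) T5.ok_pp (w := 57) (j := 3) (by decide +kernel)
theorem L02519 : Good (Phi V5.P V5.D 1 1) ⟨3, 7, 3, 2, 1, 1, 2, 3, 3, 1⟩ :=
  out_sound (S := T5.ds_pp) T5.ok_pp (w := 45) (j := 3) (by decide +kernel)
theorem L02520 : Good (Phi V5.P V5.D 1 1) ⟨2, 2, 3, 3, 2, 2, 2, 2, 3, 0⟩ :=
  out_sound (S := T5.ds_pp) T5.ok_pp (w := 39) (j := 3) (by decide +kernel)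
theorem L02521 : Good (Phi V5.P V5.D 1 1) ⟨4, 12, 3, 3, 2, 2, 2, 2, 4, 0⟩ :=
  leafX_sound T5.ok_pp T5.Ypp.bz_eq (w := 211) (c := ⟨⟨.ofNat 3455, .ofNat 502, .negSucc 939, .negSucc 644, .negSucc 2109, .negSucc 5016⟩, ⟨.ofNat 1606, .ofNat 297, .negSucc 538, .negSucc 286, .negSucc 955, .negSucc 2379⟩, ⟨.negSucc 2242, .negSucc 337, .ofNat 551, .ofNat 164, .ofNat 1895, .ofNat 3214⟩, ⟨.ofNat 5605, .ofNat 626, .negSucc 1377, .negSucc 1747, .negSucc 3580, .negSucc 7774⟩, ⟨.negSucc 140, .ofNat 52, .negSucc 165, .ofNat 1568, .ofNat 506, .negSucc 232⟩, .ofNat 1069, .negSucc 1545, .ofNat 0, .negSucc 1545, .ofNat 3492, .ofNat 0, .ofNat 128, .ofNat 471, .negSucc 718, .ofNat 0, .ofNat 260, .negSucc 316, .ofNat 0, .ofNat 0, .ofNat 748, .ofNat 231, .ofNat 0, .ofNat 0, .ofNat 0, .ofNat 0, .ofNat 0, .ofNat 0, .ofNat 0, .ofNat 0, .ofNat 0, .ofNat 0, .ofNat 7498813005956852478815355618709209088, .ofNat 0, .ofNat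 0, .ofNat 0, .ofNat 6736773739665911901979873786627883008, .ofNat 0⟩)
    (by decide +kernel)
theorem L02522 : Good (Phi V5.P V5.D 1 1) ⟨4, 13, 4, 6, 2, 2, 2, 2, 4, 0⟩ :=
  leafX_sound T5.ok_pp T5.Ypp.bz_eq (w := 214) (c := ⟨⟨.ofNat 4741, .ofNat 215, .negSucc 73, .negSucc 474, .negSucc 2519, .negSucc 6199⟩, ⟨.ofNat 2340, .ofNat 236, .negSucc 16, .negSucc 176, .negSucc 1220, .negSucc 3124⟩, ⟨.negSucc 2994, .negSucc 43, .ofNat 66, .ofNat 150, .ofNat 2075, .ofNat 3827⟩, ⟨.ofNat 7073, .ofNat 157, .negSucc 94, .negSucc 1298, .negSucc 4239, .negSucc 8985⟩, ⟨.ofNat 441, .ofNat 542, .negSucc 230, .ofNat 1090, .ofNat 763, .negSucc 934⟩, .ofNat 1083, .negSucc 1384, .ofNat 0, .negSucc 1384, .ofNat 2732, .ofNat 0, .ofNat 128, .ofNat 317, .negSucc 675, .ofNat 0, .ofNat 204, .negSucc 325, .ofNat 0, .ofNat 0, .ofNat 615, .ofNat 126, .ofNat 0, .ofNat 0, .ofNat 198287087612302200551026948602593280, .ofNat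 0, .ofNat 0, .ofNat 0, .ofNat 5728715539643066205124604384115687424, .ofNat 0, .ofNat 0, .ofNat 0, .ofNat 9941497031729361920539912091100774400, .ofNat 0, .ofNat 0, .ofNat 0, .ofNat 4460078973985252080925317850816577536, .ofNat 0⟩)
    (by decide +kernel)
theorem L02523 : Good (Phi V5.P V5.D 1 1) ⟨4, 13, 4, 7, 2, 2, 2, 2, 4, 0⟩ :=
  leafX_sound T5.ok_pp T5.Ypp.bz_eq (w := 214) (c := ⟨⟨.ofNat 5216, .ofNat 572, .negSucc 262, .negSucc 699, .negSucc 2260, .negSucc 6882⟩, ⟨.ofNat 2758, .ofNat 587, .negSucc 183, .negSucc 375, .negSucc 1206, .negSucc 3688⟩, ⟨.negSucc 3222, .negSucc 424, .ofNat 223, .ofNat 309, .ofNat 1861, .ofNat 4204⟩, ⟨.ofNat 7727, .ofNat 1172, .negSucc 575, .negSucc 1080, .negSucc 4167, .negSucc 10555⟩, ⟨.ofNat 369, .negSucc 1458, .ofNat 512, .ofNat 39, .ofNat 1433, .ofNat 461⟩, .ofNat 1453, .negSucc 2031, .ofNat 0, .negSucc 2031, .ofNat 3831, .ofNat 0, .ofNat 128, .ofNat 390,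 .negSucc 715, .ofNat 0, .ofNat 241, .negSucc 372, .ofNat 0, .ofNat 0, .ofNat 661, .ofNat 164, .ofNat 0, .ofNat 0, .ofNat 351097501597188504991877325926694912, .ofNat 0, .ofNat 0, .ofNat 0, .ofNat 32312135066747061370807325628257271808, .ofNat 0, .ofNat 0, .ofNat 0, .ofNat 25624729852508698826295917702077743104, .ofNat 0, .ofNat 0, .ofNat 0, .ofNat 18141040518545788331751431844900372480, .ofNat 0⟩)
    (by decide +kernel)
theorem L02524 : Good (Phi V5.P V5.D 1 1) ⟨4, 12, 3, 3, 2, 2, 2, 2, 4, 1⟩ :=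
  leafX_sound T5.ok_pp T5.Ypp.bz_eq (w := 210) (c := ⟨⟨.negSucc 694, .negSucc 746, .ofNat 85, .negSucc 1656, .negSucc 1461, .negSucc 1325⟩, ⟨.negSucc 192, .negSucc 472, .negSucc 231, .negSucc 734, .negSucc 675, .negSucc 628⟩, ⟨.ofNat 401, .ofNat 472, .ofNat 46, .ofNat 580, .ofNat 1646, .ofNat 1061⟩, ⟨.negSucc 1176, .negSucc 727, .negSucc 250, .negSucc 3182, .negSucc 2612, .negSucc 2021⟩, ⟨.negSucc 498, .negSucc 62, .ofNat 703, .ofNat 1249, .ofNat 677, .negSucc 112⟩, .ofNat 1285, .negSucc 1977, .ofNat 0, .negSucc 1977, .ofNat 4382, .ofNat 0, .ofNat 128, .ofNat 400, .negSucc 416, .ofNat 0, .ofNat 218, .negSucc 180, .ofNat 0, .ofNat 0, .ofNat 578, .ofNat 356, .ofNat 0, .ofNat 0, .ofNat 0, .ofNat 0, .ofNat 0, .ofNat 0, .ofNat 0, .ofNat 0, .ofNat 0, .ofNat 0, .ofNat 9235734016508094233620350067122634752, .ofNat 0, .ofNat 0, .ofNat 0, .ofNat 0, .ofNat 0⟩)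
    (by decide +kernel)
theorem L02525 : Good (Phi V5.P V5.D 1 1) ⟨4, 13, 3, 3, 2, 2, 2, 2, 4, 1⟩ :=
  leafX_sound T5.ok_pp T5.Ypp.bz_eq (w := 210) (c := ⟨⟨.negSucc 1310, .negSucc 1177, .ofNat 86, .negSucc 2085, .negSucc 1876, .negSucc 927⟩, ⟨.negSucc 463, .negSucc 809, .negSucc 240, .negSucc 1033, .negSucc 975, .negSucc 473⟩, ⟨.ofNat 757, .ofNat 786, .ofNat 49, .ofNat 869, .ofNat 1904, .ofNat 817⟩, ⟨.negSucc 1675, .negSucc 2279, .negSucc 52, .negSucc 3783, .negSucc 3328, .negSucc 1056⟩, ⟨.negSucc 848, .ofNat 1855, .ofNat 276, .ofNat 1273, .ofNat 966, .negSucc 665⟩, .ofNat 1161, .negSucc 1523, .ofNat 0, .negSucc 1523, .ofNat 2959, .ofNat 0, .ofNat 128, .ofNat 307, .negSucc 379, .ofNat 0, .ofNat 195, .negSucc 182, .ofNat 0, .ofNat 0, .ofNat 474, .ofNat 146, .ofNat 0, .ofNat 0, .ofNat 119839547475364925141713959591608320, .ofNat 0, .ofNat 0, .ofNat 0, .ofNat 5492983878594857464471802309184061440,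 .ofNat 0, .ofNat 0, .ofNat 0, .ofNat 7455743896856188994290555072167280640, .ofNat 0, .ofNat 0, .ofNat 0, .ofNat 1521938517669616125233764353141899264, .ofNat 0⟩)
    (by decide +kernel)
theorem L02526 : Good (Phi V5.P V5.D 1 1) ⟨3, 7, 3, 3, 2, 2, 2, 2, 3, 0⟩ :=
  out_sound (S := T5.ds_pp) T5.ok_pp (w := 45) (j := 3) (by decide +kernel)
theorem L02527 : Good (Phi V5.P V5.D 1 1) ⟨2, 2, 3, 3, 2, 2, 2, 2, 3, 1⟩ :=
  out_sound (S := T5.ds_pp) T5.ok_pp (w := 39) (j := 3) (by decide +kernel)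
theorem L02528 : Good (Phi V5.P V5.D 1 1) ⟨3, 6, 3, 3, 2, 2, 2, 2, 4, 2⟩ :=
  leafX_sound T5.ok_pp T5.Ypp.bz_eq (w := 205) (c := ⟨⟨.negSucc 2857, .negSucc 886, .negSucc 26, .negSucc 966, .negSucc 1056, .ofNat 382⟩, ⟨.negSucc 1154, .negSucc 669, .negSucc 316, .negSucc 466, .negSucc 549, .ofNat 161⟩, ⟨.ofNat 2032, .ofNat 513, .ofNat 108, .ofNat 256, .ofNat 1252, .negSucc 110⟩, ⟨.negSucc 4827, .negSucc 847, .negSucc 27, .negSucc 1792, .negSucc 1676, .ofNat 971⟩, ⟨.negSucc 44, .ofNat 670, .ofNat 0, .ofNat 606, .ofNat 166, .negSucc 765⟩, .ofNat 854, .negSucc 1062, .ofNat 0, .negSucc 1062, .ofNat 2297, .ofNat 0, .ofNat 128, .ofNat 346, .negSucc 211, .ofNat 0, .ofNat 216, .negSucc 90, .ofNat 0, .ofNat 0, .ofNat 429, .ofNat 301, .ofNat 0, .ofNat 0, .ofNat 213985397668097367194068559130001408, .ofNat 0, .ofNat 0, .ofNat 0, .ofNat 12906473060553749067478731225749782528, .ofNat 0, .ofNat 0, .ofNat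 0, .ofNat 32683536404362799373397547548000911360, .ofNat 0, .ofNat 0, .ofNat 0, .ofNat 6876093883386775737767287265565868032, .ofNat 0⟩)
    (by decide +kernel)
theorem L02529 : Good (Phi V5.P V5.D 1 1) ⟨3, 6, 3, 3, 2, 2, 2, 2, 4, 3⟩ :=
  leafX_sound T5.ok_pp T5.Ypp.bz_eq (w := 205) (c := ⟨⟨.negSucc 2928, .negSucc 798, .ofNat 76, .negSucc 396, .negSucc 676, .ofNat 460⟩, ⟨.negSucc 1201, .negSucc 711, .negSucc 183, .negSucc 183, .negSucc 356, .ofNat 212⟩, ⟨.ofNat 2287, .ofNat 364, .ofNat 56, .negSucc 70, .ofNat 869, .negSucc 261⟩, ⟨.negSucc 4871, .negSucc 460, .ofNat 136, .negSucc 728, .negSucc 942, .ofNat 879⟩, ⟨.negSucc 152, .ofNat 179, .negSucc 42, .ofNat 214, .negSucc 136, .negSucc 358⟩, .ofNat 633, .negSucc 674, .ofNat 0, .negSucc 674, .ofNat 1561, .ofNat 0, .ofNat 128, .ofNat 254, .negSucc 88, .ofNat 0, .ofNat 176, .negSucc 33, .ofNat 0, .ofNat 0, .ofNat 287, .ofNat 568, .ofNat 0, .ofNat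 0, .ofNat 356820460372043162024575286831480832, .ofNat 0, .ofNat 0, .ofNat 0, .ofNat 6040030851704362459030123047762788352, .ofNat 0, .ofNat 0, .ofNat 0, .ofNat 63203684570990178476764604843205591040, .ofNat 0, .ofNat 0, .ofNat 0, .ofNat 3591434688662452867882839249426317312, .ofNat 0⟩)
    (by decide +kernel)
theorem L02530 : Good (Phi V5.P V5.D 1 1) ⟨3, 7, 3, 3, 2, 2, 2, 2, 3, 1⟩ :=
  out_sound (S := T5.ds_pp) T5.ok_pp (w := 45) (j := 3) (by decide +kernel)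
theorem L02531 : Good (Phi V5.P V5.D 1 1) ⟨2, 2, 3, 3, 2, 2, 2, 3, 3, 0⟩ :=
  out_sound (S := T5.ds_pp) T5.ok_pp (w := 39) (j := 3) (by decide +kernel)
theorem L02532 : Good (Phi V5.P V5.D 1 1) ⟨4, 12, 3, 3, 3, 4, 2, 3, 4, 0⟩ :=
  leafX_sound T5.ok_pp T5.Ypp.bz_eq (w := 225) (c := ⟨⟨.ofNat 1318, .negSucc 808, .negSucc 49, .negSucc 406, .negSucc 2690, .negSucc 3408⟩, ⟨.ofNat 671, .negSucc 342, .negSucc 252, .negSucc 190, .negSucc 1206, .negSucc 1642⟩, ⟨.negSucc 569, .ofNat 564, .ofNat 31, .ofNat 225, .ofNat 2710, .ofNat 2382⟩, ⟨.ofNat 2005, .negSucc 1323, .negSucc 262, .negSucc 1032, .negSucc 4850, .negSucc 5305⟩, ⟨.negSucc 157, .ofNat 458, .ofNat 194, .ofNat 925, .ofNat 1357, .negSucc 93⟩, .ofNat 1303, .negSucc 2000, .ofNat 0, .negSucc 2000, .ofNat 4394, .ofNat 0, .ofNat 128, .ofNat 464, .negSucc 935, .ofNat 0, .ofNat 260, .negSucc 423, .ofNat 0, .ofNat 0, .ofNat 910, .ofNat 109, .ofNat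 0, .ofNat 0, .ofNat 0, .ofNat 0, .ofNat 0, .ofNat 278008336803290911676745816198806615864901632, .ofNat 0, .ofNat 0, .ofNat 0, .ofNat 0, .ofNat 0, .ofNat 0, .ofNat 0, .ofNat 1135482236128678503823502420391738937178062848, .ofNat 86500272462808153250272101649857579581440, .ofNat 0⟩)
    (by decide +kernel)
theorem L02533 : Good (Phi V5.P V5.D 1 1) ⟨4, 12, 3, 3, 3, 5, 2, 3, 4, 0⟩ :=
  leafX_sound T5.ok_pp T5.Ypp.bz_eq (w := 226) (c := ⟨⟨.ofNat 2544, .negSucc 2254, .ofNat 1199, .negSucc 1782, .negSucc 3783, .negSucc 4667⟩, ⟨.ofNat 1221, .negSucc 926, .ofNat 112, .negSucc 769, .negSucc 1680, .negSucc 2246⟩, ⟨.negSucc 1447, .ofNat 1627, .negSucc 809, .ofNat 1026, .ofNat 3551, .ofNat 3021⟩, ⟨.ofNat 3729, .negSucc 3405, .ofNat 1340, .negSucc 3556, .negSucc 7128, .negSucc 7462⟩, ⟨.ofNat 49, .ofNat 378, .ofNat 698, .ofNat 1631, .ofNat 2668, .ofNat 328⟩, .ofNat 1307, .negSucc 2016, .ofNat 0, .negSucc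 2016, .ofNat 4444, .ofNat 0, .ofNat 128, .ofNat 478, .negSucc 1059, .ofNat 0, .ofNat 262, .negSucc 474, .ofNat 0, .ofNat 0, .ofNat 887, .ofNat 58, .ofNat 0, .ofNat 0, .ofNat 2119555475048473650483696921490457886720, .ofNat 0, .ofNat 0, .ofNat 0, .ofNat 0, .ofNat 0, .ofNat 0, .ofNat 0, .ofNat 0, .ofNat 0, .ofNat 0, .ofNat 649134230521825228184958930136877335830331392, .ofNat 167954485953078224649136816749500356886528, .ofNat 0⟩)
    (by decide +kernel)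
theorem L02534 : Good (Phi V5.P V5.D 1 1) ⟨4, 12, 3, 3, 2, 2, 3, 6, 4, 1⟩ :=
  leafX_sound T5.ok_pp T5.Ypp.bz_eq (w := 214) (c := ⟨⟨.negSucc 1531, .negSucc 1679, .ofNat 167, .negSucc 2667, .negSucc 1222, .negSucc 450⟩, ⟨.negSucc 575, .negSucc 917, .negSucc 346, .negSucc 1146, .negSucc 546, .negSucc 222⟩, ⟨.ofNat 1598, .ofNat 1082, .ofNat 27, .ofNat 1347, .ofNat 1228, .ofNat 395⟩, ⟨.negSucc 2459, .negSucc 2403, .ofNat 383, .negSucc 5232, .negSucc 2181, .negSucc 435⟩, ⟨.negSucc 857, .ofNat 825, .negSucc 429, .ofNat 2209, .ofNat 554, .negSucc 584⟩, .ofNat 1055, .negSucc 1513, .ofNat 0, .negSucc 1513, .ofNat 3418, .ofNat 0, .ofNat 128, .ofNat 305, .negSucc 538, .ofNat 0, .ofNat 171, .negSucc 230, .ofNat 0, .ofNat 0, .ofNat 640, .ofNat 306, .ofNat 0, .ofNat 0, .ofNat 0, .ofNat 0, .ofNat 0, .ofNat 0, .ofNat 59908876515868741512852056624081141760, .ofNat 0, .ofNat 0, .ofNat 0, .ofNat 19806516855497149921235153560295964672,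 .ofNat 0, .ofNat 0, .ofNat 0, .ofNat 23501868455837086680574558459071037440, .ofNat 0⟩)
    (by decide +kernel)
theorem L02535 : Good (Phi V5.P V5.D 1 1) ⟨4, 12, 3, 3, 2, 2, 4, 14, 4, 1⟩ :=
  leafX_sound T5.ok_pp T5.Ypp.bz_eq (w := 219) (c := ⟨⟨.negSucc 2295, .negSucc 2563, .ofNat 155, .negSucc 2843, .negSucc 1098, .negSucc 46⟩, ⟨.negSucc 873, .negSucc 1354, .negSucc 419, .negSucc 1208, .negSucc 504, .negSucc 52⟩, ⟨.ofNat 2545, .ofNat 1663, .ofNat 21, .ofNat 1537, .ofNat 965, .negSucc 0⟩, ⟨.negSucc 3839, .negSucc 3566, .negSucc 74, .negSucc 5990, .negSucc 2048, .ofNat 328⟩, ⟨.negSucc 599, .ofNat 491, .ofNat 503, .ofNat 3248, .ofNat 696, .negSucc 857⟩, .ofNat 1078, .negSucc 1566, .ofNat 0, .negSucc 1566, .ofNat 3541, .ofNat 0, .ofNat 128, .ofNat 367, .negSucc 617, .ofNat 0, .ofNat 206, .negSucc 266, .ofNat 0, .ofNat 0, .ofNat 678, .ofNat 185, .ofNat 0, .ofNat 0, .ofNat 0, .ofNat 0, .ofNat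 0, .ofNat 0, .ofNat 44263596181948479133418167375740534784, .ofNat 0, .ofNat 0, .ofNat 0, .ofNat 0, .ofNat 0, .ofNat 0, .ofNat 0, .ofNat 0, .ofNat 0⟩)
    (by decide +kernel)
theorem L02536 : Good (Phi V5.P V5.D 1 1) ⟨4, 12, 3, 3, 2, 2, 4, 15, 4, 1⟩ :=
  leafX_sound T5.ok_pp T5.Ypp.bz_eq (w := 219) (c := ⟨⟨.negSucc 3123, .negSucc 3299, .ofNat 2254, .negSucc 2667, .negSucc 2633, .negSucc 52⟩, ⟨.negSucc 1209, .negSucc 1724, .ofNat 389, .negSucc 1092, .negSucc 1187, .negSucc 81⟩, ⟨.ofNat 3368, .ofNat 2241, .negSucc 1528, .ofNat 1425, .ofNat 2008, .negSucc 136⟩, ⟨.negSucc 5185, .negSucc 5056, .ofNat 3450, .negSucc 5947, .negSucc 4602, .ofNat 386⟩, ⟨.negSucc 539, .ofNat 1344, .negSucc 50, .ofNat 3682, .ofNat 992, .negSucc 1057⟩, .ofNat 1067, .negSucc 1532, .ofNat 0, .negSucc 1532, .ofNat 3442, .ofNat 0, .ofNat 128, .ofNat 253, .negSucc 610, .ofNat 0, .ofNat 144, .negSucc 264, .ofNat 0, .ofNat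 0, .ofNat 600, .ofNat 97, .ofNat 0, .ofNat 355479200953601446393044261314439166296064, .ofNat 42667745387189461805854485306494943232, .ofNat 0, .ofNat 0, .ofNat 0, .ofNat 0, .ofNat 0, .ofNat 0, .ofNat 1963376447304193160235814598809480866037760, .ofNat 18385762573855109255199930143417040896, .ofNat 0, .ofNat 0, .ofNat 3640054263532688358310747507447402420240384, .ofNat 637085900549392791771347502182950764544, .ofNat 0⟩)
    (by decide +kernel)
theorem L02537 : Good (Phi V5.P V5.D 1 1) ⟨5, 26, 3, 3, 2, 2, 3, 6, 4, 0⟩ :=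
  leafX_sound T5.ok_pp T5.Ypp.bz_eq (w := 219) (c := ⟨⟨.ofNat 1791, .negSucc 889, .ofNat 336, .negSucc 3140, .negSucc 1877, .negSucc 4591⟩, ⟨.ofNat 1163, .negSucc 473, .negSucc 176, .negSucc 1494, .negSucc 906, .negSucc 2444⟩, ⟨.negSucc 762, .ofNat 645, .negSucc 183, .ofNat 1745, .ofNat 1629, .ofNat 3116⟩, ⟨.ofNat 2820, .negSucc 2204, .ofNat 1190, .negSucc 5942, .negSucc 3324, .negSucc 6983⟩, ⟨.negSucc 269, .ofNat 2019, .negSucc 1537, .ofNat 2276, .ofNat 895, .ofNat 109⟩, .ofNat 1068, .negSucc 1424, .ofNat 0, .negSucc 1424, .ofNat 2914, .ofNat 0, .ofNat 128, .ofNat 275, .negSucc 689, .ofNat 0, .ofNat 168, .negSucc 335, .ofNat 0, .ofNat 0, .ofNat 600, .ofNat 79, .ofNat 0, .ofNat 0, .ofNat 0, .ofNat 0, .ofNat 0, .ofNat 0, .ofNat 29395743500931257707674201773312049152, .ofNat 0, .ofNat 0, .ofNat 0, .ofNat 13998759046545809071022657339134050304, .ofNat 0, .ofNat 0, .ofNat 0, .ofNat 14092231493760646777896084181140635648,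 .ofNat 0⟩)
    (by decide +kernel)
theorem L02538 : Good (Phi V5.P V5.D 1 1) ⟨5, 27, 3, 3, 2, 2, 3, 6, 4, 0⟩ :=
  leafX_sound T5.ok_pp T5.Ypp.bz_eq (w := 219) (c := ⟨⟨.ofNat 1675, .negSucc 1057, .negSucc 279, .negSucc 3481, .negSucc 1747, .negSucc 4712⟩, ⟨.ofNat 1292, .negSucc 638, .negSucc 509, .negSucc 1795, .negSucc 939, .negSucc 2635⟩, ⟨.negSucc 1278, .ofNat 286, .ofNat 882, .ofNat 1985, .ofNat 1545, .ofNat 3249⟩, ⟨.ofNat 2336, .negSucc 1839, .ofNat 130, .negSucc 6885, .negSucc 3367, .negSucc 7183⟩, ⟨.negSucc 120, .ofNat 342, .negSucc 365, .ofNat 3116, .ofNat 1281, .ofNat 185⟩, .ofNat 846, .negSucc 951, .ofNat 0, .negSucc 951, .ofNat 1859, .ofNat 0, .ofNat 128, .ofNat 392, .negSucc 1117, .ofNat 0, .ofNat 271, .negSucc 563, .ofNat 0, .ofNat 0, .ofNat 901, .ofNat 289, .ofNat 0, .ofNat 0, .ofNat 0, .ofNat 0, .ofNat 0, .ofNat 0, .ofNat 32476747391878498117510698773505900544, .ofNat 0, .ofNat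 0, .ofNat 0, .ofNat 80860258190541389796722066510103707648, .ofNat 0, .ofNat 0, .ofNat 0, .ofNat 80693380721140895505266139602813452288, .ofNat 0⟩)
    (by decide +kernel)
theorem L02539 : Good (Phi V5.P V5.D 1 1) ⟨4, 13, 3, 3, 2, 2, 3, 6, 4, 1⟩ :=
  leafX_sound T5.ok_pp T5.Ypp.bz_eq (w := 214) (c := ⟨⟨.negSucc 3247, .negSucc 2502, .ofNat 718, .negSucc 3044, .negSucc 1274, .negSucc 186⟩, ⟨.negSucc 1393, .negSucc 1447, .negSucc 70, .negSucc 1468, .negSucc 606, .negSucc 125⟩, ⟨.ofNat 2731, .ofNat 1583, .negSucc 330, .ofNat 1559, .ofNat 1233, .ofNat 210⟩, ⟨.negSucc 5246, .negSucc 3853, .ofNat 1343, .negSucc 5728, .negSucc 2028, .ofNat 61⟩, ⟨.ofNat 266, .ofNat 1430, .negSucc 642, .ofNat 2270, .ofNat 251, .negSucc 647⟩, .ofNat 1161, .negSucc 1523, .ofNat 0, .negSucc 1523, .ofNat 2959, .ofNat 0, .ofNat 128, .ofNat 196, .negSucc 365, .ofNat 0, .ofNat 126, .negSucc 176, .ofNat 0, .ofNat 0, .ofNat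 399, .ofNat 128, .ofNat 0, .ofNat 0, .ofNat 2057726911113845195910351348828209152, .ofNat 0, .ofNat 0, .ofNat 0, .ofNat 69567026811454701884072033612560596992, .ofNat 0, .ofNat 0, .ofNat 0, .ofNat 48351820366558718625868866362030424064, .ofNat 0, .ofNat 0, .ofNat 0, .ofNat 57534545872211284216497797806042382336, .ofNat 0⟩)
    (by decide +kernel)
theorem L02540 : Good (Phi V5.P V5.D 1 1) ⟨6, 52, 3, 3, 2, 2, 3, 7, 4, 0⟩ :=
  leafX_sound T5.ok_pp T5.Ypp.bz_eq (w := 223) (c := ⟨⟨.negSucc 465, .negSucc 347, .ofNat 732, .negSucc 3198, .negSucc 1970, .negSucc 4263⟩, ⟨.negSucc 25, .negSucc 169, .negSucc 118, .negSucc 1410, .negSucc 915, .negSucc 2156⟩, ⟨.ofNat 1086, .ofNat 265, .negSucc 471, .ofNat 1935, .ofNat 1897, .ofNat 2920⟩, ⟨.negSucc 1086, .negSucc 412, .ofNat 731, .negSucc 6359, .negSucc 3461, .negSucc 6352⟩, ⟨.ofNat 765, .negSucc 20, .ofNat 545, .ofNat 2971, .ofNat 916, .negSucc 447⟩,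 .ofNat 1225, .negSucc 1737, .ofNat 0, .negSucc 1737, .ofNat 3583, .ofNat 0, .ofNat 128, .ofNat 331, .negSucc 877, .ofNat 0, .ofNat 200, .negSucc 418, .ofNat 0, .ofNat 0, .ofNat 742, .ofNat 36, .ofNat 0, .ofNat 0, .ofNat 200666958254366845161343640926158848, .ofNat 0, .ofNat 0, .ofNat 60236018378077854964110499833554546605424640, .ofNat 5634528516531465555561106322176868352, .ofNat 0, .ofNat 0, .ofNat 0, .ofNat 8896638057662687264239600494916403200, .ofNat 0, .ofNat 0, .ofNat 135678686613819971868915875724936335249637376, .ofNat 4583426215619810074841450130888982528, .ofNat 0⟩)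
    (by decide +kernel)
theorem L02541 : Good (Phi V5.P V5.D 1 1) ⟨6, 53, 4, 6, 2, 2, 3, 7, 4, 0⟩ :=
  leafX_sound T5.ok_pp T5.Ypp.bz_eq (w := 226) (c := ⟨⟨.ofNat 532, .negSucc 1462, .negSucc 550, .negSucc 3584, .negSucc 2698, .negSucc 4740⟩, ⟨.ofNat 548, .negSucc 728, .negSucc 552, .negSucc 1587, .negSucc 1285, .negSucc 2482⟩, ⟨.ofNat 582, .ofNat 1072, .ofNat 215, .ofNat 2180, .ofNat 2428, .ofNat 3207⟩, ⟨.ofNat 859, .negSucc 2085, .negSucc 1034, .negSucc 7517, .negSucc 4935, .negSucc 6962⟩, ⟨.ofNat 19, .ofNat 25, .ofNat 213, .ofNat 4130, .ofNat 1697, .negSucc 424⟩, .ofNat 1163, .negSucc 1555, .ofNat 0, .negSucc 1555, .ofNat 3107, .ofNat 0, .ofNat 128, .ofNat 394, .negSucc 1436, .ofNat 0, .ofNat 255, .negSucc 693, .ofNat 0, .ofNat 0, .ofNat 1132, .ofNat 63, .ofNat 0, .ofNat 0, .ofNat 864227085760151380580435999938576384, .ofNat 0, .ofNat 0, .ofNat 0, .ofNat 26136720857139323323034060657614913536,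 .ofNat 0, .ofNat 0, .ofNat 0, .ofNat 12053729533290794758950855973007261696, .ofNat 0, .ofNat 0, .ofNat 0, .ofNat 47611417314840992169000640855207313408, .ofNat 0⟩)
    (by decide +kernel)
theorem L02542 : Good (Phi V5.P V5.D 1 1) ⟨6, 53, 4, 7, 2, 2, 3, 7, 4, 0⟩ :=
  leafX_sound T5.ok_pp T5.Ypp.bz_eq (w := 227) (c := ⟨⟨.negSucc 499, .negSucc 458, .ofNat 417, .negSucc 3683, .negSucc 2558, .negSucc 4395⟩, ⟨.negSucc 107, .negSucc 232, .negSucc 109, .negSucc 1726, .negSucc 1278, .negSucc 2375⟩, ⟨.ofNat 1093, .ofNat 383, .negSucc 281, .ofNat 2234, .ofNat 2316, .ofNat 3023⟩, ⟨.negSucc 931, .negSucc 1238, .ofNat 1107, .negSucc 7402, .negSucc 4501, .negSucc 6877⟩, ⟨.ofNat 337, .ofNat 1232, .negSucc 1039, .ofNat 3646, .ofNat 1288, .ofNat 351⟩, .ofNat 1459, .negSucc 2086, .ofNat 0, .negSucc 2086, .ofNat 4018, .ofNat 0, .ofNat 128, .ofNat 380, .negSucc 1288, .ofNat 0, .ofNat 235, .negSucc 661, .ofNat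 0, .ofNat 0, .ofNat 1051, .ofNat 56, .ofNat 0, .ofNat 0, .ofNat 0, .ofNat 0, .ofNat 0, .ofNat 721162196811838001894551183524770376486748160, .ofNat 22092871093673591648243246774427320320, .ofNat 0, .ofNat 0, .ofNat 0, .ofNat 17514572015556328056041335005256876032, .ofNat 0, .ofNat 0, .ofNat 0, .ofNat 0, .ofNat 0⟩)
    (by decide +kernel)
theorem L02543 : Good (Phi V5.P V5.D 1 1) ⟨5, 27, 4, 6, 2, 2, 3, 7, 4, 0⟩ :=
  out_sound (S := T5.ds_pp) T5.ok_pp (w := 59) (j := 3) (by decide +kernel)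
theorem L02544 : Good (Phi V5.P V5.D 1 1) ⟨6, 54, 4, 7, 2, 2, 3, 7, 5, 0⟩ :=
  leafX_sound T5.ok_pp T5.Ypp.bz_eq (w := 232) (c := ⟨⟨.negSucc 1481, .negSucc 169, .ofNat 459, .negSucc 1357, .negSucc 490, .negSucc 2740⟩, ⟨.negSucc 615, .negSucc 58, .ofNat 63, .negSucc 580, .negSucc 182, .negSucc 1573⟩, ⟨.ofNat 1706, .ofNat 146, .negSucc 291, .ofNat 960, .ofNat 899, .ofNat 1890⟩, ⟨.negSucc 2163, .ofNat 145, .ofNat 158, .negSucc 4120, .negSucc 1186, .negSucc 4422⟩, ⟨.ofNat 293, .negSucc 512, .ofNat 515, .ofNat 3934, .ofNat 1011, .ofNat 358⟩, .ofNat 1024, .negSucc 1271, .ofNat 0, .negSucc 1271, .ofNat 2442, .ofNat 0, .ofNat 128, .ofNat 470, .negSucc 2048, .ofNat 0, .ofNat 315, .negSucc 1070, .ofNat 0, .ofNat 0, .ofNat 1543, .ofNat 68, .ofNat 0, .ofNat 0, .ofNat 0, .ofNat 0, .ofNat 0, .ofNat 2568881707887935980108587776119876906622386176, .ofNat 1216033375615234910410927601834981851136, .ofNat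 0, .ofNat 0, .ofNat 0, .ofNat 663623316287347823383407095054377943040, .ofNat 0, .ofNat 0, .ofNat 0, .ofNat 2126654836611452179992261532213963653120, .ofNat 0⟩)
    (by decide +kernel)
theorem L02545 : Good (Phi V5.P V5.D 1 1) ⟨6, 54, 4, 7, 2, 2, 3, 7, 5, 1⟩ :=
  leafX_sound T5.ok_pp T5.Ypp.bz_eq (w := 232) (c := ⟨⟨.negSucc 3097, .negSucc 516, .ofNat 439, .negSucc 3994, .negSucc 4133, .negSucc 2026⟩, ⟨.negSucc 1413, .negSucc 300, .negSucc 95, .negSucc 1994, .negSucc 2202, .negSucc 1128⟩, ⟨.ofNat 3064, .ofNat 383, .negSucc 313, .ofNat 2253, .ofNat 3284, .ofNat 1368⟩, ⟨.negSucc 4292, .negSucc 908, .ofNat 574, .negSucc 8559, .negSucc 7272, .negSucc 3192⟩, ⟨.negSucc 475, .ofNat 533, .ofNat 21, .ofNat 4789, .ofNat 2074, .ofNat 304⟩, .ofNat 1494, .negSucc 2056, .ofNat 0, .negSucc 2056, .ofNat 3786, .ofNat 0, .ofNat 128, .ofNat 492, .negSucc 1524, .ofNat 0, .ofNat 322, .negSucc 798, .ofNat 0, .ofNat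 0, .ofNat 1208, .ofNat 123, .ofNat 0, .ofNat 0, .ofNat 0, .ofNat 0, .ofNat 0, .ofNat 1220497696233897661152939009345357326667743232, .ofNat 2627635320954544988830710489172779466752, .ofNat 0, .ofNat 0, .ofNat 0, .ofNat 1447011692881779593709636545018586988544, .ofNat 0, .ofNat 0, .ofNat 0, .ofNat 4027078791411307860128909518407060160512, .ofNat 0⟩)
    (by decide +kernel)
theorem L02546 : Good (Phi V5.P V5.D 1 1) ⟨6, 55, 4, 7, 2, 2, 3, 7, 4, 0⟩ :=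
  out_sound (S := T5.ds_pp) T5.ok_pp (w := 65) (j := 3) (by decide +kernel)
theorem L02547 : Good (Phi V5.P V5.D 1 1) ⟨5, 26, 4, 6, 2, 2, 3, 7, 5, 2⟩ :=
  leafX_sound T5.ok_pp T5.Ypp.bz_eq (w := 227) (c := ⟨⟨.negSucc 3731, .negSucc 1718, .ofNat 437, .negSucc 4419, .negSucc 4431, .negSucc 453⟩, ⟨.negSucc 1591, .negSucc 965, .negSucc 134, .negSucc 1915, .negSucc 2104, .negSucc 259⟩, ⟨.ofNat 3527, .ofNat 1219, .negSucc 259, .ofNat 2465, .ofNat 3454, .ofNat 221⟩, ⟨.negSucc 5753, .negSucc 2310, .ofNat 291, .negSucc 8811, .negSucc 7667, .negSucc 158⟩, ⟨.negSucc 115, .ofNat 215, .ofNat 599, .ofNat 4273, .ofNat 1868, .negSucc 1078⟩, .ofNat 1127, .negSucc 1525, .ofNat 0, .negSucc 1525, .ofNat 3127, .ofNat 0, .ofNat 128, .ofNat 197, .negSucc 630, .ofNat 0, .ofNat 123, .negSucc 293, .ofNat 0, .ofNat 0, .ofNat 561, .ofNat 61, .ofNat 0, .ofNat 0, .ofNat 147303225286031292787368689650091687936, .ofNat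 0, .ofNat 0, .ofNat 0, .ofNat 2604238401044119361274071447124303675392, .ofNat 0, .ofNat 0, .ofNat 143764891845680020989713471034502300653584384, .ofNat 1471587811437721674104580894939439693824, .ofNat 0, .ofNat 0, .ofNat 1085387555024794310085056539806877862047252480, .ofNat 959925554019090818355850658667997167616, .ofNat 0⟩)
    (by decide +kernel)
theorem L02548 : Good (Phi V5.P V5.D 1 1) ⟨5, 26, 4, 7, 2, 2, 3, 7, 5, 2⟩ :=
  leafX_sound T5.ok_pp T5.Ypp.bz_eq (w := 227) (c := ⟨⟨.negSucc 3774, .negSucc 1500, .ofNat 541, .negSucc 3979, .negSucc 4303, .negSucc 142⟩, ⟨.negSucc 1820, .negSucc 878, .negSucc 19, .negSucc 1887, .negSucc 2190, .negSucc 105⟩, ⟨.ofNat 3551, .ofNat 1021, .negSucc 333, .ofNat 2233, .ofNat 3320, .ofNat 58⟩, ⟨.negSucc 5479, .negSucc 2373, .ofNat 709, .negSucc 8325, .negSucc 7794, .ofNat 74⟩, ⟨.negSucc 753, .ofNat 932, .ofNat 114, .ofNat 4431, .ofNat 2403, .negSucc 626⟩,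 .ofNat 1316, .negSucc 1873, .ofNat 0, .negSucc 1873, .ofNat 3717, .ofNat 0, .ofNat 128, .ofNat 354, .negSucc 860, .ofNat 0, .ofNat 212, .negSucc 428, .ofNat 0, .ofNat 0, .ofNat 776, .ofNat 89, .ofNat 0, .ofNat 41470611244128653247694148849425782105178112, .ofNat 180278722735456083364806136075955208192, .ofNat 0, .ofNat 0, .ofNat 699368027811259590214061278582246804054605824, .ofNat 2789402988570402990721392100123986624512, .ofNat 0, .ofNat 0, .ofNat 717123250767788138322158810141923399237107712, .ofNat 1776137216036222770128116606929492508672, .ofNat 0, .ofNat 0, .ofNat 2020883909891294205468848885394667677023207424, .ofNat 2436043129715560514233781545300039565312, .ofNat 0⟩)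
    (by decide +kernel)
theorem L02549 : Good (Phi V5.P V5.D 1 1) ⟨5, 26, 3, 3, 2, 2, 4, 14, 5, 3⟩ :=
  leafX_sound T5.ok_pp T5.Ypp.bz_eq (w := 227) (c := ⟨⟨.negSucc 4927, .negSucc 986, .ofNat 153, .negSucc 2884, .negSucc 1326, .ofNat 541⟩, ⟨.negSucc 2210, .negSucc 635, .negSucc 408, .negSucc 1357, .negSucc 650, .ofNat 267⟩, ⟨.ofNat 4299, .ofNat 645, .negSucc 32, .ofNat 1552, .ofNat 1045, .negSucc 401⟩, ⟨.negSucc 7523, .negSucc 1463, .ofNat 71, .negSucc 5954, .negSucc 2245, .ofNat 1234⟩, ⟨.negSucc 171, .ofNat 625, .ofNat 195, .ofNat 3012, .ofNat 454, .negSucc 767⟩, .ofNat 879, .negSucc 1088, .ofNat 0, .negSucc 1088, .ofNat 2274, .ofNat 0, .ofNat 128, .ofNat 151, .negSucc 335, .ofNat 0, .ofNat 95, .negSucc 153, .ofNat 0, .ofNat 0, .ofNat 369, .ofNat 202, .ofNat 0, .ofNat 0, .ofNat 0, .ofNat 0, .ofNat 0, .ofNat 0, .ofNat 13352810663258019115540228777941577760768, .ofNat 0, .ofNat 0, .ofNat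 0, .ofNat 1418627999410841432993287108654411022336, .ofNat 0, .ofNat 0, .ofNat 0, .ofNat 4218748873847467691167018157375167135744, .ofNat 0⟩)
    (by decide +kernel)
theorem L02550 : Good (Phi V5.P V5.D 1 1) ⟨5, 26, 3, 3, 2, 2, 4, 15, 5, 3⟩ :=
  leafX_sound T5.ok_pp T5.Ypp.bz_eq (w := 228) (c := ⟨⟨.negSucc 6565, .negSucc 1467, .ofNat 830, .negSucc 2533, .negSucc 3073, .ofNat 773⟩, ⟨.negSucc 2975, .negSucc 890, .negSucc 160, .negSucc 1128, .negSucc 1553, .ofNat 354⟩, ⟨.ofNat 5674, .ofNat 900, .negSucc 488, .ofNat 1289, .ofNat 2189, .negSucc 620⟩, ⟨.negSucc 10180, .negSucc 1989, .ofNat 971, .negSucc 5725, .negSucc 5175, .ofNat 1580⟩, ⟨.ofNat 161, .ofNat 367, .ofNat 416, .ofNat 3501, .ofNat 963, .negSucc 794⟩, .ofNat 855, .negSucc 1045, .ofNat 0, .negSucc 1045, .ofNat 2202, .ofNat 0, .ofNat 128, .ofNat 232, .negSucc 525, .ofNat 0, .ofNat 148, .negSucc 239, .ofNat 0, .ofNat 0, .ofNat 532, .ofNat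 117, .ofNat 0, .ofNat 77512574390473572767369578078812109463879680, .ofNat 515124774739823983636813021617405820928, .ofNat 0, .ofNat 0, .ofNat 408205319810520722014998026263166682147061760, .ofNat 6151707850748764056878330415984496607232, .ofNat 0, .ofNat 0, .ofNat 579504042402409034765449144579248156888268800, .ofNat 992711513872816762374551366019066101760, .ofNat 0, .ofNat 0, .ofNat 1103515303275319608497584791312366243841835008, .ofNat 8070177530959761523344114900657583947776, .ofNat 0⟩)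
    (by decide +kernel)
theorem L02551 : Good (Phi V5.P V5.D 1 1) ⟨5, 27, 4, 6, 2, 2, 3, 7, 4, 1⟩ :=
  out_sound (S := T5.ds_pp) T5.ok_pp (w := 59) (j := 3) (by decide +kernel)
theorem L02552 : Good (Phi V5.P V5.D 1 1) ⟨5, 27, 4, 7, 2, 2, 4, 14, 4, 1⟩ :=
  leafX_sound T5.ok_pp T5.Ypp.bz_eq (w := 226) (c := ⟨⟨.negSucc 6077, .negSucc 513, .ofNat 292, .negSucc 2797, .negSucc 1330, .ofNat 556⟩, ⟨.negSucc 3068, .negSucc 369, .negSucc 142, .negSucc 1372, .negSucc 705, .ofNat 254⟩, ⟨.ofNat 5137, .ofNat 223, .negSucc 125, .ofNat 1472, .ofNat 1047, .negSucc 487⟩, ⟨.negSucc 9089, .negSucc 333, .ofNat 221, .negSucc 6394, .negSucc 2374, .ofNat 1603⟩, ⟨.ofNat 189, .negSucc 82, .ofNat 288, .ofNat 4012, .ofNat 721, .negSucc 1403⟩, .ofNat 1229, .negSucc 1636, .ofNat 0, .negSucc 1636, .ofNat 3094, .ofNat 0, .ofNat 128, .ofNat 292, .negSucc 663, .ofNat 0, .ofNat 187, .negSucc 339, .ofNat 0, .ofNat 0, .ofNat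 689, .ofNat 321, .ofNat 0, .ofNat 0, .ofNat 0, .ofNat 0, .ofNat 0, .ofNat 0, .ofNat 4391006711708223364257540468891099070464, .ofNat 0, .ofNat 0, .ofNat 0, .ofNat 1825228247166748471082100559800938004480, .ofNat 0, .ofNat 0, .ofNat 0, .ofNat 2473992772102397305215780761970224922624, .ofNat 0⟩)
    (by decide +kernel)
theorem L02553 : Good (Phi V5.P V5.D 1 1) ⟨5, 27, 4, 7, 2, 2, 4, 15, 4, 1⟩ :=
  leafX_sound T5.ok_pp T5.Ypp.bz_eq (w := 227) (c := ⟨⟨.negSucc 8323, .negSucc 1162, .ofNat 802, .negSucc 2299, .negSucc 3584, .ofNat 908⟩, ⟨.negSucc 4232, .negSucc 746, .ofNat 75, .negSucc 1066, .negSucc 1912, .ofNat 437⟩, ⟨.ofNat 7059, .ofNat 819, .negSucc 598, .ofNat 1057, .ofNat 2522, .negSucc 892⟩, ⟨.negSucc 12492, .negSucc 670, .ofNat 604, .negSucc 5941, .negSucc 6248, .ofNat 2296⟩, ⟨.ofNat 403, .negSucc 988, .ofNat 851, .ofNat 4541, .ofNat 1657, .negSucc 1729⟩, .ofNat 1495, .negSucc 2088, .ofNat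 0, .negSucc 2088, .ofNat 3877, .ofNat 0, .ofNat 128, .ofNat 361, .negSucc 866, .ofNat 0, .ofNat 229, .negSucc 451, .ofNat 0, .ofNat 0, .ofNat 812, .ofNat 131, .ofNat 0, .ofNat 105508133527100645104923481492492852677050368, .ofNat 177102776943762873220632364382246928384, .ofNat 0, .ofNat 0, .ofNat 546562867796141011471931110118218489560825856, .ofNat 4896230404957964710506779836272017932288, .ofNat 0, .ofNat 0, .ofNat 738712437085896442795004621577577297451417600, .ofNat 3948526279615658705036837265054113988608, .ofNat 0, .ofNat 0, .ofNat 1579687360657334697597967618126478593633550336, .ofNat 2649697675030192626983229034324408926208, .ofNat 0⟩)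
    (by decide +kernel)
theorem L02554 : Good (Phi V5.P V5.D 1 1) ⟨3, 7, 3, 3, 2, 2, 2, 3, 3, 0⟩ :=
  out_sound (S := T5.ds_pp) T5.ok_pp (w := 45) (j := 3) (by decide +kernel)
theorem L02555 : Good (Phi V5.P V5.D 1 1) ⟨2, 2, 3, 3, 2, 2, 2, 3, 3, 1⟩ :=
  out_sound (S := T5.ds_pp) T5.ok_pp (w := 39) (j := 3) (by decide +kernel)
theorem L02556 : Good (Phi V5.P V5.D 1 1) ⟨3, 6, 3, 3, 2, 2, 3, 6, 4, 2⟩ :=
  leafX_sound T5.ok_pp T5.Ypp.bz_eq (w := 209) (c := ⟨⟨.negSucc 3666, .negSucc 1483, .ofNat 83, .negSucc 1242, .negSucc 950, .ofNat 848⟩, ⟨.negSucc 1462, .negSucc 1164, .negSucc 308, .negSucc 565, .negSucc 469, .ofNat 388⟩, ⟨.ofNat 3205, .ofNat 900, .ofNat 35, .ofNat 467, .ofNat 893, .negSucc 606⟩, ⟨.negSucc 5992, .negSucc 1313, .ofNat 35, .negSucc 2665, .negSucc 1686, .ofNat 1744⟩, ⟨.negSucc 405, .ofNat 204, .ofNat 231, .ofNat 1449, .ofNat 466, .negSucc 873⟩, .ofNat 629, .negSucc 668, .ofNat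 0, .negSucc 668, .ofNat 1552, .ofNat 0, .ofNat 128, .ofNat 274, .negSucc 272, .ofNat 0, .ofNat 182, .negSucc 106, .ofNat 0, .ofNat 0, .ofNat 459, .ofNat 216, .ofNat 0, .ofNat 0, .ofNat 6032567732126467071495883760313827328, .ofNat 0, .ofNat 0, .ofNat 0, .ofNat 94510737009185300950244054628246224896, .ofNat 0, .ofNat 0, .ofNat 0, .ofNat 166155093568193586887334525068581535744, .ofNat 0, .ofNat 0, .ofNat 0, .ofNat 91528502079744351298185512358808387584, .ofNat 0⟩)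
    (by decide +kernel)
theorem L02557 : Good (Phi V5.P V5.D 1 1) ⟨3, 6, 3, 3, 2, 2, 4, 14, 4, 2⟩ :=
  leafX_sound T5.ok_pp T5.Ypp.bz_eq (w := 213) (c := ⟨⟨.negSucc 4520, .negSucc 1974, .ofNat 146, .negSucc 873, .negSucc 964, .ofNat 966⟩, ⟨.negSucc 1876, .negSucc 1346, .negSucc 349, .negSucc 390, .negSucc 485, .ofNat 439⟩, ⟨.ofNat 4190, .ofNat 1018, .ofNat 0, .ofNat 262, .ofNat 706, .negSucc 835⟩, ⟨.negSucc 7655, .negSucc 1484, .negSucc 73, .negSucc 2218, .negSucc 1662, .ofNat 2114⟩, ⟨.ofNat 242, .negSucc 657, .ofNat 595, .ofNat 1566, .ofNat 322, .negSucc 1281⟩, .ofNat 628, .negSucc 669, .ofNat 0, .negSucc 669, .ofNat 1566, .ofNat 0, .ofNat 128, .ofNat 213, .negSucc 280, .ofNat 0, .ofNat 142, .negSucc 108, .ofNat 0, .ofNat 0, .ofNat 446, .ofNat 91, .ofNat 0, .ofNat 0, .ofNat 109375778477506394385044379311315877888, .ofNat 0, .ofNat 0, .ofNat 0, .ofNat 810882031351372867533729787175157891072,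 .ofNat 0, .ofNat 0, .ofNat 0, .ofNat 2385050924749489695046051894656235470848, .ofNat 0, .ofNat 0, .ofNat 0, .ofNat 0, .ofNat 0⟩)
    (by decide +kernel)
theorem L02558 : Good (Phi V5.P V5.D 1 1) ⟨3, 6, 3, 3, 2, 2, 4, 15, 4, 2⟩ :=
  leafX_sound T5.ok_pp T5.Ypp.bz_eq (w := 214) (c := ⟨⟨.negSucc 4905, .negSucc 3080, .ofNat 293, .negSucc 1619, .negSucc 2246, .ofNat 1059⟩, ⟨.negSucc 1990, .negSucc 1975, .negSucc 378, .negSucc 734, .negSucc 1138, .ofNat 491⟩, ⟨.ofNat 4545, .ofNat 1809, .negSucc 116, .ofNat 690, .ofNat 1570, .negSucc 986⟩, ⟨.negSucc 8245, .negSucc 3292, .ofNat 198, .negSucc 3700, .negSucc 3731, .ofNat 2284⟩, ⟨.negSucc 93, .ofNat 85, .ofNat 439, .ofNat 2342, .ofNat 632, .negSucc 1330⟩, .ofNat 633, .negSucc 674, .ofNat 0, .negSucc 674, .ofNat 1558, .ofNat 0, .ofNat 128, .ofNat 268, .negSucc 375, .ofNat 0, .ofNat 179, .negSucc 151, .ofNat 0, .ofNat 0, .ofNat 491, .ofNat 125, .ofNat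 0, .ofNat 37133345209966822141057008904555821268992, .ofNat 306946237215117701673592418169255886848, .ofNat 0, .ofNat 0, .ofNat 301095685894022468839268135217443394027520, .ofNat 686499325411010569318273929269970206720, .ofNat 0, .ofNat 0, .ofNat 498132141399385124929865089143299830185984, .ofNat 3650978256062292697986736279106713812992, .ofNat 0, .ofNat 0, .ofNat 697677596275106338109027821455153718886400, .ofNat 1886680910531792351564848606682799931392, .ofNat 0⟩)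
    (by decide +kernel)
theorem L02559 : Good (Phi V5.P V5.D 1 1) ⟨3, 6, 3, 3, 2, 2, 3, 6, 4, 3⟩ :=
  leafX_sound T5.ok_pp T5.Ypp.bz_eq (w := 209) (c := ⟨⟨.negSucc 3530, .negSucc 1085, .ofNat 5, .negSucc 482, .negSucc 612, .ofNat 691⟩, ⟨.negSucc 1445, .negSucc 974, .negSucc 241, .negSucc 222, .negSucc 307, .ofNat 320⟩, ⟨.ofNat 3168, .ofNat 610, .negSucc 3, .ofNat 30, .ofNat 501, .negSucc 602⟩, ⟨.negSucc 5792, .negSucc 748, .ofNat 60, .negSucc 875, .negSucc 847, .ofNat 1313⟩, ⟨.negSucc 274, .ofNat 134, .negSucc 28, .ofNat 195, .negSucc 195, .negSucc 545⟩, .ofNat 631, .negSucc 676, .ofNat 0, .negSucc 676, .ofNat 1592, .ofNat 0, .ofNat 128, .ofNat 230, .negSucc 137, .ofNat 0, .ofNat 159, .negSucc 51, .ofNat 0, .ofNat 0, .ofNat 418, .ofNat 479, .ofNat 0, .ofNat 0, .ofNat 0, .ofNat 0, .ofNat 0, .ofNat 0, .ofNat 280220961810770841712570980131439378432, .ofNat 0, .ofNat 0, .ofNat 0, .ofNat 413467706414894690117515178546265325568,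 .ofNat 0, .ofNat 0, .ofNat 0, .ofNat 0, .ofNat 0⟩)
    (by decide +kernel)
theorem L02560 : Good (Phi V5.P V5.D 1 1) ⟨3, 6, 3, 3, 2, 2, 3, 7, 4, 3⟩ :=
  leafX_sound T5.ok_pp T5.Ypp.bz_eq (w := 209) (c := ⟨⟨.negSucc 3958, .negSucc 1324, .negSucc 10, .negSucc 810, .negSucc 1529, .ofNat 645⟩, ⟨.negSucc 1632, .negSucc 1141, .negSucc 286, .negSucc 396, .negSucc 783, .ofNat 325⟩, ⟨.ofNat 3646, .ofNat 642, .ofNat 28, .ofNat 222, .ofNat 958, .negSucc 683⟩, ⟨.negSucc 6417, .negSucc 962, .negSucc 2, .negSucc 1385, .negSucc 2198, .ofNat 1290⟩, ⟨.negSucc 588, .ofNat 142, .ofNat 86, .ofNat 331, .negSucc 229, .negSucc 635⟩, .ofNat 661, .negSucc 735, .ofNat 0, .negSucc 735, .ofNat 1700, .ofNat 0, .ofNat 128, .ofNat 290, .negSucc 136, .ofNat 0, .ofNat 195, .negSucc 51, .ofNat 0, .ofNat 0, .ofNat 382, .ofNat 264, .ofNat 0, .ofNat 11019653737093425148953072317750260531200, .ofNat 12688599944592092392113211163707179008,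 .ofNat 0, .ofNat 0, .ofNat 100766091999900165014284395576838754140160, .ofNat 106500512925095334517369125971209224192, .ofNat 0, .ofNat 0, .ofNat 250093226174614958972906101282303373213696, .ofNat 490521894784206834207052618609954127872, .ofNat 0, .ofNat 0, .ofNat 147875117563587275619648008725682720866304, .ofNat 22409488206010965888513233079288987648, .ofNat 0⟩)
    (by decide +kernel)
theorem L02561 : Good (Phi V5.P V5.D 1 1) ⟨3, 7, 3, 3, 2, 2, 2, 3, 3, 1⟩ :=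
  out_sound (S := T5.ds_pp) T5.ok_pp (w := 45) (j := 3) (by decide +kernel)
theorem L02562 : Good (Phi V5.P V5.D 1 1) ⟨2, 2, 3, 3, 2, 3, 2, 2, 3, 0⟩ :=
  out_sound (S := T5.ds_pp) T5.ok_pp (w := 39) (j := 3) (by decide +kernel)
theorem L02563 : Good (Phi V5.P V5.D 1 1) ⟨4, 12, 4, 6, 3, 6, 2, 2, 4, 0⟩ :=
  leafX_sound T5.ok_pp T5.Ypp.bz_eq (w := 229) (c := ⟨⟨.ofNat 4414, .negSucc 1583, .ofNat 565, .negSucc 1580, .negSucc 3990, .negSucc 5552⟩, ⟨.ofNat 1975, .negSucc 513, .ofNat 34, .negSucc 693, .negSucc 1760, .negSucc 2576⟩, ⟨.negSucc 3005, .ofNat 1076, .negSucc 360, .ofNat 756, .ofNat 2967, .ofNat 3252⟩, ⟨.ofNat 6805, .negSucc 2497, .ofNat 740, .negSucc 3704, .negSucc 7360, .negSucc 8638⟩, ⟨.ofNat 67, .ofNat 480, .negSucc 59, .ofNat 2574, .ofNat 2330, .negSucc 149⟩, .ofNat 1073, .negSucc 1550, .ofNat 0, .negSucc 1550, .ofNat 3492, .ofNat 0, .ofNat 128, .ofNat 474, .negSucc 1030, .ofNat 0,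 .ofNat 252, .negSucc 446, .ofNat 0, .ofNat 0, .ofNat 844, .ofNat 281, .ofNat 0, .ofNat 0, .ofNat 0, .ofNat 0, .ofNat 0, .ofNat 0, .ofNat 44572713835034585778108340204403918110720, .ofNat 0, .ofNat 0, .ofNat 0, .ofNat 0, .ofNat 0, .ofNat 0, .ofNat 0, .ofNat 0, .ofNat 0⟩)
    (by decide +kernel)
theorem L02564 : Good (Phi V5.P V5.D 1 1) ⟨4, 12, 4, 6, 4, 14, 2, 2, 4, 0⟩ :=
  leafX_sound T5.ok_pp T5.Ypp.bz_eq (w := 242) (c := ⟨⟨.ofNat 645, .negSucc 1247, .ofNat 98, .ofNat 390, .negSucc 3789, .negSucc 2909⟩, ⟨.ofNat 214, .negSucc 230, .negSucc 196, .ofNat 232, .negSucc 1677, .negSucc 1397⟩, ⟨.negSucc 719, .ofNat 814, .negSucc 44, .negSucc 296, .ofNat 2603, .ofNat 1532⟩, ⟨.negSucc 131, .negSucc 2185, .ofNat 81, .ofNat 155, .negSucc 7097, .negSucc 4446⟩, ⟨.ofNat 2258, .ofNat 856, .negSucc 176, .ofNat 972, .ofNat 2459, .negSucc 208⟩, .ofNat 1070, .negSucc 1537, .ofNat 0, .negSucc 1537, .ofNat 3449,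 .ofNat 0, .ofNat 128, .ofNat 515, .negSucc 1166, .ofNat 0, .ofNat 274, .negSucc 495, .ofNat 0, .ofNat 0, .ofNat 902, .ofNat 514, .ofNat 0, .ofNat 0, .ofNat 0, .ofNat 0, .ofNat 0, .ofNat 0, .ofNat 1974187927731042980093078732750421201784930304, .ofNat 0, .ofNat 0, .ofNat 0, .ofNat 0, .ofNat 0, .ofNat 0, .ofNat 0, .ofNat 0, .ofNat 0⟩)
    (by decide +kernel)
theorem L02565 : Good (Phi V5.P V5.D 1 1) ⟨4, 12, 4, 6, 4, 15, 2, 2, 4, 0⟩ :=
  leafX_sound T5.ok_pp T5.Ypp.bz_eq (w := 242) (c := ⟨⟨.negSucc 382, .negSucc 320, .ofNat 165, .ofNat 2421, .negSucc 3148, .negSucc 2188⟩, ⟨.negSucc 228, .ofNat 158, .negSucc 117, .ofNat 1168, .negSucc 1384, .negSucc 1046⟩, ⟨.ofNat 79, .ofNat 384, .negSucc 169, .negSucc 1259, .ofNat 1845, .ofNat 779⟩, ⟨.negSucc 2371, .negSucc 919, .ofNat 0, .ofNat 4112, .negSucc 6062, .negSucc 3002⟩, ⟨.ofNat 3912, .ofNat 846, .ofNat 216, .negSucc 678, .ofNat 2431, .negSucc 924⟩,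 .ofNat 1065, .negSucc 1534, .ofNat 0, .negSucc 1534, .ofNat 3460, .ofNat 0, .ofNat 128, .ofNat 481, .negSucc 810, .ofNat 0, .ofNat 256, .negSucc 329, .ofNat 0, .ofNat 0, .ofNat 652, .ofNat 456, .ofNat 0, .ofNat 0, .ofNat 0, .ofNat 0, .ofNat 0, .ofNat 0, .ofNat 0, .ofNat 0, .ofNat 0, .ofNat 0, .ofNat 0, .ofNat 0, .ofNat 0, .ofNat 0, .ofNat 0, .ofNat 0⟩)
    (by decide +kernel)
theorem L02566 : Good (Phi V5.P V5.D 1 1) ⟨5, 26, 4, 6, 3, 6, 2, 2, 4, 0⟩ :=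
  leafX_sound T5.ok_pp T5.Ypp.bz_eq (w := 233) (c := ⟨⟨.ofNat 4028, .negSucc 31, .negSucc 221, .negSucc 2566, .negSucc 4297, .negSucc 6126⟩, ⟨.ofNat 2189, .ofNat 223, .negSucc 422, .negSucc 1147, .negSucc 2002, .negSucc 3023⟩, ⟨.negSucc 2660, .ofNat 56, .ofNat 191, .ofNat 1308, .ofNat 3200, .ofNat 3523⟩, ⟨.ofNat 6467, .negSucc 321, .negSucc 705, .negSucc 5443, .negSucc 7920, .negSucc 9480⟩, ⟨.negSucc 895, .ofNat 840, .ofNat 603, .ofNat 3201, .ofNat 2758, .ofNat 484⟩, .ofNat 1127, .negSucc 1525, .ofNat 0, .negSucc 1525, .ofNat 3127, .ofNat 0, .ofNat 128, .ofNat 343, .negSucc 1067, .ofNat 0, .ofNat 201, .negSucc 495, .ofNat 0, .ofNat 0, .ofNat 788, .ofNat 233, .ofNat 0, .ofNat 0, .ofNat 2432961782767714098967510307861486895104, .ofNat 0, .ofNat 0, .ofNat 0, .ofNat 64387740787324920306718617403616596590592, .ofNat 0, .ofNat 0, .ofNat 0, .ofNat 57925640682827664749157754722839185850368, .ofNat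 0, .ofNat 0, .ofNat 0, .ofNat 110883035511809956068240027266796570542080, .ofNat 0⟩)
    (by decide +kernel)
theorem L02567 : Good (Phi V5.P V5.D 1 1) ⟨5, 27, 4, 6, 3, 6, 2, 2, 4, 0⟩ :=
  out_sound (S := T5.ds_pp) T5.ok_pp (w := 59) (j := 3) (by decide +kernel)
theorem L02568 : Good (Phi V5.P V5.D 1 1) ⟨5, 26, 4, 6, 4, 14, 2, 2, 4, 0⟩ :=
  leafX_sound T5.ok_pp T5.Ypp.bz_eq (w := 246) (c := ⟨⟨.negSucc 32, .negSucc 2480, .ofNat 773, .ofNat 935, .negSucc 4288, .negSucc 3866⟩, ⟨.ofNat 237, .negSucc 978, .ofNat 85, .ofNat 540, .negSucc 1962, .negSucc 1887⟩, ⟨.negSucc 265, .ofNat 1514, .negSucc 450, .negSucc 652, .ofNat 2919, .ofNat 2127⟩, ⟨.negSucc 1292, .negSucc 3807, .ofNat 853, .ofNat 870, .negSucc 8350, .negSucc 5739⟩, ⟨.ofNat 2729, .ofNat 320, .ofNat 252, .ofNat 1046, .ofNat 3598, .negSucc 302⟩, .ofNat 994, .negSucc 1301, .ofNat 0, .negSucc 1301, .ofNat 2728, .ofNat 0, .ofNat 128, .ofNat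 413, .negSucc 1226, .ofNat 0, .ofNat 238, .negSucc 548, .ofNat 0, .ofNat 0, .ofNat 893, .ofNat 348, .ofNat 0, .ofNat 0, .ofNat 61164255068223944449000621861564316320268288, .ofNat 0, .ofNat 0, .ofNat 0, .ofNat 1133316824476684647617213120051502795068538880, .ofNat 0, .ofNat 0, .ofNat 0, .ofNat 1615574207142288319767679342916808316481961984, .ofNat 0, .ofNat 0, .ofNat 0, .ofNat 1999866624281833141147757870943834140108128256, .ofNat 0⟩)
    (by decide +kernel)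
theorem L02569 : Good (Phi V5.P V5.D 1 1) ⟨5, 26, 4, 6, 5, 30, 2, 2, 4, 0⟩ :=
  leafX_sound T5.ok_pp T5.Ypp.bz_eq (w := 260) (c := ⟨⟨.negSucc 682, .negSucc 856, .ofNat 168, .ofNat 1272, .negSucc 3949, .negSucc 2151⟩, ⟨.ofNat 13, .negSucc 174, .negSucc 209, .ofNat 651, .negSucc 1786, .negSucc 1100⟩, ⟨.ofNat 192, .ofNat 713, .negSucc 166, .negSucc 697, .ofNat 2445, .ofNat 1010⟩, ⟨.negSucc 2690, .negSucc 1798, .negSucc 134, .ofNat 1891, .negSucc 7801, .negSucc 2980⟩, ⟨.ofNat 3511, .ofNat 1015, .ofNat 471, .ofNat 90, .ofNat 3557, .negSucc 564⟩, .ofNat 1002, .negSucc 1323, .ofNat 0, .negSucc 1323, .ofNat 2791, .ofNat 0, .ofNat 128, .ofNat 621, .negSucc 718, .ofNat 0, .ofNat 356, .negSucc 309, .ofNat 0, .ofNat 0, .ofNat 539, .ofNat 349, .ofNat 0, .ofNat 0, .ofNat 637121233338985779696616559602555708751696887808, .ofNat 0, .ofNat 0, .ofNat 0, .ofNat 16782102874484497904107469408380513212788144865280,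 .ofNat 0, .ofNat 0, .ofNat 0, .ofNat 0, .ofNat 0, .ofNat 0, .ofNat 0, .ofNat 25623513814022249175817092646189466837293910196224, .ofNat 0⟩)
    (by decide +kernel)
theorem L02570 : Good (Phi V5.P V5.D 1 1) ⟨5, 26, 4, 6, 5, 31, 3, 4, 5, 0⟩ :=
  leafX_sound T5.ok_pp T5.Ypp.bz_eq (w := 269) (c := ⟨⟨.ofNat 720, .ofNat 138, .negSucc 265, .ofNat 1738, .negSucc 1960, .negSucc 1245⟩, ⟨.ofNat 644, .ofNat 327, .negSucc 297, .ofNat 868, .negSucc 914, .negSucc 659⟩, ⟨.negSucc 220, .ofNat 203, .negSucc 60, .negSucc 656, .ofNat 982, .ofNat 288⟩, ⟨.negSucc 1017, .negSucc 274, .negSucc 632, .ofNat 2704, .negSucc 3608, .negSucc 1395⟩, ⟨.ofNat 4544, .ofNat 714, .ofNat 159, .negSucc 119, .ofNat 1248, .negSucc 1025⟩, .ofNat 911, .negSucc 1138, .ofNat 0, .negSucc 1138, .ofNat 2404, .ofNat 0, .ofNat 128, .ofNat 465, .negSucc 607, .ofNat 0, .ofNat 274, .negSucc 254, .ofNat 0, .ofNat 0, .ofNat 447, .ofNat 1285,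 .ofNat 0, .ofNat 0, .ofNat 1926643015526995528321284634410617117736249115803648, .ofNat 0, .ofNat 0, .ofNat 0, .ofNat 6633153254423758770465526069529450053004910347157504, .ofNat 0, .ofNat 0, .ofNat 0, .ofNat 34060093355741276607007923625425178649439714467119104, .ofNat 0, .ofNat 0, .ofNat 0, .ofNat 14688245256141332718352859145654475194829951515754496, .ofNat 0⟩)
    (by decide +kernel)
theorem L02571 : Good (Phi V5.P V5.D 1 1) ⟨6, 52, 4, 6, 5, 31, 3, 5, 5, 0⟩ :=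
  leafX_sound T5.ok_pp T5.Ypp.bz_eq (w := 273) (c := ⟨⟨.negSucc 1582, .negSucc 143, .negSucc 65, .ofNat 1819, .negSucc 1918, .negSucc 785⟩, ⟨.negSucc 405, .ofNat 83, .negSucc 285, .ofNat 900, .negSucc 842, .negSucc 420⟩, ⟨.ofNat 951, .ofNat 229, .negSucc 169, .negSucc 847, .ofNat 1095, .ofNat 179⟩, ⟨.negSucc 5109, .negSucc 521, .negSucc 418, .ofNat 3005, .negSucc 3672, .negSucc 796⟩, ⟨.ofNat 5706, .ofNat 560, .ofNat 247, .negSucc 443, .ofNat 1509, .negSucc 834⟩, .ofNat 980, .negSucc 1287, .ofNat 0, .negSucc 1287, .ofNat 2740, .ofNat 0, .ofNat 128, .ofNat 300, .negSucc 710, .ofNat 0, .ofNat 172, .negSucc 294, .ofNat 0, .ofNat 0, .ofNat 514, .ofNat 1049, .ofNat 0, .ofNat 0, .ofNat 373284641913466195765189088956464582109559280107520, .ofNat 0, .ofNat 0, .ofNat 0, .ofNat 3547717111888761130231674323988090123045243570880512, .ofNat 0, .ofNat 0, .ofNat 0, .ofNat 1610488358004371132437959613531897076985273765593088,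 .ofNat 0, .ofNat 0, .ofNat 0, .ofNat 0, .ofNat 0⟩)
    (by decide +kernel)
theorem L02572 : Good (Phi V5.P V5.D 1 1) ⟨6, 53, 4, 6, 5, 31, 3, 5, 5, 0⟩ :=
  leafX_sound T5.ok_pp T5.Ypp.bz_eq (w := 274) (c := ⟨⟨.negSucc 1902, .negSucc 262, .negSucc 61, .ofNat 2004, .negSucc 2021, .negSucc 655⟩, ⟨.negSucc 348, .ofNat 46, .negSucc 348, .ofNat 994, .negSucc 914, .negSucc 375⟩, ⟨.ofNat 1271, .ofNat 369, .negSucc 230, .negSucc 945, .ofNat 1201, .ofNat 162⟩, ⟨.negSucc 5754, .negSucc 790, .negSucc 463, .ofNat 3264, .negSucc 4024, .negSucc 613⟩, ⟨.ofNat 6039, .ofNat 752, .ofNat 291, .negSucc 465, .ofNat 1901, .negSucc 735⟩, .ofNat 1002, .negSucc 1295, .ofNat 0, .negSucc 1295, .ofNat 2653, .ofNat 0, .ofNat 128, .ofNat 480, .negSucc 1170, .ofNat 0, .ofNat 283, .negSucc 503, .ofNat 0, .ofNat 0, .ofNat 836, .ofNat 1894, .ofNat 0, .ofNat 0, .ofNat 876643912755128650005525566756928323385794909700096, .ofNat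 0, .ofNat 0, .ofNat 0, .ofNat 10970710190629603669894253968081835458959595435720704, .ofNat 0, .ofNat 0, .ofNat 0, .ofNat 9172391487849564790628325699135064121412831112331264, .ofNat 0, .ofNat 0, .ofNat 0, .ofNat 0, .ofNat 0⟩)
    (by decide +kernel)
theorem L02573 : Good (Phi V5.P V5.D 1 1) ⟨5, 26, 4, 6, 5, 31, 2, 2, 5, 1⟩ :=
  leafX_sound T5.ok_pp T5.Ypp.bz_eq (w := 264) (c := ⟨⟨.negSucc 648, .negSucc 389, .ofNat 118, .ofNat 1692, .negSucc 3485, .negSucc 1326⟩, ⟨.negSucc 50, .ofNat 9, .negSucc 151, .ofNat 829, .negSucc 1541, .negSucc 653⟩, ⟨.ofNat 193, .ofNat 413, .negSucc 158, .negSucc 902, .ofNat 2126, .ofNat 599⟩, ⟨.negSucc 2708, .negSucc 1102, .negSucc 46, .ofNat 2827, .negSucc 6902, .negSucc 2035⟩, ⟨.ofNat 3679, .ofNat 990, .ofNat 147, .negSucc 522, .ofNat 3201, .ofNat 20⟩, .ofNat 1003, .negSucc 1324, .ofNat 0, .negSucc 1324, .ofNat 2788, .ofNat 0, .ofNat 128, .ofNat 186, .negSucc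 394, .ofNat 0, .ofNat 107, .negSucc 162, .ofNat 0, .ofNat 0, .ofNat 324, .ofNat 483, .ofNat 0, .ofNat 0, .ofNat 18398478155400033396314384609680636270653112057856, .ofNat 0, .ofNat 0, .ofNat 0, .ofNat 616348142669664572801223781681203475002082166046720, .ofNat 0, .ofNat 0, .ofNat 0, .ofNat 179383786196415961913004922966934344777380837457920, .ofNat 0, .ofNat 0, .ofNat 0, .ofNat 0, .ofNat 0⟩)
    (by decide +kernel)
theorem L02574 : Good (Phi V5.P V5.D 1 1) ⟨5, 27, 4, 6, 3, 7, 2, 2, 4, 0⟩ :=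
  out_sound (S := T5.ds_pp) T5.ok_pp (w := 59) (j := 3) (by decide +kernel)
theorem L02575 : Good (Phi V5.P V5.D 1 1) ⟨4, 12, 4, 6, 3, 6, 2, 2, 4, 1⟩ :=
  leafX_sound T5.ok_pp T5.Ypp.bz_eq (w := 227) (c := ⟨⟨.negSucc 2843, .negSucc 1508, .ofNat 67, .negSucc 330, .negSucc 2083, .negSucc 37⟩, ⟨.negSucc 1222, .negSucc 697, .negSucc 230, .negSucc 67, .negSucc 932, .negSucc 44⟩, ⟨.ofNat 1402, .ofNat 903, .ofNat 32, .negSucc 46, .ofNat 1896, .ofNat 292⟩, ⟨.negSucc 4883, .negSucc 2339, .negSucc 33, .negSucc 1538, .negSucc 3958, .ofNat 323⟩, ⟨.ofNat 160, .ofNat 1042, .ofNat 79, .ofNat 2165, .ofNat 1401, .negSucc 835⟩, .ofNat 821, .negSucc 1050, .ofNat 0, .negSucc 1050, .ofNat 2450, .ofNat 0, .ofNat 128, .ofNat 329, .negSucc 629, .ofNat 0, .ofNat 183, .negSucc 252, .ofNat 0, .ofNat 0, .ofNat 668, .ofNat 388, .ofNat 0, .ofNat 0, .ofNat 0, .ofNat 0, .ofNat 0, .ofNat 0, .ofNat 80210722776387281286060170233569733509120,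 .ofNat 0, .ofNat 0, .ofNat 0, .ofNat 0, .ofNat 0, .ofNat 0, .ofNat 0, .ofNat 0, .ofNat 0⟩)
    (by decide +kernel)
theorem L02576 : Good (Phi V5.P V5.D 1 1) ⟨4, 12, 4, 6, 3, 7, 2, 2, 4, 1⟩ :=
  leafX_sound T5.ok_pp T5.Ypp.bz_eq (w := 228) (c := ⟨⟨.negSucc 3511, .negSucc 995, .ofNat 103, .ofNat 2239, .negSucc 2106, .negSucc 309⟩, ⟨.negSucc 1594, .negSucc 268, .negSucc 240, .ofNat 1114, .negSucc 922, .negSucc 173⟩, ⟨.ofNat 1685, .ofNat 602, .negSucc 30, .negSucc 1593, .ofNat 1615, .ofNat 501⟩, ⟨.negSucc 6890, .negSucc 1561, .negSucc 298, .ofNat 2871, .negSucc 4150, .negSucc 91⟩, ⟨.ofNat 2526, .ofNat 694, .ofNat 624, .ofNat 1388, .ofNat 1776, .negSucc 849⟩, .ofNat 1064, .negSucc 1530, .ofNat 0, .negSucc 1530, .ofNat 3450, .ofNat 0, .ofNat 128, .ofNat 347, .negSucc 538, .ofNat 0, .ofNat 189, .negSucc 215, .ofNat 0, .ofNat 0, .ofNat 585, .ofNat 345, .ofNat 0, .ofNat 0, .ofNat 0, .ofNat 0, .ofNat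 0, .ofNat 0, .ofNat 0, .ofNat 0, .ofNat 0, .ofNat 0, .ofNat 0, .ofNat 0, .ofNat 0, .ofNat 0, .ofNat 0, .ofNat 0⟩)
    (by decide +kernel)
theorem L02577 : Good (Phi V5.P V5.D 1 1) ⟨5, 26, 4, 6, 3, 6, 2, 2, 4, 1⟩ :=
  leafX_sound T5.ok_pp T5.Ypp.bz_eq (w := 232) (c := ⟨⟨.negSucc 4540, .negSucc 675, .ofNat 275, .negSucc 387, .negSucc 2681, .ofNat 439⟩, ⟨.negSucc 1991, .negSucc 313, .negSucc 153, .negSucc 51, .negSucc 1264, .ofNat 153⟩, ⟨.ofNat 2343, .ofNat 488, .negSucc 122, .ofNat 52, .ofNat 2294, .ofNat 32⟩, ⟨.negSucc 7546, .negSucc 981, .ofNat 198, .negSucc 1671, .negSucc 4771, .ofNat 1191⟩, ⟨.ofNat 1197, .ofNat 419, .ofNat 300, .ofNat 2144, .ofNat 1386, .negSucc 1071⟩, .ofNat 1166, .negSucc 1615, .ofNat 0, .negSucc 1615, .ofNat 3322, .ofNat 0, .ofNat 128, .ofNat 264, .negSucc 454, .ofNat 0, .ofNat 154, .negSucc 203, .ofNat 0, .ofNat 0, .ofNat 484, .ofNat 325, .ofNat 0, .ofNat 0, .ofNat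 1990903809689387515812385209540069556224, .ofNat 0, .ofNat 0, .ofNat 0, .ofNat 81983291758203842887768512286297832816640, .ofNat 0, .ofNat 0, .ofNat 0, .ofNat 96887703294742022705046060663277988347904, .ofNat 0, .ofNat 0, .ofNat 0, .ofNat 48950690597420744909285516201207397351424, .ofNat 0⟩)
    (by decide +kernel)
theorem L02578 : Good (Phi V5.P V5.D 1 1) ⟨5, 26, 4, 6, 4, 14, 2, 2, 4, 1⟩ :=
  leafX_sound T5.ok_pp T5.Ypp.bz_eq (w := 246) (c := ⟨⟨.negSucc 4932, .negSucc 596, .ofNat 164, .ofNat 742, .negSucc 2561, .ofNat 641⟩, ⟨.negSucc 2065, .negSucc 244, .negSucc 225, .ofNat 457, .negSucc 1150, .ofNat 228⟩, ⟨.ofNat 2523, .ofNat 427, .negSucc 64, .negSucc 615, .ofNat 2016, .negSucc 120⟩, ⟨.negSucc 9167, .negSucc 1179, .negSucc 150, .ofNat 731, .negSucc 4814, .ofNat 1709⟩, ⟨.ofNat 3362, .ofNat 866, .ofNat 575, .ofNat 823, .ofNat 1858, .negSucc 1513⟩, .ofNat 1127, .negSucc 1525, .ofNat 0, .negSucc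 1525, .ofNat 3127, .ofNat 0, .ofNat 128, .ofNat 322, .negSucc 579, .ofNat 0, .ofNat 192, .negSucc 245, .ofNat 0, .ofNat 0, .ofNat 575, .ofNat 489, .ofNat 0, .ofNat 0, .ofNat 55148739515749582638327155298858394496008192, .ofNat 0, .ofNat 0, .ofNat 0, .ofNat 1172766999803115668466568370818791796182614016, .ofNat 0, .ofNat 0, .ofNat 0, .ofNat 775827133086815912913161035621416053283749888, .ofNat 0, .ofNat 0, .ofNat 0, .ofNat 1541513871058578110535368838645421685149270016, .ofNat 0⟩)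
    (by decide +kernel)
theorem L02579 : Good (Phi V5.P V5.D 1 1) ⟨5, 26, 4, 6, 4, 15, 2, 2, 4, 1⟩ :=
  leafX_sound T5.ok_pp T5.Ypp.bz_eq (w := 246) (c := ⟨⟨.negSucc 3122, .negSucc 527, .ofNat 126, .ofNat 1549, .negSucc 2374, .negSucc 555⟩, ⟨.negSucc 1189, .negSucc 80, .negSucc 231, .ofNat 822, .negSucc 1052, .negSucc 324⟩, ⟨.ofNat 1399, .ofNat 437, .negSucc 96, .negSucc 944, .ofNat 1717, .ofNat 575⟩, ⟨.negSucc 6188, .negSucc 1177, .negSucc 304, .ofNat 2011, .negSucc 4968, .negSucc 537⟩, ⟨.ofNat 3003, .ofNat 892, .ofNat 704, .ofNat 727, .ofNat 2718, .negSucc 621⟩, .ofNat 1127, .negSucc 1525, .ofNat 0, .negSucc 1525, .ofNat 3127, .ofNat 0, .ofNat 128, .ofNat 346, .negSucc 488, .ofNat 0, .ofNat 208, .negSucc 196, .ofNat 0, .ofNat 0, .ofNat 508, .ofNat 406, .ofNat 0, .ofNat 0, .ofNat 41983897727451790712121184035516257071529984, .ofNat 0, .ofNat 0, .ofNat 0, .ofNat 596900292249861195439859914532673712304422912,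 .ofNat 0, .ofNat 0, .ofNat 0, .ofNat 604272298712960922180765395016179527018610688, .ofNat 0, .ofNat 0, .ofNat 0, .ofNat 829735914452450356291788071893296289985593344, .ofNat 0⟩)
    (by decide +kernel)
theorem L02580 : Good (Phi V5.P V5.D 1 1) ⟨5, 27, 4, 6, 2, 3, 2, 2, 4, 1⟩ :=
  out_sound (S := T5.ds_pp) T5.ok_pp (w := 59) (j := 3) (by decide +kernel)
theorem L02581 : Good (Phi V5.P V5.D 1 1) ⟨3, 7, 4, 6, 2, 3, 2, 2, 3, 0⟩ :=
  out_sound (S := T5.ds_pp) T5.ok_pp (w := 47) (j := 3) (by decide +kernel)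
theorem L02582 : Good (Phi V5.P V5.D 1 1) ⟨4, 12, 4, 7, 3, 6, 2, 2, 4, 0⟩ :=
  leafX_sound T5.ok_pp T5.Ypp.bz_eq (w := 233) (c := ⟨⟨.ofNat 4105, .negSucc 1, .negSucc 2269, .negSucc 2693, .negSucc 4289, .negSucc 6193⟩, ⟨.ofNat 2084, .negSucc 0, .negSucc 1993, .negSucc 1277, .negSucc 2084, .negSucc 3107⟩, ⟨.negSucc 2666, .ofNat 1, .negSucc 628, .ofNat 1357, .ofNat 3176, .ofNat 3619⟩, ⟨.ofNat 5766, .negSucc 2, .negSucc 829, .negSucc 5253, .negSucc 7608, .negSucc 9340⟩, ⟨.ofNat 1107, .ofNat 1, .negSucc 540, .ofNat 2163, .ofNat 1964, .negSucc 405⟩, .ofNat 2532, .negSucc 4278, .ofNat 0, .negSucc 4278, .ofNat 8566, .ofNat 0, .ofNat 128, .ofNat 1126, .negSucc 2607, .ofNat 0, .ofNat 608, .negSucc 1264, .ofNat 0, .ofNat 0, .ofNat 2082, .ofNat 1369, .ofNat 0, .ofNat 0, .ofNat 0, .ofNat 0, .ofNat 0, .ofNat 0, .ofNat 22588269290733485927951628929850938767704064, .ofNat 0, .ofNat 0, .ofNat 0, .ofNat 41452889916817999695333380906445311267831808,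 .ofNat 0, .ofNat 0, .ofNat 0, .ofNat 1968002727551884655924927350221114529808384, .ofNat 0⟩)
    (by decide +kernel)
theorem L02583 : Good (Phi V5.P V5.D 1 1) ⟨4, 13, 4, 7, 3, 6, 2, 2, 4, 0⟩ :=
  leafX_sound T5.ok_pp T5.Ypp.bz_eq (w := 229) (c := ⟨⟨.ofNat 4134, .negSucc 1033, .ofNat 36, .negSucc 2447, .negSucc 4693, .negSucc 6197⟩, ⟨.ofNat 2188, .negSucc 238, .negSucc 245, .negSucc 1137, .negSucc 2381, .negSucc 3262⟩, ⟨.negSucc 2727, .ofNat 585, .ofNat 110, .ofNat 1271, .ofNat 3402, .ofNat 3621⟩, ⟨.ofNat 6129, .negSucc 1758, .negSucc 249, .negSucc 4922, .negSucc 8673, .negSucc 9483⟩, ⟨.ofNat 281, .ofNat 463, .ofNat 421, .ofNat 2205, .ofNat 3048, .ofNat 370⟩, .ofNat 1453, .negSucc 2031, .ofNat 0, .negSucc 2031, .ofNat 3831, .ofNat 0, .ofNat 128, .ofNat 388, .negSucc 1083, .ofNat 0, .ofNat 233, .negSucc 552, .ofNat 0, .ofNat 0, .ofNat 802, .ofNat 159, .ofNat 0, .ofNat 0, .ofNat 11035260844181018297057321258090963664896,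 .ofNat 0, .ofNat 0, .ofNat 0, .ofNat 266136289604097870902880757497696037634048, .ofNat 0, .ofNat 0, .ofNat 0, .ofNat 317229664711789081589599342081309178593280, .ofNat 0, .ofNat 0, .ofNat 0, .ofNat 259402494104989252128740045943591833436160, .ofNat 0⟩)
    (by decide +kernel)
theorem L02584 : Good (Phi V5.P V5.D 1 1) ⟨4, 12, 4, 7, 3, 7, 2, 2, 4, 0⟩ :=
  leafX_sound T5.ok_pp T5.Ypp.bz_eq (w := 233) (c := ⟨⟨.negSucc 1830, .negSucc 0, .ofNat 1324, .ofNat 3735, .negSucc 3338, .negSucc 2455⟩, ⟨.negSucc 818, .ofNat 0, .ofNat 584, .ofNat 1886, .negSucc 1588, .negSucc 1233⟩, ⟨.ofNat 868, .ofNat 0, .negSucc 1642, .negSucc 2081, .ofNat 2085, .ofNat 1166⟩, ⟨.negSucc 4508, .negSucc 2, .ofNat 299, .ofNat 5404, .negSucc 6437, .negSucc 3687⟩, ⟨.ofNat 3393, .ofNat 3, .ofNat 186, .ofNat 693, .ofNat 2586, .negSucc 193⟩, .ofNat 2530, .negSucc 4274, .ofNat 0, .negSucc 4274, .ofNat 8557, .ofNat 0, .ofNat 128,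 .ofNat 874, .negSucc 2622, .ofNat 0, .ofNat 470, .negSucc 1244, .ofNat 0, .ofNat 0, .ofNat 2054, .ofNat 1148, .ofNat 0, .ofNat 0, .ofNat 0, .ofNat 0, .ofNat 0, .ofNat 0, .ofNat 10553348768368214844622448092079165724950528, .ofNat 0, .ofNat 0, .ofNat 0, .ofNat 2137126139414488912383617594932204834652160, .ofNat 0, .ofNat 0, .ofNat 0, .ofNat 2339665198696728887048909218762983691255808, .ofNat 0⟩)
    (by decide +kernel)
theorem L02585 : Good (Phi V5.P V5.D 1 1) ⟨5, 26, 4, 7, 4, 14, 3, 4, 5, 0⟩ :=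
  leafX_sound T5.ok_pp T5.Ypp.bz_eq (w := 256) (c := ⟨⟨.ofNat 169, .negSucc 412, .negSucc 33, .negSucc 122, .negSucc 2380, .negSucc 1795⟩, ⟨.ofNat 230, .negSucc 65, .negSucc 246, .negSucc 7, .negSucc 1200, .negSucc 965⟩, ⟨.negSucc 388, .ofNat 322, .negSucc 25, .ofNat 60, .ofNat 1482, .ofNat 872⟩, ⟨.negSucc 859, .negSucc 1115, .negSucc 200, .negSucc 948, .negSucc 4664, .negSucc 2725⟩, ⟨.ofNat 2218, .ofNat 984, .ofNat 1, .ofNat 1415, .ofNat 2036, .ofNat 29⟩, .ofNat 1220, .negSucc 1691, .ofNat 0, .negSucc 1691, .ofNat 3370, .ofNat 0, .ofNat 128, .ofNat 432, .negSucc 1528, .ofNat 0, .ofNat 248, .negSucc 740, .ofNat 0, .ofNat 0, .ofNat 1080, .ofNat 605, .ofNat 0, .ofNat 0, .ofNat 0, .ofNat 0, .ofNat 0, .ofNat 0, .ofNat 1643317695634794320581411813375420449680688939008, .ofNat 0, .ofNat 0, .ofNat 0, .ofNat 0, .ofNat 0, .ofNat 0, .ofNat 0, .ofNat 0, .ofNat 0⟩)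
    (by decide +kernel)

end Crest.Agent.R097C5.N5pp
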