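import Crest.Agent.R097.KP7
import Crest.Agent.R097.T5Ypp

/-!
# Row 97, box cover in dimension n = 5 (generated)
-/

set_option autoImplicit false
set_option Elab.async false
set_option maxHeartbeats 0
set_option maxRecDepth 100000

open Crest.Agent.R097 Crest.Agent.R097.KA


namespace Crest.Agent.R097C5.N5pp

theorem L02586 : Good (Phi V5.P V5.D 1 1) ⟨6, 52, 4, 7, 4, 15, 3, 4, 5, 0⟩ :=
  leafX_sound T5.ok_pp T5.Ypp.bz_eq (w := 260) (c := ⟨⟨.negSucc 803, .negSucc 35, .ofNat 132, .ofNat 2774, .negSucc 1812, .negSucc 976⟩, ⟨.negSucc 268, .ofNat 94, .negSucc 114, .ofNat 1408, .negSucc 884, .negSucc 533⟩, ⟨.ofNat 309, .ofNat 115, .negSucc 201, .negSucc 1222, .ofNat 927, .ofNat 227⟩, ⟨.negSucc 3587, .negSucc 247, .negSucc 80, .ofNat 4335, .negSucc 3384, .negSucc 1026⟩, ⟨.ofNat 4724, .ofNat 292, .ofNat 243, .negSucc 193, .ofNat 1185, .negSucc 916⟩, .ofNat 1473, .negSucc 2202, .ofNat 0,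 .negSucc 2202, .ofNat 4417, .ofNat 0, .ofNat 128, .ofNat 617, .negSucc 1299, .ofNat 0, .ofNat 343, .negSucc 621, .ofNat 0, .ofNat 0, .ofNat 956, .ofNat 1387, .ofNat 0, .ofNat 0, .ofNat 0, .ofNat 0, .ofNat 0, .ofNat 0, .ofNat 400129245774775497327103063340973409049470042112, .ofNat 0, .ofNat 0, .ofNat 0, .ofNat 157488554037983629497246619265335163829092352000, .ofNat 0, .ofNat 0, .ofNat 0, .ofNat 0, .ofNat 0⟩)
    (by decide +kernel)
theorem L02587 : Good (Phi V5.P V5.D 1 1) ⟨6, 53, 4, 7, 4, 15, 3, 4, 5, 0⟩ :=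
  leafX_sound T5.ok_pp T5.Ypp.bz_eq (w := 260) (c := ⟨⟨.negSucc 873, .negSucc 168, .ofNat 105, .ofNat 3237, .negSucc 2098, .negSucc 1231⟩, ⟨.negSucc 212, .ofNat 41, .negSucc 155, .ofNat 1714, .negSucc 1049, .negSucc 694⟩, ⟨.ofNat 518, .ofNat 219, .negSucc 281, .negSucc 1405, .ofNat 1059, .ofNat 278⟩, ⟨.negSucc 3945, .negSucc 561, .negSucc 14, .ofNat 4988, .negSucc 3945, .negSucc 1251⟩, ⟨.ofNat 5157, .ofNat 459, .ofNat 25, .negSucc 224, .ofNat 1477, .negSucc 1149⟩, .ofNat 1195, .negSucc 1625, .ofNat 0, .negSucc 1625, .ofNat 3195, .ofNat 0, .ofNat 128, .ofNat 562, .negSucc 1315, .ofNat 0, .ofNat 329, .negSucc 622, .ofNat 0, .ofNat 0, .ofNat 950, .ofNat 1209, .ofNat 0, .ofNat 0, .ofNat 36896707311692471441837672151627889107636584448, .ofNat 0, .ofNat 0, .ofNat 0, .ofNat 247697121868936886789258880319151324378098040832, .ofNat 0, .ofNat 0, .ofNat 0, .ofNat 145723823860236170021822130241951478174852317184,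 .ofNat 0, .ofNat 0, .ofNat 0, .ofNat 0, .ofNat 0⟩)
    (by decide +kernel)
theorem L02588 : Good (Phi V5.P V5.D 1 1) ⟨5, 26, 4, 7, 3, 7, 3, 4, 5, 1⟩ :=
  leafX_sound T5.ok_pp T5.Ypp.bz_eq (w := 241) (c := ⟨⟨.negSucc 3249, .negSucc 731, .ofNat 683, .ofNat 4332, .negSucc 1802, .negSucc 1484⟩, ⟨.negSucc 1604, .negSucc 145, .ofNat 87, .ofNat 2283, .negSucc 888, .negSucc 736⟩, ⟨.ofNat 1499, .ofNat 545, .negSucc 514, .negSucc 2302, .ofNat 1046, .ofNat 756⟩, ⟨.negSucc 6700, .negSucc 1524, .ofNat 913, .ofNat 6666, .negSucc 3679, .negSucc 2345⟩, ⟨.ofNat 3559, .ofNat 831, .negSucc 147, .negSucc 249, .ofNat 1803, .ofNat 177⟩, .ofNat 1216, .negSucc 1693, .ofNat 0, .negSucc 1693, .ofNat 3395, .ofNat 0, .ofNat 128, .ofNat 342, .negSucc 772, .ofNat 0, .ofNat 196, .negSucc 359, .ofNat 0, .ofNat 0, .ofNat 622, .ofNat 449, .ofNat 0, .ofNat 0, .ofNat 2479682215665080977321984509699944936898560, .ofNat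 0, .ofNat 0, .ofNat 0, .ofNat 0, .ofNat 0, .ofNat 0, .ofNat 0, .ofNat 0, .ofNat 0, .ofNat 0, .ofNat 0, .ofNat 0, .ofNat 0⟩)
    (by decide +kernel)
theorem L02589 : Good (Phi V5.P V5.D 1 1) ⟨6, 54, 4, 7, 4, 14, 3, 4, 5, 0⟩ :=
  leafX_sound T5.ok_pp T5.Ypp.bz_eq (w := 262) (c := ⟨⟨.negSucc 745, .negSucc 608, .ofNat 198, .ofNat 257, .negSucc 2542, .negSucc 1680⟩, ⟨.negSucc 25, .negSucc 204, .negSucc 190, .ofNat 201, .negSucc 1311, .negSucc 928⟩, ⟨.ofNat 254, .ofNat 427, .negSucc 218, .negSucc 172, .ofNat 1581, .ofNat 827⟩, ⟨.negSucc 2744, .negSucc 1108, .ofNat 24, .negSucc 565, .negSucc 4729, .negSucc 2344⟩, ⟨.ofNat 3198, .ofNat 440, .ofNat 201, .ofNat 1700, .ofNat 1758, .negSucc 246⟩, .ofNat 2009, .negSucc 2961, .ofNat 0, .negSucc 2961, .ofNat 5379, .ofNat 0, .ofNat 128, .ofNat 575, .negSucc 1865, .ofNat 0, .ofNat 343, .negSucc 974, .ofNat 0, .ofNat 0, .ofNat 1308, .ofNat 351, .ofNat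 0, .ofNat 0, .ofNat 0, .ofNat 0, .ofNat 0, .ofNat 0, .ofNat 1732384115024548763855682304590807576916814462976, .ofNat 0, .ofNat 0, .ofNat 0, .ofNat 0, .ofNat 0, .ofNat 0, .ofNat 0, .ofNat 790860458287983540374618648520447200111775186944, .ofNat 0⟩)
    (by decide +kernel)
theorem L02590 : Good (Phi V5.P V5.D 1 1) ⟨6, 54, 4, 7, 4, 15, 3, 4, 5, 0⟩ :=
  leafX_sound T5.ok_pp T5.Ypp.bz_eq (w := 260) (c := ⟨⟨.negSucc 1577, .negSucc 401, .ofNat 338, .ofNat 3506, .negSucc 2161, .negSucc 1006⟩, ⟨.negSucc 441, .negSucc 68, .negSucc 58, .ofNat 1922, .negSucc 1121, .negSucc 600⟩, ⟨.ofNat 837, .ofNat 394, .negSucc 294, .negSucc 1585, .ofNat 1144, .ofNat 269⟩, ⟨.negSucc 5096, .negSucc 960, .ofNat 208, .ofNat 5462, .negSucc 4243, .negSucc 948⟩, ⟨.ofNat 5300, .ofNat 557, .ofNat 214, .negSucc 493, .ofNat 1863, .negSucc 969⟩, .ofNat 1024, .negSucc 1271, .ofNat 0, .negSucc 1271, .ofNat 2442, .ofNat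 0, .ofNat 128, .ofNat 535, .negSucc 1735, .ofNat 0, .ofNat 330, .negSucc 813, .ofNat 0, .ofNat 0, .ofNat 1206, .ofNat 1333, .ofNat 0, .ofNat 0, .ofNat 42509154662678078819833413351176072659912884224, .ofNat 0, .ofNat 0, .ofNat 0, .ofNat 496268497895470202457498527700022668412810428416, .ofNat 0, .ofNat 0, .ofNat 0, .ofNat 889269151612693915038320152246775680957165862912, .ofNat 0, .ofNat 0, .ofNat 0, .ofNat 0, .ofNat 0⟩)
    (by decide +kernel)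
theorem L02591 : Good (Phi V5.P V5.D 1 1) ⟨6, 55, 4, 7, 3, 7, 3, 4, 5, 0⟩ :=
  out_sound (S := T5.ds_pp) T5.ok_pp (w := 65) (j := 3) (by decide +kernel)
theorem L02592 : Good (Phi V5.P V5.D 1 1) ⟨5, 27, 4, 7, 3, 7, 3, 4, 5, 1⟩ :=
  leafX_sound T5.ok_pp T5.Ypp.bz_eq (w := 243) (c := ⟨⟨.negSucc 4660, .negSucc 1220, .ofNat 679, .ofNat 4951, .negSucc 1935, .negSucc 1208⟩, ⟨.negSucc 2197, .negSucc 413, .ofNat 115, .ofNat 2750, .negSucc 987, .negSucc 664⟩, ⟨.ofNat 2510, .ofNat 913, .negSucc 518, .negSucc 2789, .ofNat 1167, .ofNat 647⟩, ⟨.negSucc 8638, .negSucc 2112, .ofNat 456, .ofNat 6970, .negSucc 3713, .negSucc 1797⟩, ⟨.ofNat 3433, .ofNat 639, .ofNat 657, .ofNat 621, .ofNat 1551, .ofNat 28⟩, .ofNat 2127, .negSucc 3165, .ofNat 0, .negSucc 3165, .ofNat 5732, .ofNat 0, .ofNat 128, .ofNat 358, .negSucc 1016, .ofNat 0, .ofNat 214, .negSucc 514, .ofNat 0, .ofNat 0, .ofNat 828, .ofNat 563,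 .ofNat 0, .ofNat 0, .ofNat 3475195372152383184259990489377050351108096, .ofNat 0, .ofNat 0, .ofNat 0, .ofNat 463388191385615362971231971986003393389789184, .ofNat 0, .ofNat 0, .ofNat 0, .ofNat 32630129846260230239016468268975304736768000, .ofNat 0, .ofNat 0, .ofNat 0, .ofNat 227963830367769717630823877713119793872109568, .ofNat 0⟩)
    (by decide +kernel)
theorem L02593 : Good (Phi V5.P V5.D 1 1) ⟨5, 26, 4, 7, 4, 14, 3, 5, 5, 0⟩ :=
  leafX_sound T5.ok_pp T5.Ypp.bz_eq (w := 256) (c := ⟨⟨.negSucc 2794, .negSucc 1967, .ofNat 952, .ofNat 481, .negSucc 2070, .negSucc 946⟩, ⟨.negSucc 1267, .negSucc 760, .ofNat 72, .ofNat 312, .negSucc 1009, .negSucc 516⟩, ⟨.ofNat 1448, .ofNat 1235, .negSucc 610, .negSucc 434, .ofNat 1431, .ofNat 482⟩, ⟨.negSucc 6347, .negSucc 3583, .ofNat 1142, .ofNat 38, .negSucc 4235, .negSucc 1224⟩, ⟨.ofNat 4133, .ofNat 1388, .ofNat 136, .ofNat 1277, .ofNat 2086, .negSucc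 427⟩, .ofNat 1316, .negSucc 1873, .ofNat 0, .negSucc 1873, .ofNat 3717, .ofNat 0, .ofNat 128, .ofNat 414, .negSucc 1799, .ofNat 0, .ofNat 238, .negSucc 875, .ofNat 0, .ofNat 0, .ofNat 1234, .ofNat 608, .ofNat 0, .ofNat 0, .ofNat 0, .ofNat 0, .ofNat 0, .ofNat 0, .ofNat 2011193465521523550660451367726523366902924836864, .ofNat 0, .ofNat 0, .ofNat 0, .ofNat 220221036590644814770557367059677392439326277632, .ofNat 0, .ofNat 0, .ofNat 0, .ofNat 0, .ofNat 0⟩)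
    (by decide +kernel)
theorem L02594 : Good (Phi V5.P V5.D 1 1) ⟨5, 26, 5, 14, 4, 15, 3, 5, 5, 0⟩ :=
  leafX_sound T5.ok_pp T5.Ypp.bz_eq (w := 259) (c := ⟨⟨.negSucc 3136, .negSucc 660, .ofNat 92, .ofNat 3368, .negSucc 1932, .negSucc 600⟩, ⟨.negSucc 1424, .negSucc 41, .negSucc 100, .ofNat 1722, .negSucc 933, .negSucc 354⟩, ⟨.ofNat 1570, .ofNat 680, .negSucc 167, .negSucc 1724, .ofNat 1129, .ofNat 143⟩, ⟨.negSucc 7822, .negSucc 1712, .negSucc 9, .ofNat 5514, .negSucc 3877, .negSucc 564⟩, ⟨.ofNat 6067, .ofNat 1291, .ofNat 79, .negSucc 842, .ofNat 1846, .negSucc 634⟩, .ofNat 1176, .negSucc 1621, .ofNat 0, .negSucc 1621, .ofNat 3265, .ofNat 0, .ofNat 128, .ofNat 397, .negSucc 880, .ofNat 0, .ofNat 229, .negSucc 402, .ofNat 0, .ofNat 0, .ofNat 620, .ofNat 774, .ofNat 0, .ofNat 0, .ofNat 177590726282674435437874827700614441516021055488, .ofNat 0, .ofNat 0, .ofNat 0, .ofNat 3080282339105562108007389978115145519025279205376,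 .ofNat 0, .ofNat 0, .ofNat 0, .ofNat 2286798088282150823403616891443621615715397664768, .ofNat 0, .ofNat 0, .ofNat 0, .ofNat 5360432907619618063463984956935292172572353888256, .ofNat 0⟩)
    (by decide +kernel)
theorem L02595 : Good (Phi V5.P V5.D 1 1) ⟨5, 26, 5, 15, 4, 15, 3, 5, 5, 0⟩ :=
  leafX_sound T5.ok_pp T5.Ypp.bz_eq (w := 259) (c := ⟨⟨.negSucc 3081, .negSucc 849, .ofNat 205, .ofNat 3461, .negSucc 1907, .negSucc 541⟩, ⟨.negSucc 1583, .negSucc 125, .negSucc 70, .ofNat 1837, .negSucc 971, .negSucc 324⟩, ⟨.ofNat 1326, .ofNat 877, .negSucc 258, .negSucc 1816, .ofNat 1135, .ofNat 206⟩, ⟨.negSucc 7657, .negSucc 2306, .ofNat 220, .ofNat 5637, .negSucc 3872, .negSucc 399⟩, ⟨.ofNat 5751, .ofNat 1854, .negSucc 41, .negSucc 838, .ofNat 1884, .negSucc 750⟩, .ofNat 1632, .negSucc 2397, .ofNat 0, .negSucc 2397, .ofNat 4576, .ofNat 0, .ofNat 128, .ofNat 406, .negSucc 734, .ofNat 0, .ofNat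 236, .negSucc 360, .ofNat 0, .ofNat 0, .ofNat 516, .ofNat 984, .ofNat 0, .ofNat 0, .ofNat 0, .ofNat 0, .ofNat 0, .ofNat 0, .ofNat 0, .ofNat 0, .ofNat 0, .ofNat 0, .ofNat 4046657477562511557092612978464092426290002395136, .ofNat 0, .ofNat 0, .ofNat 0, .ofNat 52769707206943804293540247682587645663709757440, .ofNat 0⟩)
    (by decide +kernel)
theorem L02596 : Good (Phi V5.P V5.D 1 1) ⟨5, 26, 4, 7, 3, 7, 3, 5, 5, 1⟩ :=
  leafX_sound T5.ok_pp T5.Ypp.bz_eq (w := 242) (c := ⟨⟨.negSucc 5518, .negSucc 929, .ofNat 465, .ofNat 5031, .negSucc 1869, .negSucc 1271⟩, ⟨.negSucc 2689, .negSucc 209, .negSucc 108, .ofNat 2620, .negSucc 905, .negSucc 659⟩, ⟨.ofNat 3060, .ofNat 663, .negSucc 324, .negSucc 3026, .ofNat 1213, .ofNat 690⟩, ⟨.negSucc 10710, .negSucc 1988, .ofNat 305, .ofNat 7643, .negSucc 3857, .negSucc 2319⟩, ⟨.ofNat 4593, .ofNat 1220, .ofNat 300, .negSucc 98, .ofNat 1975, .ofNat 808⟩,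 .ofNat 1193, .negSucc 1655, .ofNat 0, .negSucc 1655, .ofNat 3338, .ofNat 0, .ofNat 128, .ofNat 443, .negSucc 948, .ofNat 0, .ofNat 254, .negSucc 435, .ofNat 0, .ofNat 0, .ofNat 733, .ofNat 231, .ofNat 0, .ofNat 0, .ofNat 1525476463434135695574016227415732768473088, .ofNat 0, .ofNat 0, .ofNat 0, .ofNat 0, .ofNat 0, .ofNat 0, .ofNat 0, .ofNat 0, .ofNat 0, .ofNat 0, .ofNat 0, .ofNat 0, .ofNat 0⟩)
    (by decide +kernel)
theorem L02597 : Good (Phi V5.P V5.D 1 1) ⟨6, 54, 5, 14, 3, 7, 3, 5, 4, 0⟩ :=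
  out_sound (S := T5.ds_pp) T5.ok_pp (w := 67) (j := 3) (by decide +kernel)
theorem L02598 : Good (Phi V5.P V5.D 1 1) ⟨6, 54, 5, 15, 4, 14, 3, 5, 4, 0⟩ :=
  leafX_sound T5.ok_pp T5.Ypp.bz_eq (w := 259) (c := ⟨⟨.negSucc 4982, .negSucc 1127, .ofNat 575, .ofNat 1216, .negSucc 2209, .negSucc 2014⟩, ⟨.negSucc 2346, .negSucc 462, .ofNat 66, .ofNat 731, .negSucc 1122, .negSucc 1118⟩, ⟨.ofNat 2721, .ofNat 809, .negSucc 405, .negSucc 882, .ofNat 1600, .ofNat 1291⟩, ⟨.negSucc 10214, .negSucc 2046, .ofNat 686, .ofNat 908, .negSucc 4533, .negSucc 2882⟩, ⟨.ofNat 5252, .ofNat 831, .ofNat 107, .ofNat 1597, .ofNat 2270, .negSucc 174⟩, .ofNat 1466, .negSucc 2011, .ofNat 0, .negSucc 2011, .ofNat 3700, .ofNat 0, .ofNat 128, .ofNat 628, .negSucc 1902, .ofNat 0, .ofNat 384, .negSucc 958, .ofNat 0, .ofNat 0, .ofNat 1339, .ofNat 1309, .ofNat 0, .ofNat 0, .ofNat 0, .ofNat 0, .ofNat 0, .ofNat 0, .ofNat 40933881204803020391050132740464109693039542272,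 .ofNat 0, .ofNat 0, .ofNat 0, .ofNat 12597291670834459497686408257404350149462851584, .ofNat 0, .ofNat 0, .ofNat 0, .ofNat 38022638656516091368484786519865730181858590720, .ofNat 0⟩)
    (by decide +kernel)
theorem L02599 : Good (Phi V5.P V5.D 1 1) ⟨6, 54, 5, 15, 4, 15, 3, 5, 4, 0⟩ :=
  leafX_sound T5.ok_pp T5.Ypp.bz_eq (w := 259) (c := ⟨⟨.negSucc 4110, .negSucc 636, .ofNat 231, .ofNat 3763, .negSucc 2077, .negSucc 1633⟩, ⟨.negSucc 1830, .negSucc 152, .negSucc 74, .ofNat 2047, .negSucc 1051, .negSucc 930⟩, ⟨.ofNat 2212, .ofNat 515, .negSucc 193, .negSucc 2019, .ofNat 1299, .ofNat 779⟩, ⟨.negSucc 9990, .negSucc 1405, .ofNat 163, .ofNat 5925, .negSucc 4264, .negSucc 2078⟩, ⟨.ofNat 7227, .ofNat 867, .ofNat 100, .negSucc 654, .ofNat 2160, .negSucc 611⟩, .ofNat 1871, .negSucc 2727, .ofNat 0, .negSucc 2727, .ofNat 4977, .ofNat 0, .ofNat 128, .ofNat 395, .negSucc 739, .ofNat 0, .ofNat 237,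 .negSucc 369, .ofNat 0, .ofNat 0, .ofNat 544, .ofNat 848, .ofNat 0, .ofNat 0, .ofNat 2531850233766642560139454895073208570356957184, .ofNat 0, .ofNat 0, .ofNat 0, .ofNat 47763194289513772010090165664309376246817488896, .ofNat 0, .ofNat 0, .ofNat 0, .ofNat 20537480556752354641714548851270268657799790592, .ofNat 0, .ofNat 0, .ofNat 0, .ofNat 23451905748965592318300294082477807551903694848, .ofNat 0⟩)
    (by decide +kernel)
theorem L02600 : Good (Phi V5.P V5.D 1 1) ⟨6, 55, 4, 7, 3, 7, 3, 5, 4, 0⟩ :=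
  out_sound (S := T5.ds_pp) T5.ok_pp (w := 65) (j := 3) (by decide +kernel)
theorem L02601 : Good (Phi V5.P V5.D 1 1) ⟨4, 12, 4, 7, 3, 6, 2, 2, 4, 1⟩ :=
  leafX_sound T5.ok_pp T5.Ypp.bz_eq (w := 231) (c := ⟨⟨.negSucc 4118, .negSucc 1, .ofNat 2265, .negSucc 172, .negSucc 2230, .negSucc 43⟩, ⟨.negSucc 2023, .negSucc 0, .ofNat 982, .negSucc 22, .negSucc 1078, .negSucc 45⟩, ⟨.ofNat 2196, .ofNat 1, .negSucc 2502, .negSucc 109, .ofNat 1971, .ofNat 316⟩, ⟨.negSucc 6968, .negSucc 4, .ofNat 821, .negSucc 1337, .negSucc 4090, .ofNat 325⟩, ⟨.ofNat 1248, .ofNat 1, .ofNat 387, .ofNat 2141, .ofNat 1312, .negSucc 781⟩, .ofNat 2350, .negSucc 3928, .ofNat 0, .negSucc 3928, .ofNat 7891, .ofNat 0, .ofNat 128, .ofNat 940, .negSucc 1293, .ofNat 0, .ofNat 510, .negSucc 615, .ofNat 0, .ofNat 0, .ofNat 1488, .ofNat 1494, .ofNat 0, .ofNat 0, .ofNat 87463559880109055123171895692334909620224, .ofNat 0, .ofNat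 0, .ofNat 0, .ofNat 3565370926764346288035815339154768171892736, .ofNat 0, .ofNat 0, .ofNat 0, .ofNat 1175383293217232531399532727708166121324544, .ofNat 0, .ofNat 0, .ofNat 0, .ofNat 16997044099280661648399489624153549690634240, .ofNat 0⟩)
    (by decide +kernel)
theorem L02602 : Good (Phi V5.P V5.D 1 1) ⟨4, 13, 4, 7, 3, 6, 2, 2, 5, 2⟩ :=
  leafX_sound T5.ok_pp T5.Ypp.bz_eq (w := 233) (c := ⟨⟨.negSucc 3055, .negSucc 2171, .ofNat 258, .negSucc 898, .negSucc 3377, .negSucc 369⟩, ⟨.negSucc 1474, .negSucc 1069, .negSucc 182, .negSucc 344, .negSucc 1704, .negSucc 204⟩, ⟨.ofNat 1497, .ofNat 1382, .negSucc 80, .ofNat 285, .ofNat 2737, .ofNat 414⟩, ⟨.negSucc 4926, .negSucc 3450, .ofNat 108, .negSucc 3053, .negSucc 6369, .negSucc 141⟩, ⟨.ofNat 378, .ofNat 1309, .ofNat 333, .ofNat 3182, .ofNat 2426, .negSucc 748⟩, .ofNat 1211, .negSucc 1663, .ofNat 0, .negSucc 1663, .ofNat 3289, .ofNat 0,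 .ofNat 128, .ofNat 422, .negSucc 851, .ofNat 0, .ofNat 248, .negSucc 410, .ofNat 0, .ofNat 0, .ofNat 810, .ofNat 292, .ofNat 0, .ofNat 0, .ofNat 372449873527683794935022968269485079789568, .ofNat 0, .ofNat 0, .ofNat 0, .ofNat 20231952781232706149653742312587296497467392, .ofNat 0, .ofNat 0, .ofNat 0, .ofNat 12960292874505705506017860971892887269670912, .ofNat 0, .ofNat 0, .ofNat 0, .ofNat 7173608711673381490892569664720378362068992, .ofNat 0⟩)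
    (by decide +kernel)
theorem L02603 : Good (Phi V5.P V5.D 1 1) ⟨4, 13, 4, 7, 3, 6, 2, 2, 5, 3⟩ :=
  leafX_sound T5.ok_pp T5.Ypp.bz_eq (w := 233) (c := ⟨⟨.negSucc 4524, .negSucc 1158, .ofNat 132, .negSucc 147, .negSucc 2400, .ofNat 409⟩, ⟨.negSucc 2239, .negSucc 542, .negSucc 246, .ofNat 32, .negSucc 1216, .ofNat 196⟩, ⟨.ofNat 2596, .ofNat 698, .ofNat 14, .negSucc 146, .ofNat 2111, .negSucc 125⟩, ⟨.negSucc 7486, .negSucc 1466, .negSucc 111, .negSucc 1365, .negSucc 4444, .ofNat 1054⟩, ⟨.ofNat 1024, .ofNat 491, .ofNat 393, .ofNat 2151, .ofNat 1575, .negSucc 828⟩, .ofNat 1206, .negSucc 1660, .ofNat 0, .negSucc 1660, .ofNat 3298, .ofNat 0, .ofNat 128, .ofNat 427, .negSucc 598, .ofNat 0, .ofNat 253, .negSucc 282, .ofNat 0, .ofNat 0, .ofNat 705, .ofNat 426, .ofNat 0, .ofNat 0, .ofNat 351016686750272113347636588939424636600320, .ofNat 0, .ofNat 0, .ofNat 0, .ofNat 21095434891870652214159471099122393999736832,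 .ofNat 0, .ofNat 0, .ofNat 0, .ofNat 7402452779342602289008635169081888885178368, .ofNat 0, .ofNat 0, .ofNat 0, .ofNat 0, .ofNat 0⟩)
    (by decide +kernel)
theorem L02604 : Good (Phi V5.P V5.D 1 1) ⟨4, 12, 4, 7, 3, 7, 2, 2, 4, 1⟩ :=
  leafX_sound T5.ok_pp T5.Ypp.bz_eq (w := 231) (c := ⟨⟨.negSucc 3962, .negSucc 2, .negSucc 2796, .ofNat 2427, .negSucc 2493, .negSucc 589⟩, ⟨.negSucc 1892, .negSucc 0, .negSucc 1645, .ofNat 1267, .negSucc 1184, .negSucc 316⟩, ⟨.ofNat 2028, .ofNat 1, .ofNat 424, .negSucc 1691, .ofNat 1827, .ofNat 643⟩, ⟨.negSucc 7753, .negSucc 4, .negSucc 923, .ofNat 2900, .negSucc 4845, .negSucc 520⟩, ⟨.ofNat 3215, .ofNat 2, .negSucc 431, .ofNat 1721, .ofNat 1982, .negSucc 784⟩, .ofNat 2599, .negSucc 4406, .ofNat 0, .negSucc 4406, .ofNat 8814, .ofNat 0, .ofNat 128, .ofNat 836, .negSucc 1182, .ofNat 0, .ofNat 455, .negSucc 548, .ofNat 0, .ofNat 0, .ofNat 1322, .ofNat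 1268, .ofNat 0, .ofNat 0, .ofNat 118377049081881266080869625560780943392768, .ofNat 0, .ofNat 0, .ofNat 0, .ofNat 5378488406464116214380423241720219297644544, .ofNat 0, .ofNat 0, .ofNat 0, .ofNat 15728206375784183034142980595039743565103104, .ofNat 0, .ofNat 0, .ofNat 0, .ofNat 3550374383026783850721691661049894868615168, .ofNat 0⟩)
    (by decide +kernel)
theorem L02605 : Good (Phi V5.P V5.D 1 1) ⟨5, 26, 4, 7, 3, 7, 2, 2, 5, 2⟩ :=
  leafX_sound T5.ok_pp T5.Ypp.bz_eq (w := 238) (c := ⟨⟨.negSucc 4314, .negSucc 648, .ofNat 519, .ofNat 3632, .negSucc 3352, .negSucc 689⟩, ⟨.negSucc 2172, .negSucc 81, .negSucc 120, .ofNat 2013, .negSucc 1648, .negSucc 348⟩, ⟨.ofNat 2200, .ofNat 466, .negSucc 307, .negSucc 2364, .ofNat 2326, .ofNat 554⟩, ⟨.negSucc 8197, .negSucc 1456, .ofNat 593, .ofNat 5064, .negSucc 6852, .negSucc 787⟩, ⟨.ofNat 3287, .ofNat 994, .ofNat 26, .ofNat 739, .ofNat 3462, .negSucc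 494⟩, .ofNat 1223, .negSucc 1702, .ofNat 0, .negSucc 1702, .ofNat 3400, .ofNat 0, .ofNat 128, .ofNat 377, .negSucc 623, .ofNat 0, .ofNat 219, .negSucc 283, .ofNat 0, .ofNat 0, .ofNat 569, .ofNat 480, .ofNat 0, .ofNat 0, .ofNat 0, .ofNat 0, .ofNat 0, .ofNat 0, .ofNat 3823027133285386821311130384733743557378048, .ofNat 0, .ofNat 0, .ofNat 0, .ofNat 0, .ofNat 0, .ofNat 0, .ofNat 0, .ofNat 0, .ofNat 0⟩)
    (by decide +kernel)
theorem L02606 : Good (Phi V5.P V5.D 1 1) ⟨5, 26, 4, 7, 3, 7, 2, 2, 5, 3⟩ :=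
  leafX_sound T5.ok_pp T5.Ypp.bz_eq (w := 237) (c := ⟨⟨.negSucc 4758, .negSucc 436, .ofNat 22, .ofNat 2532, .negSucc 2365, .ofNat 127⟩, ⟨.negSucc 2326, .negSucc 53, .negSucc 353, .ofNat 1411, .negSucc 1156, .ofNat 31⟩, ⟨.ofNat 2637, .ofNat 377, .negSucc 62, .negSucc 1828, .ofNat 1778, .ofNat 84⟩, ⟨.negSucc 8691, .negSucc 743, .negSucc 460, .ofNat 2725, .negSucc 4817, .ofNat 636⟩, ⟨.ofNat 2824, .ofNat 463, .ofNat 563, .ofNat 2105, .ofNat 2356, .negSucc 827⟩, .ofNat 1241, .negSucc 1742, .ofNat 0, .negSucc 1742, .ofNat 3491, .ofNat 0, .ofNat 128, .ofNat 326, .negSucc 436, .ofNat 0, .ofNat 192, .negSucc 194, .ofNat 0, .ofNat 0, .ofNat 507, .ofNat 532, .ofNat 0, .ofNat 0, .ofNat 187432663561043335812470898166445612466176, .ofNat 0, .ofNat 0, .ofNat 0, .ofNat 5820028023705529048792177688588358298632192, .ofNat 0, .ofNat 0, .ofNat 0, .ofNat 0, .ofNat 0, .ofNat 0, .ofNat 0, .ofNat 0, .ofNat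 0⟩)
    (by decide +kernel)
theorem L02607 : Good (Phi V5.P V5.D 1 1) ⟨5, 27, 4, 7, 3, 7, 2, 2, 5, 2⟩ :=
  leafX_sound T5.ok_pp T5.Ypp.bz_eq (w := 239) (c := ⟨⟨.negSucc 5312, .negSucc 758, .ofNat 551, .ofNat 3951, .negSucc 3571, .negSucc 663⟩, ⟨.negSucc 2508, .negSucc 269, .negSucc 33, .ofNat 2258, .negSucc 1791, .negSucc 367⟩, ⟨.ofNat 2943, .ofNat 605, .negSucc 393, .negSucc 2485, .ofNat 2458, .ofNat 495⟩, ⟨.negSucc 9498, .negSucc 1156, .ofNat 385, .ofNat 4954, .negSucc 7392, .negSucc 817⟩, ⟨.ofNat 3245, .ofNat 334, .ofNat 406, .ofNat 1604, .ofNat 3805, .negSucc 275⟩, .ofNat 1695, .negSucc 2427, .ofNat 0, .negSucc 2427, .ofNat 4461, .ofNat 0, .ofNat 128, .ofNat 541, .negSucc 856, .ofNat 0, .ofNat 326, .negSucc 423, .ofNat 0, .ofNat 0, .ofNat 805, .ofNat 612, .ofNat 0, .ofNat 0, .ofNat 231511122403553905190288103737214357209088, .ofNat 0, .ofNat 0, .ofNat 0, .ofNat 21534549607252510900603817172648847111880704,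 .ofNat 0, .ofNat 0, .ofNat 0, .ofNat 3177653176580858870768288446442042457849856, .ofNat 0, .ofNat 0, .ofNat 0, .ofNat 4418964088508552428199152961837791707136000, .ofNat 0⟩)
    (by decide +kernel)
theorem L02608 : Good (Phi V5.P V5.D 1 1) ⟨5, 27, 4, 7, 3, 7, 2, 2, 5, 3⟩ :=
  leafX_sound T5.ok_pp T5.Ypp.bz_eq (w := 238) (c := ⟨⟨.negSucc 5244, .negSucc 647, .ofNat 105, .ofNat 2638, .negSucc 2558, .ofNat 306⟩, ⟨.negSucc 2461, .negSucc 168, .negSucc 280, .ofNat 1560, .negSucc 1293, .ofNat 122⟩, ⟨.ofNat 3038, .ofNat 712, .negSucc 208, .negSucc 1761, .ofNat 1953, .negSucc 22⟩, ⟨.negSucc 9466, .negSucc 823, .negSucc 287, .ofNat 2647, .negSucc 5054, .ofNat 983⟩, ⟨.ofNat 3318, .ofNat 114, .ofNat 475, .ofNat 2292, .ofNat 2308, .negSucc 975⟩, .ofNat 1994, .negSucc 2939, .ofNat 0, .negSucc 2939, .ofNat 5351, .ofNat 0, .ofNat 128, .ofNat 401, .negSucc 447, .ofNat 0, .ofNat 245, .negSucc 218,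 .ofNat 0, .ofNat 0, .ofNat 539, .ofNat 670, .ofNat 0, .ofNat 0, .ofNat 239307300785631227859060999673115396014080, .ofNat 0, .ofNat 0, .ofNat 0, .ofNat 24898099992217545587961739983643515126022144, .ofNat 0, .ofNat 0, .ofNat 0, .ofNat 5754047507627834050052607694474113609367552, .ofNat 0, .ofNat 0, .ofNat 0, .ofNat 2997085724233740133329820731784848100818944, .ofNat 0⟩)
    (by decide +kernel)
theorem L02609 : Good (Phi V5.P V5.D 1 1) ⟨3, 7, 4, 7, 2, 3, 2, 2, 3, 0⟩ :=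
  out_sound (S := T5.ds_pp) T5.ok_pp (w := 47) (j := 3) (by decide +kernel)
theorem L02610 : Good (Phi V5.P V5.D 1 1) ⟨2, 2, 3, 3, 2, 3, 2, 2, 3, 1⟩ :=
  out_sound (S := T5.ds_pp) T5.ok_pp (w := 39) (j := 3) (by decide +kernel)
theorem L02611 : Good (Phi V5.P V5.D 1 1) ⟨4, 12, 3, 3, 3, 6, 2, 2, 4, 2⟩ :=
  leafX_sound T5.ok_pp T5.Ypp.bz_eq (w := 224) (c := ⟨⟨.negSucc 4185, .negSucc 546, .ofNat 119, .ofNat 59, .negSucc 1052, .ofNat 969⟩, ⟨.negSucc 1797, .negSucc 323, .negSucc 328, .ofNat 82, .negSucc 489, .ofNat 395⟩, ⟨.ofNat 2609, .ofNat 208, .ofNat 89, .negSucc 224, .ofNat 1165, .negSucc 432⟩, ⟨.negSucc 7162, .negSucc 647, .ofNat 58, .negSucc 542, .negSucc 1875, .ofNat 2008⟩, ⟨.ofNat 643, .ofNat 469, .ofNat 107, .ofNat 1345, .ofNat 391, .negSucc 1084⟩, .ofNat 613, .negSucc 658, .ofNat 0, .negSucc 658, .ofNat 1639, .ofNat 0, .ofNat 128, .ofNat 208, .negSucc 217, .ofNat 0, .ofNat 131,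 .negSucc 73, .ofNat 0, .ofNat 0, .ofNat 391, .ofNat 540, .ofNat 0, .ofNat 0, .ofNat 0, .ofNat 0, .ofNat 0, .ofNat 0, .ofNat 13418879441470444308605062978832644964352, .ofNat 0, .ofNat 0, .ofNat 0, .ofNat 61469312024550838112629175489025909194752, .ofNat 0, .ofNat 0, .ofNat 0, .ofNat 120524723755149981993497894081957942263808, .ofNat 0⟩)
    (by decide +kernel)
theorem L02612 : Good (Phi V5.P V5.D 1 1) ⟨4, 12, 3, 3, 3, 7, 2, 2, 4, 2⟩ :=
  leafX_sound T5.ok_pp T5.Ypp.bz_eq (w := 225) (c := ⟨⟨.negSucc 3982, .negSucc 438, .ofNat 129, .ofNat 1074, .negSucc 1275, .ofNat 758⟩, ⟨.negSucc 1791, .negSucc 95, .negSucc 427, .ofNat 596, .negSucc 557, .ofNat 301⟩, ⟨.ofNat 2162, .ofNat 390, .negSucc 74, .negSucc 811, .ofNat 1055, .negSucc 195⟩, ⟨.negSucc 7326, .negSucc 637, .negSucc 318, .ofNat 683, .negSucc 2448, .ofNat 1834⟩, ⟨.ofNat 1931, .ofNat 494, .ofNat 766, .ofNat 2138, .ofNat 948, .negSucc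 1436⟩, .ofNat 1049, .negSucc 1498, .ofNat 0, .negSucc 1498, .ofNat 3379, .ofNat 0, .ofNat 128, .ofNat 349, .negSucc 211, .ofNat 0, .ofNat 206, .negSucc 75, .ofNat 0, .ofNat 0, .ofNat 466, .ofNat 625, .ofNat 0, .ofNat 0, .ofNat 516013165950604314491963623332902862848, .ofNat 0, .ofNat 0, .ofNat 0, .ofNat 44562967059083195656360527577214911250432, .ofNat 0, .ofNat 0, .ofNat 0, .ofNat 101912377324112875759506051836141975371776, .ofNat 0, .ofNat 0, .ofNat 0, .ofNat 110457405053667362927554871466453226225664, .ofNat 0⟩)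
    (by decide +kernel)
theorem L02613 : Good (Phi V5.P V5.D 1 1) ⟨4, 13, 3, 3, 3, 6, 2, 2, 5, 4⟩ :=
  leafX_sound T5.ok_pp T5.Ypp.bz_eq (w := 229) (c := ⟨⟨.negSucc 4652, .negSucc 622, .ofNat 13, .ofNat 102, .negSucc 1643, .ofNat 641⟩, ⟨.negSucc 2071, .negSucc 357, .negSucc 463, .ofNat 127, .negSucc 851, .ofNat 319⟩, ⟨.ofNat 2784, .ofNat 452, .ofNat 93, .negSucc 256, .ofNat 1553, .negSucc 336⟩, ⟨.negSucc 7459, .negSucc 624, .negSucc 315, .negSucc 762, .negSucc 2996, .ofNat 1444⟩, ⟨.ofNat 728, .ofNat 235, .ofNat 454, .ofNat 1698, .ofNat 978, .negSucc 897⟩, .ofNat 649, .negSucc 689, .ofNat 0, .negSucc 689, .ofNat 1517, .ofNat 0, .ofNat 128, .ofNat 249, .negSucc 386, .ofNat 0, .ofNat 162, .negSucc 152, .ofNat 0, .ofNat 0, .ofNat 551, .ofNat 476, .ofNat 0, .ofNat 0, .ofNat 140765477329636671138789988959012668833792, .ofNat 0, .ofNat 0, .ofNat 0, .ofNat 2290737010025512771089595907700550482788352,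 .ofNat 0, .ofNat 0, .ofNat 0, .ofNat 1233428591355275389364269998431535053668352, .ofNat 0, .ofNat 0, .ofNat 0, .ofNat 0, .ofNat 0⟩)
    (by decide +kernel)
theorem L02614 : Good (Phi V5.P V5.D 1 1) ⟨4, 13, 3, 3, 3, 6, 2, 2, 5, 5⟩ :=
  leafX_sound T5.ok_pp T5.Ypp.bz_eq (w := 229) (c := ⟨⟨.negSucc 4310, .negSucc 441, .ofNat 12, .ofNat 244, .negSucc 1201, .ofNat 527⟩, ⟨.negSucc 1979, .negSucc 285, .negSucc 353, .ofNat 192, .negSucc 619, .ofNat 252⟩, ⟨.ofNat 2671, .ofNat 256, .ofNat 96, .negSucc 308, .ofNat 1221, .negSucc 261⟩, ⟨.negSucc 6873, .negSucc 446, .negSucc 69, .negSucc 279, .negSucc 1994, .ofNat 1098⟩, ⟨.ofNat 558, .ofNat 304, .ofNat 81, .ofNat 1218, .ofNat 340, .negSucc 591⟩, .ofNat 640, .negSucc 673, .ofNat 0, .negSucc 673, .ofNat 1495, .ofNat 0, .ofNat 128, .ofNat 310, .negSucc 224, .ofNat 0, .ofNat 212, .negSucc 81, .ofNat 0, .ofNat 0, .ofNat 450, .ofNat 926, .ofNat 0,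 .ofNat 0, .ofNat 98738096081466624489545897366953566142464, .ofNat 0, .ofNat 0, .ofNat 0, .ofNat 3396764275260002896159146122164610745237504, .ofNat 0, .ofNat 0, .ofNat 0, .ofNat 2283226617018598434927645732533707972018176, .ofNat 0, .ofNat 0, .ofNat 0, .ofNat 0, .ofNat 0⟩)
    (by decide +kernel)
theorem L02615 : Good (Phi V5.P V5.D 1 1) ⟨4, 13, 3, 3, 4, 14, 3, 4, 4, 2⟩ :=
  leafX_sound T5.ok_pp T5.Ypp.bz_eq (w := 242) (c := ⟨⟨.negSucc 4489, .negSucc 714, .ofNat 222, .ofNat 478, .negSucc 699, .ofNat 881⟩, ⟨.negSucc 1951, .negSucc 301, .negSucc 345, .ofNat 294, .negSucc 347, .ofNat 391⟩, ⟨.ofNat 2543, .ofNat 469, .negSucc 82, .negSucc 383, .ofNat 606, .negSucc 317⟩, ⟨.negSucc 8017, .negSucc 1040, .negSucc 10, .ofNat 146, .negSucc 1351, .ofNat 2217⟩, ⟨.ofNat 2460, .ofNat 525, .ofNat 288, .ofNat 1110, .ofNat 510, .negSucc 1714⟩, .ofNat 649, .negSucc 690, .ofNat 0, .negSucc 690, .ofNat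 1524, .ofNat 0, .ofNat 128, .ofNat 210, .negSucc 221, .ofNat 0, .ofNat 143, .negSucc 77, .ofNat 0, .ofNat 0, .ofNat 392, .ofNat 668, .ofNat 0, .ofNat 0, .ofNat 1116565045480764373078758984646939753993732096, .ofNat 0, .ofNat 0, .ofNat 0, .ofNat 9848985934903829258786989001103281722383925248, .ofNat 0, .ofNat 0, .ofNat 0, .ofNat 8065996119294231769833726898517258854115311616, .ofNat 0, .ofNat 0, .ofNat 0, .ofNat 0, .ofNat 0⟩)
    (by decide +kernel)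
theorem L02616 : Good (Phi V5.P V5.D 1 1) ⟨4, 13, 3, 3, 4, 14, 3, 5, 4, 2⟩ :=
  leafX_sound T5.ok_pp T5.Ypp.bz_eq (w := 242) (c := ⟨⟨.negSucc 5489, .negSucc 547, .ofNat 131, .ofNat 443, .negSucc 633, .ofNat 1365⟩, ⟨.negSucc 2387, .negSucc 188, .negSucc 481, .ofNat 274, .negSucc 305, .ofNat 601⟩, ⟨.ofNat 3372, .ofNat 356, .negSucc 17, .negSucc 408, .ofNat 611, .negSucc 636⟩, ⟨.negSucc 9796, .negSucc 411, .negSucc 461, .negSucc 4, .negSucc 1259, .ofNat 3195⟩, ⟨.ofNat 2942, .ofNat 15, .ofNat 812, .ofNat 1287, .ofNat 521, .negSucc 2171⟩, .ofNat 643, .negSucc 679, .ofNat 0, .negSucc 679, .ofNat 1505, .ofNat 0, .ofNat 128, .ofNat 197, .negSucc 197, .ofNat 0, .ofNat 136, .negSucc 64, .ofNat 0, .ofNat 0, .ofNat 368, .ofNat 420, .ofNat 0, .ofNat 0, .ofNat 1138632769876119942626287797033886390664822784, .ofNat 0, .ofNat 0, .ofNat 0, .ofNat 8129670993511433725215064333645484296012562432, .ofNat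 0, .ofNat 0, .ofNat 0, .ofNat 8076308430911734043433465599794507068599173120, .ofNat 0, .ofNat 0, .ofNat 0, .ofNat 18565324314024394649527228606483868483210706944, .ofNat 0⟩)
    (by decide +kernel)
theorem L02617 : Good (Phi V5.P V5.D 1 1) ⟨5, 26, 3, 3, 4, 15, 2, 2, 4, 2⟩ :=
  leafX_sound T5.ok_pp T5.Ypp.bz_eq (w := 242) (c := ⟨⟨.negSucc 3940, .negSucc 222, .ofNat 210, .ofNat 789, .negSucc 1419, .ofNat 710⟩, ⟨.negSucc 1578, .negSucc 9, .negSucc 458, .ofNat 475, .negSucc 678, .ofNat 264⟩, ⟨.ofNat 2158, .ofNat 171, .negSucc 103, .negSucc 498, .ofNat 1115, .negSucc 190⟩, ⟨.negSucc 7503, .negSucc 338, .negSucc 369, .ofNat 306, .negSucc 2749, .ofNat 1936⟩, ⟨.ofNat 3178, .ofNat 244, .ofNat 769, .ofNat 1706, .ofNat 1159, .negSucc 1682⟩, .ofNat 1113, .negSucc 1508, .ofNat 0, .negSucc 1508, .ofNat 3069, .ofNat 0, .ofNat 128, .ofNat 249, .negSucc 139, .ofNat 0, .ofNat 159, .negSucc 52, .ofNat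 0, .ofNat 0, .ofNat 309, .ofNat 453, .ofNat 0, .ofNat 0, .ofNat 16092187066529094483904151201323086971404288, .ofNat 0, .ofNat 0, .ofNat 0, .ofNat 576369358094397601797186408620371180781568000, .ofNat 0, .ofNat 0, .ofNat 0, .ofNat 280078071121635112396871672665421958315245568, .ofNat 0, .ofNat 0, .ofNat 0, .ofNat 0, .ofNat 0⟩)
    (by decide +kernel)
theorem L02618 : Good (Phi V5.P V5.D 1 1) ⟨5, 27, 3, 3, 4, 15, 2, 2, 4, 2⟩ :=
  leafX_sound T5.ok_pp T5.Ypp.bz_eq (w := 243) (c := ⟨⟨.negSucc 4231, .ofNat 5, .ofNat 323, .ofNat 789, .negSucc 1484, .ofNat 625⟩, ⟨.negSucc 1576, .ofNat 169, .negSucc 459, .ofNat 527, .negSucc 761, .ofNat 253⟩, ⟨.ofNat 2330, .ofNat 119, .negSucc 112, .negSucc 444, .ofNat 1170, .negSucc 193⟩, ⟨.negSucc 7929, .negSucc 129, .negSucc 162, .ofNat 174, .negSucc 2972, .ofNat 2038⟩, ⟨.ofNat 3483, .ofNat 443, .ofNat 631, .ofNat 1810, .ofNat 1393, .negSucc 2013⟩, .ofNat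 1706, .negSucc 2446, .ofNat 0, .negSucc 2446, .ofNat 4492, .ofNat 0, .ofNat 128, .ofNat 434, .negSucc 221, .ofNat 0, .ofNat 280, .negSucc 95, .ofNat 0, .ofNat 0, .ofNat 532, .ofNat 533, .ofNat 0, .ofNat 0, .ofNat 67357344312385757950294414760121877032599552, .ofNat 0, .ofNat 0, .ofNat 0, .ofNat 3926109418069087184981692087656451073082654720, .ofNat 0, .ofNat 0, .ofNat 0, .ofNat 533530008558763055404669576822908724172554240, .ofNat 0, .ofNat 0, .ofNat 0, .ofNat 0, .ofNat 0⟩)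
    (by decide +kernel)
theorem L02619 : Good (Phi V5.P V5.D 1 1) ⟨4, 12, 3, 3, 2, 3, 2, 2, 4, 3⟩ :=
  leafX_sound T5.ok_pp T5.Ypp.bz_eq (w := 210) (c := ⟨⟨.negSucc 3438, .negSucc 430, .ofNat 176, .ofNat 781, .negSucc 722, .ofNat 562⟩, ⟨.negSucc 1495, .negSucc 292, .negSucc 185, .ofNat 460, .negSucc 307, .ofNat 243⟩, ⟨.ofNat 2221, .ofNat 199, .negSucc 128, .negSucc 619, .ofNat 752, .negSucc 154⟩, ⟨.negSucc 5934, .negSucc 24, .negSucc 262, .ofNat 98, .negSucc 1402, .ofNat 1154⟩, ⟨.ofNat 640, .negSucc 707, .ofNat 885, .ofNat 2406, .ofNat 565, .negSucc 570⟩, .ofNat 1049, .negSucc 1498, .ofNat 0, .negSucc 1498, .ofNat 3378, .ofNat 0, .ofNat 128, .ofNat 239, .negSucc 85, .ofNat 0, .ofNat 147, .negSucc 28, .ofNat 0, .ofNat 0, .ofNat 434, .ofNat 487, .ofNat 0, .ofNat 0, .ofNat 38120415444423043708426022081789952, .ofNat 0, .ofNat 0, .ofNat 0, .ofNat 0, .ofNat 0, .ofNat 0, .ofNat 0, .ofNat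 5553629533648558450387316305440014336, .ofNat 0, .ofNat 0, .ofNat 0, .ofNat 6562402837443208373021256804986781696, .ofNat 0⟩)
    (by decide +kernel)
theorem L02620 : Good (Phi V5.P V5.D 1 1) ⟨4, 13, 3, 3, 3, 6, 2, 2, 4, 3⟩ :=
  leafX_sound T5.ok_pp T5.Ypp.bz_eq (w := 224) (c := ⟨⟨.negSucc 3853, .negSucc 297, .negSucc 35, .ofNat 215, .negSucc 825, .ofNat 736⟩, ⟨.negSucc 1786, .negSucc 264, .negSucc 285, .ofNat 148, .negSucc 440, .ofNat 347⟩, ⟨.ofNat 2483, .ofNat 129, .ofNat 110, .negSucc 268, .ofNat 916, .negSucc 398⟩, ⟨.negSucc 6070, .negSucc 160, .negSucc 111, .negSucc 128, .negSucc 1220, .ofNat 1532⟩, ⟨.ofNat 304, .ofNat 230, .ofNat 23, .ofNat 869, .negSucc 53, .negSucc 783⟩, .ofNat 646, .negSucc 685, .ofNat 0, .negSucc 685, .ofNat 1515, .ofNat 0, .ofNat 128, .ofNat 162, .negSucc 87, .ofNat 0, .ofNat 117, .negSucc 27, .ofNat 0, .ofNat 0, .ofNat 314, .ofNat 789, .ofNat 0, .ofNat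 0, .ofNat 1842732707868822504700835872961600684032, .ofNat 0, .ofNat 0, .ofNat 0, .ofNat 43733913913453841052329055621097642262528, .ofNat 0, .ofNat 0, .ofNat 0, .ofNat 105992676192641803277402237140813909852160, .ofNat 0, .ofNat 0, .ofNat 534882374698866184381251470950538425990643712, .ofNat 44934556071318976869950531885410025472000, .ofNat 0⟩)
    (by decide +kernel)
theorem L02621 : Good (Phi V5.P V5.D 1 1) ⟨4, 13, 3, 3, 3, 7, 2, 2, 4, 3⟩ :=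
  leafX_sound T5.ok_pp T5.Ypp.bz_eq (w := 223) (c := ⟨⟨.negSucc 3503, .negSucc 206, .ofNat 21, .ofNat 672, .negSucc 923, .ofNat 476⟩, ⟨.negSucc 1576, .negSucc 98, .negSucc 307, .ofNat 457, .negSucc 470, .ofNat 207⟩, ⟨.ofNat 2100, .ofNat 190, .ofNat 5, .negSucc 327, .ofNat 781, .negSucc 131⟩, ⟨.negSucc 5800, .negSucc 106, .negSucc 330, .negSucc 318, .negSucc 1576, .ofNat 1405⟩, ⟨.ofNat 969, .ofNat 106, .ofNat 447, .ofNat 2500, .ofNat 359, .negSucc 1253⟩, .ofNat 648, .negSucc 687, .ofNat 0, .negSucc 687, .ofNat 1515, .ofNat 0, .ofNat 128, .ofNat 175, .negSucc 45, .ofNat 0, .ofNat 140, .negSucc 2, .ofNat 0, .ofNat 0, .ofNat 327, .ofNat 622, .ofNat 0, .ofNat 0, .ofNat 3972809608370248334079921361029804589056, .ofNat 0, .ofNat 0, .ofNat 0, .ofNat 126247918156240382680413306573360541466624, .ofNat 0, .ofNat 0, .ofNat 0, .ofNat 155453550574949496489202943389292551995392, .ofNat 0, .ofNat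 0, .ofNat 333949124831553543657118660631123914741776384, .ofNat 11220826758986034197986097066563780739072, .ofNat 0⟩)
    (by decide +kernel)
theorem L02622 : Good (Phi V5.P V5.D 1 1) ⟨3, 7, 3, 3, 2, 3, 2, 2, 3, 1⟩ :=
  out_sound (S := T5.ds_pp) T5.ok_pp (w := 45) (j := 3) (by decide +kernel)
theorem L02623 : Good (Phi V5.P V5.D 1 1) ⟨2, 2, 3, 3, 2, 3, 2, 3, 3, 0⟩ :=
  out_sound (S := T5.ds_pp) T5.ok_pp (w := 39) (j := 3) (by decide +kernel)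
theorem L02624 : Good (Phi V5.P V5.D 1 1) ⟨4, 12, 4, 6, 3, 6, 2, 3, 5, 0⟩ :=
  leafX_sound T5.ok_pp T5.Ypp.bz_eq (w := 234) (c := ⟨⟨.ofNat 920, .negSucc 3289, .ofNat 1045, .negSucc 2974, .negSucc 2679, .negSucc 1841⟩, ⟨.ofNat 407, .negSucc 1260, .ofNat 142, .negSucc 1265, .negSucc 1078, .negSucc 874⟩, ⟨.negSucc 391, .ofNat 2155, .negSucc 615, .ofNat 1446, .ofNat 3028, .ofNat 1063⟩, ⟨.ofNat 1179, .negSucc 5752, .ofNat 1242, .negSucc 6368, .negSucc 6131, .negSucc 2967⟩, ⟨.ofNat 128, .ofNat 1979, .ofNat 437, .ofNat 3628, .ofNat 4179, .ofNat 122⟩, .ofNat 1074, .negSucc 1551, .ofNat 0, .negSucc 1551, .ofNat 3489, .ofNat 0, .ofNat 128, .ofNat 461, .negSucc 1469, .ofNat 0, .ofNat 255, .negSucc 640, .ofNat 0, .ofNat 0, .ofNat 1065, .ofNat 151, .ofNat 0, .ofNat 0, .ofNat 0, .ofNat 0, .ofNat 0, .ofNat 0, .ofNat 1095508820674640502939138693567665489838080, .ofNat 0, .ofNat 0, .ofNat 0, .ofNat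 0, .ofNat 0, .ofNat 0, .ofNat 0, .ofNat 0, .ofNat 0⟩)
    (by decide +kernel)
theorem L02625 : Good (Phi V5.P V5.D 1 1) ⟨4, 12, 4, 6, 3, 6, 2, 3, 5, 1⟩ :=
  leafX_sound T5.ok_pp T5.Ypp.bz_eq (w := 233) (c := ⟨⟨.negSucc 1068, .negSucc 4966, .ofNat 1552, .negSucc 1594, .negSucc 3370, .negSucc 1396⟩, ⟨.negSucc 455, .negSucc 2121, .ofNat 314, .negSucc 611, .negSucc 1373, .negSucc 670⟩, ⟨.ofNat 831, .ofNat 3185, .negSucc 920, .ofNat 558, .ofNat 3427, .ofNat 904⟩, ⟨.negSucc 2021, .negSucc 8298, .ofNat 2264, .negSucc 3995, .negSucc 7622, .negSucc 2319⟩, ⟨.negSucc 157, .ofNat 2396, .negSucc 13, .ofNat 3201, .ofNat 4997, .ofNat 256⟩, .ofNat 1069, .negSucc 1541, .ofNat 0, .negSucc 1541, .ofNat 3474, .ofNat 0, .ofNat 128, .ofNat 315, .negSucc 1148, .ofNat 0, .ofNat 173, .negSucc 492, .ofNat 0, .ofNat 0, .ofNat 899, .ofNat 83, .ofNat 0, .ofNat 0, .ofNat 133829502495971834269074128630896633315328,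 .ofNat 0, .ofNat 0, .ofNat 0, .ofNat 0, .ofNat 0, .ofNat 0, .ofNat 13954208903517847797440415933745296003869704192, .ofNat 0, .ofNat 0, .ofNat 0, .ofNat 0, .ofNat 0, .ofNat 0⟩)
    (by decide +kernel)
theorem L02626 : Good (Phi V5.P V5.D 1 1) ⟨5, 26, 4, 6, 3, 6, 2, 3, 5, 0⟩ :=
  leafX_sound T5.ok_pp T5.Ypp.bz_eq (w := 238) (c := ⟨⟨.negSucc 1848, .negSucc 2606, .ofNat 1749, .negSucc 3687, .negSucc 3486, .negSucc 2743⟩, ⟨.negSucc 587, .negSucc 1148, .ofNat 488, .negSucc 1612, .negSucc 1406, .negSucc 1380⟩, ⟨.ofNat 1424, .ofNat 1628, .negSucc 1013, .ofNat 1860, .ofNat 3701, .ofNat 1540⟩, ⟨.negSucc 3949, .negSucc 4783, .ofNat 2406, .negSucc 7204, .negSucc 7365, .negSucc 4020⟩, ⟨.ofNat 2319, .ofNat 2063, .ofNat 191, .ofNat 3177, .ofNat 4230, .negSucc 319⟩, .ofNat 1270, .negSucc 1814, .ofNat 0, .negSucc 1814, .ofNat 3719, .ofNat 0, .ofNat 128, .ofNat 283, .negSucc 1116, .ofNat 0, .ofNat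 168, .negSucc 525, .ofNat 0, .ofNat 0, .ofNat 778, .ofNat 56, .ofNat 0, .ofNat 0, .ofNat 44934029415339766437648523180122006618112, .ofNat 0, .ofNat 0, .ofNat 106960587289410266180282632385606902667366367232, .ofNat 2040533497718483092613302646063383281926144, .ofNat 0, .ofNat 0, .ofNat 0, .ofNat 3439258198812480555369091300191067915157504, .ofNat 0, .ofNat 0, .ofNat 0, .ofNat 3455738814898224580527230095034595544137728, .ofNat 0⟩)
    (by decide +kernel)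
theorem L02627 : Good (Phi V5.P V5.D 1 1) ⟨5, 26, 4, 6, 3, 6, 2, 3, 5, 1⟩ :=
  leafX_sound T5.ok_pp T5.Ypp.bz_eq (w := 238) (c := ⟨⟨.negSucc 5969, .negSucc 2840, .ofNat 1796, .negSucc 1431, .negSucc 4718, .negSucc 1486⟩, ⟨.negSucc 2578, .negSucc 1238, .ofNat 344, .negSucc 452, .negSucc 1962, .negSucc 744⟩, ⟨.ofNat 3869, .ofNat 1890, .negSucc 1075, .ofNat 381, .ofNat 4484, .ofNat 1056⟩, ⟨.negSucc 9875, .negSucc 4952, .ofNat 2492, .negSucc 4227, .negSucc 10203, .negSucc 2110⟩, ⟨.ofNat 1544, .ofNat 1926, .ofNat 116, .ofNat 4156, .ofNat 6090, .negSucc 331⟩, .ofNat 1151, .negSucc 1584, .ofNat 0, .negSucc 1584, .ofNat 3258, .ofNat 0, .ofNat 128, .ofNat 204, .negSucc 972, .ofNat 0, .ofNat 122, .negSucc 446, .ofNat 0, .ofNat 0, .ofNat 723, .ofNat 65, .ofNat 0, .ofNat 0, .ofNat 69034038988540270490751540888216730075136, .ofNat 0, .ofNat 0, .ofNat 0, .ofNat 2706444885268897600723897404036195626778624,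 .ofNat 0, .ofNat 0, .ofNat 28305375220355961130679590160106329389557350400, .ofNat 1347217383969926933680076973827577817858048, .ofNat 0, .ofNat 0, .ofNat 0, .ofNat 4960820392157220833254518193128525524893696, .ofNat 0⟩)
    (by decide +kernel)
theorem L02628 : Good (Phi V5.P V5.D 1 1) ⟨5, 27, 4, 6, 3, 6, 2, 3, 4, 0⟩ :=
  out_sound (S := T5.ds_pp) T5.ok_pp (w := 59) (j := 3) (by decide +kernel)
theorem L02629 : Good (Phi V5.P V5.D 1 1) ⟨5, 24, 4, 6, 3, 7, 2, 3, 4, 0⟩ :=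
  out_sound (S := T5.ds_pp) T5.ok_pp (w := 59) (j := 3) (by decide +kernel)
theorem L02630 : Good (Phi V5.P V5.D 1 1) ⟨6, 50, 4, 6, 3, 7, 2, 3, 5, 0⟩ :=
  leafX_sound T5.ok_pp T5.Ypp.bz_eq (w := 243) (c := ⟨⟨.negSucc 5474, .negSucc 487, .ofNat 234, .ofNat 3994, .negSucc 1968, .negSucc 701⟩, ⟨.negSucc 2299, .negSucc 119, .negSucc 245, .ofNat 1806, .negSucc 782, .negSucc 334⟩, ⟨.ofNat 3424, .ofNat 318, .negSucc 420, .negSucc 2729, .ofNat 1826, .ofNat 274⟩, ⟨.negSucc 11296, .negSucc 1047, .ofNat 26, .ofNat 6462, .negSucc 4526, .negSucc 954⟩, ⟨.ofNat 5794, .ofNat 662, .ofNat 293, .negSucc 309, .ofNat 3072, .negSucc 350⟩, .ofNat 1545, .negSucc 2558, .ofNat 0, .negSucc 2558, .ofNat 5718, .ofNat 0, .ofNat 128, .ofNat 841, .negSucc 1320, .ofNat 0, .ofNat 434, .negSucc 559, .ofNat 0, .ofNat 0, .ofNat 936, .ofNat 180, .ofNat 0, .ofNat 0, .ofNat 0, .ofNat 0, .ofNat 0, .ofNat 4237201348487597802907656017556427058389192802304,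 .ofNat 684752287071650053154154445889212036153344, .ofNat 0, .ofNat 0, .ofNat 0, .ofNat 0, .ofNat 0, .ofNat 0, .ofNat 0, .ofNat 1403392530189886496151560964675713940586496, .ofNat 0⟩)
    (by decide +kernel)
theorem L02631 : Good (Phi V5.P V5.D 1 1) ⟨6, 51, 4, 6, 3, 7, 3, 6, 5, 0⟩ :=
  leafX_sound T5.ok_pp T5.Ypp.bz_eq (w := 246) (c := ⟨⟨.negSucc 6472, .negSucc 343, .ofNat 365, .ofNat 4812, .negSucc 1149, .negSucc 665⟩, ⟨.negSucc 2750, .negSucc 23, .negSucc 183, .ofNat 2287, .negSucc 465, .negSucc 331⟩, ⟨.ofNat 3966, .ofNat 219, .negSucc 345, .negSucc 3030, .ofNat 952, .ofNat 268⟩, ⟨.negSucc 12701, .negSucc 820, .ofNat 60, .ofNat 7292, .negSucc 2594, .negSucc 745⟩, ⟨.ofNat 5748, .ofNat 626, .ofNat 577, .ofNat 378, .ofNat 1670, .negSucc 642⟩, .ofNat 1102, .negSucc 1577, .ofNat 0, .negSucc 1577, .ofNat 3454, .ofNat 0, .ofNat 128, .ofNat 242, .negSucc 796, .ofNat 0, .ofNat 133, .negSucc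 342, .ofNat 0, .ofNat 0, .ofNat 555, .ofNat 232, .ofNat 0, .ofNat 0, .ofNat 0, .ofNat 0, .ofNat 0, .ofNat 0, .ofNat 0, .ofNat 0, .ofNat 0, .ofNat 0, .ofNat 0, .ofNat 0, .ofNat 0, .ofNat 0, .ofNat 0, .ofNat 0⟩)
    (by decide +kernel)
theorem L02632 : Good (Phi V5.P V5.D 1 1) ⟨6, 51, 4, 6, 3, 7, 3, 7, 5, 0⟩ :=
  leafX_sound T5.ok_pp T5.Ypp.bz_eq (w := 247) (c := ⟨⟨.negSucc 7334, .negSucc 469, .ofNat 172, .ofNat 4568, .negSucc 622, .negSucc 962⟩, ⟨.negSucc 3004, .negSucc 83, .negSucc 369, .ofNat 2105, .negSucc 191, .negSucc 467⟩, ⟨.ofNat 5109, .ofNat 279, .negSucc 304, .negSucc 3387, .ofNat 954, .ofNat 441⟩, ⟨.negSucc 15045, .negSucc 1004, .negSucc 279, .ofNat 7297, .negSucc 1974, .negSucc 1394⟩, ⟨.ofNat 7842, .ofNat 654, .ofNat 572, .negSucc 411, .ofNat 2107, .negSucc 258⟩, .ofNat 1287, .negSucc 1940, .ofNat 0, .negSucc 1940, .ofNat 4196, .ofNat 0, .ofNat 128, .ofNat 535, .negSucc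 1215, .ofNat 0, .ofNat 295, .negSucc 528, .ofNat 0, .ofNat 0, .ofNat 824, .ofNat 139, .ofNat 0, .ofNat 0, .ofNat 0, .ofNat 0, .ofNat 0, .ofNat 0, .ofNat 0, .ofNat 0, .ofNat 0, .ofNat 0, .ofNat 0, .ofNat 0, .ofNat 0, .ofNat 0, .ofNat 0, .ofNat 0⟩)
    (by decide +kernel)
theorem L02633 : Good (Phi V5.P V5.D 1 1) ⟨5, 25, 4, 6, 3, 7, 3, 6, 5, 1⟩ :=
  leafX_sound T5.ok_pp T5.Ypp.bz_eq (w := 242) (c := ⟨⟨.negSucc 6451, .negSucc 1068, .ofNat 364, .ofNat 4464, .negSucc 1370, .negSucc 1148⟩, ⟨.negSucc 2769, .negSucc 332, .negSucc 239, .ofNat 2072, .negSucc 564, .negSucc 514⟩, ⟨.ofNat 3916, .ofNat 657, .negSucc 265, .negSucc 3092, .ofNat 1090, .ofNat 687⟩, ⟨.negSucc 12617, .negSucc 1883, .ofNat 36, .ofNat 6952, .negSucc 2840, .negSucc 1912⟩, ⟨.ofNat 5264, .ofNat 823, .ofNat 707, .ofNat 60, .ofNat 1481, .ofNat 261⟩, .ofNat 1444, .negSucc 2301, .ofNat 0, .negSucc 2301, .ofNat 5061, .ofNat 0,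 .ofNat 128, .ofNat 323, .negSucc 771, .ofNat 0, .ofNat 170, .negSucc 326, .ofNat 0, .ofNat 0, .ofNat 599, .ofNat 254, .ofNat 0, .ofNat 0, .ofNat 0, .ofNat 0, .ofNat 0, .ofNat 0, .ofNat 0, .ofNat 0, .ofNat 0, .ofNat 0, .ofNat 0, .ofNat 0, .ofNat 0, .ofNat 0, .ofNat 0, .ofNat 0⟩)
    (by decide +kernel)
theorem L02634 : Good (Phi V5.P V5.D 1 1) ⟨5, 25, 4, 6, 3, 7, 3, 7, 5, 1⟩ :=
  leafX_sound T5.ok_pp T5.Ypp.bz_eq (w := 243) (c := ⟨⟨.negSucc 7432, .negSucc 1333, .ofNat 838, .ofNat 3959, .negSucc 1460, .negSucc 1359⟩, ⟨.negSucc 3156, .negSucc 370, .negSucc 177, .ofNat 1810, .negSucc 587, .negSucc 610⟩, ⟨.ofNat 5219, .ofNat 834, .negSucc 559, .negSucc 3398, .ofNat 1313, .ofNat 784⟩, ⟨.negSucc 14977, .negSucc 2298, .ofNat 525, .ofNat 6576, .negSucc 3429, .negSucc 2589⟩, ⟨.ofNat 7120, .ofNat 861, .ofNat 1050, .negSucc 829, .ofNat 2407, .ofNat 940⟩, .ofNat 1484, .negSucc 2378, .ofNat 0,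 .negSucc 2378, .ofNat 5206, .ofNat 0, .ofNat 128, .ofNat 370, .negSucc 1029, .ofNat 0, .ofNat 197, .negSucc 439, .ofNat 0, .ofNat 0, .ofNat 766, .ofNat 183, .ofNat 0, .ofNat 0, .ofNat 0, .ofNat 0, .ofNat 0, .ofNat 0, .ofNat 0, .ofNat 0, .ofNat 0, .ofNat 0, .ofNat 0, .ofNat 0, .ofNat 0, .ofNat 3184627799258516506812434025309827219767427072000, .ofNat 0, .ofNat 0⟩)
    (by decide +kernel)
theorem L02635 : Good (Phi V5.P V5.D 1 1) ⟨5, 26, 4, 6, 4, 14, 3, 6, 5, 0⟩ :=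
  leafX_sound T5.ok_pp T5.Ypp.bz_eq (w := 256) (c := ⟨⟨.negSucc 6695, .negSucc 2875, .ofNat 1171, .ofNat 1423, .negSucc 1546, .negSucc 596⟩, ⟨.negSucc 2718, .negSucc 1182, .ofNat 106, .ofNat 753, .negSucc 619, .negSucc 326⟩, ⟨.ofNat 4037, .ofNat 1769, .negSucc 690, .negSucc 1095, .ofNat 1388, .ofNat 300⟩, ⟨.negSucc 12880, .negSucc 5298, .ofNat 1438, .ofNat 1472, .negSucc 3461, .negSucc 720⟩, ⟨.ofNat 5614, .ofNat 2138, .ofNat 249, .ofNat 1356, .ofNat 2224, .negSucc 381⟩, .ofNat 989, .negSucc 1296, .ofNat 0, .negSucc 1296, .ofNat 2730, .ofNat 0, .ofNat 128, .ofNat 291, .negSucc 1162, .ofNat 0, .ofNat 171, .negSucc 517, .ofNat 0, .ofNat 0, .ofNat 777, .ofNat 600, .ofNat 0, .ofNat 0, .ofNat 0, .ofNat 0, .ofNat 0, .ofNat 0, .ofNat 832569079376648085554431499189661562630611927040, .ofNat 0, .ofNat 0, .ofNat 0, .ofNat 721794835399524356314107965411196092410757120000, .ofNat 0, .ofNat 0,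 .ofNat 0, .ofNat 1761784386924685522220903944670038519707112308736, .ofNat 0⟩)
    (by decide +kernel)
theorem L02636 : Good (Phi V5.P V5.D 1 1) ⟨6, 52, 4, 6, 4, 15, 3, 6, 5, 0⟩ :=
  leafX_sound T5.ok_pp T5.Ypp.bz_eq (w := 260) (c := ⟨⟨.negSucc 5221, .negSucc 493, .ofNat 411, .ofNat 3432, .negSucc 1368, .negSucc 785⟩, ⟨.negSucc 1996, .negSucc 60, .negSucc 214, .ofNat 1640, .negSucc 557, .negSucc 402⟩, ⟨.ofNat 3077, .ofNat 438, .negSucc 422, .negSucc 1905, .ofNat 1016, .ofNat 270⟩, ⟨.negSucc 11458, .negSucc 1119, .ofNat 262, .ofNat 5542, .negSucc 2943, .negSucc 930⟩, ⟨.ofNat 7314, .ofNat 798, .ofNat 219, .negSucc 594, .ofNat 1719, .negSucc 530⟩, .ofNat 986, .negSucc 1300, .ofNat 0, .negSucc 1300, .ofNat 2768, .ofNat 0, .ofNat 128, .ofNat 330, .negSucc 650, .ofNat 0, .ofNat 190, .negSucc 273, .ofNat 0, .ofNat 0, .ofNat 451, .ofNat 382, .ofNat 0, .ofNat 0, .ofNat 9431727522664083438213382965917424363996446720,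 .ofNat 0, .ofNat 0, .ofNat 0, .ofNat 0, .ofNat 0, .ofNat 0, .ofNat 0, .ofNat 0, .ofNat 0, .ofNat 0, .ofNat 0, .ofNat 0, .ofNat 0⟩)
    (by decide +kernel)
theorem L02637 : Good (Phi V5.P V5.D 1 1) ⟨7, 106, 4, 6, 4, 15, 3, 6, 5, 0⟩ :=
  leafX_sound T5.ok_pp T5.Ypp.bz_eq (w := 265) (c := ⟨⟨.negSucc 6211, .negSucc 379, .ofNat 454, .ofNat 3822, .negSucc 1430, .negSucc 582⟩, ⟨.negSucc 2288, .negSucc 86, .negSucc 226, .ofNat 1901, .negSucc 617, .negSucc 337⟩, ⟨.ofNat 3720, .ofNat 285, .negSucc 403, .negSucc 2141, .ofNat 1087, .ofNat 207⟩, ⟨.negSucc 13463, .negSucc 893, .ofNat 405, .ofNat 6225, .negSucc 3124, .negSucc 524⟩, ⟨.ofNat 8511, .ofNat 645, .negSucc 10, .negSucc 901, .ofNat 1894, .negSucc 694⟩, .ofNat 1164, .negSucc 1582, .ofNat 0, .negSucc 1582, .ofNat 3181, .ofNat 0, .ofNat 128, .ofNat 528, .negSucc 825, .ofNat 0, .ofNat 312, .negSucc 364, .ofNat 0, .ofNat 0, .ofNat 572, .ofNat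 1032, .ofNat 0, .ofNat 0, .ofNat 6611441759378872147790338726081079487670255616, .ofNat 0, .ofNat 0, .ofNat 0, .ofNat 223269595704101066537059416161207957354495082496, .ofNat 0, .ofNat 0, .ofNat 0, .ofNat 61950057965187708020278465950132363751617200128, .ofNat 0, .ofNat 0, .ofNat 0, .ofNat 68193803951237031160574036430848180835168813056, .ofNat 0⟩)
    (by decide +kernel)
theorem L02638 : Good (Phi V5.P V5.D 1 1) ⟨7, 107, 4, 6, 4, 15, 3, 6, 5, 0⟩ :=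
  out_sound (S := T5.ds_pp) T5.ok_pp (w := 71) (j := 3) (by decide +kernel)
theorem L02639 : Good (Phi V5.P V5.D 1 1) ⟨5, 26, 4, 6, 4, 14, 3, 7, 5, 0⟩ :=
  leafX_sound T5.ok_pp T5.Ypp.bz_eq (w := 257) (c := ⟨⟨.negSucc 8004, .negSucc 3621, .ofNat 1757, .ofNat 1934, .negSucc 1251, .negSucc 1862⟩, ⟨.negSucc 3185, .negSucc 1391, .ofNat 230, .ofNat 966, .negSucc 393, .negSucc 905⟩, ⟨.ofNat 5438, .ofNat 2413, .negSucc 1116, .negSucc 1628, .ofNat 1741, .ofNat 1054⟩, ⟨.negSucc 15939, .negSucc 6809, .ofNat 2352, .ofNat 2428, .negSucc 3668, .negSucc 2880⟩, ⟨.ofNat 7841, .ofNat 2952, .ofNat 29, .ofNat 989, .ofNat 3560, .ofNat 62⟩, .ofNat 1127, .negSucc 1525, .ofNat 0, .negSucc 1525, .ofNat 3127, .ofNat 0, .ofNat 128, .ofNat 329, .negSucc 1677, .ofNat 0, .ofNat 200, .negSucc 754, .ofNat 0, .ofNat 0, .ofNat 1086, .ofNat 259, .ofNat 0, .ofNat 0, .ofNat 32205435580687404629642732486652615473965826048,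 .ofNat 0, .ofNat 0, .ofNat 0, .ofNat 516367111204977527055101180233381482027485757440, .ofNat 0, .ofNat 0, .ofNat 0, .ofNat 682676806906722596923257630520002509953220739072, .ofNat 0, .ofNat 0, .ofNat 27077057925511316592296825966119285635344912766468096, .ofNat 1792400189001764844980366272803254899394545188864, .ofNat 0⟩)
    (by decide +kernel)
theorem L02640 : Good (Phi V5.P V5.D 1 1) ⟨5, 26, 4, 6, 4, 15, 3, 7, 5, 0⟩ :=
  leafX_sound T5.ok_pp T5.Ypp.bz_eq (w := 257) (c := ⟨⟨.negSucc 6687, .negSucc 1524, .ofNat 545, .ofNat 3876, .negSucc 415, .negSucc 1432⟩, ⟨.negSucc 2540, .negSucc 352, .negSucc 230, .ofNat 1812, .negSucc 63, .negSucc 724⟩, ⟨.ofNat 4436, .ofNat 1217, .negSucc 520, .negSucc 2545, .ofNat 896, .ofNat 607⟩, ⟨.negSucc 14739, .negSucc 3679, .ofNat 535, .ofNat 6696, .negSucc 1561, .negSucc 2105⟩, ⟨.ofNat 9552, .ofNat 2828, .negSucc 3, .negSucc 1638, .ofNat 1863, .negSucc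 189⟩, .ofNat 1127, .negSucc 1525, .ofNat 0, .negSucc 1525, .ofNat 3127, .ofNat 0, .ofNat 128, .ofNat 402, .negSucc 1422, .ofNat 0, .ofNat 240, .negSucc 615, .ofNat 0, .ofNat 0, .ofNat 928, .ofNat 317, .ofNat 0, .ofNat 0, .ofNat 30306619011363266146866776563182539548605284352, .ofNat 0, .ofNat 0, .ofNat 0, .ofNat 412089109800156013375457454385582978652700672000, .ofNat 0, .ofNat 0, .ofNat 0, .ofNat 974061800955522371574771103831283192878753382400, .ofNat 0, .ofNat 0, .ofNat 31354692963712354431770845960991077151999020675104768, .ofNat 2443819731029419718986306018217161129580541509632, .ofNat 0⟩)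
    (by decide +kernel)
theorem L02641 : Good (Phi V5.P V5.D 1 1) ⟨5, 26, 4, 6, 3, 7, 3, 6, 5, 1⟩ :=
  leafX_sound T5.ok_pp T5.Ypp.bz_eq (w := 242) (c := ⟨⟨.negSucc 8053, .negSucc 1180, .ofNat 380, .ofNat 5316, .negSucc 1597, .negSucc 1121⟩, ⟨.negSucc 3455, .negSucc 288, .negSucc 249, .ofNat 2672, .negSucc 688, .negSucc 533⟩, ⟨.ofNat 4943, .ofNat 819, .negSucc 288, .negSucc 3624, .ofNat 1349, .ofNat 661⟩, ⟨.negSucc 14997, .negSucc 2630, .ofNat 218, .ofNat 7892, .negSucc 3494, .negSucc 1902⟩, ⟨.ofNat 5703, .ofNat 1888, .ofNat 261, .ofNat 403, .ofNat 2135, .ofNat 408⟩, .ofNat 998, .negSucc 1309, .ofNat 0, .negSucc 1309, .ofNat 2749, .ofNat 0, .ofNat 128, .ofNat 186, .negSucc 634, .ofNat 0, .ofNat 109, .negSucc 271, .ofNat 0, .ofNat 0, .ofNat 472, .ofNat 250, .ofNat 0, .ofNat 0, .ofNat 892040376551362430463232563949059115581440, .ofNat 0, .ofNat 0, .ofNat 0, .ofNat 22823115464650668733592791524112355618193408,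 .ofNat 0, .ofNat 0, .ofNat 0, .ofNat 10260957879650794931667548636158590374117376, .ofNat 0, .ofNat 0, .ofNat 0, .ofNat 22515534088544800127065994421032563060506624, .ofNat 0⟩)
    (by decide +kernel)
theorem L02642 : Good (Phi V5.P V5.D 1 1) ⟨5, 26, 4, 6, 3, 7, 3, 7, 5, 1⟩ :=
  leafX_sound T5.ok_pp T5.Ypp.bz_eq (w := 243) (c := ⟨⟨.negSucc 9307, .negSucc 2177, .ofNat 642, .ofNat 5046, .negSucc 2420, .negSucc 1279⟩, ⟨.negSucc 3888, .negSucc 725, .negSucc 245, .ofNat 2459, .negSucc 968, .negSucc 599⟩, ⟨.ofNat 6562, .ofNat 1590, .negSucc 548, .negSucc 4127, .ofNat 1974, .ofNat 627⟩, ⟨.negSucc 18049, .negSucc 4313, .ofNat 257, .ofNat 7628, .negSucc 5335, .negSucc 1665⟩, ⟨.ofNat 8100, .ofNat 2454, .ofNat 824, .ofNat 54, .ofNat 3280, .negSucc 586⟩, .ofNat 1276, .negSucc 1818, .ofNat 0, .negSucc 1818, .ofNat 3710, .ofNat 0, .ofNat 128, .ofNat 268, .negSucc 976, .ofNat 0, .ofNat 158, .negSucc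 430, .ofNat 0, .ofNat 0, .ofNat 711, .ofNat 158, .ofNat 0, .ofNat 0, .ofNat 2986072613807680963137405211327601190109184, .ofNat 0, .ofNat 0, .ofNat 0, .ofNat 34646039414584522069346011451148988854566912, .ofNat 0, .ofNat 0, .ofNat 46633738147820056235202187456458336456629288960, .ofNat 22855432118325954667589431251598693189550080, .ofNat 0, .ofNat 0, .ofNat 3124748985713379178309030840355681146907901558784, .ofNat 70725078414193846672871873732856309138587648, .ofNat 0⟩)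
    (by decide +kernel)
theorem L02643 : Good (Phi V5.P V5.D 1 1) ⟨5, 27, 4, 6, 3, 7, 2, 3, 4, 0⟩ :=
  out_sound (S := T5.ds_pp) T5.ok_pp (w := 59) (j := 3) (by decide +kernel)
theorem L02644 : Good (Phi V5.P V5.D 1 1) ⟨3, 7, 4, 6, 2, 3, 2, 3, 4, 0⟩ :=
  out_sound (S := T5.ds_pp) T5.ok_pp (w := 47) (j := 3) (by decide +kernel)
theorem L02645 : Good (Phi V5.P V5.D 1 1) ⟨4, 12, 4, 6, 3, 6, 3, 6, 4, 1⟩ :=
  leafX_sound T5.ok_pp T5.Ypp.bz_eq (w := 232) (c := ⟨⟨.negSucc 6432, .negSucc 1521, .ofNat 291, .negSucc 141, .negSucc 867, .ofNat 1652⟩, ⟨.negSucc 2799, .negSucc 699, .negSucc 218, .ofNat 27, .negSucc 356, .ofNat 698⟩, ⟨.ofNat 4387, .ofNat 921, .negSucc 136, .negSucc 316, .ofNat 1006, .negSucc 822⟩, ⟨.negSucc 11311, .negSucc 2162, .ofNat 134, .negSucc 1511, .negSucc 2051, .ofNat 3397⟩, ⟨.ofNat 1863, .ofNat 788, .ofNat 440, .ofNat 2633, .ofNat 1410, .negSucc 1816⟩, .ofNat 820, .negSucc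 1047, .ofNat 0, .negSucc 1047, .ofNat 2441, .ofNat 0, .ofNat 128, .ofNat 301, .negSucc 745, .ofNat 0, .ofNat 171, .negSucc 296, .ofNat 0, .ofNat 0, .ofNat 747, .ofNat 301, .ofNat 0, .ofNat 0, .ofNat 0, .ofNat 0, .ofNat 0, .ofNat 0, .ofNat 378406251515744402586943614140693570650112, .ofNat 0, .ofNat 0, .ofNat 0, .ofNat 0, .ofNat 0, .ofNat 0, .ofNat 0, .ofNat 0, .ofNat 0⟩)
    (by decide +kernel)
theorem L02646 : Good (Phi V5.P V5.D 1 1) ⟨4, 12, 4, 6, 3, 6, 3, 7, 4, 1⟩ :=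
  leafX_sound T5.ok_pp T5.Ypp.bz_eq (w := 233) (c := ⟨⟨.negSucc 7452, .negSucc 2164, .ofNat 424, .ofNat 106, .negSucc 1576, .ofNat 2117⟩, ⟨.negSucc 3208, .negSucc 987, .negSucc 250, .ofNat 163, .negSucc 642, .ofNat 880⟩, ⟨.ofNat 5562, .ofNat 1305, .negSucc 177, .negSucc 455, .ofNat 1701, .negSucc 1241⟩, ⟨.negSucc 13441, .negSucc 3343, .ofNat 161, .negSucc 1293, .negSucc 3974, .ofNat 4422⟩, ⟨.ofNat 2767, .ofNat 1343, .ofNat 688, .ofNat 3083, .ofNat 3143, .negSucc 2407⟩, .ofNat 1065, .negSucc 1536, .ofNat 0, .negSucc 1536, .ofNat 3474, .ofNat 0, .ofNat 128, .ofNat 330, .negSucc 800, .ofNat 0, .ofNat 184, .negSucc 329, .ofNat 0, .ofNat 0, .ofNat 766, .ofNat 145, .ofNat 0, .ofNat 0, .ofNat 0, .ofNat 0, .ofNat 0, .ofNat 16311678536321429792989752407817595845368348672, .ofNat 163115652492722421263443515098015704547328, .ofNat 0, .ofNat 0, .ofNat 16999914539143290661436502236278054135755964416,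 .ofNat 0, .ofNat 0, .ofNat 0, .ofNat 0, .ofNat 0, .ofNat 0⟩)
    (by decide +kernel)
theorem L02647 : Good (Phi V5.P V5.D 1 1) ⟨5, 26, 4, 6, 3, 6, 3, 6, 4, 1⟩ :=
  leafX_sound T5.ok_pp T5.Ypp.bz_eq (w := 237) (c := ⟨⟨.negSucc 8362, .negSucc 1347, .ofNat 365, .negSucc 421, .negSucc 1002, .ofNat 2311⟩, ⟨.negSucc 3698, .negSucc 669, .negSucc 204, .negSucc 49, .negSucc 398, .ofNat 987⟩, ⟨.ofNat 5546, .ofNat 834, .negSucc 157, .negSucc 110, .ofNat 1109, .negSucc 1234⟩, ⟨.negSucc 13837, .negSucc 2224, .ofNat 202, .negSucc 2208, .negSucc 2265, .ofNat 4355⟩, ⟨.ofNat 2220, .ofNat 977, .ofNat 471, .ofNat 3094, .ofNat 1475, .negSucc 1734⟩, .ofNat 1005, .negSucc 1326, .ofNat 0, .negSucc 1326, .ofNat 2787, .ofNat 0, .ofNat 128, .ofNat 285, .negSucc 725, .ofNat 0, .ofNat 170, .negSucc 317, .ofNat 0, .ofNat 0, .ofNat 700, .ofNat 267, .ofNat 0, .ofNat 0, .ofNat 51243146601585813984032630135408088317952,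 .ofNat 0, .ofNat 0, .ofNat 0, .ofNat 1275158869707423054536063334113527367467008, .ofNat 0, .ofNat 0, .ofNat 0, .ofNat 846781474499425595861765206873447489077248, .ofNat 0, .ofNat 0, .ofNat 0, .ofNat 0, .ofNat 0⟩)
    (by decide +kernel)
theorem L02648 : Good (Phi V5.P V5.D 1 1) ⟨5, 26, 4, 6, 3, 6, 3, 7, 4, 1⟩ :=
  leafX_sound T5.ok_pp T5.Ypp.bz_eq (w := 237) (c := ⟨⟨.negSucc 11038, .negSucc 1244, .ofNat 542, .ofNat 344, .negSucc 1690, .ofNat 3798⟩, ⟨.negSucc 4874, .negSucc 615, .negSucc 204, .ofNat 376, .negSucc 651, .ofNat 1685⟩, ⟨.ofNat 7744, .ofNat 790, .negSucc 191, .negSucc 504, .ofNat 1885, .negSucc 2411⟩, ⟨.negSucc 18893, .negSucc 1952, .ofNat 373, .negSucc 1190, .negSucc 4454, .ofNat 7421⟩, ⟨.ofNat 4248, .ofNat 784, .ofNat 606, .ofNat 3415, .ofNat 3652, .negSucc 3374⟩, .ofNat 993, .negSucc 1301, .ofNat 0, .negSucc 1301, .ofNat 2734, .ofNat 0, .ofNat 128, .ofNat 307, .negSucc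 803, .ofNat 0, .ofNat 188, .negSucc 344, .ofNat 0, .ofNat 0, .ofNat 769, .ofNat 78, .ofNat 0, .ofNat 0, .ofNat 52512717319942569011001685481296578478080, .ofNat 0, .ofNat 0, .ofNat 119862549787857145069361105720890930106239811584, .ofNat 815249763894460174598460943727440378724352, .ofNat 0, .ofNat 0, .ofNat 214667653893974135084552951234490997328152887296, .ofNat 1024517974348810495067444592398882213724160, .ofNat 0, .ofNat 0, .ofNat 0, .ofNat 2002781157513898753207020331940358312165376, .ofNat 0⟩)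
    (by decide +kernel)
theorem L02649 : Good (Phi V5.P V5.D 1 1) ⟨5, 27, 4, 6, 3, 6, 2, 3, 4, 1⟩ :=
  out_sound (S := T5.ds_pp) T5.ok_pp (w := 59) (j := 3) (by decide +kernel)
theorem L02650 : Good (Phi V5.P V5.D 1 1) ⟨4, 12, 4, 6, 3, 7, 3, 6, 4, 1⟩ :=
  leafX_sound T5.ok_pp T5.Ypp.bz_eq (w := 233) (c := ⟨⟨.negSucc 5983, .negSucc 1335, .ofNat 243, .ofNat 2094, .negSucc 956, .ofNat 498⟩, ⟨.negSucc 2713, .negSucc 335, .negSucc 297, .ofNat 1067, .negSucc 404, .ofNat 186⟩, ⟨.ofNat 3655, .ofNat 874, .negSucc 152, .negSucc 1879, .ofNat 886, .ofNat 10⟩, ⟨.negSucc 11637, .negSucc 2329, .negSucc 118, .ofNat 2619, .negSucc 2127, .ofNat 1465⟩, ⟨.ofNat 4335, .ofNat 1253, .ofNat 682, .ofNat 1438, .ofNat 1335, .negSucc 1500⟩, .ofNat 1074, .negSucc 1551, .ofNat 0, .negSucc 1551, .ofNat 3492, .ofNat 0, .ofNat 128, .ofNat 388, .negSucc 609, .ofNat 0, .ofNat 213, .negSucc 241, .ofNat 0, .ofNat 0,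 .ofNat 634, .ofNat 419, .ofNat 0, .ofNat 0, .ofNat 0, .ofNat 0, .ofNat 0, .ofNat 0, .ofNat 855850140503346423645463642190897475485696, .ofNat 0, .ofNat 0, .ofNat 0, .ofNat 0, .ofNat 0, .ofNat 0, .ofNat 0, .ofNat 0, .ofNat 0⟩)
    (by decide +kernel)
theorem L02651 : Good (Phi V5.P V5.D 1 1) ⟨4, 13, 4, 6, 3, 7, 3, 6, 4, 1⟩ :=
  leafX_sound T5.ok_pp T5.Ypp.bz_eq (w := 233) (c := ⟨⟨.negSucc 7956, .negSucc 1755, .ofNat 206, .ofNat 2542, .negSucc 1199, .ofNat 1160⟩, ⟨.negSucc 3392, .negSucc 472, .negSucc 325, .ofNat 1401, .negSucc 527, .ofNat 459⟩, ⟨.ofNat 4942, .ofNat 1300, .negSucc 107, .negSucc 2186, .ofNat 1007, .negSucc 397⟩, ⟨.negSucc 14864, .negSucc 3171, .negSucc 225, .ofNat 2816, .negSucc 2487, .ofNat 2882⟩, ⟨.ofNat 5670, .ofNat 1815, .ofNat 656, .ofNat 2092, .ofNat 1330, .negSucc 2260⟩, .ofNat 1075, .negSucc 1370, .ofNat 0, .negSucc 1370, .ofNat 2706, .ofNat 0, .ofNat 128, .ofNat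 301, .negSucc 598, .ofNat 0, .ofNat 193, .negSucc 237, .ofNat 0, .ofNat 0, .ofNat 570, .ofNat 300, .ofNat 0, .ofNat 0, .ofNat 210312866114550794932229500487146588340224, .ofNat 0, .ofNat 0, .ofNat 0, .ofNat 2015957368188311502676919272625985453817856, .ofNat 0, .ofNat 0, .ofNat 0, .ofNat 2808789951423976653797370707052445780934656, .ofNat 0, .ofNat 0, .ofNat 0, .ofNat 5018400696319047781721482921213990335938560, .ofNat 0⟩)
    (by decide +kernel)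
theorem L02652 : Good (Phi V5.P V5.D 1 1) ⟨4, 12, 4, 6, 3, 7, 3, 7, 5, 2⟩ :=
  leafX_sound T5.ok_pp T5.Ypp.bz_eq (w := 238) (c := ⟨⟨.negSucc 6503, .negSucc 2745, .ofNat 509, .ofNat 2807, .negSucc 1909, .ofNat 74⟩, ⟨.negSucc 2893, .negSucc 907, .negSucc 282, .ofNat 1317, .negSucc 792, .ofNat 6⟩, ⟨.ofNat 4600, .ofNat 1785, .negSucc 346, .negSucc 2852, .ofNat 1572, .ofNat 4⟩, ⟨.negSucc 13414, .negSucc 4490, .negSucc 8, .ofNat 4300, .negSucc 3954, .ofNat 426⟩, ⟨.ofNat 6126, .ofNat 1609, .ofNat 1061, .ofNat 220, .ofNat 2056, .negSucc 703⟩, .ofNat 1500, .negSucc 2407, .ofNat 0, .negSucc 2407, .ofNat 5254, .ofNat 0, .ofNat 128, .ofNat 352, .negSucc 650, .ofNat 0, .ofNat 189, .negSucc 273, .ofNat 0, .ofNat 0, .ofNat 572, .ofNat 183, .ofNat 0, .ofNat 0, .ofNat 0, .ofNat 0, .ofNat 0, .ofNat 0, .ofNat 0, .ofNat 0, .ofNat 0, .ofNat 0, .ofNat 0, .ofNat 0, .ofNat 0, .ofNat 219978178176275638466426997381710090096108109824,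 .ofNat 59157037692851056291974958750296714904600576, .ofNat 0⟩)
    (by decide +kernel)
theorem L02653 : Good (Phi V5.P V5.D 1 1) ⟨4, 12, 4, 6, 3, 7, 3, 7, 5, 3⟩ :=
  leafX_sound T5.ok_pp T5.Ypp.bz_eq (w := 238) (c := ⟨⟨.negSucc 6940, .negSucc 907, .ofNat 100, .ofNat 1583, .negSucc 1310, .ofNat 612⟩, ⟨.negSucc 3103, .negSucc 123, .negSucc 414, .ofNat 796, .negSucc 562, .ofNat 240⟩, ⟨.ofNat 4784, .ofNat 865, .negSucc 113, .negSucc 2060, .ofNat 1077, .negSucc 235⟩, ⟨.negSucc 13595, .negSucc 1557, .negSucc 251, .ofNat 1838, .negSucc 2733, .ofNat 1508⟩, ⟨.ofNat 5144, .ofNat 1247, .ofNat 420, .ofNat 1383, .ofNat 1479, .negSucc 1154⟩, .ofNat 1064, .negSucc 1529, .ofNat 0, .negSucc 1529, .ofNat 3440, .ofNat 0, .ofNat 128, .ofNat 374, .negSucc 685, .ofNat 0, .ofNat 209, .negSucc 262, .ofNat 0, .ofNat 0, .ofNat 804, .ofNat 262, .ofNat 0, .ofNat 7748772071607292916525115582459845544639463424,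 .ofNat 0, .ofNat 0, .ofNat 0, .ofNat 0, .ofNat 0, .ofNat 0, .ofNat 0, .ofNat 98940287833983006621243744622837198588315959296, .ofNat 0, .ofNat 0, .ofNat 0, .ofNat 0, .ofNat 0, .ofNat 0⟩)
    (by decide +kernel)
theorem L02654 : Good (Phi V5.P V5.D 1 1) ⟨5, 26, 4, 6, 3, 7, 3, 7, 5, 2⟩ :=
  leafX_sound T5.ok_pp T5.Ypp.bz_eq (w := 243) (c := ⟨⟨.negSucc 9540, .negSucc 1474, .ofNat 442, .ofNat 3560, .negSucc 1952, .ofNat 14⟩, ⟨.negSucc 3994, .negSucc 420, .negSucc 312, .ofNat 1788, .negSucc 848, .negSucc 42⟩, ⟨.ofNat 6606, .ofNat 978, .negSucc 193, .negSucc 3346, .ofNat 1548, .ofNat 57⟩, ⟨.negSucc 18390, .negSucc 2739, .negSucc 17, .ofNat 5260, .negSucc 4130, .ofNat 550⟩, ⟨.ofNat 7979, .ofNat 1463, .ofNat 799, .ofNat 307, .ofNat 2322, .negSucc 1058⟩, .ofNat 1127, .negSucc 1525, .ofNat 0, .negSucc 1525, .ofNat 3127, .ofNat 0, .ofNat 128, .ofNat 367, .negSucc 1018, .ofNat 0, .ofNat 223,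 .negSucc 423, .ofNat 0, .ofNat 0, .ofNat 850, .ofNat 238, .ofNat 0, .ofNat 0, .ofNat 3627693725476529807560475479791889645830144, .ofNat 0, .ofNat 0, .ofNat 0, .ofNat 36719266332384171902251479136469649264214016, .ofNat 0, .ofNat 0, .ofNat 784317830168699020948194054485993804772212211712, .ofNat 18058267971721718916924890809462425330384896, .ofNat 0, .ofNat 0, .ofNat 10085385742406514579141210917355174955784108769280, .ofNat 105954874459322739416997770776902669759938560, .ofNat 0⟩)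
    (by decide +kernel)
theorem L02655 : Good (Phi V5.P V5.D 1 1) ⟨5, 26, 4, 6, 3, 7, 3, 7, 5, 3⟩ :=
  leafX_sound T5.ok_pp T5.Ypp.bz_eq (w := 242) (c := ⟨⟨.negSucc 8255, .negSucc 728, .ofNat 128, .ofNat 1967, .negSucc 1502, .ofNat 858⟩, ⟨.negSucc 3484, .negSucc 109, .negSucc 390, .ofNat 1075, .negSucc 648, .ofNat 325⟩, ⟨.ofNat 5820, .ofNat 632, .negSucc 74, .negSucc 2216, .ofNat 1302, .negSucc 438⟩, ⟨.negSucc 15552, .negSucc 1349, .negSucc 466, .ofNat 2075, .negSucc 3252, .ofNat 2164⟩, ⟨.ofNat 6137, .ofNat 852, .ofNat 822, .ofNat 1868, .ofNat 1951, .negSucc 1662⟩, .ofNat 992, .negSucc 1299, .ofNat 0, .negSucc 1299, .ofNat 2730, .ofNat 0, .ofNat 128, .ofNat 320, .negSucc 538, .ofNat 0, .ofNat 196, .negSucc 207, .ofNat 0, .ofNat 0, .ofNat 630, .ofNat 260, .ofNat 0, .ofNat 109132771684316196529555876144414501468037447680, .ofNat 1382826254687293792155693681578258817089536, .ofNat 0,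 .ofNat 0, .ofNat 0, .ofNat 36444558516284087275034457675770999693377536, .ofNat 0, .ofNat 0, .ofNat 1373334870067462588897732770458489263186581127168, .ofNat 35245451519697682479372029412419656065482752, .ofNat 0, .ofNat 0, .ofNat 9816386009205921246011001395612183365855802818560, .ofNat 57299789099960620004747754595214185744826368, .ofNat 0⟩)
    (by decide +kernel)
theorem L02656 : Good (Phi V5.P V5.D 1 1) ⟨5, 27, 4, 6, 3, 7, 3, 7, 4, 1⟩ :=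
  out_sound (S := T5.ds_pp) T5.ok_pp (w := 59) (j := 3) (by decide +kernel)
theorem L02657 : Good (Phi V5.P V5.D 1 1) ⟨3, 7, 4, 6, 2, 3, 2, 3, 4, 1⟩ :=
  out_sound (S := T5.ds_pp) T5.ok_pp (w := 47) (j := 3) (by decide +kernel)
theorem L02658 : Good (Phi V5.P V5.D 1 1) ⟨4, 12, 4, 7, 3, 6, 2, 3, 4, 0⟩ :=
  leafX_sound T5.ok_pp T5.Ypp.bz_eq (w := 233) (c := ⟨⟨.negSucc 1945, .negSucc 2, .ofNat 1189, .negSucc 1845, .negSucc 2729, .negSucc 4170⟩, ⟨.negSucc 910, .negSucc 0, .ofNat 229, .negSucc 818, .negSucc 1228, .negSucc 2088⟩, ⟨.ofNat 1463, .ofNat 3, .ofNat 752, .ofNat 768, .ofNat 3051, .ofNat 2600⟩, ⟨.negSucc 4328, .negSucc 5, .ofNat 201, .negSucc 4470, .negSucc 6346, .negSucc 6275⟩, ⟨.ofNat 2628, .ofNat 3, .ofNat 155, .ofNat 3274, .ofNat 4294, .negSucc 293⟩, .ofNat 2603, .negSucc 4415, .ofNat 0, .negSucc 4415, .ofNat 8830, .ofNat 0, .ofNat 128, .ofNat 912, .negSucc 3224, .ofNat 0,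 .ofNat 503, .negSucc 1560, .ofNat 0, .ofNat 0, .ofNat 2419, .ofNat 509, .ofNat 0, .ofNat 0, .ofNat 0, .ofNat 0, .ofNat 0, .ofNat 2286873321161385223599344784270583996876849152, .ofNat 4572668951758214180257495120035317347778560, .ofNat 0, .ofNat 0, .ofNat 0, .ofNat 3765033067612703210703612900302967122427904, .ofNat 0, .ofNat 0, .ofNat 0, .ofNat 2455681146492188602372452344246950120390656, .ofNat 0⟩)
    (by decide +kernel)
theorem L02659 : Good (Phi V5.P V5.D 1 1) ⟨6, 52, 4, 7, 3, 6, 2, 3, 4, 0⟩ :=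
  leafX_sound T5.ok_pp T5.Ypp.bz_eq (w := 237) (c := ⟨⟨.negSucc 1433, .negSucc 1476, .ofNat 1642, .negSucc 2077, .negSucc 3188, .negSucc 4548⟩, ⟨.negSucc 630, .negSucc 660, .ofNat 350, .negSucc 928, .negSucc 1446, .negSucc 2323⟩, ⟨.ofNat 1114, .ofNat 1044, .negSucc 1113, .ofNat 938, .ofNat 3408, .ofNat 2820⟩, ⟨.negSucc 2921, .negSucc 2604, .ofNat 2705, .negSucc 5324, .negSucc 7375, .negSucc 7262⟩, ⟨.ofNat 1464, .ofNat 901, .negSucc 736, .ofNat 4091, .ofNat 4959, .ofNat 521⟩, .ofNat 1473, .negSucc 2202, .ofNat 0, .negSucc 2202, .ofNat 4417, .ofNat 0, .ofNat 128, .ofNat 442, .negSucc 1506, .ofNat 0, .ofNat 253, .negSucc 738, .ofNat 0, .ofNat 0, .ofNat 1125, .ofNat 114, .ofNat 0, .ofNat 0, .ofNat 0, .ofNat 0, .ofNat 0, .ofNat 914130629097034199306790668077667957221613371392, .ofNat 0, .ofNat 0, .ofNat 0, .ofNat 0, .ofNat 0, .ofNat 0, .ofNat 0, .ofNat 2814025543361128829406289884448245373450317725696,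 .ofNat 44345650786511707862509686187087844343808, .ofNat 0⟩)
    (by decide +kernel)
theorem L02660 : Good (Phi V5.P V5.D 1 1) ⟨6, 53, 4, 7, 3, 6, 2, 3, 5, 0⟩ :=
  leafX_sound T5.ok_pp T5.Ypp.bz_eq (w := 242) (c := ⟨⟨.negSucc 2118, .negSucc 976, .ofNat 1576, .negSucc 3241, .negSucc 1823, .negSucc 3335⟩, ⟨.negSucc 870, .negSucc 413, .ofNat 419, .negSucc 1549, .negSucc 737, .negSucc 1763⟩, ⟨.ofNat 1609, .ofNat 659, .negSucc 955, .ofNat 1572, .ofNat 2717, .ofNat 1930⟩, ⟨.negSucc 4309, .negSucc 1983, .ofNat 2253, .negSucc 7047, .negSucc 5217, .negSucc 4948⟩, ⟨.ofNat 2247, .ofNat 1115, .negSucc 168, .ofNat 4031, .ofNat 4708, .negSucc 75⟩, .ofNat 1486, .negSucc 2128, .ofNat 0, .negSucc 2128, .ofNat 4079, .ofNat 0, .ofNat 128, .ofNat 290, .negSucc 1289, .ofNat 0, .ofNat 176, .negSucc 654, .ofNat 0, .ofNat 0, .ofNat 905, .ofNat 109, .ofNat 0, .ofNat 0, .ofNat 0, .ofNat 0, .ofNat 0, .ofNat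 3778990785615075975703125469273384343743487803392, .ofNat 1097578766094920289304721387961961412558848, .ofNat 0, .ofNat 0, .ofNat 0, .ofNat 800783340218916575964152738220752844619776, .ofNat 0, .ofNat 0, .ofNat 0, .ofNat 0, .ofNat 0⟩)
    (by decide +kernel)
theorem L02661 : Good (Phi V5.P V5.D 1 1) ⟨6, 53, 4, 7, 3, 6, 2, 3, 5, 1⟩ :=
  leafX_sound T5.ok_pp T5.Ypp.bz_eq (w := 242) (c := ⟨⟨.negSucc 5883, .negSucc 1498, .ofNat 1795, .negSucc 1612, .negSucc 3906, .negSucc 1605⟩, ⟨.negSucc 2800, .negSucc 711, .ofNat 405, .negSucc 667, .negSucc 1837, .negSucc 850⟩, ⟨.ofNat 3843, .ofNat 1003, .negSucc 1118, .ofNat 631, .ofNat 3952, .ofNat 1107⟩, ⟨.negSucc 9977, .negSucc 2522, .ofNat 2558, .negSucc 4813, .negSucc 8689, .negSucc 2436⟩, ⟨.ofNat 2194, .ofNat 823, .negSucc 125, .ofNat 4467, .ofNat 5302, .ofNat 49⟩, .ofNat 1473, .negSucc 2108, .ofNat 0, .negSucc 2108, .ofNat 4049, .ofNat 0, .ofNat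 128, .ofNat 250, .negSucc 897, .ofNat 0, .ofNat 151, .negSucc 448, .ofNat 0, .ofNat 0, .ofNat 685, .ofNat 102, .ofNat 0, .ofNat 0, .ofNat 0, .ofNat 0, .ofNat 0, .ofNat 4581332149375348170506382700492327226335226232832, .ofNat 1079718018111658824671465803097561446219776, .ofNat 0, .ofNat 0, .ofNat 2663230417840318753184604720179980632426136207360, .ofNat 295584869509311346006374724413276932800512, .ofNat 0, .ofNat 0, .ofNat 11040205481280515680347641964740013900778547707904, .ofNat 140528525142770938745340287953563723759616, .ofNat 0⟩)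
    (by decide +kernel)
theorem L02662 : Good (Phi V5.P V5.D 1 1) ⟨5, 27, 4, 7, 3, 6, 2, 3, 4, 0⟩ :=
  leafX_sound T5.ok_pp T5.Ypp.bz_eq (w := 234) (c := ⟨⟨.negSucc 4658, .negSucc 1344, .ofNat 1772, .negSucc 1816, .negSucc 3551, .negSucc 4542⟩, ⟨.negSucc 1997, .negSucc 645, .ofNat 371, .negSucc 776, .negSucc 1635, .negSucc 2448⟩, ⟨.ofNat 3208, .ofNat 963, .negSucc 1143, .ofNat 721, .ofNat 3917, .ofNat 2868⟩, ⟨.negSucc 7677, .negSucc 1657, .ofNat 2495, .negSucc 5624, .negSucc 8798, .negSucc 7315⟩, ⟨.ofNat 1736, .negSucc 144, .negSucc 191, .ofNat 5290, .ofNat 6490, .ofNat 1033⟩, .ofNat 1345, .negSucc 1766, .ofNat 0, .negSucc 1766, .ofNat 3215, .ofNat 0, .ofNat 128, .ofNat 299, .negSucc 1730, .ofNat 0, .ofNat 197, .negSucc 878, .ofNat 0, .ofNat 0, .ofNat 1192, .ofNat 98, .ofNat 0, .ofNat 0, .ofNat 10422280858118679225254661410205156245504, .ofNat 0, .ofNat 0, .ofNat 0, .ofNat 118760782155413653213963026261046611410944,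 .ofNat 0, .ofNat 0, .ofNat 0, .ofNat 52661775773209506256588211827692621791232, .ofNat 0, .ofNat 0, .ofNat 0, .ofNat 176928540507907035694062332989055866765312, .ofNat 0⟩)
    (by decide +kernel)
theorem L02663 : Good (Phi V5.P V5.D 1 1) ⟨4, 12, 4, 7, 3, 6, 2, 3, 4, 1⟩ :=
  leafX_sound T5.ok_pp T5.Ypp.bz_eq (w := 231) (c := ⟨⟨.negSucc 7923, .negSucc 3, .ofNat 371, .negSucc 20, .negSucc 1989, .ofNat 1742⟩, ⟨.negSucc 3872, .negSucc 1, .negSucc 223, .ofNat 73, .negSucc 893, .ofNat 807⟩, ⟨.ofNat 5313, .ofNat 3, .negSucc 716, .negSucc 347, .ofNat 2381, .negSucc 903⟩, ⟨.negSucc 13826, .negSucc 6, .ofNat 91, .negSucc 1390, .negSucc 4638, .ofNat 3715⟩, ⟨.ofNat 3190, .ofNat 3, .ofNat 33, .ofNat 2720, .ofNat 3153, .negSucc 2063⟩, .ofNat 2603, .negSucc 4413, .ofNat 0, .negSucc 4413, .ofNat 8827, .ofNat 0, .ofNat 128, .ofNat 610, .negSucc 1327, .ofNat 0, .ofNat 336, .negSucc 627, .ofNat 0, .ofNat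 0, .ofNat 1352, .ofNat 563, .ofNat 0, .ofNat 0, .ofNat 0, .ofNat 0, .ofNat 0, .ofNat 8907174512974300938097845840272047351038738432, .ofNat 2407683620688330975321212686926065541578752, .ofNat 0, .ofNat 0, .ofNat 3596521752121061487210056228083180114311905280, .ofNat 2355095968364024818943187067361100862324736, .ofNat 0, .ofNat 0, .ofNat 23558714630918694020260713580988950788247126016, .ofNat 1252951362657632218757185386681294225670144, .ofNat 0⟩)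
    (by decide +kernel)
theorem L02664 : Good (Phi V5.P V5.D 1 1) ⟨4, 13, 4, 7, 3, 6, 3, 6, 5, 2⟩ :=
  leafX_sound T5.ok_pp T5.Ypp.bz_eq (w := 238) (c := ⟨⟨.negSucc 6953, .negSucc 3655, .ofNat 875, .negSucc 777, .negSucc 1402, .ofNat 615⟩, ⟨.negSucc 3415, .negSucc 1767, .ofNat 2, .negSucc 254, .negSucc 672, .ofNat 302⟩, ⟨.ofNat 4646, .ofNat 2431, .negSucc 492, .ofNat 100, .ofNat 1432, .negSucc 248⟩, ⟨.negSucc 11751, .negSucc 6001, .ofNat 969, .negSucc 3198, .negSucc 3189, .ofNat 1530⟩, ⟨.ofNat 2191, .ofNat 2183, .ofNat 328, .ofNat 3776, .ofNat 2032, .negSucc 1157⟩, .ofNat 1101, .negSucc 1428, .ofNat 0, .negSucc 1428, .ofNat 2774, .ofNat 0, .ofNat 128, .ofNat 339, .negSucc 1226, .ofNat 0, .ofNat 211, .negSucc 590, .ofNat 0, .ofNat 0, .ofNat 1045, .ofNat 200, .ofNat 0, .ofNat 0, .ofNat 5943488655788334245997515231568648445362176, .ofNat 0, .ofNat 0, .ofNat 0, .ofNat 183335317130962055427444801128121250623782912,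 .ofNat 0, .ofNat 0, .ofNat 0, .ofNat 73982721205798562443697071779889374423941120, .ofNat 0, .ofNat 0, .ofNat 0, .ofNat 0, .ofNat 0⟩)
    (by decide +kernel)
theorem L02665 : Good (Phi V5.P V5.D 1 1) ⟨4, 13, 4, 7, 3, 6, 3, 7, 5, 2⟩ :=
  leafX_sound T5.ok_pp T5.Ypp.bz_eq (w := 238) (c := ⟨⟨.negSucc 9090, .negSucc 3819, .ofNat 780, .negSucc 190, .negSucc 2072, .ofNat 1273⟩, ⟨.negSucc 4472, .negSucc 1613, .negSucc 216, .ofNat 85, .negSucc 916, .ofNat 618⟩, ⟨.ofNat 6516, .ofNat 2734, .negSucc 433, .negSucc 172, .ofNat 2213, .negSucc 780⟩, ⟨.negSucc 15680, .negSucc 6523, .ofNat 148, .negSucc 2695, .negSucc 5360, .ofNat 2842⟩, ⟨.ofNat 3558, .ofNat 2836, .ofNat 1407, .ofNat 4491, .ofNat 4202, .negSucc 1742⟩, .ofNat 1453, .negSucc 2031, .ofNat 0, .negSucc 2031, .ofNat 3831, .ofNat 0, .ofNat 128, .ofNat 292, .negSucc 839, .ofNat 0, .ofNat 184, .negSucc 409, .ofNat 0, .ofNat 0, .ofNat 701,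 .ofNat 145, .ofNat 0, .ofNat 0, .ofNat 12888856077114647541957935327073065297248256, .ofNat 0, .ofNat 0, .ofNat 116512902801952606585287943235759610652415492096, .ofNat 292307329638028683068807937261996538951892992, .ofNat 0, .ofNat 0, .ofNat 0, .ofNat 82804100417783178482107276136959382948675584, .ofNat 0, .ofNat 0, .ofNat 182640992122813611340959618768806060578865938432, .ofNat 211050234452751092603617976953903392703381504, .ofNat 0⟩)
    (by decide +kernel)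
theorem L02666 : Good (Phi V5.P V5.D 1 1) ⟨4, 13, 4, 7, 3, 6, 2, 3, 5, 3⟩ :=
  leafX_sound T5.ok_pp T5.Ypp.bz_eq (w := 233) (c := ⟨⟨.negSucc 6967, .negSucc 2371, .ofNat 399, .negSucc 291, .negSucc 1944, .ofNat 1132⟩, ⟨.negSucc 3438, .negSucc 1160, .negSucc 177, .negSucc 26, .negSucc 901, .ofNat 534⟩, ⟨.ofNat 4818, .ofNat 1539, .negSucc 179, .negSucc 165, .ofNat 2322, .negSucc 637⟩, ⟨.negSucc 11866, .negSucc 3440, .ofNat 222, .negSucc 1995, .negSucc 4787, .ofNat 2617⟩, ⟨.ofNat 2323, .ofNat 938, .ofNat 487, .ofNat 2904, .ofNat 3474, .negSucc 1716⟩, .ofNat 1101, .negSucc 1428, .ofNat 0, .negSucc 1428, .ofNat 2774, .ofNat 0, .ofNat 128, .ofNat 307, .negSucc 627, .ofNat 0, .ofNat 195, .negSucc 290, .ofNat 0, .ofNat 0, .ofNat 658, .ofNat 188, .ofNat 0, .ofNat 0, .ofNat 240223362719322237046752955178868140933120, .ofNat 0, .ofNat 0, .ofNat 32103128579161089993875088845605069617524375552,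 .ofNat 12658852288432577605418441051760363476877312, .ofNat 0, .ofNat 0, .ofNat 35167984136094669735713025021298459028775501824, .ofNat 6630586105780666356920669417680342773399552, .ofNat 0, .ofNat 0, .ofNat 94498691513135702395640821528343615688069349376, .ofNat 3019777156786079541662179399531030242131968, .ofNat 0⟩)
    (by decide +kernel)
theorem L02667 : Good (Phi V5.P V5.D 1 1) ⟨4, 12, 4, 7, 3, 7, 3, 6, 5, 0⟩ :=
  leafX_sound T5.ok_pp T5.Ypp.bz_eq (w := 242) (c := ⟨⟨.negSucc 6189, .negSucc 1, .ofNat 141, .ofNat 4165, .negSucc 1127, .negSucc 573⟩, ⟨.negSucc 2897, .negSucc 0, .negSucc 346, .ofNat 2090, .negSucc 516, .negSucc 300⟩, ⟨.ofNat 3786, .ofNat 1, .negSucc 679, .negSucc 2829, .ofNat 933, .ofNat 237⟩, ⟨.negSucc 12895, .negSucc 5, .ofNat 0, .ofNat 6220, .negSucc 2487, .negSucc 676⟩, ⟨.ofNat 6697, .ofNat 4, .negSucc 1, .ofNat 394, .ofNat 1498, .negSucc 421⟩, .ofNat 2604, .negSucc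 4416, .ofNat 0, .negSucc 4416, .ofNat 8831, .ofNat 0, .ofNat 128, .ofNat 858, .negSucc 2304, .ofNat 0, .ofNat 467, .negSucc 1093, .ofNat 0, .ofNat 0, .ofNat 1627, .ofNat 1744, .ofNat 0, .ofNat 0, .ofNat 0, .ofNat 0, .ofNat 0, .ofNat 0, .ofNat 3425276506970188179321853258004647130607648768, .ofNat 0, .ofNat 0, .ofNat 0, .ofNat 2350026504814022187353344282994213187968040960, .ofNat 0, .ofNat 0, .ofNat 0, .ofNat 4677153858509631405225175793792796949380857856, .ofNat 0⟩)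
    (by decide +kernel)
theorem L02668 : Good (Phi V5.P V5.D 1 1) ⟨6, 52, 4, 7, 3, 7, 3, 6, 5, 0⟩ :=
  leafX_sound T5.ok_pp T5.Ypp.bz_eq (w := 247) (c := ⟨⟨.negSucc 6572, .negSucc 521, .ofNat 493, .ofNat 4905, .negSucc 1313, .negSucc 673⟩, ⟨.negSucc 3112, .negSucc 132, .negSucc 176, .ofNat 2495, .negSucc 601, .negSucc 360⟩, ⟨.ofNat 3967, .ofNat 470, .negSucc 615, .negSucc 3171, .ofNat 1017, .ofNat 331⟩, ⟨.negSucc 13554, .negSucc 1233, .ofNat 495, .ofNat 7551, .negSucc 2973, .negSucc 708⟩, ⟨.ofNat 6927, .ofNat 942, .negSucc 41, .negSucc 147, .ofNat 1867, .negSucc 595⟩, .ofNat 1473, .negSucc 2202, .ofNat 0, .negSucc 2202, .ofNat 4417, .ofNat 0, .ofNat 128, .ofNat 418, .negSucc 1195, .ofNat 0, .ofNat 235, .negSucc 571, .ofNat 0, .ofNat 0, .ofNat 828, .ofNat 437, .ofNat 0, .ofNat 0, .ofNat 0, .ofNat 0, .ofNat 0, .ofNat 0, .ofNat 20502075072082320233162386646518286119862272, .ofNat 0,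 .ofNat 0, .ofNat 0, .ofNat 5668577417778331239245094387723880684847104, .ofNat 0, .ofNat 0, .ofNat 0, .ofNat 43413828879783352046636459791497516040585216, .ofNat 0⟩)
    (by decide +kernel)
theorem L02669 : Good (Phi V5.P V5.D 1 1) ⟨6, 53, 4, 7, 4, 14, 3, 6, 5, 0⟩ :=
  leafX_sound T5.ok_pp T5.Ypp.bz_eq (w := 261) (c := ⟨⟨.negSucc 6842, .negSucc 1454, .ofNat 1655, .ofNat 1227, .negSucc 1563, .negSucc 557⟩, ⟨.negSucc 3120, .negSucc 604, .ofNat 299, .ofNat 716, .negSucc 730, .negSucc 326⟩, ⟨.ofNat 4102, .ofNat 971, .negSucc 1051, .negSucc 1011, .ofNat 1468, .ofNat 347⟩, ⟨.negSucc 13779, .negSucc 2740, .ofNat 2425, .ofNat 866, .negSucc 3554, .negSucc 516⟩, ⟨.ofNat 6774, .ofNat 1229, .negSucc 407, .ofNat 1783, .ofNat 2269, .negSucc 596⟩, .ofNat 1458, .negSucc 2079, .ofNat 0, .negSucc 2079, .ofNat 3992, .ofNat 0, .ofNat 128, .ofNat 410, .negSucc 1835, .ofNat 0, .ofNat 244, .negSucc 906,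 .ofNat 0, .ofNat 0, .ofNat 1240, .ofNat 279, .ofNat 0, .ofNat 0, .ofNat 0, .ofNat 0, .ofNat 0, .ofNat 0, .ofNat 345176845903432897464422162107716975022651211776, .ofNat 0, .ofNat 0, .ofNat 0, .ofNat 0, .ofNat 0, .ofNat 0, .ofNat 0, .ofNat 0, .ofNat 0⟩)
    (by decide +kernel)
theorem L02670 : Good (Phi V5.P V5.D 1 1) ⟨6, 53, 4, 7, 4, 15, 3, 6, 5, 0⟩ :=
  leafX_sound T5.ok_pp T5.Ypp.bz_eq (w := 261) (c := ⟨⟨.negSucc 5674, .negSucc 656, .ofNat 408, .ofNat 3704, .negSucc 1465, .negSucc 538⟩, ⟨.negSucc 2525, .negSucc 126, .negSucc 239, .ofNat 1923, .negSucc 676, .negSucc 312⟩, ⟨.ofNat 3251, .ofNat 630, .negSucc 530, .negSucc 2085, .ofNat 1090, .ofNat 229⟩, ⟨.negSucc 12936, .negSucc 1613, .ofNat 403, .ofNat 5997, .negSucc 3133, .negSucc 439⟩, ⟨.ofNat 8553, .ofNat 1192, .negSucc 116, .negSucc 846, .ofNat 1780, .negSucc 694⟩, .ofNat 1457, .negSucc 2083, .ofNat 0, .negSucc 2083, .ofNat 4017,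 .ofNat 0, .ofNat 128, .ofNat 337, .negSucc 822, .ofNat 0, .ofNat 198, .negSucc 391, .ofNat 0, .ofNat 0, .ofNat 570, .ofNat 512, .ofNat 0, .ofNat 0, .ofNat 18606367334509311452373578278469416202723655680, .ofNat 0, .ofNat 0, .ofNat 0, .ofNat 539173813848845048254152609966144290474181001216, .ofNat 0, .ofNat 0, .ofNat 0, .ofNat 0, .ofNat 0, .ofNat 0, .ofNat 0, .ofNat 0, .ofNat 0⟩)
    (by decide +kernel)
theorem L02671 : Good (Phi V5.P V5.D 1 1) ⟨6, 54, 4, 7, 4, 14, 3, 6, 5, 0⟩ :=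
  leafX_sound T5.ok_pp T5.Ypp.bz_eq (w := 262) (c := ⟨⟨.negSucc 8502, .negSucc 2368, .ofNat 2188, .ofNat 812, .negSucc 1517, .negSucc 576⟩, ⟨.negSucc 3835, .negSucc 1090, .ofNat 576, .ofNat 529, .negSucc 721, .negSucc 346⟩, ⟨.ofNat 5199, .ofNat 1542, .negSucc 1397, .negSucc 784, .ofNat 1460, .ofNat 387⟩, ⟨.negSucc 16734, .negSucc 4378, .ofNat 3201, .ofNat 146, .negSucc 3723, .negSucc 533⟩, ⟨.ofNat 7941, .ofNat 1737, .negSucc 472, .ofNat 1905, .ofNat 2671, .negSucc 581⟩, .ofNat 1717, .negSucc 2465, .ofNat 0, .negSucc 2465, .ofNat 4528, .ofNat 0, .ofNat 128, .ofNat 640, .negSucc 1819, .ofNat 0, .ofNat 390, .negSucc 934, .ofNat 0, .ofNat 0, .ofNat 1224, .ofNat 720, .ofNat 0, .ofNat 0, .ofNat 29765525744748336103845688432448464977871765504, .ofNat 0, .ofNat 0, .ofNat 0, .ofNat 1915635709238880379539074672447593505847869702144, .ofNat 0, .ofNat 0, .ofNat 0, .ofNat 388404864388273777733794545168195583925744041984,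 .ofNat 0, .ofNat 0, .ofNat 0, .ofNat 989644316979524691731171878860168013349799329792, .ofNat 0⟩)
    (by decide +kernel)
theorem L02672 : Good (Phi V5.P V5.D 1 1) ⟨6, 54, 4, 7, 4, 15, 3, 6, 5, 0⟩ :=
  leafX_sound T5.ok_pp T5.Ypp.bz_eq (w := 261) (c := ⟨⟨.negSucc 6855, .negSucc 1096, .ofNat 817, .ofNat 3847, .negSucc 1556, .negSucc 466⟩, ⟨.negSucc 2911, .negSucc 334, .negSucc 105, .ofNat 2071, .negSucc 757, .negSucc 288⟩, ⟨.ofNat 4195, .ofNat 903, .negSucc 796, .negSucc 2220, .ofNat 1171, .ofNat 213⟩, ⟨.negSucc 15485, .negSucc 2551, .ofNat 1111, .ofNat 6367, .negSucc 3547, .negSucc 353⟩, ⟨.ofNat 10139, .ofNat 1723, .negSucc 392, .negSucc 1212, .ofNat 2251, .negSucc 608⟩, .ofNat 1505, .negSucc 2104, .ofNat 0, .negSucc 2104, .ofNat 3903, .ofNat 0, .ofNat 128, .ofNat 542, .negSucc 854, .ofNat 0, .ofNat 329, .negSucc 421, .ofNat 0, .ofNat 0, .ofNat 584, .ofNat 965, .ofNat 0, .ofNat 0,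 .ofNat 52379499957905415718046977730479504308060553216, .ofNat 0, .ofNat 0, .ofNat 0, .ofNat 1293161925495770441503210950218187795577329156096, .ofNat 0, .ofNat 0, .ofNat 0, .ofNat 235510046406964253667757628589274835416587960320, .ofNat 0, .ofNat 0, .ofNat 0, .ofNat 720173321070458972866525058671837512012021104640, .ofNat 0⟩)
    (by decide +kernel)
theorem L02673 : Good (Phi V5.P V5.D 1 1) ⟨6, 55, 4, 7, 3, 7, 3, 6, 5, 0⟩ :=
  out_sound (S := T5.ds_pp) T5.ok_pp (w := 65) (j := 3) (by decide +kernel)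
theorem L02674 : Good (Phi V5.P V5.D 1 1) ⟨4, 12, 5, 14, 3, 7, 3, 7, 5, 0⟩ :=
  leafX_sound T5.ok_pp T5.Ypp.bz_eq (w := 246) (c := ⟨⟨.negSucc 6991, .negSucc 2, .ofNat 524, .ofNat 4189, .negSucc 687, .negSucc 1230⟩, ⟨.negSucc 3233, .negSucc 0, .ofNat 52, .ofNat 2065, .negSucc 279, .negSucc 619⟩, ⟨.ofNat 4855, .ofNat 2, .ofNat 56, .negSucc 3289, .ofNat 975, .ofNat 626⟩, ⟨.negSucc 15256, .negSucc 6, .ofNat 247, .ofNat 6888, .negSucc 2138, .negSucc 1838⟩, ⟨.ofNat 8950, .ofNat 5, .ofNat 83, .negSucc 856, .ofNat 2147, .negSucc 113⟩, .ofNat 2603, .negSucc 4413, .ofNat 0, .negSucc 4413, .ofNat 8827, .ofNat 0, .ofNat 128, .ofNat 1308, .negSucc 3674, .ofNat 0, .ofNat 719, .negSucc 1745, .ofNat 0, .ofNat 0, .ofNat 2519, .ofNat 1442, .ofNat 0, .ofNat 0, .ofNat 0, .ofNat 0, .ofNat 0, .ofNat 0, .ofNat 7034702292917831624205288046051315196769599488, .ofNat 0, .ofNat 0, .ofNat 6846283256908369488827174363243333658814479073280,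 .ofNat 7496053320586026153944971354577729830428606464, .ofNat 0, .ofNat 0, .ofNat 0, .ofNat 9680561617599180681282363162822647770431619072, .ofNat 0⟩)
    (by decide +kernel)
theorem L02675 : Good (Phi V5.P V5.D 1 1) ⟨5, 26, 5, 14, 4, 14, 3, 7, 5, 0⟩ :=
  leafX_sound T5.ok_pp T5.Ypp.bz_eq (w := 260) (c := ⟨⟨.negSucc 6194, .negSucc 3517, .ofNat 995, .ofNat 1058, .negSucc 937, .negSucc 1308⟩, ⟨.negSucc 2883, .negSucc 1363, .ofNat 156, .ofNat 591, .negSucc 337, .negSucc 686⟩, ⟨.ofNat 4266, .ofNat 2390, .negSucc 611, .negSucc 1125, .ofNat 1513, .ofNat 746⟩, ⟨.negSucc 13581, .negSucc 6456, .ofNat 1002, .ofNat 1243, .negSucc 2957, .negSucc 2075⟩, ⟨.ofNat 8093, .ofNat 2577, .ofNat 584, .ofNat 682, .ofNat 2949, .ofNat 169⟩, .ofNat 1942, .negSucc 3018, .ofNat 0, .negSucc 3018, .ofNat 5861, .ofNat 0, .ofNat 128, .ofNat 408, .negSucc 1153, .ofNat 0, .ofNat 239, .negSucc 560, .ofNat 0, .ofNat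 0, .ofNat 777, .ofNat 173, .ofNat 0, .ofNat 0, .ofNat 0, .ofNat 0, .ofNat 0, .ofNat 0, .ofNat 5091366014823621506572079179893974854320334569472, .ofNat 0, .ofNat 0, .ofNat 0, .ofNat 3342482005758061534753322711801520472956774383616, .ofNat 0, .ofNat 0, .ofNat 102422279439599041100567215057305604048649572954669056, .ofNat 1146413783488309209546083771135856350314773872640, .ofNat 0⟩)
    (by decide +kernel)

end Crest.Agent.R097C5.N5pp
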