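import Crest.Agent.R097.KP7
import Crest.Agent.R097.T5Ypp

/-!
# Row 97, box cover in dimension n = 5 (generated)
-/

set_option autoImplicit false
set_option Elab.async false
set_option maxHeartbeats 0
set_option maxRecDepth 100000

open Crest.Agent.R097 Crest.Agent.R097.KA


namespace Crest.Agent.R097C5.N5pp

theorem L02676 : Good (Phi V5.P V5.D 1 1) ⟨5, 26, 5, 14, 4, 15, 3, 7, 5, 0⟩ :=
  leafX_sound T5.ok_pp T5.Ypp.bz_eq (w := 260) (c := ⟨⟨.negSucc 5995, .negSucc 1714, .ofNat 189, .ofNat 3697, .negSucc 1108, .negSucc 1032⟩, ⟨.negSucc 2737, .negSucc 417, .negSucc 191, .ofNat 1820, .negSucc 471, .negSucc 555⟩, ⟨.ofNat 3760, .ofNat 1489, .negSucc 277, .negSucc 2520, .ofNat 1204, .ofNat 555⟩, ⟨.negSucc 13951, .negSucc 4221, .ofNat 186, .ofNat 6693, .negSucc 2546, .negSucc 1702⟩, ⟨.ofNat 9501, .ofNat 3260, .negSucc 133, .negSucc 2186, .ofNat 1686, .ofNat 285⟩, .ofNat 1664, .negSucc 2513, .ofNat 0,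 .negSucc 2513, .ofNat 4937, .ofNat 0, .ofNat 128, .ofNat 704, .negSucc 1242, .ofNat 0, .ofNat 407, .negSucc 586, .ofNat 0, .ofNat 0, .ofNat 829, .ofNat 250, .ofNat 0, .ofNat 0, .ofNat 84029022990184605386111324660638172898907914240, .ofNat 0, .ofNat 0, .ofNat 0, .ofNat 4078962796505291452029927055503922751492780457984, .ofNat 0, .ofNat 0, .ofNat 0, .ofNat 6139031625557750220814635006588475209704047378432, .ofNat 0, .ofNat 0, .ofNat 157153110139843854369501151486311542563949943810162688, .ofNat 5501378786998240312126677873262307539705338527744, .ofNat 0⟩)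
    (by decide +kernel)
theorem L02677 : Good (Phi V5.P V5.D 1 1) ⟨5, 27, 5, 14, 3, 7, 3, 7, 5, 0⟩ :=
  out_sound (S := T5.ds_pp) T5.ok_pp (w := 61) (j := 3) (by decide +kernel)
theorem L02678 : Good (Phi V5.P V5.D 1 1) ⟨4, 12, 5, 15, 3, 7, 3, 7, 5, 0⟩ :=
  out_sound (S := T5.ds_pp) T5.ok_pp (w := 55) (j := 3) (by decide +kernel)
theorem L02679 : Good (Phi V5.P V5.D 1 1) ⟨5, 26, 5, 15, 3, 7, 3, 7, 5, 0⟩ :=
  leafX_sound T5.ok_pp T5.Ypp.bz_eq (w := 247) (c := ⟨⟨.negSucc 6113, .negSucc 2899, .ofNat 866, .ofNat 5118, .negSucc 532, .negSucc 2187⟩, ⟨.negSucc 3183, .negSucc 1031, .ofNat 135, .ofNat 2687, .negSucc 194, .negSucc 1145⟩, ⟨.ofNat 4169, .ofNat 2228, .negSucc 581, .negSucc 4031, .ofNat 1033, .ofNat 1221⟩, ⟨.negSucc 13882, .negSucc 5557, .ofNat 1034, .ofNat 8264, .negSucc 2267, .negSucc 3428⟩, ⟨.ofNat 8694, .ofNat 2500, .ofNat 135, .negSucc 1152, .ofNat 2720, .ofNat 308⟩, .ofNat 1876, .negSucc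 2830, .ofNat 0, .negSucc 2830, .ofNat 5352, .ofNat 0, .ofNat 128, .ofNat 491, .negSucc 2106, .ofNat 0, .ofNat 292, .negSucc 1048, .ofNat 0, .ofNat 0, .ofNat 1412, .ofNat 225, .ofNat 0, .ofNat 0, .ofNat 0, .ofNat 0, .ofNat 0, .ofNat 0, .ofNat 0, .ofNat 0, .ofNat 0, .ofNat 0, .ofNat 0, .ofNat 0, .ofNat 0, .ofNat 0, .ofNat 0, .ofNat 0⟩)
    (by decide +kernel)
theorem L02680 : Good (Phi V5.P V5.D 1 1) ⟨5, 27, 5, 15, 3, 7, 3, 7, 5, 0⟩ :=
  leafX_sound T5.ok_pp T5.Ypp.bz_eq (w := 247) (c := ⟨⟨.negSucc 9494, .negSucc 2300, .ofNat 291, .ofNat 5498, .negSucc 520, .negSucc 1246⟩, ⟨.negSucc 4532, .negSucc 664, .negSucc 176, .ofNat 2989, .negSucc 171, .negSucc 685⟩, ⟨.ofNat 6714, .ofNat 2122, .negSucc 455, .negSucc 4110, .ofNat 996, .ofNat 611⟩, ⟨.negSucc 19951, .negSucc 3556, .negSucc 85, .ofNat 8300, .negSucc 1893, .negSucc 2246⟩, ⟨.ofNat 10965, .ofNat 851, .ofNat 498, .negSucc 346, .ofNat 2063, .ofNat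 700⟩, .ofNat 2125, .negSucc 3163, .ofNat 0, .negSucc 3163, .ofNat 5732, .ofNat 0, .ofNat 128, .ofNat 542, .negSucc 1646, .ofNat 0, .ofNat 334, .negSucc 837, .ofNat 0, .ofNat 0, .ofNat 1090, .ofNat 183, .ofNat 0, .ofNat 0, .ofNat 6270305230225838762519462212581788565372928, .ofNat 0, .ofNat 0, .ofNat 0, .ofNat 1000455328505234470471412372372433866351181824, .ofNat 0, .ofNat 0, .ofNat 0, .ofNat 100809117996415343753976840603034964075741184, .ofNat 0, .ofNat 0, .ofNat 0, .ofNat 777175105994691328635511171232051248085598208, .ofNat 0⟩)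
    (by decide +kernel)
theorem L02681 : Good (Phi V5.P V5.D 1 1) ⟨4, 12, 4, 7, 3, 7, 2, 3, 5, 1⟩ :=
  leafX_sound T5.ok_pp T5.Ypp.bz_eq (w := 238) (c := ⟨⟨.negSucc 6845, .negSucc 3, .negSucc 546, .ofNat 4412, .negSucc 3118, .negSucc 1312⟩, ⟨.negSucc 3242, .negSucc 1, .negSucc 536, .ofNat 2214, .negSucc 1438, .negSucc 647⟩, ⟨.ofNat 4288, .ofNat 2, .negSucc 5, .negSucc 3213, .ofNat 2550, .ofNat 772⟩, ⟨.negSucc 13738, .negSucc 6, .negSucc 190, .ofNat 6668, .negSucc 6711, .negSucc 2198⟩, ⟨.ofNat 6330, .ofNat 4, .negSucc 36, .ofNat 279, .ofNat 3807, .ofNat 343⟩, .ofNat 2599, .negSucc 4406, .ofNat 0, .negSucc 4406, .ofNat 8812, .ofNat 0, .ofNat 128, .ofNat 1761, .negSucc 2536, .ofNat 0, .ofNat 960, .negSucc 1193, .ofNat 0, .ofNat 0, .ofNat 1918, .ofNat 874, .ofNat 0, .ofNat 0, .ofNat 0, .ofNat 0, .ofNat 0, .ofNat 0, .ofNat 283187593920583754365933923475523340758679552, .ofNat 0, .ofNat 0, .ofNat 0,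 .ofNat 0, .ofNat 0, .ofNat 0, .ofNat 369320886057746299642163402100008188900387323904, .ofNat 176191807785434024598525355089042364268806144, .ofNat 0⟩)
    (by decide +kernel)
theorem L02682 : Good (Phi V5.P V5.D 1 1) ⟨5, 26, 4, 7, 3, 7, 3, 6, 5, 1⟩ :=
  leafX_sound T5.ok_pp T5.Ypp.bz_eq (w := 242) (c := ⟨⟨.negSucc 7077, .negSucc 1229, .ofNat 757, .ofNat 4821, .negSucc 1753, .negSucc 1462⟩, ⟨.negSucc 3441, .negSucc 364, .negSucc 112, .ofNat 2572, .negSucc 840, .negSucc 727⟩, ⟨.ofNat 4298, .ofNat 942, .negSucc 517, .negSucc 3313, .ofNat 1378, .ofNat 855⟩, ⟨.negSucc 13960, .negSucc 2562, .ofNat 692, .ofNat 7114, .negSucc 3974, .negSucc 2146⟩, ⟨.ofNat 6312, .ofNat 1635, .ofNat 344, .ofNat 217, .ofNat 2547, .negSucc 109⟩, .ofNat 1735, .negSucc 2625, .ofNat 0, .negSucc 2625, .ofNat 5096, .ofNat 0, .ofNat 128, .ofNat 310, .negSucc 721, .ofNat 0, .ofNat 178, .negSucc 345, .ofNat 0, .ofNat 0, .ofNat 551,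 .ofNat 224, .ofNat 0, .ofNat 0, .ofNat 0, .ofNat 0, .ofNat 0, .ofNat 0, .ofNat 163606677367002986233301142017157169399463936, .ofNat 0, .ofNat 0, .ofNat 0, .ofNat 0, .ofNat 0, .ofNat 0, .ofNat 0, .ofNat 39327439070993347919428212719437393919213568, .ofNat 0⟩)
    (by decide +kernel)
theorem L02683 : Good (Phi V5.P V5.D 1 1) ⟨5, 26, 5, 14, 3, 7, 3, 7, 5, 1⟩ :=
  leafX_sound T5.ok_pp T5.Ypp.bz_eq (w := 247) (c := ⟨⟨.negSucc 8905, .negSucc 1700, .ofNat 225, .ofNat 5090, .negSucc 2212, .negSucc 1307⟩, ⟨.negSucc 4248, .negSucc 474, .negSucc 192, .ofNat 2602, .negSucc 1011, .negSucc 679⟩, ⟨.ofNat 6137, .ofNat 1365, .negSucc 206, .negSucc 4273, .ofNat 1906, .ofNat 795⟩, ⟨.negSucc 18213, .negSucc 3763, .negSucc 110, .ofNat 8529, .negSucc 5143, .negSucc 2070⟩, ⟨.ofNat 9142, .ofNat 2600, .ofNat 557, .negSucc 1662, .ofNat 3428, .ofNat 188⟩, .ofNat 1428, .negSucc 2074, .ofNat 0, .negSucc 2074, .ofNat 4099,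 .ofNat 0, .ofNat 128, .ofNat 429, .negSucc 1789, .ofNat 0, .ofNat 252, .negSucc 835, .ofNat 0, .ofNat 0, .ofNat 1306, .ofNat 225, .ofNat 0, .ofNat 0, .ofNat 6889741277080128392891789209751044621336576, .ofNat 0, .ofNat 0, .ofNat 0, .ofNat 118612095511861278798263113258102436185243648, .ofNat 0, .ofNat 0, .ofNat 10469700849787917550645590131149283070684046557184, .ofNat 121843001464435936611107792393404074248110080, .ofNat 0, .ofNat 0, .ofNat 0, .ofNat 0, .ofNat 0⟩)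
    (by decide +kernel)
theorem L02684 : Good (Phi V5.P V5.D 1 1) ⟨5, 26, 5, 15, 3, 7, 3, 7, 5, 1⟩ :=
  leafX_sound T5.ok_pp T5.Ypp.bz_eq (w := 247) (c := ⟨⟨.negSucc 7774, .negSucc 2659, .ofNat 899, .ofNat 4904, .negSucc 2390, .negSucc 1416⟩, ⟨.negSucc 4049, .negSucc 928, .ofNat 78, .ofNat 2588, .negSucc 1145, .negSucc 741⟩, ⟨.ofNat 5371, .ofNat 1999, .negSucc 666, .negSucc 4184, .ofNat 1936, .ofNat 916⟩, ⟨.negSucc 16250, .negSucc 5254, .ofNat 1138, .ofNat 7617, .negSucc 5540, .negSucc 2250⟩, ⟨.ofNat 8349, .ofNat 2780, .ofNat 21, .negSucc 511, .ofNat 3605, .ofNat 230⟩, .ofNat 1885, .negSucc 2844, .ofNat 0, .negSucc 2844, .ofNat 5375, .ofNat 0, .ofNat 128, .ofNat 497, .negSucc 1347, .ofNat 0, .ofNat 294, .negSucc 665, .ofNat 0, .ofNat 0, .ofNat 990, .ofNat 243, .ofNat 0, .ofNat 0, .ofNat 0, .ofNat 0, .ofNat 0, .ofNat 0, .ofNat 0, .ofNat 0, .ofNat 0, .ofNat 0, .ofNat 0, .ofNat 0, .ofNat 0, .ofNat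 54136280887087558097290072110353945692073541763072, .ofNat 0, .ofNat 0⟩)
    (by decide +kernel)
theorem L02685 : Good (Phi V5.P V5.D 1 1) ⟨6, 54, 4, 7, 3, 7, 3, 6, 5, 1⟩ :=
  leafX_sound T5.ok_pp T5.Ypp.bz_eq (w := 247) (c := ⟨⟨.negSucc 9099, .negSucc 1316, .ofNat 853, .ofNat 5515, .negSucc 1943, .negSucc 1369⟩, ⟨.negSucc 4213, .negSucc 493, .negSucc 104, .ofNat 3072, .negSucc 961, .negSucc 742⟩, ⟨.ofNat 5852, .ofNat 1010, .negSucc 762, .negSucc 3723, .ofNat 1475, .ofNat 791⟩, ⟨.negSucc 17054, .negSucc 2277, .ofNat 448, .ofNat 7684, .negSucc 4254, .negSucc 2272⟩, ⟨.ofNat 7020, .ofNat 817, .ofNat 823, .ofNat 825, .ofNat 2500, .ofNat 449⟩, .ofNat 2178, .negSucc 3249, .ofNat 0, .negSucc 3249, .ofNat 5871, .ofNat 0, .ofNat 128, .ofNat 475, .negSucc 897, .ofNat 0, .ofNat 288, .negSucc 451, .ofNat 0, .ofNat 0, .ofNat 679, .ofNat 251, .ofNat 0, .ofNat 0, .ofNat 493732951580201821485877834676274773098496,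 .ofNat 0, .ofNat 0, .ofNat 0, .ofNat 90739005327943851661918360533642817208057856, .ofNat 0, .ofNat 0, .ofNat 0, .ofNat 0, .ofNat 0, .ofNat 0, .ofNat 0, .ofNat 26376298525249551621341766165297685235499008, .ofNat 0⟩)
    (by decide +kernel)
theorem L02686 : Good (Phi V5.P V5.D 1 1) ⟨6, 54, 4, 7, 3, 7, 3, 7, 5, 1⟩ :=
  leafX_sound T5.ok_pp T5.Ypp.bz_eq (w := 248) (c := ⟨⟨.negSucc 11217, .negSucc 1824, .ofNat 1214, .ofNat 5407, .negSucc 2649, .negSucc 1584⟩, ⟨.negSucc 5049, .negSucc 700, .negSucc 126, .ofNat 2943, .negSucc 1277, .negSucc 845⟩, ⟨.ofNat 8034, .ofNat 1303, .negSucc 1027, .negSucc 4593, .ofNat 2212, .ofNat 1021⟩, ⟨.negSucc 22812, .negSucc 3960, .ofNat 1786, .ofNat 8618, .negSucc 6407, .negSucc 2743⟩, ⟨.ofNat 11822, .ofNat 2493, .negSucc 714, .negSucc 1113, .ofNat 4482, .ofNat 719⟩, .ofNat 1512, .negSucc 2086, .ofNat 0, .negSucc 2086, .ofNat 3837, .ofNat 0, .ofNat 128, .ofNat 339, .negSucc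 1499, .ofNat 0, .ofNat 215, .negSucc 712, .ofNat 0, .ofNat 0, .ofNat 1062, .ofNat 166, .ofNat 0, .ofNat 0, .ofNat 1795822212123824403112015523528148749647872, .ofNat 0, .ofNat 0, .ofNat 0, .ofNat 17770778736502917593404040680374857692610560, .ofNat 0, .ofNat 0, .ofNat 6745600217466529896486597217011646493712516644864, .ofNat 5533481636376738980786138467184599887773696, .ofNat 0, .ofNat 0, .ofNat 0, .ofNat 43783383863084652782209961589657134665039872, .ofNat 0⟩)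
    (by decide +kernel)
theorem L02687 : Good (Phi V5.P V5.D 1 1) ⟨6, 55, 4, 7, 3, 7, 2, 3, 5, 1⟩ :=
  out_sound (S := T5.ds_pp) T5.ok_pp (w := 65) (j := 3) (by decide +kernel)
theorem L02688 : Good (Phi V5.P V5.D 1 1) ⟨4, 12, 4, 7, 3, 7, 2, 3, 4, 1⟩ :=
  leafX_sound T5.ok_pp T5.Ypp.bz_eq (w := 232) (c := ⟨⟨.negSucc 6911, .negSucc 3, .negSucc 2400, .ofNat 2033, .negSucc 1952, .ofNat 368⟩, ⟨.negSucc 3286, .negSucc 1, .negSucc 1594, .ofNat 1082, .negSucc 893, .ofNat 128⟩, ⟨.ofNat 4392, .ofNat 2, .ofNat 671, .negSucc 1975, .ofNat 1930, .ofNat 22⟩, ⟨.negSucc 13622, .negSucc 6, .negSucc 615, .ofNat 2029, .negSucc 4293, .ofNat 1440⟩, ⟨.ofNat 5872, .ofNat 4, .negSucc 289, .ofNat 2243, .ofNat 2538, .negSucc 1784⟩, .ofNat 2599, .negSucc 4406, .ofNat 0, .negSucc 4406, .ofNat 8813, .ofNat 0, .ofNat 128, .ofNat 1165, .negSucc 2157, .ofNat 0, .ofNat 640, .negSucc 994, .ofNat 0, .ofNat 0, .ofNat 2218, .ofNat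 436, .ofNat 0, .ofNat 3042297635038228072768252001534179255779328, .ofNat 123891113816501784000748511411298543599616, .ofNat 0, .ofNat 0, .ofNat 685096521940107528594944029014234081200701440, .ofNat 2582916798726570047333196749806554216136704, .ofNat 0, .ofNat 0, .ofNat 35638645063924214512816198904575361189255577600, .ofNat 6529848612564754199692267414595229622206464, .ofNat 0, .ofNat 0, .ofNat 0, .ofNat 11447135406379465511785697092998407456292864, .ofNat 0⟩)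
    (by decide +kernel)
theorem L02689 : Good (Phi V5.P V5.D 1 1) ⟨5, 26, 4, 7, 3, 7, 3, 6, 5, 2⟩ :=
  leafX_sound T5.ok_pp T5.Ypp.bz_eq (w := 243) (c := ⟨⟨.negSucc 7354, .negSucc 1547, .ofNat 984, .ofNat 3482, .negSucc 1511, .negSucc 426⟩, ⟨.negSucc 3591, .negSucc 500, .ofNat 2, .ofNat 1906, .negSucc 736, .negSucc 231⟩, ⟨.ofNat 4619, .ofNat 1028, .negSucc 552, .negSucc 2682, .ofNat 1204, .ofNat 353⟩, ⟨.negSucc 14477, .negSucc 2712, .ofNat 772, .ofNat 4782, .negSucc 3185, .negSucc 357⟩, ⟨.ofNat 6478, .ofNat 996, .ofNat 838, .ofNat 826, .ofNat 1754, .negSucc 541⟩, .ofNat 1746, .negSucc 2654, .ofNat 0, .negSucc 2654, .ofNat 5169, .ofNat 0, .ofNat 128, .ofNat 434, .negSucc 784, .ofNat 0, .ofNat 250, .negSucc 368, .ofNat 0, .ofNat 0, .ofNat 698, .ofNat 310, .ofNat 0, .ofNat 0, .ofNat 3987599094092124548822109853759993779585024, .ofNat 0, .ofNat 0, .ofNat 0, .ofNat 131690162512346735484606518219614499679240192,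 .ofNat 0, .ofNat 0, .ofNat 0, .ofNat 0, .ofNat 0, .ofNat 0, .ofNat 0, .ofNat 0, .ofNat 0⟩)
    (by decide +kernel)
theorem L02690 : Good (Phi V5.P V5.D 1 1) ⟨5, 26, 4, 7, 3, 7, 3, 7, 6, 4⟩ :=
  leafX_sound T5.ok_pp T5.Ypp.bz_eq (w := 248) (c := ⟨⟨.negSucc 9144, .negSucc 1706, .ofNat 576, .ofNat 3800, .negSucc 2361, .negSucc 178⟩, ⟨.negSucc 4394, .negSucc 522, .negSucc 346, .ofNat 2020, .negSucc 1114, .negSucc 107⟩, ⟨.ofNat 6395, .ofNat 1188, .negSucc 347, .negSucc 3497, .ofNat 1819, .ofNat 114⟩, ⟨.negSucc 18264, .negSucc 3239, .ofNat 174, .ofNat 5582, .negSucc 5247, .negSucc 140⟩, ⟨.ofNat 8513, .ofNat 1704, .ofNat 687, .ofNat 197, .ofNat 3240, .negSucc 263⟩, .ofNat 1735, .negSucc 2626, .ofNat 0, .negSucc 2626, .ofNat 5101, .ofNat 0, .ofNat 128, .ofNat 437, .negSucc 855, .ofNat 0, .ofNat 255, .negSucc 404, .ofNat 0, .ofNat 0, .ofNat 702, .ofNat 132, .ofNat 0, .ofNat 0, .ofNat 77265878838535329141670969117966942563467264,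 .ofNat 0, .ofNat 0, .ofNat 0, .ofNat 3282091970594054129291234373490467755461181440, .ofNat 0, .ofNat 0, .ofNat 0, .ofNat 0, .ofNat 0, .ofNat 0, .ofNat 34430004942591716443728526302150632492509043884032, .ofNat 22712856871704385574446015098841291154259968, .ofNat 0⟩)
    (by decide +kernel)
theorem L02691 : Good (Phi V5.P V5.D 1 1) ⟨5, 26, 4, 7, 3, 7, 3, 7, 6, 5⟩ :=
  leafX_sound T5.ok_pp T5.Ypp.bz_eq (w := 248) (c := ⟨⟨.negSucc 8789, .negSucc 1225, .ofNat 132, .ofNat 2872, .negSucc 1878, .ofNat 155⟩, ⟨.negSucc 4212, .negSucc 333, .negSucc 550, .ofNat 1529, .negSucc 870, .ofNat 63⟩, ⟨.ofNat 6243, .ofNat 928, .negSucc 172, .negSucc 2999, .ofNat 1515, .negSucc 88⟩, ⟨.negSucc 17412, .negSucc 2070, .negSucc 723, .ofNat 3722, .negSucc 4160, .ofNat 554⟩, ⟨.ofNat 7869, .ofNat 884, .ofNat 1129, .ofNat 1135, .ofNat 2488, .negSucc 614⟩, .ofNat 1733, .negSucc 2637, .ofNat 0, .negSucc 2637, .ofNat 5152, .ofNat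 0, .ofNat 128, .ofNat 370, .negSucc 860, .ofNat 0, .ofNat 215, .negSucc 400, .ofNat 0, .ofNat 0, .ofNat 782, .ofNat 228, .ofNat 0, .ofNat 104904571809999953272278823900446301009163059200, .ofNat 98420127150086097890359502418731992910659584, .ofNat 0, .ofNat 0, .ofNat 7791849921401459008003227420644307242242948464640, .ofNat 3536674657481971614242947831190038265662013440, .ofNat 0, .ofNat 0, .ofNat 19768352943248710911838563278939304367749389615104, .ofNat 1169594072286822101400795974684044486940557312, .ofNat 0, .ofNat 0, .ofNat 0, .ofNat 0, .ofNat 0⟩)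
    (by decide +kernel)
theorem L02692 : Good (Phi V5.P V5.D 1 1) ⟨6, 54, 4, 7, 3, 7, 3, 6, 5, 2⟩ :=
  leafX_sound T5.ok_pp T5.Ypp.bz_eq (w := 247) (c := ⟨⟨.negSucc 9287, .negSucc 1074, .ofNat 455, .ofNat 3930, .negSucc 1597, .ofNat 120⟩, ⟨.negSucc 4316, .negSucc 393, .negSucc 330, .ofNat 2257, .negSucc 785, .ofNat 29⟩, ⟨.ofNat 5963, .ofNat 748, .negSucc 373, .negSucc 3010, .ofNat 1308, .ofNat 115⟩, ⟨.negSucc 17456, .negSucc 2218, .ofNat 81, .ofNat 4719, .negSucc 3526, .ofNat 658⟩, ⟨.ofNat 7135, .ofNat 1306, .ofNat 529, .ofNat 1992, .ofNat 2102, .negSucc 869⟩, .ofNat 1512, .negSucc 2086, .ofNat 0, .negSucc 2086, .ofNat 3837, .ofNat 0, .ofNat 128, .ofNat 432, .negSucc 886, .ofNat 0, .ofNat 271, .negSucc 412, .ofNat 0, .ofNat 0, .ofNat 754, .ofNat 686, .ofNat 0, .ofNat 0, .ofNat 1156233595844705633504130501557414726205440, .ofNat 0, .ofNat 0, .ofNat 0, .ofNat 37580749148041771422385303722923976250359808,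 .ofNat 0, .ofNat 0, .ofNat 0, .ofNat 12276326562801064279553030461067048905605120, .ofNat 0, .ofNat 0, .ofNat 0, .ofNat 26051443920743319565943147318229033268805632, .ofNat 0⟩)
    (by decide +kernel)
theorem L02693 : Good (Phi V5.P V5.D 1 1) ⟨6, 54, 5, 14, 3, 7, 3, 7, 5, 2⟩ :=
  out_sound (S := T5.ds_pp) T5.ok_pp (w := 67) (j := 3) (by decide +kernel)
theorem L02694 : Good (Phi V5.P V5.D 1 1) ⟨6, 54, 5, 15, 3, 7, 3, 7, 5, 2⟩ :=
  leafX_sound T5.ok_pp T5.Ypp.bz_eq (w := 251) (c := ⟨⟨.negSucc 10863, .negSucc 1105, .ofNat 334, .ofNat 3518, .negSucc 2342, .ofNat 712⟩, ⟨.negSucc 5272, .negSucc 359, .negSucc 167, .ofNat 1962, .negSucc 1149, .ofNat 301⟩, ⟨.ofNat 7720, .ofNat 784, .negSucc 149, .negSucc 3566, .ofNat 1884, .negSucc 363⟩, ⟨.negSucc 21952, .negSucc 1716, .negSucc 145, .ofNat 4849, .negSucc 5171, .ofNat 2038⟩, ⟨.ofNat 10854, .ofNat 387, .ofNat 801, .ofNat 617, .ofNat 3091, .negSucc 1793⟩,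 .ofNat 2094, .negSucc 3105, .ofNat 0, .negSucc 3105, .ofNat 5623, .ofNat 0, .ofNat 128, .ofNat 433, .negSucc 1417, .ofNat 0, .ofNat 267, .negSucc 700, .ofNat 0, .ofNat 0, .ofNat 1196, .ofNat 219, .ofNat 0, .ofNat 0, .ofNat 4763156881127587503202093278710991165587456, .ofNat 0, .ofNat 0, .ofNat 0, .ofNat 272159110104544506127534866322138249314697216, .ofNat 0, .ofNat 0, .ofNat 451036976950095870917587314377442656641853687857152, .ofNat 60995959290834894288888966109133995079892992, .ofNat 0, .ofNat 0, .ofNat 0, .ofNat 220089063485438816020051876840130187381178368, .ofNat 0⟩)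
    (by decide +kernel)
theorem L02695 : Good (Phi V5.P V5.D 1 1) ⟨6, 55, 4, 7, 3, 7, 2, 3, 5, 2⟩ :=
  out_sound (S := T5.ds_pp) T5.ok_pp (w := 65) (j := 3) (by decide +kernel)
theorem L02696 : Good (Phi V5.P V5.D 1 1) ⟨5, 26, 4, 7, 3, 7, 3, 6, 5, 3⟩ :=
  leafX_sound T5.ok_pp T5.Ypp.bz_eq (w := 242) (c := ⟨⟨.negSucc 7213, .negSucc 549, .ofNat 122, .ofNat 2246, .negSucc 1123, .ofNat 603⟩, ⟨.negSucc 3506, .negSucc 82, .negSucc 394, .ofNat 1285, .negSucc 538, .ofNat 262⟩, ⟨.ofNat 4642, .ofNat 552, .negSucc 156, .negSucc 1986, .ofNat 982, .negSucc 256⟩, ⟨.negSucc 13698, .negSucc 1012, .negSucc 301, .ofNat 2081, .negSucc 2416, .ofNat 1694⟩, ⟨.ofNat 5253, .ofNat 736, .ofNat 467, .ofNat 2490, .ofNat 1386, .negSucc 1476⟩, .ofNat 1218, .negSucc 1696, .ofNat 0, .negSucc 1696, .ofNat 3399, .ofNat 0, .ofNat 128, .ofNat 426, .negSucc 593, .ofNat 0, .ofNat 253, .negSucc 260, .ofNat 0, .ofNat 0, .ofNat 671, .ofNat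 758, .ofNat 0, .ofNat 0, .ofNat 0, .ofNat 0, .ofNat 0, .ofNat 0, .ofNat 117503405701564536480446349186390312026636288, .ofNat 0, .ofNat 0, .ofNat 0, .ofNat 49861736071653807827934737799604915589349376, .ofNat 0, .ofNat 0, .ofNat 0, .ofNat 0, .ofNat 0⟩)
    (by decide +kernel)
theorem L02697 : Good (Phi V5.P V5.D 1 1) ⟨5, 26, 4, 7, 3, 7, 3, 7, 5, 3⟩ :=
  leafX_sound T5.ok_pp T5.Ypp.bz_eq (w := 243) (c := ⟨⟨.negSucc 8054, .negSucc 761, .ofNat 176, .ofNat 1727, .negSucc 1424, .ofNat 897⟩, ⟨.negSucc 3868, .negSucc 147, .negSucc 453, .ofNat 984, .negSucc 663, .ofNat 399⟩, ⟨.ofNat 5782, .ofNat 638, .negSucc 90, .negSucc 2242, .ofNat 1121, .negSucc 426⟩, ⟨.negSucc 15995, .negSucc 1445, .negSucc 482, .ofNat 1846, .negSucc 2981, .ofNat 2343⟩, ⟨.ofNat 7233, .ofNat 981, .ofNat 893, .ofNat 1471, .ofNat 1574, .negSucc 1893⟩, .ofNat 1204, .negSucc 1662, .ofNat 0, .negSucc 1662, .ofNat 3320, .ofNat 0, .ofNat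 128, .ofNat 550, .negSucc 1093, .ofNat 0, .ofNat 333, .negSucc 472, .ofNat 0, .ofNat 0, .ofNat 1229, .ofNat 353, .ofNat 0, .ofNat 74373993559466523959305640884926067494264766464, .ofNat 3226788264639431839952393878875675190886400, .ofNat 0, .ofNat 0, .ofNat 1915192284367561025883660292099888864315884699648, .ofNat 47261388294660990009046321213218532913840128, .ofNat 0, .ofNat 0, .ofNat 4070493020407018066948069699398298405578318282752, .ofNat 30144585215576998074353331931503741131292672, .ofNat 0, .ofNat 0, .ofNat 0, .ofNat 0, .ofNat 0⟩)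
    (by decide +kernel)
theorem L02698 : Good (Phi V5.P V5.D 1 1) ⟨6, 54, 4, 7, 3, 7, 3, 6, 5, 3⟩ :=
  leafX_sound T5.ok_pp T5.Ypp.bz_eq (w := 247) (c := ⟨⟨.negSucc 7954, .negSucc 552, .ofNat 34, .ofNat 2204, .negSucc 1083, .ofNat 947⟩, ⟨.negSucc 3718, .negSucc 170, .negSucc 464, .ofNat 1354, .negSucc 535, .ofNat 447⟩, ⟨.ofNat 5238, .ofNat 310, .negSucc 20, .negSucc 1965, .ofNat 938, .negSucc 407⟩, ⟨.negSucc 14684, .negSucc 917, .negSucc 656, .ofNat 1541, .negSucc 2383, .ofNat 2369⟩, ⟨.ofNat 5589, .ofNat 311, .ofNat 866, .ofNat 3122, .ofNat 1402, .negSucc 1749⟩, .ofNat 1736, .negSucc 2498, .ofNat 0, .negSucc 2498, .ofNat 4584, .ofNat 0, .ofNat 128, .ofNat 887, .negSucc 822, .ofNat 0, .ofNat 549, .negSucc 394, .ofNat 0, .ofNat 0, .ofNat 950, .ofNat 705, .ofNat 0, .ofNat 0, .ofNat 1883512238079185277595970784472043016421376, .ofNat 0, .ofNat 0, .ofNat 0, .ofNat 70581258829614212606764249502712053752659968,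 .ofNat 0, .ofNat 0, .ofNat 0, .ofNat 0, .ofNat 0, .ofNat 0, .ofNat 0, .ofNat 0, .ofNat 0⟩)
    (by decide +kernel)
theorem L02699 : Good (Phi V5.P V5.D 1 1) ⟨6, 54, 4, 7, 3, 7, 3, 7, 5, 3⟩ :=
  leafX_sound T5.ok_pp T5.Ypp.bz_eq (w := 247) (c := ⟨⟨.negSucc 9155, .negSucc 613, .ofNat 337, .ofNat 1815, .negSucc 1463, .ofNat 1148⟩, ⟨.negSucc 4160, .negSucc 129, .negSucc 448, .ofNat 1095, .negSucc 708, .ofNat 534⟩, ⟨.ofNat 6917, .ofNat 702, .negSucc 596, .negSucc 2275, .ofNat 1313, .negSucc 605⟩, ⟨.negSucc 17977, .negSucc 1289, .negSucc 35, .ofNat 1661, .negSucc 3129, .ofNat 2823⟩, ⟨.ofNat 8447, .ofNat 877, .ofNat 401, .ofNat 1861, .ofNat 1760, .negSucc 2046⟩, .ofNat 1984, .negSucc 2920, .ofNat 0, .negSucc 2920, .ofNat 5311, .ofNat 0, .ofNat 128, .ofNat 533, .negSucc 734, .ofNat 0, .ofNat 332, .negSucc 348, .ofNat 0, .ofNat 0, .ofNat 849, .ofNat 364, .ofNat 0, .ofNat 1568258778703777178520319381918890072581494276096,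 .ofNat 1326712228527513269416382699013424822616064, .ofNat 0, .ofNat 0, .ofNat 58060576819325003966212045960730728500811765121024, .ofNat 81857069452786003249237594527645106138251264, .ofNat 0, .ofNat 0, .ofNat 94051360084940213872303354245104914012998341754880, .ofNat 20230168869784330172002650865027905478459392, .ofNat 0, .ofNat 0, .ofNat 0, .ofNat 0, .ofNat 0⟩)
    (by decide +kernel)
theorem L02700 : Good (Phi V5.P V5.D 1 1) ⟨6, 55, 4, 7, 3, 7, 2, 3, 5, 3⟩ :=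
  out_sound (S := T5.ds_pp) T5.ok_pp (w := 65) (j := 3) (by decide +kernel)
theorem L02701 : Good (Phi V5.P V5.D 1 1) ⟨3, 7, 4, 7, 2, 3, 2, 3, 3, 0⟩ :=
  out_sound (S := T5.ds_pp) T5.ok_pp (w := 47) (j := 3) (by decide +kernel)
theorem L02702 : Good (Phi V5.P V5.D 1 1) ⟨2, 2, 3, 3, 2, 3, 2, 3, 3, 1⟩ :=
  out_sound (S := T5.ds_pp) T5.ok_pp (w := 39) (j := 3) (by decide +kernel)
theorem L02703 : Good (Phi V5.P V5.D 1 1) ⟨4, 12, 3, 3, 2, 3, 3, 6, 5, 4⟩ :=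
  leafX_sound T5.ok_pp T5.Ypp.bz_eq (w := 220) (c := ⟨⟨.negSucc 5938, .negSucc 612, .ofNat 217, .ofNat 1764, .negSucc 757, .ofNat 412⟩, ⟨.negSucc 2683, .negSucc 209, .negSucc 534, .ofNat 1015, .negSucc 335, .ofNat 120⟩, ⟨.ofNat 4429, .ofNat 358, .ofNat 21, .negSucc 2062, .ofNat 644, .negSucc 164⟩, ⟨.negSucc 10356, .negSucc 420, .negSucc 561, .ofNat 725, .negSucc 1502, .ofNat 1226⟩, ⟨.ofNat 1513, .negSucc 115, .ofNat 1319, .ofNat 4253, .ofNat 732, .negSucc 1192⟩, .ofNat 1078, .negSucc 1559, .ofNat 0, .negSucc 1559, .ofNat 3505, .ofNat 0, .ofNat 128, .ofNat 481, .negSucc 510, .ofNat 0, .ofNat 271, .negSucc 198, .ofNat 0, .ofNat 0, .ofNat 801, .ofNat 453, .ofNat 0, .ofNat 0, .ofNat 0, .ofNat 0, .ofNat 0, .ofNat 596670911217394763244329338080599203643392, .ofNat 1705341913109775265056794044476262711296, .ofNat 0, .ofNat 0, .ofNat 0, .ofNat 0, .ofNat 0, .ofNat 0, .ofNat 0, .ofNat 0, .ofNat 0⟩)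
    (by decide +kernel)
theorem L02704 : Good (Phi V5.P V5.D 1 1) ⟨4, 12, 3, 3, 2, 3, 3, 7, 5, 4⟩ :=
  leafX_sound T5.ok_pp T5.Ypp.bz_eq (w := 221) (c := ⟨⟨.negSucc 6290, .negSucc 929, .ofNat 325, .ofNat 1304, .negSucc 683, .ofNat 747⟩, ⟨.negSucc 2864, .negSucc 271, .negSucc 586, .ofNat 760, .negSucc 272, .ofNat 308⟩, ⟨.ofNat 4924, .ofNat 759, .negSucc 353, .negSucc 2104, .ofNat 765, .negSucc 351⟩, ⟨.negSucc 11302, .negSucc 1155, .negSucc 539, .ofNat 278, .negSucc 1282, .ofNat 1821⟩, ⟨.ofNat 2441, .ofNat 315, .ofNat 1276, .ofNat 3777, .ofNat 442, .negSucc 1412⟩, .ofNat 1322, .negSucc 2057, .ofNat 0, .negSucc 2057, .ofNat 4558, .ofNat 0, .ofNat 128, .ofNat 423, .negSucc 347, .ofNat 0, .ofNat 234, .negSucc 136, .ofNat 0, .ofNat 0, .ofNat 558, .ofNat 402, .ofNat 0, .ofNat 229811651702981670707173244228849184538624, .ofNat 0, .ofNat 0, .ofNat 0, .ofNat 3295424638075672226576627594928777676718080, .ofNat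 1377331632117269075889975322147106586624, .ofNat 0, .ofNat 0, .ofNat 12824068756382000463602481831540901361483776, .ofNat 577547677257010166625100856825198149632, .ofNat 0, .ofNat 0, .ofNat 14825695716244609971219005335511393525301248, .ofNat 4300920241895031358420443941701941198848, .ofNat 0⟩)
    (by decide +kernel)
theorem L02705 : Good (Phi V5.P V5.D 1 1) ⟨4, 13, 3, 3, 3, 6, 2, 3, 5, 4⟩ :=
  leafX_sound T5.ok_pp T5.Ypp.bz_eq (w := 229) (c := ⟨⟨.negSucc 6522, .negSucc 1347, .ofNat 344, .ofNat 191, .negSucc 1271, .ofNat 1011⟩, ⟨.negSucc 2944, .negSucc 746, .negSucc 399, .ofNat 203, .negSucc 588, .ofNat 469⟩, ⟨.ofNat 4571, .ofNat 838, .negSucc 55, .negSucc 424, .ofNat 1629, .negSucc 599⟩, ⟨.negSucc 10622, .negSucc 1850, .ofNat 127, .negSucc 817, .negSucc 2989, .ofNat 2198⟩, ⟨.ofNat 1364, .ofNat 713, .ofNat 455, .ofNat 2117, .ofNat 1984, .negSucc 1295⟩, .ofNat 648, .negSucc 687, .ofNat 0, .negSucc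 687, .ofNat 1519, .ofNat 0, .ofNat 128, .ofNat 347, .negSucc 595, .ofNat 0, .ofNat 232, .negSucc 219, .ofNat 0, .ofNat 0, .ofNat 811, .ofNat 158, .ofNat 0, .ofNat 0, .ofNat 55063053452709657534535983183482564116480, .ofNat 0, .ofNat 0, .ofNat 3214241015360281785249322953336177666992111616, .ofNat 1946681062606037630667750505874344822964224, .ofNat 0, .ofNat 0, .ofNat 7353375937620558225223898117696926986807541760, .ofNat 2617224600894073291397816346491334927843328, .ofNat 0, .ofNat 0, .ofNat 0, .ofNat 0, .ofNat 0⟩)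
    (by decide +kernel)
theorem L02706 : Good (Phi V5.P V5.D 1 1) ⟨4, 13, 3, 3, 4, 14, 2, 3, 6, 8⟩ :=
  leafX_sound T5.ok_pp T5.Ypp.bz_eq (w := 248) (c := ⟨⟨.negSucc 6365, .negSucc 1158, .ofNat 261, .ofNat 574, .negSucc 1346, .ofNat 524⟩, ⟨.negSucc 2757, .negSucc 426, .negSucc 555, .ofNat 364, .negSucc 581, .ofNat 227⟩, ⟨.ofNat 4178, .ofNat 803, .negSucc 70, .negSucc 619, .ofNat 1659, .negSucc 266⟩, ⟨.negSucc 11384, .negSucc 1620, .negSucc 341, .ofNat 126, .negSucc 3233, .ofNat 1170⟩, ⟨.ofNat 3458, .ofNat 717, .ofNat 859, .ofNat 1417, .ofNat 2319, .negSucc 774⟩, .ofNat 1100, .negSucc 1474, .ofNat 0, .negSucc 1474, .ofNat 2980, .ofNat 0, .ofNat 128, .ofNat 148, .negSucc 245, .ofNat 0, .ofNat 92, .negSucc 101, .ofNat 0, .ofNat 0, .ofNat 349, .ofNat 114, .ofNat 0, .ofNat 0, .ofNat 40385874185235234889971177303292114805257666560, .ofNat 0, .ofNat 0, .ofNat 0, .ofNat 1346370207615276157794109465814552401110055780352,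 .ofNat 0, .ofNat 0, .ofNat 29628876663708800339436627503941329187090166972416, .ofNat 674255061729672274098979007512503704075542462464, .ofNat 0, .ofNat 0, .ofNat 0, .ofNat 0, .ofNat 0⟩)
    (by decide +kernel)
theorem L02707 : Good (Phi V5.P V5.D 1 1) ⟨5, 26, 3, 3, 4, 15, 3, 6, 6, 8⟩ :=
  leafX_sound T5.ok_pp T5.Ypp.bz_eq (w := 258) (c := ⟨⟨.negSucc 5578, .negSucc 416, .ofNat 115, .ofNat 970, .negSucc 990, .ofNat 297⟩, ⟨.negSucc 2303, .negSucc 13, .negSucc 709, .ofNat 573, .negSucc 473, .ofNat 113⟩, ⟨.ofNat 3529, .ofNat 399, .negSucc 128, .negSucc 816, .ofNat 708, .negSucc 129⟩, ⟨.negSucc 10710, .negSucc 821, .negSucc 748, .ofNat 626, .negSucc 1850, .ofNat 782⟩, ⟨.ofNat 4638, .ofNat 604, .ofNat 1044, .ofNat 1634, .ofNat 720, .negSucc 646⟩, .ofNat 1100, .negSucc 1477, .ofNat 0, .negSucc 1477, .ofNat 2993, .ofNat 0, .ofNat 128, .ofNat 450, .negSucc 353, .ofNat 0, .ofNat 280, .negSucc 134, .ofNat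 0, .ofNat 0, .ofNat 576, .ofNat 1022, .ofNat 0, .ofNat 0, .ofNat 791245992940645188362316131759976206544068935680, .ofNat 0, .ofNat 0, .ofNat 0, .ofNat 11127460824949969319913914057148190975706565443584, .ofNat 0, .ofNat 0, .ofNat 0, .ofNat 0, .ofNat 0, .ofNat 0, .ofNat 0, .ofNat 0, .ofNat 0⟩)
    (by decide +kernel)
theorem L02708 : Good (Phi V5.P V5.D 1 1) ⟨5, 26, 3, 3, 4, 15, 3, 7, 6, 8⟩ :=
  leafX_sound T5.ok_pp T5.Ypp.bz_eq (w := 258) (c := ⟨⟨.negSucc 6409, .negSucc 391, .negSucc 4, .ofNat 687, .negSucc 1082, .ofNat 442⟩, ⟨.negSucc 2629, .negSucc 2, .negSucc 850, .ofNat 420, .negSucc 519, .ofNat 183⟩, ⟨.ofNat 4329, .ofNat 437, .negSucc 64, .negSucc 946, .ofNat 860, .negSucc 231⟩, ⟨.negSucc 12550, .negSucc 780, .negSucc 974, .ofNat 488, .negSucc 2067, .ofNat 1077⟩, ⟨.ofNat 5787, .ofNat 702, .ofNat 1068, .ofNat 1082, .ofNat 841, .negSucc 819⟩, .ofNat 1109, .negSucc 1493, .ofNat 0, .negSucc 1493,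 .ofNat 3025, .ofNat 0, .ofNat 128, .ofNat 337, .negSucc 239, .ofNat 0, .ofNat 210, .negSucc 88, .ofNat 0, .ofNat 0, .ofNat 413, .ofNat 1040, .ofNat 0, .ofNat 1125276627127556237513023033477310593826149642534912, .ofNat 2438466567944269066525100027224557281755722153984, .ofNat 0, .ofNat 0, .ofNat 18787374383296845907496840060684562945302127162949632, .ofNat 9149981846361987388196142875126223124632317198336, .ofNat 0, .ofNat 0, .ofNat 37355309430486327474908199157671245882537899540348928, .ofNat 4360599567924833877799190665264394173815778705408, .ofNat 0, .ofNat 0, .ofNat 62098645441376608566239631132961890891329197379158016, .ofNat 8436339209818748728804354655537031847362919661568, .ofNat 0⟩)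
    (by decide +kernel)
theorem L02709 : Good (Phi V5.P V5.D 1 1) ⟨5, 27, 3, 3, 4, 15, 2, 3, 6, 8⟩ :=
  leafX_sound T5.ok_pp T5.Ypp.bz_eq (w := 254) (c := ⟨⟨.negSucc 5887, .negSucc 380, .negSucc 97, .ofNat 1042, .negSucc 2205, .ofNat 392⟩, ⟨.negSucc 2165, .ofNat 49, .negSucc 949, .ofNat 655, .negSucc 1131, .ofNat 175⟩, ⟨.ofNat 4060, .ofNat 429, .negSucc 195, .negSucc 889, .ofNat 1570, .negSucc 178⟩, ⟨.negSucc 11266, .negSucc 787, .negSucc 1100, .ofNat 579, .negSucc 4325, .ofNat 1072⟩, ⟨.ofNat 5358, .ofNat 677, .ofNat 891, .ofNat 1753, .ofNat 1911, .negSucc 890⟩, .ofNat 934, .negSucc 1140, .ofNat 0, .negSucc 1140, .ofNat 2234, .ofNat 0, .ofNat 128, .ofNat 920, .negSucc 434, .ofNat 0, .ofNat 605, .negSucc 163, .ofNat 0, .ofNat 0, .ofNat 671, .ofNat 954, .ofNat 0, .ofNat 94238163260001322488179179903173306579815665500160, .ofNat 151083246528750762363126007979127082297239535616, .ofNat 0, .ofNat 0,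 .ofNat 2014356000478284071892681344022940744781971176030208, .ofNat 936703572081246374351266037612357636608592183296, .ofNat 0, .ofNat 0, .ofNat 0, .ofNat 4237143723970982630678342786936052316848139534336, .ofNat 0, .ofNat 0, .ofNat 12314454761309552600001034181073494304489346841968640, .ofNat 2866777967971674460891193053595115979690584571904, .ofNat 0⟩)
    (by decide +kernel)
theorem L02710 : Good (Phi V5.P V5.D 1 1) ⟨4, 13, 3, 3, 3, 7, 3, 6, 6, 9⟩ :=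
  leafX_sound T5.ok_pp T5.Ypp.bz_eq (w := 239) (c := ⟨⟨.negSucc 5774, .negSucc 591, .ofNat 32, .ofNat 1280, .negSucc 788, .ofNat 353⟩, ⟨.negSucc 2536, .negSucc 68, .negSucc 628, .ofNat 819, .negSucc 397, .ofNat 165⟩, ⟨.ofNat 3921, .ofNat 659, .negSucc 96, .negSucc 1230, .ofNat 643, .negSucc 149⟩, ⟨.negSucc 9850, .negSucc 954, .negSucc 829, .ofNat 163, .negSucc 1566, .ofNat 871⟩, ⟨.ofNat 2433, .ofNat 793, .ofNat 1008, .ofNat 3311, .ofNat 703, .negSucc 665⟩, .ofNat 600, .negSucc 589, .ofNat 0, .negSucc 589, .ofNat 1295, .ofNat 0, .ofNat 128, .ofNat 300, .negSucc 229, .ofNat 0, .ofNat 219, .negSucc 57, .ofNat 0, .ofNat 0, .ofNat 408, .ofNat 829, .ofNat 0, .ofNat 0, .ofNat 253115391814705927501293501540529275739832320, .ofNat 0, .ofNat 0, .ofNat 0, .ofNat 1951738877488586745205717766819738287171698688, .ofNat 0, .ofNat 0, .ofNat 0, .ofNat 953265131512416821123100140853738468395712512, .ofNat 0, .ofNat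 0, .ofNat 0, .ofNat 1573438025321916062401569062752531533275332608, .ofNat 0⟩)
    (by decide +kernel)
theorem L02711 : Good (Phi V5.P V5.D 1 1) ⟨4, 13, 3, 3, 3, 7, 3, 7, 6, 9⟩ :=
  leafX_sound T5.ok_pp T5.Ypp.bz_eq (w := 239) (c := ⟨⟨.negSucc 6364, .negSucc 788, .ofNat 72, .ofNat 996, .negSucc 890, .ofNat 462⟩, ⟨.negSucc 2731, .negSucc 97, .negSucc 727, .ofNat 646, .negSucc 423, .ofNat 200⟩, ⟨.ofNat 4697, .ofNat 729, .negSucc 65, .negSucc 1454, .ofNat 1140, .negSucc 229⟩, ⟨.negSucc 11340, .negSucc 1444, .negSucc 820, .ofNat 126, .negSucc 1674, .ofNat 1155⟩, ⟨.ofNat 3551, .ofNat 1114, .ofNat 1054, .ofNat 2658, .ofNat 812, .negSucc 880⟩, .ofNat 646, .negSucc 686, .ofNat 0, .negSucc 686, .ofNat 1526, .ofNat 0, .ofNat 128, .ofNat 199, .negSucc 269, .ofNat 0, .ofNat 137, .negSucc 71, .ofNat 0, .ofNat 0, .ofNat 495, .ofNat 440, .ofNat 0, .ofNat 8586200396786143621453004099162685820767305728, .ofNat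 153806386422811728580769766855159213585334272, .ofNat 0, .ofNat 0, .ofNat 203941706142508815703949625113541406113648345088, .ofNat 272444558032103944046668471143167941352095744, .ofNat 0, .ofNat 0, .ofNat 234260906829747997264699865381891398384182362112, .ofNat 1045837084588687606173759450306611392949518336, .ofNat 0, .ofNat 0, .ofNat 0, .ofNat 5073329454700780611973767522992941845635399680, .ofNat 0⟩)
    (by decide +kernel)
theorem L02712 : Good (Phi V5.P V5.D 1 1) ⟨4, 12, 3, 3, 2, 3, 2, 3, 5, 5⟩ :=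
  leafX_sound T5.ok_pp T5.Ypp.bz_eq (w := 215) (c := ⟨⟨.negSucc 4985, .negSucc 666, .ofNat 207, .ofNat 1209, .negSucc 1063, .ofNat 464⟩, ⟨.negSucc 2284, .negSucc 262, .negSucc 402, .ofNat 731, .negSucc 437, .ofNat 186⟩, ⟨.ofNat 3820, .ofNat 373, .negSucc 13, .negSucc 1552, .ofNat 1094, .negSucc 176⟩, ⟨.negSucc 8252, .negSucc 558, .negSucc 460, .negSucc 232, .negSucc 2113, .ofNat 1180⟩, ⟨.ofNat 403, .negSucc 243, .ofNat 1145, .ofNat 4530, .ofNat 924, .negSucc 1001⟩, .ofNat 821, .negSucc 1053, .ofNat 0, .negSucc 1053, .ofNat 2462, .ofNat 0, .ofNat 128, .ofNat 282, .negSucc 143, .ofNat 0, .ofNat 174, .negSucc 44, .ofNat 0, .ofNat 0, .ofNat 377, .ofNat 437, .ofNat 0, .ofNat 48910083017268797532203600048688033955840, .ofNat 0, .ofNat 0, .ofNat 0, .ofNat 1319817889192144292528918608453664946257920, .ofNat 200271595879769320545710251218619596800, .ofNat 0, .ofNat 0, .ofNat 2038873605882883578008600612900648536506368,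 .ofNat 216094279651339172068757255992062771200, .ofNat 0, .ofNat 0, .ofNat 1381611848344350986716954445569383123124224, .ofNat 230638968740860995158941337710036516864, .ofNat 0⟩)
    (by decide +kernel)
theorem L02713 : Good (Phi V5.P V5.D 1 1) ⟨4, 13, 3, 3, 2, 3, 3, 6, 5, 5⟩ :=
  leafX_sound T5.ok_pp T5.Ypp.bz_eq (w := 219) (c := ⟨⟨.negSucc 5761, .negSucc 381, .negSucc 61, .ofNat 1411, .negSucc 543, .ofNat 566⟩, ⟨.negSucc 2698, .negSucc 139, .negSucc 537, .ofNat 990, .negSucc 243, .ofNat 247⟩, ⟨.ofNat 4257, .ofNat 155, .ofNat 154, .negSucc 1590, .ofNat 557, .negSucc 287⟩, ⟨.negSucc 8625, .negSucc 905, .negSucc 406, .negSucc 687, .negSucc 1230, .ofNat 1558⟩, ⟨.ofNat 26, .ofNat 1151, .ofNat 238, .ofNat 5235, .ofNat 727, .negSucc 1307⟩, .ofNat 651, .negSucc 691, .ofNat 0, .negSucc 691, .ofNat 1514, .ofNat 0, .ofNat 128, .ofNat 300, .negSucc 172, .ofNat 0, .ofNat 211, .negSucc 49, .ofNat 0, .ofNat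 0, .ofNat 406, .ofNat 476, .ofNat 0, .ofNat 0, .ofNat 270479567280052876537787620602666811392, .ofNat 0, .ofNat 0, .ofNat 0, .ofNat 4107433161329574041201277529102290518016, .ofNat 0, .ofNat 0, .ofNat 4278065677926448872316121476106123460214784, .ofNat 5536836637097456665779738871188496056320, .ofNat 0, .ofNat 0, .ofNat 0, .ofNat 0, .ofNat 0⟩)
    (by decide +kernel)
theorem L02714 : Good (Phi V5.P V5.D 1 1) ⟨4, 13, 3, 3, 2, 3, 3, 7, 5, 5⟩ :=
  leafX_sound T5.ok_pp T5.Ypp.bz_eq (w := 220) (c := ⟨⟨.negSucc 6211, .negSucc 889, .ofNat 177, .ofNat 848, .negSucc 635, .ofNat 896⟩, ⟨.negSucc 2855, .negSucc 593, .negSucc 365, .ofNat 628, .negSucc 272, .ofNat 412⟩, ⟨.ofNat 4757, .ofNat 518, .ofNat 42, .negSucc 961, .ofNat 709, .negSucc 641⟩, ⟨.negSucc 10002, .negSucc 854, .negSucc 88, .negSucc 852, .negSucc 1267, .ofNat 1868⟩, ⟨.ofNat 996, .ofNat 53, .ofNat 533, .ofNat 4098, .ofNat 668, .negSucc 1024⟩,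 .ofNat 939, .negSucc 1146, .ofNat 0, .negSucc 1146, .ofNat 2293, .ofNat 0, .ofNat 128, .ofNat 232, .negSucc 111, .ofNat 0, .ofNat 164, .negSucc 22, .ofNat 0, .ofNat 0, .ofNat 368, .ofNat 392, .ofNat 0, .ofNat 948949516724080722525124514191027073974272, .ofNat 94399079032827593416167989654759407616, .ofNat 0, .ofNat 0, .ofNat 7995683517241686036340734929506865640374272, .ofNat 5401643394605024559010191251794716262400, .ofNat 0, .ofNat 0, .ofNat 7119499167466673526394227926446490641235968, .ofNat 4308027266074120337047258686323358171136, .ofNat 0, .ofNat 0, .ofNat 10856548929168412168459179458431893205155840, .ofNat 736302592077373652831286067444678918144, .ofNat 0⟩)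
    (by decide +kernel)
theorem L02715 : Good (Phi V5.P V5.D 1 1) ⟨4, 12, 3, 3, 2, 3, 2, 3, 4, 3⟩ :=
  leafX_sound T5.ok_pp T5.Ypp.bz_eq (w := 210) (c := ⟨⟨.negSucc 4348, .negSucc 451, .ofNat 16, .ofNat 768, .negSucc 585, .ofNat 908⟩, ⟨.negSucc 1947, .negSucc 264, .negSucc 330, .ofNat 501, .negSucc 218, .ofNat 389⟩, ⟨.ofNat 3413, .ofNat 221, .ofNat 78, .negSucc 1092, .ofNat 667, .negSucc 551⟩, ⟨.negSucc 7093, .negSucc 300, .negSucc 190, .negSucc 417, .negSucc 1469, .ofNat 1840⟩, ⟨.negSucc 4, .negSucc 75, .ofNat 299, .ofNat 3474, .ofNat 1132, .negSucc 905⟩, .ofNat 1063, .negSucc 1526, .ofNat 0, .negSucc 1526, .ofNat 3438, .ofNat 0, .ofNat 128, .ofNat 292, .negSucc 84, .ofNat 0, .ofNat 176, .negSucc 27, .ofNat 0, .ofNat 0, .ofNat 407, .ofNat 383, .ofNat 0, .ofNat 12710816892051786253027380237847565959168, .ofNat 0, .ofNat 0, .ofNat 0, .ofNat 343397618050428132777840839698553373720576, .ofNat 5025696136321738342580697275666792448,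 .ofNat 0, .ofNat 0, .ofNat 680149155231211524233271406485478788038656, .ofNat 3134732516528574251738389227149197312, .ofNat 0, .ofNat 0, .ofNat 513604150032618766339212383402727277854720, .ofNat 5400014132301305364904589391772516352, .ofNat 0⟩)
    (by decide +kernel)
theorem L02716 : Good (Phi V5.P V5.D 1 1) ⟨4, 13, 3, 3, 3, 6, 2, 3, 4, 3⟩ :=
  leafX_sound T5.ok_pp T5.Ypp.bz_eq (w := 224) (c := ⟨⟨.negSucc 4792, .negSucc 448, .ofNat 6, .ofNat 260, .negSucc 771, .ofNat 983⟩, ⟨.negSucc 2262, .negSucc 401, .negSucc 287, .ofNat 191, .negSucc 367, .ofNat 476⟩, ⟨.ofNat 3571, .ofNat 165, .ofNat 119, .negSucc 364, .ofNat 923, .negSucc 704⟩, ⟨.negSucc 7478, .negSucc 335, .negSucc 52, .negSucc 213, .negSucc 1184, .ofNat 2056⟩, ⟨.ofNat 215, .ofNat 198, .ofNat 94, .ofNat 1159, .ofNat 129, .negSucc 1077⟩, .ofNat 652, .negSucc 694, .ofNat 0, .negSucc 694, .ofNat 1524, .ofNat 0, .ofNat 128, .ofNat 176, .negSucc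 64, .ofNat 0, .ofNat 128, .negSucc 17, .ofNat 0, .ofNat 0, .ofNat 279, .ofNat 486, .ofNat 0, .ofNat 0, .ofNat 0, .ofNat 0, .ofNat 0, .ofNat 900885508112046276881846758984445536774389760, .ofNat 44464181976951806053968714667333347442688, .ofNat 0, .ofNat 0, .ofNat 888119590368437748745004359644109142029762560, .ofNat 66131582881692101946136962326560602324992, .ofNat 0, .ofNat 0, .ofNat 634040168854515153819045417646188312506925056, .ofNat 24324446054750311478294688162356070973440, .ofNat 0⟩)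
    (by decide +kernel)
theorem L02717 : Good (Phi V5.P V5.D 1 1) ⟨4, 13, 3, 3, 3, 7, 3, 6, 4, 3⟩ :=
  leafX_sound T5.ok_pp T5.Ypp.bz_eq (w := 229) (c := ⟨⟨.negSucc 4487, .negSucc 388, .ofNat 21, .ofNat 637, .negSucc 672, .ofNat 799⟩, ⟨.negSucc 2008, .negSucc 98, .negSucc 455, .ofNat 475, .negSucc 351, .ofNat 320⟩, ⟨.ofNat 3169, .ofNat 300, .ofNat 37, .negSucc 682, .ofNat 464, .negSucc 481⟩, ⟨.negSucc 7413, .negSucc 410, .negSucc 427, .negSucc 599, .negSucc 805, .ofNat 2211⟩, ⟨.ofNat 1339, .ofNat 273, .ofNat 531, .ofNat 2899, .negSucc 388, .negSucc 2096⟩, .ofNat 1133, .negSucc 1525, .ofNat 0, .negSucc 1525, .ofNat 3047, .ofNat 0, .ofNat 128, .ofNat 389, .negSucc 73, .ofNat 0, .ofNat 260, .negSucc 18, .ofNat 0, .ofNat 0, .ofNat 407, .ofNat 678, .ofNat 0, .ofNat 153287446122321988799219992016829102604419072, .ofNat 100088462196487311370907391731877783011328, .ofNat 0, .ofNat 0, .ofNat 5479778723559860291275630929585625899070390272,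 .ofNat 6447850751796286398956646750639799813537792, .ofNat 0, .ofNat 0, .ofNat 0, .ofNat 3871881873238816920271316408782167245586432, .ofNat 0, .ofNat 0, .ofNat 14853573683263820588809283353367263166381162496, .ofNat 0, .ofNat 0⟩)
    (by decide +kernel)
theorem L02718 : Good (Phi V5.P V5.D 1 1) ⟨4, 13, 3, 3, 3, 7, 3, 7, 4, 3⟩ :=
  out_sound (S := T5.ds_pp) T5.ok_pp (w := 34) (j := 2) (by decide +kernel)
theorem L02719 : Good (Phi V5.P V5.D 1 1) ⟨3, 7, 3, 3, 2, 3, 2, 3, 3, 1⟩ :=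
  out_sound (S := T5.ds_pp) T5.ok_pp (w := 45) (j := 3) (by decide +kernel)
theorem L02720 : Good (Phi V5.P V5.D 1 1) ⟨3, 4, 2, 1, 1, 1, 2, 2, 4, 4⟩ :=
  out_sound (S := T5.ds_pp) T5.ok_pp (w := 43) (j := 3) (by decide +kernel)
theorem L02721 : Good (Phi V5.P V5.D 1 1) ⟨3, 5, 2, 1, 2, 2, 2, 2, 4, 4⟩ :=
  leafX_sound T5.ok_pp T5.Ypp.bz_eq (w := 202) (c := ⟨⟨.negSucc 2149, .negSucc 506, .ofNat 41, .negSucc 224, .negSucc 367, .ofNat 247⟩, ⟨.negSucc 512, .negSucc 446, .negSucc 317, .negSucc 77, .negSucc 133, .ofNat 83⟩, ⟨.ofNat 1813, .ofNat 311, .negSucc 132, .negSucc 64, .ofNat 571, .negSucc 143⟩, ⟨.negSucc 4126, .negSucc 180, .ofNat 135, .negSucc 388, .negSucc 543, .ofNat 455⟩, ⟨.negSucc 332, .ofNat 28, .ofNat 15, .negSucc 9, .negSucc 234, .negSucc 95⟩, .ofNat 536, .negSucc 545, .ofNat 0, .negSucc 545, .ofNat 1857, .ofNat 0, .ofNat 128, .ofNat 152, .negSucc 46, .ofNat 0, .ofNat 102, .negSucc 11,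 .ofNat 0, .ofNat 0, .ofNat 290, .ofNat 1335, .ofNat 0, .ofNat 0, .ofNat 0, .ofNat 0, .ofNat 0, .ofNat 0, .ofNat 0, .ofNat 0, .ofNat 0, .ofNat 0, .ofNat 6803795044622386587284844626361450496, .ofNat 0, .ofNat 0, .ofNat 806607042191636840397626278324274724864, .ofNat 2645014680959705183452865274637713408, .ofNat 0⟩)
    (by decide +kernel)
theorem L02722 : Good (Phi V5.P V5.D 1 1) ⟨3, 5, 2, 1, 2, 3, 2, 2, 4, 4⟩ :=
  leafX_sound T5.ok_pp T5.Ypp.bz_eq (w := 200) (c := ⟨⟨.negSucc 2494, .negSucc 445, .ofNat 116, .ofNat 439, .negSucc 424, .ofNat 364⟩, ⟨.negSucc 681, .negSucc 353, .negSucc 340, .ofNat 191, .negSucc 150, .ofNat 119⟩, ⟨.ofNat 1836, .ofNat 112, .ofNat 12, .negSucc 264, .ofNat 664, .negSucc 131⟩, ⟨.negSucc 4661, .negSucc 136, .ofNat 38, .ofNat 141, .negSucc 657, .ofNat 726⟩, ⟨.negSucc 326, .ofNat 13, .ofNat 308, .ofNat 1791, .negSucc 221, .negSucc 287⟩, .ofNat 328, .negSucc 164, .ofNat 0,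 .negSucc 164, .ofNat 730, .ofNat 0, .ofNat 134, .ofNat 91, .negSucc 26, .ofNat 0, .ofNat 128, .ofNat 3, .ofNat 0, .ofNat 0, .ofNat 278, .ofNat 278, .ofNat 0, .ofNat 14826428691015517436185925572265771008, .ofNat 10666095492098500744415842802860032, .ofNat 0, .ofNat 0, .ofNat 881185583169301828135298080804050042880, .ofNat 167872146651766612080000461594165248, .ofNat 0, .ofNat 0, .ofNat 0, .ofNat 0, .ofNat 0, .ofNat 0, .ofNat 1949346279885203062902368740430795767808, .ofNat 2604673580134084944171127644216098816, .ofNat 0⟩)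
    (by decide +kernel)
theorem L02723 : Good (Phi V5.P V5.D 1 1) ⟨2, 2, 2, 1, 2, 2, 2, 2, 4, 5⟩ :=
  leafX_sound T5.ok_pp T5.Ypp.bz_eq (w := 199) (c := ⟨⟨.negSucc 1471, .negSucc 978, .ofNat 12, .negSucc 101, .negSucc 345, .ofNat 214⟩, ⟨.negSucc 17, .negSucc 873, .negSucc 272, .negSucc 39, .negSucc 130, .ofNat 74⟩, ⟨.ofNat 1623, .ofNat 427, .negSucc 77, .negSucc 144, .ofNat 391, .negSucc 211⟩, ⟨.negSucc 3626, .negSucc 315, .ofNat 82, .negSucc 147, .negSucc 484, .ofNat 381⟩, ⟨.negSucc 260, .negSucc 112, .negSucc 19, .negSucc 69, .negSucc 287, .negSucc 49⟩, .ofNat 536, .negSucc 544, .ofNat 0, .negSucc 544, .ofNat 1839, .ofNat 0, .ofNat 128, .ofNat 254, .negSucc 43, .ofNat 0, .ofNat 180, .negSucc 11, .ofNat 0, .ofNat 0, .ofNat 616, .ofNat 1937, .ofNat 0, .ofNat 0, .ofNat 3468886010792537815257022119211433984, .ofNat 0, .ofNat 0, .ofNat 149150185450173268487887704996207132672, .ofNat 70554453574941181754423820390617841664,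 .ofNat 0, .ofNat 0, .ofNat 756727664890681285666589099886846672896, .ofNat 733725989433868914314765990556476637184, .ofNat 0, .ofNat 0, .ofNat 489352250832260394576492642656145375232, .ofNat 64831160259682892788076973516577046528, .ofNat 0⟩)
    (by decide +kernel)
theorem L02724 : Good (Phi V5.P V5.D 1 1) ⟨2, 2, 2, 1, 2, 3, 2, 2, 4, 5⟩ :=
  leafX_sound T5.ok_pp T5.Ypp.bz_eq (w := 197) (c := ⟨⟨.negSucc 1713, .negSucc 810, .negSucc 2, .ofNat 187, .negSucc 330, .ofNat 288⟩, ⟨.negSucc 141, .negSucc 769, .negSucc 318, .ofNat 91, .negSucc 118, .ofNat 101⟩, ⟨.ofNat 1593, .ofNat 218, .negSucc 45, .negSucc 278, .ofNat 601, .negSucc 162⟩, ⟨.negSucc 3963, .negSucc 118, .ofNat 96, .ofNat 90, .negSucc 471, .ofNat 520⟩, ⟨.negSucc 331, .ofNat 4, .negSucc 110, .ofNat 575, .negSucc 302, .negSucc 107⟩, .ofNat 328, .negSucc 164, .ofNat 0, .negSucc 164, .ofNat 729, .ofNat 0, .ofNat 155, .ofNat 90, .negSucc 8, .ofNat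 0, .ofNat 128, .ofNat 1, .ofNat 0, .ofNat 0, .ofNat 209, .ofNat 505, .ofNat 0, .ofNat 3518962914452250388893007701006614528, .ofNat 0, .ofNat 0, .ofNat 0, .ofNat 137367341526036708549679127658063986688, .ofNat 7113927965702611218751334174035017728, .ofNat 0, .ofNat 0, .ofNat 547866070602059639224242265119346655232, .ofNat 33346353224466706686825096018944589824, .ofNat 0, .ofNat 0, .ofNat 231612080757860061529526894416644538368, .ofNat 7484751696879381370322742738033836032, .ofNat 0⟩)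
    (by decide +kernel)
theorem L02725 : Good (Phi V5.P V5.D 1 1) ⟨3, 4, 2, 1, 1, 1, 2, 3, 3, 2⟩ :=
  out_sound (S := T5.ds_pp) T5.ok_pp (w := 43) (j := 3) (by decide +kernel)
theorem L02726 : Good (Phi V5.P V5.D 1 1) ⟨4, 10, 2, 1, 1, 1, 2, 3, 4, 4⟩ :=
  out_sound (S := T5.ds_pp) T5.ok_pp (w := 49) (j := 3) (by decide +kernel)
theorem L02727 : Good (Phi V5.P V5.D 1 1) ⟨4, 11, 2, 1, 2, 2, 2, 3, 4, 4⟩ :=
  leafX_sound T5.ok_pp T5.Ypp.bz_eq (w := 206) (c := ⟨⟨.negSucc 2723, .negSucc 347, .negSucc 13, .negSucc 338, .negSucc 828, .ofNat 289⟩, ⟨.negSucc 832, .negSucc 290, .negSucc 347, .negSucc 116, .negSucc 295, .ofNat 91⟩, ⟨.ofNat 2516, .ofNat 213, .negSucc 95, .ofNat 101, .ofNat 577, .negSucc 306⟩, ⟨.negSucc 4727, .negSucc 175, .ofNat 101, .negSucc 565, .negSucc 1240, .ofNat 550⟩, ⟨.negSucc 563, .negSucc 14, .negSucc 41, .negSucc 42, .negSucc 532, .negSucc 148⟩, .ofNat 845, .negSucc 1309, .ofNat 0,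 .negSucc 1309, .ofNat 4018, .ofNat 0, .ofNat 128, .ofNat 235, .negSucc 62, .ofNat 0, .ofNat 122, .negSucc 19, .ofNat 0, .ofNat 0, .ofNat 399, .ofNat 501, .ofNat 0, .ofNat 0, .ofNat 0, .ofNat 0, .ofNat 0, .ofNat 43398458176423926606355469745427207684096, .ofNat 0, .ofNat 0, .ofNat 0, .ofNat 146842805217728474587173304420754907987968, .ofNat 719621781883627174736147767854366720, .ofNat 0, .ofNat 0, .ofNat 73531498356242119507313368291909256085504, .ofNat 518208062713172730864389439220613120, .ofNat 0⟩)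
    (by decide +kernel)
theorem L02728 : Good (Phi V5.P V5.D 1 1) ⟨4, 11, 2, 1, 2, 3, 2, 3, 4, 4⟩ :=
  leafX_sound T5.ok_pp T5.Ypp.bz_eq (w := 207) (c := ⟨⟨.negSucc 3068, .negSucc 356, .ofNat 32, .ofNat 78, .negSucc 587, .ofNat 527⟩, ⟨.negSucc 945, .negSucc 289, .negSucc 400, .ofNat 45, .negSucc 239, .ofNat 162⟩, ⟨.ofNat 2590, .ofNat 151, .negSucc 0, .negSucc 244, .ofNat 768, .negSucc 330⟩, ⟨.negSucc 5369, .negSucc 165, .ofNat 123, .negSucc 185, .negSucc 865, .ofNat 1035⟩, ⟨.negSucc 427, .negSucc 44, .negSucc 7, .ofNat 897, .negSucc 357, .negSucc 354⟩, .ofNat 166, .negSucc 29, .ofNat 0, .negSucc 29, .ofNat 239, .ofNat 0, .ofNat 199, .ofNat 39, .negSucc 60, .ofNat 0, .ofNat 128, .ofNat 15, .ofNat 0, .ofNat 0, .ofNat 208, .ofNat 955, .ofNat 0, .ofNat 5646494286012463253710584443963399208960, .ofNat 0, .ofNat 0, .ofNat 0, .ofNat 84369156855958554977698232938498854223872, .ofNat 0, .ofNat 0, .ofNat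 0, .ofNat 238179837669366368287728624218662730989568, .ofNat 435925913118985078257143637138735104, .ofNat 0, .ofNat 0, .ofNat 61770486456795565584560035673822992531456, .ofNat 722051155554266942012913038651293696, .ofNat 0⟩)
    (by decide +kernel)
theorem L02729 : Good (Phi V5.P V5.D 1 1) ⟨3, 5, 2, 1, 1, 1, 2, 3, 4, 5⟩ :=
  leafX_sound T5.ok_pp T5.Ypp.bz_eq (w := 187) (c := ⟨⟨.negSucc 2194, .negSucc 597, .ofNat 37, .negSucc 637, .negSucc 684, .ofNat 192⟩, ⟨.negSucc 511, .negSucc 516, .negSucc 276, .negSucc 246, .negSucc 246, .ofNat 65⟩, ⟨.ofNat 2018, .ofNat 437, .negSucc 258, .ofNat 288, .ofNat 289, .negSucc 293⟩, ⟨.negSucc 4161, .negSucc 250, .ofNat 148, .negSucc 847, .negSucc 996, .ofNat 336⟩, ⟨.negSucc 566, .negSucc 92, .ofNat 5, .negSucc 671, .negSucc 513, .negSucc 21⟩, .ofNat 328, .negSucc 164, .ofNat 0, .negSucc 164, .ofNat 730, .ofNat 0, .ofNat 196, .ofNat 105, .negSucc 43, .ofNat 0, .ofNat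 128, .negSucc 12, .ofNat 0, .ofNat 0, .ofNat 393, .ofNat 263, .ofNat 0, .ofNat 43878949968799228000953305665634304, .ofNat 0, .ofNat 0, .ofNat 0, .ofNat 1385856128863889773262857494838902784, .ofNat 93123389937414902426131694092288, .ofNat 0, .ofNat 0, .ofNat 1494707007433324197720856796956983296, .ofNat 155863325913801678096712542978048, .ofNat 0, .ofNat 0, .ofNat 2545901072207488162917032262849527808, .ofNat 154751121559999645817896263745536, .ofNat 0⟩)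
    (by decide +kernel)
theorem L02730 : Good (Phi V5.P V5.D 1 1) ⟨3, 4, 2, 1, 2, 2, 1, 1, 3, 3⟩ :=
  out_sound (S := T5.ds_pp) T5.ok_pp (w := 43) (j := 3) (by decide +kernel)
theorem L02731 : Good (Phi V5.P V5.D 1 1) ⟨3, 5, 2, 1, 2, 2, 1, 1, 3, 3⟩ :=
  leafX_sound T5.ok_pp T5.Ypp.bz_eq (w := 192) (c := ⟨⟨.negSucc 1843, .negSucc 399, .ofNat 5, .negSucc 80, .negSucc 592, .ofNat 324⟩, ⟨.negSucc 437, .negSucc 380, .negSucc 249, .negSucc 31, .negSucc 214, .ofNat 110⟩, ⟨.ofNat 1696, .ofNat 213, .negSucc 171, .negSucc 144, .ofNat 510, .negSucc 468⟩, ⟨.negSucc 3511, .negSucc 71, .ofNat 79, .negSucc 90, .negSucc 852, .ofNat 551⟩, ⟨.negSucc 374, .negSucc 42, .ofNat 5, .negSucc 139, .negSucc 486, .ofNat 15⟩, .ofNat 328, .negSucc 165, .ofNat 0, .negSucc 165, .ofNat 731, .ofNat 0, .ofNat 162, .ofNat 98, .negSucc 23, .ofNat 0, .ofNat 128, .negSucc 8, .ofNat 0, .ofNat 0, .ofNat 672, .ofNat 454, .ofNat 0, .ofNat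 1179049800017499479954835860183056384, .ofNat 133102468130324093784781660094464, .ofNat 0, .ofNat 0, .ofNat 289526849999404530690313371767176953856, .ofNat 8156921681750936720737718117597184, .ofNat 0, .ofNat 0, .ofNat 165735185544808025183469017030924959744, .ofNat 0, .ofNat 0, .ofNat 0, .ofNat 581783302084940227260736533499629010944, .ofNat 7241158307121400541284526544912384, .ofNat 0⟩)
    (by decide +kernel)
theorem L02732 : Good (Phi V5.P V5.D 1 1) ⟨2, 2, 2, 1, 2, 3, 1, 1, 3, 3⟩ :=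
  out_sound (S := T5.ds_pp) T5.ok_pp (w := 26) (j := 2) (by decide +kernel)
theorem L02733 : Good (Phi V5.P V5.D 1 1) ⟨4, 12, 2, 1, 2, 2, 2, 2, 4, 4⟩ :=
  leafX_sound T5.ok_pp T5.Ypp.bz_eq (w := 206) (c := ⟨⟨.negSucc 2705, .negSucc 227, .negSucc 90, .negSucc 164, .negSucc 458, .ofNat 326⟩, ⟨.negSucc 972, .negSucc 251, .negSucc 368, .negSucc 74, .negSucc 212, .ofNat 135⟩, ⟨.ofNat 2194, .ofNat 73, .ofNat 72, .negSucc 168, .ofNat 622, .negSucc 219⟩, ⟨.negSucc 4394, .negSucc 28, .negSucc 66, .negSucc 284, .negSucc 604, .ofNat 567⟩, ⟨.negSucc 301, .ofNat 30, .negSucc 39, .ofNat 17, .negSucc 293, .negSucc 111⟩, .ofNat 329, .negSucc 183, .ofNat 0, .negSucc 183, .ofNat 653, .ofNat 0, .ofNat 130, .ofNat 114, .negSucc 46, .ofNat 0, .ofNat 128, .negSucc 6, .ofNat 0, .ofNat 0, .ofNat 253, .ofNat 788, .ofNat 0, .ofNat 0, .ofNat 0, .ofNat 0, .ofNat 0, .ofNat 0, .ofNat 0, .ofNat 0, .ofNat 0, .ofNat 0, .ofNat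 0, .ofNat 0, .ofNat 0, .ofNat 12885797708052012774512016944180509016064, .ofNat 372394591586553632715221800719482880, .ofNat 0⟩)
    (by decide +kernel)
theorem L02734 : Good (Phi V5.P V5.D 1 1) ⟨4, 12, 2, 1, 3, 6, 2, 2, 4, 4⟩ :=
  leafX_sound T5.ok_pp T5.Ypp.bz_eq (w := 219) (c := ⟨⟨.negSucc 2921, .negSucc 226, .negSucc 32, .ofNat 170, .negSucc 528, .ofNat 409⟩, ⟨.negSucc 1044, .negSucc 227, .negSucc 425, .ofNat 108, .negSucc 244, .ofNat 147⟩, ⟨.ofNat 2009, .ofNat 53, .ofNat 66, .negSucc 181, .ofNat 712, .negSucc 214⟩, ⟨.negSucc 4802, .negSucc 53, .ofNat 52, .ofNat 52, .negSucc 716, .ofNat 786⟩, ⟨.negSucc 126, .ofNat 64, .negSucc 225, .ofNat 550, .negSucc 279, .negSucc 312⟩, .ofNat 328, .negSucc 181, .ofNat 0, .negSucc 181, .ofNat 647, .ofNat 0, .ofNat 149, .ofNat 99, .negSucc 31, .ofNat 0, .ofNat 128, .ofNat 2, .ofNat 0, .ofNat 0, .ofNat 277, .ofNat 526, .ofNat 0, .ofNat 0, .ofNat 0, .ofNat 0,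 .ofNat 0, .ofNat 0, .ofNat 0, .ofNat 0, .ofNat 0, .ofNat 0, .ofNat 0, .ofNat 0, .ofNat 0, .ofNat 98146476140947142149591162582526384196812800, .ofNat 17081063117350844509251731046203077427200, .ofNat 0⟩)
    (by decide +kernel)
theorem L02735 : Good (Phi V5.P V5.D 1 1) ⟨4, 12, 2, 1, 3, 7, 2, 2, 4, 4⟩ :=
  leafX_sound T5.ok_pp T5.Ypp.bz_eq (w := 220) (c := ⟨⟨.negSucc 2803, .negSucc 185, .ofNat 46, .ofNat 492, .negSucc 605, .ofNat 414⟩, ⟨.negSucc 974, .negSucc 118, .negSucc 489, .ofNat 298, .negSucc 278, .ofNat 141⟩, ⟨.ofNat 1794, .ofNat 75, .ofNat 4, .negSucc 83, .ofNat 647, .negSucc 133⟩, ⟨.negSucc 4610, .negSucc 10, .negSucc 240, .negSucc 87, .negSucc 950, .ofNat 733⟩, ⟨.ofNat 198, .ofNat 21, .ofNat 200, .ofNat 1907, .negSucc 115, .negSucc 314⟩, .ofNat 340, .negSucc 208, .ofNat 0, .negSucc 208, .ofNat 696, .ofNat 0, .ofNat 128, .ofNat 126, .ofNat 16, .ofNat 0, .ofNat 173, .ofNat 26, .ofNat 0,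 .ofNat 0, .ofNat 344, .ofNat 838, .ofNat 0, .ofNat 2995447730200257153232833561152228046143488, .ofNat 1155384680102342989611747478408202813440, .ofNat 0, .ofNat 0, .ofNat 73429679322231305152825878859024940058804224, .ofNat 14533988837170625013116869698478212644864, .ofNat 0, .ofNat 0, .ofNat 177317028657176062446945962452762144381337600, .ofNat 0, .ofNat 0, .ofNat 0, .ofNat 199891158781861162344936289158325429480718336, .ofNat 3928684083747979547495177763758154973184, .ofNat 0⟩)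
    (by decide +kernel)
theorem L02736 : Good (Phi V5.P V5.D 1 1) ⟨4, 12, 2, 1, 2, 2, 2, 2, 4, 5⟩ :=
  leafX_sound T5.ok_pp T5.Ypp.bz_eq (w := 206) (c := ⟨⟨.negSucc 2443, .negSucc 263, .ofNat 37, .negSucc 85, .negSucc 409, .ofNat 231⟩, ⟨.negSucc 881, .negSucc 264, .negSucc 264, .negSucc 42, .negSucc 192, .ofNat 95⟩, ⟨.ofNat 2076, .ofNat 124, .negSucc 97, .negSucc 240, .ofNat 459, .negSucc 222⟩, ⟨.negSucc 3951, .negSucc 87, .ofNat 131, .negSucc 105, .negSucc 517, .ofNat 395⟩, ⟨.negSucc 353, .negSucc 12, .negSucc 22, .negSucc 74, .negSucc 311, .negSucc 63⟩, .ofNat 330, .negSucc 185, .ofNat 0, .negSucc 185, .ofNat 661, .ofNat 0, .ofNat 128, .ofNat 146, .negSucc 43, .ofNat 0, .ofNat 177, .negSucc 6, .ofNat 0, .ofNat 0, .ofNat 516, .ofNat 1386, .ofNat 0, .ofNat 0, .ofNat 0, .ofNat 0, .ofNat 0, .ofNat 23944281061725046715633964042617339510784, .ofNat 1036880156271816218604377279649808384, .ofNat 0, .ofNat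 0, .ofNat 0, .ofNat 0, .ofNat 0, .ofNat 0, .ofNat 100646641147885132083303757923274754883584, .ofNat 0, .ofNat 0⟩)
    (by decide +kernel)
theorem L02737 : Good (Phi V5.P V5.D 1 1) ⟨4, 12, 2, 1, 2, 3, 2, 2, 4, 5⟩ :=
  leafX_sound T5.ok_pp T5.Ypp.bz_eq (w := 206) (c := ⟨⟨.negSucc 2527, .negSucc 220, .negSucc 8, .ofNat 255, .negSucc 418, .ofNat 317⟩, ⟨.negSucc 915, .negSucc 240, .negSucc 310, .ofNat 161, .negSucc 193, .ofNat 134⟩, ⟨.ofNat 1836, .ofNat 35, .negSucc 46, .negSucc 376, .ofNat 617, .negSucc 243⟩, ⟨.negSucc 4087, .negSucc 25, .ofNat 98, .ofNat 132, .negSucc 528, .ofNat 543⟩, ⟨.negSucc 325, .ofNat 4, .negSucc 151, .ofNat 633, .negSucc 326, .negSucc 101⟩, .ofNat 329, .negSucc 183, .ofNat 0, .negSucc 183, .ofNat 655, .ofNat 0, .ofNat 128, .ofNat 134, .negSucc 12, .ofNat 0, .ofNat 178, .ofNat 2, .ofNat 0, .ofNat 0, .ofNat 279, .ofNat 1397, .ofNat 0, .ofNat 3723653505222702874447833101101688684544,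 .ofNat 0, .ofNat 0, .ofNat 0, .ofNat 76983159831166069586645729081577946742784, .ofNat 745751015082518701606030688405946368, .ofNat 0, .ofNat 0, .ofNat 398374672984275338493848086272793336872960, .ofNat 0, .ofNat 0, .ofNat 0, .ofNat 87295057710245840731500733806641053433856, .ofNat 1738921817287864709529879074157101056, .ofNat 0⟩)
    (by decide +kernel)
theorem L02738 : Good (Phi V5.P V5.D 1 1) ⟨4, 12, 2, 1, 2, 2, 2, 3, 4, 4⟩ :=
  leafX_sound T5.ok_pp T5.Ypp.bz_eq (w := 205) (c := ⟨⟨.negSucc 3060, .negSucc 379, .negSucc 40, .negSucc 368, .negSucc 1039, .ofNat 328⟩, ⟨.negSucc 1103, .negSucc 370, .negSucc 384, .negSucc 151, .negSucc 470, .ofNat 127⟩, ⟨.ofNat 2757, .ofNat 222, .negSucc 68, .negSucc 2, .ofNat 698, .negSucc 337⟩, ⟨.negSucc 4925, .negSucc 161, .ofNat 70, .negSucc 561, .negSucc 1393, .ofNat 604⟩, ⟨.negSucc 518, .negSucc 25, .negSucc 58, .negSucc 108, .negSucc 673, .negSucc 193⟩, .ofNat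 329, .negSucc 182, .ofNat 0, .negSucc 182, .ofNat 651, .ofNat 0, .ofNat 154, .ofNat 116, .negSucc 60, .ofNat 0, .ofNat 128, .negSucc 12, .ofNat 0, .ofNat 0, .ofNat 288, .ofNat 234, .ofNat 0, .ofNat 1637086795619263977449212010283050991616, .ofNat 58859958041513930286935783067615232, .ofNat 0, .ofNat 0, .ofNat 30721769489487980469364624978855575158784, .ofNat 0, .ofNat 0, .ofNat 0, .ofNat 66177965303495282745441385568096474890240, .ofNat 0, .ofNat 0, .ofNat 0, .ofNat 38386091929623791560482088156310578135040, .ofNat 283735237231765003547531707867463680, .ofNat 0⟩)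
    (by decide +kernel)
theorem L02739 : Good (Phi V5.P V5.D 1 1) ⟨4, 12, 2, 1, 2, 3, 2, 3, 4, 4⟩ :=
  leafX_sound T5.ok_pp T5.Ypp.bz_eq (w := 207) (c := ⟨⟨.negSucc 3430, .negSucc 395, .ofNat 25, .ofNat 195, .negSucc 695, .ofNat 620⟩, ⟨.negSucc 1236, .negSucc 371, .negSucc 405, .ofNat 134, .negSucc 349, .ofNat 234⟩, ⟨.ofNat 2753, .ofNat 126, .ofNat 36, .negSucc 391, .ofNat 713, .negSucc 450⟩, ⟨.negSucc 5548, .negSucc 158, .ofNat 112, .negSucc 65, .negSucc 872, .ofNat 1179⟩, ⟨.negSucc 463, .negSucc 48, .ofNat 0, .ofNat 846, .negSucc 472, .negSucc 440⟩, .ofNat 330, .negSucc 185, .ofNat 0, .negSucc 185, .ofNat 652, .ofNat 0, .ofNat 128, .ofNat 182, .negSucc 105, .ofNat 0, .ofNat 204, .negSucc 1, .ofNat 0, .ofNat 0, .ofNat 610, .ofNat 1530, .ofNat 0, .ofNat 13170861035355414429808904426210665168896, .ofNat 0, .ofNat 0, .ofNat 0, .ofNat 179007103954767940709942725556718270414848, .ofNat 527420095428109587927498553173213184,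 .ofNat 0, .ofNat 0, .ofNat 709806748869275412930967871460204682936320, .ofNat 0, .ofNat 0, .ofNat 0, .ofNat 287000772308610528946815476598860918292480, .ofNat 7097843610718835430542318315996446720, .ofNat 0⟩)
    (by decide +kernel)
theorem L02740 : Good (Phi V5.P V5.D 1 1) ⟨4, 12, 2, 1, 2, 2, 2, 3, 4, 5⟩ :=
  leafX_sound T5.ok_pp T5.Ypp.bz_eq (w := 206) (c := ⟨⟨.negSucc 2789, .negSucc 337, .negSucc 8, .negSucc 347, .negSucc 810, .ofNat 236⟩, ⟨.negSucc 1019, .negSucc 342, .negSucc 290, .negSucc 179, .negSucc 387, .ofNat 100⟩, ⟨.ofNat 2485, .ofNat 226, .negSucc 240, .ofNat 30, .ofNat 378, .negSucc 355⟩, ⟨.negSucc 4425, .negSucc 123, .ofNat 73, .negSucc 371, .negSucc 1014, .ofNat 394⟩, ⟨.negSucc 644, .negSucc 51, .ofNat 22, .negSucc 412, .negSucc 607, .negSucc 42⟩, .ofNat 329, .negSucc 184, .ofNat 0, .negSucc 184, .ofNat 652, .ofNat 0, .ofNat 131, .ofNat 111, .negSucc 47, .ofNat 0, .ofNat 128, .negSucc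 15, .ofNat 0, .ofNat 0, .ofNat 372, .ofNat 633, .ofNat 0, .ofNat 4367106674993418667812031591772504195072, .ofNat 0, .ofNat 0, .ofNat 0, .ofNat 91598894240113931124872306061959694909440, .ofNat 0, .ofNat 0, .ofNat 0, .ofNat 140042958418853134729309010839896976261120, .ofNat 0, .ofNat 0, .ofNat 0, .ofNat 144648008898547307784406276863051337564160, .ofNat 888107073089682390104618084813766656, .ofNat 0⟩)
    (by decide +kernel)
theorem L02741 : Good (Phi V5.P V5.D 1 1) ⟨4, 12, 2, 1, 2, 3, 2, 3, 4, 5⟩ :=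
  out_sound (S := T5.ds_pp) T5.ok_pp (w := 30) (j := 2) (by decide +kernel)
theorem L02742 : Good (Phi V5.P V5.D 1 1) ⟨5, 26, 2, 1, 2, 2, 2, 2, 4, 4⟩ :=
  leafX_sound T5.ok_pp T5.Ypp.bz_eq (w := 209) (c := ⟨⟨.negSucc 3091, .negSucc 197, .ofNat 126, .negSucc 173, .negSucc 502, .ofNat 364⟩, ⟨.negSucc 1317, .negSucc 190, .negSucc 245, .negSucc 93, .negSucc 271, .ofNat 179⟩, ⟨.ofNat 2423, .ofNat 122, .negSucc 75, .negSucc 200, .ofNat 606, .negSucc 278⟩, ⟨.negSucc 4658, .negSucc 124, .ofNat 232, .negSucc 244, .negSucc 599, .ofNat 620⟩, ⟨.negSucc 295, .ofNat 27, .ofNat 4, .negSucc 38, .negSucc 318, .negSucc 136⟩, .ofNat 630, .negSucc 660, .ofNat 0, .negSucc 660, .ofNat 1491, .ofNat 0, .ofNat 128, .ofNat 202, .negSucc 43, .ofNat 0, .ofNat 150, .negSucc 15, .ofNat 0, .ofNat 0, .ofNat 256, .ofNat 359, .ofNat 0, .ofNat 0, .ofNat 9667683431876593609372999432011776, .ofNat 0, .ofNat 0, .ofNat 0, .ofNat 0,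 .ofNat 0, .ofNat 0, .ofNat 0, .ofNat 0, .ofNat 0, .ofNat 0, .ofNat 260950602586050117668308810995306881613824, .ofNat 39074680449613367297596947425132544, .ofNat 0⟩)
    (by decide +kernel)
theorem L02743 : Good (Phi V5.P V5.D 1 1) ⟨5, 26, 3, 2, 3, 6, 2, 2, 4, 4⟩ :=
  leafX_sound T5.ok_pp T5.Ypp.bz_eq (w := 228) (c := ⟨⟨.negSucc 3220, .negSucc 105, .ofNat 28, .ofNat 210, .negSucc 565, .ofNat 437⟩, ⟨.negSucc 1339, .negSucc 123, .negSucc 163, .ofNat 139, .negSucc 287, .ofNat 181⟩, ⟨.ofNat 2134, .ofNat 53, .ofNat 2, .negSucc 223, .ofNat 692, .negSucc 280⟩, ⟨.negSucc 4863, .ofNat 37, .ofNat 5, .ofNat 63, .negSucc 721, .ofNat 823⟩, ⟨.negSucc 251, .negSucc 54, .ofNat 104, .ofNat 556, .negSucc 315, .negSucc 320⟩, .ofNat 1118, .negSucc 1558, .ofNat 0, .negSucc 1558, .ofNat 3348, .ofNat 0, .ofNat 128, .ofNat 282, .negSucc 32, .ofNat 0, .ofNat 199, .negSucc 8, .ofNat 0, .ofNat 0, .ofNat 403, .ofNat 1382,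 .ofNat 0, .ofNat 0, .ofNat 677727203892034766688277855244820414464, .ofNat 0, .ofNat 0, .ofNat 13916060363414341562360985350895089638210273280, .ofNat 160962997012033797550010086834111281889280, .ofNat 0, .ofNat 0, .ofNat 0, .ofNat 96956444429130990044963411577607982940160, .ofNat 0, .ofNat 0, .ofNat 34228872748086496993709034592703740143349006336, .ofNat 24754352073082194327440448395368925757440, .ofNat 0⟩)
    (by decide +kernel)
theorem L02744 : Good (Phi V5.P V5.D 1 1) ⟨5, 26, 3, 2, 3, 7, 2, 2, 4, 4⟩ :=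
  leafX_sound T5.ok_pp T5.Ypp.bz_eq (w := 228) (c := ⟨⟨.negSucc 2816, .negSucc 40, .negSucc 172, .ofNat 526, .negSucc 651, .ofNat 407⟩, ⟨.negSucc 1015, .negSucc 23, .negSucc 368, .ofNat 388, .negSucc 307, .ofNat 155⟩, ⟨.ofNat 1997, .negSucc 22, .negSucc 144, .negSucc 59, .ofNat 670, .negSucc 158⟩, ⟨.negSucc 4660, .negSucc 68, .negSucc 88, .negSucc 96, .negSucc 977, .ofNat 857⟩, ⟨.ofNat 822, .ofNat 287, .negSucc 536, .ofNat 1938, .negSucc 52, .negSucc 487⟩, .ofNat 664, .negSucc 682, .ofNat 0, .negSucc 682, .ofNat 1594, .ofNat 0, .ofNat 128, .ofNat 207, .ofNat 26, .ofNat 0, .ofNat 212, .ofNat 24, .ofNat 0, .ofNat 0, .ofNat 406, .ofNat 1387, .ofNat 0, .ofNat 408422913114587310675546161832188506932248576, .ofNat 2615387510606907607405745321880699535360, .ofNat 0, .ofNat 0, .ofNat 8056112384293654478095189899172068331509252096, .ofNat 46308588682313715634383865623241151217664, .ofNat 0, .ofNat 0, .ofNat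 0, .ofNat 82438013060148069955401093998785725464576, .ofNat 0, .ofNat 0, .ofNat 32823186525464648658994117651255692103946076160, .ofNat 34028876581200606652773551154259292061696, .ofNat 0⟩)
    (by decide +kernel)
theorem L02745 : Good (Phi V5.P V5.D 1 1) ⟨5, 26, 3, 3, 3, 6, 2, 2, 5, 8⟩ :=
  leafX_sound T5.ok_pp T5.Ypp.bz_eq (w := 232) (c := ⟨⟨.negSucc 3194, .negSucc 132, .negSucc 11, .ofNat 204, .negSucc 620, .ofNat 252⟩, ⟨.negSucc 1505, .negSucc 141, .negSucc 204, .ofNat 127, .negSucc 336, .ofNat 121⟩, ⟨.ofNat 2163, .ofNat 31, .ofNat 64, .negSucc 248, .ofNat 720, .negSucc 167⟩, ⟨.negSucc 4852, .negSucc 14, .ofNat 9, .ofNat 20, .negSucc 798, .ofNat 497⟩, ⟨.negSucc 147, .negSucc 11, .negSucc 49, .ofNat 566, .negSucc 277, .negSucc 226⟩, .ofNat 348, .negSucc 227, .ofNat 0, .negSucc 227, .ofNat 639, .ofNat 0, .ofNat 130, .ofNat 118, .negSucc 31, .ofNat 0, .ofNat 128, .ofNat 1, .ofNat 0, .ofNat 0,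 .ofNat 217, .ofNat 939, .ofNat 0, .ofNat 0, .ofNat 0, .ofNat 0, .ofNat 0, .ofNat 0, .ofNat 0, .ofNat 0, .ofNat 0, .ofNat 0, .ofNat 0, .ofNat 0, .ofNat 0, .ofNat 58255488945532167312822962285397861076830257152, .ofNat 56113184424649392154763900273538730295296, .ofNat 0⟩)
    (by decide +kernel)
theorem L02746 : Good (Phi V5.P V5.D 1 1) ⟨5, 26, 3, 3, 3, 7, 2, 2, 5, 8⟩ :=
  leafX_sound T5.ok_pp T5.Ypp.bz_eq (w := 233) (c := ⟨⟨.negSucc 2995, .negSucc 77, .negSucc 13, .ofNat 565, .negSucc 661, .ofNat 195⟩, ⟨.negSucc 1374, .negSucc 44, .negSucc 277, .ofNat 387, .negSucc 344, .ofNat 82⟩, ⟨.ofNat 1875, .ofNat 48, .ofNat 11, .negSucc 87, .ofNat 700, .negSucc 90⟩, ⟨.negSucc 4726, .negSucc 23, .negSucc 78, .negSucc 188, .negSucc 1022, .ofNat 504⟩, ⟨.ofNat 322, .ofNat 91, .negSucc 42, .ofNat 2034, .ofNat 27, .negSucc 402⟩, .ofNat 873, .negSucc 1075, .ofNat 0, .negSucc 1075, .ofNat 2248, .ofNat 0, .ofNat 128,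 .ofNat 245, .negSucc 19, .ofNat 0, .ofNat 184, .ofNat 3, .ofNat 0, .ofNat 0, .ofNat 435, .ofNat 2141, .ofNat 0, .ofNat 0, .ofNat 124867384523134447776318085327036927180800, .ofNat 0, .ofNat 0, .ofNat 401089204778532629552407588835128254128166273024, .ofNat 2578465034651614263354363436407547616034816, .ofNat 0, .ofNat 0, .ofNat 398629281461608787437868709628345888109345374208, .ofNat 4012375069956366695342739407894554211254272, .ofNat 0, .ofNat 0, .ofNat 353869859185163021281543876265719888099336519680, .ofNat 0, .ofNat 0⟩)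
    (by decide +kernel)
theorem L02747 : Good (Phi V5.P V5.D 1 1) ⟨5, 26, 3, 3, 3, 6, 2, 2, 5, 9⟩ :=
  leafX_sound T5.ok_pp T5.Ypp.bz_eq (w := 231) (c := ⟨⟨.negSucc 2953, .negSucc 115, .negSucc 5, .ofNat 197, .negSucc 562, .ofNat 198⟩, ⟨.negSucc 1401, .negSucc 135, .negSucc 173, .ofNat 123, .negSucc 307, .ofNat 93⟩, ⟨.ofNat 2023, .ofNat 8, .ofNat 38, .negSucc 236, .ofNat 635, .negSucc 168⟩, ⟨.negSucc 4417, .negSucc 16, .ofNat 48, .ofNat 58, .negSucc 665, .ofNat 379⟩, ⟨.negSucc 286, .ofNat 19, .negSucc 90, .ofNat 466, .negSucc 359, .negSucc 148⟩, .ofNat 163, .negSucc 44, .ofNat 0, .negSucc 44, .ofNat 222, .ofNat 0, .ofNat 128, .ofNat 58, .negSucc 31, .ofNat 0, .ofNat 170, .ofNat 20, .ofNat 0, .ofNat 0, .ofNat 202, .ofNat 656, .ofNat 0, .ofNat 0, .ofNat 0, .ofNat 0, .ofNat 0, .ofNat 0, .ofNat 0, .ofNat 0, .ofNat 0, .ofNat 0, .ofNat 0, .ofNat 0, .ofNat 0, .ofNat 60427799926558589997779858566293767731753779200,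 .ofNat 0, .ofNat 0⟩)
    (by decide +kernel)
theorem L02748 : Good (Phi V5.P V5.D 1 1) ⟨5, 26, 3, 3, 3, 7, 2, 2, 5, 9⟩ :=
  leafX_sound T5.ok_pp T5.Ypp.bz_eq (w := 233) (c := ⟨⟨.negSucc 2746, .negSucc 100, .negSucc 5, .ofNat 365, .negSucc 606, .ofNat 185⟩, ⟨.negSucc 1268, .negSucc 102, .negSucc 203, .ofNat 247, .negSucc 322, .ofNat 86⟩, ⟨.ofNat 1787, .ofNat 6, .ofNat 29, .negSucc 160, .ofNat 650, .negSucc 140⟩, ⟨.negSucc 4342, .negSucc 12, .ofNat 16, .negSucc 49, .negSucc 777, .ofNat 393⟩, ⟨.ofNat 231, .ofNat 25, .negSucc 95, .ofNat 1144, .negSucc 251, .negSucc 225⟩, .ofNat 345, .negSucc 222, .ofNat 0, .negSucc 222, .ofNat 633, .ofNat 0, .ofNat 128, .ofNat 135, .ofNat 37, .ofNat 0, .ofNat 187, .ofNat 42, .ofNat 0, .ofNat 0, .ofNat 390, .ofNat 2610, .ofNat 0, .ofNat 20334572445676520668121388753979910475558682624, .ofNat 0, .ofNat 0, .ofNat 0, .ofNat 504713543358624274283892549774493048722985844736,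 .ofNat 254770733938757758728231055543400220590080, .ofNat 0, .ofNat 0, .ofNat 2204424515255393833960539380298236586780816048128, .ofNat 1195884605089784978462096029655338881908736, .ofNat 0, .ofNat 0, .ofNat 1009969775928061219374105290379157888943188344832, .ofNat 530680023455736407573790507816121517735936, .ofNat 0⟩)
    (by decide +kernel)
theorem L02749 : Good (Phi V5.P V5.D 1 1) ⟨5, 27, 3, 2, 1, 1, 2, 2, 4, 4⟩ :=
  out_sound (S := T5.ds_pp) T5.ok_pp (w := 57) (j := 3) (by decide +kernel)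
theorem L02750 : Good (Phi V5.P V5.D 1 1) ⟨6, 54, 3, 3, 2, 2, 2, 2, 4, 4⟩ :=
  leafX_sound T5.ok_pp T5.Ypp.bz_eq (w := 219) (c := ⟨⟨.negSucc 2992, .negSucc 59, .negSucc 182, .negSucc 169, .negSucc 565, .ofNat 395⟩, ⟨.negSucc 1498, .negSucc 80, .negSucc 265, .negSucc 96, .negSucc 327, .ofNat 213⟩, ⟨.ofNat 2377, .ofNat 28, .ofNat 154, .negSucc 244, .ofNat 622, .negSucc 367⟩, ⟨.negSucc 4387, .ofNat 1, .negSucc 191, .negSucc 191, .negSucc 657, .ofNat 663⟩, ⟨.negSucc 201, .ofNat 2, .negSucc 54, .negSucc 106, .negSucc 320, .negSucc 142⟩, .ofNat 2176, .negSucc 3246, .ofNat 0, .negSucc 3246, .ofNat 5867, .ofNat 0, .ofNat 128, .ofNat 572, .negSucc 104, .ofNat 0, .ofNat 372, .negSucc 52, .ofNat 0, .ofNat 0, .ofNat 645, .ofNat 1406, .ofNat 0, .ofNat 0, .ofNat 40685359355578525472350763162271744, .ofNat 0, .ofNat 0, .ofNat 0, .ofNat 17727485094261626790888731793315332096, .ofNat 0, .ofNat 0, .ofNat 0, .ofNat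 9774093767984319789057756218368458752, .ofNat 0, .ofNat 0, .ofNat 170791231057714948715125807233042938331136000, .ofNat 2497325039447261778950316870361677824, .ofNat 0⟩)
    (by decide +kernel)
theorem L02751 : Good (Phi V5.P V5.D 1 1) ⟨6, 54, 4, 6, 2, 3, 2, 2, 4, 4⟩ :=
  out_sound (S := T5.ds_pp) T5.ok_pp (w := 65) (j := 3) (by decide +kernel)
theorem L02752 : Good (Phi V5.P V5.D 1 1) ⟨6, 54, 4, 7, 3, 6, 2, 2, 4, 4⟩ :=
  leafX_sound T5.ok_pp T5.Ypp.bz_eq (w := 235) (c := ⟨⟨.negSucc 3310, .negSucc 60, .negSucc 25, .ofNat 231, .negSucc 650, .ofNat 467⟩, ⟨.negSucc 1744, .negSucc 72, .negSucc 107, .ofNat 152, .negSucc 373, .ofNat 241⟩, ⟨.ofNat 2223, .ofNat 10, .ofNat 58, .negSucc 266, .ofNat 707, .negSucc 383⟩, ⟨.negSucc 4869, .negSucc 33, .ofNat 7, .ofNat 47, .negSucc 777, .ofNat 912⟩, ⟨.negSucc 94, .ofNat 57, .negSucc 80, .ofNat 535, .negSucc 335, .negSucc 398⟩, .ofNat 1235, .negSucc 1646, .ofNat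 0, .negSucc 1646, .ofNat 3111, .ofNat 0, .ofNat 128, .ofNat 506, .negSucc 49, .ofNat 0, .ofNat 350, .negSucc 17, .ofNat 0, .ofNat 0, .ofNat 590, .ofNat 933, .ofNat 0, .ofNat 0, .ofNat 0, .ofNat 0, .ofNat 0, .ofNat 0, .ofNat 119990012013088404746857537005098857660416, .ofNat 0, .ofNat 0, .ofNat 0, .ofNat 0, .ofNat 0, .ofNat 0, .ofNat 8563456446118500475414794867560613211720480980992, .ofNat 19587933226900229658660032143256438439936, .ofNat 0⟩)
    (by decide +kernel)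
theorem L02753 : Good (Phi V5.P V5.D 1 1) ⟨6, 54, 4, 7, 3, 7, 2, 2, 4, 4⟩ :=
  leafX_sound T5.ok_pp T5.Ypp.bz_eq (w := 236) (c := ⟨⟨.negSucc 3098, .negSucc 77, .ofNat 11, .ofNat 606, .negSucc 745, .ofNat 398⟩, ⟨.negSucc 1578, .negSucc 50, .negSucc 127, .ofNat 435, .negSucc 414, .ofNat 189⟩, ⟨.ofNat 1948, .ofNat 0, .ofNat 7, .negSucc 80, .ofNat 676, .negSucc 276⟩, ⟨.negSucc 4686, .negSucc 0, .negSucc 94, .negSucc 356, .negSucc 1092, .ofNat 925⟩, ⟨.ofNat 228, .negSucc 92, .ofNat 114, .ofNat 2268, .negSucc 10, .negSucc 612⟩, .ofNat 2015, .negSucc 2971, .ofNat 0, .negSucc 2971, .ofNat 5396, .ofNat 0, .ofNat 128, .ofNat 483, .negSucc 25, .ofNat 0, .ofNat 334, .ofNat 1, .ofNat 0, .ofNat 0, .ofNat 807, .ofNat 2496, .ofNat 0, .ofNat 136511006937653202497259339046979106451570556928, .ofNat 2165633094164340695777478146672839098368, .ofNat 0, .ofNat 0, .ofNat 8360142201502763073988425458028830778133221212160,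 .ofNat 556786032748629764678465730278013058154496, .ofNat 0, .ofNat 0, .ofNat 20110776625011561821376108592236516653646001209344, .ofNat 268680710056696739447449583024145990418432, .ofNat 0, .ofNat 0, .ofNat 30189335361991052239388409564155059378213129027584, .ofNat 95247436367377328868398165971113716219904, .ofNat 0⟩)
    (by decide +kernel)
theorem L02754 : Good (Phi V5.P V5.D 1 1) ⟨6, 55, 3, 3, 1, 1, 2, 2, 4, 4⟩ :=
  out_sound (S := T5.ds_pp) T5.ok_pp (w := 63) (j := 3) (by decide +kernel)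
theorem L02755 : Good (Phi V5.P V5.D 1 1) ⟨4, 13, 2, 1, 2, 2, 3, 6, 4, 4⟩ :=
  leafX_sound T5.ok_pp T5.Ypp.bz_eq (w := 210) (c := ⟨⟨.negSucc 3529, .negSucc 445, .ofNat 24, .negSucc 359, .negSucc 565, .ofNat 414⟩, ⟨.negSucc 1508, .negSucc 473, .negSucc 335, .negSucc 202, .negSucc 314, .ofNat 205⟩, ⟨.ofNat 3044, .ofNat 150, .ofNat 13, .negSucc 80, .ofNat 317, .negSucc 496⟩, ⟨.negSucc 5270, .negSucc 211, .ofNat 133, .negSucc 422, .negSucc 676, .ofNat 749⟩, ⟨.negSucc 523, .negSucc 25, .ofNat 8, .negSucc 227, .negSucc 319, .negSucc 244⟩, .ofNat 642, .negSucc 677, .ofNat 0, .negSucc 677, .ofNat 1501, .ofNat 0, .ofNat 128, .ofNat 404, .negSucc 89, .ofNat 0, .ofNat 299, .negSucc 36, .ofNat 0, .ofNat 0, .ofNat 474, .ofNat 422, .ofNat 0, .ofNat 0, .ofNat 1100306916733560752502151498830970880, .ofNat 0, .ofNat 0, .ofNat 188503691266825371281827984259669634842624, .ofNat 50710867901148880691991462575203155968,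 .ofNat 0, .ofNat 0, .ofNat 0, .ofNat 0, .ofNat 0, .ofNat 0, .ofNat 385899306871103844956396551204531318292480, .ofNat 13378825563703056432366109408544948224, .ofNat 0⟩)
    (by decide +kernel)
theorem L02756 : Good (Phi V5.P V5.D 1 1) ⟨4, 13, 2, 1, 2, 2, 3, 7, 4, 4⟩ :=
  leafX_sound T5.ok_pp T5.Ypp.bz_eq (w := 211) (c := ⟨⟨.negSucc 4065, .negSucc 584, .ofNat 7, .negSucc 759, .negSucc 1147, .ofNat 456⟩, ⟨.negSucc 1780, .negSucc 599, .negSucc 360, .negSucc 410, .negSucc 639, .ofNat 234⟩, ⟨.ofNat 3481, .ofNat 373, .negSucc 181, .ofNat 124, .ofNat 578, .negSucc 613⟩, ⟨.negSucc 5931, .negSucc 334, .ofNat 125, .negSucc 871, .negSucc 1438, .ofNat 809⟩, ⟨.negSucc 893, .negSucc 53, .ofNat 34, .negSucc 543, .negSucc 534, .negSucc 236⟩, .ofNat 347, .negSucc 225, .ofNat 0, .negSucc 225, .ofNat 633, .ofNat 0, .ofNat 128, .ofNat 195, .negSucc 91, .ofNat 0, .ofNat 192, .negSucc 30, .ofNat 0, .ofNat 0, .ofNat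 291, .ofNat 571, .ofNat 0, .ofNat 48925415177120997853463282686399919161344, .ofNat 1054844201676769914180615041309474816, .ofNat 0, .ofNat 0, .ofNat 412170340761031235096175934864408463802368, .ofNat 6108385185882347473870105400120967168, .ofNat 0, .ofNat 0, .ofNat 578103068815068731346397374550166799908864, .ofNat 0, .ofNat 0, .ofNat 0, .ofNat 706440715729052718109244297619302378373120, .ofNat 5479141169099213968231704376660459520, .ofNat 0⟩)
    (by decide +kernel)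
theorem L02757 : Good (Phi V5.P V5.D 1 1) ⟨4, 13, 2, 1, 2, 3, 2, 3, 4, 4⟩ :=
  leafX_sound T5.ok_pp T5.Ypp.bz_eq (w := 207) (c := ⟨⟨.negSucc 3829, .negSucc 426, .ofNat 17, .ofNat 288, .negSucc 708, .ofNat 690⟩, ⟨.negSucc 1627, .negSucc 451, .negSucc 391, .ofNat 211, .negSucc 418, .ofNat 333⟩, ⟨.ofNat 2838, .ofNat 86, .ofNat 140, .negSucc 518, .ofNat 671, .negSucc 593⟩, ⟨.negSucc 5705, .negSucc 144, .ofNat 77, .ofNat 32, .negSucc 830, .ofNat 1334⟩, ⟨.negSucc 516, .negSucc 65, .ofNat 29, .ofNat 773, .negSucc 449, .negSucc 560⟩, .ofNat 346, .negSucc 223, .ofNat 0, .negSucc 223, .ofNat 633, .ofNat 0, .ofNat 128, .ofNat 127, .negSucc 101, .ofNat 0, .ofNat 130, .negSucc 2, .ofNat 0, .ofNat 0, .ofNat 554, .ofNat 1338, .ofNat 0, .ofNat 14139390008852419789675050459431283195904, .ofNat 154806768146316965366307538193088512, .ofNat 0, .ofNat 0, .ofNat 161477675103491822163108386117108736458752, .ofNat 0,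 .ofNat 0, .ofNat 0, .ofNat 343765284901872293628190344860691909836800, .ofNat 2545756994983975674077316856122703872, .ofNat 0, .ofNat 0, .ofNat 273231283677459793370645549779567419326464, .ofNat 0, .ofNat 0⟩)
    (by decide +kernel)
theorem L02758 : Good (Phi V5.P V5.D 1 1) ⟨4, 13, 2, 1, 2, 2, 2, 2, 4, 5⟩ :=
  leafX_sound T5.ok_pp T5.Ypp.bz_eq (w := 205) (c := ⟨⟨.negSucc 2662, .negSucc 233, .negSucc 55, .negSucc 71, .negSucc 462, .ofNat 262⟩, ⟨.negSucc 1126, .negSucc 294, .negSucc 308, .negSucc 43, .negSucc 257, .ofNat 134⟩, ⟨.ofNat 2248, .ofNat 95, .negSucc 65, .negSucc 330, .ofNat 432, .negSucc 314⟩, ⟨.negSucc 3993, .negSucc 15, .ofNat 4, .negSucc 41, .negSucc 525, .ofNat 424⟩, ⟨.negSucc 338, .ofNat 0, .negSucc 44, .negSucc 142, .negSucc 326, .negSucc 53⟩, .ofNat 348, .negSucc 228, .ofNat 0, .negSucc 228, .ofNat 636, .ofNat 0, .ofNat 128, .ofNat 204, .negSucc 34, .ofNat 0, .ofNat 219, .negSucc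 8, .ofNat 0, .ofNat 0, .ofNat 337, .ofNat 318, .ofNat 0, .ofNat 0, .ofNat 21140555701307271011106020894179328, .ofNat 0, .ofNat 0, .ofNat 0, .ofNat 1622420293843585247415705126022676480, .ofNat 0, .ofNat 0, .ofNat 0, .ofNat 0, .ofNat 0, .ofNat 0, .ofNat 39196261919496331723754430890819387916288, .ofNat 115938748202771783115631592558559232, .ofNat 0⟩)
    (by decide +kernel)
theorem L02759 : Good (Phi V5.P V5.D 1 1) ⟨4, 13, 2, 1, 2, 3, 2, 2, 4, 5⟩ :=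
  leafX_sound T5.ok_pp T5.Ypp.bz_eq (w := 206) (c := ⟨⟨.negSucc 2733, .negSucc 232, .negSucc 23, .ofNat 280, .negSucc 506, .ofNat 326⟩, ⟨.negSucc 1159, .negSucc 287, .negSucc 300, .ofNat 166, .negSucc 284, .ofNat 161⟩, ⟨.ofNat 1879, .ofNat 16, .ofNat 0, .negSucc 502, .ofNat 585, .negSucc 360⟩, ⟨.negSucc 4116, .negSucc 13, .ofNat 100, .ofNat 167, .negSucc 564, .ofNat 564⟩, ⟨.negSucc 297, .negSucc 8, .negSucc 152, .ofNat 505, .negSucc 378, .negSucc 136⟩, .ofNat 349, .negSucc 229, .ofNat 0, .negSucc 229, .ofNat 639, .ofNat 0, .ofNat 128, .ofNat 174, .negSucc 14, .ofNat 0, .ofNat 199, .ofNat 3, .ofNat 0, .ofNat 0, .ofNat 266, .ofNat 682, .ofNat 0, .ofNat 2902780776524595207143444156262192775168, .ofNat 23030332717538764854058989666697216, .ofNat 0, .ofNat 0, .ofNat 63282732917140530556010437698152197783552, .ofNat 489295841592338794323602655955386368, .ofNat 0, .ofNat 0, .ofNat 266015557099964817571647826259465583198208,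 .ofNat 1513395497858997699353935692802555904, .ofNat 0, .ofNat 0, .ofNat 86532650313920377036631922938285234585600, .ofNat 211489189479202427536923329306820608, .ofNat 0⟩)
    (by decide +kernel)
theorem L02760 : Good (Phi V5.P V5.D 1 1) ⟨4, 13, 2, 1, 2, 2, 3, 6, 4, 5⟩ :=
  leafX_sound T5.ok_pp T5.Ypp.bz_eq (w := 209) (c := ⟨⟨.negSucc 3140, .negSucc 385, .ofNat 4, .negSucc 348, .negSucc 470, .ofNat 277⟩, ⟨.negSucc 1381, .negSucc 441, .negSucc 265, .negSucc 203, .negSucc 260, .ofNat 148⟩, ⟨.ofNat 2787, .ofNat 266, .negSucc 265, .negSucc 122, .ofNat 167, .negSucc 457⟩, ⟨.negSucc 4578, .negSucc 135, .ofNat 91, .negSucc 287, .negSucc 543, .ofNat 437⟩, ⟨.negSucc 686, .negSucc 37, .ofNat 4, .negSucc 456, .negSucc 327, .negSucc 43⟩, .ofNat 349, .negSucc 229, .ofNat 0, .negSucc 229, .ofNat 637, .ofNat 0, .ofNat 245, .ofNat 123, .negSucc 42, .ofNat 0, .ofNat 128, .negSucc 16, .ofNat 0, .ofNat 0, .ofNat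 313, .ofNat 301, .ofNat 0, .ofNat 0, .ofNat 954152677554931816099513601426980864, .ofNat 0, .ofNat 0, .ofNat 0, .ofNat 0, .ofNat 0, .ofNat 0, .ofNat 0, .ofNat 30865862126993764736602851046414352384, .ofNat 0, .ofNat 0, .ofNat 338836551888844234114456070148337875025920, .ofNat 8294217538915271577443632853326757888, .ofNat 0⟩)
    (by decide +kernel)
theorem L02761 : Good (Phi V5.P V5.D 1 1) ⟨4, 13, 2, 1, 2, 2, 3, 7, 4, 5⟩ :=
  out_sound (S := T5.ds_pp) T5.ok_pp (w := 32) (j := 2) (by decide +kernel)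
theorem L02762 : Good (Phi V5.P V5.D 1 1) ⟨4, 13, 2, 1, 2, 3, 2, 3, 4, 5⟩ :=
  out_sound (S := T5.ds_pp) T5.ok_pp (w := 30) (j := 2) (by decide +kernel)
theorem L02763 : Good (Phi V5.P V5.D 1 1) ⟨3, 6, 2, 1, 2, 2, 2, 2, 3, 3⟩ :=
  leafX_sound T5.ok_pp T5.Ypp.bz_eq (w := 196) (c := ⟨⟨.negSucc 2249, .negSucc 487, .ofNat 18, .negSucc 46, .negSucc 378, .ofNat 398⟩, ⟨.negSucc 818, .negSucc 542, .negSucc 231, .negSucc 18, .negSucc 191, .ofNat 197⟩, ⟨.ofNat 1985, .ofNat 280, .negSucc 256, .negSucc 338, .ofNat 297, .negSucc 659⟩, ⟨.negSucc 3604, .negSucc 109, .ofNat 92, .negSucc 14, .negSucc 467, .ofNat 597⟩, ⟨.negSucc 411, .negSucc 59, .ofNat 11, .negSucc 164, .negSucc 267, .ofNat 18⟩, .ofNat 336, .negSucc 202, .ofNat 0, .negSucc 202, .ofNat 646, .ofNat 0, .ofNat 128, .ofNat 137, .negSucc 24, .ofNat 0, .ofNat 162, .negSucc 9, .ofNat 0, .ofNat 0, .ofNat 531, .ofNat 501, .ofNat 0, .ofNat 0, .ofNat 0, .ofNat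 0, .ofNat 0, .ofNat 495617080158805799637406209443526344704, .ofNat 44857519810851841046906033768759296, .ofNat 0, .ofNat 0, .ofNat 0, .ofNat 0, .ofNat 0, .ofNat 0, .ofNat 1342976212688874032372825444339079446528, .ofNat 31987101937967082561856918110863360, .ofNat 0⟩)
    (by decide +kernel)
theorem L02764 : Good (Phi V5.P V5.D 1 1) ⟨3, 6, 2, 1, 2, 2, 2, 3, 3, 3⟩ :=
  leafX_sound T5.ok_pp T5.Ypp.bz_eq (w := 198) (c := ⟨⟨.negSucc 2584, .negSucc 617, .negSucc 18, .negSucc 276, .negSucc 749, .ofNat 407⟩, ⟨.negSucc 937, .negSucc 676, .negSucc 278, .negSucc 117, .negSucc 400, .ofNat 232⟩, ⟨.ofNat 2174, .ofNat 497, .negSucc 361, .negSucc 156, .ofNat 160, .negSucc 796⟩, ⟨.negSucc 4074, .negSucc 190, .ofNat 73, .negSucc 246, .negSucc 920, .ofNat 610⟩, ⟨.negSucc 679, .negSucc 118, .ofNat 25, .negSucc 455, .negSucc 484, .ofNat 26⟩, .ofNat 163, .negSucc 39, .ofNat 0, .negSucc 39, .ofNat 225, .ofNat 0, .ofNat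 128, .ofNat 78, .negSucc 33, .ofNat 0, .ofNat 197, .negSucc 14, .ofNat 0, .ofNat 0, .ofNat 265, .ofNat 1307, .ofNat 0, .ofNat 80212767234742827653664420571757150208, .ofNat 28968114625625534998856891373715456, .ofNat 0, .ofNat 0, .ofNat 2233717237354422603301656129515173183488, .ofNat 0, .ofNat 0, .ofNat 0, .ofNat 2602739013230746872505149374193542889472, .ofNat 270296819245345632602434680549015552, .ofNat 0, .ofNat 0, .ofNat 2479457154433004983125300752774206586880, .ofNat 25723233895470388235616192674398208, .ofNat 0⟩)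
    (by decide +kernel)
theorem L02765 : Good (Phi V5.P V5.D 1 1) ⟨3, 6, 2, 1, 2, 3, 1, 1, 3, 3⟩ :=
  out_sound (S := T5.ds_pp) T5.ok_pp (w := 26) (j := 2) (by decide +kernel)
theorem L02766 : Good (Phi V5.P V5.D 1 1) ⟨3, 7, 2, 1, 1, 1, 1, 1, 2, 1⟩ :=
  out_sound (S := T5.ds_pp) T5.ok_pp (w := 43) (j := 3) (by decide +kernel)
theorem L02767 : Good (Phi V5.P V5.D 1 1) ⟨1, 1, 2, 1, 4, 8, 3, 4, 4, 8⟩ :=
  out_sound (S := T5.ds_pp) T5.ok_pp (w := 29) (j := 1) (by decide +kernel)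
theorem L02768 : Good (Phi V5.P V5.D 1 1) ⟨1, 1, 2, 1, 4, 8, 3, 5, 4, 8⟩ :=
  out_sound (S := T5.ds_pp) T5.ok_pp (w := 36) (j := 2) (by decide +kernel)
theorem L02769 : Good (Phi V5.P V5.D 1 1) ⟨1, 1, 2, 1, 4, 8, 2, 2, 4, 9⟩ :=
  out_sound (S := T5.ds_pp) T5.ok_pp (w := 28) (j := 1) (by decide +kernel)
theorem L02770 : Good (Phi V5.P V5.D 1 1) ⟨1, 1, 2, 1, 4, 9, 2, 2, 3, 4⟩ :=
  out_sound (S := T5.ds_pp) T5.ok_pp (w := 32) (j := 2) (by decide +kernel)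
theorem L02771 : Good (Phi V5.P V5.D 1 1) ⟨1, 1, 2, 1, 3, 4, 2, 3, 3, 4⟩ :=
  out_sound (S := T5.ds_pp) T5.ok_pp (w := 30) (j := 2) (by decide +kernel)
theorem L02772 : Good (Phi V5.P V5.D 1 1) ⟨1, 1, 2, 1, 3, 4, 1, 1, 3, 5⟩ :=
  out_sound (S := T5.ds_pp) T5.ok_pp (w := 28) (j := 2) (by decide +kernel)
theorem L02773 : Good (Phi V5.P V5.D 1 1) ⟨1, 1, 2, 1, 3, 5, 1, 1, 2, 2⟩ :=
  out_sound (S := T5.ds_pp) T5.ok_pp (w := 26) (j := 2) (by decide +kernel)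
theorem L02774 : Good (Phi V5.P V5.D 1 1) ⟨1, 1, 2, 1, 2, 2, 1, 1, 2, 3⟩ :=
  out_sound (S := T5.ds_pp) T5.ok_pp (w := 24) (j := 2) (by decide +kernel)
theorem L02775 : Good (Phi V5.P V5.D 1 1) ⟨1, 1, 2, 1, 2, 3, 1, 1, 1, 1⟩ :=
  out_sound (S := T5.ds_pp) T5.ok_pp (w := 22) (j := 2) (by decide +kernel)
theorem L02776 : Good (Phi V5.P V5.D 1 1) ⟨2, 2, 1, 1, 2, 0, 2, 0, 5, 0⟩ :=
  out_sound (S := T5.ds_pp) T5.ok_pp (w := 35) (j := 3) (by decide +kernel)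
theorem L02777 : Good (Phi V5.P V5.D 1 1) ⟨4, 12, 2, 2, 2, 0, 2, 0, 5, 0⟩ :=
  out_sound (S := T5.ds_pp) T5.ok_pp (w := 49) (j := 3) (by decide +kernel)
theorem L02778 : Good (Phi V5.P V5.D 1 1) ⟨4, 13, 3, 4, 2, 0, 3, 0, 5, 0⟩ :=
  leafX_sound T5.ok_pp T5.Ypp.bz_eq (w := 219) (c := ⟨⟨.ofNat 1719, .ofNat 634, .negSucc 271, .ofNat 330, .ofNat 792, .negSucc 2293⟩, ⟨.ofNat 934, .ofNat 424, .negSucc 49, .ofNat 190, .ofNat 480, .negSucc 1351⟩, ⟨.negSucc 1749, .negSucc 501, .ofNat 227, .ofNat 8, .negSucc 862, .ofNat 2145⟩, ⟨.ofNat 2790, .ofNat 606, .negSucc 265, .ofNat 660, .ofNat 1176, .negSucc 3529⟩, ⟨.negSucc 328, .ofNat 385, .negSucc 265, .negSucc 302, .negSucc 37, .ofNat 258⟩, .ofNat 757, .negSucc 838, .ofNat 0, .negSucc 838, .ofNat 1637, .ofNat 0, .ofNat 128, .ofNat 320, .negSucc 807, .ofNat 0, .ofNat 244, .negSucc 437, .ofNat 0, .ofNat 0, .ofNat 1230, .ofNat 7242, .ofNat 0, .ofNat 0, .ofNat 0,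 .ofNat 0, .ofNat 0, .ofNat 0, .ofNat 0, .ofNat 0, .ofNat 0, .ofNat 0, .ofNat 31594324883253380666376754988652687261696, .ofNat 0, .ofNat 0, .ofNat 0, .ofNat 0, .ofNat 0⟩)
    (by decide +kernel)
theorem L02779 : Good (Phi V5.P V5.D 1 1) ⟨4, 13, 3, 4, 2, 0, 3, 1, 5, 0⟩ :=
  leafX_sound T5.ok_pp T5.Ypp.bz_eq (w := 221) (c := ⟨⟨.ofNat 3386, .negSucc 732, .ofNat 761, .ofNat 388, .ofNat 422, .negSucc 3207⟩, ⟨.ofNat 1834, .negSucc 282, .ofNat 571, .ofNat 221, .ofNat 255, .negSucc 1861⟩, ⟨.negSucc 3581, .ofNat 1033, .negSucc 951, .ofNat 108, .negSucc 436, .ofNat 2999⟩, ⟨.ofNat 5041, .negSucc 518, .ofNat 595, .ofNat 520, .ofNat 680, .negSucc 5082⟩, ⟨.ofNat 145, .negSucc 1392, .ofNat 952, .ofNat 71, .negSucc 127, .ofNat 698⟩, .ofNat 1566, .negSucc 2153, .ofNat 0, .negSucc 2153, .ofNat 3844, .ofNat 0, .ofNat 128, .ofNat 400, .negSucc 1165, .ofNat 0, .ofNat 270, .negSucc 666, .ofNat 0, .ofNat 0, .ofNat 1615,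 .ofNat 1799, .ofNat 0, .ofNat 0, .ofNat 0, .ofNat 0, .ofNat 0, .ofNat 0, .ofNat 20738160537246894874001647918712474304512, .ofNat 0, .ofNat 0, .ofNat 0, .ofNat 16778523644653803951853447117788300705792, .ofNat 0, .ofNat 0, .ofNat 0, .ofNat 0, .ofNat 0⟩)
    (by decide +kernel)
theorem L02780 : Good (Phi V5.P V5.D 1 1) ⟨4, 13, 3, 5, 2, 0, 2, 0, 5, 0⟩ :=
  out_sound (S := T5.ds_pp) T5.ok_pp (w := 51) (j := 3) (by decide +kernel)
theorem L02781 : Good (Phi V5.P V5.D 1 1) ⟨3, 6, 2, 3, 2, 0, 2, 0, 5, 0⟩ :=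
  out_sound (S := T5.ds_pp) T5.ok_pp (w := 43) (j := 3) (by decide +kernel)
theorem L02782 : Good (Phi V5.P V5.D 1 1) ⟨5, 28, 2, 2, 2, 0, 3, 0, 5, 0⟩ :=
  leafX_sound T5.ok_pp T5.Ypp.bz_eq (w := 220) (c := ⟨⟨.ofNat 2213, .ofNat 384, .negSucc 7, .ofNat 189, .ofNat 822, .negSucc 2623⟩, ⟨.ofNat 1294, .ofNat 280, .ofNat 244, .ofNat 111, .ofNat 537, .negSucc 1716⟩, ⟨.negSucc 2119, .negSucc 310, .negSucc 147, .ofNat 221, .negSucc 846, .ofNat 2475⟩, ⟨.ofNat 3205, .ofNat 518, .negSucc 5, .ofNat 456, .ofNat 1183, .negSucc 3829⟩, ⟨.negSucc 63, .negSucc 53, .negSucc 8, .negSucc 290, .negSucc 11, .ofNat 125⟩, .ofNat 884, .negSucc 997, .ofNat 0, .negSucc 997, .ofNat 1759, .ofNat 0, .ofNat 128, .ofNat 408, .negSucc 1299, .ofNat 0, .ofNat 313, .negSucc 777, .ofNat 0, .ofNat 0, .ofNat 1917, .ofNat 3745, .ofNat 0, .ofNat 0, .ofNat 0, .ofNat 0, .ofNat 0, .ofNat 0, .ofNat 930536162696322661827922303281463820288,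 .ofNat 0, .ofNat 0, .ofNat 0, .ofNat 977614909942062205194818727058234933248, .ofNat 62721464832363601311096890179987195696888414208, .ofNat 0, .ofNat 0, .ofNat 0, .ofNat 0⟩)
    (by decide +kernel)
theorem L02783 : Good (Phi V5.P V5.D 1 1) ⟨5, 29, 2, 2, 2, 0, 3, 0, 5, 0⟩ :=
  out_sound (S := T5.ds_pp) T5.ok_pp (w := 17) (j := 4) (by decide +kernel)
theorem L02784 : Good (Phi V5.P V5.D 1 1) ⟨4, 14, 2, 2, 2, 0, 3, 1, 5, 0⟩ :=
  leafX_sound T5.ok_pp T5.Ypp.bz_eq (w := 217) (c := ⟨⟨.ofNat 4278, .ofNat 1853, .negSucc 1645, .ofNat 308, .ofNat 610, .negSucc 3919⟩, ⟨.ofNat 2481, .ofNat 1010, .negSucc 468, .ofNat 194, .ofNat 400, .negSucc 2542⟩, ⟨.negSucc 4504, .negSucc 2300, .ofNat 2144, .ofNat 159, .negSucc 618, .ofNat 3733⟩, ⟨.ofNat 5714, .ofNat 1418, .negSucc 1215, .ofNat 591, .ofNat 915, .negSucc 5676⟩, ⟨.ofNat 330, .ofNat 913, .negSucc 992, .negSucc 253, .negSucc 84, .ofNat 120⟩, .ofNat 1366, .negSucc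 1625, .ofNat 0, .negSucc 1625, .ofNat 2574, .ofNat 0, .ofNat 128, .ofNat 407, .negSucc 1299, .ofNat 0, .ofNat 322, .negSucc 837, .ofNat 0, .ofNat 0, .ofNat 1670, .ofNat 938, .ofNat 0, .ofNat 0, .ofNat 64068748340721758929728423063856349184, .ofNat 0, .ofNat 0, .ofNat 0, .ofNat 3852685118135915046211958829590616473600, .ofNat 0, .ofNat 0, .ofNat 0, .ofNat 2715271009351534447053236660654183546880, .ofNat 47591052825362290572153191546018159567503884288, .ofNat 0, .ofNat 0, .ofNat 0, .ofNat 168537201955055304352891106895978150468840849408⟩)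
    (by decide +kernel)
theorem L02785 : Good (Phi V5.P V5.D 1 1) ⟨5, 28, 3, 6, 2, 0, 2, 0, 5, 0⟩ :=
  out_sound (S := T5.ds_pp) T5.ok_pp (w := 57) (j := 3) (by decide +kernel)
theorem L02786 : Good (Phi V5.P V5.D 1 1) ⟨5, 29, 3, 6, 2, 0, 2, 0, 5, 0⟩ :=
  out_sound (S := T5.ds_pp) T5.ok_pp (w := 17) (j := 4) (by decide +kernel)
theorem L02787 : Good (Phi V5.P V5.D 1 1) ⟨4, 14, 3, 7, 2, 0, 2, 0, 5, 0⟩ :=
  out_sound (S := T5.ds_pp) T5.ok_pp (w := 51) (j := 3) (by decide +kernel)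
theorem L02788 : Good (Phi V5.P V5.D 1 1) ⟨4, 15, 1, 1, 2, 0, 2, 0, 5, 0⟩ :=
  out_sound (S := T5.ds_pp) T5.ok_pp (w := 15) (j := 4) (by decide +kernel)
theorem L02789 : Good (Phi V5.P V5.D 1 1) ⟨2, 2, 1, 1, 2, 0, 2, 1, 5, 0⟩ :=
  out_sound (S := T5.ds_pp) T5.ok_pp (w := 35) (j := 3) (by decide +kernel)
theorem L02790 : Good (Phi V5.P V5.D 1 1) ⟨4, 12, 1, 1, 2, 0, 2, 1, 5, 0⟩ :=
  out_sound (S := T5.ds_pp) T5.ok_pp (w := 47) (j := 3) (by decide +kernel)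
theorem L02791 : Good (Phi V5.P V5.D 1 1) ⟨4, 13, 2, 2, 2, 0, 2, 1, 5, 0⟩ :=
  leafX_sound T5.ok_pp T5.Ypp.bz_eq (w := 213) (c := ⟨⟨.ofNat 2967, .ofNat 1716, .negSucc 1421, .ofNat 394, .negSucc 897, .negSucc 4308⟩, ⟨.ofNat 1753, .ofNat 876, .negSucc 203, .ofNat 213, .negSucc 538, .negSucc 2546⟩, ⟨.negSucc 2907, .negSucc 1902, .ofNat 1656, .ofNat 170, .ofNat 790, .ofNat 4044⟩, ⟨.ofNat 4691, .ofNat 2404, .negSucc 1783, .ofNat 521, .negSucc 1400, .negSucc 6842⟩, ⟨.negSucc 576, .ofNat 316, .negSucc 1009, .ofNat 109, .ofNat 100, .ofNat 799⟩, .ofNat 746, .negSucc 824, .ofNat 0, .negSucc 824, .ofNat 1624, .ofNat 0, .ofNat 128, .ofNat 290, .negSucc 1464, .ofNat 0, .ofNat 221, .negSucc 788, .ofNat 0, .ofNat 0, .ofNat 1764, .ofNat 390, .ofNat 0, .ofNat 0, .ofNat 2733434026236987450155282034113642496, .ofNat 0, .ofNat 0, .ofNat 0, .ofNat 149595979992380772839854576052331347968, .ofNat 0, .ofNat 0, .ofNat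 0, .ofNat 116805451492931452736417624763721056256, .ofNat 0, .ofNat 0, .ofNat 0, .ofNat 154152385230960254687207742691036102656, .ofNat 0⟩)
    (by decide +kernel)
theorem L02792 : Good (Phi V5.P V5.D 1 1) ⟨4, 13, 2, 3, 2, 0, 2, 1, 5, 0⟩ :=
  out_sound (S := T5.ds_pp) T5.ok_pp (w := 49) (j := 3) (by decide +kernel)
theorem L02793 : Good (Phi V5.P V5.D 1 1) ⟨5, 28, 3, 4, 2, 0, 2, 1, 6, 0⟩ :=
  leafX_sound T5.ok_pp T5.Ypp.bz_eq (w := 228) (c := ⟨⟨.ofNat 5713, .ofNat 2132, .negSucc 1118, .negSucc 283, .negSucc 1161, .negSucc 2788⟩, ⟨.ofNat 3403, .ofNat 1369, .negSucc 472, .negSucc 183, .negSucc 736, .negSucc 1766⟩, ⟨.negSucc 6057, .negSucc 2592, .ofNat 1536, .ofNat 885, .ofNat 1080, .ofNat 2580⟩, ⟨.ofNat 7767, .ofNat 2198, .negSucc 876, .negSucc 309, .negSucc 1773, .negSucc 4182⟩, ⟨.ofNat 200, .ofNat 469, .negSucc 549, .negSucc 162, .ofNat 177, .ofNat 290⟩, .ofNat 1468, .negSucc 1826, .ofNat 0, .negSucc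 1826, .ofNat 3000, .ofNat 0, .ofNat 128, .ofNat 411, .negSucc 2834, .ofNat 0, .ofNat 320, .negSucc 1735, .ofNat 0, .ofNat 0, .ofNat 3230, .ofNat 518, .ofNat 0, .ofNat 0, .ofNat 674516189986829478286251627102066442240, .ofNat 0, .ofNat 0, .ofNat 0, .ofNat 10730891368883699243386739120537407062016, .ofNat 0, .ofNat 0, .ofNat 0, .ofNat 30919725492763043753587194242631152435200, .ofNat 0, .ofNat 0, .ofNat 0, .ofNat 0, .ofNat 0⟩)
    (by decide +kernel)
theorem L02794 : Good (Phi V5.P V5.D 1 1) ⟨5, 28, 4, 10, 3, 0, 2, 1, 6, 0⟩ :=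
  leafX_sound T5.ok_pp T5.Ypp.bz_eq (w := 247) (c := ⟨⟨.ofNat 6098, .negSucc 35, .ofNat 420, .negSucc 651, .negSucc 1286, .negSucc 4144⟩, ⟨.ofNat 3946, .negSucc 18, .ofNat 435, .negSucc 421, .negSucc 837, .negSucc 2735⟩, ⟨.negSucc 6231, .ofNat 224, .negSucc 517, .ofNat 919, .ofNat 1248, .ofNat 4073⟩, ⟨.ofNat 8815, .ofNat 101, .ofNat 521, .negSucc 667, .negSucc 1736, .negSucc 6590⟩, ⟨.negSucc 278, .negSucc 28, .negSucc 138, .negSucc 383, .negSucc 149, .ofNat 1069⟩, .ofNat 2422, .negSucc 3307, .ofNat 0, .negSucc 3307, .ofNat 5271, .ofNat 0, .ofNat 128, .ofNat 619, .negSucc 4218, .ofNat 0, .ofNat 432, .negSucc 2701, .ofNat 0, .ofNat 0, .ofNat 4797, .ofNat 701, .ofNat 0, .ofNat 0, .ofNat 37234486019178170607052286853813902432534528, .ofNat 23371574348784446621484816922489649475610908859301888, .ofNat 0, .ofNat 0, .ofNat 3737823334145419358322027755307626625211826176, .ofNat 714786791652216576254348086905198348462751317774827520,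 .ofNat 0, .ofNat 0, .ofNat 1539971671481871801725139568739002862381563904, .ofNat 919773781904763990556442434854528503553632022049062912, .ofNat 0, .ofNat 0, .ofNat 4444999536628387773070669691933922372404379648, .ofNat 10236075892802821776836534963712809764887582126951628800⟩)
    (by decide +kernel)
theorem L02795 : Good (Phi V5.P V5.D 1 1) ⟨5, 28, 4, 10, 3, 1, 2, 1, 6, 0⟩ :=
  leafX_sound T5.ok_pp T5.Ypp.bz_eq (w := 247) (c := ⟨⟨.ofNat 4831, .ofNat 80, .ofNat 325, .negSucc 64, .negSucc 545, .negSucc 3077⟩, ⟨.ofNat 3131, .negSucc 27, .ofNat 416, .negSucc 47, .negSucc 357, .negSucc 2020⟩, ⟨.negSucc 4567, .negSucc 168, .negSucc 230, .ofNat 462, .ofNat 463, .ofNat 2816⟩, ⟨.ofNat 7125, .ofNat 159, .ofNat 301, .negSucc 152, .negSucc 918, .negSucc 4426⟩, ⟨.negSucc 417, .ofNat 33, .ofNat 32, .ofNat 92, .ofNat 215, .ofNat 89⟩, .ofNat 2434, .negSucc 3325, .ofNat 0, .negSucc 3325, .ofNat 5298, .ofNat 0,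 .ofNat 128, .ofNat 698, .negSucc 3752, .ofNat 0, .ofNat 484, .negSucc 2398, .ofNat 0, .ofNat 0, .ofNat 4363, .ofNat 1980, .ofNat 0, .ofNat 0, .ofNat 0, .ofNat 0, .ofNat 0, .ofNat 0, .ofNat 2797921917780070778828088314457157817331613696, .ofNat 624168781502555591276453812547342037516705625037340672, .ofNat 0, .ofNat 0, .ofNat 3216610169499713234151389643242210072153030656, .ofNat 753121916230444881599156919447256997945966686539612160, .ofNat 0, .ofNat 0, .ofNat 0, .ofNat 0⟩)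
    (by decide +kernel)
theorem L02796 : Good (Phi V5.P V5.D 1 1) ⟨6, 56, 4, 11, 2, 0, 2, 1, 6, 0⟩ :=
  out_sound (S := T5.ds_pp) T5.ok_pp (w := 65) (j := 3) (by decide +kernel)
theorem L02797 : Good (Phi V5.P V5.D 1 1) ⟨7, 114, 5, 22, 2, 0, 2, 1, 6, 0⟩ :=
  out_sound (S := T5.ds_pp) T5.ok_pp (w := 73) (j := 3) (by decide +kernel)
theorem L02798 : Good (Phi V5.P V5.D 1 1) ⟨7, 115, 5, 22, 2, 0, 2, 1, 6, 0⟩ :=
  out_sound (S := T5.ds_pp) T5.ok_pp (w := 21) (j := 4) (by decide +kernel)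
theorem L02799 : Good (Phi V5.P V5.D 1 1) ⟨6, 57, 5, 23, 2, 0, 2, 1, 6, 0⟩ :=
  out_sound (S := T5.ds_pp) T5.ok_pp (w := 67) (j := 3) (by decide +kernel)
theorem L02800 : Good (Phi V5.P V5.D 1 1) ⟨5, 29, 2, 2, 2, 0, 2, 1, 6, 0⟩ :=
  out_sound (S := T5.ds_pp) T5.ok_pp (w := 17) (j := 4) (by decide +kernel)
theorem L02801 : Good (Phi V5.P V5.D 1 1) ⟨5, 28, 2, 2, 2, 0, 2, 1, 6, 1⟩ :=
  leafX_sound T5.ok_pp T5.Ypp.bz_eq (w := 223) (c := ⟨⟨.ofNat 1110, .negSucc 545, .ofNat 940, .ofNat 1040, .negSucc 1696, .negSucc 2004⟩, ⟨.ofNat 502, .negSucc 604, .ofNat 1180, .ofNat 686, .negSucc 1117, .negSucc 1322⟩, ⟨.negSucc 1216, .ofNat 606, .negSucc 887, .negSucc 689, .ofNat 1620, .ofNat 1932⟩, ⟨.ofNat 1754, .negSucc 690, .ofNat 1166, .ofNat 1564, .negSucc 2605, .negSucc 2918⟩, ⟨.negSucc 202, .negSucc 68, .ofNat 103, .negSucc 131, .ofNat 268, .ofNat 113⟩, .ofNat 885, .negSucc 999, .ofNat 0, .negSucc 999, .ofNat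 1762, .ofNat 0, .ofNat 128, .ofNat 422, .negSucc 2360, .ofNat 0, .ofNat 325, .negSucc 1415, .ofNat 0, .ofNat 0, .ofNat 2839, .ofNat 559, .ofNat 0, .ofNat 0, .ofNat 0, .ofNat 0, .ofNat 0, .ofNat 0, .ofNat 2330273563947678973302271017410015264768, .ofNat 0, .ofNat 0, .ofNat 0, .ofNat 1320229905668306844905302295351274766336, .ofNat 0, .ofNat 0, .ofNat 0, .ofNat 0, .ofNat 0⟩)
    (by decide +kernel)
theorem L02802 : Good (Phi V5.P V5.D 1 1) ⟨5, 29, 2, 2, 2, 0, 2, 1, 6, 1⟩ :=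
  out_sound (S := T5.ds_pp) T5.ok_pp (w := 17) (j := 4) (by decide +kernel)
theorem L02803 : Good (Phi V5.P V5.D 1 1) ⟨5, 28, 3, 6, 2, 0, 2, 1, 5, 0⟩ :=
  out_sound (S := T5.ds_pp) T5.ok_pp (w := 57) (j := 3) (by decide +kernel)
theorem L02804 : Good (Phi V5.P V5.D 1 1) ⟨5, 29, 3, 6, 2, 0, 2, 1, 5, 0⟩ :=
  out_sound (S := T5.ds_pp) T5.ok_pp (w := 17) (j := 4) (by decide +kernel)
theorem L02805 : Good (Phi V5.P V5.D 1 1) ⟨4, 14, 3, 7, 2, 0, 2, 1, 5, 0⟩ :=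
  out_sound (S := T5.ds_pp) T5.ok_pp (w := 51) (j := 3) (by decide +kernel)
theorem L02806 : Good (Phi V5.P V5.D 1 1) ⟨4, 15, 1, 1, 2, 0, 2, 1, 5, 0⟩ :=
  out_sound (S := T5.ds_pp) T5.ok_pp (w := 15) (j := 4) (by decide +kernel)
theorem L02807 : Good (Phi V5.P V5.D 1 1) ⟨2, 2, 1, 1, 2, 0, 1, 0, 5, 1⟩ :=
  out_sound (S := T5.ds_pp) T5.ok_pp (w := 35) (j := 3) (by decide +kernel)
theorem L02808 : Good (Phi V5.P V5.D 1 1) ⟨3, 6, 1, 1, 2, 0, 1, 0, 5, 1⟩ :=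
  leafX_sound T5.ok_pp T5.Ypp.bz_eq (w := 202) (c := ⟨⟨.negSucc 418, .negSucc 45, .negSucc 158, .ofNat 867, .negSucc 888, .negSucc 1504⟩, ⟨.negSucc 190, .negSucc 83, .negSucc 316, .ofNat 500, .negSucc 510, .negSucc 866⟩, ⟨.ofNat 451, .ofNat 163, .ofNat 47, .negSucc 871, .ofNat 732, .ofNat 1403⟩, ⟨.negSucc 575, .negSucc 48, .negSucc 203, .ofNat 1424, .negSucc 1475, .negSucc 2283⟩, ⟨.negSucc 173, .ofNat 85, .ofNat 250, .negSucc 289, .ofNat 295, .ofNat 158⟩, .ofNat 1544, .negSucc 2122, .ofNat 0, .negSucc 2122, .ofNat 3803, .ofNat 0, .ofNat 128, .ofNat 569, .negSucc 907, .ofNat 0, .ofNat 384, .negSucc 515, .ofNat 0, .ofNat 0, .ofNat 1473, .ofNat 903, .ofNat 0, .ofNat 0, .ofNat 328708366489693760338553228847218688, .ofNat 0, .ofNat 0, .ofNat 0, .ofNat 36486454204792194847552398258138513408, .ofNat 0, .ofNat 0, .ofNat 0, .ofNat 26000737363497190708965731389635821568, .ofNat 0, .ofNat 0, .ofNat 0, .ofNat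 14235273565739110624586148352903610368, .ofNat 0⟩)
    (by decide +kernel)
theorem L02809 : Good (Phi V5.P V5.D 1 1) ⟨3, 7, 1, 1, 2, 0, 2, 0, 5, 1⟩ :=
  leafX_sound T5.ok_pp T5.Ypp.bz_eq (w := 204) (c := ⟨⟨.negSucc 291, .ofNat 349, .negSucc 897, .ofNat 876, .negSucc 182, .negSucc 1641⟩, ⟨.negSucc 149, .ofNat 75, .negSucc 657, .ofNat 563, .negSucc 122, .negSucc 1067⟩, ⟨.ofNat 516, .ofNat 51, .ofNat 399, .negSucc 868, .ofNat 63, .ofNat 1582⟩, ⟨.negSucc 492, .ofNat 252, .negSucc 585, .ofNat 1355, .negSucc 322, .negSucc 2429⟩, ⟨.negSucc 33, .negSucc 30, .negSucc 331, .negSucc 168, .ofNat 97, .ofNat 132⟩, .ofNat 887, .negSucc 1001, .ofNat 0, .negSucc 1001, .ofNat 1764, .ofNat 0, .ofNat 128, .ofNat 398, .negSucc 662, .ofNat 0, .ofNat 307, .negSucc 395, .ofNat 0, .ofNat 0, .ofNat 1042, .ofNat 1835, .ofNat 0, .ofNat 0, .ofNat 0, .ofNat 0, .ofNat 0, .ofNat 0, .ofNat 266860219759370899218805622629510152192,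 .ofNat 53169950814049801564109767147858899897417728, .ofNat 0, .ofNat 0, .ofNat 174809375441751259945784571907192913920, .ofNat 164116689035515423670368730205635102147346432, .ofNat 0, .ofNat 0, .ofNat 44707829355105016754428670597211881472, .ofNat 168343005680123301821122790002991421034856448⟩)
    (by decide +kernel)
theorem L02810 : Good (Phi V5.P V5.D 1 1) ⟨3, 7, 1, 1, 2, 0, 2, 1, 5, 1⟩ :=
  leafX_sound T5.ok_pp T5.Ypp.bz_eq (w := 205) (c := ⟨⟨.negSucc 985, .negSucc 372, .negSucc 116, .ofNat 1405, .negSucc 1059, .negSucc 1652⟩, ⟨.negSucc 497, .negSucc 448, .negSucc 542, .ofNat 903, .negSucc 682, .negSucc 1068⟩, ⟨.ofNat 946, .ofNat 195, .ofNat 270, .negSucc 1353, .ofNat 1028, .ofNat 1607⟩, ⟨.negSucc 1360, .negSucc 356, .negSucc 218, .ofNat 2033, .negSucc 1582, .negSucc 2357⟩, ⟨.negSucc 146, .ofNat 242, .ofNat 300, .negSucc 55, .ofNat 101, .ofNat 33⟩, .ofNat 880, .negSucc 993, .ofNat 0, .negSucc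 993, .ofNat 1758, .ofNat 0, .ofNat 128, .ofNat 467, .negSucc 1164, .ofNat 0, .ofNat 359, .negSucc 693, .ofNat 0, .ofNat 0, .ofNat 1588, .ofNat 380, .ofNat 0, .ofNat 0, .ofNat 0, .ofNat 0, .ofNat 0, .ofNat 0, .ofNat 250698723873606297294296583853291077632, .ofNat 49633021620031374585254049272497346059436032, .ofNat 0, .ofNat 0, .ofNat 105829485637394709180048411120801677312, .ofNat 203020374492076141735203630359740458496688128, .ofNat 0, .ofNat 0, .ofNat 115873974866304633723184385459763544064, .ofNat 268669091192725489542630328770144494629683200⟩)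
    (by decide +kernel)
theorem L02811 : Good (Phi V5.P V5.D 1 1) ⟨2, 2, 1, 1, 2, 1, 1, 0, 5, 0⟩ :=
  out_sound (S := T5.ds_pp) T5.ok_pp (w := 35) (j := 3) (by decide +kernel)
theorem L02812 : Good (Phi V5.P V5.D 1 1) ⟨4, 12, 2, 2, 2, 1, 1, 0, 5, 0⟩ :=
  out_sound (S := T5.ds_pp) T5.ok_pp (w := 49) (j := 3) (by decide +kernel)

end Crest.Agent.R097C5.N5pp
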