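import Crest.Agent.R097.KP7
import Crest.Agent.R097.T5Ypp

/-!
# Row 97, box cover in dimension n = 5 (generated)
-/

set_option autoImplicit false
set_option Elab.async false
set_option maxHeartbeats 0
set_option maxRecDepth 100000

open Crest.Agent.R097 Crest.Agent.R097.KA


namespace Crest.Agent.R097C5.N5pp

theorem L02813 : Good (Phi V5.P V5.D 1 1) ⟨4, 13, 2, 2, 2, 1, 2, 0, 5, 0⟩ :=
  leafX_sound T5.ok_pp T5.Ypp.bz_eq (w := 212) (c := ⟨⟨.ofNat 2005, .ofNat 334, .negSucc 126, .ofNat 570, .ofNat 1244, .negSucc 1985⟩, ⟨.ofNat 1097, .ofNat 211, .ofNat 334, .ofNat 320, .ofNat 742, .negSucc 1175⟩, ⟨.negSucc 1336, .negSucc 463, .ofNat 540, .ofNat 7, .negSucc 1104, .ofNat 1314⟩, ⟨.ofNat 3267, .ofNat 273, .negSucc 105, .ofNat 899, .ofNat 1718, .negSucc 2927⟩, ⟨.negSucc 370, .ofNat 110, .negSucc 241, .negSucc 94, .ofNat 149, .ofNat 11⟩, .ofNat 744, .negSucc 822, .ofNat 0, .negSucc 822, .ofNat 1624, .ofNat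 0, .ofNat 128, .ofNat 513, .negSucc 644, .ofNat 0, .ofNat 364, .negSucc 336, .ofNat 0, .ofNat 0, .ofNat 1079, .ofNat 1741, .ofNat 0, .ofNat 0, .ofNat 1526293340371374109047303682259943424, .ofNat 0, .ofNat 0, .ofNat 0, .ofNat 34901494218593348513774652507503460352, .ofNat 0, .ofNat 0, .ofNat 0, .ofNat 144706315825542345544956493065107800064, .ofNat 0, .ofNat 0, .ofNat 0, .ofNat 0, .ofNat 0⟩)
    (by decide +kernel)
theorem L02814 : Good (Phi V5.P V5.D 1 1) ⟨4, 13, 2, 2, 2, 1, 2, 1, 5, 0⟩ :=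
  leafX_sound T5.ok_pp T5.Ypp.bz_eq (w := 214) (c := ⟨⟨.ofNat 3377, .ofNat 414, .ofNat 139, .ofNat 1139, .negSucc 409, .negSucc 3314⟩, ⟨.ofNat 1826, .ofNat 329, .ofNat 467, .ofNat 665, .negSucc 224, .negSucc 1917⟩, ⟨.negSucc 2815, .negSucc 139, .negSucc 296, .negSucc 248, .ofNat 257, .ofNat 2473⟩, ⟨.ofNat 5349, .ofNat 258, .ofNat 221, .ofNat 1591, .negSucc 804, .negSucc 4876⟩, ⟨.negSucc 316, .ofNat 82, .negSucc 12, .ofNat 146, .ofNat 343, .ofNat 20⟩, .ofNat 1543, .negSucc 2123, .ofNat 0, .negSucc 2123, .ofNat 3810, .ofNat 0, .ofNat 128, .ofNat 620, .negSucc 1021, .ofNat 0, .ofNat 404, .negSucc 576, .ofNat 0, .ofNat 0, .ofNat 1290, .ofNat 521, .ofNat 0, .ofNat 0, .ofNat 3064666155189279027660011528016363520, .ofNat 0, .ofNat 0, .ofNat 0, .ofNat 357938887818867167940190912893220290560, .ofNat 0, .ofNat 0, .ofNat 0, .ofNat 279888371681939257765379666050218459136, .ofNat 0, .ofNat 0, .ofNat 0, .ofNat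 0, .ofNat 0⟩)
    (by decide +kernel)
theorem L02815 : Good (Phi V5.P V5.D 1 1) ⟨3, 6, 2, 3, 2, 1, 1, 0, 5, 0⟩ :=
  out_sound (S := T5.ds_pp) T5.ok_pp (w := 43) (j := 3) (by decide +kernel)
theorem L02816 : Good (Phi V5.P V5.D 1 1) ⟨5, 28, 3, 4, 2, 1, 2, 0, 5, 0⟩ :=
  leafX_sound T5.ok_pp T5.Ypp.bz_eq (w := 219) (c := ⟨⟨.ofNat 2134, .negSucc 402, .ofNat 213, .ofNat 602, .ofNat 1457, .negSucc 2069⟩, ⟨.ofNat 1123, .negSucc 311, .ofNat 393, .ofNat 382, .ofNat 922, .negSucc 1319⟩, ⟨.negSucc 1552, .ofNat 421, .negSucc 61, .negSucc 0, .negSucc 1220, .ofNat 1256⟩, ⟨.ofNat 3482, .negSucc 465, .ofNat 48, .ofNat 937, .ofNat 1908, .negSucc 2955⟩, ⟨.negSucc 479, .negSucc 143, .ofNat 174, .negSucc 121, .ofNat 284, .negSucc 35⟩, .ofNat 847, .negSucc 951, .ofNat 0, .negSucc 951, .ofNat 1718, .ofNat 0, .ofNat 128, .ofNat 604, .negSucc 876, .ofNat 0, .ofNat 435, .negSucc 501, .ofNat 0, .ofNat 0, .ofNat 1437, .ofNat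 2012, .ofNat 0, .ofNat 0, .ofNat 9701634762661395024033442651327954944, .ofNat 0, .ofNat 0, .ofNat 0, .ofNat 497089300135743341313316515231920291840, .ofNat 0, .ofNat 0, .ofNat 0, .ofNat 572882915706921686352397101167768764416, .ofNat 0, .ofNat 0, .ofNat 0, .ofNat 0, .ofNat 0⟩)
    (by decide +kernel)
theorem L02817 : Good (Phi V5.P V5.D 1 1) ⟨5, 28, 4, 10, 2, 1, 2, 0, 5, 0⟩ :=
  leafX_sound T5.ok_pp T5.Ypp.bz_eq (w := 224) (c := ⟨⟨.ofNat 2333, .ofNat 140, .negSucc 103, .ofNat 504, .ofNat 1562, .negSucc 2100⟩, ⟨.ofNat 1469, .ofNat 204, .negSucc 20, .ofNat 326, .ofNat 1023, .negSucc 1381⟩, ⟨.negSucc 1815, .ofNat 678, .negSucc 356, .ofNat 131, .negSucc 1305, .ofNat 1322⟩, ⟨.ofNat 3561, .ofNat 7, .negSucc 41, .ofNat 799, .ofNat 2048, .negSucc 2968⟩, ⟨.negSucc 299, .negSucc 51, .negSucc 60, .negSucc 129, .ofNat 246, .negSucc 19⟩, .ofNat 1479, .negSucc 1881, .ofNat 0, .negSucc 1881, .ofNat 3095, .ofNat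 0, .ofNat 128, .ofNat 1017, .negSucc 1157, .ofNat 0, .ofNat 708, .negSucc 718, .ofNat 0, .ofNat 0, .ofNat 1939, .ofNat 3711, .ofNat 0, .ofNat 0, .ofNat 66648580127839711381460702964781940736, .ofNat 0, .ofNat 0, .ofNat 0, .ofNat 2619151430319085832677267297846930964480, .ofNat 189203465848523945324253829916722701129473851392, .ofNat 0, .ofNat 0, .ofNat 1449058009841505833146342138091791187968, .ofNat 105512488289398433897134481949527367144760672256, .ofNat 0, .ofNat 0, .ofNat 4467965962387836010373099979998597480448, .ofNat 5879831165630518159050930238015548473518222999552⟩)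
    (by decide +kernel)
theorem L02818 : Good (Phi V5.P V5.D 1 1) ⟨6, 56, 4, 11, 2, 1, 2, 0, 5, 0⟩ :=
  out_sound (S := T5.ds_pp) T5.ok_pp (w := 65) (j := 3) (by decide +kernel)
theorem L02819 : Good (Phi V5.P V5.D 1 1) ⟨7, 114, 5, 22, 2, 1, 2, 0, 5, 0⟩ :=
  out_sound (S := T5.ds_pp) T5.ok_pp (w := 73) (j := 3) (by decide +kernel)
theorem L02820 : Good (Phi V5.P V5.D 1 1) ⟨7, 115, 5, 22, 2, 1, 2, 0, 5, 0⟩ :=
  out_sound (S := T5.ds_pp) T5.ok_pp (w := 21) (j := 4) (by decide +kernel)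
theorem L02821 : Good (Phi V5.P V5.D 1 1) ⟨6, 57, 5, 23, 2, 1, 2, 0, 5, 0⟩ :=
  out_sound (S := T5.ds_pp) T5.ok_pp (w := 67) (j := 3) (by decide +kernel)
theorem L02822 : Good (Phi V5.P V5.D 1 1) ⟨5, 29, 2, 2, 2, 1, 2, 0, 5, 0⟩ :=
  out_sound (S := T5.ds_pp) T5.ok_pp (w := 17) (j := 4) (by decide +kernel)
theorem L02823 : Good (Phi V5.P V5.D 1 1) ⟨5, 28, 3, 6, 2, 1, 2, 0, 5, 0⟩ :=
  out_sound (S := T5.ds_pp) T5.ok_pp (w := 57) (j := 3) (by decide +kernel)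
theorem L02824 : Good (Phi V5.P V5.D 1 1) ⟨5, 29, 3, 6, 2, 1, 2, 0, 5, 0⟩ :=
  out_sound (S := T5.ds_pp) T5.ok_pp (w := 17) (j := 4) (by decide +kernel)
theorem L02825 : Good (Phi V5.P V5.D 1 1) ⟨4, 14, 3, 7, 2, 1, 2, 0, 5, 0⟩ :=
  out_sound (S := T5.ds_pp) T5.ok_pp (w := 51) (j := 3) (by decide +kernel)
theorem L02826 : Good (Phi V5.P V5.D 1 1) ⟨4, 15, 1, 1, 2, 1, 2, 0, 5, 0⟩ :=
  out_sound (S := T5.ds_pp) T5.ok_pp (w := 15) (j := 4) (by decide +kernel)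
theorem L02827 : Good (Phi V5.P V5.D 1 1) ⟨4, 14, 2, 2, 3, 2, 2, 1, 5, 0⟩ :=
  leafX_sound T5.ok_pp T5.Ypp.bz_eq (w := 227) (c := ⟨⟨.ofNat 4002, .negSucc 223, .ofNat 931, .ofNat 363, .negSucc 648, .negSucc 4044⟩, ⟨.ofNat 2318, .negSucc 169, .ofNat 1118, .ofNat 244, .negSucc 422, .negSucc 2630⟩, ⟨.negSucc 3038, .ofNat 959, .negSucc 1521, .ofNat 62, .ofNat 488, .ofNat 3325⟩, ⟨.ofNat 5813, .negSucc 923, .ofNat 1662, .ofNat 506, .negSucc 1060, .negSucc 5901⟩, ⟨.negSucc 438, .negSucc 405, .ofNat 375, .ofNat 10, .ofNat 199, .ofNat 136⟩, .ofNat 749, .negSucc 758, .ofNat 0, .negSucc 758, .ofNat 1313, .ofNat 0, .ofNat 128, .ofNat 361, .negSucc 1233, .ofNat 0, .ofNat 295, .negSucc 743, .ofNat 0, .ofNat 0, .ofNat 1400, .ofNat 658, .ofNat 0, .ofNat 0, .ofNat 31882016142888584461026521867678851792896, .ofNat 0, .ofNat 0, .ofNat 0, .ofNat 2438659160198878833044205673863629651312640, .ofNat 0, .ofNat 0, .ofNat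 0, .ofNat 2799962565310769480147342174844894215929856, .ofNat 22432389166782576721241980256053912782455953162240, .ofNat 0, .ofNat 0, .ofNat 687822684405285703335046383298819878027264, .ofNat 130241868831188970194208556459864743095751959117824⟩)
    (by decide +kernel)
theorem L02828 : Good (Phi V5.P V5.D 1 1) ⟨4, 14, 2, 2, 3, 3, 2, 1, 5, 0⟩ :=
  leafX_sound T5.ok_pp T5.Ypp.bz_eq (w := 225) (c := ⟨⟨.ofNat 4462, .ofNat 641, .negSucc 305, .ofNat 740, .ofNat 327, .negSucc 3458⟩, ⟨.ofNat 2617, .ofNat 620, .ofNat 245, .ofNat 483, .ofNat 195, .negSucc 2243⟩, ⟨.negSucc 3043, .negSucc 170, .ofNat 24, .negSucc 127, .negSucc 416, .ofNat 2326⟩, ⟨.ofNat 6555, .ofNat 660, .negSucc 530, .ofNat 1027, .ofNat 257, .negSucc 5071⟩, ⟨.negSucc 112, .negSucc 82, .negSucc 106, .ofNat 122, .ofNat 316, .negSucc 112⟩, .ofNat 373, .negSucc 264, .ofNat 0, .negSucc 264, .ofNat 570, .ofNat 0, .ofNat 128, .ofNat 238, .negSucc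 949, .ofNat 0, .ofNat 208, .negSucc 475, .ofNat 0, .ofNat 0, .ofNat 890, .ofNat 278, .ofNat 0, .ofNat 0, .ofNat 37532244590918954035130462122117850726400, .ofNat 0, .ofNat 0, .ofNat 0, .ofNat 0, .ofNat 0, .ofNat 0, .ofNat 0, .ofNat 409501293996810983674397909217651441270784, .ofNat 11101349459311734691036560840428056449039038676992, .ofNat 0, .ofNat 0, .ofNat 0, .ofNat 37000528732166962295736082259080657462388687110144⟩)
    (by decide +kernel)
theorem L02829 : Good (Phi V5.P V5.D 1 1) ⟨5, 28, 3, 6, 2, 1, 2, 1, 5, 0⟩ :=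
  out_sound (S := T5.ds_pp) T5.ok_pp (w := 57) (j := 3) (by decide +kernel)
theorem L02830 : Good (Phi V5.P V5.D 1 1) ⟨5, 29, 3, 6, 2, 1, 2, 1, 5, 0⟩ :=
  out_sound (S := T5.ds_pp) T5.ok_pp (w := 17) (j := 4) (by decide +kernel)
theorem L02831 : Good (Phi V5.P V5.D 1 1) ⟨4, 14, 3, 7, 2, 1, 2, 1, 5, 0⟩ :=
  out_sound (S := T5.ds_pp) T5.ok_pp (w := 51) (j := 3) (by decide +kernel)
theorem L02832 : Good (Phi V5.P V5.D 1 1) ⟨4, 15, 1, 1, 2, 1, 2, 1, 5, 0⟩ :=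
  out_sound (S := T5.ds_pp) T5.ok_pp (w := 15) (j := 4) (by decide +kernel)
theorem L02833 : Good (Phi V5.P V5.D 1 1) ⟨2, 2, 1, 1, 2, 1, 1, 0, 5, 1⟩ :=
  out_sound (S := T5.ds_pp) T5.ok_pp (w := 35) (j := 3) (by decide +kernel)
theorem L02834 : Good (Phi V5.P V5.D 1 1) ⟨2, 3, 1, 1, 2, 1, 2, 0, 5, 1⟩ :=
  leafX_sound T5.ok_pp T5.Ypp.bz_eq (w := 198) (c := ⟨⟨.ofNat 109, .ofNat 809, .negSucc 764, .ofNat 581, .ofNat 200, .negSucc 1472⟩, ⟨.ofNat 251, .ofNat 4, .negSucc 99, .ofNat 341, .ofNat 120, .negSucc 920⟩, ⟨.negSucc 110, .ofNat 178, .ofNat 249, .negSucc 807, .negSucc 200, .ofNat 885⟩, ⟨.ofNat 440, .ofNat 824, .negSucc 777, .ofNat 1049, .ofNat 200, .negSucc 2239⟩, ⟨.negSucc 494, .ofNat 541, .negSucc 394, .negSucc 273, .ofNat 186, .ofNat 113⟩, .ofNat 374, .negSucc 272, .ofNat 0, .negSucc 272, .ofNat 643, .ofNat 0, .ofNat 128, .ofNat 251, .negSucc 308, .ofNat 0, .ofNat 221, .negSucc 131, .ofNat 0,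 .ofNat 0, .ofNat 496, .ofNat 735, .ofNat 0, .ofNat 0, .ofNat 0, .ofNat 0, .ofNat 0, .ofNat 0, .ofNat 37228455572887186789470667437332496384, .ofNat 173122792432257520844725885037234817597440, .ofNat 0, .ofNat 0, .ofNat 69701874001482199496692758318038384640, .ofNat 6340389753875176528721526533244687216541696, .ofNat 0, .ofNat 0, .ofNat 42283880912634160789961058085903532032, .ofNat 5080817916645367613031792832567649908031488⟩)
    (by decide +kernel)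
theorem L02835 : Good (Phi V5.P V5.D 1 1) ⟨2, 3, 1, 1, 2, 1, 2, 1, 5, 1⟩ :=
  leafX_sound T5.ok_pp T5.Ypp.bz_eq (w := 198) (c := ⟨⟨.ofNat 707, .negSucc 186, .negSucc 328, .ofNat 945, .negSucc 850, .negSucc 1898⟩, ⟨.ofNat 453, .negSucc 110, .negSucc 248, .ofNat 555, .negSucc 548, .negSucc 1164⟩, ⟨.negSucc 334, .negSucc 138, .ofNat 738, .negSucc 925, .ofNat 749, .ofNat 1433⟩, ⟨.ofNat 1170, .negSucc 294, .negSucc 372, .ofNat 1453, .negSucc 1400, .negSucc 2864⟩, ⟨.negSucc 25, .negSucc 497, .ofNat 314, .negSucc 89, .ofNat 261, .ofNat 75⟩, .ofNat 375, .negSucc 273, .ofNat 0, .negSucc 273, .ofNat 643, .ofNat 0, .ofNat 128, .ofNat 217, .negSucc 401, .ofNat 0, .ofNat 193, .negSucc 178, .ofNat 0, .ofNat 0, .ofNat 490, .ofNat 230, .ofNat 0, .ofNat 0, .ofNat 0, .ofNat 0, .ofNat 0, .ofNat 0, .ofNat 0, .ofNat 0, .ofNat 0, .ofNat 0, .ofNat 74078846854433222096527605204749647872, .ofNat 4069892014487022674862365209456196924211200,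 .ofNat 0, .ofNat 0, .ofNat 43200614168259621628451013711278112768, .ofNat 4749511703007137669845939362948812103483392⟩)
    (by decide +kernel)
theorem L02836 : Good (Phi V5.P V5.D 1 1) ⟨2, 2, 1, 1, 1, 0, 1, 0, 4, 1⟩ :=
  out_sound (S := T5.ds_pp) T5.ok_pp (w := 35) (j := 3) (by decide +kernel)
theorem L02837 : Good (Phi V5.P V5.D 1 1) ⟨3, 6, 1, 1, 1, 0, 1, 0, 4, 1⟩ :=
  leafX_sound T5.ok_pp T5.Ypp.bz_eq (w := 181) (c := ⟨⟨.negSucc 2202, .ofNat 417, .negSucc 703, .ofNat 1356, .negSucc 775, .negSucc 1319⟩, ⟨.negSucc 1047, .negSucc 22, .negSucc 721, .ofNat 800, .negSucc 436, .negSucc 778⟩, ⟨.ofNat 2441, .negSucc 493, .ofNat 1283, .negSucc 2289, .ofNat 768, .ofNat 1136⟩, ⟨.negSucc 3620, .ofNat 1117, .negSucc 1151, .ofNat 2171, .negSucc 1237, .negSucc 1982⟩, ⟨.ofNat 280, .negSucc 396, .ofNat 542, .negSucc 349, .ofNat 166, .ofNat 60⟩, .ofNat 756, .negSucc 838, .ofNat 0, .negSucc 838, .ofNat 1636, .ofNat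 0, .ofNat 128, .ofNat 318, .negSucc 320, .ofNat 0, .ofNat 236, .negSucc 167, .ofNat 0, .ofNat 0, .ofNat 649, .ofNat 666, .ofNat 0, .ofNat 0, .ofNat 664228246688814271292185247744, .ofNat 0, .ofNat 0, .ofNat 0, .ofNat 12865741780688505500135438942208, .ofNat 0, .ofNat 0, .ofNat 0, .ofNat 31220154000025815113928726806528, .ofNat 0, .ofNat 0, .ofNat 0, .ofNat 15118594704253973063543264641024, .ofNat 0⟩)
    (by decide +kernel)
theorem L02838 : Good (Phi V5.P V5.D 1 1) ⟨3, 7, 1, 1, 1, 0, 1, 0, 4, 1⟩ :=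
  leafX_sound T5.ok_pp T5.Ypp.bz_eq (w := 179) (c := ⟨⟨.negSucc 1775, .negSucc 100, .negSucc 616, .ofNat 1104, .negSucc 801, .negSucc 1153⟩, ⟨.negSucc 1084, .negSucc 736, .negSucc 432, .ofNat 715, .negSucc 523, .negSucc 747⟩, ⟨.ofNat 2063, .ofNat 504, .ofNat 62, .negSucc 2025, .ofNat 959, .ofNat 977⟩, ⟨.negSucc 2624, .negSucc 324, .negSucc 254, .ofNat 1688, .negSucc 1271, .negSucc 1653⟩, ⟨.negSucc 108, .ofNat 56, .ofNat 152, .negSucc 220, .ofNat 195, .ofNat 38⟩, .ofNat 388, .negSucc 293, .ofNat 0, .negSucc 293, .ofNat 645, .ofNat 0, .ofNat 128, .ofNat 164, .negSucc 218, .ofNat 0, .ofNat 156, .negSucc 102, .ofNat 0, .ofNat 0, .ofNat 397, .ofNat 261, .ofNat 2618882998984474172263789081133056, .ofNat 0, .ofNat 123548844501465348639830310912, .ofNat 23760029629059773053971548547842048, .ofNat 0, .ofNat 0, .ofNat 1471438683121924233679010267136, .ofNat 0, .ofNat 0, .ofNat 0, .ofNat 965450275543738359537060544512,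 .ofNat 1944240963409791501031621643431051264, .ofNat 0, .ofNat 0, .ofNat 4070404799713683308811697258496, .ofNat 2054986786225032358135712405696544768⟩)
    (by decide +kernel)
theorem L02839 : Good (Phi V5.P V5.D 1 1) ⟨2, 2, 1, 1, 1, 0, 1, 0, 3, 1⟩ :=
  out_sound (S := T5.ds_pp) T5.ok_pp (w := 35) (j := 3) (by decide +kernel)
theorem L02840 : Good (Phi V5.P V5.D 1 1) ⟨3, 6, 2, 2, 1, 0, 2, 0, 3, 1⟩ :=
  leafX_sound T5.ok_pp T5.Ypp.bz_eq (w := 183) (c := ⟨⟨.negSucc 1822, .negSucc 1033, .ofNat 294, .ofNat 220, .negSucc 441, .ofNat 160⟩, ⟨.negSucc 792, .negSucc 852, .negSucc 166, .ofNat 123, .negSucc 255, .ofNat 89⟩, ⟨.ofNat 1328, .ofNat 1700, .negSucc 690, .negSucc 1725, .ofNat 710, .negSucc 28⟩, ⟨.negSucc 3324, .negSucc 804, .ofNat 356, .ofNat 429, .negSucc 613, .ofNat 271⟩, ⟨.ofNat 121, .negSucc 13, .ofNat 66, .negSucc 176, .negSucc 58, .negSucc 85⟩, .ofNat 1094, .negSucc 1380, .ofNat 0, .negSucc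 1380, .ofNat 2551, .ofNat 0, .ofNat 128, .ofNat 448, .negSucc 207, .ofNat 0, .ofNat 314, .negSucc 109, .ofNat 0, .ofNat 0, .ofNat 855, .ofNat 2021, .ofNat 364600265891950043307201561194659840, .ofNat 0, .ofNat 3672557035932554168420792270848, .ofNat 0, .ofNat 0, .ofNat 0, .ofNat 19153246499363233058457133252608, .ofNat 0, .ofNat 0, .ofNat 0, .ofNat 18682216933678768577130132406272, .ofNat 0, .ofNat 13780437764335603823943745448288714752, .ofNat 0, .ofNat 113061221669041514856309327921152, .ofNat 0⟩)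
    (by decide +kernel)
theorem L02841 : Good (Phi V5.P V5.D 1 1) ⟨3, 6, 2, 2, 1, 0, 2, 1, 3, 1⟩ :=
  leafX_sound T5.ok_pp T5.Ypp.bz_eq (w := 184) (c := ⟨⟨.negSucc 1976, .negSucc 1288, .ofNat 525, .negSucc 109, .negSucc 63, .ofNat 237⟩, ⟨.negSucc 869, .negSucc 1008, .negSucc 44, .negSucc 69, .negSucc 40, .ofNat 134⟩, ⟨.ofNat 2214, .ofNat 1035, .negSucc 513, .negSucc 838, .ofNat 227, .negSucc 188⟩, ⟨.negSucc 3718, .negSucc 1001, .ofNat 571, .negSucc 28, .negSucc 67, .ofNat 438⟩, ⟨.ofNat 365, .negSucc 248, .ofNat 241, .negSucc 236, .negSucc 51, .negSucc 167⟩, .ofNat 1087, .negSucc 1375, .ofNat 0, .negSucc 1375, .ofNat 2557, .ofNat 0, .ofNat 128, .ofNat 473, .negSucc 235, .ofNat 0, .ofNat 330, .negSucc 126, .ofNat 0, .ofNat 0, .ofNat 818, .ofNat 1660, .ofNat 0, .ofNat 0, .ofNat 1566591765109849597091201941504, .ofNat 0, .ofNat 0, .ofNat 0, .ofNat 49143135029746822940353730969600, .ofNat 0, .ofNat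 0, .ofNat 0, .ofNat 72073232584271308771262868750336, .ofNat 0, .ofNat 0, .ofNat 0, .ofNat 90452346167560513676292783079424, .ofNat 0⟩)
    (by decide +kernel)
theorem L02842 : Good (Phi V5.P V5.D 1 1) ⟨3, 6, 2, 3, 1, 0, 1, 0, 3, 1⟩ :=
  out_sound (S := T5.ds_pp) T5.ok_pp (w := 43) (j := 3) (by decide +kernel)
theorem L02843 : Good (Phi V5.P V5.D 1 1) ⟨5, 28, 2, 2, 1, 0, 2, 0, 3, 1⟩ :=
  leafX_sound T5.ok_pp T5.Ypp.bz_eq (w := 192) (c := ⟨⟨.negSucc 3128, .negSucc 281, .ofNat 496, .ofNat 251, .negSucc 217, .ofNat 106⟩, ⟨.negSucc 1800, .negSucc 222, .negSucc 60, .ofNat 160, .negSucc 145, .ofNat 66⟩, ⟨.ofNat 2592, .negSucc 311, .ofNat 747, .negSucc 1749, .ofNat 556, .negSucc 0⟩, ⟨.negSucc 4305, .negSucc 56, .ofNat 251, .ofNat 513, .negSucc 375, .ofNat 198⟩, ⟨.negSucc 66, .negSucc 25, .ofNat 170, .negSucc 236, .ofNat 101, .negSucc 78⟩, .ofNat 820, .negSucc 888, .ofNat 0, .negSucc 888, .ofNat 1567,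 .ofNat 0, .ofNat 128, .ofNat 405, .negSucc 184, .ofNat 0, .ofNat 321, .negSucc 100, .ofNat 0, .ofNat 0, .ofNat 838, .ofNat 1963, .ofNat 43175525643691875411023537188684955648, .ofNat 0, .ofNat 116435933117821302606191919104, .ofNat 0, .ofNat 0, .ofNat 0, .ofNat 2702459586059512052187773534208, .ofNat 0, .ofNat 0, .ofNat 0, .ofNat 4611482024586928266841159630848, .ofNat 0, .ofNat 2292727967157830318211149790705900060672, .ofNat 0, .ofNat 4749460101339029656231324155904, .ofNat 0⟩)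
    (by decide +kernel)
theorem L02844 : Good (Phi V5.P V5.D 1 1) ⟨5, 28, 2, 2, 1, 0, 2, 1, 3, 1⟩ :=
  leafX_sound T5.ok_pp T5.Ypp.bz_eq (w := 190) (c := ⟨⟨.negSucc 3234, .negSucc 209, .negSucc 56, .negSucc 96, .negSucc 9, .ofNat 473⟩, ⟨.negSucc 1878, .negSucc 200, .negSucc 390, .negSucc 66, .negSucc 9, .ofNat 305⟩, ⟨.ofNat 3399, .ofNat 427, .negSucc 295, .negSucc 885, .ofNat 93, .negSucc 424⟩, ⟨.negSucc 4718, .negSucc 193, .ofNat 9, .negSucc 25, .negSucc 6, .ofNat 724⟩, ⟨.ofNat 155, .ofNat 78, .negSucc 121, .negSucc 184, .negSucc 28, .negSucc 103⟩, .ofNat 381, .negSucc 280, .ofNat 0, .negSucc 280, .ofNat 617, .ofNat 0, .ofNat 128, .ofNat 153, .negSucc 144, .ofNat 0, .ofNat 154, .negSucc 63, .ofNat 0, .ofNat 0, .ofNat 427, .ofNat 599, .ofNat 0, .ofNat 0, .ofNat 0, .ofNat 0, .ofNat 0, .ofNat 0, .ofNat 263846214117367118823608549376, .ofNat 0, .ofNat 0, .ofNat 0, .ofNat 0, .ofNat 0, .ofNat 0, .ofNat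 0, .ofNat 763316609583776411670517121024, .ofNat 167578832785346119484550301283468181504⟩)
    (by decide +kernel)
theorem L02845 : Good (Phi V5.P V5.D 1 1) ⟨5, 29, 2, 2, 1, 0, 1, 0, 3, 1⟩ :=
  out_sound (S := T5.ds_pp) T5.ok_pp (w := 17) (j := 4) (by decide +kernel)
theorem L02846 : Good (Phi V5.P V5.D 1 1) ⟨5, 28, 3, 6, 1, 0, 1, 0, 3, 1⟩ :=
  out_sound (S := T5.ds_pp) T5.ok_pp (w := 57) (j := 3) (by decide +kernel)
theorem L02847 : Good (Phi V5.P V5.D 1 1) ⟨5, 29, 3, 6, 1, 0, 1, 0, 3, 1⟩ :=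
  out_sound (S := T5.ds_pp) T5.ok_pp (w := 17) (j := 4) (by decide +kernel)
theorem L02848 : Good (Phi V5.P V5.D 1 1) ⟨4, 14, 3, 7, 1, 0, 1, 0, 3, 1⟩ :=
  out_sound (S := T5.ds_pp) T5.ok_pp (w := 51) (j := 3) (by decide +kernel)
theorem L02849 : Good (Phi V5.P V5.D 1 1) ⟨4, 15, 1, 1, 1, 0, 1, 0, 3, 1⟩ :=
  out_sound (S := T5.ds_pp) T5.ok_pp (w := 15) (j := 4) (by decide +kernel)
theorem L02850 : Good (Phi V5.P V5.D 1 1) ⟨2, 2, 1, 1, 1, 0, 1, 0, 2, 1⟩ :=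
  out_sound (S := T5.ds_pp) T5.ok_pp (w := 35) (j := 3) (by decide +kernel)
theorem L02851 : Good (Phi V5.P V5.D 1 1) ⟨3, 6, 1, 1, 2, 0, 2, 0, 3, 2⟩ :=
  leafX_sound T5.ok_pp T5.Ypp.bz_eq (w := 201) (c := ⟨⟨.negSucc 2576, .negSucc 432, .negSucc 85, .ofNat 151, .ofNat 87, .ofNat 1⟩, ⟨.negSucc 1238, .negSucc 482, .negSucc 743, .ofNat 87, .ofNat 40, .ofNat 1⟩, ⟨.ofNat 2530, .ofNat 364, .ofNat 99, .negSucc 610, .ofNat 276, .negSucc 0⟩, ⟨.negSucc 4213, .negSucc 65, .negSucc 84, .ofNat 256, .ofNat 77, .ofNat 2⟩, ⟨.negSucc 56, .ofNat 36, .negSucc 11, .negSucc 60, .ofNat 31, .ofNat 0⟩, .ofNat 367, .negSucc 261, .ofNat 0, .negSucc 261, .ofNat 642, .ofNat 0, .ofNat 128, .ofNat 147, .negSucc 97, .ofNat 0, .ofNat 154, .negSucc 40, .ofNat 0, .ofNat 0, .ofNat 477, .ofNat 182214, .ofNat 20483710295607795655733387951804216508416, .ofNat 0, .ofNat 101875432356646031395722037972434944, .ofNat 0, .ofNat 37717559202549116241120939669282948644864,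 .ofNat 0, .ofNat 68480568318891340901895883666227200, .ofNat 0, .ofNat 37783986755829651453498317047540750483456, .ofNat 0, .ofNat 94560111078807105351382647149953024, .ofNat 0, .ofNat 28447040044277981200240091083238977568768, .ofNat 0, .ofNat 31950785534413107551883094598352896, .ofNat 0⟩)
    (by decide +kernel)
theorem L02852 : Good (Phi V5.P V5.D 1 1) ⟨3, 6, 1, 1, 2, 0, 2, 1, 3, 2⟩ :=
  leafX_sound T5.ok_pp T5.Ypp.bz_eq (w := 196) (c := ⟨⟨.negSucc 2342, .negSucc 468, .ofNat 81, .negSucc 62, .ofNat 66, .ofNat 367⟩, ⟨.negSucc 1116, .negSucc 505, .negSucc 554, .negSucc 39, .ofNat 38, .ofNat 212⟩, ⟨.ofNat 2501, .ofNat 524, .negSucc 81, .negSucc 253, .negSucc 182, .negSucc 380⟩, ⟨.negSucc 3940, .negSucc 120, .ofNat 83, .negSucc 14, .ofNat 116, .ofNat 564⟩, ⟨.ofNat 43, .ofNat 2, .ofNat 76, .negSucc 132, .negSucc 33, .negSucc 44⟩, .ofNat 752, .negSucc 832, .ofNat 0, .negSucc 832, .ofNat 1634, .ofNat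 0, .ofNat 128, .ofNat 309, .negSucc 105, .ofNat 0, .ofNat 237, .negSucc 55, .ofNat 0, .ofNat 0, .ofNat 651, .ofNat 6345, .ofNat 272412612559681568395456296835442802688, .ofNat 0, .ofNat 2139488240395361403851945931702272, .ofNat 0, .ofNat 0, .ofNat 0, .ofNat 0, .ofNat 0, .ofNat 0, .ofNat 0, .ofNat 356032973771638535862488886931357696, .ofNat 0, .ofNat 3958990356193978067362771080508304523264, .ofNat 0, .ofNat 271961478806514599161136212219002880, .ofNat 0⟩)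
    (by decide +kernel)
theorem L02853 : Good (Phi V5.P V5.D 1 1) ⟨3, 6, 1, 1, 2, 1, 2, 0, 3, 2⟩ :=
  leafX_sound T5.ok_pp T5.Ypp.bz_eq (w := 199) (c := ⟨⟨.negSucc 2168, .negSucc 418, .negSucc 45, .negSucc 41, .negSucc 194, .ofNat 323⟩, ⟨.negSucc 981, .negSucc 509, .negSucc 634, .negSucc 29, .negSucc 120, .ofNat 190⟩, ⟨.ofNat 1710, .ofNat 58, .ofNat 313, .negSucc 805, .ofNat 697, .negSucc 157⟩, ⟨.negSucc 3643, .negSucc 20, .negSucc 17, .ofNat 36, .negSucc 288, .ofNat 538⟩, ⟨.negSucc 117, .ofNat 31, .ofNat 3, .negSucc 166, .ofNat 27, .negSucc 118⟩, .ofNat 750, .negSucc 831, .ofNat 0, .negSucc 831, .ofNat 1633, .ofNat 0, .ofNat 128, .ofNat 493, .negSucc 224, .ofNat 0, .ofNat 367, .negSucc 99, .ofNat 0, .ofNat 0, .ofNat 1552, .ofNat 48272, .ofNat 2953509445675687014950528904197012717568, .ofNat 0, .ofNat 28410190746990245303934632088043520, .ofNat 0, .ofNat 10429430822738766176338496144047320596480,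 .ofNat 0, .ofNat 825595850942674954970644744350203904, .ofNat 0, .ofNat 32574376725419899202322819255745034321920, .ofNat 0, .ofNat 0, .ofNat 0, .ofNat 75355733413526169496448378134128421240832, .ofNat 0, .ofNat 912361995543771965200979893938028544, .ofNat 0⟩)
    (by decide +kernel)
theorem L02854 : Good (Phi V5.P V5.D 1 1) ⟨3, 6, 2, 2, 2, 1, 2, 1, 4, 4⟩ :=
  leafX_sound T5.ok_pp T5.Ypp.bz_eq (w := 205) (c := ⟨⟨.negSucc 2240, .negSucc 475, .negSucc 40, .negSucc 194, .negSucc 194, .ofNat 225⟩, ⟨.negSucc 1009, .negSucc 569, .negSucc 313, .negSucc 119, .negSucc 117, .ofNat 131⟩, ⟨.ofNat 2210, .ofNat 31, .ofNat 261, .negSucc 399, .ofNat 457, .negSucc 222⟩, ⟨.negSucc 3767, .negSucc 99, .negSucc 46, .negSucc 175, .negSucc 246, .ofNat 359⟩, ⟨.negSucc 128, .ofNat 101, .negSucc 29, .negSucc 184, .negSucc 62, .negSucc 51⟩, .ofNat 752, .negSucc 832, .ofNat 0, .negSucc 832, .ofNat 1631, .ofNat 0, .ofNat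 128, .ofNat 343, .negSucc 201, .ofNat 0, .ofNat 257, .negSucc 95, .ofNat 0, .ofNat 0, .ofNat 1277, .ofNat 7984, .ofNat 10851449228843076733026441368963221815296, .ofNat 0, .ofNat 431407951317431825592501681159929856, .ofNat 0, .ofNat 0, .ofNat 0, .ofNat 0, .ofNat 0, .ofNat 0, .ofNat 0, .ofNat 86096772604184419681218896496812883968, .ofNat 0, .ofNat 423812529450084014126832093342021636325376, .ofNat 0, .ofNat 37573602736332942293603701650792382464, .ofNat 0⟩)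
    (by decide +kernel)
theorem L02855 : Good (Phi V5.P V5.D 1 1) ⟨4, 12, 2, 2, 2, 1, 2, 1, 4, 5⟩ :=
  out_sound (S := T5.ds_pp) T5.ok_pp (w := 49) (j := 3) (by decide +kernel)
theorem L02856 : Good (Phi V5.P V5.D 1 1) ⟨4, 13, 2, 2, 2, 1, 3, 2, 6, 20⟩ :=
  leafX_sound T5.ok_pp T5.Ypp.bz_eq (w := 226) (c := ⟨⟨.negSucc 2289, .negSucc 210, .negSucc 26, .negSucc 149, .negSucc 112, .ofNat 50⟩, ⟨.negSucc 1194, .negSucc 256, .negSucc 300, .negSucc 92, .negSucc 68, .ofNat 29⟩, ⟨.ofNat 2002, .ofNat 77, .ofNat 61, .negSucc 419, .ofNat 278, .negSucc 49⟩, ⟨.negSucc 3518, .negSucc 18, .negSucc 10, .negSucc 106, .negSucc 138, .ofNat 79⟩, ⟨.negSucc 88, .ofNat 7, .ofNat 1, .negSucc 191, .negSucc 36, .negSucc 12⟩, .ofNat 752, .negSucc 831, .ofNat 0, .negSucc 831, .ofNat 1625, .ofNat 0, .ofNat 128, .ofNat 374, .negSucc 167, .ofNat 0, .ofNat 283, .negSucc 77, .ofNat 0, .ofNat 0, .ofNat 1385, .ofNat 85571, .ofNat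 1109168350554754263476074676646225355336581120, .ofNat 0, .ofNat 19075703607231200418363753576120874696704, .ofNat 0, .ofNat 6675832488367436853927550567594946591903973376, .ofNat 0, .ofNat 0, .ofNat 0, .ofNat 20858059787746366450907336620392079789165379584, .ofNat 0, .ofNat 1484151746374077116965119905357462639738880, .ofNat 0, .ofNat 29831818584387745664680020675180776584768389120, .ofNat 0, .ofNat 0, .ofNat 0⟩)
    (by decide +kernel)
theorem L02857 : Good (Phi V5.P V5.D 1 1) ⟨4, 13, 2, 2, 2, 1, 3, 2, 6, 21⟩ :=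
  leafX_sound T5.ok_pp T5.Ypp.bz_eq (w := 227) (c := ⟨⟨.negSucc 2234, .negSucc 209, .negSucc 25, .negSucc 141, .negSucc 125, .ofNat 53⟩, ⟨.negSucc 1165, .negSucc 259, .negSucc 291, .negSucc 85, .negSucc 73, .ofNat 30⟩, ⟨.ofNat 1910, .ofNat 65, .ofNat 24, .negSucc 385, .ofNat 311, .negSucc 54⟩, ⟨.negSucc 3422, .negSucc 19, .ofNat 12, .negSucc 98, .negSucc 165, .ofNat 85⟩, ⟨.negSucc 101, .ofNat 8, .negSucc 9, .negSucc 193, .negSucc 33, .negSucc 12⟩, .ofNat 749, .negSucc 831, .ofNat 0, .negSucc 831, .ofNat 1638, .ofNat 0, .ofNat 128, .ofNat 319, .negSucc 98, .ofNat 0, .ofNat 240, .negSucc 44, .ofNat 0, .ofNat 0, .ofNat 911, .ofNat 158433, .ofNat 2688559172165243356055903413010885619144982528, .ofNat 0, .ofNat 24990916361795698895721071900598151938048, .ofNat 0, .ofNat 9625317116899622863594185010556270722716532736, .ofNat 0, .ofNat 357392797527482963016531576588367300657152, .ofNat 0, .ofNat 37617287407123484456945875734982421656266342400,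 .ofNat 0, .ofNat 178073618037445559786418372416485663440896, .ofNat 0, .ofNat 31450549469280809752643739613847794750242947072, .ofNat 0, .ofNat 337112744564574541435134873216031517573120, .ofNat 0⟩)
    (by decide +kernel)
theorem L02858 : Good (Phi V5.P V5.D 1 1) ⟨4, 13, 2, 2, 2, 1, 3, 2, 5, 11⟩ :=
  leafX_sound T5.ok_pp T5.Ypp.bz_eq (w := 224) (c := ⟨⟨.negSucc 2202, .negSucc 206, .negSucc 24, .negSucc 117, .negSucc 128, .ofNat 111⟩, ⟨.negSucc 1127, .negSucc 261, .negSucc 280, .negSucc 82, .negSucc 84, .ofNat 67⟩, ⟨.ofNat 1874, .ofNat 44, .ofNat 15, .negSucc 373, .ofNat 295, .negSucc 124⟩, ⟨.negSucc 3395, .negSucc 9, .ofNat 16, .negSucc 52, .negSucc 155, .ofNat 171⟩, ⟨.negSucc 103, .ofNat 1, .negSucc 13, .negSucc 189, .negSucc 42, .negSucc 21⟩, .ofNat 366, .negSucc 259, .ofNat 0, .negSucc 259, .ofNat 642, .ofNat 0, .ofNat 128, .ofNat 159, .negSucc 60, .ofNat 0, .ofNat 161, .negSucc 15, .ofNat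 0, .ofNat 0, .ofNat 528, .ofNat 589229, .ofNat 1404342033440645447848255147859300001622523904, .ofNat 0, .ofNat 1645994334109822656911755743199626264576, .ofNat 0, .ofNat 1637481657295374807035924568109202847230328832, .ofNat 0, .ofNat 0, .ofNat 0, .ofNat 4898918531469160803190046248587596694659530752, .ofNat 0, .ofNat 5627101130026806462184100162043073527808, .ofNat 0, .ofNat 3355342932853164526685015245140085311612649472, .ofNat 0, .ofNat 3312997638281334160727168340196419698688, .ofNat 0⟩)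
    (by decide +kernel)
theorem L02859 : Good (Phi V5.P V5.D 1 1) ⟨4, 13, 2, 2, 2, 1, 3, 3, 4, 5⟩ :=
  leafX_sound T5.ok_pp T5.Ypp.bz_eq (w := 214) (c := ⟨⟨.negSucc 2371, .negSucc 183, .negSucc 49, .negSucc 225, .negSucc 104, .ofNat 215⟩, ⟨.negSucc 1244, .negSucc 242, .negSucc 309, .negSucc 136, .negSucc 61, .ofNat 123⟩, ⟨.ofNat 2183, .ofNat 77, .ofNat 5, .negSucc 223, .ofNat 182, .negSucc 266⟩, ⟨.negSucc 3618, .ofNat 13, .negSucc 22, .negSucc 201, .negSucc 125, .ofNat 338⟩, ⟨.negSucc 111, .ofNat 14, .negSucc 6, .negSucc 222, .negSucc 48, .negSucc 39⟩, .ofNat 745, .negSucc 825, .ofNat 0, .negSucc 825, .ofNat 1636, .ofNat 0, .ofNat 128, .ofNat 543, .negSucc 186, .ofNat 0, .ofNat 409, .negSucc 89, .ofNat 0, .ofNat 0, .ofNat 1555, .ofNat 19505, .ofNat 2982924522254957565592015140280311671160832, .ofNat 0, .ofNat 7007024389151086140665639826192596992, .ofNat 0, .ofNat 27156956810983036287894505889348516273192960,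 .ofNat 0, .ofNat 231077122677686691391630035109040619520, .ofNat 0, .ofNat 0, .ofNat 0, .ofNat 0, .ofNat 0, .ofNat 0, .ofNat 0, .ofNat 0, .ofNat 0⟩)
    (by decide +kernel)
theorem L02860 : Good (Phi V5.P V5.D 1 1) ⟨3, 6, 2, 3, 2, 1, 2, 1, 3, 2⟩ :=
  out_sound (S := T5.ds_pp) T5.ok_pp (w := 43) (j := 3) (by decide +kernel)
theorem L02861 : Good (Phi V5.P V5.D 1 1) ⟨3, 6, 1, 1, 1, 0, 2, 0, 3, 3⟩ :=
  out_sound (S := T5.ds_pp) T5.ok_pp (w := 20) (j := 1) (by decide +kernel)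
theorem L02862 : Good (Phi V5.P V5.D 1 1) ⟨3, 6, 1, 1, 2, 0, 2, 1, 3, 3⟩ :=
  out_sound (S := T5.ds_pp) T5.ok_pp (w := 22) (j := 1) (by decide +kernel)
theorem L02863 : Good (Phi V5.P V5.D 1 1) ⟨3, 6, 1, 1, 2, 1, 2, 1, 3, 3⟩ :=
  leafX_sound T5.ok_pp T5.Ypp.bz_eq (w := 198) (c := ⟨⟨.negSucc 1742, .negSucc 456, .negSucc 24, .negSucc 219, .negSucc 283, .ofNat 405⟩, ⟨.negSucc 729, .negSucc 548, .negSucc 532, .negSucc 135, .negSucc 172, .ofNat 239⟩, ⟨.ofNat 1588, .ofNat 225, .negSucc 142, .negSucc 209, .ofNat 383, .negSucc 609⟩, ⟨.negSucc 3077, .negSucc 70, .ofNat 40, .negSucc 161, .negSucc 308, .ofNat 594⟩, ⟨.ofNat 9, .negSucc 15, .ofNat 0, .negSucc 264, .negSucc 164, .negSucc 26⟩, .ofNat 765, .negSucc 850, .ofNat 0, .negSucc 850, .ofNat 1648, .ofNat 0, .ofNat 128, .ofNat 292, .negSucc 184, .ofNat 0, .ofNat 222, .negSucc 93, .ofNat 0, .ofNat 0, .ofNat 1960, .ofNat 26000, .ofNat 3878887026041684022085486438085140938752,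 .ofNat 0, .ofNat 0, .ofNat 0, .ofNat 10556174357648352908267324320397580566528, .ofNat 0, .ofNat 397195436424034478367200631368712192, .ofNat 0, .ofNat 50935361730760613297961735630116783915008, .ofNat 0, .ofNat 530092488900530690142120367584444416, .ofNat 0, .ofNat 44244210163430531815699838742348284559360, .ofNat 0, .ofNat 0, .ofNat 0⟩)
    (by decide +kernel)
theorem L02864 : Good (Phi V5.P V5.D 1 1) ⟨5, 28, 3, 4, 1, 0, 2, 0, 3, 2⟩ :=
  leafX_sound T5.ok_pp T5.Ypp.bz_eq (w := 200) (c := ⟨⟨.negSucc 2725, .negSucc 207, .ofNat 78, .ofNat 88, .negSucc 231, .ofNat 282⟩, ⟨.negSucc 1575, .negSucc 200, .negSucc 105, .ofNat 53, .negSucc 146, .ofNat 173⟩, ⟨.ofNat 2170, .negSucc 199, .ofNat 350, .negSucc 1425, .ofNat 761, .negSucc 486⟩, ⟨.negSucc 3915, .negSucc 104, .ofNat 55, .ofNat 276, .negSucc 290, .ofNat 446⟩, ⟨.ofNat 15, .negSucc 26, .ofNat 57, .negSucc 232, .negSucc 40, .negSucc 88⟩, .ofNat 2067,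 .negSucc 2824, .ofNat 0, .negSucc 2824, .ofNat 4649, .ofNat 0, .ofNat 128, .ofNat 1174, .negSucc 262, .ofNat 0, .ofNat 806, .negSucc 154, .ofNat 0, .ofNat 0, .ofNat 1793, .ofNat 79905, .ofNat 19537606139704322644358544984691982729216, .ofNat 0, .ofNat 3742342299769969673043628261376, .ofNat 0, .ofNat 80940267117637481900340051375217606393856, .ofNat 0, .ofNat 509158590821639902177863804125184, .ofNat 0, .ofNat 365521031950766449520784637935882329915392, .ofNat 0, .ofNat 1404210680056237231511537824301056, .ofNat 0, .ofNat 752956207712673743335592826072407744708608, .ofNat 0, .ofNat 434995837844168782897318450954240, .ofNat 0⟩)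
    (by decide +kernel)
theorem L02865 : Good (Phi V5.P V5.D 1 1) ⟨5, 28, 4, 8, 1, 0, 2, 1, 3, 2⟩ :=
  out_sound (S := T5.ds_pp) T5.ok_pp (w := 59) (j := 3) (by decide +kernel)
theorem L02866 : Good (Phi V5.P V5.D 1 1) ⟨5, 28, 4, 9, 2, 0, 2, 1, 3, 2⟩ :=
  leafX_sound T5.ok_pp T5.Ypp.bz_eq (w := 214) (c := ⟨⟨.negSucc 2811, .negSucc 167, .negSucc 4, .negSucc 62, .ofNat 66, .ofNat 396⟩, ⟨.negSucc 1709, .negSucc 161, .negSucc 79, .negSucc 41, .ofNat 41, .ofNat 250⟩, ⟨.ofNat 3078, .ofNat 330, .negSucc 104, .negSucc 299, .negSucc 155, .negSucc 419⟩, ⟨.negSucc 4056, .negSucc 75, .negSucc 12, .negSucc 4, .ofNat 112, .ofNat 594⟩, ⟨.ofNat 39, .negSucc 34, .ofNat 15, .negSucc 131, .negSucc 26, .negSucc 47⟩, .ofNat 846, .negSucc 951, .ofNat 0, .negSucc 951, .ofNat 1720, .ofNat 0, .ofNat 128, .ofNat 486, .negSucc 151, .ofNat 0, .ofNat 376, .negSucc 86, .ofNat 0, .ofNat 0, .ofNat 932, .ofNat 9127, .ofNat 51940793915865904600933354312395001711034368,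 .ofNat 0, .ofNat 28176608783066237484467982537064448, .ofNat 0, .ofNat 0, .ofNat 0, .ofNat 800014614296314984220836753393582080, .ofNat 0, .ofNat 0, .ofNat 0, .ofNat 0, .ofNat 0, .ofNat 1032271544548594155853320698384929919384682496, .ofNat 0, .ofNat 8104531960009199942702587838187175936, .ofNat 0⟩)
    (by decide +kernel)
theorem L02867 : Good (Phi V5.P V5.D 1 1) ⟨5, 28, 4, 9, 2, 1, 2, 1, 4, 4⟩ :=
  leafX_sound T5.ok_pp T5.Ypp.bz_eq (w := 219) (c := ⟨⟨.negSucc 2765, .negSucc 320, .ofNat 98, .negSucc 214, .negSucc 237, .ofNat 249⟩, ⟨.negSucc 1680, .negSucc 271, .negSucc 13, .negSucc 138, .negSucc 151, .ofNat 157⟩, ⟨.ofNat 2421, .ofNat 442, .negSucc 173, .negSucc 375, .ofNat 498, .negSucc 267⟩, ⟨.negSucc 3924, .negSucc 255, .ofNat 113, .negSucc 186, .negSucc 293, .ofNat 388⟩, ⟨.negSucc 57, .negSucc 42, .ofNat 39, .negSucc 192, .negSucc 70, .negSucc 52⟩, .ofNat 742, .negSucc 769, .ofNat 0, .negSucc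 769, .ofNat 1389, .ofNat 0, .ofNat 128, .ofNat 407, .negSucc 221, .ofNat 0, .ofNat 331, .negSucc 111, .ofNat 0, .ofNat 0, .ofNat 1383, .ofNat 10351, .ofNat 172894943971634867982549245231199724083609600, .ofNat 0, .ofNat 1804168046956406589368185005780500480, .ofNat 0, .ofNat 0, .ofNat 0, .ofNat 121828149754769230020630843412239613952, .ofNat 0, .ofNat 0, .ofNat 0, .ofNat 1041182642566024243403377322483246956544, .ofNat 0, .ofNat 11032391568344534986774433584859840498712444928, .ofNat 0, .ofNat 528888071349165349676434851354160136192, .ofNat 0⟩)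
    (by decide +kernel)
theorem L02868 : Good (Phi V5.P V5.D 1 1) ⟨6, 56, 4, 9, 2, 1, 3, 2, 5, 10⟩ :=
  leafX_sound T5.ok_pp T5.Ypp.bz_eq (w := 236) (c := ⟨⟨.negSucc 2496, .negSucc 49, .negSucc 12, .negSucc 157, .negSucc 118, .ofNat 113⟩, ⟨.negSucc 1516, .negSucc 65, .negSucc 77, .negSucc 102, .negSucc 75, .ofNat 71⟩, ⟨.ofNat 2102, .ofNat 9, .ofNat 19, .negSucc 429, .ofNat 281, .negSucc 126⟩, ⟨.negSucc 3539, .ofNat 0, .negSucc 7, .negSucc 101, .negSucc 140, .ofNat 172⟩, ⟨.negSucc 76, .ofNat 4, .negSucc 3, .negSucc 191, .negSucc 41, .negSucc 18⟩, .ofNat 3998, .negSucc 5823, .ofNat 0, .negSucc 5823, .ofNat 9322, .ofNat 0, .ofNat 128, .ofNat 1273, .negSucc 496, .ofNat 0, .ofNat 851, .negSucc 303, .ofNat 0, .ofNat 0, .ofNat 4451, .ofNat 209272, .ofNat 4683391336147345845904769932980209010707615711232, .ofNat 0, .ofNat 1385371955266353569644583583819296145408, .ofNat 0, .ofNat 37603805876888187659390691720685232039573300707328,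 .ofNat 0, .ofNat 305621652439100156473743184628791474388992, .ofNat 0, .ofNat 386902455707979322800574258363246377123082466754560, .ofNat 0, .ofNat 45409938200181016163734180217966836056064, .ofNat 0, .ofNat 435631371273358961974275944013965362996502427860992, .ofNat 0, .ofNat 30124085718133948378462928447336509079552, .ofNat 0⟩)
    (by decide +kernel)
theorem L02869 : Good (Phi V5.P V5.D 1 1) ⟨6, 56, 4, 9, 2, 1, 3, 2, 5, 11⟩ :=
  leafX_sound T5.ok_pp T5.Ypp.bz_eq (w := 239) (c := ⟨⟨.negSucc 2412, .negSucc 52, .negSucc 6, .negSucc 114, .negSucc 135, .ofNat 112⟩, ⟨.negSucc 1466, .negSucc 70, .negSucc 68, .negSucc 75, .negSucc 86, .ofNat 71⟩, ⟨.ofNat 1941, .ofNat 14, .ofNat 3, .negSucc 401, .ofNat 305, .negSucc 141⟩, ⟨.negSucc 3413, .negSucc 1, .ofNat 3, .negSucc 34, .negSucc 161, .ofNat 174⟩, ⟨.negSucc 101, .ofNat 3, .negSucc 5, .negSucc 194, .negSucc 40, .negSucc 25⟩, .ofNat 846, .negSucc 950,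 .ofNat 0, .negSucc 950, .ofNat 1719, .ofNat 0, .ofNat 128, .ofNat 223, .negSucc 80, .ofNat 0, .ofNat 170, .negSucc 39, .ofNat 0, .ofNat 0, .ofNat 809, .ofNat 1096751, .ofNat 30202294911426014240176186594890171963064618844160, .ofNat 0, .ofNat 0, .ofNat 0, .ofNat 50413506058064510250982772765025466158022546948096, .ofNat 0, .ofNat 6912136875438957961677986228519848378368, .ofNat 0, .ofNat 115601535134339269054780077431360728255011175268352, .ofNat 0, .ofNat 27452578017019243930274685901659187445760, .ofNat 0, .ofNat 146877301873228594816717766371084725762396509962240, .ofNat 0, .ofNat 2074576764411607891548597229769428303872, .ofNat 0⟩)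
    (by decide +kernel)
theorem L02870 : Good (Phi V5.P V5.D 1 1) ⟨6, 56, 4, 9, 2, 1, 3, 3, 4, 5⟩ :=
  leafX_sound T5.ok_pp T5.Ypp.bz_eq (w := 229) (c := ⟨⟨.negSucc 2591, .negSucc 40, .ofNat 1, .negSucc 227, .negSucc 108, .ofNat 230⟩, ⟨.negSucc 1581, .negSucc 66, .negSucc 61, .negSucc 147, .negSucc 69, .ofNat 146⟩, ⟨.ofNat 2332, .ofNat 4, .negSucc 0, .negSucc 267, .ofNat 169, .negSucc 313⟩, ⟨.negSucc 3657, .ofNat 13, .ofNat 12, .negSucc 182, .negSucc 126, .ofNat 355⟩, ⟨.negSucc 93, .ofNat 15, .negSucc 16, .negSucc 223, .negSucc 43, .negSucc 42⟩, .ofNat 847, .negSucc 951, .ofNat 0, .negSucc 951, .ofNat 1718, .ofNat 0, .ofNat 128, .ofNat 497, .negSucc 166, .ofNat 0, .ofNat 379, .negSucc 89, .ofNat 0, .ofNat 0, .ofNat 1383, .ofNat 32363, .ofNat 75036839128922669468234533688167155433132261376, .ofNat 0, .ofNat 1143673906928462533210646017258553344, .ofNat 0, .ofNat 450110749832643434832482379513178946562569535488,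 .ofNat 0, .ofNat 1295477056914401344026391469434232373248, .ofNat 0, .ofNat 0, .ofNat 0, .ofNat 0, .ofNat 0, .ofNat 0, .ofNat 0, .ofNat 1034786301794789331365087474918040272896, .ofNat 0⟩)
    (by decide +kernel)
theorem L02871 : Good (Phi V5.P V5.D 1 1) ⟨6, 57, 4, 9, 2, 1, 2, 1, 4, 5⟩ :=
  out_sound (S := T5.ds_pp) T5.ok_pp (w := 65) (j := 3) (by decide +kernel)
theorem L02872 : Good (Phi V5.P V5.D 1 1) ⟨6, 56, 4, 10, 1, 0, 2, 0, 3, 2⟩ :=
  leafX_sound T5.ok_pp T5.Ypp.bz_eq (w := 210) (c := ⟨⟨.negSucc 2660, .negSucc 2, .negSucc 62, .ofNat 74, .negSucc 257, .ofNat 333⟩, ⟨.negSucc 1689, .negSucc 38, .negSucc 114, .ofNat 47, .negSucc 165, .ofNat 213⟩, ⟨.ofNat 2323, .ofNat 193, .negSucc 142, .negSucc 1454, .ofNat 840, .negSucc 385⟩, ⟨.negSucc 3926, .ofNat 52, .negSucc 20, .ofNat 262, .negSucc 267, .ofNat 371⟩, ⟨.ofNat 159, .negSucc 19, .negSucc 43, .negSucc 236, .negSucc 117, .ofNat 125⟩, .ofNat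 5151, .negSucc 7481, .ofNat 0, .negSucc 7481, .ofNat 11677, .ofNat 0, .ofNat 128, .ofNat 2959, .negSucc 590, .ofNat 0, .ofNat 1989, .negSucc 372, .ofNat 0, .ofNat 0, .ofNat 4067, .ofNat 136530, .ofNat 4234916671658400184793729214445402078576640, .ofNat 0, .ofNat 0, .ofNat 0, .ofNat 20636279353059255285568494520045768275918848, .ofNat 0, .ofNat 2617642351196915912328760166187008, .ofNat 0, .ofNat 0, .ofNat 0, .ofNat 0, .ofNat 0, .ofNat 380664333018876995182878934193683545534234624, .ofNat 0, .ofNat 575862767360639518315415481614336, .ofNat 0⟩)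
    (by decide +kernel)
theorem L02873 : Good (Phi V5.P V5.D 1 1) ⟨6, 56, 4, 10, 2, 0, 2, 1, 4, 4⟩ :=
  leafX_sound T5.ok_pp T5.Ypp.bz_eq (w := 228) (c := ⟨⟨.negSucc 2936, .ofNat 100, .negSucc 201, .negSucc 5, .ofNat 73, .ofNat 234⟩, ⟨.negSucc 1868, .ofNat 32, .negSucc 205, .negSucc 4, .ofNat 47, .ofNat 152⟩, ⟨.ofNat 3065, .ofNat 32, .ofNat 59, .negSucc 336, .negSucc 175, .negSucc 221⟩, ⟨.negSucc 4111, .ofNat 88, .negSucc 105, .ofNat 30, .ofNat 81, .ofNat 297⟩, ⟨.negSucc 69, .ofNat 31, .negSucc 93, .negSucc 59, .ofNat 35, .ofNat 50⟩, .ofNat 5167, .negSucc 7505, .ofNat 0, .negSucc 7505, .ofNat 11712, .ofNat 0, .ofNat 128, .ofNat 1594, .negSucc 857, .ofNat 0, .ofNat 1076, .negSucc 551, .ofNat 0, .ofNat 0, .ofNat 4891, .ofNat 50182, .ofNat 0, .ofNat 0, .ofNat 0, .ofNat 0, .ofNat 0, .ofNat 0, .ofNat 1073761887338282972328386578310418661376, .ofNat 0, .ofNat 0, .ofNat 0, .ofNat 5826823769653524227890214175270443679744,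 .ofNat 0, .ofNat 0, .ofNat 0, .ofNat 1089165145439281079362066457153316585472, .ofNat 0⟩)
    (by decide +kernel)
theorem L02874 : Good (Phi V5.P V5.D 1 1) ⟨6, 56, 4, 10, 2, 1, 2, 1, 4, 4⟩ :=
  leafX_sound T5.ok_pp T5.Ypp.bz_eq (w := 226) (c := ⟨⟨.negSucc 2690, .negSucc 106, .ofNat 30, .negSucc 229, .negSucc 217, .ofNat 265⟩, ⟨.negSucc 1703, .negSucc 112, .negSucc 45, .negSucc 151, .negSucc 143, .ofNat 173⟩, ⟨.ofNat 2362, .ofNat 9, .ofNat 66, .negSucc 352, .ofNat 438, .negSucc 297⟩, ⟨.negSucc 3841, .negSucc 55, .ofNat 2, .negSucc 200, .negSucc 275, .ofNat 420⟩, ⟨.negSucc 44, .ofNat 2, .ofNat 38, .negSucc 188, .negSucc 48, .negSucc 70⟩, .ofNat 2388, .negSucc 3262, .ofNat 0, .negSucc 3262, .ofNat 5215, .ofNat 0, .ofNat 128, .ofNat 1864, .negSucc 603, .ofNat 0, .ofNat 1289, .negSucc 372, .ofNat 0, .ofNat 0, .ofNat 3864, .ofNat 22725, .ofNat 5838656478742127536988687008565071673598935040, .ofNat 0,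 .ofNat 341029312311663988020653698102329344, .ofNat 0, .ofNat 0, .ofNat 0, .ofNat 119712981086016325075660097247804129280, .ofNat 0, .ofNat 0, .ofNat 0, .ofNat 0, .ofNat 0, .ofNat 0, .ofNat 0, .ofNat 0, .ofNat 0⟩)
    (by decide +kernel)
theorem L02875 : Good (Phi V5.P V5.D 1 1) ⟨6, 56, 4, 10, 2, 0, 2, 1, 4, 5⟩ :=
  leafX_sound T5.ok_pp T5.Ypp.bz_eq (w := 228) (c := ⟨⟨.negSucc 2541, .negSucc 83, .ofNat 35, .negSucc 101, .ofNat 31, .ofNat 177⟩, ⟨.negSucc 1615, .negSucc 83, .negSucc 48, .negSucc 67, .ofNat 20, .ofNat 114⟩, ⟨.ofNat 2779, .ofNat 73, .negSucc 23, .negSucc 229, .negSucc 180, .negSucc 217⟩, ⟨.negSucc 3670, .negSucc 23, .ofNat 24, .negSucc 39, .ofNat 52, .ofNat 248⟩, ⟨.ofNat 32, .negSucc 12, .ofNat 9, .negSucc 160, .negSucc 14, .ofNat 0⟩, .ofNat 5221, .negSucc 7587, .ofNat 0, .negSucc 7587, .ofNat 11837, .ofNat 0, .ofNat 128, .ofNat 1735, .negSucc 459, .ofNat 0, .ofNat 1171, .negSucc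 295, .ofNat 0, .ofNat 0, .ofNat 3240, .ofNat 161615, .ofNat 111678789706316528717835517819757003718233423872, .ofNat 0, .ofNat 635623853328397907736491769055936512, .ofNat 0, .ofNat 536809266858923818476925101576168744978361614336, .ofNat 0, .ofNat 875188872404060085514979009367306665984, .ofNat 0, .ofNat 7543996963721404136547157078695054742833986535424, .ofNat 0, .ofNat 2004903145901917095319311145239199088640, .ofNat 0, .ofNat 5606025796675658218215274363768351414479661039616, .ofNat 0, .ofNat 425739705123642526542961105493630648320, .ofNat 0⟩)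
    (by decide +kernel)
theorem L02876 : Good (Phi V5.P V5.D 1 1) ⟨6, 56, 4, 10, 2, 1, 3, 2, 5, 10⟩ :=
  leafX_sound T5.ok_pp T5.Ypp.bz_eq (w := 236) (c := ⟨⟨.negSucc 2510, .negSucc 16, .negSucc 47, .negSucc 160, .negSucc 130, .ofNat 114⟩, ⟨.negSucc 1591, .negSucc 46, .negSucc 99, .negSucc 106, .negSucc 85, .ofNat 74⟩, ⟨.ofNat 2131, .negSucc 65, .ofNat 104, .negSucc 430, .ofNat 312, .negSucc 131⟩, ⟨.negSucc 3546, .ofNat 33, .negSucc 41, .negSucc 94, .negSucc 162, .ofNat 178⟩, ⟨.negSucc 86, .ofNat 17, .negSucc 15, .negSucc 201, .negSucc 32, .negSucc 27⟩, .ofNat 1443, .negSucc 1835, .ofNat 0, .negSucc 1835, .ofNat 3044, .ofNat 0, .ofNat 128, .ofNat 786, .negSucc 282, .ofNat 0, .ofNat 563, .negSucc 163, .ofNat 0, .ofNat 0, .ofNat 2492, .ofNat 179166, .ofNat 3623819011753590219719397816723696486008330649600, .ofNat 0, .ofNat 3031037822858420913251906279205318426624, .ofNat 0, .ofNat 29396205057240698604585871255672376900697148358656,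 .ofNat 0, .ofNat 58034697241855516703612594506907256881152, .ofNat 0, .ofNat 216842202771024263503234194100012796142073317163008, .ofNat 0, .ofNat 355553656576400429476610992371778342354944, .ofNat 0, .ofNat 282534758949096775453833128658643799096342173712384, .ofNat 0, .ofNat 86610634999376762359558806364391177453568, .ofNat 0⟩)
    (by decide +kernel)
theorem L02877 : Good (Phi V5.P V5.D 1 1) ⟨6, 56, 4, 10, 2, 1, 3, 2, 5, 11⟩ :=
  leafX_sound T5.ok_pp T5.Ypp.bz_eq (w := 239) (c := ⟨⟨.negSucc 2414, .negSucc 52, .negSucc 6, .negSucc 115, .negSucc 139, .ofNat 114⟩, ⟨.negSucc 1528, .negSucc 71, .negSucc 68, .negSucc 77, .negSucc 91, .ofNat 74⟩, ⟨.ofNat 1944, .ofNat 11, .ofNat 6, .negSucc 405, .ofNat 310, .negSucc 148⟩, ⟨.negSucc 3414, .negSucc 0, .ofNat 2, .negSucc 28, .negSucc 163, .ofNat 175⟩, ⟨.negSucc 99, .ofNat 0, .negSucc 2, .negSucc 200, .negSucc 42, .negSucc 26⟩, .ofNat 890, .negSucc 1005,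 .ofNat 0, .negSucc 1005, .ofNat 1767, .ofNat 0, .ofNat 128, .ofNat 341, .negSucc 113, .ofNat 0, .ofNat 260, .negSucc 58, .ofNat 0, .ofNat 0, .ofNat 1134, .ofNat 1532531, .ofNat 40346073427212923503386829304475711484379887828992, .ofNat 0, .ofNat 5279234386246863922232147921333636825088, .ofNat 0, .ofNat 66259259945244176001162782255372082274123531681792, .ofNat 0, .ofNat 22325128979610331859666209513219632922624, .ofNat 0, .ofNat 265333195563738632889653564801097922939016510963712, .ofNat 0, .ofNat 6023258744474938468932761207791849308160, .ofNat 0, .ofNat 289816335332694408825229169203261551515426508242944, .ofNat 0, .ofNat 12442266501916757070116822463760847339520, .ofNat 0⟩)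
    (by decide +kernel)
theorem L02878 : Good (Phi V5.P V5.D 1 1) ⟨6, 56, 4, 10, 2, 1, 3, 3, 4, 5⟩ :=
  leafX_sound T5.ok_pp T5.Ypp.bz_eq (w := 229) (c := ⟨⟨.negSucc 2552, .negSucc 117, .ofNat 67, .negSucc 243, .negSucc 98, .ofNat 214⟩, ⟨.negSucc 1620, .negSucc 110, .negSucc 26, .negSucc 160, .negSucc 64, .ofNat 139⟩, ⟨.ofNat 2293, .ofNat 84, .negSucc 69, .negSucc 248, .ofNat 151, .negSucc 286⟩, ⟨.negSucc 3610, .negSucc 68, .ofNat 76, .negSucc 193, .negSucc 108, .ofNat 333⟩, ⟨.negSucc 89, .negSucc 14, .ofNat 20, .negSucc 232, .negSucc 47, .negSucc 45⟩, .ofNat 890, .negSucc 1006, .ofNat 0, .negSucc 1006, .ofNat 1769, .ofNat 0, .ofNat 128, .ofNat 529, .negSucc 194, .ofNat 0, .ofNat 404, .negSucc 108, .ofNat 0, .ofNat 0, .ofNat 1575, .ofNat 35821, .ofNat 72984918059541641871368474848437927073013563392, .ofNat 0, .ofNat 3958597466593893096829172728796807168, .ofNat 0, .ofNat 285752232155120638499591244315588656391136477184,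 .ofNat 0, .ofNat 1032684453666166099300631553627251539968, .ofNat 0, .ofNat 1054509276977343782642924502394106587797079982080, .ofNat 0, .ofNat 5305874800061189533977326676683614322688, .ofNat 0, .ofNat 0, .ofNat 0, .ofNat 2064614573365173364322316510867815923712, .ofNat 0⟩)
    (by decide +kernel)
theorem L02879 : Good (Phi V5.P V5.D 1 1) ⟨6, 57, 4, 10, 1, 0, 2, 0, 3, 2⟩ :=
  leafX_sound T5.ok_pp T5.Ypp.bz_eq (w := 212) (c := ⟨⟨.negSucc 2781, .negSucc 251, .ofNat 132, .ofNat 93, .negSucc 239, .ofNat 253⟩, ⟨.negSucc 1801, .negSucc 204, .ofNat 12, .ofNat 62, .negSucc 159, .ofNat 166⟩, ⟨.ofNat 2531, .negSucc 93, .ofNat 38, .negSucc 1453, .ofNat 747, .negSucc 439⟩, ⟨.negSucc 3931, .negSucc 38, .negSucc 27, .ofNat 290, .negSucc 226, .ofNat 276⟩, ⟨.ofNat 158, .negSucc 27, .negSucc 18, .negSucc 234, .negSucc 123, .ofNat 89⟩, .ofNat 7319, .negSucc 10589, .ofNat 0, .negSucc 10589, .ofNat 16104, .ofNat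 0, .ofNat 128, .ofNat 4789, .negSucc 1042, .ofNat 0, .ofNat 3250, .negSucc 683, .ofNat 0, .ofNat 0, .ofNat 6732, .ofNat 52601, .ofNat 4130926487993490409903666629374645077278720, .ofNat 0, .ofNat 0, .ofNat 4051898366535916907514973258580483899392, .ofNat 24688837167002813410058040920274113885372416, .ofNat 0, .ofNat 3484069049750906630684929270218752, .ofNat 5274037661519524046660822909054889372942336, .ofNat 0, .ofNat 0, .ofNat 0, .ofNat 0, .ofNat 589531087189930739531089122375683961914392576, .ofNat 0, .ofNat 851748710826002868617979388493824, .ofNat 0⟩)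
    (by decide +kernel)
theorem L02880 : Good (Phi V5.P V5.D 1 1) ⟨6, 57, 4, 10, 1, 0, 3, 2, 4, 4⟩ :=
  leafX_sound T5.ok_pp T5.Ypp.bz_eq (w := 214) (c := ⟨⟨.negSucc 2864, .negSucc 33, .negSucc 13, .negSucc 110, .negSucc 57, .ofNat 271⟩, ⟨.negSucc 1860, .negSucc 64, .negSucc 76, .negSucc 74, .negSucc 38, .ofNat 180⟩, ⟨.ofNat 2998, .ofNat 94, .ofNat 22, .negSucc 983, .ofNat 178, .negSucc 273⟩, ⟨.negSucc 4075, .ofNat 3, .ofNat 4, .ofNat 22, .negSucc 73, .ofNat 411⟩, ⟨.ofNat 49, .ofNat 3, .ofNat 7, .negSucc 267, .negSucc 11, .negSucc 44⟩, .ofNat 870, .negSucc 951, .ofNat 0, .negSucc 951, .ofNat 1626, .ofNat 0, .ofNat 128, .ofNat 569, .negSucc 199, .ofNat 0, .ofNat 454, .negSucc 113, .ofNat 0, .ofNat 0, .ofNat 1326, .ofNat 22288, .ofNat 0, .ofNat 0, .ofNat 0, .ofNat 0, .ofNat 0, .ofNat 0, .ofNat 29403409485287356830674374205898752, .ofNat 234294937081261560245329983231422636044058624, .ofNat 0, .ofNat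 0, .ofNat 0, .ofNat 1415671296736846061396117392896051953618911232, .ofNat 508333265035498681917397999759837018881785856, .ofNat 0, .ofNat 22651841114028860938960255789826048, .ofNat 522101158323764923286837213791910526109876224⟩)
    (by decide +kernel)
theorem L02881 : Good (Phi V5.P V5.D 1 1) ⟨6, 57, 4, 10, 1, 0, 3, 3, 4, 4⟩ :=
  leafX_sound T5.ok_pp T5.Ypp.bz_eq (w := 218) (c := ⟨⟨.negSucc 2960, .negSucc 244, .ofNat 244, .negSucc 331, .negSucc 42, .ofNat 295⟩, ⟨.negSucc 1916, .negSucc 190, .ofNat 79, .negSucc 221, .negSucc 28, .ofNat 196⟩, ⟨.ofNat 3006, .negSucc 99, .negSucc 33, .negSucc 515, .ofNat 70, .negSucc 314⟩, ⟨.negSucc 4024, .ofNat 17, .ofNat 33, .negSucc 263, .negSucc 53, .ofNat 415⟩, ⟨.ofNat 17, .ofNat 0, .ofNat 17, .negSucc 301, .negSucc 11, .negSucc 3⟩, .ofNat 5315, .negSucc 7469, .ofNat 0, .negSucc 7469, .ofNat 11251, .ofNat 0, .ofNat 128, .ofNat 1793, .negSucc 511, .ofNat 0,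 .ofNat 1262, .negSucc 335, .ofNat 0, .ofNat 0, .ofNat 3012, .ofNat 26220, .ofNat 0, .ofNat 0, .ofNat 908358318416159757279476070744064, .ofNat 0, .ofNat 0, .ofNat 0, .ofNat 502684048454222969007903351081271296, .ofNat 0, .ofNat 0, .ofNat 0, .ofNat 2334664045855158620563565317881593856, .ofNat 10119850733844361977623737541829782565745065984, .ofNat 0, .ofNat 0, .ofNat 139727236670716323786112529181179904, .ofNat 0⟩)
    (by decide +kernel)
theorem L02882 : Good (Phi V5.P V5.D 1 1) ⟨6, 57, 4, 10, 2, 0, 2, 1, 4, 5⟩ :=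
  leafX_sound T5.ok_pp T5.Ypp.bz_eq (w := 226) (c := ⟨⟨.negSucc 2572, .ofNat 4, .negSucc 101, .negSucc 95, .ofNat 44, .ofNat 185⟩, ⟨.negSucc 1657, .negSucc 12, .negSucc 154, .negSucc 63, .ofNat 29, .ofNat 123⟩, ⟨.ofNat 2808, .ofNat 34, .ofNat 93, .negSucc 259, .negSucc 195, .negSucc 209⟩, ⟨.negSucc 3696, .negSucc 11, .negSucc 44, .negSucc 37, .ofNat 84, .ofNat 274⟩, ⟨.ofNat 47, .ofNat 5, .negSucc 12, .negSucc 145, .negSucc 31, .negSucc 22⟩, .ofNat 937, .negSucc 1063, .ofNat 0, .negSucc 1063, .ofNat 1820, .ofNat 0, .ofNat 128, .ofNat 674, .negSucc 280, .ofNat 0, .ofNat 523, .negSucc 169, .ofNat 0, .ofNat 0, .ofNat 1953, .ofNat 68614, .ofNat 46896185712350145338727090710743949997261193216, .ofNat 0, .ofNat 335441863420985701509357474202779648, .ofNat 0, .ofNat 126128700689373800500870255518334902661621481472, .ofNat 0, .ofNat 83113583681552594303746462585542672384, .ofNat 0, .ofNat 981423013724385928168355363132949020760474648576,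 .ofNat 0, .ofNat 804135982452270710793672262807243980800, .ofNat 1517116156664210539367951047394819787288622399488, .ofNat 1237774948387410898456793437384083451018769072128, .ofNat 0, .ofNat 73479998766435699695345478078683938816, .ofNat 0⟩)
    (by decide +kernel)
theorem L02883 : Good (Phi V5.P V5.D 1 1) ⟨6, 57, 4, 10, 2, 1, 3, 2, 5, 10⟩ :=
  leafX_sound T5.ok_pp T5.Ypp.bz_eq (w := 236) (c := ⟨⟨.negSucc 2563, .negSucc 86, .ofNat 27, .negSucc 159, .negSucc 133, .ofNat 115⟩, ⟨.negSucc 1661, .negSucc 94, .negSucc 48, .negSucc 106, .negSucc 89, .ofNat 77⟩, ⟨.ofNat 2132, .ofNat 44, .negSucc 3, .negSucc 446, .ofNat 308, .negSucc 132⟩, ⟨.negSucc 3540, .negSucc 12, .ofNat 7, .negSucc 89, .negSucc 166, .ofNat 183⟩, ⟨.negSucc 80, .negSucc 0, .ofNat 4, .negSucc 201, .negSucc 31, .negSucc 31⟩, .ofNat 938, .negSucc 1064, .ofNat 0, .negSucc 1064, .ofNat 1822, .ofNat 0, .ofNat 128, .ofNat 575, .negSucc 227,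 .ofNat 0, .ofNat 440, .negSucc 124, .ofNat 0, .ofNat 0, .ofNat 1914, .ofNat 140836, .ofNat 2804321507388820249239067981276451194919177945088, .ofNat 0, .ofNat 825801536215170498364735438447754346496, .ofNat 12619004089831270200427037740394890094913450409984, .ofNat 22312612706924212184390103410426429172758880452608, .ofNat 0, .ofNat 5302108029335962633296470199787321294848, .ofNat 175972266466359624387617584919126161060243821297664, .ofNat 125599769023067511067639674756561240707675474362368, .ofNat 0, .ofNat 100127588483258174516574008972658947915776, .ofNat 0, .ofNat 129563478972112090332260763946858090446130715295744, .ofNat 0, .ofNat 59970849722307171795764718853722174652416, .ofNat 0⟩)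
    (by decide +kernel)
theorem L02884 : Good (Phi V5.P V5.D 1 1) ⟨6, 57, 4, 10, 2, 1, 3, 2, 5, 11⟩ :=
  leafX_sound T5.ok_pp T5.Ypp.bz_eq (w := 238) (c := ⟨⟨.negSucc 2454, .negSucc 38, .negSucc 22, .negSucc 117, .negSucc 142, .ofNat 115⟩, ⟨.negSucc 1593, .negSucc 67, .negSucc 74, .negSucc 78, .negSucc 95, .ofNat 77⟩, ⟨.ofNat 1956, .ofNat 9, .ofNat 8, .negSucc 411, .ofNat 314, .negSucc 155⟩, ⟨.negSucc 3411, .negSucc 0, .ofNat 1, .negSucc 21, .negSucc 174, .ofNat 182⟩, ⟨.negSucc 83, .negSucc 0, .negSucc 1, .negSucc 215, .negSucc 43, .negSucc 28⟩, .ofNat 166, .negSucc 59, .ofNat 0, .negSucc 59, .ofNat 216, .ofNat 0, .ofNat 187, .ofNat 72, .negSucc 136, .ofNat 0, .ofNat 128, .ofNat 1, .ofNat 0, .ofNat 0, .ofNat 679, .ofNat 584151, .ofNat 15128352793239835208033914714175631645983635406848, .ofNat 0, .ofNat 0, .ofNat 0, .ofNat 42076783238176165430092808536312908508800734986240, .ofNat 0, .ofNat 8874765889850707544034862924430126874624,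 .ofNat 0, .ofNat 28719251566402269988567655929531854913966687911936, .ofNat 0, .ofNat 4750395341391744212726001348754718851072, .ofNat 28553956279220260351325138637961700251728246472704, .ofNat 72602557005824676509523242375941135594587930230784, .ofNat 0, .ofNat 0, .ofNat 0⟩)
    (by decide +kernel)
theorem L02885 : Good (Phi V5.P V5.D 1 1) ⟨6, 57, 4, 10, 2, 1, 3, 3, 4, 5⟩ :=
  leafX_sound T5.ok_pp T5.Ypp.bz_eq (w := 230) (c := ⟨⟨.negSucc 2639, .negSucc 21, .ofNat 7, .negSucc 240, .negSucc 120, .ofNat 238⟩, ⟨.negSucc 1707, .negSucc 44, .negSucc 70, .negSucc 160, .negSucc 80, .ofNat 159⟩, ⟨.ofNat 2356, .negSucc 15, .negSucc 11, .negSucc 270, .ofNat 184, .negSucc 340⟩, ⟨.negSucc 3653, .ofNat 30, .ofNat 26, .negSucc 187, .negSucc 136, .ofNat 357⟩, ⟨.negSucc 104, .ofNat 4, .ofNat 3, .negSucc 225, .negSucc 48, .negSucc 33⟩, .ofNat 2697, .negSucc 3678, .ofNat 0, .negSucc 3678, .ofNat 5754, .ofNat 0,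 .ofNat 128, .ofNat 2018, .negSucc 473, .ofNat 0, .ofNat 1408, .negSucc 301, .ofNat 0, .ofNat 0, .ofNat 3944, .ofNat 65352, .ofNat 34447608869173203318659779317855467586954723328, .ofNat 0, .ofNat 6406428672698469444914940183587061760, .ofNat 0, .ofNat 462904040159638828028795416285381742008402444288, .ofNat 0, .ofNat 7696246912079165686461471416901636718592, .ofNat 56091231128398772258267810173677601733770104274944, .ofNat 0, .ofNat 0, .ofNat 0, .ofNat 0, .ofNat 17158481544501506936417259945229038511162151403520, .ofNat 0, .ofNat 270362393166983602287565977690275053568, .ofNat 105033242005146581247039424207787286582782207197184⟩)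
    (by decide +kernel)
theorem L02886 : Good (Phi V5.P V5.D 1 1) ⟨6, 56, 4, 11, 1, 0, 1, 0, 3, 2⟩ :=
  out_sound (S := T5.ds_pp) T5.ok_pp (w := 65) (j := 3) (by decide +kernel)
theorem L02887 : Good (Phi V5.P V5.D 1 1) ⟨7, 114, 5, 22, 1, 0, 1, 0, 3, 2⟩ :=
  out_sound (S := T5.ds_pp) T5.ok_pp (w := 73) (j := 3) (by decide +kernel)
theorem L02888 : Good (Phi V5.P V5.D 1 1) ⟨7, 115, 5, 22, 1, 0, 1, 0, 3, 2⟩ :=
  out_sound (S := T5.ds_pp) T5.ok_pp (w := 21) (j := 4) (by decide +kernel)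
theorem L02889 : Good (Phi V5.P V5.D 1 1) ⟨6, 57, 5, 23, 1, 0, 1, 0, 3, 2⟩ :=
  out_sound (S := T5.ds_pp) T5.ok_pp (w := 67) (j := 3) (by decide +kernel)
theorem L02890 : Good (Phi V5.P V5.D 1 1) ⟨5, 29, 2, 2, 1, 0, 1, 0, 3, 2⟩ :=
  out_sound (S := T5.ds_pp) T5.ok_pp (w := 17) (j := 4) (by decide +kernel)
theorem L02891 : Good (Phi V5.P V5.D 1 1) ⟨5, 28, 3, 6, 1, 0, 1, 0, 3, 2⟩ :=
  out_sound (S := T5.ds_pp) T5.ok_pp (w := 57) (j := 3) (by decide +kernel)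
theorem L02892 : Good (Phi V5.P V5.D 1 1) ⟨5, 29, 3, 6, 1, 0, 1, 0, 3, 2⟩ :=
  out_sound (S := T5.ds_pp) T5.ok_pp (w := 17) (j := 4) (by decide +kernel)
theorem L02893 : Good (Phi V5.P V5.D 1 1) ⟨4, 14, 3, 7, 1, 0, 1, 0, 3, 2⟩ :=
  out_sound (S := T5.ds_pp) T5.ok_pp (w := 51) (j := 3) (by decide +kernel)
theorem L02894 : Good (Phi V5.P V5.D 1 1) ⟨4, 15, 1, 1, 1, 0, 1, 0, 3, 2⟩ :=
  out_sound (S := T5.ds_pp) T5.ok_pp (w := 15) (j := 4) (by decide +kernel)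
theorem L02895 : Good (Phi V5.P V5.D 1 1) ⟨5, 28, 2, 2, 1, 0, 2, 0, 3, 3⟩ :=
  out_sound (S := T5.ds_pp) T5.ok_pp (w := 20) (j := 1) (by decide +kernel)
theorem L02896 : Good (Phi V5.P V5.D 1 1) ⟨5, 28, 2, 2, 2, 0, 2, 1, 3, 3⟩ :=
  out_sound (S := T5.ds_pp) T5.ok_pp (w := 22) (j := 1) (by decide +kernel)
theorem L02897 : Good (Phi V5.P V5.D 1 1) ⟨5, 28, 2, 2, 2, 1, 2, 1, 3, 3⟩ :=
  leafX_sound T5.ok_pp T5.Ypp.bz_eq (w := 211) (c := ⟨⟨.negSucc 2178, .negSucc 135, .ofNat 33, .negSucc 232, .negSucc 316, .ofNat 427⟩, ⟨.negSucc 1252, .negSucc 164, .negSucc 225, .negSucc 153, .negSucc 206, .ofNat 276⟩, ⟨.ofNat 1818, .ofNat 45, .negSucc 73, .negSucc 247, .ofNat 407, .negSucc 702⟩, ⟨.negSucc 3142, .negSucc 24, .ofNat 49, .negSucc 148, .negSucc 336, .ofNat 602⟩, ⟨.negSucc 7, .negSucc 11, .ofNat 19, .negSucc 278, .negSucc 163, .negSucc 14⟩, .ofNat 881, .negSucc 995, .ofNat 0, .negSucc 995, .ofNat 1758,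 .ofNat 0, .ofNat 128, .ofNat 470, .negSucc 220, .ofNat 0, .ofNat 360, .negSucc 123, .ofNat 0, .ofNat 0, .ofNat 2264, .ofNat 55125, .ofNat 7162841599935704059412065383813294304788480, .ofNat 0, .ofNat 0, .ofNat 0, .ofNat 51447713497452948255336050324525133072433152, .ofNat 0, .ofNat 244282556194517027601829253080940544, .ofNat 7000061842066953101562350012830655327502336, .ofNat 215483432611389985820428192120390616143101952, .ofNat 0, .ofNat 221782284912098808533720433281728512, .ofNat 0, .ofNat 166466808361183610871128894454719529726509056, .ofNat 0, .ofNat 0, .ofNat 0⟩)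
    (by decide +kernel)
theorem L02898 : Good (Phi V5.P V5.D 1 1) ⟨5, 29, 2, 2, 1, 0, 1, 0, 3, 3⟩ :=
  out_sound (S := T5.ds_pp) T5.ok_pp (w := 17) (j := 4) (by decide +kernel)
theorem L02899 : Good (Phi V5.P V5.D 1 1) ⟨4, 14, 2, 3, 1, 0, 2, 0, 3, 3⟩ :=
  out_sound (S := T5.ds_pp) T5.ok_pp (w := 20) (j := 1) (by decide +kernel)
theorem L02900 : Good (Phi V5.P V5.D 1 1) ⟨5, 28, 3, 6, 1, 0, 2, 1, 3, 3⟩ :=
  out_sound (S := T5.ds_pp) T5.ok_pp (w := 57) (j := 3) (by decide +kernel)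
theorem L02901 : Good (Phi V5.P V5.D 1 1) ⟨5, 29, 3, 6, 1, 0, 2, 1, 3, 3⟩ :=
  out_sound (S := T5.ds_pp) T5.ok_pp (w := 17) (j := 4) (by decide +kernel)
theorem L02902 : Good (Phi V5.P V5.D 1 1) ⟨4, 14, 3, 7, 1, 0, 2, 1, 3, 3⟩ :=
  out_sound (S := T5.ds_pp) T5.ok_pp (w := 51) (j := 3) (by decide +kernel)
theorem L02903 : Good (Phi V5.P V5.D 1 1) ⟨4, 15, 1, 1, 1, 0, 1, 0, 3, 3⟩ :=
  out_sound (S := T5.ds_pp) T5.ok_pp (w := 15) (j := 4) (by decide +kernel)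
theorem L02904 : Good (Phi V5.P V5.D 1 1) ⟨1, 1, 1, 1, 1, 0, 1, 0, 1, 1⟩ :=
  out_sound (S := T5.ds_pp) T5.ok_pp (w := 15) (j := 1) (by decide +kernel)
theorem L02905 : Good (Phi V5.P V5.D 1 1) ⟨2, 2, 1, 1, 2, 0, 2, 2, 3, 0⟩ :=
  out_sound (S := T5.ds_pp) T5.ok_pp (w := 35) (j := 3) (by decide +kernel)
theorem L02906 : Good (Phi V5.P V5.D 1 1) ⟨3, 6, 3, 4, 3, 0, 2, 2, 5, 0⟩ :=
  leafX_sound T5.ok_pp T5.Ypp.bz_eq (w := 227) (c := ⟨⟨.ofNat 2828, .negSucc 1848, .negSucc 214, .ofNat 493, .negSucc 2674, .negSucc 2655⟩, ⟨.ofNat 1972, .negSucc 1422, .negSucc 169, .ofNat 260, .negSucc 1577, .negSucc 1543⟩, ⟨.negSucc 2780, .ofNat 1650, .ofNat 269, .negSucc 356, .ofNat 2692, .ofNat 2645⟩, ⟨.ofNat 3981, .negSucc 2169, .negSucc 643, .ofNat 699, .negSucc 4594, .negSucc 3491⟩, ⟨.negSucc 688, .ofNat 201, .ofNat 471, .ofNat 146, .ofNat 1155, .negSucc 677⟩, .ofNat 1564, .negSucc 2141, .ofNat 0, .negSucc 2141,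 .ofNat 3806, .ofNat 0, .ofNat 128, .ofNat 332, .negSucc 1517, .ofNat 0, .ofNat 227, .negSucc 874, .ofNat 0, .ofNat 0, .ofNat 1797, .ofNat 283, .ofNat 0, .ofNat 0, .ofNat 391187499989675549167671400050909645897728, .ofNat 0, .ofNat 0, .ofNat 0, .ofNat 15625446611075994232622693866921159185924096, .ofNat 0, .ofNat 0, .ofNat 0, .ofNat 23926345450753444544224539466072915980582912, .ofNat 0, .ofNat 0, .ofNat 0, .ofNat 199306588955525551040567813813564428641107968, .ofNat 0⟩)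
    (by decide +kernel)
theorem L02907 : Good (Phi V5.P V5.D 1 1) ⟨3, 7, 3, 4, 3, 0, 2, 2, 5, 0⟩ :=
  leafX_sound T5.ok_pp T5.Ypp.bz_eq (w := 226) (c := ⟨⟨.ofNat 1207, .negSucc 1609, .negSucc 486, .ofNat 1051, .negSucc 3294, .negSucc 2615⟩, ⟨.ofNat 904, .negSucc 1008, .negSucc 475, .ofNat 668, .negSucc 2075, .negSucc 1648⟩, ⟨.negSucc 1471, .ofNat 716, .ofNat 682, .negSucc 901, .ofNat 3306, .ofNat 2616⟩, ⟨.ofNat 2035, .negSucc 2611, .negSucc 857, .ofNat 1523, .negSucc 4968, .negSucc 3755⟩, ⟨.negSucc 114, .negSucc 1451, .ofNat 249, .negSucc 35, .negSucc 88, .negSucc 9⟩, .ofNat 904, .negSucc 882, .ofNat 0, .negSucc 882, .ofNat 1371, .ofNat 0, .ofNat 128, .ofNat 275, .negSucc 1613, .ofNat 0, .ofNat 276, .negSucc 1044, .ofNat 0, .ofNat 0, .ofNat 1740, .ofNat 243, .ofNat 0, .ofNat 0, .ofNat 389781597162371312462083819934313743384576, .ofNat 0, .ofNat 0, .ofNat 0, .ofNat 32718858811867151589896315891846973256368128,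 .ofNat 0, .ofNat 0, .ofNat 0, .ofNat 5192184937572062634940205668386330722172928, .ofNat 0, .ofNat 0, .ofNat 0, .ofNat 17444838399459642090159830130256268578783232, .ofNat 162501691033033795049496461261511128125300671512576⟩)
    (by decide +kernel)
theorem L02908 : Good (Phi V5.P V5.D 1 1) ⟨2, 3, 3, 4, 3, 0, 2, 2, 5, 1⟩ :=
  leafX_sound T5.ok_pp T5.Ypp.bz_eq (w := 220) (c := ⟨⟨.negSucc 1846, .negSucc 1491, .negSucc 311, .ofNat 435, .negSucc 660, .negSucc 336⟩, ⟨.negSucc 719, .negSucc 1564, .negSucc 343, .ofNat 254, .negSucc 394, .negSucc 199⟩, ⟨.ofNat 1841, .ofNat 1247, .ofNat 354, .negSucc 345, .ofNat 670, .ofNat 340⟩, ⟨.negSucc 3123, .negSucc 1064, .negSucc 450, .ofNat 639, .negSucc 1081, .negSucc 488⟩, ⟨.negSucc 105, .ofNat 42, .ofNat 35, .ofNat 1, .ofNat 155, .negSucc 11⟩, .ofNat 732, .negSucc 775, .ofNat 0, .negSucc 775, .ofNat 1462, .ofNat 0, .ofNat 128, .ofNat 328, .negSucc 1199, .ofNat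 0, .ofNat 267, .negSucc 677, .ofNat 0, .ofNat 0, .ofNat 1587, .ofNat 418, .ofNat 0, .ofNat 0, .ofNat 523201564487932479856231577870527784550400, .ofNat 0, .ofNat 0, .ofNat 0, .ofNat 22452451640353178773697775554961255893565440, .ofNat 199407674090757165784820062053205443777606451200, .ofNat 0, .ofNat 0, .ofNat 38125142182288642501194222570702009637273600, .ofNat 9332470167669054608926734739831922512500086538240, .ofNat 0, .ofNat 0, .ofNat 73593304947760100758548357221241074059575296, .ofNat 0⟩)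
    (by decide +kernel)
theorem L02909 : Good (Phi V5.P V5.D 1 1) ⟨2, 3, 3, 4, 3, 0, 2, 2, 4, 1⟩ :=
  leafX_sound T5.ok_pp T5.Ypp.bz_eq (w := 215) (c := ⟨⟨.negSucc 2493, .negSucc 1641, .negSucc 42, .ofNat 219, .ofNat 37, .ofNat 6⟩, ⟨.negSucc 1183, .negSucc 1434, .negSucc 228, .ofNat 128, .ofNat 20, .ofNat 2⟩, ⟨.ofNat 2464, .ofNat 1567, .ofNat 57, .negSucc 182, .negSucc 53, .negSucc 3⟩, ⟨.negSucc 4274, .negSucc 991, .negSucc 83, .ofNat 316, .ofNat 51, .ofNat 49⟩, ⟨.ofNat 100, .negSucc 132, .ofNat 44, .ofNat 17, .negSucc 10, .negSucc 77⟩, .ofNat 758, .negSucc 841, .ofNat 0, .negSucc 841, .ofNat 1646, .ofNat 0, .ofNat 128, .ofNat 266, .negSucc 511, .ofNat 0, .ofNat 204, .negSucc 277, .ofNat 0, .ofNat 0, .ofNat 903, .ofNat 361, .ofNat 0, .ofNat 0, .ofNat 6722907264272521691143389856150369337344, .ofNat 0, .ofNat 0, .ofNat 0, .ofNat 684268394044408382547568647818554103562240, .ofNat 0, .ofNat 0, .ofNat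 0, .ofNat 672545125315038381364920263295806480580608, .ofNat 402256295250785061972859028255135771202888400896, .ofNat 0, .ofNat 0, .ofNat 659519978905835495494501856974972907421696, .ofNat 0⟩)
    (by decide +kernel)
theorem L02910 : Good (Phi V5.P V5.D 1 1) ⟨3, 6, 3, 4, 3, 1, 2, 2, 4, 0⟩ :=
  leafX_sound T5.ok_pp T5.Ypp.bz_eq (w := 222) (c := ⟨⟨.ofNat 3361, .negSucc 3297, .ofNat 320, .ofNat 386, .negSucc 1483, .negSucc 3076⟩, ⟨.ofNat 1606, .negSucc 1436, .negSucc 133, .ofNat 244, .negSucc 848, .negSucc 1753⟩, ⟨.negSucc 3120, .ofNat 3070, .negSucc 281, .negSucc 323, .ofNat 1520, .ofNat 2945⟩, ⟨.ofNat 4217, .negSucc 4201, .ofNat 520, .ofNat 789, .negSucc 2594, .negSucc 4042⟩, ⟨.ofNat 1746, .negSucc 1667, .ofNat 252, .negSucc 450, .ofNat 654, .negSucc 913⟩, .ofNat 1552, .negSucc 2132, .ofNat 0, .negSucc 2132, .ofNat 3814, .ofNat 0, .ofNat 128, .ofNat 391, .negSucc 1098, .ofNat 0, .ofNat 264, .negSucc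 625, .ofNat 0, .ofNat 0, .ofNat 1424, .ofNat 202, .ofNat 0, .ofNat 0, .ofNat 27700012719847575890275157484395850366976, .ofNat 0, .ofNat 0, .ofNat 0, .ofNat 1325492976185770550097951062779098256375808, .ofNat 0, .ofNat 0, .ofNat 0, .ofNat 2494965802409213197818464273197514184720384, .ofNat 0, .ofNat 0, .ofNat 0, .ofNat 0, .ofNat 0⟩)
    (by decide +kernel)
theorem L02911 : Good (Phi V5.P V5.D 1 1) ⟨3, 7, 3, 4, 3, 1, 2, 2, 4, 0⟩ :=
  leafX_sound T5.ok_pp T5.Ypp.bz_eq (w := 219) (c := ⟨⟨.ofNat 674, .negSucc 428, .ofNat 317, .ofNat 338, .negSucc 1518, .negSucc 3399⟩, ⟨.ofNat 548, .negSucc 318, .ofNat 67, .ofNat 207, .negSucc 966, .negSucc 2148⟩, ⟨.negSucc 691, .ofNat 218, .negSucc 208, .negSucc 255, .ofNat 1548, .ofNat 3277⟩, ⟨.ofNat 1012, .negSucc 953, .ofNat 651, .ofNat 438, .negSucc 2423, .negSucc 4959⟩, ⟨.negSucc 253, .negSucc 371, .ofNat 236, .ofNat 95, .negSucc 1, .ofNat 78⟩, .ofNat 797, .negSucc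 747, .ofNat 0, .negSucc 747, .ofNat 1191, .ofNat 0, .ofNat 128, .ofNat 227, .negSucc 1117, .ofNat 0, .ofNat 225, .negSucc 705, .ofNat 0, .ofNat 0, .ofNat 1300, .ofNat 230, .ofNat 0, .ofNat 0, .ofNat 2547132752537431445836901541349416763392, .ofNat 0, .ofNat 0, .ofNat 0, .ofNat 1550044088359812884330756429546160889266176, .ofNat 0, .ofNat 0, .ofNat 0, .ofNat 471447794909806655572068557063372125765632, .ofNat 0, .ofNat 0, .ofNat 0, .ofNat 956428509821535658808054682378503205158912, .ofNat 0⟩)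
    (by decide +kernel)
theorem L02912 : Good (Phi V5.P V5.D 1 1) ⟨2, 3, 3, 4, 3, 1, 2, 2, 4, 1⟩ :=
  leafX_sound T5.ok_pp T5.Ypp.bz_eq (w := 215) (c := ⟨⟨.negSucc 1644, .negSucc 2602, .ofNat 99, .ofNat 112, .negSucc 170, .negSucc 201⟩, ⟨.negSucc 752, .negSucc 1837, .negSucc 154, .ofNat 67, .negSucc 103, .negSucc 116⟩, ⟨.ofNat 1658, .ofNat 2431, .negSucc 84, .negSucc 176, .ofNat 236, .ofNat 179⟩, ⟨.negSucc 3049, .negSucc 2357, .ofNat 109, .ofNat 157, .negSucc 251, .negSucc 255⟩, ⟨.ofNat 339, .negSucc 719, .ofNat 125, .ofNat 25, .negSucc 14, .negSucc 75⟩, .ofNat 732, .negSucc 775, .ofNat 0, .negSucc 775, .ofNat 1462, .ofNat 0, .ofNat 128, .ofNat 214, .negSucc 384, .ofNat 0, .ofNat 171, .negSucc 211, .ofNat 0, .ofNat 0, .ofNat 656, .ofNat 439, .ofNat 0, .ofNat 0, .ofNat 0, .ofNat 0, .ofNat 0, .ofNat 0, .ofNat 519624009490186307974398536551141396709376, .ofNat 0, .ofNat 0, .ofNat 0, .ofNat 513256636105023133596509322859254965600256,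 .ofNat 78599242303884940976285898483484825909272248320, .ofNat 0, .ofNat 0, .ofNat 356753891976879217061123263381449700540416, .ofNat 0⟩)
    (by decide +kernel)
theorem L02913 : Good (Phi V5.P V5.D 1 1) ⟨3, 6, 3, 5, 3, 0, 2, 2, 4, 0⟩ :=
  out_sound (S := T5.ds_pp) T5.ok_pp (w := 45) (j := 3) (by decide +kernel)
theorem L02914 : Good (Phi V5.P V5.D 1 1) ⟨5, 28, 4, 10, 3, 0, 2, 2, 6, 0⟩ :=
  leafX_sound T5.ok_pp T5.Ypp.bz_eq (w := 247) (c := ⟨⟨.ofNat 1415, .negSucc 1541, .ofNat 1256, .ofNat 1749, .negSucc 5187, .negSucc 1980⟩, ⟨.ofNat 1114, .negSucc 1565, .ofNat 1066, .ofNat 1153, .negSucc 3446, .negSucc 1323⟩, ⟨.negSucc 1525, .ofNat 1552, .negSucc 1244, .negSucc 1588, .ofNat 5184, .ofNat 1970⟩, ⟨.ofNat 2765, .negSucc 1611, .ofNat 1379, .ofNat 2143, .negSucc 8231, .negSucc 3098⟩, ⟨.negSucc 1259, .negSucc 514, .ofNat 522, .ofNat 463, .ofNat 1332, .ofNat 501⟩, .ofNat 2570, .negSucc 3503, .ofNat 0,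 .negSucc 3503, .ofNat 5521, .ofNat 0, .ofNat 128, .ofNat 466, .negSucc 3999, .ofNat 0, .ofNat 326, .negSucc 2590, .ofNat 0, .ofNat 0, .ofNat 4364, .ofNat 487, .ofNat 0, .ofNat 0, .ofNat 0, .ofNat 0, .ofNat 0, .ofNat 0, .ofNat 2607532399068026519595871679709604036393041920, .ofNat 0, .ofNat 0, .ofNat 0, .ofNat 1720147181895053052167006898501241526345007104, .ofNat 207410334997428335157888111637750580002216565306032128, .ofNat 0, .ofNat 0, .ofNat 2802477259538771846278809602642438826865197056, .ofNat 7912423060621730559136242544864639195701184008107851776⟩)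
    (by decide +kernel)
theorem L02915 : Good (Phi V5.P V5.D 1 1) ⟨6, 56, 4, 11, 3, 0, 2, 2, 6, 0⟩ :=
  out_sound (S := T5.ds_pp) T5.ok_pp (w := 65) (j := 3) (by decide +kernel)
theorem L02916 : Good (Phi V5.P V5.D 1 1) ⟨7, 114, 5, 22, 3, 0, 2, 2, 6, 0⟩ :=
  out_sound (S := T5.ds_pp) T5.ok_pp (w := 73) (j := 3) (by decide +kernel)
theorem L02917 : Good (Phi V5.P V5.D 1 1) ⟨7, 115, 5, 22, 3, 0, 2, 2, 6, 0⟩ :=
  out_sound (S := T5.ds_pp) T5.ok_pp (w := 21) (j := 4) (by decide +kernel)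
theorem L02918 : Good (Phi V5.P V5.D 1 1) ⟨6, 57, 5, 23, 3, 0, 2, 2, 6, 0⟩ :=
  out_sound (S := T5.ds_pp) T5.ok_pp (w := 67) (j := 3) (by decide +kernel)
theorem L02919 : Good (Phi V5.P V5.D 1 1) ⟨5, 28, 3, 5, 3, 0, 2, 2, 6, 1⟩ :=
  leafX_sound T5.ok_pp T5.Ypp.bz_eq (w := 243) (c := ⟨⟨.negSucc 1533, .negSucc 184, .negSucc 533, .ofNat 905, .negSucc 2525, .negSucc 586⟩, ⟨.negSucc 990, .ofNat 21, .negSucc 754, .ofNat 598, .negSucc 1666, .negSucc 379⟩, ⟨.ofNat 1435, .ofNat 167, .ofNat 556, .negSucc 794, .ofNat 2544, .ofNat 583⟩, ⟨.negSucc 2020, .negSucc 422, .negSucc 730, .ofNat 1215, .negSucc 3672, .negSucc 817⟩, ⟨.negSucc 268, .ofNat 322, .ofNat 157, .ofNat 81, .ofNat 162, .negSucc 24⟩, .ofNat 2465, .negSucc 3365, .ofNat 0, .negSucc 3365, .ofNat 5347, .ofNat 0, .ofNat 128, .ofNat 542, .negSucc 2861, .ofNat 0, .ofNat 378, .negSucc 1837, .ofNat 0, .ofNat 0, .ofNat 3383, .ofNat 872, .ofNat 0, .ofNat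 0, .ofNat 0, .ofNat 0, .ofNat 0, .ofNat 0, .ofNat 283222222437417589209068688439814514632818688, .ofNat 86604775186418186726093170040790527620092555985682432, .ofNat 0, .ofNat 0, .ofNat 0, .ofNat 0, .ofNat 0, .ofNat 0, .ofNat 0, .ofNat 0⟩)
    (by decide +kernel)
theorem L02920 : Good (Phi V5.P V5.D 1 1) ⟨5, 29, 3, 5, 3, 0, 2, 2, 5, 0⟩ :=
  out_sound (S := T5.ds_pp) T5.ok_pp (w := 17) (j := 4) (by decide +kernel)
theorem L02921 : Good (Phi V5.P V5.D 1 1) ⟨4, 15, 3, 5, 3, 0, 2, 2, 5, 0⟩ :=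
  out_sound (S := T5.ds_pp) T5.ok_pp (w := 51) (j := 3) (by decide +kernel)
theorem L02922 : Good (Phi V5.P V5.D 1 1) ⟨3, 7, 3, 5, 3, 0, 2, 2, 5, 1⟩ :=
  leafX_sound T5.ok_pp T5.Ypp.bz_eq (w := 227) (c := ⟨⟨.negSucc 2724, .ofNat 285, .negSucc 913, .ofNat 516, .negSucc 895, .negSucc 309⟩, ⟨.negSucc 1756, .ofNat 644, .negSucc 1008, .ofNat 341, .negSucc 595, .negSucc 200⟩, ⟨.ofNat 2597, .ofNat 101, .ofNat 824, .negSucc 435, .ofNat 916, .ofNat 318⟩, ⟨.negSucc 3857, .ofNat 240, .negSucc 1116, .ofNat 793, .negSucc 1361, .negSucc 397⟩, ⟨.negSucc 14, .ofNat 85, .ofNat 90, .negSucc 82, .ofNat 108, .negSucc 42⟩, .ofNat 914, .negSucc 1035, .ofNat 0, .negSucc 1035, .ofNat 1795, .ofNat 0, .ofNat 128, .ofNat 612, .negSucc 2244, .ofNat 0, .ofNat 475, .negSucc 1372, .ofNat 0, .ofNat 0, .ofNat 2907, .ofNat 365, .ofNat 0, .ofNat 0, .ofNat 1496691116993829975754086808147911285669888, .ofNat 2801367386620336025222981116595915148394267410432,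 .ofNat 0, .ofNat 0, .ofNat 18221046186129522651287964423695162318782464, .ofNat 71094996649400715857220931300761100321555673513984, .ofNat 0, .ofNat 0, .ofNat 34909100541029697325572847540721742929461248, .ofNat 286385053683081631049478010940397542198639555772416, .ofNat 0, .ofNat 0, .ofNat 30655616646405803085105369289409181402529792, .ofNat 488789998966200126636118658994762447289815241064448⟩)
    (by decide +kernel)
theorem L02923 : Good (Phi V5.P V5.D 1 1) ⟨2, 3, 3, 5, 3, 0, 2, 2, 4, 1⟩ :=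
  leafX_sound T5.ok_pp T5.Ypp.bz_eq (w := 216) (c := ⟨⟨.negSucc 3450, .negSucc 72, .negSucc 381, .ofNat 258, .ofNat 22, .ofNat 145⟩, ⟨.negSucc 2018, .negSucc 413, .negSucc 478, .ofNat 169, .ofNat 13, .ofNat 96⟩, ⟨.ofNat 3398, .ofNat 27, .ofNat 422, .negSucc 205, .negSucc 37, .negSucc 138⟩, ⟨.negSucc 4939, .negSucc 59, .negSucc 402, .ofNat 350, .ofNat 21, .ofNat 246⟩, ⟨.ofNat 26, .ofNat 4, .ofNat 66, .ofNat 35, .ofNat 2, .negSucc 60⟩, .ofNat 905, .negSucc 1024, .ofNat 0, .negSucc 1024, .ofNat 1784, .ofNat 0, .ofNat 128, .ofNat 407, .negSucc 906, .ofNat 0, .ofNat 316, .negSucc 550, .ofNat 0, .ofNat 0, .ofNat 1493, .ofNat 709, .ofNat 0, .ofNat 0, .ofNat 17525775224635890374568732255563485806592, .ofNat 2475218707070742014729974224811967427859447808, .ofNat 0, .ofNat 0, .ofNat 915788771367241060405113292352385210908672, .ofNat 267600287637324140560086602119755400828373958656, .ofNat 0, .ofNat 0, .ofNat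 2443255872922250606959213593575890196889600, .ofNat 968985411014334438203774456134367573933763330048, .ofNat 0, .ofNat 0, .ofNat 944885052762462919343698071612816518807552, .ofNat 820751088087519632156364270798317394136594907136⟩)
    (by decide +kernel)
theorem L02924 : Good (Phi V5.P V5.D 1 1) ⟨3, 6, 3, 5, 3, 1, 2, 2, 3, 0⟩ :=
  out_sound (S := T5.ds_pp) T5.ok_pp (w := 45) (j := 3) (by decide +kernel)
theorem L02925 : Good (Phi V5.P V5.D 1 1) ⟨3, 7, 3, 5, 3, 1, 2, 2, 4, 0⟩ :=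
  leafX_sound T5.ok_pp T5.Ypp.bz_eq (w := 221) (c := ⟨⟨.ofNat 1367, .negSucc 411, .negSucc 435, .ofNat 912, .negSucc 1925, .negSucc 3955⟩, ⟨.ofNat 888, .negSucc 245, .negSucc 383, .ofNat 614, .negSucc 1254, .negSucc 2581⟩, ⟨.negSucc 1251, .negSucc 18, .ofNat 569, .negSucc 745, .ofNat 1911, .ofNat 3771⟩, ⟨.ofNat 1854, .negSucc 155, .negSucc 915, .ofNat 1334, .negSucc 2644, .negSucc 5559⟩, ⟨.ofNat 310, .ofNat 321, .ofNat 244, .negSucc 104, .negSucc 479, .negSucc 104⟩, .ofNat 1306, .negSucc 1436, .ofNat 0, .negSucc 1436, .ofNat 2111, .ofNat 0, .ofNat 128, .ofNat 362, .negSucc 1212, .ofNat 0, .ofNat 311, .negSucc 838, .ofNat 0, .ofNat 0, .ofNat 1412, .ofNat 222, .ofNat 0, .ofNat 0, .ofNat 5913516004038022586017754143253021589504, .ofNat 0, .ofNat 0, .ofNat 0, .ofNat 315272947106652416451645989159156360151040, .ofNat 0, .ofNat 0, .ofNat 0, .ofNat 393660017777147276366369706673261770702848, .ofNat 129415824112928145506152361726529357759847071744,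 .ofNat 0, .ofNat 0, .ofNat 111233118201352832569060834448470356000768, .ofNat 3782989919349076111295300217200403046232567578624⟩)
    (by decide +kernel)
theorem L02926 : Good (Phi V5.P V5.D 1 1) ⟨3, 7, 3, 5, 3, 1, 2, 2, 4, 1⟩ :=
  leafX_sound T5.ok_pp T5.Ypp.bz_eq (w := 220) (c := ⟨⟨.negSucc 2989, .ofNat 188, .negSucc 204, .ofNat 93, .negSucc 197, .negSucc 138⟩, ⟨.negSucc 1913, .ofNat 166, .negSucc 405, .ofNat 63, .negSucc 132, .negSucc 92⟩, ⟨.ofNat 2963, .negSucc 175, .ofNat 170, .negSucc 174, .ofNat 265, .ofNat 99⟩, ⟨.negSucc 4280, .ofNat 179, .negSucc 105, .ofNat 129, .negSucc 275, .negSucc 177⟩, ⟨.ofNat 52, .ofNat 71, .ofNat 31, .ofNat 6, .negSucc 19, .negSucc 24⟩, .ofNat 909, .negSucc 1029, .ofNat 0, .negSucc 1029, .ofNat 1788, .ofNat 0, .ofNat 128, .ofNat 636, .negSucc 1050, .ofNat 0, .ofNat 488, .negSucc 630, .ofNat 0, .ofNat 0, .ofNat 1761, .ofNat 1623, .ofNat 0, .ofNat 0, .ofNat 0, .ofNat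 0, .ofNat 0, .ofNat 0, .ofNat 771479392552092496729975961136067371859968, .ofNat 1708827334355522533718633738624002495870624858112, .ofNat 0, .ofNat 0, .ofNat 2552454778247474897019687257185681779195904, .ofNat 8188650599249222172030563994146210839484407218176, .ofNat 0, .ofNat 0, .ofNat 1117848675895457445648462864447370262740992, .ofNat 5033103311990688870800597354872063601924504551424⟩)
    (by decide +kernel)
theorem L02927 : Good (Phi V5.P V5.D 1 1) ⟨3, 6, 2, 3, 2, 0, 2, 2, 3, 0⟩ :=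
  out_sound (S := T5.ds_pp) T5.ok_pp (w := 43) (j := 3) (by decide +kernel)
theorem L02928 : Good (Phi V5.P V5.D 1 1) ⟨5, 28, 3, 6, 2, 0, 2, 2, 3, 0⟩ :=
  out_sound (S := T5.ds_pp) T5.ok_pp (w := 57) (j := 3) (by decide +kernel)
theorem L02929 : Good (Phi V5.P V5.D 1 1) ⟨5, 29, 3, 6, 2, 0, 2, 2, 3, 0⟩ :=
  out_sound (S := T5.ds_pp) T5.ok_pp (w := 17) (j := 4) (by decide +kernel)
theorem L02930 : Good (Phi V5.P V5.D 1 1) ⟨4, 14, 3, 7, 2, 0, 2, 2, 3, 0⟩ :=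
  out_sound (S := T5.ds_pp) T5.ok_pp (w := 51) (j := 3) (by decide +kernel)
theorem L02931 : Good (Phi V5.P V5.D 1 1) ⟨4, 15, 2, 3, 2, 0, 2, 2, 3, 0⟩ :=
  out_sound (S := T5.ds_pp) T5.ok_pp (w := 15) (j := 4) (by decide +kernel)
theorem L02932 : Good (Phi V5.P V5.D 1 1) ⟨2, 2, 3, 4, 2, 0, 2, 3, 3, 0⟩ :=
  out_sound (S := T5.ds_pp) T5.ok_pp (w := 39) (j := 3) (by decide +kernel)
theorem L02933 : Good (Phi V5.P V5.D 1 1) ⟨3, 6, 3, 4, 3, 0, 2, 3, 4, 0⟩ :=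
  leafX_sound T5.ok_pp T5.Ypp.bz_eq (w := 221) (c := ⟨⟨.negSucc 1720, .negSucc 2663, .negSucc 31, .negSucc 45, .ofNat 611, .ofNat 773⟩, ⟨.negSucc 841, .negSucc 1641, .negSucc 298, .negSucc 30, .ofNat 351, .ofNat 458⟩, ⟨.ofNat 1637, .ofNat 2668, .ofNat 48, .ofNat 202, .negSucc 643, .negSucc 832⟩, ⟨.negSucc 3769, .negSucc 2516, .negSucc 308, .negSucc 83, .ofNat 919, .ofNat 1398⟩, ⟨.ofNat 1606, .negSucc 1802, .ofNat 588, .ofNat 21, .ofNat 3, .negSucc 429⟩, .ofNat 1088, .negSucc 1370, .ofNat 0, .negSucc 1370, .ofNat 2537, .ofNat 0, .ofNat 128, .ofNat 368, .negSucc 1578, .ofNat 0, .ofNat 263, .negSucc 887, .ofNat 0, .ofNat 0, .ofNat 1951, .ofNat 383, .ofNat 0, .ofNat 0, .ofNat 17359491160736026736597863488706152759296, .ofNat 0, .ofNat 0, .ofNat 8350811654415010006871153942999978351788032, .ofNat 319709995869728538017301051377081909248000, .ofNat 0, .ofNat 0, .ofNat 0, .ofNat 920942250846441541504058875164944744054784,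 .ofNat 0, .ofNat 0, .ofNat 0, .ofNat 0, .ofNat 0⟩)
    (by decide +kernel)
theorem L02934 : Good (Phi V5.P V5.D 1 1) ⟨3, 6, 3, 4, 3, 0, 2, 3, 4, 1⟩ :=
  leafX_sound T5.ok_pp T5.Ypp.bz_eq (w := 219) (c := ⟨⟨.negSucc 2604, .negSucc 715, .negSucc 122, .negSucc 74, .ofNat 717, .ofNat 262⟩, ⟨.negSucc 1236, .negSucc 680, .negSucc 244, .negSucc 43, .ofNat 420, .ofNat 149⟩, ⟨.ofNat 2436, .ofNat 834, .ofNat 100, .ofNat 195, .negSucc 842, .negSucc 319⟩, ⟨.negSucc 4039, .negSucc 865, .negSucc 56, .negSucc 150, .ofNat 1148, .ofNat 435⟩, ⟨.negSucc 284, .ofNat 453, .negSucc 130, .ofNat 31, .negSucc 107, .negSucc 88⟩, .ofNat 743, .negSucc 822, .ofNat 0, .negSucc 822, .ofNat 1628, .ofNat 0, .ofNat 128, .ofNat 283, .negSucc 722, .ofNat 0, .ofNat 218, .negSucc 388, .ofNat 0, .ofNat 0, .ofNat 1091, .ofNat 507, .ofNat 0, .ofNat 0, .ofNat 0, .ofNat 0, .ofNat 0, .ofNat 49409498729502785388133894942608508974006272,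 .ofNat 120023321009580807065297644300666434224128, .ofNat 0, .ofNat 0, .ofNat 0, .ofNat 506613502147799345239901626939555356606464, .ofNat 0, .ofNat 0, .ofNat 0, .ofNat 0, .ofNat 0⟩)
    (by decide +kernel)
theorem L02935 : Good (Phi V5.P V5.D 1 1) ⟨4, 12, 3, 4, 3, 1, 2, 3, 4, 0⟩ :=
  out_sound (S := T5.ds_pp) T5.ok_pp (w := 51) (j := 3) (by decide +kernel)
theorem L02936 : Good (Phi V5.P V5.D 1 1) ⟨4, 13, 3, 4, 3, 1, 3, 6, 4, 0⟩ :=
  leafX_sound T5.ok_pp T5.Ypp.bz_eq (w := 230) (c := ⟨⟨.negSucc 2275, .negSucc 596, .negSucc 405, .ofNat 130, .negSucc 454, .negSucc 241⟩, ⟨.negSucc 1204, .negSucc 423, .negSucc 473, .ofNat 74, .negSucc 266, .negSucc 133⟩, ⟨.ofNat 2316, .ofNat 608, .ofNat 393, .negSucc 105, .ofNat 509, .ofNat 176⟩, ⟨.negSucc 3636, .negSucc 652, .negSucc 519, .ofNat 136, .negSucc 740, .negSucc 79⟩, ⟨.ofNat 136, .ofNat 218, .negSucc 153, .ofNat 111, .ofNat 110, .negSucc 497⟩, .ofNat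 1539, .negSucc 2117, .ofNat 0, .negSucc 2117, .ofNat 3803, .ofNat 0, .ofNat 128, .ofNat 393, .negSucc 1314, .ofNat 0, .ofNat 265, .negSucc 746, .ofNat 0, .ofNat 0, .ofNat 1677, .ofNat 437, .ofNat 0, .ofNat 0, .ofNat 0, .ofNat 0, .ofNat 0, .ofNat 0, .ofNat 4446912434299402699374009696268573852303360, .ofNat 0, .ofNat 0, .ofNat 0, .ofNat 4293441432460262126416873701650779995111424, .ofNat 0, .ofNat 0, .ofNat 0, .ofNat 0, .ofNat 0⟩)
    (by decide +kernel)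
theorem L02937 : Good (Phi V5.P V5.D 1 1) ⟨4, 13, 3, 4, 3, 1, 3, 7, 4, 0⟩ :=
  leafX_sound T5.ok_pp T5.Ypp.bz_eq (w := 231) (c := ⟨⟨.negSucc 3027, .negSucc 832, .negSucc 408, .negSucc 446, .negSucc 233, .ofNat 771⟩, ⟨.negSucc 1605, .negSucc 595, .negSucc 508, .negSucc 263, .negSucc 145, .ofNat 463⟩, ⟨.ofNat 3118, .ofNat 837, .ofNat 397, .ofNat 492, .ofNat 283, .negSucc 875⟩, ⟨.negSucc 4710, .negSucc 860, .negSucc 761, .negSucc 629, .negSucc 483, .ofNat 1350⟩, ⟨.ofNat 97, .negSucc 119, .ofNat 412, .negSucc 71, .ofNat 272, .negSucc 403⟩, .ofNat 1587, .negSucc 2184, .ofNat 0, .negSucc 2184, .ofNat 3888, .ofNat 0, .ofNat 128, .ofNat 407, .negSucc 1853, .ofNat 0, .ofNat 275, .negSucc 1063, .ofNat 0, .ofNat 0, .ofNat 2165, .ofNat 230, .ofNat 0, .ofNat 0, .ofNat 0, .ofNat 0, .ofNat 0, .ofNat 0, .ofNat 4093535460834226963350522752584305961074688, .ofNat 0, .ofNat 0, .ofNat 0, .ofNat 3672177697370368959165862767678965919252480,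 .ofNat 0, .ofNat 0, .ofNat 0, .ofNat 0, .ofNat 0⟩)
    (by decide +kernel)
theorem L02938 : Good (Phi V5.P V5.D 1 1) ⟨4, 12, 3, 4, 3, 1, 2, 3, 4, 1⟩ :=
  out_sound (S := T5.ds_pp) T5.ok_pp (w := 51) (j := 3) (by decide +kernel)
theorem L02939 : Good (Phi V5.P V5.D 1 1) ⟨4, 13, 3, 4, 3, 1, 2, 3, 4, 1⟩ :=
  leafX_sound T5.ok_pp T5.Ypp.bz_eq (w := 224) (c := ⟨⟨.negSucc 2616, .negSucc 529, .negSucc 59, .negSucc 306, .negSucc 282, .ofNat 119⟩, ⟨.negSucc 1355, .negSucc 453, .negSucc 230, .negSucc 186, .negSucc 173, .ofNat 69⟩, ⟨.ofNat 2641, .ofNat 554, .ofNat 45, .ofNat 281, .ofNat 250, .negSucc 223⟩, ⟨.negSucc 4013, .negSucc 506, .negSucc 59, .negSucc 518, .negSucc 425, .ofNat 205⟩, ⟨.negSucc 117, .ofNat 160, .negSucc 70, .ofNat 120, .ofNat 23, .negSucc 57⟩, .ofNat 1110, .negSucc 1405, .ofNat 0, .negSucc 1405, .ofNat 2590, .ofNat 0, .ofNat 128, .ofNat 494, .negSucc 983, .ofNat 0, .ofNat 348, .negSucc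 549, .ofNat 0, .ofNat 0, .ofNat 1495, .ofNat 579, .ofNat 0, .ofNat 0, .ofNat 0, .ofNat 0, .ofNat 0, .ofNat 593008210269882983774275396499627450136788992, .ofNat 114134257575199498159916926743289066946560, .ofNat 0, .ofNat 0, .ofNat 4994385627640459398241814187037179456744587264, .ofNat 357067197104391849808620974914672284139520, .ofNat 0, .ofNat 0, .ofNat 0, .ofNat 0, .ofNat 0⟩)
    (by decide +kernel)
theorem L02940 : Good (Phi V5.P V5.D 1 1) ⟨4, 14, 3, 4, 2, 0, 3, 6, 4, 0⟩ :=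
  leafX_sound T5.ok_pp T5.Ypp.bz_eq (w := 214) (c := ⟨⟨.negSucc 3583, .ofNat 412, .negSucc 968, .ofNat 552, .negSucc 423, .ofNat 896⟩, ⟨.negSucc 2014, .ofNat 131, .negSucc 887, .ofNat 361, .negSucc 274, .ofNat 567⟩, ⟨.ofNat 3761, .ofNat 356, .ofNat 592, .negSucc 423, .ofNat 472, .negSucc 871⟩, ⟨.negSucc 4894, .ofNat 1042, .negSucc 1717, .ofNat 902, .negSucc 716, .ofNat 1351⟩, ⟨.negSucc 4, .ofNat 236, .ofNat 61, .negSucc 0, .ofNat 48, .negSucc 79⟩, .ofNat 640, .negSucc 595, .ofNat 0, .negSucc 595, .ofNat 1078, .ofNat 0, .ofNat 128, .ofNat 224, .negSucc 1465, .ofNat 0, .ofNat 209, .negSucc 861, .ofNat 0, .ofNat 0, .ofNat 1723, .ofNat 202, .ofNat 0, .ofNat 0, .ofNat 5773867771899483701984382829314703360, .ofNat 0, .ofNat 0, .ofNat 0, .ofNat 61172713741382754210429708939483414528, .ofNat 0, .ofNat 0, .ofNat 0, .ofNat 691917288587598799630800281772406865920, .ofNat 0, .ofNat 0, .ofNat 0, .ofNat 281422069724291128722533233268862484480,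 .ofNat 0⟩)
    (by decide +kernel)
theorem L02941 : Good (Phi V5.P V5.D 1 1) ⟨4, 14, 3, 4, 2, 0, 3, 6, 4, 1⟩ :=
  leafX_sound T5.ok_pp T5.Ypp.bz_eq (w := 215) (c := ⟨⟨.negSucc 3190, .negSucc 818, .negSucc 199, .negSucc 221, .negSucc 0, .ofNat 355⟩, ⟨.negSucc 1831, .negSucc 661, .negSucc 322, .negSucc 140, .negSucc 1, .ofNat 225⟩, ⟨.ofNat 3135, .ofNat 719, .ofNat 192, .ofNat 300, .negSucc 13, .negSucc 396⟩, ⟨.negSucc 4565, .negSucc 767, .negSucc 323, .negSucc 305, .ofNat 20, .ofNat 529⟩, ⟨.ofNat 45, .negSucc 20, .negSucc 4, .negSucc 14, .negSucc 34, .negSucc 33⟩, .ofNat 640, .negSucc 595, .ofNat 0, .negSucc 595, .ofNat 1078, .ofNat 0, .ofNat 128, .ofNat 271, .negSucc 631, .ofNat 0, .ofNat 252, .negSucc 367, .ofNat 0, .ofNat 0, .ofNat 978, .ofNat 1960, .ofNat 0, .ofNat 0, .ofNat 0, .ofNat 0, .ofNat 0, .ofNat 0, .ofNat 79504042465289387431318652174865530880, .ofNat 0, .ofNat 0, .ofNat 0, .ofNat 894512093158351319017955951836047343616,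 .ofNat 0, .ofNat 0, .ofNat 0, .ofNat 73414111665924738239202929875045318656, .ofNat 0⟩)
    (by decide +kernel)
theorem L02942 : Good (Phi V5.P V5.D 1 1) ⟨4, 15, 3, 4, 2, 0, 3, 6, 3, 0⟩ :=
  out_sound (S := T5.ds_pp) T5.ok_pp (w := 51) (j := 3) (by decide +kernel)
theorem L02943 : Good (Phi V5.P V5.D 1 1) ⟨3, 7, 4, 8, 2, 0, 3, 7, 3, 0⟩ :=
  out_sound (S := T5.ds_pp) T5.ok_pp (w := 47) (j := 3) (by decide +kernel)
theorem L02944 : Good (Phi V5.P V5.D 1 1) ⟨5, 28, 4, 9, 2, 0, 3, 7, 4, 0⟩ :=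
  leafX_sound T5.ok_pp T5.Ypp.bz_eq (w := 224) (c := ⟨⟨.negSucc 3846, .ofNat 1318, .negSucc 1594, .negSucc 590, .ofNat 66, .ofNat 1881⟩, ⟨.negSucc 2331, .ofNat 740, .negSucc 1121, .negSucc 376, .ofNat 38, .ofNat 1195⟩, ⟨.ofNat 3667, .negSucc 1474, .ofNat 1747, .ofNat 806, .negSucc 45, .negSucc 1950⟩, ⟨.negSucc 5688, .ofNat 1747, .negSucc 2070, .negSucc 966, .ofNat 135, .ofNat 2822⟩, ⟨.ofNat 245, .ofNat 629, .negSucc 351, .ofNat 160, .negSucc 37, .negSucc 125⟩, .ofNat 1383, .negSucc 1710, .ofNat 0, .negSucc 1710, .ofNat 2820, .ofNat 0, .ofNat 128, .ofNat 501, .negSucc 2673, .ofNat 0, .ofNat 381, .negSucc 1659, .ofNat 0, .ofNat 0, .ofNat 3077, .ofNat 336, .ofNat 0, .ofNat 0, .ofNat 23663148425690644748819702354328682496, .ofNat 0, .ofNat 0, .ofNat 56992273007455014959962101163870525025419264, .ofNat 329613143145326537028751422548061716480, .ofNat 0, .ofNat 0, .ofNat 0, .ofNat 289315729495072346804006939358354472960,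 .ofNat 0, .ofNat 0, .ofNat 0, .ofNat 419273239736642056466190633446668238848, .ofNat 0⟩)
    (by decide +kernel)
theorem L02945 : Good (Phi V5.P V5.D 1 1) ⟨5, 28, 4, 9, 2, 0, 3, 7, 4, 1⟩ :=
  leafX_sound T5.ok_pp T5.Ypp.bz_eq (w := 221) (c := ⟨⟨.negSucc 3123, .negSucc 395, .negSucc 8, .negSucc 942, .ofNat 101, .ofNat 425⟩, ⟨.negSucc 1879, .negSucc 316, .negSucc 110, .negSucc 609, .ofNat 65, .ofNat 268⟩, ⟨.ofNat 3036, .ofNat 346, .ofNat 10, .ofNat 1113, .negSucc 180, .negSucc 530⟩, ⟨.negSucc 4289, .negSucc 217, .negSucc 219, .negSucc 1530, .ofNat 248, .ofNat 620⟩, ⟨.negSucc 140, .negSucc 196, .ofNat 188, .ofNat 118, .negSucc 101, .negSucc 36⟩, .ofNat 742, .negSucc 769, .ofNat 0, .negSucc 769, .ofNat 1389, .ofNat 0, .ofNat 128, .ofNat 303, .negSucc 978, .ofNat 0, .ofNat 254, .negSucc 573, .ofNat 0, .ofNat 0, .ofNat 1319, .ofNat 347, .ofNat 0, .ofNat 0, .ofNat 0, .ofNat 0, .ofNat 0, .ofNat 163464184951916821589251086926818766837776384,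 .ofNat 102646652621381266570914660382484201472, .ofNat 0, .ofNat 0, .ofNat 0, .ofNat 333268446324345578376830106722073837568, .ofNat 0, .ofNat 0, .ofNat 0, .ofNat 1112153442947268168498417855834965934080, .ofNat 0⟩)
    (by decide +kernel)
theorem L02946 : Good (Phi V5.P V5.D 1 1) ⟨5, 29, 4, 9, 2, 0, 3, 7, 3, 0⟩ :=
  out_sound (S := T5.ds_pp) T5.ok_pp (w := 59) (j := 3) (by decide +kernel)
theorem L02947 : Good (Phi V5.P V5.D 1 1) ⟨4, 15, 4, 9, 2, 0, 3, 7, 3, 0⟩ :=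
  out_sound (S := T5.ds_pp) T5.ok_pp (w := 53) (j := 3) (by decide +kernel)
theorem L02948 : Good (Phi V5.P V5.D 1 1) ⟨2, 2, 3, 5, 2, 0, 3, 6, 3, 0⟩ :=
  out_sound (S := T5.ds_pp) T5.ok_pp (w := 39) (j := 3) (by decide +kernel)
theorem L02949 : Good (Phi V5.P V5.D 1 1) ⟨3, 6, 3, 5, 2, 0, 3, 6, 4, 0⟩ :=
  out_sound (S := T5.ds_pp) T5.ok_pp (w := 45) (j := 3) (by decide +kernel)
theorem L02950 : Good (Phi V5.P V5.D 1 1) ⟨3, 7, 3, 5, 2, 0, 3, 6, 4, 0⟩ :=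
  leafX_sound T5.ok_pp T5.Ypp.bz_eq (w := 211) (c := ⟨⟨.negSucc 4842, .negSucc 309, .negSucc 969, .ofNat 738, .negSucc 349, .ofNat 1337⟩, ⟨.negSucc 3098, .negSucc 372, .negSucc 978, .ofNat 485, .negSucc 229, .ofNat 883⟩, ⟨.ofNat 4735, .ofNat 195, .ofNat 970, .negSucc 659, .ofNat 391, .negSucc 1275⟩, ⟨.negSucc 6879, .negSucc 43, .negSucc 1328, .ofNat 879, .negSucc 462, .ofNat 1934⟩, ⟨.negSucc 104, .ofNat 329, .negSucc 1, .ofNat 433, .negSucc 94, .negSucc 10⟩, .ofNat 1306, .negSucc 1436, .ofNat 0, .negSucc 1436, .ofNat 2111, .ofNat 0, .ofNat 128, .ofNat 327, .negSucc 1241, .ofNat 0, .ofNat 283, .negSucc 863, .ofNat 0, .ofNat 0, .ofNat 1438, .ofNat 196, .ofNat 0, .ofNat 0, .ofNat 18265476813253313808990595915406376960, .ofNat 67246963963972364793340870016109764604329984, .ofNat 0, .ofNat 0, .ofNat 260844353425016994622242042106351714304, .ofNat 0, .ofNat 0, .ofNat 0, .ofNat 379223421914621655471994516708253499392,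 .ofNat 0, .ofNat 0, .ofNat 0, .ofNat 125480696028012927404519489281439301632, .ofNat 4195546617668318431042103249838440817081974784⟩)
    (by decide +kernel)
theorem L02951 : Good (Phi V5.P V5.D 1 1) ⟨2, 3, 3, 5, 2, 0, 3, 6, 4, 1⟩ :=
  leafX_sound T5.ok_pp T5.Ypp.bz_eq (w := 204) (c := ⟨⟨.negSucc 3629, .ofNat 126, .negSucc 221, .negSucc 194, .ofNat 17, .ofNat 443⟩, ⟨.negSucc 2266, .negSucc 39, .negSucc 404, .negSucc 128, .ofNat 10, .ofNat 293⟩, ⟨.ofNat 3458, .ofNat 55, .ofNat 184, .ofNat 282, .negSucc 35, .negSucc 475⟩, ⟨.negSucc 5277, .ofNat 383, .negSucc 206, .negSucc 279, .ofNat 39, .ofNat 652⟩, ⟨.negSucc 18, .ofNat 103, .ofNat 35, .ofNat 3, .negSucc 31, .negSucc 46⟩, .ofNat 391, .negSucc 297, .ofNat 0, .negSucc 297, .ofNat 646, .ofNat 0, .ofNat 128, .ofNat 167, .negSucc 604, .ofNat 0, .ofNat 167, .negSucc 310, .ofNat 0, .ofNat 0, .ofNat 871, .ofNat 233, .ofNat 0, .ofNat 0, .ofNat 7016276242741295129897553820660006912,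 .ofNat 433356838692903690914892182582206325063680, .ofNat 0, .ofNat 0, .ofNat 0, .ofNat 0, .ofNat 0, .ofNat 0, .ofNat 275711906989971478131034797349198102528, .ofNat 96538500032950488040698879670523552619036672, .ofNat 0, .ofNat 0, .ofNat 164821476775852142349026191690426220544, .ofNat 166523918340057995602442137253337797585010688⟩)
    (by decide +kernel)
theorem L02952 : Good (Phi V5.P V5.D 1 1) ⟨2, 2, 3, 5, 2, 0, 3, 7, 4, 0⟩ :=
  out_sound (S := T5.ds_pp) T5.ok_pp (w := 39) (j := 3) (by decide +kernel)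
theorem L02953 : Good (Phi V5.P V5.D 1 1) ⟨3, 6, 3, 5, 2, 0, 3, 7, 4, 0⟩ :=
  out_sound (S := T5.ds_pp) T5.ok_pp (w := 45) (j := 3) (by decide +kernel)
theorem L02954 : Good (Phi V5.P V5.D 1 1) ⟨5, 28, 3, 5, 2, 0, 4, 14, 5, 0⟩ :=
  leafX_sound T5.ok_pp T5.Ypp.bz_eq (w := 233) (c := ⟨⟨.negSucc 5865, .negSucc 648, .negSucc 1029, .ofNat 76, .negSucc 212, .ofNat 2079⟩, ⟨.negSucc 3830, .negSucc 174, .negSucc 1403, .ofNat 54, .negSucc 141, .ofNat 1376⟩, ⟨.ofNat 5834, .ofNat 510, .ofNat 1183, .ofNat 93, .ofNat 216, .negSucc 2081⟩, ⟨.negSucc 8461, .negSucc 964, .negSucc 1320, .ofNat 203, .negSucc 338, .ofNat 3192⟩, ⟨.ofNat 184, .ofNat 208, .ofNat 62, .negSucc 142, .ofNat 61, .negSucc 396⟩, .ofNat 2465, .negSucc 3366, .ofNat 0, .negSucc 3366, .ofNat 5351, .ofNat 0, .ofNat 128, .ofNat 554, .negSucc 3467, .ofNat 0, .ofNat 386, .negSucc 2226, .ofNat 0, .ofNat 0, .ofNat 3856, .ofNat 388, .ofNat 0, .ofNat 0,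 .ofNat 1748445389181792514959427038116694720512, .ofNat 594403478437586233389899826939886227432509800448, .ofNat 0, .ofNat 0, .ofNat 175305213434306873504899352248766500438016, .ofNat 18799974294828397930818852233890971298250276995072, .ofNat 0, .ofNat 0, .ofNat 90330178972471660339321135513727431344128, .ofNat 58493313540725805254412855847995816272180721745920, .ofNat 0, .ofNat 0, .ofNat 368788526787866844383018227524070593789952, .ofNat 265826478745571348122770497654480635940712969404416⟩)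
    (by decide +kernel)
theorem L02955 : Good (Phi V5.P V5.D 1 1) ⟨5, 28, 4, 10, 2, 0, 4, 15, 5, 0⟩ :=
  leafX_sound T5.ok_pp T5.Ypp.bz_eq (w := 237) (c := ⟨⟨.negSucc 5478, .negSucc 722, .negSucc 765, .negSucc 1141, .negSucc 20, .ofNat 2103⟩, ⟨.negSucc 3482, .negSucc 605, .negSucc 656, .negSucc 753, .negSucc 21, .ofNat 1385⟩, ⟨.ofNat 5422, .ofNat 668, .ofNat 784, .ofNat 1353, .ofNat 32, .negSucc 2137⟩, ⟨.negSucc 7769, .negSucc 901, .negSucc 1047, .negSucc 1862, .negSucc 173, .ofNat 3151⟩, ⟨.negSucc 24, .negSucc 103, .ofNat 124, .ofNat 346, .ofNat 225, .negSucc 262⟩, .ofNat 2570, .negSucc 3503, .ofNat 0, .negSucc 3503, .ofNat 5521, .ofNat 0, .ofNat 128, .ofNat 1048, .negSucc 4579, .ofNat 0, .ofNat 733, .negSucc 2964, .ofNat 0, .ofNat 0, .ofNat 4940, .ofNat 188, .ofNat 0, .ofNat 0, .ofNat 6699269923885941285405029303847850344448, .ofNat 4391235192938521700503255512620757361515514822656, .ofNat 0,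 .ofNat 0, .ofNat 417863830842456516880181226643453294673920, .ofNat 0, .ofNat 0, .ofNat 0, .ofNat 0, .ofNat 0, .ofNat 0, .ofNat 0, .ofNat 1098870323274718102476741117842199689560064, .ofNat 2720721436955596383537413613685261417977174594420736⟩)
    (by decide +kernel)
theorem L02956 : Good (Phi V5.P V5.D 1 1) ⟨6, 56, 4, 11, 2, 0, 4, 15, 5, 0⟩ :=
  out_sound (S := T5.ds_pp) T5.ok_pp (w := 65) (j := 3) (by decide +kernel)
theorem L02957 : Good (Phi V5.P V5.D 1 1) ⟨7, 114, 5, 22, 2, 0, 4, 15, 5, 0⟩ :=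
  out_sound (S := T5.ds_pp) T5.ok_pp (w := 73) (j := 3) (by decide +kernel)
theorem L02958 : Good (Phi V5.P V5.D 1 1) ⟨7, 115, 5, 22, 2, 0, 4, 15, 5, 0⟩ :=
  out_sound (S := T5.ds_pp) T5.ok_pp (w := 21) (j := 4) (by decide +kernel)
theorem L02959 : Good (Phi V5.P V5.D 1 1) ⟨6, 57, 5, 23, 2, 0, 4, 15, 5, 0⟩ :=
  out_sound (S := T5.ds_pp) T5.ok_pp (w := 67) (j := 3) (by decide +kernel)
theorem L02960 : Good (Phi V5.P V5.D 1 1) ⟨5, 28, 3, 5, 2, 0, 3, 7, 5, 1⟩ :=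
  leafX_sound T5.ok_pp T5.Ypp.bz_eq (w := 225) (c := ⟨⟨.negSucc 3920, .ofNat 123, .negSucc 775, .negSucc 603, .negSucc 38, .ofNat 482⟩, ⟨.negSucc 2521, .ofNat 170, .negSucc 953, .negSucc 411, .negSucc 26, .ofNat 313⟩, ⟨.ofNat 3774, .negSucc 18, .ofNat 705, .ofNat 831, .ofNat 24, .negSucc 490⟩, ⟨.negSucc 5440, .ofNat 268, .negSucc 1278, .negSucc 1251, .negSucc 6, .ofNat 699⟩, ⟨.negSucc 189, .ofNat 118, .ofNat 252, .ofNat 422, .negSucc 27, .negSucc 31⟩, .ofNat 910, .negSucc 1030, .ofNat 0, .negSucc 1030, .ofNat 1791, .ofNat 0, .ofNat 128, .ofNat 515, .negSucc 2373, .ofNat 0, .ofNat 398, .negSucc 1443, .ofNat 0, .ofNat 0, .ofNat 2765, .ofNat 317, .ofNat 0, .ofNat 0, .ofNat 0, .ofNat 0, .ofNat 0, .ofNat 26486917262396313829301392001457264816816128, .ofNat 2071166650663842593680341183336305131520, .ofNat 0, .ofNat 0, .ofNat 128912216938103781673502083117764113690787840, .ofNat 1155187899407986997101926994212860985344,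 .ofNat 2811545172750597675231174160879486686897421418496, .ofNat 0, .ofNat 2929592039738054421872591262015306379959468032, .ofNat 6368818677534607176075152236631807754240, .ofNat 4832551491007807291739503492460000698677594161152⟩)
    (by decide +kernel)
theorem L02961 : Good (Phi V5.P V5.D 1 1) ⟨5, 29, 3, 5, 2, 0, 3, 7, 4, 0⟩ :=
  out_sound (S := T5.ds_pp) T5.ok_pp (w := 17) (j := 4) (by decide +kernel)
theorem L02962 : Good (Phi V5.P V5.D 1 1) ⟨4, 15, 3, 5, 2, 0, 3, 7, 4, 0⟩ :=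
  out_sound (S := T5.ds_pp) T5.ok_pp (w := 51) (j := 3) (by decide +kernel)
theorem L02963 : Good (Phi V5.P V5.D 1 1) ⟨2, 2, 3, 5, 2, 0, 3, 7, 4, 1⟩ :=
  out_sound (S := T5.ds_pp) T5.ok_pp (w := 39) (j := 3) (by decide +kernel)
theorem L02964 : Good (Phi V5.P V5.D 1 1) ⟨3, 6, 3, 5, 2, 0, 3, 7, 4, 1⟩ :=
  out_sound (S := T5.ds_pp) T5.ok_pp (w := 45) (j := 3) (by decide +kernel)
theorem L02965 : Good (Phi V5.P V5.D 1 1) ⟨5, 28, 4, 10, 2, 0, 3, 7, 4, 1⟩ :=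
  leafX_sound T5.ok_pp T5.Ypp.bz_eq (w := 224) (c := ⟨⟨.negSucc 3204, .negSucc 280, .negSucc 115, .negSucc 1025, .ofNat 1, .ofNat 664⟩, ⟨.negSucc 2025, .negSucc 276, .negSucc 168, .negSucc 682, .ofNat 2, .ofNat 437⟩, ⟨.ofNat 3174, .negSucc 16, .ofNat 264, .ofNat 1174, .negSucc 69, .negSucc 753⟩, ⟨.negSucc 4638, .ofNat 19, .negSucc 179, .negSucc 1611, .ofNat 83, .ofNat 950⟩, ⟨.ofNat 11, .negSucc 94, .negSucc 93, .ofNat 202, .negSucc 106, .negSucc 16⟩, .ofNat 1479, .negSucc 1880, .ofNat 0, .negSucc 1880, .ofNat 3094, .ofNat 0, .ofNat 128, .ofNat 771, .negSucc 2066, .ofNat 0, .ofNat 557, .negSucc 1296, .ofNat 0, .ofNat 0, .ofNat 2838, .ofNat 238, .ofNat 0, .ofNat 0, .ofNat 0, .ofNat 0, .ofNat 0, .ofNat 10285299347609104068840675950873245934157824, .ofNat 174249655080633246761364432304946020352, .ofNat 0, .ofNat 0, .ofNat 1573472856835489804307691085837974570256039936, .ofNat 191195664043972426264104618362379698176,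 .ofNat 827780974650910525610242970248317283751327432704, .ofNat 0, .ofNat 0, .ofNat 0, .ofNat 0⟩)
    (by decide +kernel)
theorem L02966 : Good (Phi V5.P V5.D 1 1) ⟨6, 56, 4, 11, 2, 0, 3, 7, 4, 1⟩ :=
  out_sound (S := T5.ds_pp) T5.ok_pp (w := 65) (j := 3) (by decide +kernel)
theorem L02967 : Good (Phi V5.P V5.D 1 1) ⟨7, 114, 5, 22, 2, 0, 3, 7, 4, 1⟩ :=
  out_sound (S := T5.ds_pp) T5.ok_pp (w := 73) (j := 3) (by decide +kernel)
theorem L02968 : Good (Phi V5.P V5.D 1 1) ⟨7, 115, 5, 22, 2, 0, 3, 7, 4, 1⟩ :=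
  out_sound (S := T5.ds_pp) T5.ok_pp (w := 21) (j := 4) (by decide +kernel)
theorem L02969 : Good (Phi V5.P V5.D 1 1) ⟨6, 57, 5, 23, 2, 0, 3, 7, 4, 1⟩ :=
  out_sound (S := T5.ds_pp) T5.ok_pp (w := 67) (j := 3) (by decide +kernel)
theorem L02970 : Good (Phi V5.P V5.D 1 1) ⟨5, 29, 3, 5, 2, 0, 3, 7, 4, 1⟩ :=
  out_sound (S := T5.ds_pp) T5.ok_pp (w := 17) (j := 4) (by decide +kernel)
theorem L02971 : Good (Phi V5.P V5.D 1 1) ⟨4, 15, 3, 5, 2, 0, 3, 7, 4, 1⟩ :=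
  out_sound (S := T5.ds_pp) T5.ok_pp (w := 51) (j := 3) (by decide +kernel)
theorem L02972 : Good (Phi V5.P V5.D 1 1) ⟨2, 2, 2, 3, 2, 0, 2, 3, 3, 0⟩ :=
  out_sound (S := T5.ds_pp) T5.ok_pp (w := 37) (j := 3) (by decide +kernel)
theorem L02973 : Good (Phi V5.P V5.D 1 1) ⟨3, 6, 2, 3, 2, 0, 2, 3, 3, 0⟩ :=
  out_sound (S := T5.ds_pp) T5.ok_pp (w := 43) (j := 3) (by decide +kernel)
theorem L02974 : Good (Phi V5.P V5.D 1 1) ⟨5, 28, 3, 6, 2, 0, 2, 3, 3, 0⟩ :=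
  out_sound (S := T5.ds_pp) T5.ok_pp (w := 57) (j := 3) (by decide +kernel)
theorem L02975 : Good (Phi V5.P V5.D 1 1) ⟨5, 29, 3, 6, 2, 0, 2, 3, 3, 0⟩ :=
  out_sound (S := T5.ds_pp) T5.ok_pp (w := 17) (j := 4) (by decide +kernel)
theorem L02976 : Good (Phi V5.P V5.D 1 1) ⟨4, 14, 3, 7, 2, 0, 2, 3, 3, 0⟩ :=
  out_sound (S := T5.ds_pp) T5.ok_pp (w := 51) (j := 3) (by decide +kernel)
theorem L02977 : Good (Phi V5.P V5.D 1 1) ⟨4, 15, 2, 3, 2, 0, 2, 3, 3, 0⟩ :=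
  out_sound (S := T5.ds_pp) T5.ok_pp (w := 15) (j := 4) (by decide +kernel)
theorem L02978 : Good (Phi V5.P V5.D 1 1) ⟨2, 2, 1, 1, 2, 1, 2, 2, 3, 0⟩ :=
  out_sound (S := T5.ds_pp) T5.ok_pp (w := 35) (j := 3) (by decide +kernel)
theorem L02979 : Good (Phi V5.P V5.D 1 1) ⟨4, 12, 2, 2, 2, 1, 2, 2, 4, 0⟩ :=
  out_sound (S := T5.ds_pp) T5.ok_pp (w := 49) (j := 3) (by decide +kernel)
theorem L02980 : Good (Phi V5.P V5.D 1 1) ⟨4, 13, 3, 4, 2, 1, 2, 2, 4, 0⟩ :=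
  leafX_sound T5.ok_pp T5.Ypp.bz_eq (w := 210) (c := ⟨⟨.ofNat 2611, .negSucc 571, .ofNat 304, .ofNat 1474, .negSucc 1533, .negSucc 4416⟩, ⟨.ofNat 1560, .negSucc 480, .ofNat 282, .ofNat 877, .negSucc 887, .negSucc 2567⟩, ⟨.negSucc 2254, .ofNat 824, .negSucc 443, .negSucc 846, .ofNat 1411, .ofNat 3733⟩, ⟨.ofNat 3829, .negSucc 634, .ofNat 393, .ofNat 1982, .negSucc 2649, .negSucc 6379⟩, ⟨.negSucc 94, .ofNat 157, .negSucc 222, .ofNat 347, .ofNat 396, .negSucc 225⟩, .ofNat 749, .negSucc 829, .ofNat 0, .negSucc 829, .ofNat 1636, .ofNat 0, .ofNat 128, .ofNat 373, .negSucc 767, .ofNat 0, .ofNat 267, .negSucc 404, .ofNat 0, .ofNat 0, .ofNat 892, .ofNat 208, .ofNat 0, .ofNat 0, .ofNat 0, .ofNat 0, .ofNat 0, .ofNat 0, .ofNat 0, .ofNat 0, .ofNat 0, .ofNat 0, .ofNat 16625025031014509637006671714990424064, .ofNat 0, .ofNat 0, .ofNat 0, .ofNat 23825685660407785835540858552998428672, .ofNat 0⟩)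
    (by decide +kernel)
theorem L02981 : Good (Phi V5.P V5.D 1 1) ⟨4, 13, 3, 5, 2, 1, 2, 2, 4, 0⟩ :=
  out_sound (S := T5.ds_pp) T5.ok_pp (w := 51) (j := 3) (by decide +kernel)
theorem L02982 : Good (Phi V5.P V5.D 1 1) ⟨3, 6, 2, 3, 2, 1, 2, 2, 4, 0⟩ :=
  out_sound (S := T5.ds_pp) T5.ok_pp (w := 43) (j := 3) (by decide +kernel)
theorem L02983 : Good (Phi V5.P V5.D 1 1) ⟨5, 28, 3, 4, 2, 1, 2, 2, 5, 0⟩ :=
  leafX_sound T5.ok_pp T5.Ypp.bz_eq (w := 223) (c := ⟨⟨.ofNat 4540, .ofNat 1309, .negSucc 1688, .ofNat 1944, .negSucc 3162, .negSucc 3638⟩, ⟨.ofNat 2844, .ofNat 867, .negSucc 1042, .ofNat 1234, .negSucc 2001, .negSucc 2297⟩, ⟨.negSucc 2095, .ofNat 649, .negSucc 577, .negSucc 1103, .ofNat 2786, .ofNat 2994⟩, ⟨.ofNat 6124, .ofNat 1141, .negSucc 1750, .ofNat 2539, .negSucc 4923, .negSucc 5111⟩, ⟨.ofNat 217, .ofNat 711, .negSucc 581, .ofNat 369, .ofNat 603, .negSucc 125⟩, .ofNat 2045, .negSucc 2793,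 .ofNat 0, .negSucc 2793, .ofNat 4606, .ofNat 0, .ofNat 128, .ofNat 1009, .negSucc 1672, .ofNat 0, .ofNat 682, .negSucc 1030, .ofNat 0, .ofNat 0, .ofNat 1786, .ofNat 437, .ofNat 0, .ofNat 0, .ofNat 4381913367206291144364925630273290240, .ofNat 0, .ofNat 0, .ofNat 0, .ofNat 1671377977474938355162701940655506063360, .ofNat 0, .ofNat 0, .ofNat 0, .ofNat 612695126048078408100535276292647419904, .ofNat 0, .ofNat 0, .ofNat 0, .ofNat 1154547428376562723590703859924570472448, .ofNat 0⟩)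
    (by decide +kernel)
theorem L02984 : Good (Phi V5.P V5.D 1 1) ⟨5, 28, 3, 5, 2, 1, 2, 2, 5, 0⟩ :=
  leafX_sound T5.ok_pp T5.Ypp.bz_eq (w := 221) (c := ⟨⟨.ofNat 2636, .ofNat 2358, .negSucc 2512, .ofNat 2134, .negSucc 3013, .negSucc 3846⟩, ⟨.ofNat 1760, .ofNat 1388, .negSucc 1418, .ofNat 1406, .negSucc 1985, .negSucc 2523⟩, ⟨.negSucc 2622, .ofNat 147, .negSucc 177, .negSucc 1271, .ofNat 2711, .ofNat 3293⟩, ⟨.ofNat 3958, .ofNat 3150, .negSucc 3530, .ofNat 2896, .negSucc 4762, .negSucc 5377⟩, ⟨.negSucc 555, .ofNat 1371, .negSucc 1234, .ofNat 205, .ofNat 606, .negSucc 71⟩, .ofNat 1061, .negSucc 1257, .ofNat 0, .negSucc 1257, .ofNat 2122, .ofNat 0, .ofNat 128, .ofNat 608, .negSucc 1719, .ofNat 0, .ofNat 438, .negSucc 1064, .ofNat 0, .ofNat 0, .ofNat 1755, .ofNat 232, .ofNat 0, .ofNat 0, .ofNat 13830012076559188717852793683578978304, .ofNat 0, .ofNat 0, .ofNat 0, .ofNat 343963944335255308939319179121096916992,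 .ofNat 15324996856762933101314938061718151178557063168, .ofNat 0, .ofNat 0, .ofNat 492898176692784558876039743719402897408, .ofNat 163291624389826522439961187334986864858759168000, .ofNat 0, .ofNat 0, .ofNat 0, .ofNat 0⟩)
    (by decide +kernel)
theorem L02985 : Good (Phi V5.P V5.D 1 1) ⟨5, 29, 2, 2, 2, 1, 2, 2, 5, 0⟩ :=
  out_sound (S := T5.ds_pp) T5.ok_pp (w := 17) (j := 4) (by decide +kernel)
theorem L02986 : Good (Phi V5.P V5.D 1 1) ⟨4, 14, 2, 2, 2, 1, 2, 2, 5, 1⟩ :=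
  leafX_sound T5.ok_pp T5.Ypp.bz_eq (w := 211) (c := ⟨⟨.negSucc 789, .negSucc 1535, .ofNat 804, .ofNat 594, .negSucc 1854, .negSucc 1395⟩, ⟨.negSucc 288, .negSucc 964, .ofNat 103, .ofNat 385, .negSucc 1207, .negSucc 901⟩, ⟨.ofNat 628, .ofNat 756, .negSucc 42, .negSucc 773, .ofNat 1823, .ofNat 1173⟩, ⟨.negSucc 856, .negSucc 1612, .ofNat 675, .ofNat 737, .negSucc 2834, .negSucc 2007⟩, ⟨.negSucc 333, .negSucc 360, .ofNat 526, .ofNat 145, .ofNat 262, .ofNat 28⟩, .ofNat 883, .negSucc 997, .ofNat 0, .negSucc 997, .ofNat 1761, .ofNat 0, .ofNat 128, .ofNat 452, .negSucc 748, .ofNat 0, .ofNat 332, .negSucc 439, .ofNat 0, .ofNat 0, .ofNat 899, .ofNat 413, .ofNat 0, .ofNat 0, .ofNat 0, .ofNat 0, .ofNat 0, .ofNat 0, .ofNat 173109587204466063441009146322529288192, .ofNat 152288885944137843126280014603538081085652992, .ofNat 0, .ofNat 0, .ofNat 89133434769647071728078298224170893312, .ofNat 2114103824747606292981005224408638083930521600,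 .ofNat 0, .ofNat 0, .ofNat 0, .ofNat 2223505428774816836491216524838107686566363136⟩)
    (by decide +kernel)
theorem L02987 : Good (Phi V5.P V5.D 1 1) ⟨5, 28, 3, 6, 2, 1, 2, 2, 4, 0⟩ :=
  out_sound (S := T5.ds_pp) T5.ok_pp (w := 57) (j := 3) (by decide +kernel)
theorem L02988 : Good (Phi V5.P V5.D 1 1) ⟨5, 29, 3, 6, 2, 1, 2, 2, 4, 0⟩ :=
  out_sound (S := T5.ds_pp) T5.ok_pp (w := 17) (j := 4) (by decide +kernel)
theorem L02989 : Good (Phi V5.P V5.D 1 1) ⟨4, 14, 3, 7, 2, 1, 2, 2, 4, 0⟩ :=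
  out_sound (S := T5.ds_pp) T5.ok_pp (w := 51) (j := 3) (by decide +kernel)
theorem L02990 : Good (Phi V5.P V5.D 1 1) ⟨4, 15, 1, 1, 2, 1, 2, 2, 4, 0⟩ :=
  out_sound (S := T5.ds_pp) T5.ok_pp (w := 15) (j := 4) (by decide +kernel)
theorem L02991 : Good (Phi V5.P V5.D 1 1) ⟨3, 6, 1, 1, 2, 1, 2, 2, 4, 1⟩ :=
  leafX_sound T5.ok_pp T5.Ypp.bz_eq (w := 199) (c := ⟨⟨.negSucc 920, .negSucc 1291, .negSucc 6, .negSucc 421, .negSucc 686, .negSucc 643⟩, ⟨.negSucc 274, .negSucc 976, .negSucc 772, .negSucc 251, .negSucc 407, .negSucc 380⟩, ⟨.ofNat 1012, .ofNat 1034, .ofNat 199, .negSucc 118, .ofNat 865, .ofNat 547⟩, ⟨.negSucc 1709, .negSucc 1444, .ofNat 75, .negSucc 647, .negSucc 1065, .negSucc 923⟩, ⟨.negSucc 273, .ofNat 323, .negSucc 177, .ofNat 50, .ofNat 66, .negSucc 55⟩, .ofNat 758, .negSucc 840, .ofNat 0, .negSucc 840, .ofNat 1638, .ofNat 0, .ofNat 128, .ofNat 329, .negSucc 371, .ofNat 0, .ofNat 238, .negSucc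 193, .ofNat 0, .ofNat 0, .ofNat 596, .ofNat 574, .ofNat 0, .ofNat 0, .ofNat 0, .ofNat 0, .ofNat 0, .ofNat 0, .ofNat 758573646315694570654788380027518976, .ofNat 0, .ofNat 0, .ofNat 0, .ofNat 1312085219966906769773952011729895424, .ofNat 0, .ofNat 0, .ofNat 0, .ofNat 4220206472322527098996129346330034176, .ofNat 0⟩)
    (by decide +kernel)
theorem L02992 : Good (Phi V5.P V5.D 1 1) ⟨3, 7, 1, 1, 2, 1, 2, 2, 4, 1⟩ :=
  leafX_sound T5.ok_pp T5.Ypp.bz_eq (w := 199) (c := ⟨⟨.negSucc 2009, .negSucc 924, .negSucc 286, .negSucc 473, .negSucc 793, .negSucc 809⟩, ⟨.negSucc 1011, .negSucc 648, .negSucc 1220, .negSucc 309, .negSucc 517, .negSucc 530⟩, ⟨.ofNat 1757, .ofNat 39, .ofNat 1039, .negSucc 108, .ofNat 980, .ofNat 695⟩, ⟨.negSucc 2847, .negSucc 423, .negSucc 765, .negSucc 689, .negSucc 1151, .negSucc 1110⟩, ⟨.ofNat 69, .ofNat 245, .ofNat 25, .ofNat 9, .negSucc 32, .negSucc 60⟩, .ofNat 917, .negSucc 949,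 .ofNat 0, .negSucc 949, .ofNat 1463, .ofNat 0, .ofNat 128, .ofNat 318, .negSucc 416, .ofNat 0, .ofNat 263, .negSucc 275, .ofNat 0, .ofNat 0, .ofNat 610, .ofNat 382, .ofNat 0, .ofNat 0, .ofNat 0, .ofNat 0, .ofNat 0, .ofNat 0, .ofNat 4316042863046588005382321044465909760, .ofNat 0, .ofNat 0, .ofNat 0, .ofNat 876267250908922366840819255808622592, .ofNat 1108197663433549459079217650514569660989440, .ofNat 0, .ofNat 0, .ofNat 964139223798446966997360098964144128, .ofNat 1281121882630065106049914704489929276129280⟩)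
    (by decide +kernel)
theorem L02993 : Good (Phi V5.P V5.D 1 1) ⟨2, 2, 3, 4, 2, 1, 2, 3, 3, 0⟩ :=
  out_sound (S := T5.ds_pp) T5.ok_pp (w := 39) (j := 3) (by decide +kernel)
theorem L02994 : Good (Phi V5.P V5.D 1 1) ⟨4, 12, 3, 4, 2, 1, 3, 6, 3, 0⟩ :=
  out_sound (S := T5.ds_pp) T5.ok_pp (w := 51) (j := 3) (by decide +kernel)
theorem L02995 : Good (Phi V5.P V5.D 1 1) ⟨4, 13, 3, 4, 2, 1, 3, 6, 4, 0⟩ :=
  leafX_sound T5.ok_pp T5.Ypp.bz_eq (w := 215) (c := ⟨⟨.negSucc 441, .negSucc 950, .ofNat 23, .ofNat 315, .negSucc 1078, .negSucc 2090⟩, ⟨.negSucc 214, .negSucc 433, .negSucc 341, .ofNat 172, .negSucc 645, .negSucc 1222⟩, ⟨.ofNat 750, .ofNat 826, .ofNat 9, .negSucc 454, .ofNat 1090, .ofNat 1758⟩, ⟨.negSucc 777, .negSucc 1313, .negSucc 28, .negSucc 83, .negSucc 1751, .negSucc 2602⟩, ⟨.negSucc 18, .ofNat 198, .ofNat 198, .ofNat 1032, .ofNat 285, .negSucc 859⟩, .ofNat 1576, .negSucc 2163, .ofNat 0,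 .negSucc 2163, .ofNat 3847, .ofNat 0, .ofNat 128, .ofNat 506, .negSucc 825, .ofNat 0, .ofNat 336, .negSucc 470, .ofNat 0, .ofNat 0, .ofNat 947, .ofNat 128, .ofNat 0, .ofNat 0, .ofNat 1643746147458014755781604811720359936, .ofNat 0, .ofNat 0, .ofNat 0, .ofNat 264724707850961949693484308686260142080, .ofNat 0, .ofNat 0, .ofNat 0, .ofNat 0, .ofNat 0, .ofNat 0, .ofNat 0, .ofNat 455961827161317087174255105804018384896, .ofNat 0⟩)
    (by decide +kernel)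
theorem L02996 : Good (Phi V5.P V5.D 1 1) ⟨4, 13, 3, 4, 2, 1, 3, 6, 4, 1⟩ :=
  leafX_sound T5.ok_pp T5.Ypp.bz_eq (w := 214) (c := ⟨⟨.negSucc 2364, .negSucc 691, .ofNat 40, .negSucc 1292, .negSucc 523, .negSucc 169⟩, ⟨.negSucc 1201, .negSucc 540, .negSucc 213, .negSucc 762, .negSucc 314, .negSucc 95⟩, ⟨.ofNat 2405, .ofNat 656, .negSucc 52, .ofNat 723, .ofNat 544, .ofNat 96⟩, ⟨.negSucc 4148, .negSucc 129, .negSucc 350, .negSucc 1857, .negSucc 804, .ofNat 20⟩, ⟨.ofNat 771, .negSucc 973, .ofNat 795, .negSucc 48, .ofNat 80, .negSucc 487⟩, .ofNat 1575, .negSucc 2158, .ofNat 0, .negSucc 2158, .ofNat 3829, .ofNat 0, .ofNat 128, .ofNat 491, .negSucc 443, .ofNat 0, .ofNat 325, .negSucc 250, .ofNat 0, .ofNat 0, .ofNat 669, .ofNat 691, .ofNat 0, .ofNat 0, .ofNat 0, .ofNat 0, .ofNat 0, .ofNat 0, .ofNat 239244167613671479836456422796706185216, .ofNat 0, .ofNat 0, .ofNat 0, .ofNat 0, .ofNat 0, .ofNat 0, .ofNat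 0, .ofNat 92533173803230525962965240031458885632, .ofNat 0⟩)
    (by decide +kernel)
theorem L02997 : Good (Phi V5.P V5.D 1 1) ⟨5, 28, 4, 8, 2, 1, 3, 6, 4, 0⟩ :=
  out_sound (S := T5.ds_pp) T5.ok_pp (w := 59) (j := 3) (by decide +kernel)
theorem L02998 : Good (Phi V5.P V5.D 1 1) ⟨5, 28, 4, 9, 2, 1, 3, 6, 4, 0⟩ :=
  leafX_sound T5.ok_pp T5.Ypp.bz_eq (w := 221) (c := ⟨⟨.ofNat 478, .ofNat 4041, .negSucc 3040, .ofNat 33, .negSucc 1639, .negSucc 1494⟩, ⟨.ofNat 397, .ofNat 2449, .negSucc 2006, .ofNat 31, .negSucc 1050, .negSucc 964⟩, ⟨.ofNat 27, .negSucc 3419, .ofNat 2564, .negSucc 298, .ofNat 1558, .ofNat 1309⟩, ⟨.ofNat 562, .ofNat 4455, .negSucc 3886, .negSucc 137, .negSucc 2654, .negSucc 2234⟩, ⟨.ofNat 125, .ofNat 1205, .negSucc 316, .ofNat 433, .ofNat 313, .negSucc 50⟩, .ofNat 742, .negSucc 769, .ofNat 0, .negSucc 769, .ofNat 1389, .ofNat 0, .ofNat 128, .ofNat 438, .negSucc 1250, .ofNat 0, .ofNat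 345, .negSucc 722, .ofNat 0, .ofNat 0, .ofNat 1312, .ofNat 301, .ofNat 0, .ofNat 0, .ofNat 0, .ofNat 0, .ofNat 0, .ofNat 0, .ofNat 285029659776680923928997342326770630656, .ofNat 0, .ofNat 0, .ofNat 0, .ofNat 486387882623000888453335957931676401664, .ofNat 0, .ofNat 0, .ofNat 0, .ofNat 468908020289016261192313831291141226496, .ofNat 0⟩)
    (by decide +kernel)
theorem L02999 : Good (Phi V5.P V5.D 1 1) ⟨5, 29, 3, 4, 2, 1, 3, 6, 4, 0⟩ :=
  out_sound (S := T5.ds_pp) T5.ok_pp (w := 57) (j := 3) (by decide +kernel)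
theorem L03000 : Good (Phi V5.P V5.D 1 1) ⟨4, 14, 3, 4, 2, 1, 3, 6, 4, 1⟩ :=
  leafX_sound T5.ok_pp T5.Ypp.bz_eq (w := 214) (c := ⟨⟨.negSucc 2369, .ofNat 63, .negSucc 875, .negSucc 1472, .negSucc 681, .ofNat 41⟩, ⟨.negSucc 1329, .negSucc 269, .negSucc 716, .negSucc 929, .negSucc 432, .ofNat 21⟩, ⟨.ofNat 2591, .ofNat 211, .ofNat 589, .ofNat 826, .ofNat 686, .negSucc 71⟩, ⟨.negSucc 3392, .ofNat 471, .negSucc 1295, .negSucc 2296, .negSucc 1041, .ofNat 194⟩, ⟨.negSucc 71, .negSucc 1, .ofNat 181, .ofNat 276, .ofNat 73, .negSucc 239⟩, .ofNat 987, .negSucc 1072, .ofNat 0, .negSucc 1072, .ofNat 1777, .ofNat 0, .ofNat 128, .ofNat 340, .negSucc 449, .ofNat 0, .ofNat 277, .negSucc 265, .ofNat 0, .ofNat 0, .ofNat 623, .ofNat 538, .ofNat 0, .ofNat 0, .ofNat 0, .ofNat 0, .ofNat 0, .ofNat 0, .ofNat 625452722218914066241776102605324288000, .ofNat 0, .ofNat 0, .ofNat 0, .ofNat 226700059741154321286413300355139895296,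 .ofNat 0, .ofNat 0, .ofNat 0, .ofNat 194294271990879170316011983357303848960, .ofNat 0⟩)
    (by decide +kernel)
theorem L03001 : Good (Phi V5.P V5.D 1 1) ⟨4, 15, 3, 4, 2, 1, 3, 6, 3, 0⟩ :=
  out_sound (S := T5.ds_pp) T5.ok_pp (w := 51) (j := 3) (by decide +kernel)
theorem L03002 : Good (Phi V5.P V5.D 1 1) ⟨4, 12, 4, 8, 2, 1, 3, 7, 4, 0⟩ :=
  out_sound (S := T5.ds_pp) T5.ok_pp (w := 53) (j := 3) (by decide +kernel)

end Crest.Agent.R097C5.N5pp
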