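import Crest.Agent.R097.KP7
import Crest.Agent.R097.T5Ypp

/-!
# Row 97, box cover in dimension n = 5 (generated)
-/

set_option autoImplicit false
set_option Elab.async false
set_option maxHeartbeats 0
set_option maxRecDepth 100000

open Crest.Agent.R097 Crest.Agent.R097.KA


namespace Crest.Agent.R097C5.N5pp

theorem L03003 : Good (Phi V5.P V5.D 1 1) ⟨5, 26, 4, 8, 2, 1, 3, 7, 4, 0⟩ :=
  leafX_sound T5.ok_pp T5.Ypp.bz_eq (w := 225) (c := ⟨⟨.negSucc 209, .negSucc 2456, .ofNat 3775, .negSucc 1014, .negSucc 1833, .negSucc 802⟩, ⟨.negSucc 37, .negSucc 1432, .ofNat 1952, .negSucc 536, .negSucc 1009, .negSucc 457⟩, ⟨.ofNat 849, .ofNat 2005, .negSucc 3036, .ofNat 583, .ofNat 1761, .ofNat 603⟩, ⟨.negSucc 676, .negSucc 3149, .ofNat 5190, .negSucc 2093, .negSucc 2956, .negSucc 1152⟩, ⟨.ofNat 289, .negSucc 488, .ofNat 596, .ofNat 1044, .ofNat 382, .negSucc 128⟩, .ofNat 1883, .negSucc 2796, .ofNat 0, .negSucc 2796,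 .ofNat 5176, .ofNat 0, .ofNat 128, .ofNat 702, .negSucc 1885, .ofNat 0, .ofNat 439, .negSucc 1025, .ofNat 0, .ofNat 0, .ofNat 1996, .ofNat 351, .ofNat 0, .ofNat 0, .ofNat 11794015246563326330471512242716147712, .ofNat 0, .ofNat 0, .ofNat 0, .ofNat 397545622635345651281619174636681953280, .ofNat 0, .ofNat 0, .ofNat 477298674966846478625977092812711091173851136, .ofNat 794030346783668623438298640924287172608, .ofNat 0, .ofNat 0, .ofNat 0, .ofNat 482755781196901037610329410477246906368, .ofNat 0⟩)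
    (by decide +kernel)
theorem L03004 : Good (Phi V5.P V5.D 1 1) ⟨5, 27, 4, 8, 2, 1, 3, 7, 4, 0⟩ :=
  leafX_sound T5.ok_pp T5.Ypp.bz_eq (w := 223) (c := ⟨⟨.negSucc 2704, .negSucc 643, .ofNat 148, .negSucc 1507, .negSucc 1479, .negSucc 433⟩, ⟨.negSucc 1449, .negSucc 456, .negSucc 61, .negSucc 834, .negSucc 851, .negSucc 266⟩, ⟨.ofNat 2929, .ofNat 577, .negSucc 146, .ofNat 942, .ofNat 1502, .ofNat 257⟩, ⟨.negSucc 3973, .negSucc 738, .ofNat 48, .negSucc 2628, .negSucc 2568, .negSucc 485⟩, ⟨.negSucc 38, .ofNat 100, .ofNat 201, .ofNat 679, .ofNat 670, .negSucc 360⟩, .ofNat 1484, .negSucc 2030, .ofNat 0, .negSucc 2030, .ofNat 3668, .ofNat 0, .ofNat 128, .ofNat 524, .negSucc 1311, .ofNat 0, .ofNat 347, .negSucc 736, .ofNat 0, .ofNat 0, .ofNat 1391, .ofNat 86, .ofNat 0, .ofNat 0, .ofNat 0, .ofNat 0, .ofNat 0, .ofNat 0, .ofNat 99704025973448365035646302185817374720, .ofNat 0, .ofNat 0, .ofNat 176097345870149830357006451989315960799494144,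 .ofNat 323447716695686360324555641975541334016, .ofNat 0, .ofNat 0, .ofNat 319620094411833206372641329960333464037228544, .ofNat 375032717310106064653853053190930432000, .ofNat 0⟩)
    (by decide +kernel)
theorem L03005 : Good (Phi V5.P V5.D 1 1) ⟨3, 7, 4, 8, 2, 1, 3, 7, 4, 0⟩ :=
  out_sound (S := T5.ds_pp) T5.ok_pp (w := 47) (j := 3) (by decide +kernel)
theorem L03006 : Good (Phi V5.P V5.D 1 1) ⟨4, 12, 4, 9, 2, 1, 3, 7, 4, 0⟩ :=
  out_sound (S := T5.ds_pp) T5.ok_pp (w := 53) (j := 3) (by decide +kernel)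
theorem L03007 : Good (Phi V5.P V5.D 1 1) ⟨5, 26, 4, 9, 2, 1, 3, 7, 4, 0⟩ :=
  out_sound (S := T5.ds_pp) T5.ok_pp (w := 59) (j := 3) (by decide +kernel)
theorem L03008 : Good (Phi V5.P V5.D 1 1) ⟨5, 27, 4, 9, 2, 1, 3, 7, 4, 0⟩ :=
  leafX_sound T5.ok_pp T5.Ypp.bz_eq (w := 227) (c := ⟨⟨.negSucc 1183, .negSucc 2489, .ofNat 574, .negSucc 1560, .negSucc 2177, .negSucc 229⟩, ⟨.negSucc 606, .negSucc 1596, .ofNat 177, .negSucc 932, .negSucc 1326, .negSucc 154⟩, ⟨.ofNat 1866, .ofNat 1862, .negSucc 380, .ofNat 860, .ofNat 2092, .ofNat 103⟩, ⟨.negSucc 1684, .negSucc 3318, .ofNat 240, .negSucc 2802, .negSucc 3582, .negSucc 363⟩, ⟨.negSucc 479, .ofNat 153, .ofNat 815, .ofNat 916, .ofNat 719, .ofNat 27⟩, .ofNat 3041, .negSucc 4459, .ofNat 0, .negSucc 4459, .ofNat 7432, .ofNat 0, .ofNat 128, .ofNat 926, .negSucc 2268, .ofNat 0, .ofNat 606, .negSucc 1366, .ofNat 0, .ofNat 0, .ofNat 2295, .ofNat 231, .ofNat 0, .ofNat 0,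 .ofNat 29594569402912195062771774590910726144, .ofNat 0, .ofNat 0, .ofNat 4448579847526873367339522970668331557715968, .ofNat 428736024921842719645202455785268838400, .ofNat 0, .ofNat 0, .ofNat 697341102969638714501733402128334877200744448, .ofNat 581405644003119585375195901174311026688, .ofNat 0, .ofNat 0, .ofNat 0, .ofNat 1740128025856656615982095391762730188800, .ofNat 0⟩)
    (by decide +kernel)
theorem L03009 : Good (Phi V5.P V5.D 1 1) ⟨5, 28, 4, 9, 2, 1, 4, 14, 4, 0⟩ :=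
  leafX_sound T5.ok_pp T5.Ypp.bz_eq (w := 228) (c := ⟨⟨.negSucc 3225, .ofNat 231, .negSucc 470, .negSucc 1271, .negSucc 960, .negSucc 150⟩, ⟨.negSucc 1890, .ofNat 106, .negSucc 471, .negSucc 785, .negSucc 611, .negSucc 107⟩, ⟨.ofNat 3547, .negSucc 16, .ofNat 253, .ofNat 592, .ofNat 897, .ofNat 83⟩, ⟨.negSucc 4590, .ofNat 724, .negSucc 826, .negSucc 2256, .negSucc 1578, .negSucc 108⟩, ⟨.ofNat 66, .negSucc 17, .ofNat 77, .ofNat 772, .ofNat 290, .negSucc 236⟩, .ofNat 1383, .negSucc 1710, .ofNat 0, .negSucc 1710, .ofNat 2820, .ofNat 0, .ofNat 128, .ofNat 667, .negSucc 2027, .ofNat 0, .ofNat 490, .negSucc 1245, .ofNat 0, .ofNat 0, .ofNat 2068, .ofNat 159, .ofNat 0, .ofNat 0, .ofNat 53510405968450412140272357245026566144, .ofNat 0, .ofNat 0, .ofNat 0, .ofNat 7218660027763659950432547883017935257600, .ofNat 0, .ofNat 0, .ofNat 0, .ofNat 1728133320641773513687810431692581109760, .ofNat 0, .ofNat 0, .ofNat 0, .ofNat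 0, .ofNat 0⟩)
    (by decide +kernel)
theorem L03010 : Good (Phi V5.P V5.D 1 1) ⟨5, 28, 4, 9, 2, 1, 4, 15, 4, 0⟩ :=
  leafX_sound T5.ok_pp T5.Ypp.bz_eq (w := 227) (c := ⟨⟨.negSucc 3401, .negSucc 123, .negSucc 1062, .negSucc 2435, .negSucc 1775, .ofNat 77⟩, ⟨.negSucc 1959, .negSucc 142, .negSucc 890, .negSucc 1521, .negSucc 1128, .ofNat 29⟩, ⟨.ofNat 3615, .negSucc 8, .ofNat 1110, .ofNat 1422, .ofNat 1674, .negSucc 212⟩, ⟨.negSucc 4761, .negSucc 22, .negSucc 1543, .negSucc 4283, .negSucc 2780, .ofNat 31⟩, ⟨.negSucc 96, .ofNat 262, .negSucc 13, .ofNat 1297, .ofNat 338, .ofNat 22⟩, .ofNat 1383, .negSucc 1710, .ofNat 0, .negSucc 1710, .ofNat 2820, .ofNat 0, .ofNat 128, .ofNat 500, .negSucc 1863, .ofNat 0, .ofNat 368, .negSucc 1147, .ofNat 0, .ofNat 0, .ofNat 1770, .ofNat 82, .ofNat 0, .ofNat 20637976311769137038539659792920223764447232, .ofNat 178259699542543742355884809464703877120, .ofNat 0, .ofNat 0, .ofNat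 738602242241780488489277087843953860012933120, .ofNat 5103291773441375601708769578947406987264, .ofNat 0, .ofNat 0, .ofNat 0, .ofNat 4364174126257044006033963184693419442176, .ofNat 0, .ofNat 0, .ofNat 2194598057768280354949976101692023657317007360, .ofNat 3948390912283614493489110559205221203968, .ofNat 0⟩)
    (by decide +kernel)
theorem L03011 : Good (Phi V5.P V5.D 1 1) ⟨5, 29, 4, 9, 2, 1, 3, 7, 4, 0⟩ :=
  out_sound (S := T5.ds_pp) T5.ok_pp (w := 59) (j := 3) (by decide +kernel)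
theorem L03012 : Good (Phi V5.P V5.D 1 1) ⟨4, 15, 4, 9, 2, 1, 3, 7, 4, 0⟩ :=
  out_sound (S := T5.ds_pp) T5.ok_pp (w := 53) (j := 3) (by decide +kernel)
theorem L03013 : Good (Phi V5.P V5.D 1 1) ⟨4, 12, 3, 4, 2, 1, 3, 7, 4, 1⟩ :=
  out_sound (S := T5.ds_pp) T5.ok_pp (w := 51) (j := 3) (by decide +kernel)
theorem L03014 : Good (Phi V5.P V5.D 1 1) ⟨5, 26, 3, 4, 2, 1, 3, 7, 4, 1⟩ :=
  leafX_sound T5.ok_pp T5.Ypp.bz_eq (w := 223) (c := ⟨⟨.negSucc 3791, .ofNat 1113, .negSucc 1520, .negSucc 2672, .negSucc 1950, .negSucc 15⟩, ⟨.negSucc 1992, .ofNat 509, .negSucc 1118, .negSucc 1467, .negSucc 1074, .negSucc 17⟩, ⟨.ofNat 3677, .negSucc 815, .ofNat 673, .ofNat 1847, .ofNat 1798, .negSucc 168⟩, ⟨.negSucc 5426, .ofNat 1333, .negSucc 1347, .negSucc 4223, .negSucc 2990, .ofNat 176⟩, ⟨.negSucc 511, .ofNat 655, .negSucc 765, .ofNat 438, .ofNat 145, .negSucc 368⟩, .ofNat 2866, .negSucc 4509, .ofNat 0, .negSucc 4509, .ofNat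 8186, .ofNat 0, .ofNat 128, .ofNat 1080, .negSucc 1495, .ofNat 0, .ofNat 661, .negSucc 815, .ofNat 0, .ofNat 0, .ofNat 1846, .ofNat 338, .ofNat 0, .ofNat 1102423900268389271328693734556478396694528, .ofNat 4954290620457796921298000446536810496, .ofNat 0, .ofNat 0, .ofNat 3983807813743199053160410193317776563634176, .ofNat 74274276702738131212786563169967407104, .ofNat 0, .ofNat 0, .ofNat 0, .ofNat 803079183888960620605381950668491718656, .ofNat 0, .ofNat 0, .ofNat 0, .ofNat 627290849469187994036233685692351250432, .ofNat 0⟩)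
    (by decide +kernel)
theorem L03015 : Good (Phi V5.P V5.D 1 1) ⟨5, 27, 4, 8, 2, 1, 4, 14, 4, 1⟩ :=
  leafX_sound T5.ok_pp T5.Ypp.bz_eq (w := 226) (c := ⟨⟨.negSucc 2938, .negSucc 720, .ofNat 249, .negSucc 2198, .negSucc 769, .negSucc 104⟩, ⟨.negSucc 1598, .negSucc 496, .negSucc 1, .negSucc 1254, .negSucc 442, .negSucc 69⟩, ⟨.ofNat 3065, .ofNat 621, .negSucc 183, .ofNat 1463, .ofNat 722, .negSucc 52⟩, ⟨.negSucc 4300, .negSucc 702, .ofNat 263, .negSucc 3573, .negSucc 1190, .negSucc 31⟩, ⟨.negSucc 152, .negSucc 223, .ofNat 176, .ofNat 616, .ofNat 114, .negSucc 235⟩, .ofNat 1468, .negSucc 2008, .ofNat 0, .negSucc 2008, .ofNat 3642, .ofNat 0, .ofNat 128, .ofNat 692, .negSucc 1030, .ofNat 0, .ofNat 456, .negSucc 570, .ofNat 0, .ofNat 0, .ofNat 1348, .ofNat 383, .ofNat 0, .ofNat 0, .ofNat 0, .ofNat 0, .ofNat 0, .ofNat 0, .ofNat 2364373200418082558304106645453528891392, .ofNat 0, .ofNat 0, .ofNat 0, .ofNat 0,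 .ofNat 0, .ofNat 0, .ofNat 0, .ofNat 0, .ofNat 0⟩)
    (by decide +kernel)
theorem L03016 : Good (Phi V5.P V5.D 1 1) ⟨5, 27, 4, 8, 3, 2, 4, 15, 4, 1⟩ :=
  leafX_sound T5.ok_pp T5.Ypp.bz_eq (w := 241) (c := ⟨⟨.negSucc 2899, .negSucc 937, .ofNat 16, .negSucc 1740, .negSucc 1433, .negSucc 158⟩, ⟨.negSucc 1574, .negSucc 601, .negSucc 158, .negSucc 1005, .negSucc 828, .negSucc 82⟩, ⟨.ofNat 3076, .ofNat 849, .negSucc 24, .ofNat 1368, .ofNat 1267, .negSucc 74⟩, ⟨.negSucc 4280, .negSucc 969, .negSucc 149, .negSucc 2706, .negSucc 2190, .negSucc 128⟩, ⟨.negSucc 78, .negSucc 295, .ofNat 315, .ofNat 242, .ofNat 142, .negSucc 211⟩, .ofNat 1477, .negSucc 2016, .ofNat 0, .negSucc 2016, .ofNat 3641, .ofNat 0, .ofNat 128, .ofNat 683, .negSucc 1517, .ofNat 0, .ofNat 456, .negSucc 850, .ofNat 0, .ofNat 0, .ofNat 1853, .ofNat 246, .ofNat 0, .ofNat 0, .ofNat 0, .ofNat 0, .ofNat 0, .ofNat 696991402441261352392668200345633465070642003968,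 .ofNat 34455677313445883783873644833488276174143488, .ofNat 0, .ofNat 0, .ofNat 0, .ofNat 0, .ofNat 0, .ofNat 0, .ofNat 0, .ofNat 0, .ofNat 0⟩)
    (by decide +kernel)
theorem L03017 : Good (Phi V5.P V5.D 1 1) ⟨5, 27, 4, 8, 3, 3, 4, 15, 4, 1⟩ :=
  leafX_sound T5.ok_pp T5.Ypp.bz_eq (w := 241) (c := ⟨⟨.negSucc 4072, .negSucc 930, .negSucc 95, .negSucc 2602, .negSucc 3301, .negSucc 40⟩, ⟨.negSucc 2184, .negSucc 566, .negSucc 360, .negSucc 1477, .negSucc 1900, .negSucc 32⟩, ⟨.ofNat 4118, .ofNat 814, .ofNat 5, .ofNat 1585, .ofNat 2642, .negSucc 195⟩, ⟨.negSucc 6195, .negSucc 917, .negSucc 400, .negSucc 3941, .negSucc 5370, .ofNat 252⟩, ⟨.ofNat 157, .negSucc 257, .ofNat 505, .ofNat 215, .ofNat 948, .negSucc 561⟩, .ofNat 2007, .negSucc 2864, .ofNat 0, .negSucc 2864, .ofNat 5010, .ofNat 0, .ofNat 128, .ofNat 386, .negSucc 814, .ofNat 0, .ofNat 252, .negSucc 461, .ofNat 0, .ofNat 0, .ofNat 851, .ofNat 176, .ofNat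 0, .ofNat 425654266062074066373484116664231636528531505152, .ofNat 2935804558907824864384423004342871646011392, .ofNat 0, .ofNat 0, .ofNat 5950938951339168273866419703070117388793317163008, .ofNat 75551479132192805518062189095743068210987008, .ofNat 0, .ofNat 0, .ofNat 6983455146271091877865083194433766122508668370944, .ofNat 65562127132491115041142600389286912644349952, .ofNat 0, .ofNat 0, .ofNat 10389902110796205260598889988974456908297090891776, .ofNat 41512655872727287680877968763503193136037888, .ofNat 0⟩)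
    (by decide +kernel)
theorem L03018 : Good (Phi V5.P V5.D 1 1) ⟨6, 54, 4, 9, 2, 1, 3, 7, 4, 1⟩ :=
  out_sound (S := T5.ds_pp) T5.ok_pp (w := 65) (j := 3) (by decide +kernel)
theorem L03019 : Good (Phi V5.P V5.D 1 1) ⟨6, 55, 4, 9, 2, 1, 4, 14, 4, 1⟩ :=
  leafX_sound T5.ok_pp T5.Ypp.bz_eq (w := 233) (c := ⟨⟨.negSucc 3353, .ofNat 353, .negSucc 951, .negSucc 2386, .negSucc 663, .ofNat 109⟩, ⟨.negSucc 1981, .ofNat 185, .negSucc 755, .negSucc 1450, .negSucc 410, .ofNat 66⟩, ⟨.ofNat 3410, .negSucc 199, .ofNat 671, .ofNat 1567, .ofNat 618, .negSucc 200⟩, ⟨.negSucc 4653, .ofNat 480, .negSucc 1405, .negSucc 3917, .negSucc 1133, .ofNat 179⟩, ⟨.negSucc 413, .ofNat 142, .ofNat 194, .ofNat 801, .ofNat 286, .negSucc 38⟩, .ofNat 3056, .negSucc 4484, .ofNat 0, .negSucc 4484, .ofNat 7476, .ofNat 0, .ofNat 128, .ofNat 988, .negSucc 981, .ofNat 0, .ofNat 644, .negSucc 587, .ofNat 0, .ofNat 0, .ofNat 1274, .ofNat 1195, .ofNat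 0, .ofNat 0, .ofNat 0, .ofNat 0, .ofNat 0, .ofNat 0, .ofNat 3900706047476366146027734152585727180800, .ofNat 0, .ofNat 0, .ofNat 0, .ofNat 8501671454544280835940034383548071804928, .ofNat 0, .ofNat 0, .ofNat 0, .ofNat 4551948329883600558797526980370259509248, .ofNat 0⟩)
    (by decide +kernel)
theorem L03020 : Good (Phi V5.P V5.D 1 1) ⟨6, 55, 4, 9, 2, 1, 5, 30, 4, 1⟩ :=
  leafX_sound T5.ok_pp T5.Ypp.bz_eq (w := 236) (c := ⟨⟨.negSucc 3380, .negSucc 318, .ofNat 206, .negSucc 4096, .negSucc 859, .negSucc 26⟩, ⟨.negSucc 1983, .negSucc 187, .negSucc 150, .negSucc 2476, .negSucc 531, .negSucc 32⟩, ⟨.ofNat 3603, .ofNat 212, .negSucc 54, .ofNat 2765, .ofNat 762, .negSucc 219⟩, ⟨.negSucc 4759, .negSucc 635, .ofNat 165, .negSucc 6422, .negSucc 1453, .ofNat 267⟩, ⟨.negSucc 300, .ofNat 444, .ofNat 311, .ofNat 825, .ofNat 347, .negSucc 518⟩, .ofNat 2188, .negSucc 3105, .ofNat 0, .negSucc 3105, .ofNat 5262, .ofNat 0,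 .ofNat 128, .ofNat 593, .negSucc 1004, .ofNat 0, .ofNat 387, .negSucc 599, .ofNat 0, .ofNat 0, .ofNat 1169, .ofNat 604, .ofNat 0, .ofNat 0, .ofNat 0, .ofNat 0, .ofNat 0, .ofNat 0, .ofNat 0, .ofNat 0, .ofNat 0, .ofNat 0, .ofNat 12970374938408367464978289188879489564672, .ofNat 0, .ofNat 0, .ofNat 0, .ofNat 0, .ofNat 0⟩)
    (by decide +kernel)
theorem L03021 : Good (Phi V5.P V5.D 1 1) ⟨6, 55, 4, 9, 2, 1, 5, 31, 4, 1⟩ :=
  leafX_sound T5.ok_pp T5.Ypp.bz_eq (w := 238) (c := ⟨⟨.negSucc 3624, .negSucc 534, .ofNat 48, .negSucc 5470, .negSucc 1678, .ofNat 101⟩, ⟨.negSucc 2123, .negSucc 365, .negSucc 233, .negSucc 3304, .negSucc 1029, .ofNat 55⟩, ⟨.ofNat 3873, .ofNat 509, .negSucc 86, .ofNat 3753, .ofNat 1431, .negSucc 356⟩, ⟨.negSucc 5283, .negSucc 485, .negSucc 270, .negSucc 8817, .negSucc 2893, .ofNat 532⟩, ⟨.negSucc 65, .negSucc 193, .ofNat 531, .ofNat 1509, .ofNat 771, .negSucc 654⟩, .ofNat 3062, .negSucc 4496,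 .ofNat 0, .negSucc 4496, .ofNat 7497, .ofNat 0, .ofNat 128, .ofNat 1053, .negSucc 1716, .ofNat 0, .ofNat 686, .negSucc 1029, .ofNat 0, .ofNat 0, .ofNat 1860, .ofNat 390, .ofNat 0, .ofNat 27129365588291895301436932765553631453052403712, .ofNat 1194677058200854596772109529088085983232, .ofNat 0, .ofNat 0, .ofNat 125126279410559192413040057200665991292152446976, .ofNat 52397569037116269144965734405925075156992, .ofNat 0, .ofNat 0, .ofNat 830131623946038648045710762244563025804665028608, .ofNat 86744635824237495235870972684785502126080, .ofNat 0, .ofNat 0, .ofNat 666647739987498783973474130759024770107310080000, .ofNat 21300409605435109015946812143304712388608, .ofNat 0⟩)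
    (by decide +kernel)
theorem L03022 : Good (Phi V5.P V5.D 1 1) ⟨5, 28, 4, 8, 2, 1, 3, 7, 4, 1⟩ :=
  out_sound (S := T5.ds_pp) T5.ok_pp (w := 59) (j := 3) (by decide +kernel)
theorem L03023 : Good (Phi V5.P V5.D 1 1) ⟨5, 28, 4, 9, 2, 1, 4, 14, 4, 1⟩ :=
  leafX_sound T5.ok_pp T5.Ypp.bz_eq (w := 228) (c := ⟨⟨.negSucc 2807, .negSucc 499, .negSucc 330, .negSucc 3179, .negSucc 1094, .ofNat 200⟩, ⟨.negSucc 1592, .negSucc 314, .negSucc 431, .negSucc 2003, .negSucc 695, .ofNat 119⟩, ⟨.ofNat 3155, .ofNat 478, .ofNat 173, .ofNat 2094, .ofNat 903, .negSucc 314⟩, ⟨.negSucc 3748, .negSucc 336, .negSucc 731, .negSucc 4878, .negSucc 1718, .ofNat 412⟩, ⟨.negSucc 464, .negSucc 273, .ofNat 457, .ofNat 537, .ofNat 238, .negSucc 213⟩, .ofNat 2045, .negSucc 2795, .ofNat 0, .negSucc 2795, .ofNat 4613, .ofNat 0, .ofNat 128, .ofNat 892, .negSucc 1210, .ofNat 0, .ofNat 604, .negSucc 739, .ofNat 0, .ofNat 0, .ofNat 1546, .ofNat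 993, .ofNat 0, .ofNat 0, .ofNat 0, .ofNat 0, .ofNat 0, .ofNat 0, .ofNat 15267245119345702133014190915927513497600, .ofNat 0, .ofNat 0, .ofNat 0, .ofNat 20277467793739652028677247077906336710656, .ofNat 0, .ofNat 0, .ofNat 0, .ofNat 3782603234906753022444449449397119352832, .ofNat 0⟩)
    (by decide +kernel)
theorem L03024 : Good (Phi V5.P V5.D 1 1) ⟨6, 56, 5, 18, 2, 1, 4, 15, 4, 1⟩ :=
  out_sound (S := T5.ds_pp) T5.ok_pp (w := 67) (j := 3) (by decide +kernel)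
theorem L03025 : Good (Phi V5.P V5.D 1 1) ⟨6, 56, 5, 19, 2, 1, 5, 30, 4, 1⟩ :=
  leafX_sound T5.ok_pp T5.Ypp.bz_eq (w := 241) (c := ⟨⟨.negSucc 3555, .ofNat 494, .negSucc 529, .negSucc 4248, .negSucc 994, .ofNat 115⟩, ⟨.negSucc 2184, .ofNat 220, .negSucc 417, .negSucc 2681, .negSucc 625, .ofNat 75⟩, ⟨.ofNat 3767, .negSucc 416, .ofNat 466, .ofNat 2813, .ofNat 814, .negSucc 316⟩, ⟨.negSucc 5003, .ofNat 500, .negSucc 494, .negSucc 6793, .negSucc 1654, .ofNat 199⟩, ⟨.negSucc 171, .ofNat 473, .negSucc 363, .ofNat 1162, .ofNat 358, .negSucc 54⟩, .ofNat 3995, .negSucc 5818, .ofNat 0, .negSucc 5818, .ofNat 9315, .ofNat 0, .ofNat 128, .ofNat 1004, .negSucc 1275, .ofNat 0, .ofNat 665, .negSucc 797, .ofNat 0, .ofNat 0, .ofNat 1462, .ofNat 1081, .ofNat 0, .ofNat 0, .ofNat 0, .ofNat 0, .ofNat 0, .ofNat 0, .ofNat 1108657449788278727590296427962499512401920, .ofNat 0, .ofNat 0, .ofNat 0, .ofNat 484164548778081376663229768596008311193600,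 .ofNat 0, .ofNat 0, .ofNat 0, .ofNat 397110720745165895449918529187793747312640, .ofNat 0⟩)
    (by decide +kernel)
theorem L03026 : Good (Phi V5.P V5.D 1 1) ⟨6, 56, 5, 19, 2, 1, 5, 31, 4, 1⟩ :=
  leafX_sound T5.ok_pp T5.Ypp.bz_eq (w := 239) (c := ⟨⟨.negSucc 3945, .negSucc 1108, .ofNat 141, .negSucc 6003, .negSucc 1922, .ofNat 219⟩, ⟨.negSucc 2384, .negSucc 768, .negSucc 41, .negSucc 3802, .negSucc 1232, .ofNat 135⟩, ⟨.ofNat 4241, .ofNat 742, .negSucc 102, .ofNat 4070, .ofNat 1663, .negSucc 478⟩, ⟨.negSucc 5463, .negSucc 1785, .ofNat 246, .negSucc 9686, .negSucc 3190, .ofNat 666⟩, ⟨.negSucc 257, .ofNat 661, .negSucc 133, .ofNat 1719, .ofNat 644, .negSucc 563⟩, .ofNat 1800, .negSucc 2385, .ofNat 0, .negSucc 2385, .ofNat 3924, .ofNat 0, .ofNat 128, .ofNat 744, .negSucc 1768, .ofNat 0, .ofNat 516, .negSucc 1086, .ofNat 0, .ofNat 0, .ofNat 1819, .ofNat 285, .ofNat 0, .ofNat 151004793897864402184827521254199791671555653632,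 .ofNat 4073871040494063913999958920428173393920, .ofNat 0, .ofNat 0, .ofNat 1159821102001452492175459492153176512005438177280, .ofNat 266424360072853491420815433655383343759360, .ofNat 0, .ofNat 0, .ofNat 4159221608045095264669606904635294765736901214208, .ofNat 107469942774477934002721910174809103269888, .ofNat 0, .ofNat 0, .ofNat 5669981515973594453262386228653030490395040022528, .ofNat 144431403531087593632801999181939537346560, .ofNat 0⟩)
    (by decide +kernel)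
theorem L03027 : Good (Phi V5.P V5.D 1 1) ⟨6, 57, 4, 9, 2, 1, 4, 15, 4, 1⟩ :=
  out_sound (S := T5.ds_pp) T5.ok_pp (w := 65) (j := 3) (by decide +kernel)
theorem L03028 : Good (Phi V5.P V5.D 1 1) ⟨5, 29, 3, 4, 2, 1, 3, 7, 4, 1⟩ :=
  out_sound (S := T5.ds_pp) T5.ok_pp (w := 57) (j := 3) (by decide +kernel)
theorem L03029 : Good (Phi V5.P V5.D 1 1) ⟨4, 15, 3, 4, 2, 1, 3, 7, 4, 1⟩ :=
  out_sound (S := T5.ds_pp) T5.ok_pp (w := 51) (j := 3) (by decide +kernel)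
theorem L03030 : Good (Phi V5.P V5.D 1 1) ⟨2, 2, 3, 5, 2, 1, 2, 3, 3, 0⟩ :=
  out_sound (S := T5.ds_pp) T5.ok_pp (w := 39) (j := 3) (by decide +kernel)
theorem L03031 : Good (Phi V5.P V5.D 1 1) ⟨3, 6, 4, 10, 3, 2, 3, 6, 3, 0⟩ :=
  out_sound (S := T5.ds_pp) T5.ok_pp (w := 47) (j := 3) (by decide +kernel)
theorem L03032 : Good (Phi V5.P V5.D 1 1) ⟨4, 14, 4, 10, 3, 2, 3, 6, 3, 0⟩ :=
  leafX_sound T5.ok_pp T5.Ypp.bz_eq (w := 229) (c := ⟨⟨.negSucc 2478, .negSucc 714, .negSucc 72, .negSucc 524, .negSucc 533, .negSucc 715⟩, ⟨.negSucc 1526, .negSucc 845, .negSucc 79, .negSucc 347, .negSucc 354, .negSucc 476⟩, ⟨.ofNat 2619, .ofNat 522, .ofNat 100, .ofNat 290, .ofNat 574, .ofNat 488⟩, ⟨.negSucc 3722, .negSucc 770, .ofNat 48, .negSucc 771, .negSucc 806, .negSucc 837⟩, ⟨.ofNat 368, .negSucc 536, .negSucc 88, .ofNat 134, .ofNat 32, .negSucc 313⟩, .ofNat 1729, .negSucc 2153, .ofNat 0, .negSucc 2153, .ofNat 3337, .ofNat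 0, .ofNat 128, .ofNat 722, .negSucc 1621, .ofNat 0, .ofNat 540, .negSucc 1057, .ofNat 0, .ofNat 0, .ofNat 2068, .ofNat 202, .ofNat 0, .ofNat 0, .ofNat 0, .ofNat 0, .ofNat 0, .ofNat 0, .ofNat 400412010590135936107689198925636276584448, .ofNat 0, .ofNat 0, .ofNat 0, .ofNat 64801436044819102331433026211702911270912, .ofNat 79444767002728307898859427961408173676623323725824, .ofNat 0, .ofNat 0, .ofNat 19474639586107863648448369632635040825344, .ofNat 100257511107356237855489578212136309178788361535488⟩)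
    (by decide +kernel)
theorem L03033 : Good (Phi V5.P V5.D 1 1) ⟨4, 15, 4, 10, 3, 2, 3, 6, 3, 0⟩ :=
  out_sound (S := T5.ds_pp) T5.ok_pp (w := 53) (j := 3) (by decide +kernel)
theorem L03034 : Good (Phi V5.P V5.D 1 1) ⟨3, 6, 4, 10, 3, 2, 4, 14, 3, 0⟩ :=
  out_sound (S := T5.ds_pp) T5.ok_pp (w := 47) (j := 3) (by decide +kernel)
theorem L03035 : Good (Phi V5.P V5.D 1 1) ⟨5, 28, 4, 10, 3, 2, 4, 14, 4, 0⟩ :=
  leafX_sound T5.ok_pp T5.Ypp.bz_eq (w := 245) (c := ⟨⟨.negSucc 4022, .negSucc 1330, .ofNat 41, .negSucc 378, .negSucc 816, .ofNat 626⟩, ⟨.negSucc 2518, .negSucc 1100, .negSucc 51, .negSucc 240, .negSucc 540, .ofNat 414⟩, ⟨.ofNat 4231, .ofNat 876, .ofNat 135, .ofNat 131, .ofNat 809, .negSucc 684⟩, ⟨.negSucc 6124, .negSucc 1165, .negSucc 320, .negSucc 603, .negSucc 1310, .ofNat 1239⟩, ⟨.ofNat 468, .negSucc 356, .ofNat 346, .ofNat 133, .ofNat 225, .negSucc 551⟩, .ofNat 2570, .negSucc 3503, .ofNat 0, .negSucc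 3503, .ofNat 5521, .ofNat 0, .ofNat 128, .ofNat 900, .negSucc 4082, .ofNat 0, .ofNat 624, .negSucc 2633, .ofNat 0, .ofNat 0, .ofNat 4410, .ofNat 165, .ofNat 0, .ofNat 0, .ofNat 5360385898052954512896980922580159925583872, .ofNat 0, .ofNat 0, .ofNat 0, .ofNat 395973966491490763849771863175115275535122432, .ofNat 0, .ofNat 0, .ofNat 0, .ofNat 495437015268660792345483449793272435108216832, .ofNat 159194794037031406854225343795054327477102405453086720, .ofNat 0, .ofNat 0, .ofNat 0, .ofNat 0⟩)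
    (by decide +kernel)
theorem L03036 : Good (Phi V5.P V5.D 1 1) ⟨5, 28, 4, 10, 3, 2, 4, 14, 4, 1⟩ :=
  leafX_sound T5.ok_pp T5.Ypp.bz_eq (w := 242) (c := ⟨⟨.negSucc 3737, .ofNat 459, .negSucc 561, .negSucc 1132, .negSucc 682, .ofNat 192⟩, ⟨.negSucc 2373, .ofNat 255, .negSucc 528, .negSucc 739, .negSucc 449, .ofNat 125⟩, ⟨.ofNat 3702, .ofNat 9, .ofNat 273, .ofNat 810, .ofNat 618, .negSucc 333⟩, ⟨.negSucc 5338, .ofNat 367, .negSucc 453, .negSucc 1649, .negSucc 994, .ofNat 408⟩, ⟨.ofNat 71, .ofNat 243, .negSucc 216, .ofNat 78, .ofNat 47, .negSucc 208⟩, .ofNat 2570, .negSucc 3503, .ofNat 0, .negSucc 3503, .ofNat 5521, .ofNat 0, .ofNat 128, .ofNat 688, .negSucc 1071, .ofNat 0, .ofNat 476, .negSucc 688, .ofNat 0, .ofNat 0, .ofNat 1429, .ofNat 1838, .ofNat 0, .ofNat 0, .ofNat 0, .ofNat 0, .ofNat 0, .ofNat 0, .ofNat 341560685843726855958224585230593533612654592, .ofNat 0, .ofNat 0, .ofNat 0, .ofNat 607935184614163566991713450608643924853522432,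 .ofNat 217396368840271568829642443546478652423101895424344064, .ofNat 0, .ofNat 0, .ofNat 0, .ofNat 0⟩)
    (by decide +kernel)
theorem L03037 : Good (Phi V5.P V5.D 1 1) ⟨5, 29, 4, 10, 3, 2, 4, 14, 3, 0⟩ :=
  out_sound (S := T5.ds_pp) T5.ok_pp (w := 59) (j := 3) (by decide +kernel)
theorem L03038 : Good (Phi V5.P V5.D 1 1) ⟨4, 15, 4, 10, 3, 2, 4, 14, 3, 0⟩ :=
  out_sound (S := T5.ds_pp) T5.ok_pp (w := 53) (j := 3) (by decide +kernel)
theorem L03039 : Good (Phi V5.P V5.D 1 1) ⟨3, 6, 4, 10, 3, 2, 4, 15, 3, 0⟩ :=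
  out_sound (S := T5.ds_pp) T5.ok_pp (w := 47) (j := 3) (by decide +kernel)
theorem L03040 : Good (Phi V5.P V5.D 1 1) ⟨5, 28, 4, 10, 3, 2, 4, 15, 4, 0⟩ :=
  leafX_sound T5.ok_pp T5.Ypp.bz_eq (w := 244) (c := ⟨⟨.negSucc 4424, .negSucc 582, .negSucc 384, .negSucc 1474, .negSucc 2338, .ofNat 665⟩, ⟨.negSucc 2810, .negSucc 317, .negSucc 564, .negSucc 968, .negSucc 1536, .ofNat 429⟩, ⟨.ofNat 4772, .ofNat 217, .ofNat 488, .ofNat 993, .ofNat 2142, .negSucc 814⟩, ⟨.negSucc 6146, .negSucc 843, .negSucc 901, .negSucc 2553, .negSucc 3675, .ofNat 1136⟩, ⟨.negSucc 207, .ofNat 66, .ofNat 731, .ofNat 719, .ofNat 544, .negSucc 315⟩, .ofNat 2570, .negSucc 3503, .ofNat 0, .negSucc 3503, .ofNat 5521, .ofNat 0, .ofNat 128, .ofNat 700, .negSucc 2720, .ofNat 0, .ofNat 485, .negSucc 1756, .ofNat 0, .ofNat 0, .ofNat 2748, .ofNat 135, .ofNat 0, .ofNat 0, .ofNat 1547633379415544433273589352046784346587136, .ofNat 0, .ofNat 0, .ofNat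 0, .ofNat 456940564835159045940965332304588390545752064, .ofNat 0, .ofNat 0, .ofNat 0, .ofNat 0, .ofNat 0, .ofNat 0, .ofNat 0, .ofNat 135569721061886684812892306198693485677117440, .ofNat 424542653196646227756427934218781106291646499597058048⟩)
    (by decide +kernel)
theorem L03041 : Good (Phi V5.P V5.D 1 1) ⟨5, 29, 4, 10, 3, 2, 4, 15, 4, 0⟩ :=
  out_sound (S := T5.ds_pp) T5.ok_pp (w := 59) (j := 3) (by decide +kernel)
theorem L03042 : Good (Phi V5.P V5.D 1 1) ⟨4, 14, 4, 10, 3, 2, 4, 15, 4, 1⟩ :=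
  leafX_sound T5.ok_pp T5.Ypp.bz_eq (w := 239) (c := ⟨⟨.negSucc 3727, .ofNat 856, .negSucc 803, .negSucc 2214, .negSucc 2415, .ofNat 149⟩, ⟨.negSucc 2283, .negSucc 98, .negSucc 591, .negSucc 1449, .negSucc 1586, .ofNat 101⟩, ⟨.ofNat 3781, .ofNat 248, .ofNat 429, .ofNat 1622, .ofNat 2109, .negSucc 381⟩, ⟨.negSucc 5336, .ofNat 249, .negSucc 609, .negSucc 3201, .negSucc 3506, .ofNat 330⟩, ⟨.ofNat 182, .ofNat 157, .negSucc 185, .ofNat 82, .ofNat 154, .negSucc 177⟩, .ofNat 2685, .negSucc 3523, .ofNat 0, .negSucc 3523, .ofNat 5316, .ofNat 0, .ofNat 128, .ofNat 585, .negSucc 1547, .ofNat 0, .ofNat 429, .negSucc 1025, .ofNat 0, .ofNat 0, .ofNat 1757, .ofNat 247, .ofNat 0, .ofNat 12839638524644088312165028777852418667747213312, .ofNat 5132702585875531675453229574569458478874624, .ofNat 774129934794703713440785635658759120496762346799104, .ofNat 0, .ofNat 297638239253225818540312305818701686901003255808, .ofNat 438998042219288646478051509398832753787535360,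 .ofNat 0, .ofNat 0, .ofNat 0, .ofNat 94346897810579447817721395722444328715419648, .ofNat 25212721666496052432534100175607459023536948313587712, .ofNat 0, .ofNat 2458058780089537624131925023167640206825897328640, .ofNat 25850288419156455834337908982426611807682560, .ofNat 35402456340048765355758029388371950619244095759974400⟩)
    (by decide +kernel)
theorem L03043 : Good (Phi V5.P V5.D 1 1) ⟨4, 15, 4, 10, 3, 2, 4, 15, 3, 0⟩ :=
  out_sound (S := T5.ds_pp) T5.ok_pp (w := 53) (j := 3) (by decide +kernel)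
theorem L03044 : Good (Phi V5.P V5.D 1 1) ⟨3, 6, 4, 10, 3, 3, 2, 3, 3, 0⟩ :=
  out_sound (S := T5.ds_pp) T5.ok_pp (w := 47) (j := 3) (by decide +kernel)
theorem L03045 : Good (Phi V5.P V5.D 1 1) ⟨3, 7, 4, 10, 3, 3, 3, 6, 3, 0⟩ :=
  leafX_sound T5.ok_pp T5.Ypp.bz_eq (w := 222) (c := ⟨⟨.negSucc 2282, .ofNat 50, .negSucc 330, .negSucc 1064, .negSucc 1112, .negSucc 1401⟩, ⟨.negSucc 1444, .ofNat 311, .negSucc 434, .negSucc 697, .negSucc 737, .negSucc 919⟩, ⟨.ofNat 2340, .negSucc 87, .ofNat 260, .ofNat 556, .ofNat 1073, .ofNat 1038⟩, ⟨.negSucc 3520, .ofNat 84, .negSucc 415, .negSucc 1674, .negSucc 1683, .negSucc 1602⟩, ⟨.ofNat 614, .ofNat 181, .ofNat 40, .ofNat 304, .ofNat 118, .negSucc 845⟩, .ofNat 1113, .negSucc 1177, .ofNat 0, .negSucc 1177, .ofNat 1764, .ofNat 0, .ofNat 128, .ofNat 470, .negSucc 1234, .ofNat 0, .ofNat 393, .negSucc 813, .ofNat 0, .ofNat 0, .ofNat 1319, .ofNat 134, .ofNat 0, .ofNat 0, .ofNat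 34121868354427976464325539464761734856704, .ofNat 178047048723685973908604534952126757426285248512, .ofNat 0, .ofNat 0, .ofNat 181778258593731247061355377716010187489280, .ofNat 606166799380107920658526335171384819173023547392, .ofNat 0, .ofNat 0, .ofNat 131949065650823067189672550313488587685888, .ofNat 2375054577330718170033724870294920628350662737920, .ofNat 0, .ofNat 0, .ofNat 85792348551581952405288200347689435529216, .ofNat 6578526431148358896684233234101526809702240878592⟩)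
    (by decide +kernel)
theorem L03046 : Good (Phi V5.P V5.D 1 1) ⟨4, 14, 4, 10, 4, 6, 4, 14, 4, 0⟩ :=
  leafX_sound T5.ok_pp T5.Ypp.bz_eq (w := 253) (c := ⟨⟨.negSucc 3439, .negSucc 834, .negSucc 144, .negSucc 513, .negSucc 1299, .negSucc 931⟩, ⟨.negSucc 2156, .negSucc 680, .negSucc 279, .negSucc 331, .negSucc 857, .negSucc 614⟩, ⟨.ofNat 3624, .negSucc 140, .ofNat 351, .ofNat 255, .ofNat 1163, .ofNat 620⟩, ⟨.negSucc 5237, .negSucc 849, .negSucc 305, .negSucc 868, .negSucc 2044, .negSucc 1066⟩, ⟨.ofNat 497, .negSucc 147, .ofNat 236, .ofNat 254, .ofNat 297, .negSucc 398⟩, .ofNat 1484, .negSucc 1887, .ofNat 0, .negSucc 1887, .ofNat 3101, .ofNat 0, .ofNat 128, .ofNat 718, .negSucc 3346, .ofNat 0, .ofNat 506, .negSucc 2090, .ofNat 0, .ofNat 0, .ofNat 3253, .ofNat 492, .ofNat 0, .ofNat 0, .ofNat 0, .ofNat 0, .ofNat 0, .ofNat 0, .ofNat 4281434835988943390654421692776342234233460228096, .ofNat 308294065018586093888341706788648201399999130967056842752,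 .ofNat 0, .ofNat 0, .ofNat 4574652692870935736404592988361404226659537649664, .ofNat 528248427412403053264059567864124664459124227078755450880, .ofNat 0, .ofNat 0, .ofNat 7327332224395486243845252500241991846820346593280, .ofNat 2295109830199963130414299529850620908625855777637759188992⟩)
    (by decide +kernel)
theorem L03047 : Good (Phi V5.P V5.D 1 1) ⟨5, 28, 4, 10, 4, 6, 5, 30, 4, 0⟩ :=
  leafX_sound T5.ok_pp T5.Ypp.bz_eq (w := 264) (c := ⟨⟨.negSucc 4006, .negSucc 1854, .negSucc 102, .negSucc 841, .negSucc 1196, .negSucc 1084⟩, ⟨.negSucc 2473, .negSucc 1448, .negSucc 217, .negSucc 545, .negSucc 783, .negSucc 714⟩, ⟨.ofNat 4342, .ofNat 721, .ofNat 509, .ofNat 474, .ofNat 1028, .ofNat 659⟩, ⟨.negSucc 6331, .negSucc 1896, .negSucc 473, .negSucc 1343, .negSucc 1828, .negSucc 1331⟩, ⟨.ofNat 813, .negSucc 441, .ofNat 369, .ofNat 266, .ofNat 227, .negSucc 339⟩, .ofNat 2466, .negSucc 3365, .ofNat 0, .negSucc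 3365, .ofNat 5346, .ofNat 0, .ofNat 128, .ofNat 932, .negSucc 4771, .ofNat 0, .ofNat 640, .negSucc 3050, .ofNat 0, .ofNat 0, .ofNat 4488, .ofNat 774, .ofNat 0, .ofNat 0, .ofNat 0, .ofNat 0, .ofNat 0, .ofNat 0, .ofNat 76282046971194906800957429731961979988820499628032, .ofNat 14895918314727811936209311267599671842165490601557000978432, .ofNat 0, .ofNat 0, .ofNat 138074690148415351485359400846260694100242113495040, .ofNat 32992258493673444312664609537028616081957497704575982895104, .ofNat 0, .ofNat 0, .ofNat 218639818549034462362645736210168039695924370341888, .ofNat 327084190676544887184709016327600847802038133313940295254016⟩)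
    (by decide +kernel)
theorem L03048 : Good (Phi V5.P V5.D 1 1) ⟨5, 28, 4, 10, 4, 6, 5, 31, 4, 0⟩ :=
  leafX_sound T5.ok_pp T5.Ypp.bz_eq (w := 263) (c := ⟨⟨.negSucc 4557, .negSucc 863, .negSucc 748, .negSucc 1335, .negSucc 2859, .negSucc 1953⟩, ⟨.negSucc 2696, .negSucc 1178, .negSucc 551, .negSucc 883, .negSucc 1888, .negSucc 1281⟩, ⟨.ofNat 4867, .ofNat 228, .ofNat 828, .ofNat 754, .ofNat 2371, .ofNat 1299⟩, ⟨.negSucc 6651, .negSucc 948, .negSucc 1714, .negSucc 2527, .negSucc 4512, .negSucc 2535⟩, ⟨.ofNat 43, .ofNat 709, .ofNat 637, .ofNat 997, .ofNat 761, .negSucc 440⟩, .ofNat 2570, .negSucc 3503, .ofNat 0, .negSucc 3503, .ofNat 5521, .ofNat 0, .ofNat 128, .ofNat 778, .negSucc 3976, .ofNat 0, .ofNat 536, .negSucc 2564, .ofNat 0, .ofNat 0, .ofNat 3534, .ofNat 166, .ofNat 0, .ofNat 8766118665804671989905566691389807320870750118739968, .ofNat 634035761337785514533942044417088006654923898880, .ofNat 0, .ofNat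 0, .ofNat 0, .ofNat 124280426031657028542192354529479392865497403883520, .ofNat 0, .ofNat 0, .ofNat 0, .ofNat 0, .ofNat 0, .ofNat 0, .ofNat 0, .ofNat 14335127020038338871026793089468438324624951869440, .ofNat 188242141373959101845201191507080274539278106811485523017728⟩)
    (by decide +kernel)
theorem L03049 : Good (Phi V5.P V5.D 1 1) ⟨5, 29, 4, 10, 4, 6, 4, 15, 4, 0⟩ :=
  out_sound (S := T5.ds_pp) T5.ok_pp (w := 59) (j := 3) (by decide +kernel)
theorem L03050 : Good (Phi V5.P V5.D 1 1) ⟨4, 15, 4, 10, 4, 6, 3, 7, 4, 0⟩ :=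
  out_sound (S := T5.ds_pp) T5.ok_pp (w := 53) (j := 3) (by decide +kernel)
theorem L03051 : Good (Phi V5.P V5.D 1 1) ⟨4, 14, 4, 10, 4, 7, 4, 14, 5, 0⟩ :=
  leafX_sound T5.ok_pp T5.Ypp.bz_eq (w := 259) (c := ⟨⟨.negSucc 2610, .negSucc 384, .negSucc 506, .ofNat 112, .negSucc 1441, .negSucc 1974⟩, ⟨.negSucc 1565, .negSucc 792, .negSucc 370, .ofNat 74, .negSucc 963, .negSucc 1313⟩, ⟨.ofNat 2860, .negSucc 373, .ofNat 572, .negSucc 220, .ofNat 1229, .ofNat 1454⟩, ⟨.negSucc 4094, .negSucc 402, .negSucc 757, .negSucc 53, .negSucc 2459, .negSucc 2844⟩, ⟨.ofNat 551, .ofNat 11, .ofNat 123, .ofNat 335, .ofNat 667, .ofNat 87⟩, .ofNat 2431, .negSucc 3320, .ofNat 0, .negSucc 3320, .ofNat 5290, .ofNat 0, .ofNat 128, .ofNat 639, .negSucc 2846, .ofNat 0, .ofNat 436, .negSucc 1814, .ofNat 0, .ofNat 0, .ofNat 2501, .ofNat 566, .ofNat 0, .ofNat 0, .ofNat 0, .ofNat 0, .ofNat 0, .ofNat 0, .ofNat 258357430550606995488609072179444803635307167612928,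 .ofNat 17894748696902503807608470967881724022738974881696266059776, .ofNat 0, .ofNat 0, .ofNat 84768188415789644239937021125631388605323472273408, .ofNat 22338112167287867544437578127464117371153997665817730220032, .ofNat 0, .ofNat 0, .ofNat 195294626668866309835324318821194507617871780118528, .ofNat 69918648616808324249574602555651416592248082422272150732800⟩)
    (by decide +kernel)
theorem L03052 : Good (Phi V5.P V5.D 1 1) ⟨4, 14, 4, 10, 4, 7, 5, 30, 6, 0⟩ :=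
  leafX_sound T5.ok_pp T5.Ypp.bz_eq (w := 267) (c := ⟨⟨.negSucc 4013, .negSucc 490, .negSucc 1115, .ofNat 889, .negSucc 627, .negSucc 1259⟩, ⟨.negSucc 2536, .negSucc 376, .negSucc 940, .ofNat 593, .negSucc 416, .negSucc 833⟩, ⟨.ofNat 4032, .ofNat 318, .ofNat 852, .negSucc 818, .ofNat 549, .ofNat 942⟩, ⟨.negSucc 6370, .negSucc 848, .negSucc 1516, .ofNat 1017, .negSucc 1081, .negSucc 1769⟩, ⟨.ofNat 1094, .negSucc 368, .ofNat 212, .ofNat 411, .ofNat 317, .negSucc 59⟩, .ofNat 1729, .negSucc 2153, .ofNat 0, .negSucc 2153, .ofNat 3337, .ofNat 0, .ofNat 128, .ofNat 471, .negSucc 2666, .ofNat 0, .ofNat 348, .negSucc 1751, .ofNat 0, .ofNat 0, .ofNat 2147, .ofNat 763, .ofNat 0, .ofNat 0, .ofNat 0, .ofNat 0, .ofNat 0, .ofNat 0, .ofNat 44909296343896545844518791963845198428566343978582016, .ofNat 0, .ofNat 0, .ofNat 0, .ofNat 101372853054030220805842722081142515563431771510931456, .ofNat 0, .ofNat 0, .ofNat 0, .ofNat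 145793583829131766796932842729691058202116525077299200, .ofNat 19136860564382850136915109061065477659051004177520997255086080⟩)
    (by decide +kernel)
theorem L03053 : Good (Phi V5.P V5.D 1 1) ⟨4, 14, 4, 10, 4, 7, 5, 31, 6, 0⟩ :=
  leafX_sound T5.ok_pp T5.Ypp.bz_eq (w := 269) (c := ⟨⟨.negSucc 4247, .negSucc 648, .negSucc 1754, .ofNat 1561, .negSucc 629, .negSucc 1860⟩, ⟨.negSucc 2780, .ofNat 360, .negSucc 1634, .ofNat 1039, .negSucc 419, .negSucc 1211⟩, ⟨.ofNat 4361, .ofNat 153, .ofNat 1381, .negSucc 1348, .ofNat 519, .ofNat 1400⟩, ⟨.negSucc 6915, .negSucc 210, .negSucc 3017, .ofNat 2019, .negSucc 1195, .negSucc 2394⟩, ⟨.ofNat 1162, .ofNat 626, .ofNat 502, .ofNat 365, .ofNat 477, .negSucc 413⟩, .ofNat 2685, .negSucc 3523, .ofNat 0, .negSucc 3523, .ofNat 5316, .ofNat 0, .ofNat 128, .ofNat 543, .negSucc 3161, .ofNat 0, .ofNat 395, .negSucc 2107, .ofNat 0, .ofNat 0, .ofNat 2480, .ofNat 123, .ofNat 0, .ofNat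 0, .ofNat 2035151261656102847889803223582381291044913476009984, .ofNat 0, .ofNat 0, .ofNat 0, .ofNat 57510207603930103710493914537728571768224806917373952, .ofNat 0, .ofNat 0, .ofNat 0, .ofNat 112028224208867180597786560846397920427382042934640640, .ofNat 0, .ofNat 0, .ofNat 0, .ofNat 163587337328418614732579179425417345205178449778442240, .ofNat 15766410223328788871259618826368361545162907224092977330651136⟩)
    (by decide +kernel)
theorem L03054 : Good (Phi V5.P V5.D 1 1) ⟨4, 14, 4, 10, 4, 7, 4, 15, 6, 1⟩ :=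
  leafX_sound T5.ok_pp T5.Ypp.bz_eq (w := 264) (c := ⟨⟨.negSucc 4689, .negSucc 296, .negSucc 1260, .negSucc 169, .negSucc 3137, .negSucc 1030⟩, ⟨.negSucc 3020, .ofNat 248, .negSucc 1263, .negSucc 95, .negSucc 2061, .negSucc 663⟩, ⟨.ofNat 4547, .ofNat 280, .ofNat 947, .negSucc 146, .ofNat 2504, .ofNat 750⟩, ⟨.negSucc 7298, .ofNat 42, .negSucc 1788, .negSucc 620, .negSucc 5014, .negSucc 1329⟩, ⟨.ofNat 889, .ofNat 519, .negSucc 160, .ofNat 584, .ofNat 889, .negSucc 274⟩, .ofNat 2685, .negSucc 3523, .ofNat 0, .negSucc 3523, .ofNat 5316, .ofNat 0, .ofNat 128, .ofNat 592, .negSucc 2841, .ofNat 0, .ofNat 430, .negSucc 1889, .ofNat 0, .ofNat 0, .ofNat 2307, .ofNat 201, .ofNat 0, .ofNat 0, .ofNat 63014034395473144290221504356416800848469626454016, .ofNat 12490728494973072457859542367764564592215059757438072782848, .ofNat 0, .ofNat 18007685191061025023180169648155084837560539861221376, .ofNat 4200318179986599536699636271878327088205060852678656,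 .ofNat 0, .ofNat 0, .ofNat 0, .ofNat 4104856585311726685793906956187702751586140337209344, .ofNat 92272356595058940565257818581007501837243107799047241465856, .ofNat 0, .ofNat 464856031796298376125743227875313956589273038943420416, .ofNat 7971759096270706940106052479623889754519793026727936, .ofNat 1050408763831583920197324420876669367322648056563066508148736⟩)
    (by decide +kernel)
theorem L03055 : Good (Phi V5.P V5.D 1 1) ⟨4, 15, 4, 10, 4, 7, 3, 7, 5, 0⟩ :=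
  out_sound (S := T5.ds_pp) T5.ok_pp (w := 53) (j := 3) (by decide +kernel)
theorem L03056 : Good (Phi V5.P V5.D 1 1) ⟨3, 7, 4, 10, 4, 7, 4, 14, 5, 1⟩ :=
  leafX_sound T5.ok_pp T5.Ypp.bz_eq (w := 255) (c := ⟨⟨.negSucc 4229, .negSucc 999, .negSucc 418, .negSucc 722, .negSucc 1605, .negSucc 756⟩, ⟨.negSucc 2628, .negSucc 1627, .negSucc 413, .negSucc 460, .negSucc 1053, .negSucc 492⟩, ⟨.ofNat 4082, .negSucc 574, .ofNat 506, .ofNat 345, .ofNat 1333, .ofNat 512⟩, ⟨.negSucc 6346, .negSucc 545, .negSucc 795, .negSucc 1302, .negSucc 2527, .negSucc 982⟩, ⟨.ofNat 448, .negSucc 118, .ofNat 366, .ofNat 430, .ofNat 410, .negSucc 150⟩, .ofNat 2467, .negSucc 3368, .ofNat 0, .negSucc 3368, .ofNat 5352, .ofNat 0, .ofNat 128, .ofNat 644, .negSucc 2078, .ofNat 0, .ofNat 440, .negSucc 1324, .ofNat 0, .ofNat 0, .ofNat 1988, .ofNat 380, .ofNat 0, .ofNat 0, .ofNat 0, .ofNat 0, .ofNat 0, .ofNat 0, .ofNat 473629862983977830490917064322946223523359386238976,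 .ofNat 5766066137395754175677600562828748110739766041351066484736, .ofNat 0, .ofNat 0, .ofNat 200744642242925445274993688932346099663058990268416, .ofNat 4008134230346298002814180088197978428564042640458571055104, .ofNat 0, .ofNat 0, .ofNat 429055348826809032669996442655416744095127741399040, .ofNat 7726556027237808135429831306031424167941583020250686816256⟩)
    (by decide +kernel)
theorem L03057 : Good (Phi V5.P V5.D 1 1) ⟨5, 28, 4, 10, 4, 7, 4, 15, 5, 1⟩ :=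
  leafX_sound T5.ok_pp T5.Ypp.bz_eq (w := 264) (c := ⟨⟨.negSucc 5137, .negSucc 35, .negSucc 1061, .negSucc 1539, .negSucc 5600, .negSucc 901⟩, ⟨.negSucc 3307, .ofNat 500, .negSucc 1433, .negSucc 1017, .negSucc 3697, .negSucc 598⟩, ⟨.ofNat 4855, .ofNat 413, .ofNat 534, .ofNat 747, .ofNat 4290, .ofNat 559⟩, ⟨.negSucc 6824, .negSucc 439, .negSucc 1503, .negSucc 3107, .negSucc 9476, .negSucc 1514⟩, ⟨.negSucc 586, .ofNat 362, .ofNat 396, .ofNat 1395, .ofNat 2345, .ofNat 281⟩, .ofNat 2570, .negSucc 3503, .ofNat 0, .negSucc 3503, .ofNat 5521, .ofNat 0, .ofNat 128, .ofNat 887, .negSucc 3897, .ofNat 0, .ofNat 609, .negSucc 2506, .ofNat 0, .ofNat 0, .ofNat 3346, .ofNat 199, .ofNat 0, .ofNat 6205692862306259728968335749531045568018329043468288, .ofNat 4220385974051793047521446880480019762460810543104, .ofNat 2696409646797529149733470584128743656335123509984547045376, .ofNat 0, .ofNat 76041516176208257539733257015798858700344017725423616,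 .ofNat 93855833533885994888101597481539532080706131853312, .ofNat 0, .ofNat 0, .ofNat 0, .ofNat 149784416069574597085555646829687608569753333923840, .ofNat 106699456103283215473057483096132403465006013727534206681088, .ofNat 0, .ofNat 2515327239512970038941487530353954087829869652846051328, .ofNat 142146508107771595909076628936546955302602981507072, .ofNat 345356755147356124104987325528843778207953845174752356859904⟩)
    (by decide +kernel)
theorem L03058 : Good (Phi V5.P V5.D 1 1) ⟨5, 29, 4, 10, 4, 7, 4, 15, 5, 1⟩ :=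
  out_sound (S := T5.ds_pp) T5.ok_pp (w := 59) (j := 3) (by decide +kernel)
theorem L03059 : Good (Phi V5.P V5.D 1 1) ⟨4, 15, 4, 10, 4, 7, 4, 15, 5, 1⟩ :=
  out_sound (S := T5.ds_pp) T5.ok_pp (w := 53) (j := 3) (by decide +kernel)
theorem L03060 : Good (Phi V5.P V5.D 1 1) ⟨6, 56, 4, 10, 3, 3, 4, 14, 4, 1⟩ :=
  leafX_sound T5.ok_pp T5.Ypp.bz_eq (w := 247) (c := ⟨⟨.negSucc 4451, .negSucc 188, .negSucc 45, .negSucc 1735, .negSucc 1280, .ofNat 107⟩, ⟨.negSucc 2816, .negSucc 166, .negSucc 237, .negSucc 1122, .negSucc 829, .ofNat 68⟩, ⟨.ofNat 4252, .ofNat 216, .negSucc 37, .ofNat 1009, .ofNat 1040, .negSucc 244⟩, ⟨.negSucc 6666, .negSucc 30, .negSucc 147, .negSucc 2758, .negSucc 1933, .ofNat 492⟩, ⟨.ofNat 443, .negSucc 169, .ofNat 165, .ofNat 450, .ofNat 178, .negSucc 531⟩, .ofNat 2330, .negSucc 3182, .ofNat 0, .negSucc 3182, .ofNat 5110, .ofNat 0, .ofNat 128, .ofNat 1227, .negSucc 1420, .ofNat 0, .ofNat 835,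 .negSucc 890, .ofNat 0, .ofNat 0, .ofNat 1728, .ofNat 2451, .ofNat 0, .ofNat 0, .ofNat 0, .ofNat 0, .ofNat 0, .ofNat 0, .ofNat 105302994193521093732017475310723659919785984, .ofNat 0, .ofNat 0, .ofNat 0, .ofNat 0, .ofNat 0, .ofNat 0, .ofNat 0, .ofNat 30087592941529136576364453744273072404299776, .ofNat 0⟩)
    (by decide +kernel)
theorem L03061 : Good (Phi V5.P V5.D 1 1) ⟨6, 56, 4, 10, 3, 3, 5, 30, 4, 1⟩ :=
  leafX_sound T5.ok_pp T5.Ypp.bz_eq (w := 252) (c := ⟨⟨.negSucc 4850, .negSucc 1041, .ofNat 694, .negSucc 2751, .negSucc 1666, .ofNat 112⟩, ⟨.negSucc 3088, .negSucc 646, .ofNat 89, .negSucc 1785, .negSucc 1078, .ofNat 69⟩, ⟨.ofNat 4883, .ofNat 563, .negSucc 285, .ofNat 1610, .ofNat 1285, .negSucc 334⟩, ⟨.negSucc 7380, .negSucc 957, .ofNat 558, .negSucc 4401, .negSucc 2520, .ofNat 515⟩, ⟨.ofNat 496, .negSucc 248, .ofNat 354, .ofNat 782, .ofNat 244, .negSucc 548⟩, .ofNat 3627, .negSucc 5155, .ofNat 0, .negSucc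 5155, .ofNat 8121, .ofNat 0, .ofNat 128, .ofNat 828, .negSucc 1471, .ofNat 0, .ofNat 556, .negSucc 938, .ofNat 0, .ofNat 0, .ofNat 1571, .ofNat 1350, .ofNat 0, .ofNat 0, .ofNat 0, .ofNat 0, .ofNat 0, .ofNat 0, .ofNat 4043201100649343023410192495230600805280120832, .ofNat 0, .ofNat 0, .ofNat 0, .ofNat 1131878807908080349294227035200163826366414848, .ofNat 0, .ofNat 0, .ofNat 0, .ofNat 545033193705535743148304671073668755303170048, .ofNat 0⟩)
    (by decide +kernel)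
theorem L03062 : Good (Phi V5.P V5.D 1 1) ⟨6, 56, 4, 10, 3, 3, 5, 31, 4, 1⟩ :=
  leafX_sound T5.ok_pp T5.Ypp.bz_eq (w := 254) (c := ⟨⟨.negSucc 7248, .negSucc 178, .negSucc 822, .negSucc 3546, .negSucc 3398, .ofNat 1068⟩, ⟨.negSucc 4516, .negSucc 330, .negSucc 728, .negSucc 2314, .negSucc 2215, .ofNat 705⟩, ⟨.ofNat 6820, .ofNat 94, .ofNat 558, .ofNat 1909, .ofNat 2646, .negSucc 1143⟩, ⟨.negSucc 10128, .negSucc 684, .negSucc 1488, .negSucc 6147, .negSucc 5329, .ofNat 2019⟩, ⟨.negSucc 344, .ofNat 868, .ofNat 642, .ofNat 1735, .ofNat 788, .negSucc 807⟩, .ofNat 3647, .negSucc 5180, .ofNat 0, .negSucc 5180, .ofNat 8152, .ofNat 0, .ofNat 128, .ofNat 1344, .negSucc 2985, .ofNat 0, .ofNat 904, .negSucc 1906, .ofNat 0, .ofNat 0, .ofNat 2927, .ofNat 642, .ofNat 0, .ofNat 242043598003997699331779926288483761434409404727296, .ofNat 56154198906867186070203299732320848950853632, .ofNat 0, .ofNat 0, .ofNat 1427502187574259955872728675767446025292070728499200,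 .ofNat 3209656342612587775493813271203371183901769728, .ofNat 0, .ofNat 0, .ofNat 6306719190263792925571592694816667163482585210814464, .ofNat 1149444627846698991349797725284376071504920576, .ofNat 0, .ofNat 0, .ofNat 6829980631181249188744490650674747258094624637452288, .ofNat 1419239915871996754460458696439662921516056576, .ofNat 0⟩)
    (by decide +kernel)
theorem L03063 : Good (Phi V5.P V5.D 1 1) ⟨7, 114, 4, 10, 3, 3, 4, 14, 4, 1⟩ :=
  leafX_sound T5.ok_pp T5.Ypp.bz_eq (w := 256) (c := ⟨⟨.negSucc 4861, .negSucc 236, .ofNat 289, .negSucc 1938, .negSucc 1395, .ofNat 293⟩, ⟨.negSucc 3113, .negSucc 186, .ofNat 3, .negSucc 1284, .negSucc 928, .ofNat 192⟩, ⟨.ofNat 4342, .negSucc 43, .ofNat 297, .ofNat 1125, .ofNat 1131, .negSucc 381⟩, ⟨.negSucc 6962, .ofNat 63, .ofNat 52, .negSucc 2820, .negSucc 2038, .ofNat 588⟩, ⟨.ofNat 491, .negSucc 188, .negSucc 75, .ofNat 154, .ofNat 119, .negSucc 271⟩, .ofNat 7190, .negSucc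 10403, .ofNat 0, .negSucc 10403, .ofNat 15837, .ofNat 0, .ofNat 128, .ofNat 2269, .negSucc 3368, .ofNat 0, .ofNat 1531, .negSucc 2219, .ofNat 0, .ofNat 0, .ofNat 4011, .ofNat 1061, .ofNat 0, .ofNat 0, .ofNat 0, .ofNat 0, .ofNat 0, .ofNat 0, .ofNat 347557444001666810724896890892239851755667456, .ofNat 0, .ofNat 0, .ofNat 0, .ofNat 0, .ofNat 0, .ofNat 0, .ofNat 0, .ofNat 0, .ofNat 0⟩)
    (by decide +kernel)
theorem L03064 : Good (Phi V5.P V5.D 1 1) ⟨7, 114, 4, 10, 3, 3, 5, 30, 4, 1⟩ :=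
  leafX_sound T5.ok_pp T5.Ypp.bz_eq (w := 253) (c := ⟨⟨.negSucc 6111, .negSucc 307, .ofNat 296, .negSucc 2807, .negSucc 1708, .ofNat 573⟩, ⟨.negSucc 4377, .negSucc 692, .ofNat 903, .negSucc 1879, .negSucc 1143, .ofNat 375⟩, ⟨.ofNat 5382, .negSucc 161, .ofNat 527, .ofNat 1608, .ofNat 1313, .negSucc 688⟩, ⟨.negSucc 8812, .negSucc 583, .ofNat 605, .negSucc 4666, .negSucc 2692, .ofNat 1174⟩, ⟨.ofNat 235, .ofNat 144, .ofNat 63, .ofNat 1036, .ofNat 409, .negSucc 600⟩, .ofNat 895, .negSucc 995, .ofNat 0, .negSucc 995, .ofNat 1710, .ofNat 0, .ofNat 128, .ofNat 585, .negSucc 1605, .ofNat 0, .ofNat 434, .negSucc 959, .ofNat 0, .ofNat 0, .ofNat 1611, .ofNat 266, .ofNat 0, .ofNat 0, .ofNat 8372475422705329897242872953165340943056896, .ofNat 0, .ofNat 0, .ofNat 0, .ofNat 250021558709955697345222352224797773952712704, .ofNat 2205325784776312498802812432501575585387567664854990848, .ofNat 0, .ofNat 0, .ofNat 168624498456842648526746256777622912818479104,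 .ofNat 0, .ofNat 0, .ofNat 0, .ofNat 0, .ofNat 0⟩)
    (by decide +kernel)
theorem L03065 : Good (Phi V5.P V5.D 1 1) ⟨7, 114, 5, 20, 3, 3, 5, 31, 4, 1⟩ :=
  leafX_sound T5.ok_pp T5.Ypp.bz_eq (w := 263) (c := ⟨⟨.negSucc 7886, .ofNat 5, .ofNat 179, .negSucc 3438, .negSucc 3648, .ofNat 1058⟩, ⟨.negSucc 5116, .ofNat 4, .ofNat 23, .negSucc 2272, .negSucc 2414, .ofNat 697⟩, ⟨.ofNat 7124, .negSucc 3, .ofNat 6, .ofNat 1825, .ofNat 2828, .negSucc 1150⟩, ⟨.negSucc 11235, .ofNat 8, .ofNat 3, .negSucc 5733, .negSucc 5726, .ofNat 2020⟩, ⟨.ofNat 597, .negSucc 0, .negSucc 5, .ofNat 1354, .ofNat 901, .negSucc 800⟩, .ofNat 4436, .negSucc 6235, .ofNat 0, .negSucc 6235, .ofNat 9535, .ofNat 0, .ofNat 128, .ofNat 1872, .negSucc 4813, .ofNat 0, .ofNat 1295, .negSucc 3129, .ofNat 0, .ofNat 0, .ofNat 4517, .ofNat 1617, .ofNat 0, .ofNat 78532331637437682897307844016498934404443139636985856, .ofNat 569297697330104713576005838789844770503000064,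 .ofNat 0, .ofNat 0, .ofNat 0, .ofNat 439984797074354077218320227111784710822789382144, .ofNat 0, .ofNat 0, .ofNat 2390265365642137751748569187601501188543062157595508736, .ofNat 218130932351136382940579009152952689980117876736, .ofNat 0, .ofNat 0, .ofNat 3571772491088318799041186461808699021961295929299435520, .ofNat 428592179471193549171667881105245647074645508096, .ofNat 0⟩)
    (by decide +kernel)
theorem L03066 : Good (Phi V5.P V5.D 1 1) ⟨7, 114, 5, 21, 3, 3, 5, 31, 4, 1⟩ :=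
  leafX_sound T5.ok_pp T5.Ypp.bz_eq (w := 264) (c := ⟨⟨.negSucc 7718, .negSucc 315, .negSucc 187, .negSucc 3921, .negSucc 3902, .ofNat 1346⟩, ⟨.negSucc 5080, .negSucc 201, .negSucc 361, .negSucc 2606, .negSucc 2605, .ofNat 885⟩, ⟨.ofNat 7117, .ofNat 278, .ofNat 112, .ofNat 2178, .ofNat 2982, .negSucc 1342⟩, ⟨.negSucc 11341, .negSucc 277, .negSucc 257, .negSucc 6188, .negSucc 6140, .ofNat 2245⟩, ⟨.ofNat 723, .negSucc 24, .negSucc 47, .ofNat 1020, .ofNat 998, .negSucc 533⟩, .ofNat 7243, .negSucc 10480, .ofNat 0, .negSucc 10480, .ofNat 15948, .ofNat 0, .ofNat 128, .ofNat 2273, .negSucc 5057, .ofNat 0, .ofNat 1534, .negSucc 3335, .ofNat 0, .ofNat 0, .ofNat 5008, .ofNat 1252, .ofNat 0, .ofNat 65262725109091401763689074198214732138199452296937472, .ofNat 67531708505517452637175627152652180110966784, .ofNat 0, .ofNat 0, .ofNat 0, .ofNat 15998483127486393003776951862654479852634112000, .ofNat 1147551350941362147566485789147130395797435935414441476096,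 .ofNat 0, .ofNat 2049934329722620451993515870930848882859206900912750592, .ofNat 2940944213867605227157180258497074140435972096, .ofNat 5548229355071811733658277158379967548656660164675798827008, .ofNat 0, .ofNat 2776200703770845722631689990726576971003642901765816320, .ofNat 3848970481648807383697569104158627977003794432, .ofNat 5892130665895124663181006152108198662460623481243057520640⟩)
    (by decide +kernel)
theorem L03067 : Good (Phi V5.P V5.D 1 1) ⟨7, 115, 4, 10, 3, 3, 3, 7, 4, 1⟩ :=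
  out_sound (S := T5.ds_pp) T5.ok_pp (w := 21) (j := 4) (by decide +kernel)
theorem L03068 : Good (Phi V5.P V5.D 1 1) ⟨5, 29, 4, 10, 3, 3, 3, 7, 4, 1⟩ :=
  out_sound (S := T5.ds_pp) T5.ok_pp (w := 59) (j := 3) (by decide +kernel)
theorem L03069 : Good (Phi V5.P V5.D 1 1) ⟨4, 15, 4, 10, 3, 3, 3, 7, 4, 1⟩ :=
  out_sound (S := T5.ds_pp) T5.ok_pp (w := 53) (j := 3) (by decide +kernel)
theorem L03070 : Good (Phi V5.P V5.D 1 1) ⟨3, 6, 4, 11, 2, 1, 2, 3, 3, 0⟩ :=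
  out_sound (S := T5.ds_pp) T5.ok_pp (w := 47) (j := 3) (by decide +kernel)
theorem L03071 : Good (Phi V5.P V5.D 1 1) ⟨6, 56, 4, 11, 2, 1, 2, 3, 3, 0⟩ :=
  out_sound (S := T5.ds_pp) T5.ok_pp (w := 65) (j := 3) (by decide +kernel)
theorem L03072 : Good (Phi V5.P V5.D 1 1) ⟨7, 114, 5, 22, 2, 1, 2, 3, 3, 0⟩ :=
  out_sound (S := T5.ds_pp) T5.ok_pp (w := 73) (j := 3) (by decide +kernel)
theorem L03073 : Good (Phi V5.P V5.D 1 1) ⟨7, 115, 5, 22, 2, 1, 2, 3, 3, 0⟩ :=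
  out_sound (S := T5.ds_pp) T5.ok_pp (w := 21) (j := 4) (by decide +kernel)
theorem L03074 : Good (Phi V5.P V5.D 1 1) ⟨6, 57, 5, 23, 2, 1, 2, 3, 3, 0⟩ :=
  out_sound (S := T5.ds_pp) T5.ok_pp (w := 67) (j := 3) (by decide +kernel)
theorem L03075 : Good (Phi V5.P V5.D 1 1) ⟨5, 29, 4, 11, 2, 1, 2, 3, 3, 0⟩ :=
  out_sound (S := T5.ds_pp) T5.ok_pp (w := 17) (j := 4) (by decide +kernel)
theorem L03076 : Good (Phi V5.P V5.D 1 1) ⟨4, 15, 4, 11, 2, 1, 2, 3, 3, 0⟩ :=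
  out_sound (S := T5.ds_pp) T5.ok_pp (w := 53) (j := 3) (by decide +kernel)
theorem L03077 : Good (Phi V5.P V5.D 1 1) ⟨2, 2, 2, 3, 2, 1, 2, 3, 3, 0⟩ :=
  out_sound (S := T5.ds_pp) T5.ok_pp (w := 37) (j := 3) (by decide +kernel)
theorem L03078 : Good (Phi V5.P V5.D 1 1) ⟨3, 6, 2, 3, 2, 1, 2, 3, 3, 0⟩ :=
  out_sound (S := T5.ds_pp) T5.ok_pp (w := 43) (j := 3) (by decide +kernel)
theorem L03079 : Good (Phi V5.P V5.D 1 1) ⟨5, 28, 3, 6, 2, 1, 2, 3, 3, 0⟩ :=
  out_sound (S := T5.ds_pp) T5.ok_pp (w := 57) (j := 3) (by decide +kernel)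
theorem L03080 : Good (Phi V5.P V5.D 1 1) ⟨5, 29, 3, 6, 2, 1, 2, 3, 3, 0⟩ :=
  out_sound (S := T5.ds_pp) T5.ok_pp (w := 17) (j := 4) (by decide +kernel)
theorem L03081 : Good (Phi V5.P V5.D 1 1) ⟨4, 14, 3, 7, 2, 1, 2, 3, 3, 0⟩ :=
  out_sound (S := T5.ds_pp) T5.ok_pp (w := 51) (j := 3) (by decide +kernel)
theorem L03082 : Good (Phi V5.P V5.D 1 1) ⟨4, 15, 2, 3, 2, 1, 2, 3, 3, 0⟩ :=
  out_sound (S := T5.ds_pp) T5.ok_pp (w := 15) (j := 4) (by decide +kernel)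
theorem L03083 : Good (Phi V5.P V5.D 1 1) ⟨2, 2, 1, 1, 1, 0, 1, 1, 3, 1⟩ :=
  out_sound (S := T5.ds_pp) T5.ok_pp (w := 35) (j := 3) (by decide +kernel)
theorem L03084 : Good (Phi V5.P V5.D 1 1) ⟨2, 3, 1, 1, 2, 0, 2, 2, 3, 1⟩ :=
  leafX_sound T5.ok_pp T5.Ypp.bz_eq (w := 189) (c := ⟨⟨.negSucc 2666, .negSucc 1071, .negSucc 50, .negSucc 83, .ofNat 100, .ofNat 471⟩, ⟨.negSucc 1312, .negSucc 1077, .negSucc 742, .negSucc 49, .ofNat 59, .ofNat 287⟩, ⟨.ofNat 2955, .ofNat 385, .ofNat 466, .negSucc 51, .negSucc 189, .negSucc 501⟩, ⟨.negSucc 4455, .negSucc 344, .negSucc 81, .negSucc 71, .ofNat 171, .ofNat 713⟩, ⟨.ofNat 3, .ofNat 130, .negSucc 41, .negSucc 90, .negSucc 34, .negSucc 51⟩, .ofNat 373, .negSucc 271, .ofNat 0, .negSucc 271, .ofNat 642, .ofNat 0, .ofNat 128, .ofNat 152, .negSucc 179, .ofNat 0, .ofNat 156, .negSucc 82, .ofNat 0, .ofNat 0, .ofNat 470, .ofNat 484, .ofNat 0, .ofNat 0, .ofNat 1478769816444871222080182226518016,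 .ofNat 15880546621034220065209216294520356864, .ofNat 0, .ofNat 0, .ofNat 24345582533663723126549745907007488, .ofNat 208766593370206186938107330132365541376, .ofNat 0, .ofNat 0, .ofNat 74070814357906867575149367809540096, .ofNat 5895063163151520922811743312261534449664, .ofNat 0, .ofNat 0, .ofNat 126627910157481134569656200888057856, .ofNat 2394111236803802443724201551593530720256⟩)
    (by decide +kernel)
theorem L03085 : Good (Phi V5.P V5.D 1 1) ⟨3, 6, 2, 2, 2, 0, 2, 3, 3, 1⟩ :=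
  leafX_sound T5.ok_pp T5.Ypp.bz_eq (w := 197) (c := ⟨⟨.negSucc 2311, .negSucc 458, .negSucc 120, .negSucc 514, .negSucc 213, .ofNat 328⟩, ⟨.negSucc 1096, .negSucc 488, .negSucc 430, .negSucc 303, .negSucc 128, .ofNat 185⟩, ⟨.ofNat 1936, .ofNat 954, .negSucc 249, .ofNat 483, .negSucc 46, .negSucc 509⟩, ⟨.negSucc 3828, .negSucc 162, .negSucc 151, .negSucc 700, .negSucc 269, .ofNat 500⟩, ⟨.negSucc 65, .ofNat 78, .ofNat 53, .negSucc 129, .negSucc 49, .negSucc 20⟩, .ofNat 750, .negSucc 830, .ofNat 0, .negSucc 830, .ofNat 1634, .ofNat 0, .ofNat 128, .ofNat 323, .negSucc 391, .ofNat 0, .ofNat 247, .negSucc 209, .ofNat 0, .ofNat 0, .ofNat 853, .ofNat 217, .ofNat 0, .ofNat 150286766574549814179318039880663040, .ofNat 1694673925571685992654634156556288, .ofNat 0, .ofNat 0, .ofNat 284032312014868973860894278857273638912, .ofNat 86152838534772253609763039417991168, .ofNat 0, .ofNat 0, .ofNat 822648534954429750920928179315074400256,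 .ofNat 168570501155890060554090946800648192, .ofNat 0, .ofNat 0, .ofNat 0, .ofNat 0, .ofNat 0⟩)
    (by decide +kernel)
theorem L03086 : Good (Phi V5.P V5.D 1 1) ⟨3, 6, 2, 3, 2, 0, 2, 3, 3, 1⟩ :=
  out_sound (S := T5.ds_pp) T5.ok_pp (w := 43) (j := 3) (by decide +kernel)
theorem L03087 : Good (Phi V5.P V5.D 1 1) ⟨4, 14, 1, 1, 2, 0, 3, 6, 3, 1⟩ :=
  leafX_sound T5.ok_pp T5.Ypp.bz_eq (w := 203) (c := ⟨⟨.negSucc 2969, .negSucc 670, .ofNat 341, .negSucc 514, .negSucc 106, .ofNat 475⟩, ⟨.negSucc 1727, .negSucc 595, .negSucc 405, .negSucc 337, .negSucc 71, .ofNat 310⟩, ⟨.ofNat 2827, .ofNat 310, .ofNat 178, .ofNat 465, .negSucc 3, .negSucc 602⟩, ⟨.negSucc 4208, .negSucc 355, .negSucc 28, .negSucc 618, .negSucc 114, .ofNat 725⟩, ⟨.ofNat 97, .negSucc 79, .negSucc 63, .negSucc 165, .negSucc 44, .negSucc 72⟩, .ofNat 892, .negSucc 1007, .ofNat 0, .negSucc 1007, .ofNat 1769, .ofNat 0, .ofNat 128, .ofNat 558, .negSucc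 406, .ofNat 0, .ofNat 431, .negSucc 242, .ofNat 0, .ofNat 0, .ofNat 965, .ofNat 957, .ofNat 0, .ofNat 0, .ofNat 0, .ofNat 0, .ofNat 0, .ofNat 0, .ofNat 784131386242347811063903277331513344, .ofNat 2862161205369188101192499227320965037817856, .ofNat 0, .ofNat 0, .ofNat 868203619709427341942045736091779072, .ofNat 8009295845844776735428647280151191550427136, .ofNat 0, .ofNat 0, .ofNat 334396792216001938300177266660868096, .ofNat 5302197237141764321519038346971631585329152⟩)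
    (by decide +kernel)
theorem L03088 : Good (Phi V5.P V5.D 1 1) ⟨4, 14, 2, 2, 3, 0, 3, 7, 3, 1⟩ :=
  leafX_sound T5.ok_pp T5.Ypp.bz_eq (w := 219) (c := ⟨⟨.negSucc 2660, .negSucc 451, .ofNat 51, .negSucc 475, .negSucc 22, .ofNat 349⟩, ⟨.negSucc 1591, .negSucc 554, .negSucc 132, .negSucc 311, .negSucc 11, .ofNat 226⟩, ⟨.ofNat 2478, .ofNat 177, .ofNat 144, .ofNat 499, .negSucc 152, .negSucc 571⟩, ⟨.negSucc 3698, .negSucc 122, .negSucc 220, .negSucc 652, .ofNat 16, .ofNat 511⟩, ⟨.ofNat 75, .ofNat 66, .negSucc 96, .negSucc 55, .negSucc 36, .negSucc 53⟩, .ofNat 749, .negSucc 758, .ofNat 0, .negSucc 758, .ofNat 1313, .ofNat 0, .ofNat 128, .ofNat 308, .negSucc 540, .ofNat 0, .ofNat 268, .negSucc 332, .ofNat 0, .ofNat 0, .ofNat 974, .ofNat 460, .ofNat 0, .ofNat 0, .ofNat 0, .ofNat 0, .ofNat 0, .ofNat 0, .ofNat 6246987138187203096603448441867260133376, .ofNat 0, .ofNat 0, .ofNat 0, .ofNat 5151386824486244755082778176901798166528,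 .ofNat 288317813541754146755155515590409283342876803072, .ofNat 0, .ofNat 453212166277788555000561759440628683030659072, .ofNat 9438649774890697584515741110423764598784, .ofNat 117620764976056170990921669589967021993520791552⟩)
    (by decide +kernel)
theorem L03089 : Good (Phi V5.P V5.D 1 1) ⟨5, 28, 2, 2, 3, 1, 3, 7, 3, 1⟩ :=
  leafX_sound T5.ok_pp T5.Ypp.bz_eq (w := 223) (c := ⟨⟨.negSucc 2694, .negSucc 131, .negSucc 327, .negSucc 736, .negSucc 926, .ofNat 277⟩, ⟨.negSucc 1582, .negSucc 240, .negSucc 421, .negSucc 482, .negSucc 599, .ofNat 178⟩, ⟨.ofNat 2648, .ofNat 31, .ofNat 482, .ofNat 616, .ofNat 702, .negSucc 617⟩, ⟨.negSucc 3981, .negSucc 99, .negSucc 203, .negSucc 971, .negSucc 1249, .ofNat 475⟩, ⟨.ofNat 87, .ofNat 37, .negSucc 152, .negSucc 147, .negSucc 100, .negSucc 129⟩, .ofNat 820, .negSucc 888, .ofNat 0, .negSucc 888, .ofNat 1567, .ofNat 0, .ofNat 128, .ofNat 332, .negSucc 529, .ofNat 0, .ofNat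 265, .negSucc 314, .ofNat 0, .ofNat 0, .ofNat 961, .ofNat 321, .ofNat 0, .ofNat 0, .ofNat 0, .ofNat 0, .ofNat 0, .ofNat 1039272746526005689146278235624896456170668032, .ofNat 3528530339818149739777927795624871198720, .ofNat 0, .ofNat 0, .ofNat 4968866761887719338943366142112677499548729344, .ofNat 5328591622946236757810731427114359193600, .ofNat 1449872143350774717352576566263287681558025076736, .ofNat 0, .ofNat 0, .ofNat 0, .ofNat 0⟩)
    (by decide +kernel)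
theorem L03090 : Good (Phi V5.P V5.D 1 1) ⟨5, 29, 2, 2, 3, 1, 3, 7, 3, 1⟩ :=
  out_sound (S := T5.ds_pp) T5.ok_pp (w := 17) (j := 4) (by decide +kernel)
theorem L03091 : Good (Phi V5.P V5.D 1 1) ⟨5, 28, 3, 6, 2, 0, 3, 7, 3, 1⟩ :=
  out_sound (S := T5.ds_pp) T5.ok_pp (w := 57) (j := 3) (by decide +kernel)
theorem L03092 : Good (Phi V5.P V5.D 1 1) ⟨5, 29, 3, 6, 2, 0, 3, 7, 3, 1⟩ :=
  out_sound (S := T5.ds_pp) T5.ok_pp (w := 17) (j := 4) (by decide +kernel)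
theorem L03093 : Good (Phi V5.P V5.D 1 1) ⟨4, 14, 3, 7, 2, 0, 3, 7, 3, 1⟩ :=
  out_sound (S := T5.ds_pp) T5.ok_pp (w := 51) (j := 3) (by decide +kernel)
theorem L03094 : Good (Phi V5.P V5.D 1 1) ⟨4, 15, 1, 1, 2, 0, 2, 3, 3, 1⟩ :=
  out_sound (S := T5.ds_pp) T5.ok_pp (w := 15) (j := 4) (by decide +kernel)
theorem L03095 : Good (Phi V5.P V5.D 1 1) ⟨3, 6, 2, 2, 2, 1, 2, 2, 3, 1⟩ :=
  leafX_sound T5.ok_pp T5.Ypp.bz_eq (w := 197) (c := ⟨⟨.negSucc 2257, .negSucc 886, .ofNat 13, .negSucc 605, .negSucc 351, .ofNat 396⟩, ⟨.negSucc 981, .negSucc 827, .negSucc 357, .negSucc 369, .negSucc 214, .ofNat 228⟩, ⟨.ofNat 2144, .ofNat 756, .negSucc 83, .ofNat 124, .ofNat 449, .negSucc 363⟩, ⟨.negSucc 3914, .negSucc 689, .ofNat 107, .negSucc 770, .negSucc 438, .ofNat 713⟩, ⟨.negSucc 80, .ofNat 265, .negSucc 149, .negSucc 178, .negSucc 133, .negSucc 231⟩, .ofNat 751, .negSucc 830, .ofNat 0, .negSucc 830, .ofNat 1628, .ofNat 0,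 .ofNat 128, .ofNat 280, .negSucc 223, .ofNat 0, .ofNat 205, .negSucc 112, .ofNat 0, .ofNat 0, .ofNat 631, .ofNat 609, .ofNat 0, .ofNat 0, .ofNat 8671521229932546190543868586360832, .ofNat 0, .ofNat 0, .ofNat 0, .ofNat 0, .ofNat 0, .ofNat 0, .ofNat 0, .ofNat 226207580404641964420865347647700992, .ofNat 0, .ofNat 0, .ofNat 0, .ofNat 110792955734621871550769809942642688, .ofNat 0⟩)
    (by decide +kernel)
theorem L03096 : Good (Phi V5.P V5.D 1 1) ⟨5, 28, 2, 2, 2, 1, 3, 4, 3, 1⟩ :=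
  leafX_sound T5.ok_pp T5.Ypp.bz_eq (w := 210) (c := ⟨⟨.negSucc 3452, .negSucc 665, .ofNat 981, .negSucc 598, .negSucc 153, .ofNat 358⟩, ⟨.negSucc 2023, .negSucc 517, .ofNat 300, .negSucc 392, .negSucc 102, .ofNat 229⟩, ⟨.ofNat 3014, .ofNat 411, .negSucc 459, .ofNat 68, .ofNat 208, .negSucc 322⟩, ⟨.negSucc 4753, .negSucc 455, .ofNat 723, .negSucc 738, .negSucc 178, .ofNat 642⟩, ⟨.negSucc 14, .negSucc 128, .ofNat 321, .negSucc 170, .negSucc 60, .negSucc 215⟩, .ofNat 820, .negSucc 888, .ofNat 0, .negSucc 888, .ofNat 1567, .ofNat 0, .ofNat 128, .ofNat 401, .negSucc 310, .ofNat 0, .ofNat 310, .negSucc 172, .ofNat 0, .ofNat 0, .ofNat 877, .ofNat 1079, .ofNat 0, .ofNat 0, .ofNat 37576136189220011327615910769852416, .ofNat 2673533870807195664466975473129320259518464, .ofNat 0, .ofNat 0, .ofNat 630160469410885830585475990808428544, .ofNat 0, .ofNat 0, .ofNat 0, .ofNat 1963306803305777920612805069229785088, .ofNat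 0, .ofNat 0, .ofNat 0, .ofNat 0, .ofNat 0⟩)
    (by decide +kernel)
theorem L03097 : Good (Phi V5.P V5.D 1 1) ⟨5, 28, 2, 2, 2, 1, 3, 5, 3, 1⟩ :=
  leafX_sound T5.ok_pp T5.Ypp.bz_eq (w := 210) (c := ⟨⟨.negSucc 3268, .negSucc 197, .ofNat 35, .negSucc 855, .negSucc 295, .ofNat 542⟩, ⟨.negSucc 1850, .negSucc 179, .negSucc 442, .negSucc 559, .negSucc 187, .ofNat 354⟩, ⟨.ofNat 3111, .ofNat 136, .negSucc 16, .ofNat 361, .ofNat 294, .negSucc 558⟩, ⟨.negSucc 4709, .negSucc 110, .negSucc 31, .negSucc 1087, .negSucc 370, .ofNat 945⟩, ⟨.ofNat 45, .ofNat 64, .ofNat 131, .negSucc 203, .negSucc 89, .negSucc 292⟩, .ofNat 820, .negSucc 888, .ofNat 0, .negSucc 888, .ofNat 1567, .ofNat 0, .ofNat 128, .ofNat 304, .negSucc 248, .ofNat 0, .ofNat 235, .negSucc 140, .ofNat 0, .ofNat 0, .ofNat 635, .ofNat 934, .ofNat 0, .ofNat 0, .ofNat 0, .ofNat 0, .ofNat 0, .ofNat 0, .ofNat 194780682052278193743208121427296256, .ofNat 0, .ofNat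 0, .ofNat 0, .ofNat 245895339207083678959088287694716928, .ofNat 163106302669608885704581719054329033470771200, .ofNat 0, .ofNat 0, .ofNat 0, .ofNat 0⟩)
    (by decide +kernel)
theorem L03098 : Good (Phi V5.P V5.D 1 1) ⟨5, 29, 2, 2, 2, 1, 2, 2, 3, 1⟩ :=
  out_sound (S := T5.ds_pp) T5.ok_pp (w := 17) (j := 4) (by decide +kernel)
theorem L03099 : Good (Phi V5.P V5.D 1 1) ⟨4, 15, 2, 2, 2, 1, 2, 2, 3, 1⟩ :=
  out_sound (S := T5.ds_pp) T5.ok_pp (w := 49) (j := 3) (by decide +kernel)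
theorem L03100 : Good (Phi V5.P V5.D 1 1) ⟨4, 12, 2, 2, 2, 1, 2, 3, 3, 1⟩ :=
  out_sound (S := T5.ds_pp) T5.ok_pp (w := 49) (j := 3) (by decide +kernel)
theorem L03101 : Good (Phi V5.P V5.D 1 1) ⟨4, 13, 3, 4, 2, 1, 3, 6, 4, 2⟩ :=
  leafX_sound T5.ok_pp T5.Ypp.bz_eq (w := 215) (c := ⟨⟨.negSucc 2674, .negSucc 552, .negSucc 67, .negSucc 1364, .negSucc 506, .ofNat 255⟩, ⟨.negSucc 1350, .negSucc 509, .negSucc 258, .negSucc 811, .negSucc 307, .ofNat 148⟩, ⟨.ofNat 2703, .ofNat 398, .ofNat 104, .ofNat 829, .ofNat 454, .negSucc 304⟩, ⟨.negSucc 4372, .negSucc 230, .negSucc 233, .negSucc 1936, .negSucc 730, .ofNat 626⟩, ⟨.ofNat 296, .negSucc 331, .ofNat 282, .negSucc 77, .negSucc 13, .negSucc 452⟩, .ofNat 1564, .negSucc 2148, .ofNat 0, .negSucc 2148, .ofNat 3831, .ofNat 0, .ofNat 128, .ofNat 703, .negSucc 388, .ofNat 0, .ofNat 465, .negSucc 216, .ofNat 0, .ofNat 0, .ofNat 794, .ofNat 705, .ofNat 0, .ofNat 0, .ofNat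 0, .ofNat 0, .ofNat 0, .ofNat 0, .ofNat 235420392643629814233338578875325612032, .ofNat 0, .ofNat 0, .ofNat 0, .ofNat 0, .ofNat 0, .ofNat 0, .ofNat 0, .ofNat 0, .ofNat 0⟩)
    (by decide +kernel)
theorem L03102 : Good (Phi V5.P V5.D 1 1) ⟨4, 13, 3, 4, 2, 1, 4, 14, 4, 2⟩ :=
  leafX_sound T5.ok_pp T5.Ypp.bz_eq (w := 220) (c := ⟨⟨.negSucc 2775, .negSucc 774, .ofNat 56, .negSucc 2228, .negSucc 675, .ofNat 311⟩, ⟨.negSucc 1412, .negSucc 601, .negSucc 285, .negSucc 1301, .negSucc 389, .ofNat 175⟩, ⟨.ofNat 2854, .ofNat 620, .negSucc 28, .ofNat 1481, .ofNat 557, .negSucc 440⟩, ⟨.negSucc 4602, .negSucc 538, .negSucc 35, .negSucc 3199, .negSucc 949, .ofNat 872⟩, ⟨.ofNat 331, .negSucc 297, .ofNat 340, .negSucc 33, .negSucc 62, .negSucc 725⟩, .ofNat 2540, .negSucc 3754, .ofNat 0, .negSucc 3754, .ofNat 6495, .ofNat 0, .ofNat 128, .ofNat 577, .negSucc 385, .ofNat 0, .ofNat 372, .negSucc 220, .ofNat 0, .ofNat 0, .ofNat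 664, .ofNat 172, .ofNat 0, .ofNat 0, .ofNat 29774086970962643779940801350098485248, .ofNat 0, .ofNat 0, .ofNat 0, .ofNat 16139346447162809904424380489307063844864, .ofNat 0, .ofNat 0, .ofNat 0, .ofNat 0, .ofNat 0, .ofNat 0, .ofNat 0, .ofNat 0, .ofNat 0⟩)
    (by decide +kernel)
theorem L03103 : Good (Phi V5.P V5.D 1 1) ⟨4, 13, 3, 4, 2, 1, 5, 30, 4, 2⟩ :=
  leafX_sound T5.ok_pp T5.Ypp.bz_eq (w := 222) (c := ⟨⟨.negSucc 3115, .negSucc 742, .negSucc 277, .negSucc 2994, .negSucc 689, .ofNat 442⟩, ⟨.negSucc 1588, .negSucc 563, .negSucc 577, .negSucc 1774, .negSucc 411, .ofNat 257⟩, ⟨.ofNat 3076, .ofNat 881, .negSucc 10, .ofNat 1963, .ofNat 578, .negSucc 662⟩, ⟨.negSucc 4996, .negSucc 499, .negSucc 522, .negSucc 4270, .negSucc 1141, .ofNat 1011⟩, ⟨.ofNat 127, .negSucc 314, .ofNat 454, .negSucc 132, .ofNat 253, .negSucc 604⟩, .ofNat 1563, .negSucc 2160, .ofNat 0, .negSucc 2160, .ofNat 3880, .ofNat 0, .ofNat 128,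 .ofNat 400, .negSucc 452, .ofNat 0, .ofNat 263, .negSucc 253, .ofNat 0, .ofNat 0, .ofNat 686, .ofNat 253, .ofNat 0, .ofNat 0, .ofNat 5104009895382099786251004909586355322880, .ofNat 0, .ofNat 0, .ofNat 0, .ofNat 47192914140161133784722534831346132451328, .ofNat 0, .ofNat 0, .ofNat 0, .ofNat 88193861903649687589020163484875311022080, .ofNat 0, .ofNat 0, .ofNat 0, .ofNat 0, .ofNat 0⟩)
    (by decide +kernel)
theorem L03104 : Good (Phi V5.P V5.D 1 1) ⟨4, 13, 3, 4, 2, 1, 5, 31, 4, 2⟩ :=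
  leafX_sound T5.ok_pp T5.Ypp.bz_eq (w := 223) (c := ⟨⟨.negSucc 3429, .negSucc 767, .negSucc 393, .negSucc 4248, .negSucc 1166, .ofNat 455⟩, ⟨.negSucc 1731, .negSucc 606, .negSucc 697, .negSucc 2517, .negSucc 653, .ofNat 258⟩, ⟨.ofNat 3370, .ofNat 877, .ofNat 139, .ofNat 2788, .ofNat 1004, .negSucc 606⟩, ⟨.negSucc 5204, .negSucc 646, .negSucc 576, .negSucc 6647, .negSucc 2101, .ofNat 1075⟩, ⟨.negSucc 444, .ofNat 77, .ofNat 170, .ofNat 873, .ofNat 710, .negSucc 703⟩, .ofNat 1591, .negSucc 2189, .ofNat 0, .negSucc 2189, .ofNat 3891, .ofNat 0, .ofNat 128, .ofNat 298, .negSucc 378, .ofNat 0, .ofNat 197, .negSucc 214, .ofNat 0, .ofNat 0, .ofNat 513, .ofNat 246, .ofNat 0, .ofNat 5985193943154276964560856947827008256081920, .ofNat 2057575366757604660890378694459314405376, .ofNat 0, .ofNat 0, .ofNat 119792331041747442969028795619655071330992128, .ofNat 84404731937385156397407627166850012413952, .ofNat 0, .ofNat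 0, .ofNat 91836024623690984402481062381198744741740544, .ofNat 28664676644272944497491389099708419932160, .ofNat 0, .ofNat 0, .ofNat 67706191424248781089962473252987345043456000, .ofNat 32496030921841339744487004829600341557248, .ofNat 0⟩)
    (by decide +kernel)
theorem L03105 : Good (Phi V5.P V5.D 1 1) ⟨4, 13, 3, 4, 2, 1, 3, 6, 4, 3⟩ :=
  leafX_sound T5.ok_pp T5.Ypp.bz_eq (w := 214) (c := ⟨⟨.negSucc 2577, .negSucc 585, .negSucc 24, .negSucc 1137, .negSucc 485, .ofNat 291⟩, ⟨.negSucc 1250, .negSucc 611, .negSucc 168, .negSucc 697, .negSucc 293, .ofNat 175⟩, ⟨.ofNat 2536, .ofNat 486, .negSucc 28, .ofNat 673, .ofNat 372, .negSucc 370⟩, ⟨.negSucc 3990, .negSucc 521, .negSucc 51, .negSucc 1472, .negSucc 597, .ofNat 541⟩, ⟨.negSucc 228, .ofNat 252, .ofNat 28, .negSucc 295, .negSucc 209, .negSucc 214⟩, .ofNat 754, .negSucc 833, .ofNat 0, .negSucc 833, .ofNat 1627, .ofNat 0, .ofNat 128, .ofNat 311, .negSucc 149,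 .ofNat 0, .ofNat 230, .negSucc 76, .ofNat 0, .ofNat 0, .ofNat 402, .ofNat 942, .ofNat 0, .ofNat 0, .ofNat 0, .ofNat 0, .ofNat 0, .ofNat 0, .ofNat 0, .ofNat 0, .ofNat 0, .ofNat 0, .ofNat 0, .ofNat 0, .ofNat 0, .ofNat 0, .ofNat 216185771453235276593904905092633460736, .ofNat 0⟩)
    (by decide +kernel)
theorem L03106 : Good (Phi V5.P V5.D 1 1) ⟨4, 13, 3, 4, 2, 1, 4, 14, 4, 3⟩ :=
  leafX_sound T5.ok_pp T5.Ypp.bz_eq (w := 218) (c := ⟨⟨.negSucc 2864, .negSucc 671, .negSucc 59, .negSucc 1603, .negSucc 683, .ofNat 438⟩, ⟨.negSucc 1445, .negSucc 620, .negSucc 255, .negSucc 957, .negSucc 408, .ofNat 260⟩, ⟨.ofNat 2829, .ofNat 506, .ofNat 85, .ofNat 909, .ofNat 492, .negSucc 603⟩, ⟨.negSucc 4384, .negSucc 687, .negSucc 1, .negSucc 2043, .negSucc 950, .ofNat 843⟩, ⟨.negSucc 262, .ofNat 327, .negSucc 91, .negSucc 532, .negSucc 75, .negSucc 353⟩, .ofNat 749, .negSucc 828, .ofNat 0, .negSucc 828, .ofNat 1628, .ofNat 0,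 .ofNat 128, .ofNat 439, .negSucc 290, .ofNat 0, .ofNat 324, .negSucc 150, .ofNat 0, .ofNat 0, .ofNat 671, .ofNat 640, .ofNat 0, .ofNat 0, .ofNat 0, .ofNat 0, .ofNat 0, .ofNat 0, .ofNat 473535111426458310603938969415061602304, .ofNat 0, .ofNat 0, .ofNat 0, .ofNat 0, .ofNat 0, .ofNat 0, .ofNat 0, .ofNat 0, .ofNat 0⟩)
    (by decide +kernel)
theorem L03107 : Good (Phi V5.P V5.D 1 1) ⟨4, 13, 3, 4, 2, 1, 4, 15, 4, 3⟩ :=
  leafX_sound T5.ok_pp T5.Ypp.bz_eq (w := 219) (c := ⟨⟨.negSucc 3422, .negSucc 304, .negSucc 374, .negSucc 2259, .negSucc 1294, .ofNat 389⟩, ⟨.negSucc 1792, .negSucc 348, .negSucc 526, .negSucc 1337, .negSucc 765, .ofNat 234⟩, ⟨.ofNat 3097, .ofNat 413, .ofNat 170, .ofNat 1404, .ofNat 1046, .negSucc 538⟩, ⟨.negSucc 5369, .ofNat 299, .negSucc 637, .negSucc 3078, .negSucc 2003, .ofNat 840⟩, ⟨.ofNat 19, .negSucc 514, .ofNat 297, .negSucc 340, .ofNat 234, .negSucc 484⟩, .ofNat 1539, .negSucc 2118,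 .ofNat 0, .negSucc 2118, .ofNat 3808, .ofNat 0, .ofNat 128, .ofNat 739, .negSucc 594, .ofNat 0, .ofNat 490, .negSucc 333, .ofNat 0, .ofNat 0, .ofNat 1196, .ofNat 476, .ofNat 0, .ofNat 2272830736391579166361183234726274346778624, .ofNat 157351051944187146403687626848239353856, .ofNat 0, .ofNat 0, .ofNat 18836521257694861211509086905593934443970560, .ofNat 7415710567338677937274182538335583469568, .ofNat 0, .ofNat 0, .ofNat 147616118383373422679907283819427569724293120, .ofNat 8014734102994239708205963387345060233216, .ofNat 0, .ofNat 0, .ofNat 0, .ofNat 0, .ofNat 0⟩)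
    (by decide +kernel)
theorem L03108 : Good (Phi V5.P V5.D 1 1) ⟨4, 13, 3, 5, 2, 1, 2, 3, 3, 1⟩ :=
  out_sound (S := T5.ds_pp) T5.ok_pp (w := 51) (j := 3) (by decide +kernel)
theorem L03109 : Good (Phi V5.P V5.D 1 1) ⟨4, 14, 2, 2, 2, 1, 3, 6, 3, 1⟩ :=
  leafX_sound T5.ok_pp T5.Ypp.bz_eq (w := 205) (c := ⟨⟨.negSucc 3268, .negSucc 150, .negSucc 442, .negSucc 1176, .negSucc 605, .ofNat 657⟩, ⟨.negSucc 1955, .negSucc 578, .negSucc 424, .negSucc 777, .negSucc 400, .ofNat 427⟩, ⟨.ofNat 3249, .negSucc 120, .ofNat 548, .ofNat 635, .ofNat 441, .negSucc 900⟩, ⟨.negSucc 5000, .ofNat 49, .negSucc 380, .negSucc 1450, .negSucc 735, .ofNat 1278⟩, ⟨.ofNat 347, .ofNat 185, .negSucc 149, .negSucc 346, .negSucc 194, .negSucc 519⟩, .ofNat 749, .negSucc 758, .ofNat 0, .negSucc 758, .ofNat 1313, .ofNat 0, .ofNat 128, .ofNat 251, .negSucc 188, .ofNat 0, .ofNat 206, .negSucc 108, .ofNat 0, .ofNat 0, .ofNat 414, .ofNat 347, .ofNat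 0, .ofNat 0, .ofNat 30305015444049101784357820788899840, .ofNat 733545259085792618837201453609530821705728, .ofNat 0, .ofNat 0, .ofNat 1299580492528874724046985153816297472, .ofNat 0, .ofNat 0, .ofNat 0, .ofNat 519285382146167628644799514050297856, .ofNat 9760987358990374305833392866619014841892864, .ofNat 0, .ofNat 0, .ofNat 283816432208993382941090502217302016, .ofNat 8151771496028646855504699201926283250368512⟩)
    (by decide +kernel)
theorem L03110 : Good (Phi V5.P V5.D 1 1) ⟨4, 15, 2, 2, 2, 1, 3, 6, 3, 1⟩ :=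
  out_sound (S := T5.ds_pp) T5.ok_pp (w := 49) (j := 3) (by decide +kernel)
theorem L03111 : Good (Phi V5.P V5.D 1 1) ⟨5, 28, 2, 2, 2, 1, 4, 14, 4, 2⟩ :=
  leafX_sound T5.ok_pp T5.Ypp.bz_eq (w := 219) (c := ⟨⟨.negSucc 3340, .negSucc 340, .negSucc 228, .negSucc 2297, .negSucc 877, .ofNat 267⟩, ⟨.negSucc 1655, .negSucc 129, .negSucc 1140, .negSucc 1512, .negSucc 566, .ofNat 187⟩, ⟨.ofNat 3522, .ofNat 362, .negSucc 138, .ofNat 1432, .ofNat 683, .negSucc 440⟩, ⟨.negSucc 4855, .negSucc 388, .negSucc 295, .negSucc 3250, .negSucc 1243, .ofNat 705⟩, ⟨.ofNat 78, .ofNat 230, .ofNat 0, .negSucc 31, .negSucc 19, .negSucc 506⟩, .ofNat 820, .negSucc 888, .ofNat 0, .negSucc 888, .ofNat 1567, .ofNat 0, .ofNat 128, .ofNat 421, .negSucc 407, .ofNat 0, .ofNat 322, .negSucc 234, .ofNat 0, .ofNat 0, .ofNat 648, .ofNat 354, .ofNat 0, .ofNat 0, .ofNat 7894091614567906324639081605195890688, .ofNat 0, .ofNat 0, .ofNat 0, .ofNat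 118175042233245586715852170771117899776, .ofNat 0, .ofNat 0, .ofNat 0, .ofNat 207638470572144139429650594027473469440, .ofNat 0, .ofNat 0, .ofNat 0, .ofNat 0, .ofNat 52921594108735069005304254642294271274974707712⟩)
    (by decide +kernel)
theorem L03112 : Good (Phi V5.P V5.D 1 1) ⟨5, 28, 4, 8, 2, 1, 4, 15, 4, 2⟩ :=
  out_sound (S := T5.ds_pp) T5.ok_pp (w := 59) (j := 3) (by decide +kernel)
theorem L03113 : Good (Phi V5.P V5.D 1 1) ⟨6, 56, 4, 9, 2, 1, 5, 30, 4, 2⟩ :=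
  leafX_sound T5.ok_pp T5.Ypp.bz_eq (w := 237) (c := ⟨⟨.negSucc 4894, .negSucc 1547, .ofNat 1559, .negSucc 3382, .negSucc 1054, .ofNat 669⟩, ⟨.negSucc 2923, .negSucc 1007, .ofNat 773, .negSucc 2131, .negSucc 659, .ofNat 415⟩, ⟨.ofNat 4806, .ofNat 1514, .negSucc 1456, .ofNat 2128, .ofNat 806, .negSucc 821⟩, ⟨.negSucc 6786, .negSucc 1607, .ofNat 1670, .negSucc 4685, .negSucc 1490, .ofNat 1158⟩, ⟨.negSucc 245, .negSucc 444, .ofNat 644, .negSucc 208, .negSucc 40, .negSucc 320⟩, .ofNat 3933, .negSucc 5722, .ofNat 0, .negSucc 5722, .ofNat 9168, .ofNat 0, .ofNat 128, .ofNat 851, .negSucc 987, .ofNat 0, .ofNat 565, .negSucc 616, .ofNat 0, .ofNat 0, .ofNat 1483, .ofNat 751, .ofNat 0, .ofNat 0, .ofNat 5580769953167499734396044142120559181824, .ofNat 0, .ofNat 0, .ofNat 0, .ofNat 241986470888702658149442871601354625777664, .ofNat 0, .ofNat 0, .ofNat 0, .ofNat 199639381404478828729020945585716666040320, .ofNat 0, .ofNat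 0, .ofNat 0, .ofNat 90862744587771478894611790978794978803712, .ofNat 0⟩)
    (by decide +kernel)
theorem L03114 : Good (Phi V5.P V5.D 1 1) ⟨6, 56, 4, 9, 2, 1, 5, 31, 4, 2⟩ :=
  leafX_sound T5.ok_pp T5.Ypp.bz_eq (w := 235) (c := ⟨⟨.negSucc 4302, .ofNat 128, .negSucc 459, .negSucc 4353, .negSucc 1313, .ofNat 670⟩, ⟨.negSucc 2579, .negSucc 38, .negSucc 432, .negSucc 2751, .negSucc 824, .ofNat 417⟩, ⟨.ofNat 4400, .ofNat 211, .ofNat 61, .ofNat 2805, .ofNat 1134, .negSucc 812⟩, ⟨.negSucc 6258, .ofNat 384, .negSucc 625, .negSucc 6480, .negSucc 1933, .ofNat 1410⟩, ⟨.ofNat 95, .negSucc 77, .ofNat 26, .ofNat 388, .ofNat 65, .negSucc 713⟩, .ofNat 1563, .negSucc 2020, .ofNat 0, .negSucc 2020, .ofNat 3362, .ofNat 0, .ofNat 128, .ofNat 531, .negSucc 811, .ofNat 0, .ofNat 374, .negSucc 489, .ofNat 0, .ofNat 0, .ofNat 1011, .ofNat 551, .ofNat 0, .ofNat 33251870593733124658727859581731887482201440256, .ofNat 468071175670340404502499345721152503808,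 .ofNat 0, .ofNat 0, .ofNat 229515975489128791198384466374536342809341853696, .ofNat 71209565105554756137189123023486360485888, .ofNat 0, .ofNat 0, .ofNat 727359345333913341674168610172982879288356241408, .ofNat 132160915961212296809847277168198733004800, .ofNat 0, .ofNat 0, .ofNat 599603451527981459097275128474208124709820694528, .ofNat 41245122285543280991019017527574002663424, .ofNat 0⟩)
    (by decide +kernel)
theorem L03115 : Good (Phi V5.P V5.D 1 1) ⟨6, 57, 4, 9, 2, 1, 4, 15, 4, 2⟩ :=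
  out_sound (S := T5.ds_pp) T5.ok_pp (w := 65) (j := 3) (by decide +kernel)
theorem L03116 : Good (Phi V5.P V5.D 1 1) ⟨5, 28, 4, 10, 2, 1, 5, 30, 4, 2⟩ :=
  leafX_sound T5.ok_pp T5.Ypp.bz_eq (w := 230) (c := ⟨⟨.negSucc 3900, .negSucc 1275, .ofNat 189, .negSucc 3513, .negSucc 954, .ofNat 964⟩, ⟨.negSucc 2510, .negSucc 527, .negSucc 321, .negSucc 2323, .negSucc 634, .ofNat 636⟩, ⟨.ofNat 4097, .ofNat 916, .negSucc 161, .ofNat 1989, .ofNat 699, .negSucc 1053⟩, ⟨.negSucc 5721, .negSucc 1244, .ofNat 19, .negSucc 5273, .negSucc 1388, .ofNat 2008⟩, ⟨.ofNat 132, .negSucc 181, .ofNat 307, .ofNat 399, .ofNat 44, .negSucc 963⟩, .ofNat 921, .negSucc 1044, .ofNat 0, .negSucc 1044, .ofNat 1801, .ofNat 0, .ofNat 128, .ofNat 474, .negSucc 681, .ofNat 0, .ofNat 352, .negSucc 405, .ofNat 0, .ofNat 0, .ofNat 937, .ofNat 398, .ofNat 0, .ofNat 496238723342596606227864002299742251657461760, .ofNat 2168158289270450722957214936146909331456,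 .ofNat 0, .ofNat 0, .ofNat 0, .ofNat 61249888789124429353547463052565747335168, .ofNat 0, .ofNat 0, .ofNat 0, .ofNat 37467193534819751161529347948705522647040, .ofNat 0, .ofNat 0, .ofNat 0, .ofNat 0, .ofNat 0⟩)
    (by decide +kernel)
theorem L03117 : Good (Phi V5.P V5.D 1 1) ⟨6, 56, 4, 10, 2, 1, 5, 31, 4, 2⟩ :=
  leafX_sound T5.ok_pp T5.Ypp.bz_eq (w := 239) (c := ⟨⟨.negSucc 4738, .negSucc 142, .negSucc 375, .negSucc 4386, .negSucc 1191, .ofNat 828⟩, ⟨.negSucc 2934, .negSucc 245, .negSucc 385, .negSucc 2861, .negSucc 789, .ofNat 539⟩, ⟨.ofNat 4692, .negSucc 97, .ofNat 508, .ofNat 2728, .ofNat 1051, .negSucc 908⟩, ⟨.negSucc 7033, .negSucc 279, .negSucc 521, .negSucc 6188, .negSucc 1551, .ofNat 1811⟩, ⟨.ofNat 321, .ofNat 313, .ofNat 101, .ofNat 9, .negSucc 189, .negSucc 976⟩, .ofNat 5310, .negSucc 7707, .ofNat 0, .negSucc 7707, .ofNat 11994, .ofNat 0, .ofNat 128, .ofNat 1447, .negSucc 1464, .ofNat 0, .ofNat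 970, .negSucc 943, .ofNat 0, .ofNat 0, .ofNat 1934, .ofNat 1038, .ofNat 0, .ofNat 62759574647050216159949369241034337634742173696, .ofNat 4675854753801249535898058301624763285504, .ofNat 0, .ofNat 0, .ofNat 688541133035653236089261003617447277040163094528, .ofNat 343552683291575719818039474878209243217920, .ofNat 0, .ofNat 0, .ofNat 6250421222120596929715187220096039180044957908992, .ofNat 290249908153138028533035959796258660417536, .ofNat 0, .ofNat 0, .ofNat 2395964557753257831161551468027745663012613128192, .ofNat 204985985611044671095724288107279651176448, .ofNat 0⟩)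
    (by decide +kernel)
theorem L03118 : Good (Phi V5.P V5.D 1 1) ⟨6, 57, 4, 10, 2, 1, 5, 31, 4, 2⟩ :=
  leafX_sound T5.ok_pp T5.Ypp.bz_eq (w := 234) (c := ⟨⟨.negSucc 4486, .ofNat 366, .negSucc 550, .negSucc 4705, .negSucc 1411, .ofNat 696⟩, ⟨.negSucc 3012, .negSucc 123, .negSucc 250, .negSucc 3141, .negSucc 940, .ofNat 463⟩, ⟨.ofNat 4762, .ofNat 375, .negSucc 302, .ofNat 3028, .ofNat 1228, .negSucc 791⟩, ⟨.negSucc 6594, .ofNat 200, .negSucc 190, .negSucc 7040, .negSucc 2079, .ofNat 1442⟩, ⟨.ofNat 22, .negSucc 21, .negSucc 51, .ofNat 600, .ofNat 126, .negSucc 686⟩, .ofNat 937, .negSucc 1063, .ofNat 0, .negSucc 1063, .ofNat 1821, .ofNat 0, .ofNat 128, .ofNat 373, .negSucc 565, .ofNat 0, .ofNat 278, .negSucc 340, .ofNat 0, .ofNat 0, .ofNat 715, .ofNat 285, .ofNat 0, .ofNat 19809569632886410121954796904479286183266877440, .ofNat 327292627816037495613283841298357288960, .ofNat 0, .ofNat 0, .ofNat 132766615483884914557277798562972227325925523456,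 .ofNat 33589924695811842899395067825632483213312, .ofNat 17043528869033117104552258798201918821224488632320, .ofNat 0, .ofNat 299515768873146901825568082119194418806066774016, .ofNat 5499468722497554862140725461480787410944, .ofNat 259429527787244864343516692954414041235676469395456, .ofNat 0, .ofNat 364220947423662150986080569136205666801965596672, .ofNat 26436680077412926943056828157644135989248, .ofNat 187701419569779699459866919110422384765572411817984⟩)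
    (by decide +kernel)
theorem L03119 : Good (Phi V5.P V5.D 1 1) ⟨6, 56, 4, 11, 2, 1, 4, 15, 4, 2⟩ :=
  out_sound (S := T5.ds_pp) T5.ok_pp (w := 65) (j := 3) (by decide +kernel)
theorem L03120 : Good (Phi V5.P V5.D 1 1) ⟨7, 114, 5, 22, 2, 1, 4, 15, 4, 2⟩ :=
  out_sound (S := T5.ds_pp) T5.ok_pp (w := 73) (j := 3) (by decide +kernel)
theorem L03121 : Good (Phi V5.P V5.D 1 1) ⟨7, 115, 5, 22, 2, 1, 4, 15, 4, 2⟩ :=
  out_sound (S := T5.ds_pp) T5.ok_pp (w := 21) (j := 4) (by decide +kernel)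
theorem L03122 : Good (Phi V5.P V5.D 1 1) ⟨6, 57, 5, 23, 2, 1, 4, 15, 4, 2⟩ :=
  out_sound (S := T5.ds_pp) T5.ok_pp (w := 67) (j := 3) (by decide +kernel)
theorem L03123 : Good (Phi V5.P V5.D 1 1) ⟨5, 28, 4, 8, 2, 1, 3, 7, 4, 3⟩ :=
  out_sound (S := T5.ds_pp) T5.ok_pp (w := 59) (j := 3) (by decide +kernel)
theorem L03124 : Good (Phi V5.P V5.D 1 1) ⟨6, 56, 4, 9, 2, 1, 4, 14, 4, 3⟩ :=
  leafX_sound T5.ok_pp T5.Ypp.bz_eq (w := 231) (c := ⟨⟨.negSucc 3333, .negSucc 247, .negSucc 104, .negSucc 1780, .negSucc 769, .ofNat 446⟩, ⟨.negSucc 2008, .negSucc 225, .negSucc 174, .negSucc 1133, .negSucc 490, .ofNat 280⟩, ⟨.ofNat 3148, .ofNat 116, .ofNat 157, .ofNat 1001, .ofNat 551, .negSucc 570⟩, ⟨.negSucc 4693, .negSucc 261, .negSucc 202, .negSucc 2246, .negSucc 1004, .ofNat 846⟩, ⟨.negSucc 161, .ofNat 63, .ofNat 107, .negSucc 466, .negSucc 144, .negSucc 336⟩, .ofNat 2040, .negSucc 2786, .ofNat 0, .negSucc 2786, .ofNat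 4598, .ofNat 0, .ofNat 128, .ofNat 790, .negSucc 542, .ofNat 0, .ofNat 538, .negSucc 330, .ofNat 0, .ofNat 0, .ofNat 1263, .ofNat 1843, .ofNat 0, .ofNat 0, .ofNat 312788024517087649140516655148717572096, .ofNat 0, .ofNat 0, .ofNat 0, .ofNat 6646287508467864177485254049090905309184, .ofNat 0, .ofNat 0, .ofNat 0, .ofNat 0, .ofNat 0, .ofNat 0, .ofNat 0, .ofNat 0, .ofNat 0⟩)
    (by decide +kernel)
theorem L03125 : Good (Phi V5.P V5.D 1 1) ⟨6, 56, 4, 9, 2, 1, 4, 15, 4, 3⟩ :=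
  leafX_sound T5.ok_pp T5.Ypp.bz_eq (w := 231) (c := ⟨⟨.negSucc 4044, .negSucc 326, .ofNat 118, .negSucc 2323, .negSucc 1248, .ofNat 437⟩, ⟨.negSucc 2436, .negSucc 278, .negSucc 54, .negSucc 1483, .negSucc 794, .ofNat 272⟩, ⟨.ofNat 3828, .ofNat 284, .negSucc 232, .ofNat 1348, .ofNat 1039, .negSucc 620⟩, ⟨.negSucc 5741, .negSucc 260, .ofNat 120, .negSucc 2919, .negSucc 1590, .ofNat 882⟩, ⟨.negSucc 125, .negSucc 69, .ofNat 94, .negSucc 616, .negSucc 298, .negSucc 403⟩, .ofNat 2075, .negSucc 2835, .ofNat 0, .negSucc 2835, .ofNat 4663, .ofNat 0, .ofNat 128, .ofNat 760, .negSucc 807, .ofNat 0, .ofNat 519, .negSucc 496, .ofNat 0, .ofNat 0, .ofNat 1535, .ofNat 1295, .ofNat 0, .ofNat 11090366609537180769464341411271401908295696384, .ofNat 53018880053062815306856541450108141568, .ofNat 0, .ofNat 0, .ofNat 80903377421640686442861196569857060843961712640, .ofNat 5468338965276213723230460159272228487168, .ofNat 0, .ofNat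 0, .ofNat 433878275427357276653065399479958107917641580544, .ofNat 13013452418477371985309235944751095611392, .ofNat 0, .ofNat 0, .ofNat 302385906734572966094104330493825230659313991680, .ofNat 5317399610736759938604697355807478513664, .ofNat 0⟩)
    (by decide +kernel)
theorem L03126 : Good (Phi V5.P V5.D 1 1) ⟨6, 57, 4, 9, 2, 1, 3, 7, 4, 3⟩ :=
  out_sound (S := T5.ds_pp) T5.ok_pp (w := 65) (j := 3) (by decide +kernel)
theorem L03127 : Good (Phi V5.P V5.D 1 1) ⟨5, 28, 3, 5, 2, 1, 4, 14, 4, 3⟩ :=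
  leafX_sound T5.ok_pp T5.Ypp.bz_eq (w := 223) (c := ⟨⟨.negSucc 3634, .ofNat 184, .negSucc 503, .negSucc 1694, .negSucc 839, .ofNat 534⟩, ⟨.negSucc 2299, .ofNat 44, .negSucc 631, .negSucc 1113, .negSucc 549, .ofNat 350⟩, ⟨.ofNat 3572, .negSucc 469, .ofNat 755, .ofNat 848, .ofNat 602, .negSucc 738⟩, ⟨.negSucc 5143, .ofNat 194, .negSucc 425, .negSucc 2045, .negSucc 1079, .ofNat 996⟩, ⟨.negSucc 89, .ofNat 289, .negSucc 121, .negSucc 552, .negSucc 170, .negSucc 365⟩, .ofNat 1061, .negSucc 1257, .ofNat 0, .negSucc 1257, .ofNat 2122, .ofNat 0, .ofNat 128, .ofNat 542, .negSucc 580, .ofNat 0, .ofNat 395, .negSucc 353, .ofNat 0, .ofNat 0, .ofNat 1256, .ofNat 967, .ofNat 0, .ofNat 14924178174743721692373098637001237733572608, .ofNat 56220430213831639224366146497514831872, .ofNat 53393317455021714521832071989789815184063201280, .ofNat 0, .ofNat 0, .ofNat 2366772111349405663185373830821261082624, .ofNat 0, .ofNat 0,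 .ofNat 0, .ofNat 1079736291450269084963732215420019539968, .ofNat 1231474960975885186698891656382235845301398142976, .ofNat 0, .ofNat 0, .ofNat 2925604179302727568191765983638195273728, .ofNat 0⟩)
    (by decide +kernel)
theorem L03128 : Good (Phi V5.P V5.D 1 1) ⟨5, 28, 4, 10, 2, 1, 5, 30, 4, 3⟩ :=
  leafX_sound T5.ok_pp T5.Ypp.bz_eq (w := 235) (c := ⟨⟨.negSucc 3984, .negSucc 329, .negSucc 70, .negSucc 2366, .negSucc 728, .ofNat 489⟩, ⟨.negSucc 2503, .negSucc 349, .negSucc 191, .negSucc 1555, .negSucc 486, .ofNat 316⟩, ⟨.ofNat 3723, .ofNat 95, .ofNat 111, .ofNat 1332, .ofNat 613, .negSucc 651⟩, ⟨.negSucc 5731, .negSucc 84, .negSucc 139, .negSucc 2743, .negSucc 1137, .ofNat 815⟩, ⟨.negSucc 82, .ofNat 7, .ofNat 22, .negSucc 879, .ofNat 187, .negSucc 190⟩, .ofNat 5704, .negSucc 8275, .ofNat 0, .negSucc 8275, .ofNat 12810, .ofNat 0, .ofNat 128, .ofNat 1074, .negSucc 1060, .ofNat 0, .ofNat 723, .negSucc 687,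 .ofNat 0, .ofNat 0, .ofNat 2091, .ofNat 1298, .ofNat 0, .ofNat 2391049393772289750692826065196167722287759360, .ofNat 5515976246966224205330322495887818883072, .ofNat 0, .ofNat 0, .ofNat 15452017965517661966258141011299089304361369600, .ofNat 1525186084503599363787731751328815620554752, .ofNat 0, .ofNat 0, .ofNat 105410700075257357146698934649370943989634564096, .ofNat 168755370987681371768685254442929264525312, .ofNat 576732778805580682333415305649078952781455084748800, .ofNat 0, .ofNat 0, .ofNat 0, .ofNat 0⟩)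
    (by decide +kernel)
theorem L03129 : Good (Phi V5.P V5.D 1 1) ⟨5, 28, 4, 10, 2, 1, 5, 31, 4, 3⟩ :=
  leafX_sound T5.ok_pp T5.Ypp.bz_eq (w := 231) (c := ⟨⟨.negSucc 4271, .negSucc 676, .ofNat 50, .negSucc 3329, .negSucc 936, .ofNat 341⟩, ⟨.negSucc 2645, .negSucc 827, .ofNat 40, .negSucc 2182, .negSucc 628, .ofNat 228⟩, ⟨.ofNat 3900, .ofNat 319, .ofNat 95, .ofNat 2315, .ofNat 797, .negSucc 537⟩, ⟨.negSucc 6130, .negSucc 273, .negSucc 186, .negSucc 4182, .negSucc 1200, .ofNat 705⟩, ⟨.negSucc 163, .negSucc 65, .ofNat 121, .negSucc 753, .negSucc 142, .negSucc 335⟩, .ofNat 2445, .negSucc 3336, .ofNat 0, .negSucc 3336, .ofNat 5308, .ofNat 0, .ofNat 128, .ofNat 576, .negSucc 661, .ofNat 0, .ofNat 399, .negSucc 422, .ofNat 0, .ofNat 0, .ofNat 1128, .ofNat 1331, .ofNat 0, .ofNat 4224926161708796357793259187563128582135873536, .ofNat 7126727613693153628167257274524662497280, .ofNat 0, .ofNat 0, .ofNat 40622209137524902718690063783655858261198897152,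 .ofNat 641464163340340521949465086341001219407872, .ofNat 0, .ofNat 0, .ofNat 95192873373974555366370727061183851584521502720, .ofNat 398666772321401751924289441727677747691520, .ofNat 224726547322673364978419995690592806285903516401664, .ofNat 0, .ofNat 108964334236845482620066909486042421103549218816, .ofNat 0, .ofNat 0⟩)
    (by decide +kernel)
theorem L03130 : Good (Phi V5.P V5.D 1 1) ⟨6, 56, 4, 11, 2, 1, 4, 15, 4, 3⟩ :=
  out_sound (S := T5.ds_pp) T5.ok_pp (w := 65) (j := 3) (by decide +kernel)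
theorem L03131 : Good (Phi V5.P V5.D 1 1) ⟨7, 114, 5, 22, 2, 1, 4, 15, 4, 3⟩ :=
  out_sound (S := T5.ds_pp) T5.ok_pp (w := 73) (j := 3) (by decide +kernel)
theorem L03132 : Good (Phi V5.P V5.D 1 1) ⟨7, 115, 5, 22, 2, 1, 4, 15, 4, 3⟩ :=
  out_sound (S := T5.ds_pp) T5.ok_pp (w := 21) (j := 4) (by decide +kernel)
theorem L03133 : Good (Phi V5.P V5.D 1 1) ⟨6, 57, 5, 23, 2, 1, 4, 15, 4, 3⟩ :=
  out_sound (S := T5.ds_pp) T5.ok_pp (w := 67) (j := 3) (by decide +kernel)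
theorem L03134 : Good (Phi V5.P V5.D 1 1) ⟨5, 29, 2, 2, 2, 1, 3, 7, 3, 1⟩ :=
  out_sound (S := T5.ds_pp) T5.ok_pp (w := 17) (j := 4) (by decide +kernel)
theorem L03135 : Good (Phi V5.P V5.D 1 1) ⟨4, 15, 2, 2, 2, 1, 3, 7, 3, 1⟩ :=
  out_sound (S := T5.ds_pp) T5.ok_pp (w := 49) (j := 3) (by decide +kernel)
theorem L03136 : Good (Phi V5.P V5.D 1 1) ⟨3, 6, 2, 3, 2, 1, 1, 1, 3, 1⟩ :=
  out_sound (S := T5.ds_pp) T5.ok_pp (w := 43) (j := 3) (by decide +kernel)
theorem L03137 : Good (Phi V5.P V5.D 1 1) ⟨5, 28, 3, 6, 2, 1, 1, 1, 3, 1⟩ :=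
  out_sound (S := T5.ds_pp) T5.ok_pp (w := 57) (j := 3) (by decide +kernel)
theorem L03138 : Good (Phi V5.P V5.D 1 1) ⟨5, 29, 3, 6, 2, 1, 1, 1, 3, 1⟩ :=
  out_sound (S := T5.ds_pp) T5.ok_pp (w := 17) (j := 4) (by decide +kernel)
theorem L03139 : Good (Phi V5.P V5.D 1 1) ⟨4, 14, 3, 7, 2, 1, 1, 1, 3, 1⟩ :=
  out_sound (S := T5.ds_pp) T5.ok_pp (w := 51) (j := 3) (by decide +kernel)
theorem L03140 : Good (Phi V5.P V5.D 1 1) ⟨4, 15, 2, 3, 2, 1, 1, 1, 3, 1⟩ :=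
  out_sound (S := T5.ds_pp) T5.ok_pp (w := 15) (j := 4) (by decide +kernel)
theorem L03141 : Good (Phi V5.P V5.D 1 1) ⟨2, 2, 1, 1, 1, 0, 1, 1, 2, 1⟩ :=
  out_sound (S := T5.ds_pp) T5.ok_pp (w := 35) (j := 3) (by decide +kernel)
theorem L03142 : Good (Phi V5.P V5.D 1 1) ⟨4, 12, 2, 2, 1, 0, 2, 2, 3, 2⟩ :=
  out_sound (S := T5.ds_pp) T5.ok_pp (w := 49) (j := 3) (by decide +kernel)
theorem L03143 : Good (Phi V5.P V5.D 1 1) ⟨4, 13, 3, 4, 2, 0, 2, 2, 3, 2⟩ :=
  leafX_sound T5.ok_pp T5.Ypp.bz_eq (w := 207) (c := ⟨⟨.negSucc 2451, .negSucc 234, .ofNat 2, .negSucc 163, .negSucc 23, .ofNat 371⟩, ⟨.negSucc 1303, .negSucc 243, .negSucc 149, .negSucc 100, .negSucc 14, .ofNat 217⟩, ⟨.ofNat 2570, .ofNat 148, .ofNat 36, .negSucc 63, .negSucc 176, .negSucc 439⟩, ⟨.negSucc 3776, .negSucc 89, .ofNat 15, .negSucc 145, .negSucc 15, .ofNat 542⟩, ⟨.negSucc 5, .ofNat 12, .ofNat 5, .negSucc 157, .negSucc 30, .negSucc 0⟩, .ofNat 1096,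 .negSucc 1387, .ofNat 0, .negSucc 1387, .ofNat 2570, .ofNat 0, .ofNat 128, .ofNat 498, .negSucc 187, .ofNat 0, .ofNat 354, .negSucc 104, .ofNat 0, .ofNat 0, .ofNat 1020, .ofNat 6245, .ofNat 218402911613715193804761594579194788970496, .ofNat 0, .ofNat 8643532265285008818187135508021248, .ofNat 0, .ofNat 0, .ofNat 0, .ofNat 1625492806655697453188130765809909760, .ofNat 0, .ofNat 0, .ofNat 0, .ofNat 2498770425990244076558670481693081600, .ofNat 0, .ofNat 0, .ofNat 0, .ofNat 499436674734099905410129101678706688, .ofNat 0⟩)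
    (by decide +kernel)
theorem L03144 : Good (Phi V5.P V5.D 1 1) ⟨4, 13, 3, 4, 2, 1, 2, 2, 3, 2⟩ :=
  leafX_sound T5.ok_pp T5.Ypp.bz_eq (w := 205) (c := ⟨⟨.negSucc 2524, .negSucc 360, .ofNat 82, .negSucc 330, .negSucc 321, .ofNat 386⟩, ⟨.negSucc 1319, .negSucc 363, .negSucc 96, .negSucc 201, .negSucc 194, .ofNat 225⟩, ⟨.ofNat 2489, .ofNat 150, .negSucc 18, .negSucc 51, .ofNat 265, .negSucc 523⟩, ⟨.negSucc 3898, .negSucc 172, .ofNat 84, .negSucc 336, .negSucc 356, .ofNat 636⟩, ⟨.negSucc 48, .negSucc 56, .ofNat 92, .negSucc 249, .negSucc 195, .negSucc 126⟩, .ofNat 748, .negSucc 828, .ofNat 0, .negSucc 828, .ofNat 1631, .ofNat 0, .ofNat 128, .ofNat 343, .negSucc 81, .ofNat 0, .ofNat 257, .negSucc 41, .ofNat 0, .ofNat 0, .ofNat 479, .ofNat 1828, .ofNat 0, .ofNat 0, .ofNat 26896070432575889128183425858011136, .ofNat 0, .ofNat 0, .ofNat 0, .ofNat 0, .ofNat 0, .ofNat 0, .ofNat 0, .ofNat 2095077499540528594683378119229833216,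 .ofNat 0, .ofNat 0, .ofNat 0, .ofNat 84321911268536416651951302871351296, .ofNat 0⟩)
    (by decide +kernel)
theorem L03145 : Good (Phi V5.P V5.D 1 1) ⟨4, 13, 3, 5, 1, 0, 2, 2, 3, 2⟩ :=
  out_sound (S := T5.ds_pp) T5.ok_pp (w := 51) (j := 3) (by decide +kernel)
theorem L03146 : Good (Phi V5.P V5.D 1 1) ⟨5, 28, 3, 4, 2, 0, 2, 2, 3, 2⟩ :=
  leafX_sound T5.ok_pp T5.Ypp.bz_eq (w := 211) (c := ⟨⟨.negSucc 2662, .negSucc 223, .ofNat 0, .negSucc 172, .negSucc 16, .ofNat 377⟩, ⟨.negSucc 1544, .negSucc 201, .negSucc 146, .negSucc 111, .negSucc 10, .ofNat 238⟩, ⟨.ofNat 2833, .ofNat 250, .negSucc 97, .negSucc 77, .negSucc 180, .negSucc 462⟩, ⟨.negSucc 3824, .negSucc 128, .negSucc 17, .negSucc 141, .ofNat 5, .ofNat 551⟩, ⟨.ofNat 21, .negSucc 64, .ofNat 19, .negSucc 164, .negSucc 44, .negSucc 23⟩, .ofNat 1637, .negSucc 2078, .ofNat 0, .negSucc 2078, .ofNat 3381, .ofNat 0, .ofNat 128, .ofNat 556, .negSucc 205, .ofNat 0,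 .ofNat 433, .negSucc 124, .ofNat 0, .ofNat 0, .ofNat 1118, .ofNat 6846, .ofNat 3501812557282272829202484977267858422628352, .ofNat 0, .ofNat 5577554221174381390837919061639168, .ofNat 0, .ofNat 0, .ofNat 0, .ofNat 766963113454656469455590799880224768, .ofNat 0, .ofNat 0, .ofNat 0, .ofNat 2143795224768181476001547792848781312, .ofNat 0, .ofNat 0, .ofNat 0, .ofNat 382096182044206612602339279220244480, .ofNat 0⟩)
    (by decide +kernel)
theorem L03147 : Good (Phi V5.P V5.D 1 1) ⟨5, 28, 3, 4, 2, 1, 2, 2, 3, 2⟩ :=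
  leafX_sound T5.ok_pp T5.Ypp.bz_eq (w := 209) (c := ⟨⟨.negSucc 2814, .negSucc 87, .negSucc 12, .negSucc 354, .negSucc 347, .ofNat 396⟩, ⟨.negSucc 1643, .negSucc 135, .negSucc 149, .negSucc 228, .negSucc 222, .ofNat 248⟩, ⟨.ofNat 2698, .ofNat 57, .negSucc 34, .negSucc 73, .ofNat 281, .negSucc 570⟩, ⟨.negSucc 4042, .negSucc 1, .ofNat 29, .negSucc 332, .negSucc 373, .ofNat 648⟩, ⟨.ofNat 4, .ofNat 66, .negSucc 60, .negSucc 280, .negSucc 196, .negSucc 130⟩, .ofNat 682, .negSucc 675, .ofNat 0, .negSucc 675, .ofNat 1249, .ofNat 0, .ofNat 128, .ofNat 372, .negSucc 88, .ofNat 0, .ofNat 315, .negSucc 46, .ofNat 0, .ofNat 0, .ofNat 486, .ofNat 2028, .ofNat 0, .ofNat 0, .ofNat 1128519433555182742380062087053312, .ofNat 0, .ofNat 0, .ofNat 0, .ofNat 127338733615293144984477394752503808, .ofNat 0, .ofNat 0, .ofNat 0, .ofNat 639230847619271389106294223991209984, .ofNat 0, .ofNat 0, .ofNat 0, .ofNat 33005056960277606325544863546736640,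 .ofNat 0⟩)
    (by decide +kernel)
theorem L03148 : Good (Phi V5.P V5.D 1 1) ⟨5, 28, 4, 10, 2, 0, 3, 4, 3, 2⟩ :=
  leafX_sound T5.ok_pp T5.Ypp.bz_eq (w := 220) (c := ⟨⟨.negSucc 2688, .negSucc 135, .ofNat 18, .negSucc 169, .ofNat 18, .ofNat 394⟩, ⟨.negSucc 1714, .negSucc 131, .negSucc 70, .negSucc 111, .ofNat 12, .ofNat 257⟩, ⟨.ofNat 2830, .negSucc 101, .ofNat 108, .negSucc 102, .negSucc 93, .negSucc 481⟩, ⟨.negSucc 3863, .negSucc 27, .ofNat 0, .negSucc 132, .ofNat 31, .ofNat 561⟩, ⟨.ofNat 12, .negSucc 6, .ofNat 23, .negSucc 161, .negSucc 6, .negSucc 8⟩, .ofNat 2570, .negSucc 3503, .ofNat 0, .negSucc 3503, .ofNat 5521, .ofNat 0, .ofNat 128, .ofNat 1248, .negSucc 263, .ofNat 0, .ofNat 873, .negSucc 169, .ofNat 0, .ofNat 0, .ofNat 1524, .ofNat 18073, .ofNat 688035668120630207680268578608758211670441984, .ofNat 0, .ofNat 0, .ofNat 612291533679819438767987746923535538348621824, .ofNat 0, .ofNat 0, .ofNat 284533673841171949437563600434945327104,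 .ofNat 0, .ofNat 0, .ofNat 0, .ofNat 0, .ofNat 0, .ofNat 0, .ofNat 0, .ofNat 294279256667809117994795350260373782528, .ofNat 0⟩)
    (by decide +kernel)
theorem L03149 : Good (Phi V5.P V5.D 1 1) ⟨5, 28, 4, 10, 2, 1, 3, 4, 3, 2⟩ :=
  leafX_sound T5.ok_pp T5.Ypp.bz_eq (w := 218) (c := ⟨⟨.negSucc 2898, .ofNat 98, .negSucc 108, .negSucc 377, .negSucc 126, .ofNat 438⟩, ⟨.negSucc 1846, .ofNat 3, .negSucc 150, .negSucc 247, .negSucc 84, .ofNat 285⟩, ⟨.ofNat 2708, .negSucc 140, .ofNat 109, .negSucc 57, .ofNat 131, .negSucc 580⟩, ⟨.negSucc 4085, .ofNat 121, .negSucc 55, .negSucc 357, .negSucc 126, .ofNat 706⟩, ⟨.negSucc 68, .ofNat 79, .negSucc 33, .negSucc 273, .negSucc 77, .negSucc 134⟩, .ofNat 1474, .negSucc 1875, .ofNat 0, .negSucc 1875, .ofNat 3089, .ofNat 0, .ofNat 128, .ofNat 786, .negSucc 226, .ofNat 0, .ofNat 564, .negSucc 137, .ofNat 0, .ofNat 0, .ofNat 1349, .ofNat 8173, .ofNat 0, .ofNat 0, .ofNat 475945230578964676902725423802089472,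 .ofNat 0, .ofNat 0, .ofNat 0, .ofNat 80120260852703929707842810785141096448, .ofNat 0, .ofNat 0, .ofNat 0, .ofNat 135862987057922010587783335712869318656, .ofNat 234480527303126417865570251768375626388975124480, .ofNat 0, .ofNat 0, .ofNat 116934474264824765483035019019911430144, .ofNat 0⟩)
    (by decide +kernel)
theorem L03150 : Good (Phi V5.P V5.D 1 1) ⟨5, 28, 4, 10, 1, 0, 3, 5, 3, 2⟩ :=
  leafX_sound T5.ok_pp T5.Ypp.bz_eq (w := 203) (c := ⟨⟨.negSucc 2589, .ofNat 24, .negSucc 129, .negSucc 847, .negSucc 197, .ofNat 423⟩, ⟨.negSucc 1669, .ofNat 96, .negSucc 249, .negSucc 561, .negSucc 130, .ofNat 279⟩, ⟨.ofNat 2536, .ofNat 574, .negSucc 216, .ofNat 195, .ofNat 117, .negSucc 611⟩, ⟨.negSucc 3724, .negSucc 54, .negSucc 46, .negSucc 829, .negSucc 222, .ofNat 635⟩, ⟨.ofNat 73, .ofNat 45, .negSucc 0, .negSucc 557, .negSucc 85, .negSucc 60⟩, .ofNat 1476, .negSucc 1876, .ofNat 0, .negSucc 1876, .ofNat 3091, .ofNat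 0, .ofNat 128, .ofNat 655, .negSucc 226, .ofNat 0, .ofNat 472, .negSucc 140, .ofNat 0, .ofNat 0, .ofNat 1188, .ofNat 2787, .ofNat 0, .ofNat 0, .ofNat 44035800791497052507896360730624, .ofNat 0, .ofNat 0, .ofNat 0, .ofNat 5324836242014435287571449019105280, .ofNat 0, .ofNat 0, .ofNat 0, .ofNat 8448831236279477747260632156078080, .ofNat 4994942436023063855961888683924223172804608, .ofNat 0, .ofNat 0, .ofNat 3623521969190340283910326841245696, .ofNat 0⟩)
    (by decide +kernel)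
theorem L03151 : Good (Phi V5.P V5.D 1 1) ⟨6, 56, 4, 11, 1, 0, 2, 2, 3, 2⟩ :=
  out_sound (S := T5.ds_pp) T5.ok_pp (w := 65) (j := 3) (by decide +kernel)
theorem L03152 : Good (Phi V5.P V5.D 1 1) ⟨7, 114, 5, 22, 1, 0, 2, 2, 3, 2⟩ :=
  out_sound (S := T5.ds_pp) T5.ok_pp (w := 73) (j := 3) (by decide +kernel)
theorem L03153 : Good (Phi V5.P V5.D 1 1) ⟨7, 115, 5, 22, 1, 0, 2, 2, 3, 2⟩ :=
  out_sound (S := T5.ds_pp) T5.ok_pp (w := 21) (j := 4) (by decide +kernel)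
theorem L03154 : Good (Phi V5.P V5.D 1 1) ⟨6, 57, 5, 23, 1, 0, 2, 2, 3, 2⟩ :=
  out_sound (S := T5.ds_pp) T5.ok_pp (w := 67) (j := 3) (by decide +kernel)
theorem L03155 : Good (Phi V5.P V5.D 1 1) ⟨5, 29, 2, 2, 1, 0, 2, 2, 3, 2⟩ :=
  out_sound (S := T5.ds_pp) T5.ok_pp (w := 17) (j := 4) (by decide +kernel)
theorem L03156 : Good (Phi V5.P V5.D 1 1) ⟨4, 15, 2, 2, 1, 0, 2, 2, 3, 2⟩ :=
  out_sound (S := T5.ds_pp) T5.ok_pp (w := 49) (j := 3) (by decide +kernel)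
theorem L03157 : Good (Phi V5.P V5.D 1 1) ⟨3, 6, 2, 2, 2, 0, 2, 2, 3, 3⟩ :=
  leafX_sound T5.ok_pp T5.Ypp.bz_eq (w := 199) (c := ⟨⟨.negSucc 1789, .negSucc 430, .ofNat 15, .negSucc 281, .negSucc 87, .ofNat 287⟩, ⟨.negSucc 804, .negSucc 479, .negSucc 250, .negSucc 171, .negSucc 52, .ofNat 173⟩, ⟨.ofNat 1878, .ofNat 394, .negSucc 47, .ofNat 15, .negSucc 195, .negSucc 424⟩, ⟨.negSucc 3083, .negSucc 111, .ofNat 39, .negSucc 288, .negSucc 101, .ofNat 403⟩, ⟨.ofNat 43, .negSucc 15, .negSucc 11, .negSucc 211, .negSucc 44, .ofNat 18⟩, .ofNat 421, .negSucc 368, .ofNat 0, .negSucc 368, .ofNat 906, .ofNat 0, .ofNat 128, .ofNat 209, .negSucc 42, .ofNat 0, .ofNat 174, .negSucc 19, .ofNat 0, .ofNat 0, .ofNat 372, .ofNat 4807, .ofNat 5069994596958924705108055695405009076224, .ofNat 0, .ofNat 26228725319439110622856018344804352, .ofNat 0, .ofNat 0, .ofNat 0, .ofNat 0, .ofNat 0, .ofNat 0, .ofNat 0, .ofNat 0, .ofNat 0, .ofNat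 9119492686152537825403292701012223066112, .ofNat 0, .ofNat 277722029282961520724175909560516608, .ofNat 0⟩)
    (by decide +kernel)
theorem L03158 : Good (Phi V5.P V5.D 1 1) ⟨3, 7, 2, 2, 2, 0, 2, 2, 3, 3⟩ :=
  leafX_sound T5.ok_pp T5.Ypp.bz_eq (w := 199) (c := ⟨⟨.negSucc 2181, .negSucc 281, .negSucc 80, .negSucc 288, .negSucc 99, .ofNat 302⟩, ⟨.negSucc 1270, .negSucc 491, .negSucc 270, .negSucc 189, .negSucc 64, .ofNat 196⟩, ⟨.ofNat 2229, .ofNat 68, .ofNat 133, .negSucc 50, .negSucc 175, .negSucc 470⟩, ⟨.negSucc 3183, .negSucc 31, .negSucc 32, .negSucc 266, .negSucc 111, .ofNat 416⟩, ⟨.ofNat 40, .ofNat 44, .negSucc 18, .negSucc 219, .negSucc 48, .ofNat 15⟩, .ofNat 359, .negSucc 236, .ofNat 0, .negSucc 236, .ofNat 488, .ofNat 0, .ofNat 128, .ofNat 151, .negSucc 48, .ofNat 0, .ofNat 183, .negSucc 28, .ofNat 0, .ofNat 0, .ofNat 369, .ofNat 4118, .ofNat 4620538147593404342970473049012666630144, .ofNat 0, .ofNat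 4252421306755388606897655457513472, .ofNat 38611371316821602555962164508885512093696, .ofNat 0, .ofNat 0, .ofNat 143814455716584936038321776867934208, .ofNat 0, .ofNat 0, .ofNat 0, .ofNat 585690041970661176344915927468343296, .ofNat 0, .ofNat 8401771201224532578605982054601348612096, .ofNat 0, .ofNat 393154775295403718618336922626424832, .ofNat 88683164253018691246735659141567157895168⟩)
    (by decide +kernel)
theorem L03159 : Good (Phi V5.P V5.D 1 1) ⟨2, 3, 2, 2, 2, 1, 2, 2, 3, 3⟩ :=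
  leafX_sound T5.ok_pp T5.Ypp.bz_eq (w := 194) (c := ⟨⟨.negSucc 1781, .negSucc 1370, .ofNat 92, .negSucc 308, .negSucc 339, .ofNat 314⟩, ⟨.negSucc 736, .negSucc 1397, .negSucc 222, .negSucc 194, .negSucc 210, .ofNat 192⟩, ⟨.ofNat 2111, .ofNat 5, .ofNat 28, .negSucc 133, .ofNat 153, .negSucc 690⟩, ⟨.negSucc 3132, .negSucc 614, .ofNat 155, .negSucc 253, .negSucc 391, .ofNat 454⟩, ⟨.negSucc 98, .negSucc 114, .ofNat 10, .negSucc 321, .negSucc 163, .ofNat 14⟩, .ofNat 389, .negSucc 296, .ofNat 0, .negSucc 296, .ofNat 667, .ofNat 0, .ofNat 128, .ofNat 193, .negSucc 60, .ofNat 0, .ofNat 191, .negSucc 33, .ofNat 0, .ofNat 0, .ofNat 591, .ofNat 2101, .ofNat 15769088925560138027820454480862773248, .ofNat 0, .ofNat 46544661520302913073777596698722304, .ofNat 292909233235110070248624167327321030656, .ofNat 0, .ofNat 7727307392565657909391094971543584768, .ofNat 1209476254062790049295152058575355904, .ofNat 34423090792244407847989644810538258006016,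 .ofNat 0, .ofNat 0, .ofNat 2442516510153916389851932505711575040, .ofNat 70030916937866049545101265457631188746240, .ofNat 1025173608246914064629547560107644026880, .ofNat 16564665191112194158070842892243435520, .ofNat 1137980953605408052261810963063242752, .ofNat 0⟩)
    (by decide +kernel)
theorem L03160 : Good (Phi V5.P V5.D 1 1) ⟨4, 12, 2, 2, 1, 0, 2, 3, 3, 2⟩ :=
  out_sound (S := T5.ds_pp) T5.ok_pp (w := 49) (j := 3) (by decide +kernel)
theorem L03161 : Good (Phi V5.P V5.D 1 1) ⟨4, 13, 2, 2, 1, 0, 3, 6, 3, 2⟩ :=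
  leafX_sound T5.ok_pp T5.Ypp.bz_eq (w := 192) (c := ⟨⟨.negSucc 2132, .negSucc 361, .ofNat 96, .negSucc 1328, .negSucc 380, .ofNat 426⟩, ⟨.negSucc 1098, .negSucc 329, .negSucc 285, .negSucc 799, .negSucc 232, .ofNat 246⟩, ⟨.ofNat 2217, .ofNat 254, .negSucc 35, .ofNat 710, .ofNat 190, .negSucc 718⟩, ⟨.negSucc 3369, .negSucc 357, .ofNat 287, .negSucc 1467, .negSucc 435, .ofNat 692⟩, ⟨.ofNat 73, .ofNat 167, .negSucc 46, .negSucc 824, .negSucc 199, .negSucc 124⟩, .ofNat 741, .negSucc 817, .ofNat 0, .negSucc 817, .ofNat 1615, .ofNat 0, .ofNat 128, .ofNat 311, .negSucc 143, .ofNat 0, .ofNat 238, .negSucc 77, .ofNat 0, .ofNat 0, .ofNat 636, .ofNat 968, .ofNat 0, .ofNat 0, .ofNat 0, .ofNat 0, .ofNat 0, .ofNat 0, .ofNat 90782865304280645144170031218688, .ofNat 0, .ofNat 0, .ofNat 0, .ofNat 104809753571600850762508271616000, .ofNat 0, .ofNat 0, .ofNat 0, .ofNat 0, .ofNat 0⟩)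
    (by decide +kernel)
theorem L03162 : Good (Phi V5.P V5.D 1 1) ⟨4, 13, 2, 2, 1, 0, 4, 14, 3, 2⟩ :=
  leafX_sound T5.ok_pp T5.Ypp.bz_eq (w := 196) (c := ⟨⟨.negSucc 2124, .negSucc 71, .negSucc 303, .negSucc 2174, .negSucc 402, .ofNat 409⟩, ⟨.negSucc 1056, .negSucc 217, .negSucc 536, .negSucc 1310, .negSucc 223, .ofNat 245⟩, ⟨.ofNat 1839, .ofNat 404, .negSucc 370, .ofNat 1400, .ofNat 339, .negSucc 679⟩, ⟨.negSucc 3439, .ofNat 228, .negSucc 218, .negSucc 2533, .negSucc 593, .ofNat 604⟩, ⟨.ofNat 151, .negSucc 24, .negSucc 127, .negSucc 1106, .negSucc 13, .negSucc 20⟩, .ofNat 753, .negSucc 833, .ofNat 0, .negSucc 833, .ofNat 1630, .ofNat 0, .ofNat 128, .ofNat 261, .negSucc 213, .ofNat 0, .ofNat 199, .negSucc 116, .ofNat 0, .ofNat 0, .ofNat 712, .ofNat 591, .ofNat 0, .ofNat 3190579421326573937072887028338655232, .ofNat 2657914871862634992485829443584, .ofNat 0, .ofNat 0, .ofNat 0, .ofNat 0, .ofNat 0, .ofNat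 0, .ofNat 19054788837867701901393637933659979776, .ofNat 1647824326463841453212344724226048, .ofNat 0, .ofNat 0, .ofNat 0, .ofNat 2225348989365927223441163150163968, .ofNat 0⟩)
    (by decide +kernel)
theorem L03163 : Good (Phi V5.P V5.D 1 1) ⟨4, 13, 2, 2, 1, 0, 4, 15, 3, 2⟩ :=
  leafX_sound T5.ok_pp T5.Ypp.bz_eq (w := 196) (c := ⟨⟨.negSucc 1895, .negSucc 368, .negSucc 292, .negSucc 3013, .negSucc 391, .ofNat 313⟩, ⟨.negSucc 948, .negSucc 340, .negSucc 632, .negSucc 1811, .negSucc 217, .ofNat 206⟩, ⟨.ofNat 1549, .ofNat 494, .negSucc 48, .ofNat 2319, .ofNat 293, .negSucc 510⟩, ⟨.negSucc 3045, .negSucc 186, .negSucc 343, .negSucc 3773, .negSucc 529, .ofNat 419⟩, ⟨.ofNat 40, .negSucc 58, .ofNat 180, .negSucc 1055, .negSucc 89, .ofNat 15⟩, .ofNat 746, .negSucc 826, .ofNat 0, .negSucc 826, .ofNat 1632, .ofNat 0, .ofNat 128, .ofNat 401, .negSucc 388, .ofNat 0, .ofNat 307, .negSucc 212, .ofNat 0, .ofNat 0, .ofNat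 1010, .ofNat 646, .ofNat 0, .ofNat 9397256450284230205251673111411032064, .ofNat 243634517118191460016604158361600, .ofNat 0, .ofNat 0, .ofNat 80329734784363434220780031144468938752, .ofNat 1929479108693197985407378808373248, .ofNat 0, .ofNat 0, .ofNat 220635811726320164341118854481693376512, .ofNat 2565822141595527050263899693645824, .ofNat 0, .ofNat 0, .ofNat 285346819998033647825073864241821253632, .ofNat 846849163363944059919576885886976, .ofNat 0⟩)
    (by decide +kernel)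
theorem L03164 : Good (Phi V5.P V5.D 1 1) ⟨4, 12, 2, 2, 1, 0, 2, 3, 3, 3⟩ :=
  out_sound (S := T5.ds_pp) T5.ok_pp (w := 49) (j := 3) (by decide +kernel)

end Crest.Agent.R097C5.N5pp
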