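import Crest.Agent.R097.KP7
import Crest.Agent.R097.T5Ypp

/-!
# Row 97, box cover in dimension n = 5 (generated)
-/

set_option autoImplicit false
set_option Elab.async false
set_option maxHeartbeats 0
set_option maxRecDepth 100000

open Crest.Agent.R097 Crest.Agent.R097.KA


namespace Crest.Agent.R097C5.N5pp

theorem L03165 : Good (Phi V5.P V5.D 1 1) ⟨4, 13, 3, 4, 1, 0, 3, 6, 4, 6⟩ :=
  leafX_sound T5.ok_pp T5.Ypp.bz_eq (w := 201) (c := ⟨⟨.negSucc 1778, .negSucc 292, .negSucc 57, .negSucc 1190, .negSucc 328, .ofNat 65⟩, ⟨.negSucc 861, .negSucc 348, .negSucc 148, .negSucc 730, .negSucc 202, .ofNat 34⟩, ⟨.ofNat 1694, .ofNat 170, .ofNat 46, .ofNat 406, .ofNat 140, .negSucc 177⟩, ⟨.negSucc 2935, .negSucc 57, .negSucc 124, .negSucc 1202, .negSucc 424, .ofNat 123⟩, ⟨.ofNat 104, .negSucc 8, .ofNat 32, .negSucc 881, .negSucc 67, .negSucc 45⟩, .ofNat 1591, .negSucc 2180, .ofNat 0, .negSucc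 2180, .ofNat 3857, .ofNat 0, .ofNat 128, .ofNat 475, .negSucc 158, .ofNat 0, .ofNat 324, .negSucc 93, .ofNat 0, .ofNat 0, .ofNat 942, .ofNat 2020, .ofNat 0, .ofNat 0, .ofNat 0, .ofNat 0, .ofNat 0, .ofNat 0, .ofNat 198391093992159761324677649993302016, .ofNat 0, .ofNat 0, .ofNat 0, .ofNat 0, .ofNat 0, .ofNat 0, .ofNat 2988409556656483640260620098131860652032, .ofNat 45974309609740266074692620942049280, .ofNat 0⟩)
    (by decide +kernel)
theorem L03166 : Good (Phi V5.P V5.D 1 1) ⟨4, 13, 3, 4, 1, 0, 3, 6, 4, 7⟩ :=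
  leafX_sound T5.ok_pp T5.Ypp.bz_eq (w := 200) (c := ⟨⟨.negSucc 1606, .negSucc 514, .ofNat 160, .negSucc 1177, .negSucc 306, .ofNat 199⟩, ⟨.negSucc 801, .negSucc 428, .negSucc 28, .negSucc 712, .negSucc 182, .ofNat 120⟩, ⟨.ofNat 1312, .ofNat 523, .negSucc 217, .ofNat 363, .ofNat 190, .negSucc 333⟩, ⟨.negSucc 2621, .negSucc 404, .ofNat 197, .negSucc 1288, .negSucc 416, .ofNat 266⟩, ⟨.ofNat 139, .negSucc 163, .ofNat 90, .negSucc 737, .negSucc 49, .ofNat 37⟩, .ofNat 749, .negSucc 828, .ofNat 0, .negSucc 828, .ofNat 1626, .ofNat 0, .ofNat 128, .ofNat 260, .negSucc 80, .ofNat 0, .ofNat 200, .negSucc 47, .ofNat 0, .ofNat 0, .ofNat 548, .ofNat 1253, .ofNat 3762044922011567945233891111988243726336, .ofNat 0, .ofNat 669943881720852404719552294813696, .ofNat 0, .ofNat 0, .ofNat 0, .ofNat 0, .ofNat 0, .ofNat 0, .ofNat 0, .ofNat 0, .ofNat 0, .ofNat 45920086100414773205531472696563743064064,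 .ofNat 1135739309912047032092771510317062553600, .ofNat 20645242762805905075697872629923840, .ofNat 0⟩)
    (by decide +kernel)
theorem L03167 : Good (Phi V5.P V5.D 1 1) ⟨4, 13, 3, 4, 2, 0, 3, 7, 3, 3⟩ :=
  leafX_sound T5.ok_pp T5.Ypp.bz_eq (w := 209) (c := ⟨⟨.negSucc 1719, .negSucc 311, .negSucc 47, .negSucc 1033, .negSucc 605, .ofNat 70⟩, ⟨.negSucc 851, .negSucc 313, .negSucc 184, .negSucc 623, .negSucc 360, .ofNat 42⟩, ⟨.ofNat 1292, .ofNat 362, .negSucc 7, .ofNat 695, .ofNat 408, .negSucc 171⟩, ⟨.negSucc 2778, .negSucc 170, .negSucc 32, .negSucc 1241, .negSucc 850, .ofNat 97⟩, ⟨.ofNat 84, .ofNat 11, .negSucc 32, .negSucc 456, .negSucc 43, .negSucc 5⟩, .ofNat 754, .negSucc 834, .ofNat 0, .negSucc 834, .ofNat 1632, .ofNat 0, .ofNat 128, .ofNat 256, .negSucc 146, .ofNat 0, .ofNat 197, .negSucc 84, .ofNat 0, .ofNat 0, .ofNat 581, .ofNat 1244, .ofNat 0, .ofNat 0, .ofNat 0, .ofNat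 0, .ofNat 0, .ofNat 676517165984390771341068995757418485907456, .ofNat 4439596058541058399923870610376097792, .ofNat 0, .ofNat 0, .ofNat 1246850626236105960932128897858102454386688, .ofNat 8429986068060773655538702980262920192, .ofNat 0, .ofNat 0, .ofNat 0, .ofNat 0, .ofNat 0⟩)
    (by decide +kernel)
theorem L03168 : Good (Phi V5.P V5.D 1 1) ⟨4, 13, 3, 4, 2, 1, 3, 7, 3, 3⟩ :=
  leafX_sound T5.ok_pp T5.Ypp.bz_eq (w := 210) (c := ⟨⟨.negSucc 2672, .negSucc 373, .negSucc 14, .negSucc 920, .negSucc 866, .ofNat 178⟩, ⟨.negSucc 1390, .negSucc 399, .negSucc 168, .negSucc 550, .negSucc 502, .ofNat 104⟩, ⟨.ofNat 2003, .ofNat 402, .negSucc 123, .ofNat 310, .ofNat 553, .negSucc 427⟩, ⟨.negSucc 3993, .negSucc 154, .ofNat 19, .negSucc 932, .negSucc 1127, .ofNat 247⟩, ⟨.negSucc 322, .negSucc 42, .negSucc 0, .negSucc 727, .negSucc 259, .ofNat 18⟩, .ofNat 743, .negSucc 820, .ofNat 0, .negSucc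 820, .ofNat 1622, .ofNat 0, .ofNat 128, .ofNat 296, .negSucc 152, .ofNat 0, .ofNat 227, .negSucc 90, .ofNat 0, .ofNat 0, .ofNat 768, .ofNat 2093, .ofNat 0, .ofNat 101171563770503863459621075503380575551488, .ofNat 1271436622658487020758194828374704128, .ofNat 0, .ofNat 0, .ofNat 1128298698447519930794910058319228532948992, .ofNat 0, .ofNat 0, .ofNat 0, .ofNat 3631884742597696099531224838501729990344704, .ofNat 16990425193161834721954418393524207616, .ofNat 0, .ofNat 0, .ofNat 3729049960841748059100266290744628005044224, .ofNat 9222936899545538007555007923621986304, .ofNat 0⟩)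
    (by decide +kernel)
theorem L03169 : Good (Phi V5.P V5.D 1 1) ⟨4, 13, 3, 5, 1, 0, 2, 3, 3, 3⟩ :=
  out_sound (S := T5.ds_pp) T5.ok_pp (w := 51) (j := 3) (by decide +kernel)
theorem L03170 : Good (Phi V5.P V5.D 1 1) ⟨5, 28, 3, 4, 1, 0, 3, 6, 3, 2⟩ :=
  leafX_sound T5.ok_pp T5.Ypp.bz_eq (w := 200) (c := ⟨⟨.negSucc 3127, .negSucc 704, .ofNat 909, .negSucc 1393, .negSucc 464, .ofNat 461⟩, ⟨.negSucc 1843, .negSucc 543, .ofNat 439, .negSucc 891, .negSucc 294, .ofNat 290⟩, ⟨.ofNat 2724, .ofNat 408, .negSucc 371, .ofNat 662, .ofNat 275, .negSucc 778⟩, ⟨.negSucc 4146, .negSucc 555, .ofNat 777, .negSucc 1463, .negSucc 539, .ofNat 686⟩, ⟨.negSucc 411, .negSucc 251, .ofNat 675, .negSucc 839, .negSucc 193, .negSucc 50⟩, .ofNat 1144, .negSucc 1347, .ofNat 0, .negSucc 1347, .ofNat 2275, .ofNat 0, .ofNat 128, .ofNat 477, .negSucc 263, .ofNat 0, .ofNat 376, .negSucc 159, .ofNat 0, .ofNat 0,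 .ofNat 1087, .ofNat 1228, .ofNat 0, .ofNat 0, .ofNat 8502716873704891689431413555200, .ofNat 0, .ofNat 0, .ofNat 0, .ofNat 434640476926419698459254936567808, .ofNat 0, .ofNat 0, .ofNat 0, .ofNat 4303005604151244680983402841636864, .ofNat 0, .ofNat 0, .ofNat 0, .ofNat 455091055711048026359380377075712, .ofNat 0⟩)
    (by decide +kernel)
theorem L03171 : Good (Phi V5.P V5.D 1 1) ⟨5, 28, 3, 5, 1, 0, 3, 6, 3, 2⟩ :=
  leafX_sound T5.ok_pp T5.Ypp.bz_eq (w := 198) (c := ⟨⟨.negSucc 2171, .negSucc 764, .ofNat 496, .negSucc 1509, .negSucc 472, .ofNat 482⟩, ⟨.negSucc 1362, .negSucc 554, .ofNat 117, .negSucc 996, .negSucc 314, .ofNat 318⟩, ⟨.ofNat 2250, .ofNat 925, .negSucc 701, .ofNat 691, .ofNat 232, .negSucc 827⟩, ⟨.negSucc 3319, .negSucc 742, .ofNat 547, .negSucc 1572, .negSucc 519, .ofNat 754⟩, ⟨.ofNat 266, .negSucc 153, .ofNat 213, .negSucc 886, .negSucc 219, .negSucc 112⟩, .ofNat 390,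 .negSucc 296, .ofNat 0, .negSucc 296, .ofNat 646, .ofNat 0, .ofNat 128, .ofNat 187, .negSucc 132, .ofNat 0, .ofNat 184, .negSucc 67, .ofNat 0, .ofNat 0, .ofNat 504, .ofNat 611, .ofNat 0, .ofNat 0, .ofNat 6565681383021922756545327661056, .ofNat 1905489936911436375274957609507206725632, .ofNat 0, .ofNat 0, .ofNat 66853734296505555763718239813632, .ofNat 0, .ofNat 0, .ofNat 0, .ofNat 119523975503021386608221024681984, .ofNat 0, .ofNat 0, .ofNat 0, .ofNat 340233107650862848150954519298048, .ofNat 0⟩)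
    (by decide +kernel)
theorem L03172 : Good (Phi V5.P V5.D 1 1) ⟨5, 29, 2, 2, 1, 0, 3, 6, 3, 2⟩ :=
  out_sound (S := T5.ds_pp) T5.ok_pp (w := 17) (j := 4) (by decide +kernel)
theorem L03173 : Good (Phi V5.P V5.D 1 1) ⟨5, 28, 3, 4, 1, 0, 4, 14, 3, 2⟩ :=
  leafX_sound T5.ok_pp T5.Ypp.bz_eq (w := 203) (c := ⟨⟨.negSucc 2715, .negSucc 797, .ofNat 529, .negSucc 2219, .negSucc 448, .ofNat 422⟩, ⟨.negSucc 1564, .negSucc 639, .ofNat 181, .negSucc 1417, .negSucc 283, .ofNat 267⟩, ⟨.ofNat 2629, .ofNat 750, .negSucc 534, .ofNat 1309, .ofNat 380, .negSucc 768⟩, ⟨.negSucc 3851, .negSucc 777, .ofNat 570, .negSucc 2439, .negSucc 603, .ofNat 654⟩, ⟨.negSucc 3, .negSucc 89, .ofNat 219, .negSucc 1177, .negSucc 61, .negSucc 82⟩, .ofNat 682, .negSucc 675, .ofNat 0, .negSucc 675, .ofNat 1249, .ofNat 0, .ofNat 128, .ofNat 288, .negSucc 259, .ofNat 0, .ofNat 248, .negSucc 152, .ofNat 0, .ofNat 0, .ofNat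 812, .ofNat 808, .ofNat 0, .ofNat 536551461010587846162498435343670312960, .ofNat 482324411167615111315317562802176, .ofNat 0, .ofNat 0, .ofNat 3713222552567493162513245801784903991296, .ofNat 3304053917737131385066923671683072, .ofNat 0, .ofNat 0, .ofNat 0, .ofNat 5856686548640997107357750719938560, .ofNat 0, .ofNat 0, .ofNat 7639271413165519760351264276752512319488, .ofNat 12810047468652244273610797256540160, .ofNat 0⟩)
    (by decide +kernel)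
theorem L03174 : Good (Phi V5.P V5.D 1 1) ⟨5, 28, 3, 4, 1, 0, 4, 15, 3, 2⟩ :=
  leafX_sound T5.ok_pp T5.Ypp.bz_eq (w := 204) (c := ⟨⟨.negSucc 2231, .negSucc 327, .negSucc 113, .negSucc 3101, .negSucc 466, .ofNat 351⟩, ⟨.negSucc 1232, .negSucc 326, .negSucc 253, .negSucc 1983, .negSucc 296, .ofNat 224⟩, ⟨.ofNat 2189, .ofNat 400, .negSucc 171, .ofNat 2282, .ofNat 382, .negSucc 575⟩, ⟨.negSucc 3316, .negSucc 208, .negSucc 127, .negSucc 3654, .negSucc 648, .ofNat 531⟩, ⟨.ofNat 151, .negSucc 20, .negSucc 50, .negSucc 1197, .negSucc 14, .negSucc 48⟩, .ofNat 1637, .negSucc 2078, .ofNat 0, .negSucc 2078, .ofNat 3381, .ofNat 0, .ofNat 128, .ofNat 482, .negSucc 560, .ofNat 0, .ofNat 372, .negSucc 351, .ofNat 0, .ofNat 0, .ofNat 1371, .ofNat 886, .ofNat 0, .ofNat 2056852717793950813641016085212991324160, .ofNat 241655562593537354450413390135296, .ofNat 0, .ofNat 0, .ofNat 14532042426879263419595595874430013669376,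 .ofNat 11197373358579054373240035686219776, .ofNat 0, .ofNat 0, .ofNat 51737572657616218995311671429625030901760, .ofNat 11821349073376512852923716055597056, .ofNat 0, .ofNat 0, .ofNat 58440750065306385437431509802110238588928, .ofNat 3648409915384564281249233979310080, .ofNat 0⟩)
    (by decide +kernel)
theorem L03175 : Good (Phi V5.P V5.D 1 1) ⟨5, 28, 4, 10, 2, 0, 3, 7, 3, 2⟩ :=
  leafX_sound T5.ok_pp T5.Ypp.bz_eq (w := 216) (c := ⟨⟨.negSucc 1937, .negSucc 1102, .ofNat 416, .negSucc 1211, .negSucc 766, .ofNat 254⟩, ⟨.negSucc 1209, .negSucc 786, .ofNat 183, .negSucc 801, .negSucc 503, .ofNat 173⟩, ⟨.ofNat 1901, .ofNat 295, .ofNat 25, .ofNat 908, .ofNat 537, .negSucc 493⟩, ⟨.negSucc 2994, .negSucc 689, .ofNat 178, .negSucc 1451, .negSucc 987, .ofNat 383⟩, ⟨.ofNat 160, .negSucc 390, .ofNat 259, .negSucc 414, .negSucc 146, .negSucc 51⟩, .ofNat 921, .negSucc 1044, .ofNat 0, .negSucc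 1044, .ofNat 1801, .ofNat 0, .ofNat 128, .ofNat 504, .negSucc 407, .ofNat 0, .ofNat 391, .negSucc 252, .ofNat 0, .ofNat 0, .ofNat 1101, .ofNat 791, .ofNat 0, .ofNat 0, .ofNat 0, .ofNat 0, .ofNat 0, .ofNat 60560156270823803249026285758552354615984128, .ofNat 13703232564611576215921619455916900352, .ofNat 0, .ofNat 0, .ofNat 188478417629044558417632691838765587572457472, .ofNat 49579269047767879884361855063570776064, .ofNat 4326492652805769412166290551763500000310460416, .ofNat 0, .ofNat 0, .ofNat 13452853663915662010051330954707861504, .ofNat 0⟩)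
    (by decide +kernel)
theorem L03176 : Good (Phi V5.P V5.D 1 1) ⟨5, 28, 4, 10, 2, 1, 4, 14, 3, 2⟩ :=
  leafX_sound T5.ok_pp T5.Ypp.bz_eq (w := 222) (c := ⟨⟨.negSucc 3280, .negSucc 435, .ofNat 27, .negSucc 1265, .negSucc 752, .ofNat 529⟩, ⟨.negSucc 2051, .negSucc 466, .negSucc 39, .negSucc 839, .negSucc 498, .ofNat 347⟩, ⟨.ofNat 3065, .ofNat 75, .ofNat 82, .ofNat 474, .ofNat 489, .negSucc 940⟩, ⟨.negSucc 4619, .negSucc 233, .negSucc 40, .negSucc 1279, .negSucc 935, .ofNat 874⟩, ⟨.negSucc 222, .negSucc 8, .ofNat 34, .negSucc 771, .negSucc 184, .negSucc 195⟩, .ofNat 1474, .negSucc 1873, .ofNat 0, .negSucc 1873, .ofNat 3085, .ofNat 0, .ofNat 128, .ofNat 940, .negSucc 457, .ofNat 0, .ofNat 675, .negSucc 288, .ofNat 0, .ofNat 0, .ofNat 1566, .ofNat 2108, .ofNat 0, .ofNat 43802035793186167577462555390647395822862336, .ofNat 8924336661875961432849768043354521600, .ofNat 19572388709368791745513451960443590040067506176,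 .ofNat 0, .ofNat 369919047526244849781264799995549540887298048, .ofNat 585224845006616843540102407107351937024, .ofNat 71363677060127492174455856771264079769137840128, .ofNat 0, .ofNat 0, .ofNat 0, .ofNat 0, .ofNat 0, .ofNat 2407652065034132310440114789341942435297624064, .ofNat 622491018051667342099829479696588865536, .ofNat 0⟩)
    (by decide +kernel)
theorem L03177 : Good (Phi V5.P V5.D 1 1) ⟨5, 28, 4, 10, 2, 1, 4, 15, 3, 2⟩ :=
  leafX_sound T5.ok_pp T5.Ypp.bz_eq (w := 223) (c := ⟨⟨.negSucc 3810, .ofNat 136, .negSucc 223, .negSucc 2025, .negSucc 1109, .ofNat 302⟩, ⟨.negSucc 2426, .ofNat 18, .negSucc 280, .negSucc 1327, .negSucc 731, .ofNat 200⟩, ⟨.ofNat 3268, .negSucc 164, .ofNat 193, .ofNat 1186, .ofNat 860, .negSucc 670⟩, ⟨.negSucc 5214, .ofNat 91, .negSucc 154, .negSucc 2176, .negSucc 1326, .ofNat 608⟩, ⟨.negSucc 363, .ofNat 94, .ofNat 29, .negSucc 951, .negSucc 281, .negSucc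 235⟩, .ofNat 2471, .negSucc 3373, .ofNat 0, .negSucc 3373, .ofNat 5359, .ofNat 0, .ofNat 128, .ofNat 854, .negSucc 592, .ofNat 0, .ofNat 593, .negSucc 382, .ofNat 0, .ofNat 0, .ofNat 1604, .ofNat 1755, .ofNat 0, .ofNat 131669804942461204477431300992086760105181184, .ofNat 8962518787898620469282843635421806592, .ofNat 9694532121914985700950122698804399319948460032, .ofNat 0, .ofNat 1368801360658397363513478957233452069983092736, .ofNat 741186184377957262623373811221371289600, .ofNat 0, .ofNat 0, .ofNat 4608311163916093458534213927466516858686930944, .ofNat 1851717028971347840232240086608607444992, .ofNat 0, .ofNat 0, .ofNat 7028621010587634306576796053314171042564931584, .ofNat 1299357600995545682706283956178494947328, .ofNat 0⟩)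
    (by decide +kernel)
theorem L03178 : Good (Phi V5.P V5.D 1 1) ⟨6, 56, 4, 11, 1, 0, 3, 7, 3, 2⟩ :=
  out_sound (S := T5.ds_pp) T5.ok_pp (w := 65) (j := 3) (by decide +kernel)
theorem L03179 : Good (Phi V5.P V5.D 1 1) ⟨7, 114, 5, 22, 1, 0, 3, 7, 3, 2⟩ :=
  out_sound (S := T5.ds_pp) T5.ok_pp (w := 73) (j := 3) (by decide +kernel)
theorem L03180 : Good (Phi V5.P V5.D 1 1) ⟨7, 115, 5, 22, 1, 0, 3, 7, 3, 2⟩ :=
  out_sound (S := T5.ds_pp) T5.ok_pp (w := 21) (j := 4) (by decide +kernel)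
theorem L03181 : Good (Phi V5.P V5.D 1 1) ⟨6, 57, 5, 23, 1, 0, 3, 7, 3, 2⟩ :=
  out_sound (S := T5.ds_pp) T5.ok_pp (w := 67) (j := 3) (by decide +kernel)
theorem L03182 : Good (Phi V5.P V5.D 1 1) ⟨5, 29, 2, 2, 1, 0, 3, 7, 3, 2⟩ :=
  out_sound (S := T5.ds_pp) T5.ok_pp (w := 17) (j := 4) (by decide +kernel)
theorem L03183 : Good (Phi V5.P V5.D 1 1) ⟨5, 28, 2, 2, 2, 0, 3, 6, 3, 3⟩ :=
  leafX_sound T5.ok_pp T5.Ypp.bz_eq (w := 211) (c := ⟨⟨.negSucc 2399, .negSucc 413, .ofNat 676, .negSucc 589, .negSucc 201, .ofNat 147⟩, ⟨.negSucc 1384, .negSucc 326, .ofNat 156, .negSucc 383, .negSucc 128, .ofNat 96⟩, ⟨.ofNat 2075, .ofNat 238, .negSucc 390, .ofNat 239, .ofNat 20, .negSucc 315⟩, ⟨.negSucc 3333, .negSucc 294, .ofNat 649, .negSucc 649, .negSucc 265, .ofNat 212⟩, ⟨.negSucc 102, .negSucc 152, .ofNat 317, .negSucc 292, .negSucc 32, .negSucc 7⟩, .ofNat 381, .negSucc 280, .ofNat 0, .negSucc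 280, .ofNat 617, .ofNat 0, .ofNat 128, .ofNat 189, .negSucc 66, .ofNat 0, .ofNat 199, .negSucc 37, .ofNat 0, .ofNat 0, .ofNat 348, .ofNat 2052, .ofNat 4300927286735605556994862911766805771976704, .ofNat 0, .ofNat 66218713765627063189943239795802112, .ofNat 0, .ofNat 0, .ofNat 0, .ofNat 1369740193289849213398875905221197824, .ofNat 0, .ofNat 0, .ofNat 0, .ofNat 2119425182864294719539012729015631872, .ofNat 0, .ofNat 6595040955665584785982083089048701822304256, .ofNat 0, .ofNat 620206582292342939796711034742374400, .ofNat 0⟩)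
    (by decide +kernel)
theorem L03184 : Good (Phi V5.P V5.D 1 1) ⟨5, 28, 2, 2, 2, 1, 3, 6, 3, 3⟩ :=
  leafX_sound T5.ok_pp T5.Ypp.bz_eq (w := 211) (c := ⟨⟨.negSucc 2504, .negSucc 10, .negSucc 342, .negSucc 622, .negSucc 518, .ofNat 274⟩, ⟨.negSucc 1426, .negSucc 70, .negSucc 551, .negSucc 405, .negSucc 335, .ofNat 173⟩, ⟨.ofNat 2123, .negSucc 11, .ofNat 169, .negSucc 22, .ofNat 237, .negSucc 648⟩, ⟨.negSucc 3564, .ofNat 38, .negSucc 192, .negSucc 539, .negSucc 611, .ofNat 378⟩, ⟨.negSucc 206, .ofNat 55, .negSucc 89, .negSucc 540, .negSucc 190, .ofNat 20⟩, .ofNat 820, .negSucc 888, .ofNat 0, .negSucc 888, .ofNat 1567, .ofNat 0, .ofNat 128, .ofNat 398, .negSucc 137, .ofNat 0, .ofNat 320, .negSucc 93, .ofNat 0, .ofNat 0, .ofNat 1015, .ofNat 2561, .ofNat 0, .ofNat 0, .ofNat 83015936534701310964650251057627136, .ofNat 0, .ofNat 0, .ofNat 0, .ofNat 1703510202149070333609047687591624704,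 .ofNat 0, .ofNat 0, .ofNat 0, .ofNat 6890380680418351963657199269605015552, .ofNat 0, .ofNat 0, .ofNat 4849543792910099367778527480541062191120384, .ofNat 2898332611056340685972863442428624896, .ofNat 0⟩)
    (by decide +kernel)
theorem L03185 : Good (Phi V5.P V5.D 1 1) ⟨5, 28, 2, 2, 2, 0, 3, 7, 3, 3⟩ :=
  leafX_sound T5.ok_pp T5.Ypp.bz_eq (w := 210) (c := ⟨⟨.negSucc 1972, .negSucc 126, .negSucc 173, .negSucc 1076, .negSucc 628, .ofNat 97⟩, ⟨.negSucc 1164, .negSucc 253, .negSucc 205, .negSucc 708, .negSucc 412, .ofNat 62⟩, ⟨.ofNat 1724, .ofNat 242, .negSucc 200, .ofNat 663, .ofNat 463, .negSucc 201⟩, ⟨.negSucc 2926, .negSucc 35, .negSucc 162, .negSucc 1212, .negSucc 842, .ofNat 128⟩, ⟨.ofNat 99, .ofNat 25, .negSucc 78, .negSucc 483, .negSucc 66, .ofNat 11⟩, .ofNat 887, .negSucc 1001, .ofNat 0, .negSucc 1001, .ofNat 1764, .ofNat 0, .ofNat 128, .ofNat 351, .negSucc 238, .ofNat 0,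 .ofNat 272, .negSucc 148, .ofNat 0, .ofNat 0, .ofNat 859, .ofNat 1375, .ofNat 0, .ofNat 0, .ofNat 0, .ofNat 0, .ofNat 0, .ofNat 1391390401385763052051847889271318200188928, .ofNat 2689371219866917392656338791937605632, .ofNat 0, .ofNat 0, .ofNat 3768559766250684969942748432394118531907584, .ofNat 1070482695184341970641019368405729280, .ofNat 338804004650650440398533965879067552006537216, .ofNat 0, .ofNat 0, .ofNat 0, .ofNat 0⟩)
    (by decide +kernel)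
theorem L03186 : Good (Phi V5.P V5.D 1 1) ⟨5, 28, 2, 2, 2, 1, 3, 7, 3, 3⟩ :=
  leafX_sound T5.ok_pp T5.Ypp.bz_eq (w := 210) (c := ⟨⟨.negSucc 3100, .negSucc 255, .ofNat 151, .negSucc 992, .negSucc 1018, .ofNat 185⟩, ⟨.negSucc 1840, .negSucc 294, .negSucc 139, .negSucc 650, .negSucc 672, .ofNat 121⟩, ⟨.ofNat 2340, .ofNat 108, .negSucc 40, .ofNat 233, .ofNat 679, .negSucc 442⟩, ⟨.negSucc 4185, .negSucc 97, .ofNat 119, .negSucc 930, .negSucc 1241, .ofNat 260⟩, ⟨.negSucc 396, .negSucc 56, .ofNat 91, .negSucc 736, .negSucc 298, .ofNat 4⟩, .ofNat 388, .negSucc 293, .ofNat 0, .negSucc 293, .ofNat 645, .ofNat 0, .ofNat 128, .ofNat 193, .negSucc 102, .ofNat 0, .ofNat 195, .negSucc 65, .ofNat 0, .ofNat 0, .ofNat 456, .ofNat 1011, .ofNat 0, .ofNat 169457940589567934804610645274647305650176, .ofNat 22667675215268341276064495968452608, .ofNat 0, .ofNat 0, .ofNat 871881102247428503872844242959543318872064,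 .ofNat 317268665076970696507242595133423616, .ofNat 0, .ofNat 0, .ofNat 2515530540061480234937833130569475706322944, .ofNat 520367071863529857694088274739462144, .ofNat 0, .ofNat 0, .ofNat 2428970791061281938132289055853298415828992, .ofNat 368703076309647589987928808055898112, .ofNat 13856561397882350816530268190046105144131584⟩)
    (by decide +kernel)
theorem L03187 : Good (Phi V5.P V5.D 1 1) ⟨5, 29, 2, 2, 1, 0, 2, 3, 3, 3⟩ :=
  out_sound (S := T5.ds_pp) T5.ok_pp (w := 17) (j := 4) (by decide +kernel)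
theorem L03188 : Good (Phi V5.P V5.D 1 1) ⟨4, 15, 2, 2, 1, 0, 2, 3, 2, 1⟩ :=
  out_sound (S := T5.ds_pp) T5.ok_pp (w := 49) (j := 3) (by decide +kernel)
theorem L03189 : Good (Phi V5.P V5.D 1 1) ⟨3, 6, 2, 3, 1, 0, 1, 1, 2, 1⟩ :=
  out_sound (S := T5.ds_pp) T5.ok_pp (w := 43) (j := 3) (by decide +kernel)
theorem L03190 : Good (Phi V5.P V5.D 1 1) ⟨5, 28, 3, 6, 1, 0, 1, 1, 2, 1⟩ :=
  out_sound (S := T5.ds_pp) T5.ok_pp (w := 57) (j := 3) (by decide +kernel)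
theorem L03191 : Good (Phi V5.P V5.D 1 1) ⟨5, 29, 3, 6, 1, 0, 1, 1, 2, 1⟩ :=
  out_sound (S := T5.ds_pp) T5.ok_pp (w := 17) (j := 4) (by decide +kernel)
theorem L03192 : Good (Phi V5.P V5.D 1 1) ⟨4, 14, 3, 7, 1, 0, 1, 1, 2, 1⟩ :=
  out_sound (S := T5.ds_pp) T5.ok_pp (w := 51) (j := 3) (by decide +kernel)
theorem L03193 : Good (Phi V5.P V5.D 1 1) ⟨4, 15, 2, 3, 1, 0, 1, 1, 2, 1⟩ :=
  out_sound (S := T5.ds_pp) T5.ok_pp (w := 15) (j := 4) (by decide +kernel)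
theorem L03194 : Good (Phi V5.P V5.D 1 1) ⟨1, 1, 1, 1, 1, 0, 1, 1, 1, 1⟩ :=
  leafX_sound T5.ok_pp T5.Ypp.bz_eq (w := 168) (c := ⟨⟨.negSucc 1437, .negSucc 1341, .negSucc 213, .ofNat 1, .negSucc 0, .ofNat 1⟩, ⟨.negSucc 196, .negSucc 1612, .negSucc 740, .ofNat 1, .negSucc 0, .ofNat 1⟩, ⟨.ofNat 973, .ofNat 1007, .ofNat 310, .negSucc 0, .ofNat 1, .negSucc 0⟩, ⟨.negSucc 3083, .negSucc 618, .negSucc 91, .ofNat 2, .negSucc 1, .ofNat 2⟩, ⟨.negSucc 11, .ofNat 17, .negSucc 2, .ofNat 0, .ofNat 0, .ofNat 0⟩, .ofNat 165, .negSucc 54, .ofNat 0, .negSucc 54, .ofNat 218, .ofNat 0, .ofNat 142, .ofNat 62, .negSucc 149, .ofNat 0, .ofNat 128, .negSucc 49, .ofNat 0, .ofNat 0, .ofNat 310, .ofNat 1503, .ofNat 285601287156745622833122508800000000, .ofNat 10984618080588791899224959338151936, .ofNat 0, .ofNat 296593361811043399886826373120, .ofNat 18278482378031719861319840563200000000, .ofNat 721519447178459470169971027488014336,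 .ofNat 24563362803617129893462016, .ofNat 0, .ofNat 336395409832806105968968994914304, .ofNat 16726412167028247502783621627904, .ofNat 1040316023389719968436191232, .ofNat 1653078646719334359768026316800, .ofNat 576908931298975626693216370163712, .ofNat 28145704320001247658796126306304, .ofNat 288385745065703812414570496, .ofNat 1936587262571245150742333358080⟩)
    (by decide +kernel)
theorem L03195 : Good (Phi V5.P V5.D 1 1) ⟨2, 2, 1, 1, 2, 2, 2, 0, 3, 0⟩ :=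
  out_sound (S := T5.ds_pp) T5.ok_pp (w := 35) (j := 3) (by decide +kernel)
theorem L03196 : Good (Phi V5.P V5.D 1 1) ⟨4, 12, 2, 2, 2, 2, 2, 0, 3, 0⟩ :=
  out_sound (S := T5.ds_pp) T5.ok_pp (w := 49) (j := 3) (by decide +kernel)
theorem L03197 : Good (Phi V5.P V5.D 1 1) ⟨4, 13, 3, 4, 2, 2, 3, 0, 4, 0⟩ :=
  leafX_sound T5.ok_pp T5.Ypp.bz_eq (w := 214) (c := ⟨⟨.ofNat 2439, .ofNat 928, .negSucc 742, .negSucc 188, .ofNat 581, .negSucc 3619⟩, ⟨.ofNat 1389, .ofNat 482, .negSucc 251, .negSucc 94, .ofNat 335, .negSucc 2111⟩, ⟨.negSucc 1211, .negSucc 575, .ofNat 537, .negSucc 813, .negSucc 260, .ofNat 1385⟩, ⟨.ofNat 4064, .ofNat 1112, .negSucc 849, .negSucc 508, .ofNat 767, .negSucc 5373⟩, ⟨.negSucc 718, .ofNat 314, .negSucc 467, .ofNat 349, .ofNat 151, .ofNat 97⟩, .ofNat 747, .negSucc 826, .ofNat 0, .negSucc 826, .ofNat 1630, .ofNat 0, .ofNat 128, .ofNat 513, .negSucc 251, .ofNat 0, .ofNat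 324, .negSucc 129, .ofNat 0, .ofNat 0, .ofNat 604, .ofNat 2991, .ofNat 0, .ofNat 0, .ofNat 964119210745978406203618680471814144, .ofNat 0, .ofNat 0, .ofNat 0, .ofNat 0, .ofNat 0, .ofNat 0, .ofNat 0, .ofNat 595707112062183441156245321665208123392, .ofNat 0, .ofNat 0, .ofNat 0, .ofNat 64103971211129800816807787599132360704, .ofNat 0⟩)
    (by decide +kernel)
theorem L03198 : Good (Phi V5.P V5.D 1 1) ⟨4, 13, 3, 4, 2, 2, 3, 1, 4, 0⟩ :=
  leafX_sound T5.ok_pp T5.Ypp.bz_eq (w := 215) (c := ⟨⟨.ofNat 3796, .ofNat 126, .negSucc 351, .ofNat 51, .ofNat 642, .negSucc 4649⟩, ⟨.ofNat 2112, .ofNat 79, .ofNat 28, .ofNat 76, .ofNat 355, .negSucc 2707⟩, ⟨.negSucc 2378, .ofNat 272, .ofNat 59, .negSucc 749, .negSucc 216, .ofNat 2262⟩, ⟨.ofNat 5862, .negSucc 14, .negSucc 349, .negSucc 73, .ofNat 839, .negSucc 6894⟩, ⟨.negSucc 210, .negSucc 76, .negSucc 304, .ofNat 204, .ofNat 225, .ofNat 184⟩, .ofNat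 1535, .negSucc 2107, .ofNat 0, .negSucc 2107, .ofNat 3780, .ofNat 0, .ofNat 128, .ofNat 657, .negSucc 384, .ofNat 0, .ofNat 406, .negSucc 213, .ofNat 0, .ofNat 0, .ofNat 676, .ofNat 1675, .ofNat 0, .ofNat 0, .ofNat 0, .ofNat 0, .ofNat 0, .ofNat 0, .ofNat 473078470961500864060919191336631926784, .ofNat 0, .ofNat 0, .ofNat 0, .ofNat 707123508817149512774049087226501922816, .ofNat 0, .ofNat 0, .ofNat 0, .ofNat 0, .ofNat 0⟩)
    (by decide +kernel)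
theorem L03199 : Good (Phi V5.P V5.D 1 1) ⟨4, 13, 3, 5, 2, 2, 2, 0, 4, 0⟩ :=
  out_sound (S := T5.ds_pp) T5.ok_pp (w := 51) (j := 3) (by decide +kernel)
theorem L03200 : Good (Phi V5.P V5.D 1 1) ⟨4, 13, 2, 2, 2, 2, 2, 0, 4, 1⟩ :=
  leafX_sound T5.ok_pp T5.Ypp.bz_eq (w := 208) (c := ⟨⟨.negSucc 639, .ofNat 308, .negSucc 616, .negSucc 72, .negSucc 517, .negSucc 1415⟩, ⟨.negSucc 292, .ofNat 86, .negSucc 535, .negSucc 27, .negSucc 297, .negSucc 821⟩, ⟨.negSucc 645, .negSucc 21, .ofNat 491, .negSucc 565, .ofNat 1035, .ofNat 779⟩, ⟨.negSucc 627, .ofNat 510, .negSucc 756, .negSucc 489, .negSucc 896, .negSucc 2101⟩, ⟨.negSucc 734, .ofNat 181, .negSucc 183, .ofNat 639, .ofNat 233, .ofNat 54⟩, .ofNat 1580, .negSucc 2171, .ofNat 0, .negSucc 2171, .ofNat 3864, .ofNat 0, .ofNat 128, .ofNat 805, .negSucc 298, .ofNat 0, .ofNat 506, .negSucc 161, .ofNat 0, .ofNat 0, .ofNat 874, .ofNat 3937, .ofNat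 0, .ofNat 0, .ofNat 0, .ofNat 0, .ofNat 0, .ofNat 0, .ofNat 14579376015299064554456910953789259776, .ofNat 0, .ofNat 0, .ofNat 0, .ofNat 20707403597883448379999837005262356480, .ofNat 0, .ofNat 0, .ofNat 0, .ofNat 6620144201458722106694933399157604352, .ofNat 0⟩)
    (by decide +kernel)
theorem L03201 : Good (Phi V5.P V5.D 1 1) ⟨3, 6, 2, 3, 2, 2, 2, 0, 3, 0⟩ :=
  out_sound (S := T5.ds_pp) T5.ok_pp (w := 43) (j := 3) (by decide +kernel)
theorem L03202 : Good (Phi V5.P V5.D 1 1) ⟨4, 14, 2, 2, 2, 2, 3, 0, 4, 0⟩ :=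
  leafX_sound T5.ok_pp T5.Ypp.bz_eq (w := 211) (c := ⟨⟨.ofNat 2764, .negSucc 139, .ofNat 289, .negSucc 194, .ofNat 896, .negSucc 3849⟩, ⟨.ofNat 1828, .ofNat 415, .negSucc 18, .negSucc 136, .ofNat 581, .negSucc 2496⟩, ⟨.negSucc 1815, .negSucc 532, .ofNat 732, .negSucc 668, .negSucc 439, .ofNat 1605⟩, ⟨.ofNat 4271, .negSucc 323, .ofNat 497, .negSucc 340, .ofNat 1191, .negSucc 5544⟩, ⟨.negSucc 560, .negSucc 164, .ofNat 32, .ofNat 54, .ofNat 138, .ofNat 102⟩, .ofNat 749, .negSucc 758, .ofNat 0, .negSucc 758, .ofNat 1313, .ofNat 0, .ofNat 128, .ofNat 597, .negSucc 277, .ofNat 0, .ofNat 419, .negSucc 162, .ofNat 0, .ofNat 0, .ofNat 626, .ofNat 2070, .ofNat 0, .ofNat 0, .ofNat 1294428528422937940715471546217398272, .ofNat 0, .ofNat 0, .ofNat 0, .ofNat 56504882413195676133845413003456937984, .ofNat 86022905830593699247419764969356728429707264, .ofNat 0, .ofNat 0, .ofNat 0, .ofNat 1345070044176352789509008273366323547680538624,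 .ofNat 0, .ofNat 0, .ofNat 0, .ofNat 0⟩)
    (by decide +kernel)
theorem L03203 : Good (Phi V5.P V5.D 1 1) ⟨4, 14, 2, 2, 2, 2, 3, 1, 4, 0⟩ :=
  leafX_sound T5.ok_pp T5.Ypp.bz_eq (w := 211) (c := ⟨⟨.ofNat 3699, .negSucc 344, .ofNat 915, .negSucc 394, .ofNat 825, .negSucc 5104⟩, ⟨.ofNat 2196, .negSucc 17, .ofNat 897, .negSucc 243, .ofNat 530, .negSucc 3341⟩, ⟨.negSucc 2409, .negSucc 403, .ofNat 366, .negSucc 360, .negSucc 467, .ofNat 2461⟩, ⟨.ofNat 5735, .ofNat 140, .ofNat 752, .negSucc 612, .ofNat 1009, .negSucc 7264⟩, ⟨.negSucc 307, .negSucc 647, .ofNat 52, .ofNat 0, .ofNat 247, .negSucc 48⟩, .ofNat 749, .negSucc 758, .ofNat 0, .negSucc 758, .ofNat 1313, .ofNat 0, .ofNat 128, .ofNat 586, .negSucc 493, .ofNat 0, .ofNat 413, .negSucc 285, .ofNat 0, .ofNat 0, .ofNat 730, .ofNat 950, .ofNat 0, .ofNat 0, .ofNat 614070564419130732179581770349412352, .ofNat 0, .ofNat 0, .ofNat 0, .ofNat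 27085689166260178615131067858569658368, .ofNat 0, .ofNat 0, .ofNat 0, .ofNat 54572144050934421638456098876590915584, .ofNat 1100194782138952576050028377532671553666285568, .ofNat 0, .ofNat 0, .ofNat 0, .ofNat 804916306780942571660339925797653673953722368⟩)
    (by decide +kernel)
theorem L03204 : Good (Phi V5.P V5.D 1 1) ⟨5, 28, 3, 6, 2, 2, 2, 0, 4, 0⟩ :=
  out_sound (S := T5.ds_pp) T5.ok_pp (w := 57) (j := 3) (by decide +kernel)
theorem L03205 : Good (Phi V5.P V5.D 1 1) ⟨5, 29, 3, 6, 2, 2, 2, 0, 4, 0⟩ :=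
  out_sound (S := T5.ds_pp) T5.ok_pp (w := 17) (j := 4) (by decide +kernel)
theorem L03206 : Good (Phi V5.P V5.D 1 1) ⟨4, 14, 3, 7, 2, 2, 2, 0, 4, 0⟩ :=
  out_sound (S := T5.ds_pp) T5.ok_pp (w := 51) (j := 3) (by decide +kernel)
theorem L03207 : Good (Phi V5.P V5.D 1 1) ⟨4, 14, 2, 2, 2, 2, 2, 0, 4, 1⟩ :=
  leafX_sound T5.ok_pp T5.Ypp.bz_eq (w := 206) (c := ⟨⟨.negSucc 772, .negSucc 470, .ofNat 168, .ofNat 122, .negSucc 649, .negSucc 1342⟩, ⟨.negSucc 415, .negSucc 426, .negSucc 22, .ofNat 81, .negSucc 421, .negSucc 864⟩, ⟨.negSucc 644, .negSucc 80, .ofNat 616, .negSucc 564, .ofNat 984, .ofNat 798⟩, ⟨.negSucc 593, .negSucc 283, .ofNat 76, .negSucc 167, .negSucc 1140, .negSucc 2056⟩, ⟨.negSucc 664, .negSucc 43, .negSucc 17, .ofNat 483, .ofNat 321, .ofNat 221⟩, .ofNat 749, .negSucc 758, .ofNat 0, .negSucc 758, .ofNat 1313, .ofNat 0, .ofNat 128, .ofNat 607, .negSucc 233, .ofNat 0, .ofNat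 444, .negSucc 123, .ofNat 0, .ofNat 0, .ofNat 613, .ofNat 1619, .ofNat 0, .ofNat 0, .ofNat 253523224924842218610792755359645696, .ofNat 0, .ofNat 0, .ofNat 0, .ofNat 984003814059194437026101048868077568, .ofNat 0, .ofNat 0, .ofNat 0, .ofNat 3380534638413975289226992821427240960, .ofNat 0, .ofNat 168394955038724763479899643253528780079104, .ofNat 0, .ofNat 1815999767835107178294373126770786304, .ofNat 4934697865116504303973840326616295426490368⟩)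
    (by decide +kernel)
theorem L03208 : Good (Phi V5.P V5.D 1 1) ⟨5, 28, 3, 6, 2, 2, 2, 0, 4, 1⟩ :=
  out_sound (S := T5.ds_pp) T5.ok_pp (w := 57) (j := 3) (by decide +kernel)
theorem L03209 : Good (Phi V5.P V5.D 1 1) ⟨5, 29, 3, 6, 2, 2, 2, 0, 4, 1⟩ :=
  out_sound (S := T5.ds_pp) T5.ok_pp (w := 17) (j := 4) (by decide +kernel)
theorem L03210 : Good (Phi V5.P V5.D 1 1) ⟨4, 14, 3, 7, 2, 2, 2, 0, 4, 1⟩ :=
  out_sound (S := T5.ds_pp) T5.ok_pp (w := 51) (j := 3) (by decide +kernel)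
theorem L03211 : Good (Phi V5.P V5.D 1 1) ⟨4, 15, 1, 1, 2, 2, 2, 0, 3, 0⟩ :=
  out_sound (S := T5.ds_pp) T5.ok_pp (w := 15) (j := 4) (by decide +kernel)
theorem L03212 : Good (Phi V5.P V5.D 1 1) ⟨2, 2, 1, 1, 2, 2, 2, 1, 4, 0⟩ :=
  out_sound (S := T5.ds_pp) T5.ok_pp (w := 35) (j := 3) (by decide +kernel)
theorem L03213 : Good (Phi V5.P V5.D 1 1) ⟨4, 12, 2, 2, 2, 2, 2, 1, 4, 0⟩ :=
  out_sound (S := T5.ds_pp) T5.ok_pp (w := 49) (j := 3) (by decide +kernel)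
theorem L03214 : Good (Phi V5.P V5.D 1 1) ⟨4, 13, 3, 4, 2, 2, 3, 2, 4, 0⟩ :=
  leafX_sound T5.ok_pp T5.Ypp.bz_eq (w := 215) (c := ⟨⟨.ofNat 4439, .ofNat 788, .negSucc 322, .negSucc 11, .ofNat 443, .negSucc 5812⟩, ⟨.ofNat 2386, .ofNat 771, .negSucc 134, .negSucc 21, .ofNat 286, .negSucc 3455⟩, ⟨.negSucc 2609, .negSucc 589, .ofNat 243, .negSucc 278, .negSucc 179, .ofNat 3048⟩, ⟨.ofNat 6730, .ofNat 891, .negSucc 610, .negSucc 65, .ofNat 687, .negSucc 8747⟩, ⟨.ofNat 30, .negSucc 270, .ofNat 401, .ofNat 100, .negSucc 139, .ofNat 516⟩, .ofNat 1518, .negSucc 2084, .ofNat 0, .negSucc 2084, .ofNat 3754, .ofNat 0, .ofNat 128, .ofNat 694, .negSucc 619, .ofNat 0, .ofNat 430, .negSucc 342, .ofNat 0, .ofNat 0, .ofNat 819, .ofNat 773, .ofNat 0, .ofNat 0, .ofNat 0, .ofNat 0, .ofNat 0, .ofNat 0, .ofNat 179892077061325879933688138327050420224, .ofNat 0, .ofNat 0, .ofNat 0, .ofNat 512225610183026221353085153680759455744,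 .ofNat 0, .ofNat 0, .ofNat 0, .ofNat 0, .ofNat 0⟩)
    (by decide +kernel)
theorem L03215 : Good (Phi V5.P V5.D 1 1) ⟨4, 13, 3, 4, 2, 2, 3, 3, 4, 0⟩ :=
  leafX_sound T5.ok_pp T5.Ypp.bz_eq (w := 215) (c := ⟨⟨.ofNat 5083, .ofNat 872, .negSucc 198, .ofNat 278, .negSucc 343, .negSucc 7310⟩, ⟨.ofNat 2942, .ofNat 393, .ofNat 316, .ofNat 157, .negSucc 215, .negSucc 4308⟩, ⟨.negSucc 3210, .negSucc 368, .ofNat 78, .negSucc 215, .ofNat 286, .ofNat 4150⟩, ⟨.ofNat 7768, .ofNat 502, .ofNat 252, .ofNat 153, .negSucc 714, .negSucc 10685⟩, ⟨.negSucc 32, .ofNat 719, .negSucc 1121, .ofNat 413, .ofNat 364, .negSucc 142⟩, .ofNat 1096, .negSucc 1387, .ofNat 0, .negSucc 1387, .ofNat 2570, .ofNat 0, .ofNat 128, .ofNat 521, .negSucc 672, .ofNat 0, .ofNat 329, .negSucc 365, .ofNat 0, .ofNat 0, .ofNat 713, .ofNat 364, .ofNat 0, .ofNat 0, .ofNat 0, .ofNat 0, .ofNat 0, .ofNat 0, .ofNat 154367863228523421344239707646666473472,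 .ofNat 0, .ofNat 0, .ofNat 0, .ofNat 182931489846613841463397887490192834560, .ofNat 0, .ofNat 0, .ofNat 0, .ofNat 563394134445050861264218914703844311040, .ofNat 0⟩)
    (by decide +kernel)
theorem L03216 : Good (Phi V5.P V5.D 1 1) ⟨4, 13, 3, 5, 2, 2, 2, 1, 4, 0⟩ :=
  out_sound (S := T5.ds_pp) T5.ok_pp (w := 51) (j := 3) (by decide +kernel)
theorem L03217 : Good (Phi V5.P V5.D 1 1) ⟨5, 28, 2, 2, 2, 2, 3, 2, 5, 0⟩ :=
  leafX_sound T5.ok_pp T5.Ypp.bz_eq (w := 221) (c := ⟨⟨.ofNat 5081, .ofNat 304, .negSucc 129, .ofNat 274, .ofNat 993, .negSucc 3980⟩, ⟨.ofNat 2787, .ofNat 96, .ofNat 909, .ofNat 169, .ofNat 657, .negSucc 2604⟩, ⟨.negSucc 3352, .negSucc 417, .ofNat 807, .negSucc 348, .negSucc 517, .ofNat 2055⟩, ⟨.ofNat 7370, .ofNat 471, .negSucc 399, .ofNat 336, .ofNat 1288, .negSucc 5558⟩, ⟨.ofNat 318, .ofNat 70, .negSucc 780, .ofNat 102, .ofNat 179, .negSucc 228⟩, .ofNat 887, .negSucc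 1001, .ofNat 0, .negSucc 1001, .ofNat 1763, .ofNat 0, .ofNat 128, .ofNat 600, .negSucc 717, .ofNat 0, .ofNat 402, .negSucc 419, .ofNat 0, .ofNat 0, .ofNat 782, .ofNat 557, .ofNat 0, .ofNat 0, .ofNat 12295029973589985642979810099710656512, .ofNat 0, .ofNat 0, .ofNat 0, .ofNat 385655101534379357402232180611175415808, .ofNat 0, .ofNat 0, .ofNat 0, .ofNat 880988368511351244017566089896014118912, .ofNat 129838355868235014838098583711821564260326047744, .ofNat 0, .ofNat 0, .ofNat 318880674017386377386148389419665588224, .ofNat 171583212149380667437844114346851691804537913344⟩)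
    (by decide +kernel)
theorem L03218 : Good (Phi V5.P V5.D 1 1) ⟨5, 28, 2, 2, 2, 2, 3, 2, 5, 1⟩ :=
  leafX_sound T5.ok_pp T5.Ypp.bz_eq (w := 222) (c := ⟨⟨.ofNat 1221, .negSucc 1077, .ofNat 1844, .negSucc 649, .negSucc 353, .negSucc 2483⟩, ⟨.ofNat 879, .negSucc 610, .ofNat 975, .negSucc 420, .negSucc 229, .negSucc 1604⟩, ⟨.negSucc 847, .ofNat 814, .negSucc 1266, .negSucc 76, .ofNat 372, .ofNat 1406⟩, ⟨.ofNat 2676, .negSucc 893, .ofNat 1215, .negSucc 1317, .negSucc 688, .negSucc 3535⟩, ⟨.negSucc 939, .negSucc 356, .ofNat 847, .ofNat 607, .ofNat 283, .ofNat 23⟩, .ofNat 2271, .negSucc 3100, .ofNat 0, .negSucc 3100, .ofNat 4999, .ofNat 0, .ofNat 128, .ofNat 680, .negSucc 643, .ofNat 0, .ofNat 449, .negSucc 400, .ofNat 0, .ofNat 0, .ofNat 872, .ofNat 626, .ofNat 0, .ofNat 0, .ofNat 0, .ofNat 0, .ofNat 0, .ofNat 0, .ofNat 2745515777135905348622655544972573409280, .ofNat 0, .ofNat 0,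 .ofNat 0, .ofNat 0, .ofNat 0, .ofNat 0, .ofNat 0, .ofNat 0, .ofNat 0⟩)
    (by decide +kernel)
theorem L03219 : Good (Phi V5.P V5.D 1 1) ⟨5, 29, 2, 2, 2, 2, 3, 2, 4, 0⟩ :=
  out_sound (S := T5.ds_pp) T5.ok_pp (w := 17) (j := 4) (by decide +kernel)
theorem L03220 : Good (Phi V5.P V5.D 1 1) ⟨5, 28, 3, 4, 2, 2, 3, 3, 4, 0⟩ :=
  leafX_sound T5.ok_pp T5.Ypp.bz_eq (w := 220) (c := ⟨⟨.ofNat 5627, .ofNat 684, .ofNat 431, .negSucc 142, .negSucc 192, .negSucc 7775⟩, ⟨.ofNat 3589, .ofNat 812, .ofNat 207, .negSucc 95, .negSucc 119, .negSucc 4946⟩, ⟨.negSucc 3488, .negSucc 108, .negSucc 267, .negSucc 15, .ofNat 257, .ofNat 4512⟩, ⟨.ofNat 8048, .ofNat 1034, .ofNat 707, .negSucc 508, .negSucc 532, .negSucc 11222⟩, ⟨.ofNat 330, .negSucc 189, .negSucc 530, .ofNat 476, .ofNat 411, .ofNat 182⟩, .ofNat 1694, .negSucc 2163, .ofNat 0, .negSucc 2163, .ofNat 3509, .ofNat 0, .ofNat 128, .ofNat 769, .negSucc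 973, .ofNat 0, .ofNat 528, .negSucc 579, .ofNat 0, .ofNat 0, .ofNat 975, .ofNat 812, .ofNat 0, .ofNat 0, .ofNat 1510359442659095386541970542406139904, .ofNat 0, .ofNat 0, .ofNat 0, .ofNat 447373180746086261088727563316750188544, .ofNat 0, .ofNat 0, .ofNat 0, .ofNat 461201062070056169299060647426592342016, .ofNat 0, .ofNat 0, .ofNat 0, .ofNat 165286775401181476087222240961798078464, .ofNat 0⟩)
    (by decide +kernel)
theorem L03221 : Good (Phi V5.P V5.D 1 1) ⟨5, 28, 3, 5, 2, 2, 3, 3, 4, 0⟩ :=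
  leafX_sound T5.ok_pp T5.Ypp.bz_eq (w := 222) (c := ⟨⟨.ofNat 6011, .ofNat 166, .ofNat 927, .ofNat 186, .negSucc 541, .negSucc 8160⟩, ⟨.ofNat 4003, .negSucc 294, .ofNat 1357, .ofNat 118, .negSucc 364, .negSucc 5411⟩, ⟨.negSucc 3536, .negSucc 973, .ofNat 515, .negSucc 78, .ofNat 414, .ofNat 4769⟩, ⟨.ofNat 8557, .ofNat 878, .ofNat 570, .negSucc 96, .negSucc 1090, .negSucc 11653⟩, ⟨.negSucc 220, .negSucc 110, .negSucc 285, .ofNat 553, .ofNat 511, .ofNat 189⟩, .ofNat 2476, .negSucc 3379, .ofNat 0, .negSucc 3379, .ofNat 5364, .ofNat 0, .ofNat 128, .ofNat 1160, .negSucc 1297, .ofNat 0, .ofNat 775, .negSucc 823, .ofNat 0, .ofNat 0, .ofNat 1400, .ofNat 617, .ofNat 0, .ofNat 0, .ofNat 6500410547452595599801981549714341888, .ofNat 704127499859016983502449022565467601388961792, .ofNat 0, .ofNat 0, .ofNat 327144078926927594239953755897407209472, .ofNat 32078123984627241609769292743059532139930320896,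 .ofNat 0, .ofNat 0, .ofNat 496902455845721865402894156313256787968, .ofNat 119859998311790052996053268055648050194990235648, .ofNat 0, .ofNat 0, .ofNat 506190161224908922424072871570504155136, .ofNat 140982107450096675663885036178910758471483785216⟩)
    (by decide +kernel)
theorem L03222 : Good (Phi V5.P V5.D 1 1) ⟨5, 29, 2, 2, 2, 2, 3, 3, 4, 0⟩ :=
  out_sound (S := T5.ds_pp) T5.ok_pp (w := 17) (j := 4) (by decide +kernel)
theorem L03223 : Good (Phi V5.P V5.D 1 1) ⟨4, 15, 2, 2, 2, 2, 2, 1, 4, 0⟩ :=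
  out_sound (S := T5.ds_pp) T5.ok_pp (w := 49) (j := 3) (by decide +kernel)
theorem L03224 : Good (Phi V5.P V5.D 1 1) ⟨3, 6, 2, 3, 2, 2, 2, 1, 4, 0⟩ :=
  out_sound (S := T5.ds_pp) T5.ok_pp (w := 43) (j := 3) (by decide +kernel)
theorem L03225 : Good (Phi V5.P V5.D 1 1) ⟨5, 28, 3, 6, 2, 2, 2, 1, 4, 0⟩ :=
  out_sound (S := T5.ds_pp) T5.ok_pp (w := 57) (j := 3) (by decide +kernel)
theorem L03226 : Good (Phi V5.P V5.D 1 1) ⟨5, 29, 3, 6, 2, 2, 2, 1, 4, 0⟩ :=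
  out_sound (S := T5.ds_pp) T5.ok_pp (w := 17) (j := 4) (by decide +kernel)
theorem L03227 : Good (Phi V5.P V5.D 1 1) ⟨4, 14, 3, 7, 2, 2, 2, 1, 4, 0⟩ :=
  out_sound (S := T5.ds_pp) T5.ok_pp (w := 51) (j := 3) (by decide +kernel)
theorem L03228 : Good (Phi V5.P V5.D 1 1) ⟨4, 15, 2, 3, 2, 2, 2, 1, 4, 0⟩ :=
  out_sound (S := T5.ds_pp) T5.ok_pp (w := 15) (j := 4) (by decide +kernel)
theorem L03229 : Good (Phi V5.P V5.D 1 1) ⟨2, 2, 1, 1, 2, 2, 2, 1, 4, 1⟩ :=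
  out_sound (S := T5.ds_pp) T5.ok_pp (w := 35) (j := 3) (by decide +kernel)
theorem L03230 : Good (Phi V5.P V5.D 1 1) ⟨3, 6, 2, 2, 2, 2, 2, 1, 4, 1⟩ :=
  leafX_sound T5.ok_pp T5.Ypp.bz_eq (w := 203) (c := ⟨⟨.ofNat 411, .negSucc 1316, .ofNat 143, .negSucc 719, .negSucc 1407, .negSucc 1564⟩, ⟨.ofNat 411, .negSucc 880, .negSucc 374, .negSucc 399, .negSucc 843, .negSucc 918⟩, ⟨.negSucc 574, .ofNat 673, .ofNat 246, .negSucc 66, .ofNat 1437, .ofNat 1188⟩, ⟨.ofNat 429, .negSucc 1018, .negSucc 291, .negSucc 1930, .negSucc 2342, .negSucc 2398⟩, ⟨.negSucc 492, .negSucc 644, .ofNat 799, .ofNat 1506, .ofNat 497, .ofNat 213⟩, .ofNat 1550, .negSucc 2125, .ofNat 0, .negSucc 2125, .ofNat 3794, .ofNat 0, .ofNat 128, .ofNat 533, .negSucc 396, .ofNat 0, .ofNat 336, .negSucc 216, .ofNat 0, .ofNat 0, .ofNat 667, .ofNat 905, .ofNat 0, .ofNat 0, .ofNat 0, .ofNat 0, .ofNat 0, .ofNat 0, .ofNat 20917293610223250433407960153646432256,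 .ofNat 0, .ofNat 0, .ofNat 0, .ofNat 24457876468441837034214083243657920512, .ofNat 0, .ofNat 0, .ofNat 0, .ofNat 8880353291772896228150684479049957376, .ofNat 0⟩)
    (by decide +kernel)
theorem L03231 : Good (Phi V5.P V5.D 1 1) ⟨3, 7, 2, 2, 2, 2, 2, 1, 4, 1⟩ :=
  leafX_sound T5.ok_pp T5.Ypp.bz_eq (w := 202) (c := ⟨⟨.negSucc 580, .ofNat 297, .negSucc 722, .negSucc 729, .negSucc 1492, .negSucc 1500⟩, ⟨.ofNat 44, .ofNat 773, .negSucc 1314, .negSucc 481, .negSucc 980, .negSucc 970⟩, ⟨.negSucc 117, .negSucc 161, .ofNat 713, .negSucc 36, .ofNat 1527, .ofNat 1112⟩, ⟨.negSucc 474, .ofNat 142, .negSucc 1039, .negSucc 1677, .negSucc 2479, .negSucc 2131⟩, ⟨.negSucc 620, .ofNat 547, .ofNat 319, .ofNat 912, .ofNat 511, .negSucc 13⟩, .ofNat 977, .negSucc 992, .ofNat 0, .negSucc 992, .ofNat 1518, .ofNat 0, .ofNat 128, .ofNat 382, .negSucc 462, .ofNat 0, .ofNat 304, .negSucc 274, .ofNat 0, .ofNat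 0, .ofNat 684, .ofNat 435, .ofNat 0, .ofNat 0, .ofNat 335977892631258779104386409044115456, .ofNat 0, .ofNat 0, .ofNat 0, .ofNat 11279826735438455425921078724879450112, .ofNat 0, .ofNat 0, .ofNat 0, .ofNat 10410136318604752932274490116862377984, .ofNat 9661173323772163156339308994553244117106688, .ofNat 0, .ofNat 0, .ofNat 6439383134776426453970647383736844288, .ofNat 0⟩)
    (by decide +kernel)
theorem L03232 : Good (Phi V5.P V5.D 1 1) ⟨3, 6, 2, 3, 2, 2, 2, 1, 4, 1⟩ :=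
  out_sound (S := T5.ds_pp) T5.ok_pp (w := 43) (j := 3) (by decide +kernel)
theorem L03233 : Good (Phi V5.P V5.D 1 1) ⟨5, 28, 3, 6, 2, 2, 2, 1, 4, 1⟩ :=
  out_sound (S := T5.ds_pp) T5.ok_pp (w := 57) (j := 3) (by decide +kernel)
theorem L03234 : Good (Phi V5.P V5.D 1 1) ⟨5, 29, 3, 6, 2, 2, 2, 1, 4, 1⟩ :=
  out_sound (S := T5.ds_pp) T5.ok_pp (w := 17) (j := 4) (by decide +kernel)
theorem L03235 : Good (Phi V5.P V5.D 1 1) ⟨4, 14, 3, 7, 2, 2, 2, 1, 4, 1⟩ :=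
  out_sound (S := T5.ds_pp) T5.ok_pp (w := 51) (j := 3) (by decide +kernel)
theorem L03236 : Good (Phi V5.P V5.D 1 1) ⟨4, 15, 2, 3, 2, 2, 2, 1, 4, 1⟩ :=
  out_sound (S := T5.ds_pp) T5.ok_pp (w := 15) (j := 4) (by decide +kernel)
theorem L03237 : Good (Phi V5.P V5.D 1 1) ⟨2, 2, 1, 1, 2, 2, 1, 0, 3, 1⟩ :=
  out_sound (S := T5.ds_pp) T5.ok_pp (w := 35) (j := 3) (by decide +kernel)
theorem L03238 : Good (Phi V5.P V5.D 1 1) ⟨3, 6, 1, 1, 2, 2, 2, 0, 4, 2⟩ :=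
  leafX_sound T5.ok_pp T5.Ypp.bz_eq (w := 200) (c := ⟨⟨.negSucc 1803, .negSucc 322, .negSucc 72, .ofNat 183, .negSucc 761, .negSucc 247⟩, ⟨.negSucc 766, .negSucc 472, .negSucc 602, .ofNat 120, .negSucc 450, .negSucc 146⟩, ⟨.ofNat 258, .negSucc 273, .ofNat 707, .negSucc 528, .ofNat 1433, .ofNat 311⟩, ⟨.negSucc 2935, .ofNat 142, .ofNat 6, .negSucc 12, .negSucc 1285, .negSucc 278⟩, ⟨.negSucc 307, .negSucc 106, .negSucc 179, .ofNat 479, .ofNat 298, .negSucc 139⟩, .ofNat 756, .negSucc 835, .ofNat 0, .negSucc 835, .ofNat 1628, .ofNat 0, .ofNat 128, .ofNat 477, .negSucc 189, .ofNat 0, .ofNat 331, .negSucc 83, .ofNat 0, .ofNat 0, .ofNat 714, .ofNat 3925, .ofNat 0, .ofNat 0, .ofNat 0, .ofNat 0, .ofNat 0, .ofNat 0, .ofNat 3618263077131938850835463453299179520, .ofNat 0, .ofNat 0, .ofNat 0, .ofNat 7011965970346254637725925965039665152, .ofNat 0, .ofNat 10394826507220792145476445166485890924544,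 .ofNat 0, .ofNat 4445015580928271767220837485159383040, .ofNat 0⟩)
    (by decide +kernel)
theorem L03239 : Good (Phi V5.P V5.D 1 1) ⟨3, 6, 1, 1, 2, 2, 2, 0, 4, 3⟩ :=
  leafX_sound T5.ok_pp T5.Ypp.bz_eq (w := 200) (c := ⟨⟨.negSucc 2076, .negSucc 319, .negSucc 68, .ofNat 122, .negSucc 617, .ofNat 118⟩, ⟨.negSucc 967, .negSucc 418, .negSucc 664, .ofNat 80, .negSucc 360, .ofNat 65⟩, ⟨.ofNat 190, .ofNat 127, .ofNat 422, .negSucc 411, .ofNat 1391, .negSucc 10⟩, ⟨.negSucc 3325, .ofNat 33, .ofNat 96, .ofNat 63, .negSucc 998, .ofNat 269⟩, ⟨.negSucc 395, .ofNat 173, .negSucc 299, .ofNat 187, .ofNat 169, .negSucc 168⟩, .ofNat 751, .negSucc 829, .ofNat 0, .negSucc 829, .ofNat 1625, .ofNat 0, .ofNat 128, .ofNat 429, .negSucc 167, .ofNat 0, .ofNat 310, .negSucc 68, .ofNat 0, .ofNat 0, .ofNat 922, .ofNat 4238, .ofNat 267228698110684362153467182987968774144, .ofNat 0, .ofNat 140363840475567035734362494649499648,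 .ofNat 0, .ofNat 5296689204563010580673555559693617725440, .ofNat 0, .ofNat 8606718621340518571737990439603535872, .ofNat 0, .ofNat 0, .ofNat 0, .ofNat 7258536955711225234102595115196350464, .ofNat 0, .ofNat 52025066245600479063409865557082057474048, .ofNat 0, .ofNat 9069284420636825472533833439489556480, .ofNat 0⟩)
    (by decide +kernel)
theorem L03240 : Good (Phi V5.P V5.D 1 1) ⟨4, 14, 2, 2, 2, 2, 2, 0, 4, 2⟩ :=
  leafX_sound T5.ok_pp T5.Ypp.bz_eq (w := 206) (c := ⟨⟨.negSucc 1848, .ofNat 420, .negSucc 681, .ofNat 191, .negSucc 828, .negSucc 198⟩, ⟨.negSucc 1009, .ofNat 160, .negSucc 749, .ofNat 127, .negSucc 539, .negSucc 134⟩, ⟨.ofNat 154, .ofNat 256, .ofNat 95, .negSucc 442, .ofNat 1392, .ofNat 233⟩, ⟨.negSucc 2638, .ofNat 385, .negSucc 367, .ofNat 25, .negSucc 1381, .negSucc 231⟩, ⟨.negSucc 333, .ofNat 85, .negSucc 158, .ofNat 360, .ofNat 309, .negSucc 70⟩, .ofNat 749, .negSucc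 758, .ofNat 0, .negSucc 758, .ofNat 1313, .ofNat 0, .ofNat 128, .ofNat 375, .negSucc 136, .ofNat 0, .ofNat 290, .negSucc 64, .ofNat 0, .ofNat 0, .ofNat 551, .ofNat 2388, .ofNat 0, .ofNat 0, .ofNat 293873908048910599861033511359086592, .ofNat 0, .ofNat 0, .ofNat 0, .ofNat 2354273195740740800326467615373393920, .ofNat 0, .ofNat 0, .ofNat 0, .ofNat 9443302947590836579940922832099213312, .ofNat 0, .ofNat 535615890530945458663013568498956637306880, .ofNat 0, .ofNat 2034078016358413589251605087914033152, .ofNat 1664490640197371574040742973503642070417408⟩)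
    (by decide +kernel)
theorem L03241 : Good (Phi V5.P V5.D 1 1) ⟨5, 28, 3, 6, 2, 2, 2, 0, 4, 2⟩ :=
  out_sound (S := T5.ds_pp) T5.ok_pp (w := 57) (j := 3) (by decide +kernel)
theorem L03242 : Good (Phi V5.P V5.D 1 1) ⟨5, 29, 3, 6, 2, 2, 2, 0, 4, 2⟩ :=
  out_sound (S := T5.ds_pp) T5.ok_pp (w := 17) (j := 4) (by decide +kernel)
theorem L03243 : Good (Phi V5.P V5.D 1 1) ⟨4, 14, 3, 7, 2, 2, 2, 0, 4, 2⟩ :=
  out_sound (S := T5.ds_pp) T5.ok_pp (w := 51) (j := 3) (by decide +kernel)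
theorem L03244 : Good (Phi V5.P V5.D 1 1) ⟨4, 14, 2, 2, 2, 2, 2, 0, 4, 3⟩ :=
  leafX_sound T5.ok_pp T5.Ypp.bz_eq (w := 208) (c := ⟨⟨.negSucc 2344, .ofNat 55, .negSucc 223, .ofNat 167, .negSucc 692, .ofNat 163⟩, ⟨.negSucc 1328, .negSucc 80, .negSucc 464, .ofNat 110, .negSucc 447, .ofNat 102⟩, ⟨.ofNat 312, .ofNat 116, .ofNat 178, .negSucc 379, .ofNat 1418, .negSucc 51⟩, ⟨.negSucc 3257, .ofNat 160, .negSucc 62, .ofNat 102, .negSucc 1102, .ofNat 333⟩, ⟨.negSucc 295, .ofNat 94, .negSucc 97, .ofNat 206, .ofNat 192, .negSucc 154⟩, .ofNat 1366, .negSucc 1625, .ofNat 0, .negSucc 1625, .ofNat 2574, .ofNat 0, .ofNat 128, .ofNat 690, .negSucc 144, .ofNat 0, .ofNat 525, .negSucc 73, .ofNat 0, .ofNat 0, .ofNat 1028, .ofNat 6000, .ofNat 43858214317651876627757634570558686363648, .ofNat 0, .ofNat 175423866905726928193735731808567296, .ofNat 407075628371431945197633987104800797360128, .ofNat 0,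 .ofNat 0, .ofNat 12686751543030454021916330326619062272, .ofNat 0, .ofNat 0, .ofNat 0, .ofNat 37052433129074571513650921562269810688, .ofNat 0, .ofNat 8589085527758167583009349306709024018792448, .ofNat 0, .ofNat 11831281074001978828892791566845870080, .ofNat 118372276288862774238637785431311388250210304⟩)
    (by decide +kernel)
theorem L03245 : Good (Phi V5.P V5.D 1 1) ⟨5, 28, 3, 6, 2, 2, 2, 0, 4, 3⟩ :=
  out_sound (S := T5.ds_pp) T5.ok_pp (w := 57) (j := 3) (by decide +kernel)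
theorem L03246 : Good (Phi V5.P V5.D 1 1) ⟨5, 29, 3, 6, 2, 2, 2, 0, 4, 3⟩ :=
  out_sound (S := T5.ds_pp) T5.ok_pp (w := 17) (j := 4) (by decide +kernel)
theorem L03247 : Good (Phi V5.P V5.D 1 1) ⟨4, 14, 3, 7, 2, 2, 2, 0, 4, 3⟩ :=
  out_sound (S := T5.ds_pp) T5.ok_pp (w := 51) (j := 3) (by decide +kernel)
theorem L03248 : Good (Phi V5.P V5.D 1 1) ⟨4, 15, 1, 1, 2, 2, 2, 0, 3, 1⟩ :=
  out_sound (S := T5.ds_pp) T5.ok_pp (w := 15) (j := 4) (by decide +kernel)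
theorem L03249 : Good (Phi V5.P V5.D 1 1) ⟨4, 12, 2, 2, 2, 2, 2, 1, 3, 1⟩ :=
  out_sound (S := T5.ds_pp) T5.ok_pp (w := 49) (j := 3) (by decide +kernel)
theorem L03250 : Good (Phi V5.P V5.D 1 1) ⟨4, 13, 3, 4, 2, 2, 2, 1, 4, 2⟩ :=
  leafX_sound T5.ok_pp T5.Ypp.bz_eq (w := 211) (c := ⟨⟨.negSucc 2738, .ofNat 275, .negSucc 427, .negSucc 377, .negSucc 1112, .ofNat 54⟩, ⟨.negSucc 1485, .ofNat 150, .negSucc 555, .negSucc 214, .negSucc 658, .ofNat 25⟩, ⟨.ofNat 1321, .negSucc 201, .ofNat 400, .negSucc 105, .ofNat 1344, .ofNat 183⟩, ⟨.negSucc 4182, .ofNat 746, .negSucc 771, .negSucc 997, .negSucc 1693, .ofNat 374⟩, ⟨.negSucc 36, .negSucc 190, .ofNat 372, .ofNat 775, .ofNat 126, .negSucc 504⟩, .ofNat 1575, .negSucc 2162, .ofNat 0, .negSucc 2162, .ofNat 3846, .ofNat 0, .ofNat 128, .ofNat 820, .negSucc 287, .ofNat 0, .ofNat 526, .negSucc 154, .ofNat 0, .ofNat 0, .ofNat 711, .ofNat 903, .ofNat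 0, .ofNat 0, .ofNat 853533738589332677835588086997712896, .ofNat 0, .ofNat 0, .ofNat 0, .ofNat 29969424007691900694344095039953567744, .ofNat 0, .ofNat 0, .ofNat 0, .ofNat 0, .ofNat 0, .ofNat 0, .ofNat 0, .ofNat 13757130899010875131607174784604962816, .ofNat 0⟩)
    (by decide +kernel)
theorem L03251 : Good (Phi V5.P V5.D 1 1) ⟨4, 13, 3, 4, 2, 2, 2, 1, 4, 3⟩ :=
  leafX_sound T5.ok_pp T5.Ypp.bz_eq (w := 210) (c := ⟨⟨.negSucc 2831, .negSucc 324, .negSucc 0, .negSucc 52, .negSucc 653, .ofNat 355⟩, ⟨.negSucc 1507, .negSucc 294, .negSucc 219, .negSucc 25, .negSucc 388, .ofNat 210⟩, ⟨.ofNat 1663, .ofNat 27, .ofNat 191, .negSucc 264, .ofNat 1022, .negSucc 147⟩, ⟨.negSucc 4521, .ofNat 209, .negSucc 217, .negSucc 233, .negSucc 935, .ofNat 688⟩, ⟨.ofNat 310, .negSucc 705, .ofNat 457, .ofNat 245, .negSucc 41, .negSucc 307⟩, .ofNat 758, .negSucc 841, .ofNat 0, .negSucc 841, .ofNat 1647, .ofNat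 0, .ofNat 128, .ofNat 473, .negSucc 145, .ofNat 0, .ofNat 337, .negSucc 65, .ofNat 0, .ofNat 0, .ofNat 570, .ofNat 1880, .ofNat 0, .ofNat 0, .ofNat 63442245150025569840192838323666944, .ofNat 0, .ofNat 0, .ofNat 0, .ofNat 3109266247575553326130354190035189760, .ofNat 0, .ofNat 0, .ofNat 0, .ofNat 0, .ofNat 0, .ofNat 0, .ofNat 0, .ofNat 0, .ofNat 0⟩)
    (by decide +kernel)
theorem L03252 : Good (Phi V5.P V5.D 1 1) ⟨4, 13, 3, 5, 2, 2, 2, 1, 3, 1⟩ :=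
  out_sound (S := T5.ds_pp) T5.ok_pp (w := 51) (j := 3) (by decide +kernel)
theorem L03253 : Good (Phi V5.P V5.D 1 1) ⟨3, 6, 2, 3, 2, 2, 2, 1, 3, 1⟩ :=
  out_sound (S := T5.ds_pp) T5.ok_pp (w := 43) (j := 3) (by decide +kernel)
theorem L03254 : Good (Phi V5.P V5.D 1 1) ⟨5, 28, 3, 4, 2, 2, 2, 1, 4, 2⟩ :=
  leafX_sound T5.ok_pp T5.Ypp.bz_eq (w := 213) (c := ⟨⟨.negSucc 2218, .ofNat 333, .negSucc 758, .negSucc 335, .negSucc 1149, .ofNat 55⟩, ⟨.negSucc 1197, .ofNat 117, .negSucc 692, .negSucc 207, .negSucc 731, .ofNat 34⟩, ⟨.ofNat 919, .negSucc 175, .ofNat 682, .negSucc 125, .ofNat 1364, .ofNat 150⟩, ⟨.negSucc 3113, .ofNat 407, .negSucc 1124, .negSucc 886, .negSucc 1820, .ofNat 339⟩, ⟨.negSucc 363, .ofNat 84, .ofNat 401, .ofNat 615, .ofNat 266, .negSucc 395⟩, .ofNat 845, .negSucc 949, .ofNat 0, .negSucc 949, .ofNat 1716, .ofNat 0, .ofNat 128, .ofNat 450, .negSucc 229, .ofNat 0, .ofNat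 317, .negSucc 119, .ofNat 0, .ofNat 0, .ofNat 552, .ofNat 979, .ofNat 0, .ofNat 0, .ofNat 71465459087038688145022925798375424, .ofNat 0, .ofNat 0, .ofNat 0, .ofNat 4325983470675944009770789790252269568, .ofNat 0, .ofNat 0, .ofNat 0, .ofNat 6062942825694547137461021734214828032, .ofNat 0, .ofNat 0, .ofNat 0, .ofNat 33897204353534712551656984108274286592, .ofNat 0⟩)
    (by decide +kernel)
theorem L03255 : Good (Phi V5.P V5.D 1 1) ⟨5, 28, 4, 8, 2, 2, 2, 1, 4, 3⟩ :=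
  out_sound (S := T5.ds_pp) T5.ok_pp (w := 59) (j := 3) (by decide +kernel)
theorem L03256 : Good (Phi V5.P V5.D 1 1) ⟨5, 28, 4, 9, 2, 2, 2, 1, 4, 3⟩ :=
  leafX_sound T5.ok_pp T5.Ypp.bz_eq (w := 217) (c := ⟨⟨.negSucc 3156, .negSucc 197, .ofNat 56, .negSucc 73, .negSucc 676, .ofNat 380⟩, ⟨.negSucc 1912, .negSucc 188, .negSucc 61, .negSucc 42, .negSucc 429, .ofNat 238⟩, ⟨.ofNat 1870, .ofNat 185, .negSucc 48, .negSucc 237, .ofNat 1038, .negSucc 215⟩, ⟨.negSucc 4522, .negSucc 242, .ofNat 163, .negSucc 260, .negSucc 956, .ofNat 705⟩, ⟨.ofNat 15, .ofNat 239, .negSucc 137, .ofNat 231, .negSucc 16, .negSucc 262⟩, .ofNat 742, .negSucc 769, .ofNat 0, .negSucc 769, .ofNat 1389, .ofNat 0, .ofNat 128, .ofNat 457, .negSucc 173, .ofNat 0, .ofNat 353, .negSucc 81, .ofNat 0, .ofNat 0, .ofNat 643, .ofNat 1774, .ofNat 0, .ofNat 0, .ofNat 331199021267483207583638969452068864, .ofNat 0, .ofNat 0, .ofNat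 0, .ofNat 6550241962307422792617378849962852352, .ofNat 0, .ofNat 0, .ofNat 0, .ofNat 0, .ofNat 0, .ofNat 0, .ofNat 0, .ofNat 0, .ofNat 0⟩)
    (by decide +kernel)
theorem L03257 : Good (Phi V5.P V5.D 1 1) ⟨5, 28, 3, 5, 2, 2, 2, 1, 4, 2⟩ :=
  leafX_sound T5.ok_pp T5.Ypp.bz_eq (w := 214) (c := ⟨⟨.negSucc 2825, .negSucc 366, .ofNat 132, .negSucc 413, .negSucc 1114, .ofNat 226⟩, ⟨.negSucc 1732, .negSucc 514, .ofNat 97, .negSucc 271, .negSucc 736, .ofNat 143⟩, ⟨.ofNat 1515, .ofNat 79, .ofNat 225, .negSucc 35, .ofNat 1331, .ofNat 34⟩, ⟨.negSucc 3992, .negSucc 310, .ofNat 121, .negSucc 1037, .negSucc 1788, .ofNat 559⟩, ⟨.negSucc 94, .negSucc 6, .ofNat 81, .ofNat 664, .ofNat 302, .negSucc 351⟩, .ofNat 1061, .negSucc 1257, .ofNat 0, .negSucc 1257, .ofNat 2122, .ofNat 0, .ofNat 128, .ofNat 599, .negSucc 307, .ofNat 0, .ofNat 418, .negSucc 177, .ofNat 0, .ofNat 0, .ofNat 708, .ofNat 1189,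 .ofNat 0, .ofNat 0, .ofNat 193780772172624217805757097609003008, .ofNat 44004050070979985309811507169883894405136384, .ofNat 0, .ofNat 0, .ofNat 9590813642948409229537474180185849856, .ofNat 151088353650218843311900979191359171790372864, .ofNat 0, .ofNat 0, .ofNat 5970645999282763079964904985643188224, .ofNat 0, .ofNat 0, .ofNat 0, .ofNat 11809436757385042105559410770056314880, .ofNat 0⟩)
    (by decide +kernel)
theorem L03258 : Good (Phi V5.P V5.D 1 1) ⟨6, 56, 4, 10, 2, 2, 2, 1, 4, 3⟩ :=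
  leafX_sound T5.ok_pp T5.Ypp.bz_eq (w := 227) (c := ⟨⟨.negSucc 3031, .negSucc 182, .ofNat 63, .negSucc 111, .negSucc 770, .ofNat 432⟩, ⟨.negSucc 1932, .negSucc 137, .negSucc 76, .negSucc 71, .negSucc 504, .ofNat 282⟩, ⟨.ofNat 1753, .ofNat 195, .negSucc 76, .negSucc 193, .ofNat 1093, .negSucc 258⟩, ⟨.negSucc 4132, .negSucc 207, .negSucc 88, .negSucc 433, .negSucc 1180, .ofNat 814⟩, ⟨.negSucc 364, .ofNat 125, .ofNat 196, .ofNat 425, .ofNat 144, .negSucc 313⟩, .ofNat 5275, .negSucc 7660, .ofNat 0, .negSucc 7660, .ofNat 11932, .ofNat 0, .ofNat 128, .ofNat 1678, .negSucc 401, .ofNat 0, .ofNat 1121, .negSucc 253, .ofNat 0, .ofNat 0, .ofNat 1698, .ofNat 5536, .ofNat 0, .ofNat 0, .ofNat 134378183250153529666775502756511744, .ofNat 0, .ofNat 0, .ofNat 0, .ofNat 211308485072825376883441279947916705792, .ofNat 0, .ofNat 0, .ofNat 0, .ofNat 0, .ofNat 0, .ofNat 0, .ofNat 0, .ofNat 181771032519262659563999734416466247680,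 .ofNat 0⟩)
    (by decide +kernel)
theorem L03259 : Good (Phi V5.P V5.D 1 1) ⟨8, 228, 4, 10, 2, 2, 2, 1, 4, 3⟩ :=
  leafX_sound T5.ok_pp T5.Ypp.bz_eq (w := 230) (c := ⟨⟨.negSucc 3357, .negSucc 27, .ofNat 235, .negSucc 66, .negSucc 680, .ofNat 394⟩, ⟨.negSucc 2151, .negSucc 19, .ofNat 25, .negSucc 44, .negSucc 456, .ofNat 262⟩, ⟨.ofNat 1931, .negSucc 18, .ofNat 34, .negSucc 224, .ofNat 1027, .negSucc 227⟩, ⟨.negSucc 4617, .ofNat 59, .ofNat 92, .negSucc 226, .negSucc 964, .ofNat 771⟩, ⟨.ofNat 49, .negSucc 26, .negSucc 25, .ofNat 190, .ofNat 1, .negSucc 326⟩, .ofNat 936, .negSucc 1062, .ofNat 0, .negSucc 1062, .ofNat 1820, .ofNat 0, .ofNat 128, .ofNat 595, .negSucc 202, .ofNat 0, .ofNat 437, .negSucc 108, .ofNat 0, .ofNat 0, .ofNat 790, .ofNat 3019, .ofNat 0, .ofNat 0, .ofNat 17885806785038354913075468800360448, .ofNat 0, .ofNat 0, .ofNat 0, .ofNat 267069438955918383088259372276514816,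 .ofNat 0, .ofNat 0, .ofNat 0, .ofNat 0, .ofNat 0, .ofNat 0, .ofNat 0, .ofNat 0, .ofNat 0⟩)
    (by decide +kernel)
theorem L03260 : Good (Phi V5.P V5.D 1 1) ⟨8, 229, 4, 10, 2, 2, 2, 1, 4, 3⟩ :=
  out_sound (S := T5.ds_pp) T5.ok_pp (w := 23) (j := 4) (by decide +kernel)
theorem L03261 : Good (Phi V5.P V5.D 1 1) ⟨7, 115, 4, 10, 2, 2, 2, 1, 4, 3⟩ :=
  out_sound (S := T5.ds_pp) T5.ok_pp (w := 21) (j := 4) (by decide +kernel)
theorem L03262 : Good (Phi V5.P V5.D 1 1) ⟨6, 56, 4, 11, 2, 2, 2, 1, 4, 3⟩ :=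
  out_sound (S := T5.ds_pp) T5.ok_pp (w := 65) (j := 3) (by decide +kernel)
theorem L03263 : Good (Phi V5.P V5.D 1 1) ⟨7, 114, 5, 22, 2, 2, 2, 1, 4, 3⟩ :=
  out_sound (S := T5.ds_pp) T5.ok_pp (w := 73) (j := 3) (by decide +kernel)
theorem L03264 : Good (Phi V5.P V5.D 1 1) ⟨7, 115, 5, 22, 2, 2, 2, 1, 4, 3⟩ :=
  out_sound (S := T5.ds_pp) T5.ok_pp (w := 21) (j := 4) (by decide +kernel)
theorem L03265 : Good (Phi V5.P V5.D 1 1) ⟨6, 57, 5, 23, 2, 2, 2, 1, 4, 3⟩ :=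
  out_sound (S := T5.ds_pp) T5.ok_pp (w := 67) (j := 3) (by decide +kernel)
theorem L03266 : Good (Phi V5.P V5.D 1 1) ⟨5, 29, 2, 2, 2, 2, 2, 1, 3, 1⟩ :=
  out_sound (S := T5.ds_pp) T5.ok_pp (w := 17) (j := 4) (by decide +kernel)
theorem L03267 : Good (Phi V5.P V5.D 1 1) ⟨5, 28, 3, 6, 2, 2, 2, 1, 3, 1⟩ :=
  out_sound (S := T5.ds_pp) T5.ok_pp (w := 57) (j := 3) (by decide +kernel)
theorem L03268 : Good (Phi V5.P V5.D 1 1) ⟨5, 29, 3, 6, 2, 2, 2, 1, 3, 1⟩ :=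
  out_sound (S := T5.ds_pp) T5.ok_pp (w := 17) (j := 4) (by decide +kernel)
theorem L03269 : Good (Phi V5.P V5.D 1 1) ⟨4, 14, 3, 7, 2, 2, 2, 1, 3, 1⟩ :=
  out_sound (S := T5.ds_pp) T5.ok_pp (w := 51) (j := 3) (by decide +kernel)
theorem L03270 : Good (Phi V5.P V5.D 1 1) ⟨4, 15, 1, 1, 2, 2, 2, 1, 3, 1⟩ :=
  out_sound (S := T5.ds_pp) T5.ok_pp (w := 15) (j := 4) (by decide +kernel)
theorem L03271 : Good (Phi V5.P V5.D 1 1) ⟨2, 2, 3, 4, 3, 6, 2, 0, 3, 0⟩ :=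
  out_sound (S := T5.ds_pp) T5.ok_pp (w := 39) (j := 3) (by decide +kernel)
theorem L03272 : Good (Phi V5.P V5.D 1 1) ⟨4, 12, 3, 4, 3, 6, 2, 0, 4, 0⟩ :=
  out_sound (S := T5.ds_pp) T5.ok_pp (w := 51) (j := 3) (by decide +kernel)
theorem L03273 : Good (Phi V5.P V5.D 1 1) ⟨5, 26, 3, 4, 3, 6, 3, 0, 5, 0⟩ :=
  leafX_sound T5.ok_pp T5.Ypp.bz_eq (w := 243) (c := ⟨⟨.ofNat 1865, .ofNat 1017, .negSucc 422, .negSucc 619, .ofNat 838, .negSucc 2358⟩, ⟨.ofNat 967, .ofNat 631, .negSucc 148, .negSucc 324, .ofNat 471, .negSucc 1309⟩, ⟨.negSucc 1857, .negSucc 822, .ofNat 672, .ofNat 761, .negSucc 602, .ofNat 1402⟩, ⟨.ofNat 3171, .ofNat 1063, .negSucc 358, .negSucc 1288, .ofNat 1192, .negSucc 3406⟩, ⟨.negSucc 335, .ofNat 407, .negSucc 268, .ofNat 652, .ofNat 108, .negSucc 180⟩, .ofNat 3249, .negSucc 5178, .ofNat 0, .negSucc 5178, .ofNat 9355, .ofNat 0, .ofNat 128, .ofNat 1319, .negSucc 2057, .ofNat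 0, .ofNat 755, .negSucc 1124, .ofNat 0, .ofNat 0, .ofNat 3126, .ofNat 13006, .ofNat 0, .ofNat 0, .ofNat 0, .ofNat 0, .ofNat 0, .ofNat 0, .ofNat 144908397559721296412839059831678138044121088, .ofNat 0, .ofNat 0, .ofNat 0, .ofNat 1594716410955531947542774742554608851625181184, .ofNat 0, .ofNat 0, .ofNat 0, .ofNat 0, .ofNat 0⟩)
    (by decide +kernel)
theorem L03274 : Good (Phi V5.P V5.D 1 1) ⟨5, 27, 3, 4, 4, 12, 3, 0, 5, 0⟩ :=
  leafX_sound T5.ok_pp T5.Ypp.bz_eq (w := 252) (c := ⟨⟨.ofNat 2827, .ofNat 240, .negSucc 376, .negSucc 227, .ofNat 796, .negSucc 2289⟩, ⟨.ofNat 1604, .ofNat 185, .negSucc 103, .negSucc 146, .ofNat 479, .negSucc 1357⟩, ⟨.negSucc 2640, .negSucc 182, .ofNat 553, .ofNat 94, .negSucc 409, .ofNat 1260⟩, ⟨.ofNat 4275, .ofNat 224, .negSucc 305, .negSucc 515, .ofNat 1086, .negSucc 3455⟩, ⟨.negSucc 169, .ofNat 16, .negSucc 388, .ofNat 350, .ofNat 130, .ofNat 175⟩, .ofNat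 1116, .negSucc 1410, .ofNat 0, .negSucc 1410, .ofNat 2583, .ofNat 0, .ofNat 128, .ofNat 765, .negSucc 663, .ofNat 0, .ofNat 460, .negSucc 370, .ofNat 0, .ofNat 0, .ofNat 1024, .ofNat 6667, .ofNat 0, .ofNat 0, .ofNat 0, .ofNat 0, .ofNat 0, .ofNat 0, .ofNat 0, .ofNat 0, .ofNat 0, .ofNat 0, .ofNat 2861755670127690585322932142270023828451778101248, .ofNat 0, .ofNat 0, .ofNat 0, .ofNat 0, .ofNat 0⟩)
    (by decide +kernel)
theorem L03275 : Good (Phi V5.P V5.D 1 1) ⟨5, 27, 3, 4, 4, 13, 3, 0, 5, 0⟩ :=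
  leafX_sound T5.ok_pp T5.Ypp.bz_eq (w := 253) (c := ⟨⟨.ofNat 2574, .ofNat 237, .negSucc 338, .negSucc 568, .ofNat 827, .negSucc 2407⟩, ⟨.ofNat 1472, .ofNat 209, .negSucc 139, .negSucc 331, .ofNat 507, .negSucc 1439⟩, ⟨.negSucc 2405, .negSucc 179, .ofNat 547, .ofNat 809, .negSucc 709, .ofNat 1492⟩, ⟨.ofNat 3836, .ofNat 502, .negSucc 486, .negSucc 1187, .ofNat 1191, .negSucc 3860⟩, ⟨.negSucc 67, .negSucc 458, .ofNat 7, .ofNat 609, .ofNat 29, .ofNat 634⟩, .ofNat 1825, .negSucc 2571, .ofNat 0, .negSucc 2571, .ofNat 4509, .ofNat 0, .ofNat 128, .ofNat 1026, .negSucc 1093, .ofNat 0, .ofNat 613, .negSucc 626, .ofNat 0, .ofNat 0, .ofNat 1419, .ofNat 1106, .ofNat 0, .ofNat 0, .ofNat 0, .ofNat 0, .ofNat 0, .ofNat 0, .ofNat 1143593762288935829490664316520450225617357504512, .ofNat 0, .ofNat 0, .ofNat 0, .ofNat 0, .ofNat 0, .ofNat 0, .ofNat 0, .ofNat 3948803731912193384705146141592270757927631978496,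 .ofNat 0⟩)
    (by decide +kernel)
theorem L03276 : Good (Phi V5.P V5.D 1 1) ⟨5, 26, 3, 4, 3, 6, 3, 1, 5, 0⟩ :=
  leafX_sound T5.ok_pp T5.Ypp.bz_eq (w := 241) (c := ⟨⟨.ofNat 3363, .ofNat 842, .negSucc 443, .negSucc 866, .ofNat 464, .negSucc 3270⟩, ⟨.ofNat 1778, .ofNat 558, .negSucc 168, .negSucc 455, .ofNat 266, .negSucc 1815⟩, ⟨.negSucc 2977, .negSucc 416, .ofNat 440, .ofNat 634, .negSucc 109, .ofNat 1867⟩, ⟨.ofNat 5222, .ofNat 1057, .negSucc 493, .negSucc 1860, .ofNat 513, .negSucc 4852⟩, ⟨.negSucc 97, .ofNat 78, .negSucc 284, .ofNat 1005, .ofNat 323, .negSucc 55⟩, .ofNat 1452, .negSucc 2049, .ofNat 0, .negSucc 2049, .ofNat 3869, .ofNat 0, .ofNat 128, .ofNat 1898, .negSucc 2257, .ofNat 0, .ofNat 1090, .negSucc 1191, .ofNat 0, .ofNat 0, .ofNat 2627, .ofNat 2787, .ofNat 0, .ofNat 0, .ofNat 0, .ofNat 0, .ofNat 0, .ofNat 0, .ofNat 370203377459478338805699938340736929953218560, .ofNat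 0, .ofNat 0, .ofNat 0, .ofNat 296494710332873155596808554413295879095058432, .ofNat 0, .ofNat 0, .ofNat 0, .ofNat 0, .ofNat 0⟩)
    (by decide +kernel)
theorem L03277 : Good (Phi V5.P V5.D 1 1) ⟨5, 27, 3, 4, 3, 6, 3, 1, 5, 0⟩ :=
  leafX_sound T5.ok_pp T5.Ypp.bz_eq (w := 238) (c := ⟨⟨.ofNat 3989, .negSucc 44, .ofNat 205, .negSucc 491, .ofNat 733, .negSucc 3433⟩, ⟨.ofNat 2265, .negSucc 64, .ofNat 414, .negSucc 288, .ofNat 458, .negSucc 2053⟩, ⟨.negSucc 3263, .negSucc 35, .ofNat 204, .ofNat 361, .negSucc 334, .ofNat 2064⟩, ⟨.ofNat 6021, .negSucc 96, .ofNat 386, .negSucc 1275, .ofNat 934, .negSucc 5411⟩, ⟨.negSucc 173, .ofNat 58, .negSucc 530, .ofNat 935, .ofNat 177, .ofNat 716⟩, .ofNat 1613, .negSucc 2213, .ofNat 0, .negSucc 2213, .ofNat 3903, .ofNat 0, .ofNat 128, .ofNat 595, .negSucc 714, .ofNat 0, .ofNat 359, .negSucc 404, .ofNat 0, .ofNat 0, .ofNat 802, .ofNat 727, .ofNat 0, .ofNat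 0, .ofNat 0, .ofNat 0, .ofNat 0, .ofNat 0, .ofNat 58292732967210002433233940319522649349816320, .ofNat 0, .ofNat 0, .ofNat 0, .ofNat 61166165481202995269345709161097608980070400, .ofNat 0, .ofNat 0, .ofNat 0, .ofNat 115743797171182230689944120962131319299506176, .ofNat 0⟩)
    (by decide +kernel)
theorem L03278 : Good (Phi V5.P V5.D 1 1) ⟨4, 13, 3, 4, 3, 6, 2, 0, 5, 1⟩ :=
  leafX_sound T5.ok_pp T5.Ypp.bz_eq (w := 228) (c := ⟨⟨.ofNat 616, .ofNat 58, .negSucc 162, .negSucc 429, .ofNat 11, .negSucc 1191⟩, ⟨.ofNat 360, .ofNat 56, .negSucc 138, .negSucc 238, .ofNat 19, .negSucc 699⟩, ⟨.negSucc 1408, .negSucc 141, .ofNat 447, .ofNat 810, .ofNat 5, .ofNat 554⟩, ⟨.ofNat 970, .ofNat 337, .negSucc 326, .negSucc 1183, .negSucc 290, .negSucc 1872⟩, ⟨.negSucc 124, .negSucc 324, .ofNat 19, .ofNat 917, .ofNat 515, .ofNat 216⟩, .ofNat 752, .negSucc 834, .ofNat 0, .negSucc 834, .ofNat 1641, .ofNat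 0, .ofNat 128, .ofNat 538, .negSucc 520, .ofNat 0, .ofNat 322, .negSucc 257, .ofNat 0, .ofNat 0, .ofNat 716, .ofNat 1780, .ofNat 0, .ofNat 0, .ofNat 0, .ofNat 0, .ofNat 0, .ofNat 0, .ofNat 2135177260239687779736477625521424113336320, .ofNat 0, .ofNat 0, .ofNat 0, .ofNat 27145073863059062633469700757494428707323904, .ofNat 0, .ofNat 0, .ofNat 0, .ofNat 13488289299076025107487750147208883682148352, .ofNat 0⟩)
    (by decide +kernel)
theorem L03279 : Good (Phi V5.P V5.D 1 1) ⟨5, 28, 4, 8, 3, 6, 2, 0, 4, 0⟩ :=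
  out_sound (S := T5.ds_pp) T5.ok_pp (w := 59) (j := 3) (by decide +kernel)
theorem L03280 : Good (Phi V5.P V5.D 1 1) ⟨5, 28, 5, 18, 3, 6, 2, 0, 5, 0⟩ :=
  out_sound (S := T5.ds_pp) T5.ok_pp (w := 61) (j := 3) (by decide +kernel)
theorem L03281 : Good (Phi V5.P V5.D 1 1) ⟨5, 28, 5, 19, 3, 6, 2, 0, 5, 0⟩ :=
  leafX_sound T5.ok_pp T5.Ypp.bz_eq (w := 242) (c := ⟨⟨.ofNat 2688, .ofNat 522, .negSucc 102, .negSucc 712, .ofNat 1500, .negSucc 2364⟩, ⟨.ofNat 1680, .ofNat 341, .negSucc 36, .negSucc 444, .ofNat 956, .negSucc 1501⟩, ⟨.negSucc 2333, .ofNat 744, .negSucc 148, .ofNat 818, .negSucc 895, .ofNat 1369⟩, ⟨.ofNat 4263, .ofNat 453, .negSucc 23, .negSucc 1526, .ofNat 1841, .negSucc 3667⟩, ⟨.negSucc 612, .ofNat 179, .negSucc 182, .ofNat 783, .ofNat 488, .ofNat 393⟩, .ofNat 1554, .negSucc 1968, .ofNat 0, .negSucc 1968, .ofNat 3209, .ofNat 0, .ofNat 128, .ofNat 1331, .negSucc 1709, .ofNat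 0, .ofNat 860, .negSucc 1044, .ofNat 0, .ofNat 0, .ofNat 2038, .ofNat 1498, .ofNat 0, .ofNat 0, .ofNat 525627595634023841141802274550264182603776, .ofNat 0, .ofNat 0, .ofNat 0, .ofNat 72170143410417260198792987361550228806172672, .ofNat 0, .ofNat 0, .ofNat 0, .ofNat 45688641869413303950752981523679230426087424, .ofNat 0, .ofNat 0, .ofNat 0, .ofNat 52236235580181496339347321230525675465605120, .ofNat 0⟩)
    (by decide +kernel)
theorem L03282 : Good (Phi V5.P V5.D 1 1) ⟨5, 28, 4, 9, 3, 6, 2, 0, 5, 1⟩ :=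
  leafX_sound T5.ok_pp T5.Ypp.bz_eq (w := 242) (c := ⟨⟨.ofNat 301, .negSucc 610, .ofNat 314, .negSucc 449, .negSucc 74, .negSucc 1105⟩, ⟨.ofNat 205, .negSucc 372, .ofNat 171, .negSucc 273, .negSucc 37, .negSucc 695⟩, ⟨.negSucc 1036, .ofNat 262, .negSucc 117, .ofNat 813, .negSucc 38, .ofNat 526⟩, ⟨.ofNat 654, .negSucc 525, .ofNat 472, .negSucc 1107, .negSucc 484, .negSucc 1739⟩, ⟨.negSucc 298, .negSucc 335, .negSucc 141, .ofNat 736, .ofNat 598, .ofNat 261⟩, .ofNat 3947, .negSucc 5748, .ofNat 0, .negSucc 5748, .ofNat 9215, .ofNat 0, .ofNat 128, .ofNat 1740, .negSucc 1349, .ofNat 0, .ofNat 1110, .negSucc 836, .ofNat 0, .ofNat 0, .ofNat 2252, .ofNat 1286, .ofNat 0, .ofNat 0, .ofNat 475859612471642777030656276488020390051840, .ofNat 0, .ofNat 0, .ofNat 0, .ofNat 180386542745540729408853256901340907161255936, .ofNat 0, .ofNat 0, .ofNat 0, .ofNat 0, .ofNat 0, .ofNat 0, .ofNat 0, .ofNat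 0, .ofNat 0⟩)
    (by decide +kernel)
theorem L03283 : Good (Phi V5.P V5.D 1 1) ⟨5, 29, 3, 4, 3, 6, 2, 0, 4, 0⟩ :=
  out_sound (S := T5.ds_pp) T5.ok_pp (w := 57) (j := 3) (by decide +kernel)
theorem L03284 : Good (Phi V5.P V5.D 1 1) ⟨4, 15, 3, 4, 3, 6, 2, 0, 4, 0⟩ :=
  out_sound (S := T5.ds_pp) T5.ok_pp (w := 51) (j := 3) (by decide +kernel)
theorem L03285 : Good (Phi V5.P V5.D 1 1) ⟨2, 3, 3, 4, 3, 6, 2, 0, 4, 1⟩ :=
  leafX_sound T5.ok_pp T5.Ypp.bz_eq (w := 214) (c := ⟨⟨.negSucc 576, .negSucc 247, .negSucc 179, .ofNat 196, .negSucc 860, .negSucc 1009⟩, ⟨.negSucc 305, .negSucc 68, .negSucc 274, .ofNat 142, .negSucc 501, .negSucc 599⟩, ⟨.negSucc 680, .negSucc 630, .ofNat 516, .ofNat 321, .ofNat 818, .ofNat 535⟩, ⟨.negSucc 762, .negSucc 410, .negSucc 101, .negSucc 207, .negSucc 1650, .negSucc 1575⟩, ⟨.negSucc 398, .ofNat 791, .negSucc 309, .ofNat 796, .ofNat 679, .ofNat 146⟩, .ofNat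 732, .negSucc 775, .ofNat 0, .negSucc 775, .ofNat 1462, .ofNat 0, .ofNat 128, .ofNat 352, .negSucc 238, .ofNat 0, .ofNat 229, .negSucc 116, .ofNat 0, .ofNat 0, .ofNat 445, .ofNat 704, .ofNat 0, .ofNat 0, .ofNat 4383725617769540292768227329857875345408, .ofNat 0, .ofNat 0, .ofNat 0, .ofNat 217714955693149002709321292109307153743872, .ofNat 70511296615706753819978877005879637805887389696, .ofNat 0, .ofNat 0, .ofNat 239495500897358662942852394484502760521728, .ofNat 0, .ofNat 3867804006037248928753784956323928914001920, .ofNat 0, .ofNat 111073306372308421122233279841886946721792, .ofNat 0⟩)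
    (by decide +kernel)
theorem L03286 : Good (Phi V5.P V5.D 1 1) ⟨2, 2, 3, 4, 3, 7, 2, 0, 3, 0⟩ :=
  out_sound (S := T5.ds_pp) T5.ok_pp (w := 39) (j := 3) (by decide +kernel)
theorem L03287 : Good (Phi V5.P V5.D 1 1) ⟨4, 12, 4, 8, 3, 7, 2, 0, 4, 0⟩ :=
  out_sound (S := T5.ds_pp) T5.ok_pp (w := 53) (j := 3) (by decide +kernel)
theorem L03288 : Good (Phi V5.P V5.D 1 1) ⟨5, 26, 4, 8, 3, 7, 2, 0, 5, 0⟩ :=
  leafX_sound T5.ok_pp T5.Ypp.bz_eq (w := 236) (c := ⟨⟨.ofNat 2088, .negSucc 1060, .ofNat 631, .ofNat 531, .ofNat 1254, .negSucc 1521⟩, ⟨.ofNat 1077, .negSucc 475, .ofNat 303, .ofNat 319, .ofNat 731, .negSucc 863⟩, ⟨.negSucc 1400, .ofNat 905, .negSucc 805, .ofNat 927, .negSucc 1381, .ofNat 555⟩, ⟨.ofNat 3044, .negSucc 1948, .ofNat 1150, .negSucc 261, .ofNat 1697, .negSucc 2357⟩, ⟨.ofNat 557, .ofNat 208, .negSucc 384, .ofNat 1760, .ofNat 493, .negSucc 13⟩, .ofNat 847, .negSucc 1050,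 .ofNat 0, .negSucc 1050, .ofNat 2167, .ofNat 0, .ofNat 128, .ofNat 644, .negSucc 1232, .ofNat 0, .ofNat 355, .negSucc 594, .ofNat 0, .ofNat 0, .ofNat 1142, .ofNat 723, .ofNat 0, .ofNat 0, .ofNat 85980155390477071021246383988022578249728, .ofNat 0, .ofNat 0, .ofNat 0, .ofNat 0, .ofNat 0, .ofNat 0, .ofNat 0, .ofNat 3622974113931124461187647020190118453444608, .ofNat 0, .ofNat 0, .ofNat 0, .ofNat 19769646786183014952976424275301248320667648, .ofNat 0⟩)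
    (by decide +kernel)
theorem L03289 : Good (Phi V5.P V5.D 1 1) ⟨5, 27, 5, 16, 3, 7, 2, 0, 5, 0⟩ :=
  leafX_sound T5.ok_pp T5.Ypp.bz_eq (w := 241) (c := ⟨⟨.ofNat 1085, .ofNat 133, .negSucc 117, .ofNat 365, .ofNat 1391, .negSucc 1381⟩, ⟨.ofNat 637, .ofNat 186, .negSucc 93, .ofNat 244, .ofNat 830, .negSucc 810⟩, ⟨.negSucc 552, .ofNat 189, .negSucc 13, .ofNat 1028, .negSucc 1475, .ofNat 482⟩, ⟨.ofNat 1309, .ofNat 115, .negSucc 192, .negSucc 423, .ofNat 1754, .negSucc 2137⟩, ⟨.ofNat 583, .negSucc 63, .ofNat 24, .ofNat 1626, .ofNat 590, .ofNat 103⟩, .ofNat 1237, .negSucc 1601, .ofNat 0, .negSucc 1601, .ofNat 2920, .ofNat 0, .ofNat 128, .ofNat 885, .negSucc 1448, .ofNat 0, .ofNat 532, .negSucc 766, .ofNat 0, .ofNat 0, .ofNat 1456, .ofNat 602, .ofNat 0, .ofNat 0, .ofNat 0, .ofNat 0, .ofNat 0, .ofNat 0, .ofNat 14372004388692094410065705915552837511675904, .ofNat 0, .ofNat 0, .ofNat 0,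 .ofNat 12478283806885007145081435179535823487893504, .ofNat 0, .ofNat 0, .ofNat 0, .ofNat 0, .ofNat 0⟩)
    (by decide +kernel)
theorem L03290 : Good (Phi V5.P V5.D 1 1) ⟨5, 27, 5, 17, 3, 7, 2, 0, 5, 0⟩ :=
  leafX_sound T5.ok_pp T5.Ypp.bz_eq (w := 241) (c := ⟨⟨.ofNat 1081, .negSucc 569, .ofNat 280, .ofNat 418, .ofNat 1630, .negSucc 1545⟩, ⟨.ofNat 591, .negSucc 164, .ofNat 118, .ofNat 278, .ofNat 1001, .negSucc 929⟩, ⟨.negSucc 535, .ofNat 465, .negSucc 181, .ofNat 1029, .negSucc 1593, .ofNat 511⟩, ⟨.ofNat 1304, .negSucc 673, .ofNat 177, .negSucc 572, .ofNat 2150, .negSucc 2333⟩, ⟨.ofNat 577, .negSucc 395, .ofNat 351, .ofNat 1915, .ofNat 466, .ofNat 57⟩, .ofNat 1567, .negSucc 2146, .ofNat 0, .negSucc 2146, .ofNat 3812, .ofNat 0, .ofNat 128, .ofNat 1112, .negSucc 1323, .ofNat 0, .ofNat 667, .negSucc 730, .ofNat 0, .ofNat 0, .ofNat 1314, .ofNat 841, .ofNat 0, .ofNat 0, .ofNat 0, .ofNat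 0, .ofNat 0, .ofNat 0, .ofNat 16269329552788886277359299159360024820580352, .ofNat 0, .ofNat 0, .ofNat 0, .ofNat 0, .ofNat 0, .ofNat 0, .ofNat 0, .ofNat 26590692769264745074312184838842626569404416, .ofNat 0⟩)
    (by decide +kernel)
theorem L03291 : Good (Phi V5.P V5.D 1 1) ⟨4, 13, 4, 8, 3, 7, 2, 0, 5, 1⟩ :=
  leafX_sound T5.ok_pp T5.Ypp.bz_eq (w := 231) (c := ⟨⟨.negSucc 155, .negSucc 130, .ofNat 17, .ofNat 1152, .ofNat 208, .negSucc 771⟩, ⟨.negSucc 162, .ofNat 115, .negSucc 58, .ofNat 687, .ofNat 145, .negSucc 443⟩, ⟨.negSucc 52, .ofNat 80, .ofNat 34, .ofNat 230, .negSucc 689, .ofNat 175⟩, ⟨.negSucc 668, .negSucc 121, .negSucc 40, .ofNat 1437, .negSucc 307, .negSucc 1068⟩, ⟨.ofNat 916, .negSucc 289, .ofNat 0, .ofNat 505, .ofNat 1079, .negSucc 202⟩, .ofNat 733, .negSucc 810, .ofNat 0, .negSucc 810, .ofNat 1626, .ofNat 0, .ofNat 128, .ofNat 757, .negSucc 799, .ofNat 0, .ofNat 448,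 .negSucc 367, .ofNat 0, .ofNat 0, .ofNat 923, .ofNat 523, .ofNat 0, .ofNat 0, .ofNat 410513248595798679847632691946286303150080, .ofNat 0, .ofNat 0, .ofNat 0, .ofNat 5204926271408582287039630275657538912387072, .ofNat 0, .ofNat 0, .ofNat 0, .ofNat 0, .ofNat 0, .ofNat 0, .ofNat 0, .ofNat 0, .ofNat 0⟩)
    (by decide +kernel)
theorem L03292 : Good (Phi V5.P V5.D 1 1) ⟨3, 7, 4, 8, 3, 7, 2, 0, 4, 0⟩ :=
  out_sound (S := T5.ds_pp) T5.ok_pp (w := 47) (j := 3) (by decide +kernel)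
theorem L03293 : Good (Phi V5.P V5.D 1 1) ⟨3, 6, 4, 9, 4, 14, 3, 0, 5, 0⟩ :=
  leafX_sound T5.ok_pp T5.Ypp.bz_eq (w := 251) (c := ⟨⟨.ofNat 283, .ofNat 1033, .negSucc 264, .negSucc 636, .ofNat 929, .negSucc 1517⟩, ⟨.ofNat 15, .ofNat 802, .negSucc 169, .negSucc 375, .ofNat 577, .negSucc 922⟩, ⟨.ofNat 69, .negSucc 703, .ofNat 311, .ofNat 1076, .negSucc 1067, .ofNat 640⟩, ⟨.ofNat 395, .ofNat 1196, .negSucc 355, .negSucc 1505, .ofNat 1239, .negSucc 2143⟩, ⟨.ofNat 566, .negSucc 88, .negSucc 69, .ofNat 924, .ofNat 218, .negSucc 93⟩, .ofNat 1783, .negSucc 2449, .ofNat 0, .negSucc 2449, .ofNat 4204, .ofNat 0, .ofNat 128, .ofNat 1882, .negSucc 2850, .ofNat 0, .ofNat 1147, .negSucc 1647, .ofNat 0, .ofNat 0, .ofNat 3119, .ofNat 5058, .ofNat 0, .ofNat 0, .ofNat 0, .ofNat 0, .ofNat 0, .ofNat 0, .ofNat 21481255575695648290118704896526314669407513608192, .ofNat 0, .ofNat 0, .ofNat 0, .ofNat 592789670114668317556609245035069995559754592681984,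 .ofNat 0, .ofNat 0, .ofNat 0, .ofNat 710280251155903405505610375236482201737584722313216, .ofNat 0⟩)
    (by decide +kernel)
theorem L03294 : Good (Phi V5.P V5.D 1 1) ⟨3, 6, 4, 9, 4, 14, 3, 1, 5, 0⟩ :=
  leafX_sound T5.ok_pp T5.Ypp.bz_eq (w := 252) (c := ⟨⟨.ofNat 1533, .ofNat 1557, .negSucc 644, .negSucc 349, .ofNat 572, .negSucc 2917⟩, ⟨.ofNat 748, .ofNat 1148, .negSucc 362, .negSucc 191, .ofNat 359, .negSucc 1773⟩, ⟨.negSucc 1203, .negSucc 981, .ofNat 501, .ofNat 754, .negSucc 496, .ofNat 1540⟩, ⟨.ofNat 2936, .ofNat 1097, .negSucc 666, .negSucc 940, .ofNat 535, .negSucc 4532⟩, ⟨.negSucc 169, .ofNat 835, .negSucc 447, .ofNat 691, .ofNat 491, .ofNat 512⟩, .ofNat 3134, .negSucc 4607, .ofNat 0, .negSucc 4607, .ofNat 7666, .ofNat 0, .ofNat 128, .ofNat 1431, .negSucc 2608, .ofNat 0, .ofNat 882, .negSucc 1546, .ofNat 0, .ofNat 0, .ofNat 2452, .ofNat 1053, .ofNat 0, .ofNat 0, .ofNat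 289331275719279515304670105282568841264199892992, .ofNat 0, .ofNat 0, .ofNat 0, .ofNat 55555398845105031367823554321794719591373538852864, .ofNat 0, .ofNat 0, .ofNat 0, .ofNat 283225173348989280988756934035252850463947343527936, .ofNat 0, .ofNat 0, .ofNat 0, .ofNat 0, .ofNat 0⟩)
    (by decide +kernel)
theorem L03295 : Good (Phi V5.P V5.D 1 1) ⟨3, 7, 4, 9, 4, 14, 2, 0, 5, 0⟩ :=
  leafX_sound T5.ok_pp T5.Ypp.bz_eq (w := 242) (c := ⟨⟨.ofNat 1266, .negSucc 2568, .ofNat 10, .negSucc 361, .ofNat 1455, .negSucc 1835⟩, ⟨.ofNat 801, .negSucc 1381, .ofNat 0, .negSucc 217, .ofNat 940, .negSucc 1162⟩, ⟨.negSucc 713, .ofNat 616, .ofNat 256, .ofNat 716, .negSucc 1546, .ofNat 969⟩, ⟨.ofNat 1875, .negSucc 1656, .negSucc 304, .negSucc 1128, .ofNat 1661, .negSucc 2797⟩, ⟨.ofNat 239, .negSucc 1108, .ofNat 7, .ofNat 918, .ofNat 850, .ofNat 116⟩, .ofNat 1100, .negSucc 1140, .ofNat 0, .negSucc 1140,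 .ofNat 1712, .ofNat 0, .ofNat 128, .ofNat 595, .negSucc 1155, .ofNat 0, .ofNat 412, .negSucc 669, .ofNat 0, .ofNat 0, .ofNat 991, .ofNat 559, .ofNat 0, .ofNat 0, .ofNat 15519266497966856264246725393767828116530528256, .ofNat 0, .ofNat 0, .ofNat 0, .ofNat 102570188701547674508789690279285709996761808896, .ofNat 0, .ofNat 0, .ofNat 0, .ofNat 0, .ofNat 6166951997183962313789748870884893532934024189253255168, .ofNat 0, .ofNat 0, .ofNat 234960374192580142502413080457785969469326098432, .ofNat 7833157430130392797933300842216255431711520193050050560⟩)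
    (by decide +kernel)
theorem L03296 : Good (Phi V5.P V5.D 1 1) ⟨3, 6, 4, 9, 4, 14, 2, 0, 5, 1⟩ :=
  leafX_sound T5.ok_pp T5.Ypp.bz_eq (w := 245) (c := ⟨⟨.ofNat 791, .negSucc 1167, .ofNat 106, .ofNat 147, .negSucc 79, .negSucc 643⟩, ⟨.ofNat 274, .negSucc 460, .negSucc 21, .ofNat 102, .negSucc 22, .negSucc 395⟩, ⟨.negSucc 1358, .ofNat 1644, .negSucc 106, .ofNat 250, .negSucc 505, .ofNat 155⟩, ⟨.ofNat 453, .negSucc 1161, .ofNat 14, .negSucc 85, .negSucc 865, .negSucc 932⟩, ⟨.ofNat 864, .negSucc 542, .ofNat 118, .ofNat 484, .ofNat 1247, .negSucc 16⟩, .ofNat 1801, .negSucc 2469, .ofNat 0, .negSucc 2469, .ofNat 4217, .ofNat 0, .ofNat 128, .ofNat 1113, .negSucc 1167, .ofNat 0, .ofNat 684, .negSucc 667, .ofNat 0, .ofNat 0, .ofNat 1580, .ofNat 5324, .ofNat 0, .ofNat 0, .ofNat 0, .ofNat 0, .ofNat 0, .ofNat 0, .ofNat 2344505482650994816990718499076483297854839848960, .ofNat 0, .ofNat 0,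 .ofNat 0, .ofNat 0, .ofNat 0, .ofNat 0, .ofNat 0, .ofNat 2609289268844136962081177161738362080999684177920, .ofNat 0⟩)
    (by decide +kernel)
theorem L03297 : Good (Phi V5.P V5.D 1 1) ⟨3, 7, 4, 9, 4, 14, 2, 0, 5, 1⟩ :=
  leafX_sound T5.ok_pp T5.Ypp.bz_eq (w := 241) (c := ⟨⟨.negSucc 363, .negSucc 17, .negSucc 2, .ofNat 246, .negSucc 60, .negSucc 604⟩, ⟨.negSucc 177, .ofNat 166, .negSucc 70, .ofNat 165, .negSucc 18, .negSucc 385⟩, ⟨.ofNat 237, .ofNat 736, .negSucc 7, .ofNat 178, .negSucc 513, .ofNat 127⟩, ⟨.negSucc 744, .negSucc 217, .ofNat 30, .ofNat 49, .negSucc 909, .negSucc 806⟩, ⟨.ofNat 401, .ofNat 182, .negSucc 95, .ofNat 468, .ofNat 1315, .negSucc 113⟩, .ofNat 1074, .negSucc 1107, .ofNat 0, .negSucc 1107, .ofNat 1669, .ofNat 0, .ofNat 128, .ofNat 414, .negSucc 632, .ofNat 0, .ofNat 292, .negSucc 348, .ofNat 0, .ofNat 0, .ofNat 736, .ofNat 3690, .ofNat 0, .ofNat 0, .ofNat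 0, .ofNat 0, .ofNat 0, .ofNat 0, .ofNat 916295898097556852903108055977948892141545586688, .ofNat 0, .ofNat 0, .ofNat 0, .ofNat 196285387300832818146441874894117363779079503872, .ofNat 0, .ofNat 0, .ofNat 0, .ofNat 434037552043505222262697647209516541081185943552, .ofNat 2271347981050235527658963914381329826835097339717222400⟩)
    (by decide +kernel)
theorem L03298 : Good (Phi V5.P V5.D 1 1) ⟨4, 12, 4, 9, 4, 15, 3, 0, 4, 0⟩ :=
  out_sound (S := T5.ds_pp) T5.ok_pp (w := 53) (j := 3) (by decide +kernel)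
theorem L03299 : Good (Phi V5.P V5.D 1 1) ⟨5, 26, 4, 9, 4, 15, 3, 0, 4, 0⟩ :=
  out_sound (S := T5.ds_pp) T5.ok_pp (w := 59) (j := 3) (by decide +kernel)
theorem L03300 : Good (Phi V5.P V5.D 1 1) ⟨5, 27, 4, 9, 4, 15, 3, 0, 4, 0⟩ :=
  leafX_sound T5.ok_pp T5.Ypp.bz_eq (w := 253) (c := ⟨⟨.ofNat 593, .negSucc 660, .ofNat 393, .ofNat 1189, .ofNat 359, .negSucc 910⟩, ⟨.ofNat 369, .negSucc 368, .ofNat 217, .ofNat 740, .ofNat 235, .negSucc 578⟩, ⟨.ofNat 753, .ofNat 142, .ofNat 23, .ofNat 94, .negSucc 714, .negSucc 352⟩, ⟨.negSucc 554, .negSucc 336, .ofNat 147, .ofNat 1399, .ofNat 253, .negSucc 585⟩, ⟨.ofNat 2310, .negSucc 979, .ofNat 528, .ofNat 529, .ofNat 474, .negSucc 1199⟩, .ofNat 1785, .negSucc 2449, .ofNat 0, .negSucc 2449, .ofNat 4195, .ofNat 0, .ofNat 128, .ofNat 1815, .negSucc 1759, .ofNat 0, .ofNat 1120, .negSucc 997, .ofNat 0, .ofNat 0, .ofNat 2227, .ofNat 766, .ofNat 0, .ofNat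 0, .ofNat 2687312508330456826008337777732744679167885312, .ofNat 0, .ofNat 0, .ofNat 0, .ofNat 110536874122268779292172423984282356201746857984, .ofNat 0, .ofNat 0, .ofNat 0, .ofNat 0, .ofNat 0, .ofNat 0, .ofNat 0, .ofNat 1743658561040158421088059715913118921563297546240, .ofNat 0⟩)
    (by decide +kernel)
theorem L03301 : Good (Phi V5.P V5.D 1 1) ⟨5, 28, 4, 9, 4, 15, 3, 0, 4, 0⟩ :=
  leafX_sound T5.ok_pp T5.Ypp.bz_eq (w := 254) (c := ⟨⟨.negSucc 185, .negSucc 570, .ofNat 494, .ofNat 1153, .ofNat 406, .negSucc 926⟩, ⟨.negSucc 75, .negSucc 311, .ofNat 278, .ofNat 740, .ofNat 270, .negSucc 605⟩, ⟨.ofNat 970, .ofNat 201, .negSucc 65, .ofNat 54, .negSucc 732, .negSucc 310⟩, ⟨.negSucc 932, .negSucc 431, .ofNat 290, .ofNat 1306, .ofNat 182, .negSucc 596⟩, ⟨.ofNat 1156, .negSucc 523, .ofNat 511, .ofNat 520, .ofNat 639, .negSucc 1140⟩, .ofNat 2417, .negSucc 3254, .ofNat 0, .negSucc 3254,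 .ofNat 5151, .ofNat 0, .ofNat 128, .ofNat 2059, .negSucc 1869, .ofNat 0, .ofNat 1341, .negSucc 1102, .ofNat 0, .ofNat 0, .ofNat 2317, .ofNat 2223, .ofNat 0, .ofNat 0, .ofNat 0, .ofNat 0, .ofNat 0, .ofNat 0, .ofNat 195849485689828423654398898362686605281510555648, .ofNat 0, .ofNat 0, .ofNat 0, .ofNat 159533205023610673588409555919904497809210998784, .ofNat 0, .ofNat 0, .ofNat 0, .ofNat 392039540418521180713497648751066055315831128064, .ofNat 0⟩)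
    (by decide +kernel)
theorem L03302 : Good (Phi V5.P V5.D 1 1) ⟨5, 29, 4, 9, 4, 15, 3, 0, 4, 0⟩ :=
  out_sound (S := T5.ds_pp) T5.ok_pp (w := 59) (j := 3) (by decide +kernel)
theorem L03303 : Good (Phi V5.P V5.D 1 1) ⟨4, 15, 4, 9, 4, 15, 3, 0, 4, 0⟩ :=
  out_sound (S := T5.ds_pp) T5.ok_pp (w := 53) (j := 3) (by decide +kernel)
theorem L03304 : Good (Phi V5.P V5.D 1 1) ⟨4, 12, 4, 9, 4, 15, 3, 1, 4, 0⟩ :=
  out_sound (S := T5.ds_pp) T5.ok_pp (w := 53) (j := 3) (by decide +kernel)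
theorem L03305 : Good (Phi V5.P V5.D 1 1) ⟨5, 26, 4, 9, 4, 15, 3, 1, 4, 0⟩ :=
  out_sound (S := T5.ds_pp) T5.ok_pp (w := 59) (j := 3) (by decide +kernel)
theorem L03306 : Good (Phi V5.P V5.D 1 1) ⟨5, 27, 4, 9, 4, 15, 3, 1, 5, 0⟩ :=
  leafX_sound T5.ok_pp T5.Ypp.bz_eq (w := 260) (c := ⟨⟨.ofNat 1386, .ofNat 202, .negSucc 77, .ofNat 1550, .ofNat 598, .negSucc 1759⟩, ⟨.ofNat 813, .ofNat 234, .negSucc 75, .ofNat 965, .ofNat 380, .negSucc 1097⟩, ⟨.negSucc 136, .negSucc 426, .ofNat 256, .negSucc 24, .negSucc 728, .ofNat 523⟩, ⟨.ofNat 842, .ofNat 325, .negSucc 226, .ofNat 1626, .ofNat 513, .negSucc 2263⟩, ⟨.ofNat 2116, .negSucc 271, .ofNat 70, .ofNat 991, .ofNat 577, .negSucc 474⟩, .ofNat 2412, .negSucc 3451, .ofNat 0, .negSucc 3451, .ofNat 5812, .ofNat 0, .ofNat 128, .ofNat 1838, .negSucc 2720, .ofNat 0, .ofNat 1142, .negSucc 1579, .ofNat 0, .ofNat 0, .ofNat 2498, .ofNat 1648, .ofNat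 0, .ofNat 0, .ofNat 0, .ofNat 0, .ofNat 0, .ofNat 0, .ofNat 5839281707323545703607586391174183487672191811584, .ofNat 0, .ofNat 0, .ofNat 0, .ofNat 0, .ofNat 0, .ofNat 0, .ofNat 0, .ofNat 42744882511899284825038852613444574059440742858752, .ofNat 0⟩)
    (by decide +kernel)
theorem L03307 : Good (Phi V5.P V5.D 1 1) ⟨5, 27, 4, 9, 4, 15, 3, 1, 5, 1⟩ :=
  leafX_sound T5.ok_pp T5.Ypp.bz_eq (w := 257) (c := ⟨⟨.ofNat 128, .negSucc 210, .ofNat 171, .ofNat 1579, .ofNat 113, .negSucc 774⟩, ⟨.ofNat 39, .negSucc 21, .ofNat 34, .ofNat 966, .ofNat 85, .negSucc 469⟩, ⟨.negSucc 44, .ofNat 208, .negSucc 184, .negSucc 333, .negSucc 392, .ofNat 140⟩, ⟨.negSucc 725, .negSucc 372, .ofNat 327, .ofNat 2218, .negSucc 298, .negSucc 914⟩, ⟨.ofNat 1574, .ofNat 75, .negSucc 272, .ofNat 106, .ofNat 754, .negSucc 361⟩, .ofNat 1770, .negSucc 2430, .ofNat 0, .negSucc 2430, .ofNat 4175, .ofNat 0, .ofNat 128,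 .ofNat 1576, .negSucc 1538, .ofNat 0, .ofNat 975, .negSucc 854, .ofNat 0, .ofNat 0, .ofNat 1834, .ofNat 6776, .ofNat 0, .ofNat 0, .ofNat 0, .ofNat 0, .ofNat 0, .ofNat 0, .ofNat 6269254052662924928744150311799974078278350667776, .ofNat 0, .ofNat 0, .ofNat 0, .ofNat 0, .ofNat 0, .ofNat 0, .ofNat 0, .ofNat 0, .ofNat 0⟩)
    (by decide +kernel)
theorem L03308 : Good (Phi V5.P V5.D 1 1) ⟨6, 56, 4, 9, 4, 15, 3, 1, 5, 0⟩ :=
  leafX_sound T5.ok_pp T5.Ypp.bz_eq (w := 264) (c := ⟨⟨.ofNat 2086, .ofNat 222, .negSucc 342, .ofNat 1556, .ofNat 688, .negSucc 2218⟩, ⟨.ofNat 1372, .ofNat 239, .negSucc 275, .ofNat 1006, .ofNat 450, .negSucc 1422⟩, ⟨.negSucc 673, .ofNat 9, .ofNat 122, .negSucc 59, .negSucc 773, .ofNat 786⟩, ⟨.ofNat 1949, .ofNat 52, .negSucc 428, .ofNat 1398, .ofNat 699, .negSucc 2993⟩, ⟨.ofNat 1730, .ofNat 275, .negSucc 171, .ofNat 1268, .ofNat 460, .negSucc 285⟩, .ofNat 2365, .negSucc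 3246, .ofNat 0, .negSucc 3246, .ofNat 5255, .ofNat 0, .ofNat 128, .ofNat 1803, .negSucc 3083, .ofNat 0, .ofNat 1161, .negSucc 1835, .ofNat 0, .ofNat 0, .ofNat 2725, .ofNat 3160, .ofNat 0, .ofNat 0, .ofNat 0, .ofNat 0, .ofNat 0, .ofNat 0, .ofNat 2809042314901521725817650101442517180530114428928, .ofNat 0, .ofNat 0, .ofNat 0, .ofNat 1755493046696889693578850237806909388828392292352, .ofNat 0, .ofNat 0, .ofNat 0, .ofNat 15783066643639572969021182287819292749399672750080, .ofNat 0⟩)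
    (by decide +kernel)
theorem L03309 : Good (Phi V5.P V5.D 1 1) ⟨6, 56, 4, 9, 4, 15, 3, 1, 5, 1⟩ :=
  leafX_sound T5.ok_pp T5.Ypp.bz_eq (w := 262) (c := ⟨⟨.negSucc 149, .negSucc 470, .ofNat 382, .ofNat 1616, .ofNat 73, .negSucc 835⟩, ⟨.negSucc 22, .negSucc 236, .ofNat 162, .ofNat 1026, .ofNat 57, .negSucc 535⟩, ⟨.ofNat 355, .ofNat 529, .negSucc 470, .negSucc 379, .negSucc 395, .ofNat 172⟩, ⟨.negSucc 1123, .negSucc 660, .ofNat 491, .ofNat 2220, .negSucc 394, .negSucc 976⟩, ⟨.ofNat 1553, .negSucc 9, .negSucc 52, .ofNat 133, .ofNat 788, .negSucc 346⟩, .ofNat 2060, .negSucc 2812, .ofNat 0, .negSucc 2812, .ofNat 4629, .ofNat 0, .ofNat 128, .ofNat 1644, .negSucc 1862, .ofNat 0, .ofNat 1046, .negSucc 1091, .ofNat 0, .ofNat 0, .ofNat 2189, .ofNat 5525, .ofNat 0, .ofNat 0, .ofNat 0, .ofNat 0, .ofNat 0, .ofNat 0, .ofNat 3023049460564556684263210116882426901903615983616, .ofNat 0, .ofNat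 0, .ofNat 0, .ofNat 0, .ofNat 0, .ofNat 0, .ofNat 0, .ofNat 0, .ofNat 0⟩)
    (by decide +kernel)
theorem L03310 : Good (Phi V5.P V5.D 1 1) ⟨6, 57, 4, 9, 4, 15, 3, 1, 4, 0⟩ :=
  out_sound (S := T5.ds_pp) T5.ok_pp (w := 65) (j := 3) (by decide +kernel)
theorem L03311 : Good (Phi V5.P V5.D 1 1) ⟨5, 29, 4, 9, 4, 15, 3, 1, 4, 0⟩ :=
  out_sound (S := T5.ds_pp) T5.ok_pp (w := 59) (j := 3) (by decide +kernel)
theorem L03312 : Good (Phi V5.P V5.D 1 1) ⟨4, 15, 4, 9, 4, 15, 3, 1, 4, 0⟩ :=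
  out_sound (S := T5.ds_pp) T5.ok_pp (w := 53) (j := 3) (by decide +kernel)
theorem L03313 : Good (Phi V5.P V5.D 1 1) ⟨3, 6, 3, 4, 3, 7, 2, 0, 4, 1⟩ :=
  leafX_sound T5.ok_pp T5.Ypp.bz_eq (w := 219) (c := ⟨⟨.negSucc 107, .negSucc 1043, .ofNat 374, .ofNat 1390, .negSucc 744, .negSucc 745⟩, ⟨.negSucc 174, .negSucc 384, .negSucc 2, .ofNat 841, .negSucc 396, .negSucc 437⟩, ⟨.negSucc 1227, .ofNat 1739, .negSucc 585, .negSucc 288, .ofNat 306, .ofNat 244⟩, ⟨.negSucc 677, .negSucc 1234, .ofNat 429, .ofNat 1895, .negSucc 1806, .negSucc 1130⟩, ⟨.ofNat 735, .negSucc 232, .ofNat 36, .ofNat 247, .ofNat 1212, .ofNat 36⟩, .ofNat 753, .negSucc 833, .ofNat 0, .negSucc 833, .ofNat 1631, .ofNat 0, .ofNat 128, .ofNat 397, .negSucc 329, .ofNat 0, .ofNat 248, .negSucc 147, .ofNat 0, .ofNat 0, .ofNat 574, .ofNat 997, .ofNat 0, .ofNat 0, .ofNat 9733730624693802161795545270372305731584, .ofNat 0, .ofNat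 0, .ofNat 0, .ofNat 39017053822057223754725870935335914962944, .ofNat 0, .ofNat 0, .ofNat 0, .ofNat 945468666881191511160472182143346135793664, .ofNat 0, .ofNat 0, .ofNat 0, .ofNat 423789527801276336981176651410444713459712, .ofNat 0⟩)
    (by decide +kernel)
theorem L03314 : Good (Phi V5.P V5.D 1 1) ⟨3, 7, 3, 4, 3, 7, 2, 0, 4, 1⟩ :=
  leafX_sound T5.ok_pp T5.Ypp.bz_eq (w := 219) (c := ⟨⟨.negSucc 886, .negSucc 823, .ofNat 141, .ofNat 1569, .negSucc 729, .negSucc 931⟩, ⟨.negSucc 387, .negSucc 464, .negSucc 105, .ofNat 1001, .negSucc 438, .negSucc 589⟩, ⟨.ofNat 136, .ofNat 1213, .negSucc 40, .negSucc 422, .ofNat 199, .ofNat 379⟩, ⟨.negSucc 1461, .negSucc 317, .ofNat 210, .ofNat 1998, .negSucc 1952, .negSucc 1352⟩, ⟨.ofNat 528, .negSucc 674, .negSucc 280, .ofNat 426, .ofNat 1433, .ofNat 18⟩, .ofNat 797, .negSucc 747, .ofNat 0, .negSucc 747, .ofNat 1191, .ofNat 0, .ofNat 128, .ofNat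 288, .negSucc 313, .ofNat 0, .ofNat 223, .negSucc 139, .ofNat 0, .ofNat 0, .ofNat 501, .ofNat 1086, .ofNat 0, .ofNat 0, .ofNat 367066864820929658377611476142754103296, .ofNat 44055720137398749344435640346472197816829607936, .ofNat 0, .ofNat 0, .ofNat 197014888388603037469887855482849240023040, .ofNat 6049741665285268094608827905246736484514398208, .ofNat 0, .ofNat 0, .ofNat 19686627719194073719894051075814240288768, .ofNat 702455343652761704901812711262950585338353942528, .ofNat 0, .ofNat 0, .ofNat 328412829045783283850551658246875513880576, .ofNat 0⟩)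
    (by decide +kernel)
theorem L03315 : Good (Phi V5.P V5.D 1 1) ⟨2, 2, 3, 4, 2, 3, 2, 0, 3, 1⟩ :=
  out_sound (S := T5.ds_pp) T5.ok_pp (w := 39) (j := 3) (by decide +kernel)
theorem L03316 : Good (Phi V5.P V5.D 1 1) ⟨4, 12, 3, 4, 2, 3, 2, 0, 4, 2⟩ :=
  out_sound (S := T5.ds_pp) T5.ok_pp (w := 51) (j := 3) (by decide +kernel)
theorem L03317 : Good (Phi V5.P V5.D 1 1) ⟨4, 13, 3, 4, 3, 6, 2, 0, 4, 2⟩ :=
  leafX_sound T5.ok_pp T5.Ypp.bz_eq (w := 223) (c := ⟨⟨.negSucc 1783, .negSucc 67, .negSucc 59, .ofNat 385, .negSucc 1006, .negSucc 152⟩, ⟨.negSucc 927, .negSucc 104, .negSucc 222, .ofNat 244, .negSucc 578, .negSucc 94⟩, ⟨.negSucc 234, .negSucc 61, .ofNat 213, .negSucc 104, .ofNat 1313, .ofNat 237⟩, ⟨.negSucc 2779, .ofNat 32, .negSucc 10, .ofNat 147, .negSucc 1769, .negSucc 18⟩, ⟨.ofNat 36, .ofNat 172, .negSucc 193, .ofNat 708, .ofNat 495, .negSucc 345⟩, .ofNat 756, .negSucc 838,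 .ofNat 0, .negSucc 838, .ofNat 1641, .ofNat 0, .ofNat 128, .ofNat 257, .negSucc 128, .ofNat 0, .ofNat 175, .negSucc 56, .ofNat 0, .ofNat 0, .ofNat 401, .ofNat 2664, .ofNat 0, .ofNat 0, .ofNat 0, .ofNat 0, .ofNat 0, .ofNat 0, .ofNat 0, .ofNat 0, .ofNat 0, .ofNat 0, .ofNat 0, .ofNat 0, .ofNat 21879342806628865636439212331715872918947758080, .ofNat 0, .ofNat 20743742760498617891966298309986541895680, .ofNat 0⟩)
    (by decide +kernel)
theorem L03318 : Good (Phi V5.P V5.D 1 1) ⟨4, 13, 3, 4, 3, 7, 2, 0, 4, 2⟩ :=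
  leafX_sound T5.ok_pp T5.Ypp.bz_eq (w := 224) (c := ⟨⟨.negSucc 1413, .negSucc 112, .ofNat 71, .ofNat 1002, .negSucc 776, .negSucc 321⟩, ⟨.negSucc 783, .ofNat 6, .negSucc 193, .ofNat 608, .negSucc 430, .negSucc 194⟩, ⟨.ofNat 46, .negSucc 53, .ofNat 70, .negSucc 241, .ofNat 728, .ofNat 289⟩, ⟨.negSucc 2517, .ofNat 103, .ofNat 7, .ofNat 921, .negSucc 1649, .negSucc 299⟩, ⟨.ofNat 655, .negSucc 300, .ofNat 107, .ofNat 935, .ofNat 905, .negSucc 281⟩, .ofNat 2032, .negSucc 2916, .ofNat 0, .negSucc 2916, .ofNat 5103, .ofNat 0, .ofNat 128, .ofNat 492, .negSucc 161, .ofNat 0, .ofNat 313, .negSucc 83, .ofNat 0, .ofNat 0, .ofNat 569, .ofNat 2651, .ofNat 0, .ofNat 0, .ofNat 5971655379286502559443263772240633659392, .ofNat 0, .ofNat 0, .ofNat 0, .ofNat 998091335837475723176769154318122124050432, .ofNat 0, .ofNat 0, .ofNat 0, .ofNat 0, .ofNat 0, .ofNat 32713572063082338168186299569530352226256551936,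 .ofNat 0, .ofNat 82492435923343416040842507839258536968192, .ofNat 0⟩)
    (by decide +kernel)
theorem L03319 : Good (Phi V5.P V5.D 1 1) ⟨5, 28, 4, 8, 2, 3, 2, 0, 4, 2⟩ :=
  out_sound (S := T5.ds_pp) T5.ok_pp (w := 59) (j := 3) (by decide +kernel)
theorem L03320 : Good (Phi V5.P V5.D 1 1) ⟨5, 28, 4, 9, 3, 6, 2, 0, 4, 2⟩ :=
  leafX_sound T5.ok_pp T5.Ypp.bz_eq (w := 236) (c := ⟨⟨.negSucc 1844, .negSucc 32, .negSucc 41, .ofNat 394, .negSucc 1041, .negSucc 156⟩, ⟨.negSucc 1096, .negSucc 50, .negSucc 108, .ofNat 258, .negSucc 651, .negSucc 103⟩, ⟨.negSucc 140, .ofNat 33, .ofNat 140, .negSucc 78, .ofNat 1249, .ofNat 169⟩, ⟨.negSucc 2635, .ofNat 15, .negSucc 78, .ofNat 194, .negSucc 1814, .negSucc 56⟩, ⟨.negSucc 3, .ofNat 61, .ofNat 15, .ofNat 580, .ofNat 523, .negSucc 261⟩, .ofNat 3889, .negSucc 5657, .ofNat 0, .negSucc 5657, .ofNat 9071, .ofNat 0, .ofNat 128, .ofNat 1192, .negSucc 526,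 .ofNat 0, .ofNat 777, .negSucc 318, .ofNat 0, .ofNat 0, .ofNat 1837, .ofNat 5822, .ofNat 0, .ofNat 0, .ofNat 0, .ofNat 0, .ofNat 0, .ofNat 0, .ofNat 8316696460552715437447000319939391594168320, .ofNat 0, .ofNat 0, .ofNat 0, .ofNat 0, .ofNat 0, .ofNat 0, .ofNat 0, .ofNat 0, .ofNat 0⟩)
    (by decide +kernel)
theorem L03321 : Good (Phi V5.P V5.D 1 1) ⟨5, 28, 4, 9, 3, 7, 2, 0, 4, 2⟩ :=
  leafX_sound T5.ok_pp T5.Ypp.bz_eq (w := 233) (c := ⟨⟨.negSucc 1536, .negSucc 261, .ofNat 81, .ofNat 1123, .negSucc 792, .negSucc 345⟩, ⟨.negSucc 901, .negSucc 153, .negSucc 37, .ofNat 727, .negSucc 484, .negSucc 222⟩, ⟨.ofNat 162, .negSucc 122, .ofNat 85, .negSucc 319, .ofNat 631, .ofNat 223⟩, ⟨.negSucc 2398, .negSucc 457, .ofNat 185, .ofNat 1135, .negSucc 1899, .negSucc 307⟩, ⟨.ofNat 382, .ofNat 366, .negSucc 216, .ofNat 744, .ofNat 1211, .negSucc 290⟩, .ofNat 2052, .negSucc 2799, .ofNat 0, .negSucc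 2799, .ofNat 4609, .ofNat 0, .ofNat 128, .ofNat 1111, .negSucc 370, .ofNat 0, .ofNat 734, .negSucc 209, .ofNat 0, .ofNat 0, .ofNat 1230, .ofNat 4804, .ofNat 0, .ofNat 0, .ofNat 10481198841597944724031063740897319452672, .ofNat 0, .ofNat 0, .ofNat 0, .ofNat 1252062774405431266415513168644272591732736, .ofNat 0, .ofNat 0, .ofNat 0, .ofNat 1148216970988352495726072082181515980570624, .ofNat 0, .ofNat 26532047611486204666354321712771173917628984983552, .ofNat 0, .ofNat 708238444036557931364955710615016649523200, .ofNat 0⟩)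
    (by decide +kernel)
theorem L03322 : Good (Phi V5.P V5.D 1 1) ⟨5, 29, 3, 4, 2, 3, 2, 0, 4, 2⟩ :=
  out_sound (S := T5.ds_pp) T5.ok_pp (w := 57) (j := 3) (by decide +kernel)
theorem L03323 : Good (Phi V5.P V5.D 1 1) ⟨4, 15, 3, 4, 2, 3, 2, 0, 4, 2⟩ :=
  out_sound (S := T5.ds_pp) T5.ok_pp (w := 51) (j := 3) (by decide +kernel)
theorem L03324 : Good (Phi V5.P V5.D 1 1) ⟨4, 12, 3, 4, 2, 3, 2, 0, 4, 3⟩ :=
  out_sound (S := T5.ds_pp) T5.ok_pp (w := 51) (j := 3) (by decide +kernel)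
theorem L03325 : Good (Phi V5.P V5.D 1 1) ⟨4, 13, 3, 4, 2, 3, 2, 0, 5, 6⟩ :=
  leafX_sound T5.ok_pp T5.Ypp.bz_eq (w := 215) (c := ⟨⟨.negSucc 2195, .negSucc 53, .negSucc 34, .ofNat 1181, .negSucc 734, .ofNat 21⟩, ⟨.negSucc 1211, .negSucc 36, .negSucc 231, .ofNat 727, .negSucc 414, .ofNat 4⟩, ⟨.ofNat 264, .negSucc 72, .ofNat 122, .negSucc 340, .ofNat 1007, .ofNat 54⟩, ⟨.negSucc 3118, .ofNat 40, .ofNat 104, .ofNat 778, .negSucc 1415, .ofNat 118⟩, ⟨.negSucc 389, .ofNat 96, .negSucc 296, .ofNat 1647, .ofNat 587, .negSucc 123⟩, .ofNat 747, .negSucc 827, .ofNat 0, .negSucc 827, .ofNat 1635, .ofNat 0, .ofNat 128, .ofNat 439, .negSucc 177, .ofNat 0, .ofNat 320, .negSucc 68, .ofNat 0, .ofNat 0, .ofNat 816, .ofNat 3105, .ofNat 937950807365338758518902703539245941784576, .ofNat 0, .ofNat 12063146387866192155728291311525036032, .ofNat 0, .ofNat 0, .ofNat 0, .ofNat 513836716266007061030886890409402826752,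 .ofNat 0, .ofNat 0, .ofNat 0, .ofNat 0, .ofNat 0, .ofNat 397883695814444000167759236622848819791396864, .ofNat 0, .ofNat 120371821660083893923867661713918656512, .ofNat 0⟩)
    (by decide +kernel)
theorem L03326 : Good (Phi V5.P V5.D 1 1) ⟨4, 13, 3, 4, 2, 3, 2, 0, 5, 7⟩ :=
  leafX_sound T5.ok_pp T5.Ypp.bz_eq (w := 215) (c := ⟨⟨.negSucc 2164, .negSucc 37, .ofNat 23, .ofNat 1012, .negSucc 651, .negSucc 6⟩, ⟨.negSucc 1191, .negSucc 51, .negSucc 171, .ofNat 633, .negSucc 365, .negSucc 10⟩, ⟨.ofNat 236, .negSucc 11, .ofNat 38, .negSucc 221, .ofNat 993, .negSucc 7⟩, ⟨.negSucc 3074, .ofNat 116, .ofNat 52, .ofNat 572, .negSucc 1213, .ofNat 159⟩, ⟨.negSucc 396, .ofNat 102, .negSucc 118, .ofNat 1530, .ofNat 428, .negSucc 277⟩, .ofNat 1089, .negSucc 1378, .ofNat 0, .negSucc 1378, .ofNat 2562, .ofNat 0, .ofNat 128, .ofNat 387, .negSucc 139, .ofNat 0, .ofNat 271, .negSucc 58, .ofNat 0, .ofNat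 0, .ofNat 974, .ofNat 5421, .ofNat 1718682659691635805493137071578027458035712, .ofNat 0, .ofNat 8776770260696346144349152344518164480, .ofNat 0, .ofNat 0, .ofNat 0, .ofNat 1605135065427142635824086316573962272768, .ofNat 0, .ofNat 0, .ofNat 0, .ofNat 3365215506704645409273592235843645341696, .ofNat 0, .ofNat 638754322216614035439316301756388464637509632, .ofNat 0, .ofNat 554213752686089863250148069737907617792, .ofNat 0⟩)
    (by decide +kernel)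
theorem L03327 : Good (Phi V5.P V5.D 1 1) ⟨5, 28, 4, 8, 2, 3, 2, 0, 4, 3⟩ :=
  out_sound (S := T5.ds_pp) T5.ok_pp (w := 59) (j := 3) (by decide +kernel)
theorem L03328 : Good (Phi V5.P V5.D 1 1) ⟨6, 56, 4, 9, 3, 6, 2, 0, 4, 3⟩ :=
  leafX_sound T5.ok_pp T5.Ypp.bz_eq (w := 238) (c := ⟨⟨.negSucc 2216, .negSucc 81, .ofNat 79, .ofNat 384, .negSucc 810, .ofNat 154⟩, ⟨.negSucc 1330, .negSucc 70, .negSucc 34, .ofNat 250, .negSucc 508, .ofNat 93⟩, ⟨.ofNat 158, .ofNat 65, .negSucc 51, .negSucc 178, .ofNat 1316, .negSucc 75⟩, ⟨.negSucc 3119, .negSucc 6, .ofNat 74, .ofNat 260, .negSucc 1310, .ofNat 406⟩, ⟨.negSucc 78, .negSucc 63, .ofNat 42, .ofNat 453, .ofNat 250, .negSucc 296⟩, .ofNat 3130, .negSucc 4420, .ofNat 0, .negSucc 4420, .ofNat 7065, .ofNat 0, .ofNat 128, .ofNat 900, .negSucc 259, .ofNat 0, .ofNat 618, .negSucc 145, .ofNat 0, .ofNat 0, .ofNat 1541, .ofNat 13521, .ofNat 0, .ofNat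 0, .ofNat 0, .ofNat 0, .ofNat 0, .ofNat 0, .ofNat 1135403992084082698758931290049023272026112, .ofNat 0, .ofNat 0, .ofNat 0, .ofNat 0, .ofNat 0, .ofNat 1742739404259465099285729384060209676200590637531136, .ofNat 0, .ofNat 1215954291977823069621939481620957313892352, .ofNat 0⟩)
    (by decide +kernel)
theorem L03329 : Good (Phi V5.P V5.D 1 1) ⟨6, 56, 4, 9, 3, 7, 2, 0, 4, 3⟩ :=
  leafX_sound T5.ok_pp T5.Ypp.bz_eq (w := 237) (c := ⟨⟨.negSucc 1790, .negSucc 65, .ofNat 68, .ofNat 786, .negSucc 671, .negSucc 68⟩, ⟨.negSucc 1062, .negSucc 38, .negSucc 46, .ofNat 515, .negSucc 412, .negSucc 47⟩, ⟨.ofNat 184, .ofNat 42, .negSucc 34, .negSucc 20, .ofNat 831, .ofNat 79⟩, ⟨.negSucc 2564, .ofNat 9, .ofNat 44, .ofNat 400, .negSucc 1471, .ofNat 149⟩, ⟨.ofNat 37, .negSucc 91, .ofNat 36, .ofNat 1141, .ofNat 813, .negSucc 389⟩, .ofNat 2966, .negSucc 4222, .ofNat 0, .negSucc 4222, .ofNat 6836, .ofNat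 0, .ofNat 128, .ofNat 632, .negSucc 143, .ofNat 0, .ofNat 425, .negSucc 79, .ofNat 0, .ofNat 0, .ofNat 1057, .ofNat 7669, .ofNat 554884969613374807907251899023938500642188820480, .ofNat 0, .ofNat 3954526220771815622424844502731629527040, .ofNat 0, .ofNat 0, .ofNat 0, .ofNat 938620597631915561997250585041400005394432, .ofNat 0, .ofNat 0, .ofNat 0, .ofNat 410503716625776799599813421738448853663744, .ofNat 0, .ofNat 500000287318825487980397973306441808728240729096192, .ofNat 0, .ofNat 303026839600166890120834206383195094515712, .ofNat 0⟩)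
    (by decide +kernel)
theorem L03330 : Good (Phi V5.P V5.D 1 1) ⟨6, 57, 4, 9, 2, 3, 2, 0, 4, 3⟩ :=
  out_sound (S := T5.ds_pp) T5.ok_pp (w := 65) (j := 3) (by decide +kernel)
theorem L03331 : Good (Phi V5.P V5.D 1 1) ⟨5, 29, 3, 4, 2, 3, 2, 0, 4, 3⟩ :=
  out_sound (S := T5.ds_pp) T5.ok_pp (w := 57) (j := 3) (by decide +kernel)
theorem L03332 : Good (Phi V5.P V5.D 1 1) ⟨4, 15, 3, 4, 2, 3, 2, 0, 4, 3⟩ :=
  out_sound (S := T5.ds_pp) T5.ok_pp (w := 51) (j := 3) (by decide +kernel)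
theorem L03333 : Good (Phi V5.P V5.D 1 1) ⟨2, 2, 3, 5, 2, 3, 2, 0, 3, 0⟩ :=
  out_sound (S := T5.ds_pp) T5.ok_pp (w := 39) (j := 3) (by decide +kernel)
theorem L03334 : Good (Phi V5.P V5.D 1 1) ⟨3, 6, 3, 5, 2, 3, 2, 0, 4, 0⟩ :=
  out_sound (S := T5.ds_pp) T5.ok_pp (w := 45) (j := 3) (by decide +kernel)
theorem L03335 : Good (Phi V5.P V5.D 1 1) ⟨5, 28, 4, 10, 3, 6, 3, 0, 5, 0⟩ :=
  leafX_sound T5.ok_pp T5.Ypp.bz_eq (w := 247) (c := ⟨⟨.ofNat 2834, .negSucc 311, .ofNat 227, .negSucc 763, .ofNat 977, .negSucc 2644⟩, ⟨.ofNat 1856, .negSucc 280, .ofNat 261, .negSucc 507, .ofNat 651, .negSucc 1747⟩, ⟨.negSucc 2372, .negSucc 59, .ofNat 145, .ofNat 990, .negSucc 720, .ofNat 1567⟩, ⟨.ofNat 4516, .negSucc 229, .ofNat 137, .negSucc 1591, .ofNat 1399, .negSucc 4112⟩, ⟨.negSucc 815, .negSucc 131, .ofNat 112, .ofNat 785, .negSucc 27, .ofNat 591⟩, .ofNat 3923, .negSucc 5567, .ofNat 0, .negSucc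 5567, .ofNat 8684, .ofNat 0, .ofNat 128, .ofNat 2056, .negSucc 2328, .ofNat 0, .ofNat 1341, .negSucc 1499, .ofNat 0, .ofNat 0, .ofNat 3062, .ofNat 3227, .ofNat 0, .ofNat 0, .ofNat 5795208675444742020650960557870927006662656, .ofNat 0, .ofNat 0, .ofNat 0, .ofNat 1908009349864571383270632001805348849917624320, .ofNat 163384098529513558936670162517249661030754675094192128, .ofNat 0, .ofNat 0, .ofNat 793566814511661426053232272531218678125953024, .ofNat 3097195538359746262557769755063471371240739929459785728, .ofNat 0, .ofNat 0, .ofNat 228288478843080138616063954823775199617351680, .ofNat 2277234545134148948330820452700811918832640530373935104⟩)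
    (by decide +kernel)
theorem L03336 : Good (Phi V5.P V5.D 1 1) ⟨6, 56, 4, 11, 3, 6, 3, 0, 5, 0⟩ :=
  out_sound (S := T5.ds_pp) T5.ok_pp (w := 65) (j := 3) (by decide +kernel)
theorem L03337 : Good (Phi V5.P V5.D 1 1) ⟨7, 114, 5, 22, 3, 6, 3, 0, 5, 0⟩ :=
  out_sound (S := T5.ds_pp) T5.ok_pp (w := 73) (j := 3) (by decide +kernel)
theorem L03338 : Good (Phi V5.P V5.D 1 1) ⟨7, 115, 5, 22, 3, 6, 3, 0, 5, 0⟩ :=
  out_sound (S := T5.ds_pp) T5.ok_pp (w := 21) (j := 4) (by decide +kernel)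
theorem L03339 : Good (Phi V5.P V5.D 1 1) ⟨6, 57, 5, 23, 3, 6, 3, 0, 5, 0⟩ :=
  out_sound (S := T5.ds_pp) T5.ok_pp (w := 67) (j := 3) (by decide +kernel)
theorem L03340 : Good (Phi V5.P V5.D 1 1) ⟨5, 28, 4, 10, 4, 12, 3, 1, 5, 0⟩ :=
  leafX_sound T5.ok_pp T5.Ypp.bz_eq (w := 258) (c := ⟨⟨.ofNat 4193, .negSucc 269, .ofNat 153, .negSucc 307, .ofNat 972, .negSucc 3513⟩, ⟨.ofNat 2833, .negSucc 766, .ofNat 552, .negSucc 196, .ofNat 650, .negSucc 2312⟩, ⟨.negSucc 3137, .ofNat 113, .ofNat 33, .ofNat 157, .negSucc 438, .ofNat 1980⟩, ⟨.ofNat 6146, .negSucc 40, .ofNat 138, .negSucc 488, .ofNat 1342, .negSucc 5400⟩, ⟨.negSucc 429, .ofNat 12, .negSucc 267, .ofNat 87, .ofNat 38, .ofNat 659⟩, .ofNat 2570, .negSucc 3503, .ofNat 0, .negSucc 3503, .ofNat 5521, .ofNat 0, .ofNat 128, .ofNat 1416, .negSucc 1483, .ofNat 0, .ofNat 928, .negSucc 948, .ofNat 0, .ofNat 0, .ofNat 1690, .ofNat 2240, .ofNat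 0, .ofNat 0, .ofNat 397518741864593227846051470711481997056316276736, .ofNat 0, .ofNat 0, .ofNat 0, .ofNat 24377249278446036290769009592795340753566806573056, .ofNat 0, .ofNat 0, .ofNat 0, .ofNat 9437702867767501245679371533871998883963036762112, .ofNat 0, .ofNat 0, .ofNat 0, .ofNat 0, .ofNat 0⟩)
    (by decide +kernel)
theorem L03341 : Good (Phi V5.P V5.D 1 1) ⟨5, 28, 4, 10, 4, 13, 3, 1, 5, 0⟩ :=
  leafX_sound T5.ok_pp T5.Ypp.bz_eq (w := 262) (c := ⟨⟨.ofNat 4183, .ofNat 428, .negSucc 573, .negSucc 610, .ofNat 844, .negSucc 3970⟩, ⟨.ofNat 2688, .ofNat 297, .negSucc 246, .negSucc 376, .ofNat 549, .negSucc 2597⟩, ⟨.negSucc 3256, .ofNat 153, .ofNat 247, .ofNat 616, .negSucc 438, .ofNat 2340⟩, ⟨.ofNat 5932, .ofNat 405, .ofNat 346, .negSucc 529, .ofNat 685, .negSucc 5886⟩, ⟨.ofNat 174, .negSucc 575, .negSucc 1390, .negSucc 496, .ofNat 786, .ofNat 460⟩, .ofNat 6378, .negSucc 9232, .ofNat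 0, .negSucc 9232, .ofNat 14155, .ofNat 0, .ofNat 128, .ofNat 1400, .negSucc 2081, .ofNat 0, .ofNat 922, .negSucc 1357, .ofNat 0, .ofNat 0, .ofNat 2107, .ofNat 719, .ofNat 0, .ofNat 0, .ofNat 0, .ofNat 0, .ofNat 0, .ofNat 0, .ofNat 31915996791822839925784251330225485768043765170176, .ofNat 0, .ofNat 0, .ofNat 0, .ofNat 4302329123051292000633464083442797372723058180096, .ofNat 17433771363643779352995303582894121089099578645641185722368, .ofNat 0, .ofNat 0, .ofNat 17875097961892824276201844800547471617420945260544, .ofNat 18209035542376355884437211822041405640200450566191176482816⟩)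
    (by decide +kernel)
theorem L03342 : Good (Phi V5.P V5.D 1 1) ⟨6, 56, 4, 11, 3, 6, 3, 1, 5, 0⟩ :=
  out_sound (S := T5.ds_pp) T5.ok_pp (w := 65) (j := 3) (by decide +kernel)
theorem L03343 : Good (Phi V5.P V5.D 1 1) ⟨7, 114, 5, 22, 3, 6, 3, 1, 5, 0⟩ :=
  out_sound (S := T5.ds_pp) T5.ok_pp (w := 73) (j := 3) (by decide +kernel)
theorem L03344 : Good (Phi V5.P V5.D 1 1) ⟨7, 115, 5, 22, 3, 6, 3, 1, 5, 0⟩ :=
  out_sound (S := T5.ds_pp) T5.ok_pp (w := 21) (j := 4) (by decide +kernel)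
theorem L03345 : Good (Phi V5.P V5.D 1 1) ⟨6, 57, 5, 23, 3, 6, 3, 1, 5, 0⟩ :=
  out_sound (S := T5.ds_pp) T5.ok_pp (w := 67) (j := 3) (by decide +kernel)
theorem L03346 : Good (Phi V5.P V5.D 1 1) ⟨5, 29, 3, 5, 3, 6, 2, 0, 5, 0⟩ :=
  out_sound (S := T5.ds_pp) T5.ok_pp (w := 17) (j := 4) (by decide +kernel)

end Crest.Agent.R097C5.N5pp
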