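import Crest.Agent.R097.KP7
import Crest.Agent.R097.T5Ypp

/-!
# Row 97, box cover in dimension n = 5 (generated)
-/

set_option autoImplicit false
set_option Elab.async false
set_option maxHeartbeats 0
set_option maxRecDepth 100000

open Crest.Agent.R097 Crest.Agent.R097.KA


namespace Crest.Agent.R097C5.N5pp

theorem L03347 : Good (Phi V5.P V5.D 1 1) ⟨5, 28, 5, 20, 4, 14, 2, 0, 7, 0⟩ :=
  leafX_sound T5.ok_pp T5.Ypp.bz_eq (w := 271) (c := ⟨⟨.ofNat 1262, .ofNat 282, .ofNat 32, .negSucc 1537, .ofNat 3677, .negSucc 1265⟩, ⟨.ofNat 747, .ofNat 424, .negSucc 3, .negSucc 982, .ofNat 2409, .negSucc 834⟩, ⟨.negSucc 724, .ofNat 778, .negSucc 290, .ofNat 1641, .negSucc 2935, .ofNat 824⟩, ⟨.ofNat 1661, .ofNat 232, .ofNat 331, .negSucc 3029, .ofNat 5631, .negSucc 2383⟩, ⟨.ofNat 311, .negSucc 163, .negSucc 382, .ofNat 1303, .negSucc 638, .ofNat 898⟩, .ofNat 3968, .negSucc 5600, .ofNat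 0, .negSucc 5600, .ofNat 8683, .ofNat 0, .ofNat 128, .ofNat 2339, .negSucc 4541, .ofNat 0, .ofNat 1528, .negSucc 2909, .ofNat 0, .ofNat 0, .ofNat 3711, .ofNat 955, .ofNat 0, .ofNat 0, .ofNat 84621517676045642507454024765281850081263398944768, .ofNat 0, .ofNat 0, .ofNat 0, .ofNat 2438531706628811818494443800611903473928415895093248, .ofNat 0, .ofNat 0, .ofNat 0, .ofNat 2409294919070318700413939770185888531617784770068480, .ofNat 0, .ofNat 0, .ofNat 0, .ofNat 768705263307733690657238986106824962211758194294784, .ofNat 24013314784978239602476206624050208454318252408683473387126784⟩)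
    (by decide +kernel)
theorem L03348 : Good (Phi V5.P V5.D 1 1) ⟨5, 28, 5, 20, 4, 15, 2, 0, 7, 0⟩ :=
  leafX_sound T5.ok_pp T5.Ypp.bz_eq (w := 271) (c := ⟨⟨.negSucc 1031, .ofNat 1349, .negSucc 76, .ofNat 1735, .ofNat 3896, .negSucc 689⟩, ⟨.negSucc 735, .ofNat 1148, .negSucc 95, .ofNat 1133, .ofNat 2558, .negSucc 464⟩, ⟨.ofNat 1577, .negSucc 555, .negSucc 19, .negSucc 191, .negSucc 3099, .ofNat 300⟩, ⟨.negSucc 2304, .ofNat 1145, .ofNat 181, .ofNat 1312, .ofNat 5676, .negSucc 1194⟩, ⟨.ofNat 1542, .ofNat 349, .negSucc 344, .ofNat 1710, .negSucc 212, .ofNat 315⟩, .ofNat 3968, .negSucc 5600, .ofNat 0, .negSucc 5600, .ofNat 8683, .ofNat 0, .ofNat 128, .ofNat 1836, .negSucc 4813, .ofNat 0, .ofNat 1210, .negSucc 3076, .ofNat 0, .ofNat 0, .ofNat 3606, .ofNat 1049, .ofNat 0, .ofNat 0, .ofNat 0, .ofNat 0, .ofNat 0, .ofNat 0, .ofNat 2107900989906671476527990324350140055394698836049920,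 .ofNat 0, .ofNat 0, .ofNat 0, .ofNat 2113522190941093935989078735196025046957216845791232, .ofNat 0, .ofNat 0, .ofNat 0, .ofNat 3737348983779994023551077693364646795587933723164672, .ofNat 0⟩)
    (by decide +kernel)
theorem L03349 : Good (Phi V5.P V5.D 1 1) ⟨5, 28, 5, 20, 3, 7, 2, 0, 7, 1⟩ :=
  leafX_sound T5.ok_pp T5.Ypp.bz_eq (w := 254) (c := ⟨⟨.negSucc 181, .ofNat 817, .negSucc 330, .ofNat 505, .ofNat 2445, .negSucc 269⟩, ⟨.negSucc 165, .ofNat 715, .negSucc 247, .ofNat 340, .ofNat 1606, .negSucc 191⟩, ⟨.ofNat 524, .negSucc 805, .ofNat 314, .ofNat 856, .negSucc 2260, .ofNat 76⟩, ⟨.negSucc 418, .ofNat 845, .negSucc 375, .negSucc 645, .ofNat 2976, .negSucc 432⟩, ⟨.ofNat 390, .negSucc 77, .negSucc 54, .ofNat 2072, .ofNat 744, .ofNat 77⟩, .ofNat 2351, .negSucc 3210, .ofNat 0, .negSucc 3210, .ofNat 5148, .ofNat 0, .ofNat 128, .ofNat 1692, .negSucc 2209, .ofNat 0, .ofNat 1091,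 .negSucc 1368, .ofNat 0, .ofNat 0, .ofNat 1979, .ofNat 2673, .ofNat 0, .ofNat 0, .ofNat 0, .ofNat 0, .ofNat 0, .ofNat 0, .ofNat 52045203558747010790781174047003265456502996992, .ofNat 0, .ofNat 0, .ofNat 0, .ofNat 119644517684943037123680571333093009403695595520, .ofNat 0, .ofNat 0, .ofNat 0, .ofNat 39346737100320785444928927635125328135243956224, .ofNat 366884129851104847548996430480133415418282898971579908096⟩)
    (by decide +kernel)
theorem L03350 : Good (Phi V5.P V5.D 1 1) ⟨6, 56, 5, 21, 3, 7, 2, 0, 6, 0⟩ :=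
  leafX_sound T5.ok_pp T5.Ypp.bz_eq (w := 265) (c := ⟨⟨.ofNat 504, .ofNat 1, .ofNat 1070, .ofNat 342, .ofNat 3138, .negSucc 999⟩, ⟨.ofNat 333, .ofNat 1, .ofNat 761, .ofNat 234, .ofNat 2079, .negSucc 662⟩, ⟨.ofNat 59, .ofNat 0, .ofNat 467, .ofNat 980, .negSucc 2548, .ofNat 456⟩, ⟨.ofNat 512, .ofNat 1, .ofNat 159, .ofNat 37, .ofNat 3544, .negSucc 1308⟩, ⟨.ofNat 325, .ofNat 1, .ofNat 91, .ofNat 678, .ofNat 1300, .negSucc 145⟩, .ofNat 23019, .negSucc 34294, .ofNat 0, .negSucc 34294, .ofNat 51907, .ofNat 0, .ofNat 128, .ofNat 9136, .negSucc 16936, .ofNat 0, .ofNat 6053, .negSucc 11160, .ofNat 0, .ofNat 0, .ofNat 14723, .ofNat 11186, .ofNat 0, .ofNat 0, .ofNat 0, .ofNat 0, .ofNat 0, .ofNat 0, .ofNat 43569788872366281480143177898823888405352415232, .ofNat 0, .ofNat 0, .ofNat 0, .ofNat 340349423195781881862506290885397095953599561728, .ofNat 0, .ofNat 0, .ofNat 0, .ofNat 420283171611506595650057700940156183238561234944,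 .ofNat 0⟩)
    (by decide +kernel)
theorem L03351 : Good (Phi V5.P V5.D 1 1) ⟨7, 114, 6, 42, 3, 7, 3, 0, 6, 0⟩ :=
  leafX_sound T5.ok_pp T5.Ypp.bz_eq (w := 275) (c := ⟨⟨.ofNat 456, .ofNat 616, .negSucc 337, .ofNat 234, .ofNat 1520, .negSucc 871⟩, ⟨.ofNat 304, .ofNat 578, .negSucc 316, .ofNat 158, .ofNat 1017, .negSucc 582⟩, ⟨.ofNat 180, .ofNat 288, .negSucc 153, .ofNat 1114, .negSucc 1417, .ofNat 350⟩, ⟨.ofNat 112, .negSucc 146, .negSucc 467, .negSucc 661, .ofNat 2370, .negSucc 1387⟩, ⟨.ofNat 782, .ofNat 377, .ofNat 580, .ofNat 1486, .negSucc 356, .ofNat 249⟩, .ofNat 18690, .negSucc 27638, .ofNat 0, .negSucc 27638, .ofNat 41671, .ofNat 0, .ofNat 128, .ofNat 5877, .negSucc 11242, .ofNat 0, .ofNat 3911, .negSucc 7450, .ofNat 0, .ofNat 0, .ofNat 10358, .ofNat 3378, .ofNat 0, .ofNat 0, .ofNat 2334401250646444147259689950612329839005270016, .ofNat 0, .ofNat 0, .ofNat 0, .ofNat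 1259170144864669166185782358756119296820000063488, .ofNat 19727992995405160952227120551405373608084616088757588721664, .ofNat 0, .ofNat 0, .ofNat 0, .ofNat 0, .ofNat 0, .ofNat 0, .ofNat 0, .ofNat 0⟩)
    (by decide +kernel)
theorem L03352 : Good (Phi V5.P V5.D 1 1) ⟨7, 114, 6, 42, 3, 7, 3, 1, 6, 0⟩ :=
  leafX_sound T5.ok_pp T5.Ypp.bz_eq (w := 271) (c := ⟨⟨.ofNat 2785, .negSucc 285, .negSucc 183, .ofNat 877, .ofNat 1220, .negSucc 2030⟩, ⟨.ofNat 1855, .negSucc 128, .negSucc 127, .ofNat 577, .ofNat 822, .negSucc 1375⟩, ⟨.negSucc 1638, .ofNat 415, .ofNat 21, .ofNat 683, .negSucc 1006, .ofNat 917⟩, ⟨.ofNat 4254, .negSucc 53, .ofNat 84, .negSucc 920, .ofNat 1907, .negSucc 4282⟩, ⟨.negSucc 489, .negSucc 345, .negSucc 632, .ofNat 3206, .negSucc 276, .ofNat 2119⟩, .ofNat 7279, .negSucc 10532, .ofNat 0, .negSucc 10532, .ofNat 16021, .ofNat 0, .ofNat 128, .ofNat 4358, .negSucc 10238,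 .ofNat 0, .ofNat 2895, .negSucc 6722, .ofNat 0, .ofNat 0, .ofNat 8056, .ofNat 3102, .ofNat 0, .ofNat 0, .ofNat 0, .ofNat 0, .ofNat 0, .ofNat 0, .ofNat 124498133756058293557065917551037330147877322752, .ofNat 0, .ofNat 0, .ofNat 0, .ofNat 4646131429550508786558343497590730774710059008, .ofNat 174761929646966587913917398027041477256521835301091653189632, .ofNat 0, .ofNat 0, .ofNat 0, .ofNat 568215786329929076859166993578823451427960381040440299749376⟩)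
    (by decide +kernel)
theorem L03353 : Good (Phi V5.P V5.D 1 1) ⟨8, 228, 6, 43, 3, 7, 2, 0, 6, 0⟩ :=
  out_sound (S := T5.ds_pp) T5.ok_pp (w := 81) (j := 3) (by decide +kernel)
theorem L03354 : Good (Phi V5.P V5.D 1 1) ⟨8, 229, 6, 43, 3, 7, 2, 0, 6, 0⟩ :=
  out_sound (S := T5.ds_pp) T5.ok_pp (w := 23) (j := 4) (by decide +kernel)
theorem L03355 : Good (Phi V5.P V5.D 1 1) ⟨7, 115, 5, 21, 3, 7, 2, 0, 6, 0⟩ :=
  out_sound (S := T5.ds_pp) T5.ok_pp (w := 21) (j := 4) (by decide +kernel)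
theorem L03356 : Good (Phi V5.P V5.D 1 1) ⟨6, 56, 4, 11, 3, 7, 2, 0, 6, 0⟩ :=
  out_sound (S := T5.ds_pp) T5.ok_pp (w := 65) (j := 3) (by decide +kernel)
theorem L03357 : Good (Phi V5.P V5.D 1 1) ⟨7, 114, 5, 22, 3, 7, 2, 0, 6, 0⟩ :=
  out_sound (S := T5.ds_pp) T5.ok_pp (w := 73) (j := 3) (by decide +kernel)
theorem L03358 : Good (Phi V5.P V5.D 1 1) ⟨7, 115, 5, 22, 3, 7, 2, 0, 6, 0⟩ :=
  out_sound (S := T5.ds_pp) T5.ok_pp (w := 21) (j := 4) (by decide +kernel)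
theorem L03359 : Good (Phi V5.P V5.D 1 1) ⟨6, 57, 5, 23, 3, 7, 2, 0, 6, 0⟩ :=
  out_sound (S := T5.ds_pp) T5.ok_pp (w := 67) (j := 3) (by decide +kernel)
theorem L03360 : Good (Phi V5.P V5.D 1 1) ⟨5, 28, 4, 10, 3, 7, 2, 0, 6, 1⟩ :=
  leafX_sound T5.ok_pp T5.Ypp.bz_eq (w := 245) (c := ⟨⟨.negSucc 560, .ofNat 1927, .negSucc 1275, .ofNat 1192, .ofNat 1365, .negSucc 663⟩, ⟨.negSucc 511, .ofNat 1847, .negSucc 1130, .ofNat 800, .ofNat 903, .negSucc 440⟩, ⟨.ofNat 421, .negSucc 248, .ofNat 280, .ofNat 370, .negSucc 1616, .ofNat 213⟩, ⟨.negSucc 811, .ofNat 1545, .negSucc 988, .ofNat 803, .ofNat 1237, .negSucc 1009⟩, ⟨.ofNat 400, .ofNat 396, .negSucc 611, .ofNat 1335, .ofNat 1044, .ofNat 86⟩, .ofNat 2435, .negSucc 3323, .ofNat 0, .negSucc 3323, .ofNat 5290, .ofNat 0, .ofNat 128, .ofNat 1386, .negSucc 1552, .ofNat 0, .ofNat 899, .negSucc 965, .ofNat 0, .ofNat 0, .ofNat 1575, .ofNat 1664,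 .ofNat 0, .ofNat 0, .ofNat 47777685244605406736053746694687161973735424, .ofNat 0, .ofNat 0, .ofNat 0, .ofNat 1538968985766003559250028689417160817148690432, .ofNat 0, .ofNat 0, .ofNat 0, .ofNat 2031015818075113669408474835625361324457852928, .ofNat 2227399851809047764973098385241501926221860211565527040, .ofNat 0, .ofNat 0, .ofNat 1086692586719911173036887944870105180465528832, .ofNat 904745127082127603679915132757479996488954743885922304⟩)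
    (by decide +kernel)
theorem L03361 : Good (Phi V5.P V5.D 1 1) ⟨6, 56, 4, 11, 3, 7, 2, 0, 6, 1⟩ :=
  out_sound (S := T5.ds_pp) T5.ok_pp (w := 65) (j := 3) (by decide +kernel)
theorem L03362 : Good (Phi V5.P V5.D 1 1) ⟨7, 114, 5, 22, 3, 7, 2, 0, 6, 1⟩ :=
  out_sound (S := T5.ds_pp) T5.ok_pp (w := 73) (j := 3) (by decide +kernel)
theorem L03363 : Good (Phi V5.P V5.D 1 1) ⟨7, 115, 5, 22, 3, 7, 2, 0, 6, 1⟩ :=
  out_sound (S := T5.ds_pp) T5.ok_pp (w := 21) (j := 4) (by decide +kernel)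
theorem L03364 : Good (Phi V5.P V5.D 1 1) ⟨6, 57, 5, 23, 3, 7, 2, 0, 6, 1⟩ :=
  out_sound (S := T5.ds_pp) T5.ok_pp (w := 67) (j := 3) (by decide +kernel)
theorem L03365 : Good (Phi V5.P V5.D 1 1) ⟨5, 29, 3, 5, 3, 7, 2, 0, 5, 0⟩ :=
  out_sound (S := T5.ds_pp) T5.ok_pp (w := 17) (j := 4) (by decide +kernel)
theorem L03366 : Good (Phi V5.P V5.D 1 1) ⟨5, 28, 4, 10, 2, 3, 2, 0, 5, 1⟩ :=
  leafX_sound T5.ok_pp T5.Ypp.bz_eq (w := 226) (c := ⟨⟨.negSucc 335, .ofNat 1248, .negSucc 783, .ofNat 779, .ofNat 477, .negSucc 831⟩, ⟨.negSucc 270, .ofNat 1012, .negSucc 638, .ofNat 539, .ofNat 320, .negSucc 549⟩, ⟨.negSucc 630, .ofNat 97, .ofNat 69, .ofNat 766, .negSucc 607, .ofNat 190⟩, ⟨.ofNat 156, .ofNat 340, .negSucc 694, .ofNat 347, .ofNat 85, .negSucc 1330⟩, ⟨.negSucc 659, .ofNat 724, .ofNat 147, .ofNat 1165, .ofNat 877, .ofNat 256⟩, .ofNat 2502, .negSucc 3415, .ofNat 0, .negSucc 3415,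 .ofNat 5413, .ofNat 0, .ofNat 128, .ofNat 1349, .negSucc 1034, .ofNat 0, .ofNat 880, .negSucc 646, .ofNat 0, .ofNat 0, .ofNat 1529, .ofNat 2487, .ofNat 0, .ofNat 0, .ofNat 64434304529156501052377545336900550656, .ofNat 0, .ofNat 0, .ofNat 0, .ofNat 1563975237827018134545041452533567979520, .ofNat 224356028693347582034728509705603244375484137472, .ofNat 0, .ofNat 0, .ofNat 1910882134673627113625010769150888378368, .ofNat 3619543162403285794612387788904855316512454475776, .ofNat 0, .ofNat 0, .ofNat 0, .ofNat 0⟩)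
    (by decide +kernel)
theorem L03367 : Good (Phi V5.P V5.D 1 1) ⟨6, 56, 4, 11, 2, 3, 2, 0, 5, 1⟩ :=
  out_sound (S := T5.ds_pp) T5.ok_pp (w := 65) (j := 3) (by decide +kernel)
theorem L03368 : Good (Phi V5.P V5.D 1 1) ⟨7, 114, 5, 22, 2, 3, 2, 0, 5, 1⟩ :=
  out_sound (S := T5.ds_pp) T5.ok_pp (w := 73) (j := 3) (by decide +kernel)
theorem L03369 : Good (Phi V5.P V5.D 1 1) ⟨7, 115, 5, 22, 2, 3, 2, 0, 5, 1⟩ :=
  out_sound (S := T5.ds_pp) T5.ok_pp (w := 21) (j := 4) (by decide +kernel)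
theorem L03370 : Good (Phi V5.P V5.D 1 1) ⟨6, 57, 5, 23, 2, 3, 2, 0, 5, 1⟩ :=
  out_sound (S := T5.ds_pp) T5.ok_pp (w := 67) (j := 3) (by decide +kernel)
theorem L03371 : Good (Phi V5.P V5.D 1 1) ⟨5, 29, 3, 5, 2, 3, 2, 0, 5, 1⟩ :=
  out_sound (S := T5.ds_pp) T5.ok_pp (w := 17) (j := 4) (by decide +kernel)
theorem L03372 : Good (Phi V5.P V5.D 1 1) ⟨4, 15, 3, 5, 2, 3, 2, 0, 4, 0⟩ :=
  out_sound (S := T5.ds_pp) T5.ok_pp (w := 51) (j := 3) (by decide +kernel)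
theorem L03373 : Good (Phi V5.P V5.D 1 1) ⟨3, 6, 3, 5, 2, 3, 2, 0, 4, 1⟩ :=
  out_sound (S := T5.ds_pp) T5.ok_pp (w := 45) (j := 3) (by decide +kernel)
theorem L03374 : Good (Phi V5.P V5.D 1 1) ⟨3, 7, 3, 5, 3, 6, 2, 0, 4, 1⟩ :=
  leafX_sound T5.ok_pp T5.Ypp.bz_eq (w := 221) (c := ⟨⟨.negSucc 792, .negSucc 83, .negSucc 202, .ofNat 183, .negSucc 965, .negSucc 995⟩, ⟨.negSucc 495, .ofNat 78, .negSucc 330, .ofNat 123, .negSucc 634, .negSucc 655⟩, ⟨.negSucc 542, .negSucc 87, .ofNat 421, .ofNat 249, .ofNat 841, .ofNat 528⟩, ⟨.negSucc 934, .ofNat 12, .negSucc 184, .negSucc 224, .negSucc 1922, .negSucc 1493⟩, ⟨.negSucc 287, .negSucc 28, .negSucc 127, .ofNat 719, .ofNat 858, .ofNat 127⟩, .ofNat 1494, .negSucc 1898, .ofNat 0, .negSucc 1898, .ofNat 3113, .ofNat 0, .ofNat 128, .ofNat 934, .negSucc 503, .ofNat 0, .ofNat 614, .negSucc 301, .ofNat 0, .ofNat 0, .ofNat 1028, .ofNat 2312, .ofNat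 0, .ofNat 0, .ofNat 0, .ofNat 0, .ofNat 0, .ofNat 0, .ofNat 2005328526291715168671753402426812337750016, .ofNat 2905411247110346915737445994547632361329643225088, .ofNat 0, .ofNat 0, .ofNat 2443431764105451181428098999850510506262528, .ofNat 14293119685196229342115596300851132768980217888768, .ofNat 0, .ofNat 0, .ofNat 443523345542743184439274999216614527729664, .ofNat 816477586674913137558472813281037047359135023104⟩)
    (by decide +kernel)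
theorem L03375 : Good (Phi V5.P V5.D 1 1) ⟨3, 7, 3, 5, 3, 7, 2, 0, 4, 1⟩ :=
  leafX_sound T5.ok_pp T5.Ypp.bz_eq (w := 221) (c := ⟨⟨.negSucc 915, .negSucc 273, .ofNat 223, .ofNat 1729, .negSucc 633, .negSucc 923⟩, ⟨.negSucc 589, .ofNat 14, .negSucc 25, .ofNat 1146, .negSucc 411, .negSucc 610⟩, ⟨.ofNat 280, .ofNat 67, .ofNat 13, .negSucc 553, .ofNat 108, .ofNat 339⟩, ⟨.negSucc 1438, .ofNat 24, .ofNat 265, .ofNat 2145, .negSucc 1878, .negSucc 1295⟩, ⟨.ofNat 223, .negSucc 91, .negSucc 149, .ofNat 445, .ofNat 1495, .negSucc 23⟩, .ofNat 1697, .negSucc 1948, .ofNat 0, .negSucc 1948, .ofNat 2789, .ofNat 0, .ofNat 128, .ofNat 800, .negSucc 691, .ofNat 0, .ofNat 581, .negSucc 421, .ofNat 0, .ofNat 0, .ofNat 1199, .ofNat 2891, .ofNat 0, .ofNat 0, .ofNat 7045483373553814280620935930508755337216, .ofNat 107766034341957937677265847334696040117603139584, .ofNat 0, .ofNat 0, .ofNat 638459498275418926488546498206167616978944,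 .ofNat 1810611940607610253047435028672420915624739340288, .ofNat 0, .ofNat 0, .ofNat 1297688936206308037722085371069904281665536, .ofNat 6306513705299164186794149493650233379909256871936, .ofNat 1878370436859788302625544474511588502116761600, .ofNat 0, .ofNat 337716878464601542109030106810386642632704, .ofNat 0⟩)
    (by decide +kernel)
theorem L03376 : Good (Phi V5.P V5.D 1 1) ⟨2, 2, 3, 5, 2, 3, 2, 0, 4, 2⟩ :=
  out_sound (S := T5.ds_pp) T5.ok_pp (w := 39) (j := 3) (by decide +kernel)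
theorem L03377 : Good (Phi V5.P V5.D 1 1) ⟨3, 6, 3, 5, 2, 3, 2, 0, 4, 2⟩ :=
  out_sound (S := T5.ds_pp) T5.ok_pp (w := 45) (j := 3) (by decide +kernel)
theorem L03378 : Good (Phi V5.P V5.D 1 1) ⟨5, 28, 4, 10, 3, 6, 2, 0, 4, 2⟩ :=
  leafX_sound T5.ok_pp T5.Ypp.bz_eq (w := 235) (c := ⟨⟨.negSucc 2006, .ofNat 348, .negSucc 233, .ofNat 410, .negSucc 1048, .negSucc 116⟩, ⟨.negSucc 1288, .ofNat 289, .negSucc 292, .ofNat 272, .negSucc 685, .negSucc 79⟩, ⟨.negSucc 61, .ofNat 276, .negSucc 57, .negSucc 143, .ofNat 1291, .ofNat 160⟩, ⟨.negSucc 2804, .ofNat 135, .negSucc 122, .ofNat 219, .negSucc 1813, .ofNat 63⟩, ⟨.ofNat 25, .ofNat 112, .negSucc 0, .ofNat 542, .ofNat 518, .negSucc 347⟩, .ofNat 3879, .negSucc 5506, .ofNat 0, .negSucc 5506, .ofNat 8600, .ofNat 0, .ofNat 128, .ofNat 992, .negSucc 429, .ofNat 0, .ofNat 661, .negSucc 269, .ofNat 0, .ofNat 0, .ofNat 1489, .ofNat 9790, .ofNat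 0, .ofNat 0, .ofNat 0, .ofNat 0, .ofNat 0, .ofNat 0, .ofNat 6991414878087810392139274362549024015253504, .ofNat 0, .ofNat 0, .ofNat 0, .ofNat 8593362657216186172353060823849442857713664, .ofNat 0, .ofNat 41244728640027044681027505929951343812703139397632, .ofNat 0, .ofNat 1407424636049041548339699167545042533351424, .ofNat 474072926506686956570544467897515314575297526890496⟩)
    (by decide +kernel)
theorem L03379 : Good (Phi V5.P V5.D 1 1) ⟨6, 56, 4, 10, 3, 7, 2, 0, 4, 2⟩ :=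
  leafX_sound T5.ok_pp T5.Ypp.bz_eq (w := 237) (c := ⟨⟨.negSucc 1376, .negSucc 160, .ofNat 165, .ofNat 1170, .negSucc 812, .negSucc 424⟩, ⟨.negSucc 882, .negSucc 90, .ofNat 15, .ofNat 771, .negSucc 520, .negSucc 278⟩, ⟨.negSucc 1, .ofNat 254, .negSucc 227, .negSucc 276, .ofNat 660, .ofNat 311⟩, ⟨.negSucc 2079, .negSucc 116, .ofNat 74, .ofNat 1177, .negSucc 1984, .negSucc 493⟩, ⟨.ofNat 125, .ofNat 10, .ofNat 35, .ofNat 734, .ofNat 1281, .negSucc 162⟩, .ofNat 2367, .negSucc 3233, .ofNat 0, .negSucc 3233, .ofNat 5178, .ofNat 0, .ofNat 128, .ofNat 922, .negSucc 444, .ofNat 0, .ofNat 617, .negSucc 261, .ofNat 0, .ofNat 0, .ofNat 1525, .ofNat 7509, .ofNat 0, .ofNat 0, .ofNat 0, .ofNat 0, .ofNat 0, .ofNat 0, .ofNat 711530840446128185737480085056876825280512, .ofNat 0, .ofNat 0, .ofNat 0, .ofNat 347207546641588269942424923895930931904512, .ofNat 0, .ofNat 398536455041820023676819379501113973232270024114176,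 .ofNat 0, .ofNat 1618692698419691370452033416866324650393600, .ofNat 0⟩)
    (by decide +kernel)
theorem L03380 : Good (Phi V5.P V5.D 1 1) ⟨6, 57, 4, 10, 3, 7, 2, 0, 4, 2⟩ :=
  leafX_sound T5.ok_pp T5.Ypp.bz_eq (w := 234) (c := ⟨⟨.negSucc 1607, .negSucc 230, .ofNat 280, .ofNat 1170, .negSucc 843, .negSucc 405⟩, ⟨.negSucc 959, .negSucc 44, .negSucc 13, .ofNat 785, .negSucc 562, .negSucc 271⟩, ⟨.ofNat 144, .ofNat 32, .ofNat 0, .negSucc 288, .ofNat 711, .ofNat 292⟩, ⟨.negSucc 2126, .negSucc 65, .ofNat 124, .ofNat 1115, .negSucc 2090, .negSucc 493⟩, ⟨.ofNat 14, .negSucc 9, .negSucc 3, .ofNat 804, .ofNat 1345, .negSucc 112⟩, .ofNat 937, .negSucc 1063, .ofNat 0, .negSucc 1063, .ofNat 1821, .ofNat 0, .ofNat 128, .ofNat 561, .negSucc 272, .ofNat 0, .ofNat 392, .negSucc 136, .ofNat 0, .ofNat 0, .ofNat 782, .ofNat 2895, .ofNat 0, .ofNat 0, .ofNat 0, .ofNat 90653713382762396037357566372258082628457988096000,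 .ofNat 0, .ofNat 0, .ofNat 127387785036984176116035241361501725917184, .ofNat 133537407783707218782404551619911654982267277672448, .ofNat 0, .ofNat 0, .ofNat 0, .ofNat 0, .ofNat 0, .ofNat 0, .ofNat 102094570572851362985162745775589848776704, .ofNat 0⟩)
    (by decide +kernel)
theorem L03381 : Good (Phi V5.P V5.D 1 1) ⟨6, 56, 4, 11, 2, 3, 2, 0, 4, 2⟩ :=
  out_sound (S := T5.ds_pp) T5.ok_pp (w := 65) (j := 3) (by decide +kernel)
theorem L03382 : Good (Phi V5.P V5.D 1 1) ⟨7, 114, 5, 22, 2, 3, 2, 0, 4, 2⟩ :=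
  out_sound (S := T5.ds_pp) T5.ok_pp (w := 73) (j := 3) (by decide +kernel)
theorem L03383 : Good (Phi V5.P V5.D 1 1) ⟨7, 115, 5, 22, 2, 3, 2, 0, 4, 2⟩ :=
  out_sound (S := T5.ds_pp) T5.ok_pp (w := 21) (j := 4) (by decide +kernel)
theorem L03384 : Good (Phi V5.P V5.D 1 1) ⟨6, 57, 5, 23, 2, 3, 2, 0, 4, 2⟩ :=
  out_sound (S := T5.ds_pp) T5.ok_pp (w := 67) (j := 3) (by decide +kernel)
theorem L03385 : Good (Phi V5.P V5.D 1 1) ⟨5, 29, 3, 5, 2, 3, 2, 0, 4, 2⟩ :=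
  out_sound (S := T5.ds_pp) T5.ok_pp (w := 17) (j := 4) (by decide +kernel)
theorem L03386 : Good (Phi V5.P V5.D 1 1) ⟨4, 15, 3, 5, 2, 3, 2, 0, 4, 2⟩ :=
  out_sound (S := T5.ds_pp) T5.ok_pp (w := 51) (j := 3) (by decide +kernel)
theorem L03387 : Good (Phi V5.P V5.D 1 1) ⟨2, 2, 3, 5, 2, 3, 2, 0, 4, 3⟩ :=
  out_sound (S := T5.ds_pp) T5.ok_pp (w := 39) (j := 3) (by decide +kernel)
theorem L03388 : Good (Phi V5.P V5.D 1 1) ⟨3, 6, 3, 5, 2, 3, 2, 0, 4, 3⟩ :=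
  out_sound (S := T5.ds_pp) T5.ok_pp (w := 45) (j := 3) (by decide +kernel)
theorem L03389 : Good (Phi V5.P V5.D 1 1) ⟨6, 56, 4, 10, 3, 6, 2, 0, 5, 6⟩ :=
  leafX_sound T5.ok_pp T5.Ypp.bz_eq (w := 245) (c := ⟨⟨.negSucc 2137, .ofNat 30, .negSucc 60, .ofNat 427, .negSucc 907, .ofNat 43⟩, ⟨.negSucc 1360, .ofNat 4, .negSucc 129, .ofNat 281, .negSucc 585, .ofNat 26⟩, ⟨.ofNat 34, .ofNat 169, .negSucc 101, .negSucc 175, .ofNat 1365, .negSucc 25⟩, ⟨.negSucc 3014, .ofNat 50, .negSucc 35, .ofNat 300, .negSucc 1404, .ofNat 152⟩, ⟨.negSucc 60, .ofNat 34, .negSucc 26, .ofNat 464, .ofNat 193, .negSucc 138⟩, .ofNat 5157, .negSucc 7494, .ofNat 0, .negSucc 7494, .ofNat 11702, .ofNat 0, .ofNat 128, .ofNat 1056, .negSucc 401, .ofNat 0, .ofNat 703, .negSucc 250, .ofNat 0, .ofNat 0, .ofNat 2019, .ofNat 23448, .ofNat 0, .ofNat 0, .ofNat 0, .ofNat 0, .ofNat 0, .ofNat 0, .ofNat 143889116622655810983722251737009498777190400,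 .ofNat 0, .ofNat 0, .ofNat 0, .ofNat 55134860421466246900812110910070878803853312, .ofNat 0, .ofNat 19891832452445896199966101982847958448248098970927104, .ofNat 0, .ofNat 75673749049641657803113742187493661519904768, .ofNat 0⟩)
    (by decide +kernel)
theorem L03390 : Good (Phi V5.P V5.D 1 1) ⟨6, 56, 4, 10, 3, 7, 2, 0, 5, 6⟩ :=
  leafX_sound T5.ok_pp T5.Ypp.bz_eq (w := 243) (c := ⟨⟨.negSucc 1769, .negSucc 22, .ofNat 73, .ofNat 909, .negSucc 757, .negSucc 55⟩, ⟨.negSucc 1137, .ofNat 0, .negSucc 59, .ofNat 600, .negSucc 485, .negSucc 36⟩, ⟨.ofNat 268, .negSucc 6, .ofNat 26, .negSucc 142, .ofNat 852, .ofNat 29⟩, ⟨.negSucc 2481, .negSucc 4, .ofNat 68, .ofNat 598, .negSucc 1672, .ofNat 50⟩, ⟨.negSucc 70, .ofNat 33, .negSucc 4, .ofNat 1051, .ofNat 923, .negSucc 195⟩, .ofNat 2357, .negSucc 3219, .ofNat 0, .negSucc 3219, .ofNat 5158, .ofNat 0, .ofNat 128, .ofNat 918, .negSucc 371,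 .ofNat 0, .ofNat 627, .negSucc 211, .ofNat 0, .ofNat 0, .ofNat 2100, .ofNat 10680, .ofNat 0, .ofNat 0, .ofNat 443106140576922508134778411416238898020352, .ofNat 0, .ofNat 0, .ofNat 0, .ofNat 38096073851433058327305795579582263546871808, .ofNat 0, .ofNat 0, .ofNat 0, .ofNat 0, .ofNat 0, .ofNat 0, .ofNat 0, .ofNat 0, .ofNat 0⟩)
    (by decide +kernel)
theorem L03391 : Good (Phi V5.P V5.D 1 1) ⟨6, 56, 4, 10, 3, 6, 2, 0, 5, 7⟩ :=
  leafX_sound T5.ok_pp T5.Ypp.bz_eq (w := 244) (c := ⟨⟨.negSucc 2157, .ofNat 31, .negSucc 88, .ofNat 374, .negSucc 749, .ofNat 86⟩, ⟨.negSucc 1366, .negSucc 15, .negSucc 118, .ofNat 246, .negSucc 483, .ofNat 55⟩, ⟨.ofNat 28, .ofNat 169, .negSucc 128, .negSucc 183, .ofNat 1338, .negSucc 74⟩, ⟨.negSucc 2977, .ofNat 95, .negSucc 58, .ofNat 268, .negSucc 1193, .ofNat 209⟩, ⟨.negSucc 176, .ofNat 7, .negSucc 93, .ofNat 401, .ofNat 208, .negSucc 137⟩, .ofNat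 3607, .negSucc 5123, .ofNat 0, .negSucc 5123, .ofNat 8070, .ofNat 0, .ofNat 128, .ofNat 1043, .negSucc 314, .ofNat 0, .ofNat 704, .negSucc 190, .ofNat 0, .ofNat 0, .ofNat 2105, .ofNat 23449, .ofNat 0, .ofNat 0, .ofNat 755358046436661675387192752585676085526528, .ofNat 0, .ofNat 0, .ofNat 0, .ofNat 142471453004739950893865355081755472766697472, .ofNat 0, .ofNat 0, .ofNat 0, .ofNat 0, .ofNat 0, .ofNat 30307204510810591585835106519226908221335305038331904, .ofNat 0, .ofNat 90245085924412454728389702699891942311854080, .ofNat 0⟩)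
    (by decide +kernel)
theorem L03392 : Good (Phi V5.P V5.D 1 1) ⟨6, 56, 4, 10, 4, 14, 2, 0, 5, 7⟩ :=
  leafX_sound T5.ok_pp T5.Ypp.bz_eq (w := 255) (c := ⟨⟨.negSucc 1704, .negSucc 85, .ofNat 62, .ofNat 310, .negSucc 712, .ofNat 10⟩, ⟨.negSucc 1092, .negSucc 44, .negSucc 61, .ofNat 206, .negSucc 459, .ofNat 7⟩, ⟨.ofNat 88, .negSucc 12, .ofNat 59, .negSucc 54, .ofNat 1081, .negSucc 47⟩, ⟨.negSucc 2505, .negSucc 18, .ofNat 51, .ofNat 182, .negSucc 1356, .ofNat 129⟩, ⟨.ofNat 96, .negSucc 75, .ofNat 29, .ofNat 392, .ofNat 535, .negSucc 176⟩, .ofNat 1447, .negSucc 1838, .ofNat 0, .negSucc 1838, .ofNat 3046, .ofNat 0, .ofNat 128, .ofNat 488, .negSucc 103, .ofNat 0, .ofNat 348, .negSucc 51, .ofNat 0, .ofNat 0, .ofNat 764, .ofNat 13160, .ofNat 0, .ofNat 0, .ofNat 6569513113710666199211354258511856098663727104, .ofNat 0, .ofNat 0, .ofNat 0, .ofNat 161868937275881798113166117065866553346591031296,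 .ofNat 0, .ofNat 0, .ofNat 0, .ofNat 0, .ofNat 0, .ofNat 13006187657419617510715116130085295395270907028909850624, .ofNat 0, .ofNat 106376590178405352400024285891794556528560701440, .ofNat 0⟩)
    (by decide +kernel)
theorem L03393 : Good (Phi V5.P V5.D 1 1) ⟨6, 56, 4, 10, 4, 15, 2, 0, 5, 7⟩ :=
  leafX_sound T5.ok_pp T5.Ypp.bz_eq (w := 256) (c := ⟨⟨.negSucc 1451, .ofNat 16, .negSucc 0, .ofNat 422, .negSucc 620, .negSucc 78⟩, ⟨.negSucc 937, .ofNat 41, .negSucc 112, .ofNat 280, .negSucc 395, .negSucc 50⟩, ⟨.ofNat 100, .ofNat 110, .negSucc 172, .ofNat 144, .ofNat 815, .ofNat 38⟩, ⟨.negSucc 2178, .ofNat 43, .negSucc 26, .ofNat 116, .negSucc 1528, .negSucc 5⟩, ⟨.ofNat 172, .ofNat 6, .ofNat 5, .ofNat 741, .ofNat 1001, .negSucc 156⟩, .ofNat 2356, .negSucc 3218, .ofNat 0, .negSucc 3218, .ofNat 5157, .ofNat 0, .ofNat 128, .ofNat 659, .negSucc 91, .ofNat 0, .ofNat 459, .negSucc 45,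 .ofNat 0, .ofNat 0, .ofNat 949, .ofNat 18008, .ofNat 0, .ofNat 0, .ofNat 15770334023039189659959254928698530250060988416, .ofNat 0, .ofNat 0, .ofNat 0, .ofNat 1119607436989955154386123217436231701470600232960, .ofNat 0, .ofNat 0, .ofNat 0, .ofNat 228621317532258914334951590172762725581947142144, .ofNat 0, .ofNat 871396883964158592368725339948080224656634465686126592, .ofNat 0, .ofNat 711758244210892070295039836163209005104631906304, .ofNat 0⟩)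
    (by decide +kernel)
theorem L03394 : Good (Phi V5.P V5.D 1 1) ⟨6, 57, 4, 10, 3, 6, 2, 0, 5, 6⟩ :=
  leafX_sound T5.ok_pp T5.Ypp.bz_eq (w := 244) (c := ⟨⟨.negSucc 2182, .negSucc 74, .ofNat 67, .ofNat 424, .negSucc 900, .ofNat 53⟩, ⟨.negSucc 1395, .negSucc 61, .negSucc 46, .ofNat 284, .negSucc 598, .ofNat 35⟩, ⟨.ofNat 107, .ofNat 20, .ofNat 139, .negSucc 201, .ofNat 1344, .negSucc 44⟩, ⟨.negSucc 2936, .ofNat 34, .ofNat 34, .ofNat 298, .negSucc 1504, .ofNat 181⟩, ⟨.negSucc 144, .negSucc 23, .negSucc 20, .ofNat 445, .ofNat 366, .negSucc 158⟩, .ofNat 3726, .negSucc 5130, .ofNat 0, .negSucc 5130, .ofNat 7802, .ofNat 0, .ofNat 128, .ofNat 937, .negSucc 355, .ofNat 0, .ofNat 652, .negSucc 222, .ofNat 0, .ofNat 0, .ofNat 1833, .ofNat 22170, .ofNat 0, .ofNat 0, .ofNat 0, .ofNat 0, .ofNat 0, .ofNat 0, .ofNat 52095202825616443966405365675710068385906688, .ofNat 0, .ofNat 0, .ofNat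 0, .ofNat 29008069810072377867130385454225872637657088, .ofNat 0, .ofNat 16555151251128774828789103847127498731822787493625856, .ofNat 0, .ofNat 3127123648725967420897048835985267094454272, .ofNat 579357735858154121420310471953666900524833551698362368⟩)
    (by decide +kernel)
theorem L03395 : Good (Phi V5.P V5.D 1 1) ⟨6, 57, 4, 10, 3, 6, 2, 0, 5, 7⟩ :=
  leafX_sound T5.ok_pp T5.Ypp.bz_eq (w := 242) (c := ⟨⟨.negSucc 2102, .negSucc 5, .negSucc 74, .ofNat 395, .negSucc 775, .ofNat 71⟩, ⟨.negSucc 1335, .ofNat 2, .negSucc 158, .ofNat 264, .negSucc 515, .ofNat 47⟩, ⟨.ofNat 96, .ofNat 8, .ofNat 80, .negSucc 196, .ofNat 1333, .negSucc 63⟩, ⟨.negSucc 2846, .ofNat 14, .negSucc 4, .ofNat 279, .negSucc 1277, .ofNat 211⟩, ⟨.negSucc 220, .negSucc 35, .negSucc 45, .ofNat 414, .ofNat 285, .negSucc 167⟩, .ofNat 2682, .negSucc 3657, .ofNat 0, .negSucc 3657, .ofNat 5727, .ofNat 0, .ofNat 128,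 .ofNat 742, .negSucc 308, .ofNat 0, .ofNat 512, .negSucc 185, .ofNat 0, .ofNat 0, .ofNat 1997, .ofNat 22714, .ofNat 0, .ofNat 0, .ofNat 632720338694134342510596324675856979984384, .ofNat 7453310591554298672344810671595296889978989513277440, .ofNat 0, .ofNat 0, .ofNat 53124505766626699632062572314284861664788480, .ofNat 0, .ofNat 6842658973398695625278057268378466646826467987554304, .ofNat 0, .ofNat 141337082936631060615873661904272055429234688, .ofNat 0, .ofNat 29786563041615028864712713186937970360876487101382656, .ofNat 0, .ofNat 20555550693055299311727889391160183006167040, .ofNat 233594296506245842908703870837967997001234887187890176⟩)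
    (by decide +kernel)
theorem L03396 : Good (Phi V5.P V5.D 1 1) ⟨7, 114, 4, 10, 3, 7, 3, 0, 5, 6⟩ :=
  leafX_sound T5.ok_pp T5.Ypp.bz_eq (w := 256) (c := ⟨⟨.negSucc 1580, .ofNat 115, .negSucc 343, .ofNat 868, .negSucc 297, .negSucc 83⟩, ⟨.negSucc 1018, .ofNat 69, .negSucc 283, .ofNat 580, .negSucc 195, .negSucc 55⟩, ⟨.ofNat 318, .ofNat 41, .negSucc 241, .ofNat 26, .ofNat 350, .ofNat 53⟩, ⟨.negSucc 2518, .ofNat 22, .negSucc 24, .ofNat 696, .negSucc 641, .negSucc 31⟩, ⟨.ofNat 127, .negSucc 69, .negSucc 54, .ofNat 786, .ofNat 337, .negSucc 127⟩, .ofNat 7233, .negSucc 10467, .ofNat 0, .negSucc 10467, .ofNat 15928, .ofNat 0, .ofNat 128, .ofNat 2122, .negSucc 434, .ofNat 0, .ofNat 1432, .negSucc 276, .ofNat 0, .ofNat 0, .ofNat 2905, .ofNat 26288, .ofNat 0, .ofNat 0, .ofNat 0, .ofNat 0, .ofNat 0, .ofNat 0, .ofNat 1684179084261553739883563221835092643087908864, .ofNat 0, .ofNat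 0, .ofNat 0, .ofNat 0, .ofNat 0, .ofNat 0, .ofNat 0, .ofNat 0, .ofNat 0⟩)
    (by decide +kernel)
theorem L03397 : Good (Phi V5.P V5.D 1 1) ⟨7, 114, 5, 20, 3, 7, 3, 1, 5, 6⟩ :=
  leafX_sound T5.ok_pp T5.Ypp.bz_eq (w := 265) (c := ⟨⟨.negSucc 2112, .ofNat 1, .ofNat 24, .ofNat 963, .negSucc 437, .negSucc 84⟩, ⟨.negSucc 1426, .ofNat 1, .ofNat 46, .ofNat 642, .negSucc 286, .negSucc 56⟩, ⟨.ofNat 644, .ofNat 0, .ofNat 14, .negSucc 193, .ofNat 472, .ofNat 75⟩, ⟨.negSucc 3506, .ofNat 2, .negSucc 1, .ofNat 880, .negSucc 515, .negSucc 35⟩, ⟨.ofNat 862, .negSucc 0, .ofNat 1, .ofNat 715, .negSucc 146, .negSucc 127⟩, .ofNat 21712, .negSucc 32326, .ofNat 0, .negSucc 32326, .ofNat 48942, .ofNat 0, .ofNat 128, .ofNat 5548, .negSucc 1578, .ofNat 0, .ofNat 3705, .negSucc 1025, .ofNat 0, .ofNat 0, .ofNat 8288, .ofNat 145480, .ofNat 0, .ofNat 0, .ofNat 0, .ofNat 0, .ofNat 0, .ofNat 0, .ofNat 8627546073290932142300931531687887011133461102592,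 .ofNat 0, .ofNat 0, .ofNat 0, .ofNat 413519950077119860895740389848602717093189648384, .ofNat 0, .ofNat 0, .ofNat 0, .ofNat 0, .ofNat 0⟩)
    (by decide +kernel)
theorem L03398 : Good (Phi V5.P V5.D 1 1) ⟨7, 114, 6, 42, 3, 7, 3, 1, 5, 6⟩ :=
  leafX_sound T5.ok_pp T5.Ypp.bz_eq (w := 255) (c := ⟨⟨.negSucc 2149, .negSucc 411, .ofNat 219, .ofNat 991, .negSucc 421, .negSucc 56⟩, ⟨.negSucc 1418, .negSucc 149, .ofNat 55, .ofNat 662, .negSucc 280, .negSucc 36⟩, ⟨.ofNat 654, .negSucc 138, .ofNat 79, .negSucc 206, .ofNat 464, .ofNat 89⟩, ⟨.negSucc 3200, .negSucc 184, .ofNat 104, .ofNat 515, .negSucc 958, .ofNat 73⟩, ⟨.ofNat 286, .negSucc 19, .ofNat 0, .ofNat 1310, .ofNat 547, .negSucc 225⟩, .ofNat 1572, .negSucc 1999, .ofNat 0, .negSucc 1999, .ofNat 3231, .ofNat 0, .ofNat 128, .ofNat 569, .negSucc 145, .ofNat 0, .ofNat 403, .negSucc 77, .ofNat 0, .ofNat 0, .ofNat 707, .ofNat 8848, .ofNat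 0, .ofNat 0, .ofNat 48856563951174792462224103078298151668416512, .ofNat 0, .ofNat 0, .ofNat 0, .ofNat 3901482427337557468324524609760793859379429376, .ofNat 752569976651706673474847309112208133042676717573948571648, .ofNat 0, .ofNat 0, .ofNat 3084643718554445694973734353752002674628231168, .ofNat 0, .ofNat 0, .ofNat 0, .ofNat 2017988180030375303022474439052159163316568064, .ofNat 923642807982115256590676262830664888237069700767332433920⟩)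
    (by decide +kernel)
theorem L03399 : Good (Phi V5.P V5.D 1 1) ⟨8, 228, 6, 43, 3, 7, 3, 1, 5, 6⟩ :=
  out_sound (S := T5.ds_pp) T5.ok_pp (w := 81) (j := 3) (by decide +kernel)
theorem L03400 : Good (Phi V5.P V5.D 1 1) ⟨8, 229, 6, 43, 3, 7, 3, 1, 5, 6⟩ :=
  out_sound (S := T5.ds_pp) T5.ok_pp (w := 23) (j := 4) (by decide +kernel)
theorem L03401 : Good (Phi V5.P V5.D 1 1) ⟨7, 114, 5, 20, 3, 7, 2, 0, 5, 7⟩ :=
  leafX_sound T5.ok_pp T5.Ypp.bz_eq (w := 254) (c := ⟨⟨.negSucc 1716, .ofNat 1, .negSucc 70, .ofNat 771, .negSucc 655, .negSucc 52⟩, ⟨.negSucc 1194, .ofNat 1, .ofNat 11, .ofNat 515, .negSucc 427, .negSucc 36⟩, ⟨.ofNat 189, .ofNat 0, .negSucc 45, .ofNat 17, .ofNat 928, .ofNat 20⟩, ⟨.negSucc 2423, .ofNat 1, .negSucc 1, .ofNat 320, .negSucc 1364, .ofNat 20⟩, ⟨.negSucc 134, .ofNat 0, .ofNat 1, .ofNat 1154, .ofNat 674, .negSucc 144⟩, .ofNat 6369, .negSucc 9218, .ofNat 0, .negSucc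 9218, .ofNat 14134, .ofNat 0, .ofNat 128, .ofNat 1960, .negSucc 486, .ofNat 0, .ofNat 1327, .negSucc 298, .ofNat 0, .ofNat 0, .ofNat 4822, .ofNat 55040, .ofNat 0, .ofNat 0, .ofNat 0, .ofNat 0, .ofNat 0, .ofNat 0, .ofNat 75216326349445627448189045437128256487392542720, .ofNat 0, .ofNat 0, .ofNat 0, .ofNat 1508379591241716184798717018047858056458403840, .ofNat 0, .ofNat 12343042034403471122406505568838524384262920087512547328, .ofNat 0, .ofNat 16537213046144007717296272355139432241994661888, .ofNat 0⟩)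
    (by decide +kernel)
theorem L03402 : Good (Phi V5.P V5.D 1 1) ⟨8, 228, 6, 42, 4, 14, 2, 0, 5, 7⟩ :=
  leafX_sound T5.ok_pp T5.Ypp.bz_eq (w := 276) (c := ⟨⟨.negSucc 1767, .ofNat 71, .negSucc 70, .ofNat 318, .negSucc 723, .ofNat 22⟩, ⟨.negSucc 1168, .ofNat 41, .negSucc 62, .ofNat 214, .negSucc 478, .ofNat 14⟩, ⟨.ofNat 80, .ofNat 25, .negSucc 6, .negSucc 54, .ofNat 1108, .negSucc 64⟩, ⟨.negSucc 2620, .ofNat 61, .ofNat 4, .ofNat 240, .negSucc 1239, .ofNat 149⟩, ⟨.ofNat 198, .negSucc 20, .negSucc 54, .ofNat 311, .ofNat 341, .negSucc 176⟩, .ofNat 7277, .negSucc 10533, .ofNat 0, .negSucc 10533, .ofNat 16028, .ofNat 0, .ofNat 128, .ofNat 1998, .negSucc 346, .ofNat 0, .ofNat 1352, .negSucc 220, .ofNat 0, .ofNat 0, .ofNat 2793, .ofNat 53851, .ofNat 0, .ofNat 0, .ofNat 16466736237371409469125372174365154622673256448, .ofNat 0, .ofNat 0, .ofNat 0, .ofNat 6684762958805972079101630221785994091445180432384,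 .ofNat 0, .ofNat 0, .ofNat 0, .ofNat 0, .ofNat 0, .ofNat 2712072696717903838735578658686782396814382101997386326867968, .ofNat 0, .ofNat 4189124329940705707485411434424104508999317061632, .ofNat 0⟩)
    (by decide +kernel)
theorem L03403 : Good (Phi V5.P V5.D 1 1) ⟨8, 228, 6, 42, 4, 15, 2, 0, 5, 7⟩ :=
  leafX_sound T5.ok_pp T5.Ypp.bz_eq (w := 276) (c := ⟨⟨.negSucc 1448, .negSucc 73, .ofNat 73, .ofNat 439, .negSucc 640, .negSucc 56⟩, ⟨.negSucc 958, .negSucc 56, .ofNat 37, .ofNat 296, .negSucc 420, .negSucc 37⟩, ⟨.ofNat 125, .ofNat 51, .negSucc 32, .ofNat 100, .ofNat 856, .ofNat 48⟩, ⟨.negSucc 2482, .negSucc 4, .ofNat 25, .ofNat 217, .negSucc 1112, .ofNat 19⟩, ⟨.ofNat 671, .negSucc 29, .negSucc 6, .ofNat 597, .ofNat 328, .negSucc 146⟩, .ofNat 11982, .negSucc 17579, .ofNat 0, .negSucc 17579, .ofNat 26584, .ofNat 0, .ofNat 128, .ofNat 1511, .negSucc 285, .ofNat 0, .ofNat 1019,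 .negSucc 181, .ofNat 0, .ofNat 0, .ofNat 3166, .ofNat 46452, .ofNat 0, .ofNat 0, .ofNat 0, .ofNat 0, .ofNat 0, .ofNat 0, .ofNat 13640189977590145095216547247497914138587501166592, .ofNat 0, .ofNat 0, .ofNat 0, .ofNat 22115594500105102939254007670440347710284332269568, .ofNat 0, .ofNat 0, .ofNat 0, .ofNat 0, .ofNat 0⟩)
    (by decide +kernel)
theorem L03404 : Good (Phi V5.P V5.D 1 1) ⟨8, 229, 6, 42, 3, 7, 2, 0, 5, 7⟩ :=
  out_sound (S := T5.ds_pp) T5.ok_pp (w := 23) (j := 4) (by decide +kernel)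
theorem L03405 : Good (Phi V5.P V5.D 1 1) ⟨8, 228, 6, 43, 3, 7, 2, 0, 5, 7⟩ :=
  out_sound (S := T5.ds_pp) T5.ok_pp (w := 81) (j := 3) (by decide +kernel)
theorem L03406 : Good (Phi V5.P V5.D 1 1) ⟨8, 229, 6, 43, 3, 7, 2, 0, 5, 7⟩ :=
  out_sound (S := T5.ds_pp) T5.ok_pp (w := 23) (j := 4) (by decide +kernel)
theorem L03407 : Good (Phi V5.P V5.D 1 1) ⟨7, 115, 4, 10, 3, 7, 2, 0, 4, 3⟩ :=
  out_sound (S := T5.ds_pp) T5.ok_pp (w := 21) (j := 4) (by decide +kernel)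
theorem L03408 : Good (Phi V5.P V5.D 1 1) ⟨6, 56, 4, 11, 2, 3, 2, 0, 4, 3⟩ :=
  out_sound (S := T5.ds_pp) T5.ok_pp (w := 65) (j := 3) (by decide +kernel)
theorem L03409 : Good (Phi V5.P V5.D 1 1) ⟨7, 114, 5, 22, 2, 3, 2, 0, 4, 3⟩ :=
  out_sound (S := T5.ds_pp) T5.ok_pp (w := 73) (j := 3) (by decide +kernel)
theorem L03410 : Good (Phi V5.P V5.D 1 1) ⟨7, 115, 5, 22, 2, 3, 2, 0, 4, 3⟩ :=
  out_sound (S := T5.ds_pp) T5.ok_pp (w := 21) (j := 4) (by decide +kernel)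
theorem L03411 : Good (Phi V5.P V5.D 1 1) ⟨6, 57, 5, 23, 2, 3, 2, 0, 4, 3⟩ :=
  out_sound (S := T5.ds_pp) T5.ok_pp (w := 67) (j := 3) (by decide +kernel)
theorem L03412 : Good (Phi V5.P V5.D 1 1) ⟨5, 29, 3, 5, 2, 3, 2, 0, 4, 3⟩ :=
  out_sound (S := T5.ds_pp) T5.ok_pp (w := 17) (j := 4) (by decide +kernel)
theorem L03413 : Good (Phi V5.P V5.D 1 1) ⟨4, 15, 3, 5, 2, 3, 2, 0, 4, 3⟩ :=
  out_sound (S := T5.ds_pp) T5.ok_pp (w := 51) (j := 3) (by decide +kernel)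
theorem L03414 : Good (Phi V5.P V5.D 1 1) ⟨2, 2, 2, 3, 2, 3, 2, 0, 2, 0⟩ :=
  out_sound (S := T5.ds_pp) T5.ok_pp (w := 37) (j := 3) (by decide +kernel)
theorem L03415 : Good (Phi V5.P V5.D 1 1) ⟨3, 6, 2, 3, 2, 3, 2, 0, 2, 0⟩ :=
  out_sound (S := T5.ds_pp) T5.ok_pp (w := 43) (j := 3) (by decide +kernel)
theorem L03416 : Good (Phi V5.P V5.D 1 1) ⟨5, 28, 3, 6, 2, 3, 2, 0, 2, 0⟩ :=
  out_sound (S := T5.ds_pp) T5.ok_pp (w := 57) (j := 3) (by decide +kernel)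
theorem L03417 : Good (Phi V5.P V5.D 1 1) ⟨5, 29, 3, 6, 2, 3, 2, 0, 2, 0⟩ :=
  out_sound (S := T5.ds_pp) T5.ok_pp (w := 17) (j := 4) (by decide +kernel)
theorem L03418 : Good (Phi V5.P V5.D 1 1) ⟨4, 14, 3, 7, 2, 3, 2, 0, 2, 0⟩ :=
  out_sound (S := T5.ds_pp) T5.ok_pp (w := 51) (j := 3) (by decide +kernel)
theorem L03419 : Good (Phi V5.P V5.D 1 1) ⟨4, 15, 2, 3, 2, 3, 2, 0, 2, 0⟩ :=
  out_sound (S := T5.ds_pp) T5.ok_pp (w := 15) (j := 4) (by decide +kernel)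
theorem L03420 : Good (Phi V5.P V5.D 1 1) ⟨2, 2, 3, 4, 3, 6, 2, 1, 4, 0⟩ :=
  out_sound (S := T5.ds_pp) T5.ok_pp (w := 39) (j := 3) (by decide +kernel)
theorem L03421 : Good (Phi V5.P V5.D 1 1) ⟨4, 12, 4, 8, 3, 6, 2, 1, 5, 0⟩ :=
  out_sound (S := T5.ds_pp) T5.ok_pp (w := 53) (j := 3) (by decide +kernel)
theorem L03422 : Good (Phi V5.P V5.D 1 1) ⟨5, 26, 4, 8, 3, 6, 2, 1, 5, 0⟩ :=
  leafX_sound T5.ok_pp T5.Ypp.bz_eq (w := 241) (c := ⟨⟨.ofNat 5806, .negSucc 353, .ofNat 1015, .negSucc 1637, .negSucc 1076, .negSucc 4339⟩, ⟨.ofNat 3121, .negSucc 86, .ofNat 579, .negSucc 870, .negSucc 569, .negSucc 2410⟩, ⟨.negSucc 3992, .ofNat 147, .negSucc 601, .ofNat 932, .ofNat 1052, .ofNat 2395⟩, ⟨.ofNat 8405, .negSucc 403, .ofNat 1214, .negSucc 3165, .negSucc 2133, .negSucc 6288⟩, ⟨.ofNat 583, .negSucc 349, .ofNat 308, .ofNat 1306, .ofNat 953, .negSucc 315⟩, .ofNat 2882, .negSucc 4537, .ofNat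 0, .negSucc 4537, .ofNat 8231, .ofNat 0, .ofNat 128, .ofNat 1196, .negSucc 1694, .ofNat 0, .ofNat 691, .negSucc 916, .ofNat 0, .ofNat 0, .ofNat 1538, .ofNat 1492, .ofNat 0, .ofNat 0, .ofNat 0, .ofNat 0, .ofNat 0, .ofNat 0, .ofNat 15827290973672959299626825822474215712882688, .ofNat 0, .ofNat 0, .ofNat 0, .ofNat 5990555382348446510387305763329660153757696, .ofNat 0, .ofNat 0, .ofNat 0, .ofNat 26947277267071986030634880422912592281862144, .ofNat 0⟩)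
    (by decide +kernel)
theorem L03423 : Good (Phi V5.P V5.D 1 1) ⟨5, 27, 4, 8, 3, 6, 2, 1, 5, 0⟩ :=
  leafX_sound T5.ok_pp T5.Ypp.bz_eq (w := 239) (c := ⟨⟨.ofNat 5301, .ofNat 1138, .negSucc 471, .negSucc 1070, .negSucc 694, .negSucc 4546⟩, ⟨.ofNat 2988, .ofNat 777, .negSucc 205, .negSucc 592, .negSucc 364, .negSucc 2616⟩, ⟨.negSucc 3752, .negSucc 744, .ofNat 379, .ofNat 565, .ofNat 860, .ofNat 2554⟩, ⟨.ofNat 7891, .ofNat 1569, .negSucc 639, .negSucc 2318, .negSucc 1549, .negSucc 7089⟩, ⟨.negSucc 45, .negSucc 159, .negSucc 147, .ofNat 1298, .ofNat 866, .ofNat 760⟩, .ofNat 2007, .negSucc 2864, .ofNat 0, .negSucc 2864, .ofNat 5010, .ofNat 0, .ofNat 128, .ofNat 573, .negSucc 1195, .ofNat 0, .ofNat 349, .negSucc 670, .ofNat 0, .ofNat 0, .ofNat 1016, .ofNat 433, .ofNat 0, .ofNat 0, .ofNat 0, .ofNat 0, .ofNat 0, .ofNat 0, .ofNat 5156189584966720122581500956285884839231488, .ofNat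 0, .ofNat 0, .ofNat 0, .ofNat 13727324684036787433531191694161229236928512, .ofNat 0, .ofNat 0, .ofNat 0, .ofNat 0, .ofNat 0⟩)
    (by decide +kernel)
theorem L03424 : Good (Phi V5.P V5.D 1 1) ⟨3, 7, 4, 8, 3, 6, 2, 1, 5, 0⟩ :=
  out_sound (S := T5.ds_pp) T5.ok_pp (w := 47) (j := 3) (by decide +kernel)
theorem L03425 : Good (Phi V5.P V5.D 1 1) ⟨3, 6, 4, 9, 3, 6, 2, 1, 5, 0⟩ :=
  leafX_sound T5.ok_pp T5.Ypp.bz_eq (w := 232) (c := ⟨⟨.ofNat 2273, .ofNat 3652, .negSucc 164, .negSucc 1327, .negSucc 959, .negSucc 4651⟩, ⟨.ofNat 919, .ofNat 2730, .negSucc 65, .negSucc 794, .negSucc 574, .negSucc 2847⟩, ⟨.negSucc 2626, .negSucc 1388, .ofNat 28, .ofNat 828, .ofNat 953, .ofNat 2583⟩, ⟨.ofNat 4946, .ofNat 4074, .negSucc 52, .negSucc 3011, .negSucc 2340, .negSucc 7247⟩, ⟨.negSucc 1413, .ofNat 629, .negSucc 307, .ofNat 1740, .ofNat 1533, .ofNat 847⟩, .ofNat 1787, .negSucc 2456, .ofNat 0,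 .negSucc 2456, .ofNat 4213, .ofNat 0, .ofNat 128, .ofNat 1043, .negSucc 2206, .ofNat 0, .ofNat 647, .negSucc 1279, .ofNat 0, .ofNat 0, .ofNat 1854, .ofNat 591, .ofNat 0, .ofNat 0, .ofNat 3509822369509220160226213973235946882072576, .ofNat 0, .ofNat 0, .ofNat 0, .ofNat 42735786626306302556633402279204037706383360, .ofNat 0, .ofNat 0, .ofNat 0, .ofNat 258158900804120639303546107696524284867379200, .ofNat 0, .ofNat 0, .ofNat 0, .ofNat 615192121850889896077005759980992639562416128, .ofNat 0⟩)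
    (by decide +kernel)
theorem L03426 : Good (Phi V5.P V5.D 1 1) ⟨5, 28, 4, 9, 3, 6, 2, 1, 5, 0⟩ :=
  leafX_sound T5.ok_pp T5.Ypp.bz_eq (w := 240) (c := ⟨⟨.ofNat 6094, .ofNat 1409, .negSucc 89, .negSucc 1751, .negSucc 1335, .negSucc 4990⟩, ⟨.ofNat 3800, .ofNat 948, .negSucc 7, .negSucc 1084, .negSucc 831, .negSucc 3145⟩, ⟨.negSucc 4139, .negSucc 691, .ofNat 96, .ofNat 1046, .ofNat 1138, .ofNat 2771⟩, ⟨.ofNat 9030, .ofNat 1643, .ofNat 236, .negSucc 3711, .negSucc 3024, .negSucc 7364⟩, ⟨.negSucc 495, .ofNat 161, .negSucc 541, .ofNat 1903, .ofNat 1750, .ofNat 388⟩, .ofNat 2417, .negSucc 3254, .ofNat 0, .negSucc 3254, .ofNat 5151, .ofNat 0, .ofNat 128, .ofNat 961, .negSucc 2020, .ofNat 0, .ofNat 632, .negSucc 1231, .ofNat 0, .ofNat 0, .ofNat 1632, .ofNat 575, .ofNat 0, .ofNat 0, .ofNat 118961510745304461165651901104403070844928, .ofNat 0, .ofNat 0, .ofNat 0, .ofNat 51411522087744285774210948880036825218940928,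 .ofNat 0, .ofNat 0, .ofNat 0, .ofNat 12692712445161369363237705329263183606579200, .ofNat 0, .ofNat 0, .ofNat 0, .ofNat 6733165686561550284301046557921499628437504, .ofNat 0⟩)
    (by decide +kernel)
theorem L03427 : Good (Phi V5.P V5.D 1 1) ⟨5, 29, 4, 9, 3, 6, 2, 1, 5, 0⟩ :=
  out_sound (S := T5.ds_pp) T5.ok_pp (w := 59) (j := 3) (by decide +kernel)
theorem L03428 : Good (Phi V5.P V5.D 1 1) ⟨4, 15, 4, 9, 3, 6, 2, 1, 5, 0⟩ :=
  out_sound (S := T5.ds_pp) T5.ok_pp (w := 53) (j := 3) (by decide +kernel)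
theorem L03429 : Good (Phi V5.P V5.D 1 1) ⟨3, 6, 3, 4, 3, 6, 2, 1, 5, 1⟩ :=
  leafX_sound T5.ok_pp T5.Ypp.bz_eq (w := 226) (c := ⟨⟨.ofNat 994, .ofNat 367, .negSucc 491, .negSucc 768, .negSucc 2083, .negSucc 2009⟩, ⟨.ofNat 496, .ofNat 409, .negSucc 499, .negSucc 422, .negSucc 1209, .negSucc 1178⟩, ⟨.negSucc 1698, .ofNat 147, .ofNat 328, .ofNat 483, .ofNat 1608, .ofNat 1229⟩, ⟨.ofNat 2131, .ofNat 318, .negSucc 1034, .negSucc 2309, .negSucc 4126, .negSucc 3320⟩, ⟨.negSucc 1227, .ofNat 495, .ofNat 411, .ofNat 2020, .ofNat 1824, .ofNat 691⟩, .ofNat 1543, .negSucc 2121, .ofNat 0, .negSucc 2121, .ofNat 3803, .ofNat 0, .ofNat 128, .ofNat 671, .negSucc 880, .ofNat 0, .ofNat 406, .negSucc 480, .ofNat 0, .ofNat 0, .ofNat 908, .ofNat 349, .ofNat 0, .ofNat 0, .ofNat 106717680004897863296656077934853051383808, .ofNat 0, .ofNat 0, .ofNat 0, .ofNat 22701584537444762604469988404028680343388160,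 .ofNat 0, .ofNat 0, .ofNat 0, .ofNat 0, .ofNat 0, .ofNat 0, .ofNat 0, .ofNat 0, .ofNat 0⟩)
    (by decide +kernel)
theorem L03430 : Good (Phi V5.P V5.D 1 1) ⟨3, 7, 3, 4, 3, 6, 2, 1, 5, 1⟩ :=
  leafX_sound T5.ok_pp T5.Ypp.bz_eq (w := 228) (c := ⟨⟨.ofNat 1069, .negSucc 481, .negSucc 48, .negSucc 609, .negSucc 2493, .negSucc 2053⟩, ⟨.ofNat 945, .ofNat 359, .negSucc 363, .negSucc 357, .negSucc 1551, .negSucc 1284⟩, ⟨.negSucc 1739, .negSucc 795, .ofNat 504, .ofNat 411, .ofNat 1813, .ofNat 1263⟩, ⟨.ofNat 1687, .negSucc 176, .ofNat 109, .negSucc 2055, .negSucc 4884, .negSucc 3216⟩, ⟨.negSucc 24, .negSucc 51, .negSucc 547, .ofNat 1859, .ofNat 2077, .ofNat 458⟩, .ofNat 2028, .negSucc 2769, .ofNat 0, .negSucc 2769, .ofNat 4576, .ofNat 0, .ofNat 128, .ofNat 930, .negSucc 1219, .ofNat 0, .ofNat 594, .negSucc 728, .ofNat 0, .ofNat 0, .ofNat 1202, .ofNat 306, .ofNat 0, .ofNat 0, .ofNat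 308758486321502685574071125450043695300608, .ofNat 0, .ofNat 0, .ofNat 0, .ofNat 104177238941782265580353061662340559184855040, .ofNat 40584462458988342651198395255355934336628123762688, .ofNat 0, .ofNat 0, .ofNat 22754890227420891936446020064732226422571008, .ofNat 0, .ofNat 0, .ofNat 0, .ofNat 48750473855922128323022140160859481818791936, .ofNat 0⟩)
    (by decide +kernel)
theorem L03431 : Good (Phi V5.P V5.D 1 1) ⟨2, 2, 3, 4, 3, 6, 2, 1, 4, 1⟩ :=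
  out_sound (S := T5.ds_pp) T5.ok_pp (w := 39) (j := 3) (by decide +kernel)
theorem L03432 : Good (Phi V5.P V5.D 1 1) ⟨3, 6, 3, 4, 3, 6, 2, 1, 4, 1⟩ :=
  leafX_sound T5.ok_pp T5.Ypp.bz_eq (w := 221) (c := ⟨⟨.negSucc 603, .negSucc 1420, .ofNat 457, .ofNat 116, .negSucc 2260, .negSucc 981⟩, ⟨.negSucc 486, .negSucc 487, .negSucc 208, .ofNat 112, .negSucc 1274, .negSucc 581⟩, ⟨.negSucc 313, .ofNat 587, .negSucc 60, .negSucc 97, .ofNat 1884, .ofNat 880⟩, ⟨.negSucc 1756, .negSucc 1104, .negSucc 39, .negSucc 796, .negSucc 4107, .negSucc 1216⟩, ⟨.ofNat 568, .negSucc 492, .ofNat 937, .ofNat 1635, .ofNat 1388, .negSucc 364⟩, .ofNat 1573, .negSucc 2158, .ofNat 0, .negSucc 2158, .ofNat 3840, .ofNat 0, .ofNat 128, .ofNat 653, .negSucc 560, .ofNat 0, .ofNat 403, .negSucc 302, .ofNat 0, .ofNat 0, .ofNat 765, .ofNat 596, .ofNat 0, .ofNat 0, .ofNat 3486623327688837087898076551862946889728,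 .ofNat 0, .ofNat 0, .ofNat 0, .ofNat 807678944111818316524138585831762275860480, .ofNat 0, .ofNat 0, .ofNat 0, .ofNat 0, .ofNat 0, .ofNat 0, .ofNat 0, .ofNat 0, .ofNat 0⟩)
    (by decide +kernel)
theorem L03433 : Good (Phi V5.P V5.D 1 1) ⟨3, 7, 3, 4, 3, 6, 2, 1, 4, 1⟩ :=
  leafX_sound T5.ok_pp T5.Ypp.bz_eq (w := 220) (c := ⟨⟨.negSucc 2044, .negSucc 2153, .ofNat 225, .ofNat 229, .negSucc 2375, .negSucc 957⟩, ⟨.negSucc 945, .negSucc 1245, .negSucc 248, .ofNat 169, .negSucc 1480, .negSucc 601⟩, ⟨.ofNat 214, .ofNat 446, .ofNat 223, .negSucc 209, .ofNat 1937, .ofNat 861⟩, ⟨.negSucc 2689, .negSucc 2028, .negSucc 123, .negSucc 800, .negSucc 4444, .negSucc 1198⟩, ⟨.ofNat 214, .ofNat 1325, .negSucc 3, .ofNat 1761, .ofNat 1638, .negSucc 256⟩, .ofNat 970, .negSucc 964, .ofNat 0, .negSucc 964, .ofNat 1480, .ofNat 0, .ofNat 128, .ofNat 273, .negSucc 385, .ofNat 0, .ofNat 211, .negSucc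 197, .ofNat 0, .ofNat 0, .ofNat 445, .ofNat 614, .ofNat 0, .ofNat 0, .ofNat 10331696471817342259847016999238735233024, .ofNat 0, .ofNat 0, .ofNat 0, .ofNat 136510066574987213657630573288492852314112, .ofNat 0, .ofNat 0, .ofNat 0, .ofNat 91950594758277231451583880848751540043776, .ofNat 364925159144484382499998702076906551754300063744, .ofNat 0, .ofNat 0, .ofNat 373555551644354606607747888078706136055808, .ofNat 343064315003948657296737689019110369730525921280⟩)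
    (by decide +kernel)
theorem L03434 : Good (Phi V5.P V5.D 1 1) ⟨2, 2, 3, 4, 3, 7, 2, 1, 3, 0⟩ :=
  out_sound (S := T5.ds_pp) T5.ok_pp (w := 39) (j := 3) (by decide +kernel)
theorem L03435 : Good (Phi V5.P V5.D 1 1) ⟨4, 12, 4, 8, 3, 7, 2, 1, 5, 0⟩ :=
  out_sound (S := T5.ds_pp) T5.ok_pp (w := 53) (j := 3) (by decide +kernel)
theorem L03436 : Good (Phi V5.P V5.D 1 1) ⟨5, 26, 4, 8, 3, 7, 3, 2, 5, 0⟩ :=
  leafX_sound T5.ok_pp T5.Ypp.bz_eq (w := 245) (c := ⟨⟨.ofNat 1880, .ofNat 599, .ofNat 395, .ofNat 1578, .negSucc 427, .negSucc 2536⟩, ⟨.ofNat 931, .ofNat 509, .ofNat 138, .ofNat 927, .negSucc 211, .negSucc 1430⟩, ⟨.negSucc 1606, .negSucc 160, .negSucc 344, .ofNat 275, .ofNat 89, .ofNat 882⟩, ⟨.ofNat 2697, .ofNat 229, .ofNat 230, .ofNat 1197, .negSucc 1196, .negSucc 3587⟩, ⟨.ofNat 568, .ofNat 849, .ofNat 459, .ofNat 2065, .ofNat 995, .negSucc 393⟩, .ofNat 2809, .negSucc 4561,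 .ofNat 0, .negSucc 4561, .ofNat 8537, .ofNat 0, .ofNat 128, .ofNat 1005, .negSucc 1809, .ofNat 0, .ofNat 557, .negSucc 967, .ofNat 0, .ofNat 0, .ofNat 1528, .ofNat 783, .ofNat 0, .ofNat 0, .ofNat 0, .ofNat 0, .ofNat 0, .ofNat 0, .ofNat 0, .ofNat 0, .ofNat 0, .ofNat 0, .ofNat 0, .ofNat 0, .ofNat 0, .ofNat 0, .ofNat 0, .ofNat 0⟩)
    (by decide +kernel)
theorem L03437 : Good (Phi V5.P V5.D 1 1) ⟨5, 26, 5, 16, 3, 7, 3, 3, 5, 0⟩ :=
  leafX_sound T5.ok_pp T5.Ypp.bz_eq (w := 249) (c := ⟨⟨.ofNat 1914, .negSucc 1090, .negSucc 178, .ofNat 2854, .negSucc 1367, .negSucc 2070⟩, ⟨.ofNat 909, .negSucc 345, .negSucc 172, .ofNat 1620, .negSucc 727, .negSucc 1171⟩, ⟨.negSucc 1869, .ofNat 1241, .negSucc 225, .negSucc 847, .ofNat 637, .ofNat 663⟩, ⟨.ofNat 1291, .negSucc 1659, .negSucc 467, .ofNat 3490, .negSucc 2519, .negSucc 2587⟩, ⟨.ofNat 2894, .negSucc 1, .ofNat 202, .ofNat 1377, .ofNat 873,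 .negSucc 889⟩, .ofNat 3227, .negSucc 5140, .ofNat 0, .negSucc 5140, .ofNat 9289, .ofNat 0, .ofNat 128, .ofNat 850, .negSucc 2445, .ofNat 0, .ofNat 492, .negSucc 1301, .ofNat 0, .ofNat 0, .ofNat 1904, .ofNat 1045, .ofNat 0, .ofNat 0, .ofNat 0, .ofNat 0, .ofNat 0, .ofNat 0, .ofNat 52457723074359001116359575311783024260022272, .ofNat 0, .ofNat 0, .ofNat 0, .ofNat 342068626920634120142586653311732711497400320, .ofNat 0, .ofNat 0, .ofNat 0, .ofNat 0, .ofNat 0⟩)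
    (by decide +kernel)
theorem L03438 : Good (Phi V5.P V5.D 1 1) ⟨5, 26, 5, 17, 3, 7, 3, 3, 5, 0⟩ :=
  out_sound (S := T5.ds_pp) T5.ok_pp (w := 61) (j := 3) (by decide +kernel)
theorem L03439 : Good (Phi V5.P V5.D 1 1) ⟨5, 27, 4, 8, 3, 7, 3, 2, 6, 0⟩ :=
  leafX_sound T5.ok_pp T5.Ypp.bz_eq (w := 249) (c := ⟨⟨.ofNat 3271, .ofNat 936, .negSucc 459, .ofNat 994, .negSucc 190, .negSucc 2193⟩, ⟨.ofNat 1873, .ofNat 696, .negSucc 272, .ofNat 658, .negSucc 85, .negSucc 1277⟩, ⟨.negSucc 2325, .negSucc 545, .ofNat 321, .ofNat 702, .negSucc 16, .ofNat 961⟩, ⟨.ofNat 4147, .ofNat 964, .negSucc 883, .ofNat 245, .negSucc 747, .negSucc 3099⟩, ⟨.ofNat 1326, .ofNat 482, .ofNat 88, .ofNat 2087, .ofNat 812, .negSucc 167⟩, .ofNat 2007, .negSucc 2864, .ofNat 0, .negSucc 2864, .ofNat 5010, .ofNat 0, .ofNat 128, .ofNat 816, .negSucc 1644, .ofNat 0, .ofNat 495, .negSucc 910, .ofNat 0, .ofNat 0, .ofNat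 1249, .ofNat 1526, .ofNat 0, .ofNat 0, .ofNat 231705496212950684833538978896487692193759232, .ofNat 0, .ofNat 0, .ofNat 0, .ofNat 5539905894435145567848632981621253733066211328, .ofNat 0, .ofNat 0, .ofNat 0, .ofNat 6381995004803073314756090555899643046477692928, .ofNat 0, .ofNat 0, .ofNat 0, .ofNat 7367156300887324978020682253239164887059398656, .ofNat 0⟩)
    (by decide +kernel)
theorem L03440 : Good (Phi V5.P V5.D 1 1) ⟨5, 27, 4, 8, 3, 7, 3, 2, 6, 1⟩ :=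
  leafX_sound T5.ok_pp T5.Ypp.bz_eq (w := 247) (c := ⟨⟨.ofNat 572, .ofNat 118, .ofNat 16, .ofNat 2248, .negSucc 297, .negSucc 963⟩, ⟨.ofNat 350, .ofNat 235, .negSucc 61, .ofNat 1338, .negSucc 150, .negSucc 553⟩, ⟨.negSucc 826, .ofNat 32, .negSucc 100, .negSucc 378, .ofNat 58, .ofNat 348⟩, ⟨.negSucc 199, .negSucc 496, .ofNat 266, .ofNat 2800, .negSucc 910, .negSucc 1233⟩, ⟨.ofNat 1990, .ofNat 875, .negSucc 564, .ofNat 866, .ofNat 814, .negSucc 360⟩, .ofNat 1379, .negSucc 1836, .ofNat 0, .negSucc 1836, .ofNat 3305, .ofNat 0, .ofNat 128, .ofNat 691, .negSucc 1231, .ofNat 0, .ofNat 418, .negSucc 654, .ofNat 0, .ofNat 0, .ofNat 1039, .ofNat 2285, .ofNat 0, .ofNat 0, .ofNat 217472702776649788889670472898165950012981248, .ofNat 0, .ofNat 0, .ofNat 0, .ofNat 4696009099685890189536665385908722708324024320, .ofNat 0, .ofNat 0, .ofNat 0, .ofNat 3406564615364252338131315934140629528568922112,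 .ofNat 0, .ofNat 0, .ofNat 0, .ofNat 0, .ofNat 0⟩)
    (by decide +kernel)
theorem L03441 : Good (Phi V5.P V5.D 1 1) ⟨5, 27, 4, 8, 4, 14, 3, 3, 5, 0⟩ :=
  leafX_sound T5.ok_pp T5.Ypp.bz_eq (w := 257) (c := ⟨⟨.ofNat 2665, .negSucc 554, .ofNat 138, .negSucc 454, .negSucc 1866, .negSucc 2898⟩, ⟨.ofNat 1608, .negSucc 83, .negSucc 87, .negSucc 217, .negSucc 1047, .negSucc 1684⟩, ⟨.negSucc 1884, .ofNat 399, .negSucc 88, .ofNat 416, .ofNat 1112, .ofNat 1412⟩, ⟨.ofNat 3078, .negSucc 1114, .ofNat 73, .negSucc 1540, .negSucc 3841, .negSucc 4340⟩, ⟨.ofNat 1664, .ofNat 277, .ofNat 84, .ofNat 1441, .ofNat 1903, .ofNat 122⟩, .ofNat 1470, .negSucc 2007, .ofNat 0, .negSucc 2007, .ofNat 3633, .ofNat 0, .ofNat 128, .ofNat 822, .negSucc 2317, .ofNat 0, .ofNat 495, .negSucc 1246, .ofNat 0, .ofNat 0, .ofNat 1674, .ofNat 847, .ofNat 0, .ofNat 0, .ofNat 0, .ofNat 0, .ofNat 0, .ofNat 0, .ofNat 1992869811711058457084024722416905963902943100928,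 .ofNat 0, .ofNat 0, .ofNat 0, .ofNat 3755640018287228797428872810707038029241531760640, .ofNat 0, .ofNat 0, .ofNat 0, .ofNat 8238598600123431718706076265098884853274150699008, .ofNat 0⟩)
    (by decide +kernel)
theorem L03442 : Good (Phi V5.P V5.D 1 1) ⟨5, 27, 5, 16, 4, 15, 3, 3, 5, 0⟩ :=
  leafX_sound T5.ok_pp T5.Ypp.bz_eq (w := 261) (c := ⟨⟨.ofNat 1053, .ofNat 83, .ofNat 144, .ofNat 2850, .negSucc 1305, .negSucc 1981⟩, ⟨.ofNat 719, .ofNat 320, .ofNat 17, .ofNat 1625, .negSucc 702, .negSucc 1170⟩, ⟨.negSucc 561, .ofNat 277, .negSucc 185, .negSucc 1024, .ofNat 555, .ofNat 584⟩, ⟨.negSucc 594, .negSucc 399, .ofNat 162, .ofNat 4004, .negSucc 2532, .negSucc 2369⟩, ⟨.ofNat 3938, .ofNat 625, .negSucc 53, .ofNat 319, .ofNat 1072, .negSucc 951⟩, .ofNat 2061, .negSucc 2951, .ofNat 0, .negSucc 2951, .ofNat 5163, .ofNat 0, .ofNat 128, .ofNat 721, .negSucc 1641, .ofNat 0, .ofNat 444,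 .negSucc 869, .ofNat 0, .ofNat 0, .ofNat 1225, .ofNat 1742, .ofNat 0, .ofNat 0, .ofNat 488053377301769723200117677226399781345118126080, .ofNat 0, .ofNat 0, .ofNat 0, .ofNat 5350295033697328472777020573088027304345888358400, .ofNat 0, .ofNat 0, .ofNat 0, .ofNat 8388585017956208237156486963128679280884580352000, .ofNat 0, .ofNat 0, .ofNat 0, .ofNat 4019846598901798513767793854485838904377355534336, .ofNat 0⟩)
    (by decide +kernel)
theorem L03443 : Good (Phi V5.P V5.D 1 1) ⟨5, 27, 5, 17, 4, 15, 3, 3, 5, 0⟩ :=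
  leafX_sound T5.ok_pp T5.Ypp.bz_eq (w := 262) (c := ⟨⟨.ofNat 1038, .ofNat 294, .negSucc 47, .ofNat 2876, .negSucc 1381, .negSucc 1973⟩, ⟨.ofNat 611, .ofNat 490, .negSucc 131, .ofNat 1691, .negSucc 769, .negSucc 1177⟩, ⟨.negSucc 637, .ofNat 76, .negSucc 108, .negSucc 1037, .ofNat 589, .ofNat 635⟩, ⟨.negSucc 1009, .ofNat 245, .negSucc 217, .ofNat 4352, .negSucc 2752, .negSucc 2277⟩, ⟨.ofNat 4538, .negSucc 60, .ofNat 171, .negSucc 256, .ofNat 1228, .negSucc 1036⟩, .ofNat 2484, .negSucc 3650, .ofNat 0, .negSucc 3650, .ofNat 6301, .ofNat 0, .ofNat 128, .ofNat 1055, .negSucc 2026, .ofNat 0, .ofNat 645, .negSucc 1128, .ofNat 0, .ofNat 0, .ofNat 1504, .ofNat 1421, .ofNat 0, .ofNat 0, .ofNat 349598395720661253193594040184929884296064270336, .ofNat 0, .ofNat 0, .ofNat 0, .ofNat 11288045351764541716308083467201247313275553579008, .ofNat 0, .ofNat 0, .ofNat 0, .ofNat 9901086032343295091363362753249895205466523303936,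 .ofNat 0, .ofNat 0, .ofNat 0, .ofNat 0, .ofNat 0⟩)
    (by decide +kernel)
theorem L03444 : Good (Phi V5.P V5.D 1 1) ⟨4, 12, 4, 8, 3, 7, 2, 1, 5, 1⟩ :=
  out_sound (S := T5.ds_pp) T5.ok_pp (w := 53) (j := 3) (by decide +kernel)
theorem L03445 : Good (Phi V5.P V5.D 1 1) ⟨4, 13, 4, 8, 3, 7, 3, 2, 5, 1⟩ :=
  leafX_sound T5.ok_pp T5.Ypp.bz_eq (w := 238) (c := ⟨⟨.negSucc 787, .ofNat 318, .ofNat 15, .ofNat 2762, .negSucc 468, .negSucc 1315⟩, ⟨.negSucc 534, .ofNat 448, .negSucc 90, .ofNat 1620, .negSucc 236, .negSucc 772⟩, ⟨.ofNat 34, .negSucc 284, .ofNat 5, .negSucc 946, .ofNat 141, .ofNat 514⟩, ⟨.negSucc 1789, .negSucc 51, .negSucc 48, .ofNat 3875, .negSucc 1268, .negSucc 1935⟩, ⟨.ofNat 1292, .ofNat 781, .negSucc 67, .ofNat 297, .ofNat 971, .ofNat 18⟩, .ofNat 1495, .negSucc 2047, .ofNat 0, .negSucc 2047, .ofNat 3695, .ofNat 0, .ofNat 128, .ofNat 794, .negSucc 1093, .ofNat 0, .ofNat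 478, .negSucc 574, .ofNat 0, .ofNat 0, .ofNat 1122, .ofNat 1046, .ofNat 0, .ofNat 0, .ofNat 10052681338809962636037613679123196471672832, .ofNat 0, .ofNat 0, .ofNat 0, .ofNat 205522793170865827643018594329562018291384320, .ofNat 0, .ofNat 0, .ofNat 0, .ofNat 0, .ofNat 0, .ofNat 0, .ofNat 0, .ofNat 0, .ofNat 0⟩)
    (by decide +kernel)
theorem L03446 : Good (Phi V5.P V5.D 1 1) ⟨5, 26, 4, 8, 3, 7, 3, 3, 5, 1⟩ :=
  leafX_sound T5.ok_pp T5.Ypp.bz_eq (w := 246) (c := ⟨⟨.negSucc 1489, .negSucc 256, .ofNat 402, .ofNat 3586, .negSucc 1077, .negSucc 1323⟩, ⟨.negSucc 896, .ofNat 25, .ofNat 66, .ofNat 1997, .negSucc 561, .negSucc 735⟩, ⟨.ofNat 497, .ofNat 94, .negSucc 253, .negSucc 1700, .ofNat 558, .ofNat 549⟩, ⟨.negSucc 3638, .negSucc 379, .ofNat 329, .ofNat 5057, .negSucc 2217, .negSucc 1930⟩, ⟨.ofNat 2619, .negSucc 48, .ofNat 231, .ofNat 517, .ofNat 1102, .negSucc 76⟩, .ofNat 3114,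 .negSucc 4942, .ofNat 0, .negSucc 4942, .ofNat 8941, .ofNat 0, .ofNat 128, .ofNat 1112, .negSucc 2137, .ofNat 0, .ofNat 644, .negSucc 1122, .ofNat 0, .ofNat 0, .ofNat 1971, .ofNat 737, .ofNat 0, .ofNat 0, .ofNat 0, .ofNat 0, .ofNat 0, .ofNat 0, .ofNat 170028528834838998480615646464436932651778048, .ofNat 0, .ofNat 0, .ofNat 0, .ofNat 0, .ofNat 0, .ofNat 0, .ofNat 0, .ofNat 0, .ofNat 0⟩)
    (by decide +kernel)
theorem L03447 : Good (Phi V5.P V5.D 1 1) ⟨5, 27, 4, 8, 3, 7, 3, 3, 5, 1⟩ :=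
  leafX_sound T5.ok_pp T5.Ypp.bz_eq (w := 242) (c := ⟨⟨.negSucc 1776, .negSucc 271, .ofNat 194, .ofNat 3728, .negSucc 1221, .negSucc 1282⟩, ⟨.negSucc 916, .ofNat 79, .negSucc 90, .ofNat 2176, .negSucc 664, .negSucc 762⟩, ⟨.ofNat 600, .ofNat 405, .negSucc 276, .negSucc 1811, .ofNat 670, .ofNat 575⟩, ⟨.negSucc 4147, .negSucc 607, .ofNat 11, .ofNat 5567, .negSucc 2462, .negSucc 2074⟩, ⟨.ofNat 2808, .ofNat 197, .ofNat 330, .negSucc 222, .ofNat 1159, .ofNat 364⟩, .ofNat 2007, .negSucc 2864, .ofNat 0, .negSucc 2864, .ofNat 5010, .ofNat 0, .ofNat 128, .ofNat 534, .negSucc 876, .ofNat 0, .ofNat 325, .negSucc 470, .ofNat 0, .ofNat 0, .ofNat 762, .ofNat 1053, .ofNat 0, .ofNat 0, .ofNat 6029423682953874087901631522258642320490496, .ofNat 0, .ofNat 0, .ofNat 0, .ofNat 225820374214208310140766408043698818769747968, .ofNat 0, .ofNat 0, .ofNat 0, .ofNat 126452681278918828676637562849638086514573312,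 .ofNat 0, .ofNat 0, .ofNat 0, .ofNat 0, .ofNat 0⟩)
    (by decide +kernel)
theorem L03448 : Good (Phi V5.P V5.D 1 1) ⟨3, 7, 4, 8, 3, 7, 2, 1, 4, 0⟩ :=
  out_sound (S := T5.ds_pp) T5.ok_pp (w := 47) (j := 3) (by decide +kernel)
theorem L03449 : Good (Phi V5.P V5.D 1 1) ⟨4, 12, 4, 8, 3, 7, 2, 1, 4, 1⟩ :=
  out_sound (S := T5.ds_pp) T5.ok_pp (w := 53) (j := 3) (by decide +kernel)
theorem L03450 : Good (Phi V5.P V5.D 1 1) ⟨5, 26, 4, 8, 3, 7, 2, 1, 4, 1⟩ :=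
  leafX_sound T5.ok_pp T5.Ypp.bz_eq (w := 235) (c := ⟨⟨.negSucc 1982, .ofNat 525, .negSucc 1034, .ofNat 2012, .negSucc 1929, .negSucc 1119⟩, ⟨.negSucc 1128, .ofNat 378, .negSucc 766, .ofNat 1148, .negSucc 1011, .negSucc 623⟩, ⟨.ofNat 489, .negSucc 324, .ofNat 805, .negSucc 1100, .ofNat 1381, .ofNat 878⟩, ⟨.negSucc 3741, .ofNat 645, .negSucc 1309, .ofNat 2418, .negSucc 3896, .negSucc 1573⟩, ⟨.ofNat 1410, .ofNat 235, .negSucc 428, .ofNat 1051, .ofNat 1849, .negSucc 151⟩, .ofNat 3103, .negSucc 4918, .ofNat 0, .negSucc 4918, .ofNat 8889, .ofNat 0, .ofNat 128, .ofNat 1159, .negSucc 971, .ofNat 0, .ofNat 679, .negSucc 502, .ofNat 0, .ofNat 0, .ofNat 1378, .ofNat 1070, .ofNat 0, .ofNat 0, .ofNat 21212130438214730333506743422005368848384, .ofNat 0, .ofNat 0, .ofNat 0, .ofNat 74583860785021519444325068979681718435840, .ofNat 0, .ofNat 0, .ofNat 0, .ofNat 0, .ofNat 0, .ofNat 0, .ofNat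 0, .ofNat 290430849114092368020231802446234391674880, .ofNat 0⟩)
    (by decide +kernel)
theorem L03451 : Good (Phi V5.P V5.D 1 1) ⟨5, 27, 4, 8, 3, 7, 2, 1, 4, 1⟩ :=
  leafX_sound T5.ok_pp T5.Ypp.bz_eq (w := 232) (c := ⟨⟨.negSucc 1546, .negSucc 522, .ofNat 433, .ofNat 2393, .negSucc 2094, .negSucc 1335⟩, ⟨.negSucc 800, .negSucc 189, .ofNat 58, .ofNat 1425, .negSucc 1133, .negSucc 774⟩, ⟨.ofNat 241, .ofNat 377, .negSucc 214, .negSucc 1249, .ofNat 1412, .ofNat 1009⟩, ⟨.negSucc 2954, .negSucc 856, .ofNat 586, .ofNat 3044, .negSucc 4593, .negSucc 2009⟩, ⟨.ofNat 1173, .ofNat 243, .negSucc 75, .ofNat 849, .ofNat 2622, .ofNat 152⟩, .ofNat 1453, .negSucc 1979, .ofNat 0, .negSucc 1979, .ofNat 3586, .ofNat 0, .ofNat 128, .ofNat 600, .negSucc 604, .ofNat 0, .ofNat 368, .negSucc 306, .ofNat 0, .ofNat 0, .ofNat 777, .ofNat 989, .ofNat 0, .ofNat 0, .ofNat 12740094291278180098897096332986984431616,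 .ofNat 0, .ofNat 0, .ofNat 0, .ofNat 228041096691311157715672016539332720459776, .ofNat 0, .ofNat 0, .ofNat 0, .ofNat 195839431264459954097275976852257577631744, .ofNat 0, .ofNat 0, .ofNat 0, .ofNat 0, .ofNat 0⟩)
    (by decide +kernel)
theorem L03452 : Good (Phi V5.P V5.D 1 1) ⟨3, 7, 4, 8, 3, 7, 2, 1, 4, 1⟩ :=
  out_sound (S := T5.ds_pp) T5.ok_pp (w := 47) (j := 3) (by decide +kernel)
theorem L03453 : Good (Phi V5.P V5.D 1 1) ⟨4, 12, 4, 9, 3, 7, 2, 1, 4, 0⟩ :=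
  out_sound (S := T5.ds_pp) T5.ok_pp (w := 53) (j := 3) (by decide +kernel)
theorem L03454 : Good (Phi V5.P V5.D 1 1) ⟨5, 26, 4, 9, 3, 7, 2, 1, 4, 0⟩ :=
  out_sound (S := T5.ds_pp) T5.ok_pp (w := 59) (j := 3) (by decide +kernel)
theorem L03455 : Good (Phi V5.P V5.D 1 1) ⟨6, 54, 4, 9, 3, 7, 2, 1, 5, 0⟩ :=
  out_sound (S := T5.ds_pp) T5.ok_pp (w := 65) (j := 3) (by decide +kernel)
theorem L03456 : Good (Phi V5.P V5.D 1 1) ⟨6, 55, 4, 9, 4, 14, 3, 2, 5, 0⟩ :=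
  leafX_sound T5.ok_pp T5.Ypp.bz_eq (w := 264) (c := ⟨⟨.ofNat 4056, .negSucc 283, .ofNat 198, .negSucc 174, .negSucc 632, .negSucc 3940⟩, ⟨.ofNat 2456, .negSucc 115, .ofNat 104, .negSucc 81, .negSucc 363, .negSucc 2388⟩, ⟨.negSucc 2762, .ofNat 87, .ofNat 68, .ofNat 457, .ofNat 385, .ofNat 2051⟩, ⟨.ofNat 5408, .negSucc 390, .ofNat 247, .negSucc 889, .negSucc 1534, .negSucc 6115⟩, ⟨.ofNat 838, .negSucc 124, .negSucc 41, .ofNat 1011, .ofNat 1026, .ofNat 697⟩, .ofNat 3032, .negSucc 4447, .ofNat 0, .negSucc 4447, .ofNat 7418, .ofNat 0, .ofNat 128, .ofNat 1300, .negSucc 2422, .ofNat 0, .ofNat 803, .negSucc 1427, .ofNat 0, .ofNat 0, .ofNat 2016, .ofNat 1990, .ofNat 0, .ofNat 0, .ofNat 0, .ofNat 0, .ofNat 0, .ofNat 0, .ofNat 3745523155737714178064094591918736424477847977984, .ofNat 0, .ofNat 0, .ofNat 0, .ofNat 5069632230293199407580493439481214697251664822272, .ofNat 0, .ofNat 0,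 .ofNat 0, .ofNat 7036375538099418592393958757978867453748305723392, .ofNat 0⟩)
    (by decide +kernel)
theorem L03457 : Good (Phi V5.P V5.D 1 1) ⟨6, 55, 4, 9, 4, 15, 3, 2, 5, 0⟩ :=
  leafX_sound T5.ok_pp T5.Ypp.bz_eq (w := 264) (c := ⟨⟨.ofNat 2283, .ofNat 47, .negSucc 197, .ofNat 2190, .negSucc 116, .negSucc 2581⟩, ⟨.ofNat 1412, .ofNat 152, .negSucc 225, .ofNat 1343, .negSucc 51, .negSucc 1591⟩, ⟨.negSucc 1097, .ofNat 73, .negSucc 92, .negSucc 520, .negSucc 194, .ofNat 906⟩, ⟨.ofNat 1624, .negSucc 93, .negSucc 146, .ofNat 2719, .negSucc 642, .negSucc 3347⟩, ⟨.ofNat 2873, .ofNat 110, .negSucc 378, .ofNat 737, .ofNat 775, .negSucc 632⟩, .ofNat 3064, .negSucc 4502, .ofNat 0, .negSucc 4502, .ofNat 7510, .ofNat 0, .ofNat 128, .ofNat 1403, .negSucc 2957, .ofNat 0, .ofNat 874, .negSucc 1728, .ofNat 0, .ofNat 0, .ofNat 2395, .ofNat 1490, .ofNat 0, .ofNat 0, .ofNat 0, .ofNat 0, .ofNat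 0, .ofNat 0, .ofNat 2094906691620750365257087572083195008503680860160, .ofNat 0, .ofNat 0, .ofNat 0, .ofNat 4537357234607497540750138856995753023741932601344, .ofNat 0, .ofNat 0, .ofNat 0, .ofNat 14274395946469111084556791186322574092663514988544, .ofNat 0⟩)
    (by decide +kernel)
theorem L03458 : Good (Phi V5.P V5.D 1 1) ⟨6, 55, 4, 9, 4, 14, 3, 3, 5, 0⟩ :=
  leafX_sound T5.ok_pp T5.Ypp.bz_eq (w := 263) (c := ⟨⟨.ofNat 2845, .negSucc 135, .negSucc 126, .negSucc 245, .negSucc 2013, .negSucc 3196⟩, ⟨.ofNat 1754, .ofNat 45, .negSucc 225, .negSucc 140, .negSucc 1199, .negSucc 1935⟩, ⟨.negSucc 1940, .ofNat 189, .negSucc 42, .ofNat 269, .ofNat 1180, .ofNat 1560⟩, ⟨.ofNat 3356, .negSucc 324, .negSucc 29, .negSucc 1689, .negSucc 4238, .negSucc 4725⟩, ⟨.ofNat 1327, .ofNat 144, .negSucc 424, .ofNat 2176, .ofNat 2171, .ofNat 197⟩, .ofNat 3057, .negSucc 4484, .ofNat 0, .negSucc 4484,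 .ofNat 7470, .ofNat 0, .ofNat 128, .ofNat 827, .negSucc 2106, .ofNat 0, .ofNat 514, .negSucc 1240, .ofNat 0, .ofNat 0, .ofNat 1522, .ofNat 960, .ofNat 0, .ofNat 0, .ofNat 0, .ofNat 0, .ofNat 0, .ofNat 0, .ofNat 3120544847586051735402883680917145169549577945088, .ofNat 0, .ofNat 0, .ofNat 0, .ofNat 1177104393910863341292951487486289288307106906112, .ofNat 0, .ofNat 0, .ofNat 0, .ofNat 5811811052533787485092405711345196846295906516992, .ofNat 0⟩)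
    (by decide +kernel)
theorem L03459 : Good (Phi V5.P V5.D 1 1) ⟨6, 55, 4, 9, 5, 30, 3, 3, 5, 0⟩ :=
  leafX_sound T5.ok_pp T5.Ypp.bz_eq (w := 278) (c := ⟨⟨.ofNat 1784, .negSucc 310, .ofNat 328, .ofNat 896, .negSucc 1804, .negSucc 2049⟩, ⟨.ofNat 1135, .negSucc 46, .ofNat 10, .ofNat 555, .negSucc 1075, .negSucc 1261⟩, ⟨.negSucc 1071, .ofNat 212, .negSucc 204, .negSucc 331, .ofNat 888, .ofNat 825⟩, ⟨.ofNat 386, .negSucc 397, .ofNat 410, .ofNat 1370, .negSucc 4027, .negSucc 2758⟩, ⟨.ofNat 3716, .negSucc 205, .negSucc 85, .negSucc 130, .ofNat 2338, .negSucc 332⟩, .ofNat 3065, .negSucc 4504, .ofNat 0, .negSucc 4504, .ofNat 7516, .ofNat 0, .ofNat 128, .ofNat 1266, .negSucc 2737, .ofNat 0, .ofNat 787, .negSucc 1598, .ofNat 0, .ofNat 0, .ofNat 1954, .ofNat 911, .ofNat 0, .ofNat 0, .ofNat 0, .ofNat 0, .ofNat 0, .ofNat 0, .ofNat 51086400163797206952306951239533885042921953931821056,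 .ofNat 0, .ofNat 0, .ofNat 0, .ofNat 0, .ofNat 0, .ofNat 0, .ofNat 0, .ofNat 131848283056054164697499933102617610578798628195794944, .ofNat 0⟩)
    (by decide +kernel)
theorem L03460 : Good (Phi V5.P V5.D 1 1) ⟨6, 55, 4, 9, 5, 31, 3, 3, 5, 0⟩ :=
  leafX_sound T5.ok_pp T5.Ypp.bz_eq (w := 277) (c := ⟨⟨.ofNat 2297, .ofNat 165, .ofNat 66, .ofNat 1712, .negSucc 1320, .negSucc 1924⟩, ⟨.ofNat 1448, .ofNat 237, .negSucc 91, .ofNat 1040, .negSucc 780, .negSucc 1194⟩, ⟨.negSucc 1124, .ofNat 132, .negSucc 373, .negSucc 642, .ofNat 530, .ofNat 630⟩, ⟨.ofNat 805, .negSucc 23, .ofNat 198, .ofNat 2619, .negSucc 2654, .negSucc 2326⟩, ⟨.ofNat 4261, .ofNat 292, .negSucc 406, .negSucc 245, .ofNat 1234, .negSucc 738⟩, .ofNat 3086, .negSucc 4538, .ofNat 0, .negSucc 4538, .ofNat 7573, .ofNat 0, .ofNat 128, .ofNat 1038, .negSucc 1953, .ofNat 0, .ofNat 649, .negSucc 1132, .ofNat 0, .ofNat 0, .ofNat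 1452, .ofNat 1114, .ofNat 0, .ofNat 0, .ofNat 629744429644403669222663615715826773613774249132032, .ofNat 0, .ofNat 0, .ofNat 0, .ofNat 50077535465896427453294016129782165259868280151080960, .ofNat 0, .ofNat 0, .ofNat 0, .ofNat 0, .ofNat 0, .ofNat 0, .ofNat 0, .ofNat 87631812395361198772784065704955755044290141601398784, .ofNat 0⟩)
    (by decide +kernel)
theorem L03461 : Good (Phi V5.P V5.D 1 1) ⟨6, 54, 4, 9, 3, 7, 2, 1, 5, 1⟩ :=
  out_sound (S := T5.ds_pp) T5.ok_pp (w := 65) (j := 3) (by decide +kernel)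
theorem L03462 : Good (Phi V5.P V5.D 1 1) ⟨6, 55, 4, 9, 3, 7, 3, 2, 5, 1⟩ :=
  leafX_sound T5.ok_pp T5.Ypp.bz_eq (w := 249) (c := ⟨⟨.negSucc 598, .negSucc 216, .ofNat 460, .ofNat 2838, .negSucc 379, .negSucc 1476⟩, ⟨.negSucc 350, .negSucc 39, .ofNat 137, .ofNat 1740, .negSucc 207, .negSucc 901⟩, ⟨.negSucc 97, .ofNat 98, .negSucc 167, .negSucc 1044, .ofNat 70, .ofNat 641⟩, ⟨.negSucc 1733, .negSucc 483, .ofNat 635, .ofNat 3678, .negSucc 1171, .negSucc 2106⟩, ⟨.ofNat 1482, .ofNat 241, .negSucc 95, .ofNat 685, .ofNat 1021, .negSucc 19⟩, .ofNat 3030, .negSucc 4441, .ofNat 0, .negSucc 4441, .ofNat 7405, .ofNat 0, .ofNat 128, .ofNat 1406, .negSucc 1502, .ofNat 0, .ofNat 872, .negSucc 870, .ofNat 0, .ofNat 0, .ofNat 1578, .ofNat 3544, .ofNat 0, .ofNat 0, .ofNat 0, .ofNat 0, .ofNat 0, .ofNat 0, .ofNat 193806146654782637032743118131294241699135488, .ofNat 0, .ofNat 0, .ofNat 0, .ofNat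 0, .ofNat 0, .ofNat 0, .ofNat 0, .ofNat 0, .ofNat 0⟩)
    (by decide +kernel)
theorem L03463 : Good (Phi V5.P V5.D 1 1) ⟨6, 55, 4, 9, 3, 7, 3, 3, 5, 1⟩ :=
  leafX_sound T5.ok_pp T5.Ypp.bz_eq (w := 247) (c := ⟨⟨.negSucc 1922, .ofNat 203, .negSucc 178, .ofNat 3981, .negSucc 1310, .negSucc 1431⟩, ⟨.negSucc 1136, .ofNat 241, .negSucc 295, .ofNat 2427, .negSucc 764, .negSucc 863⟩, ⟨.ofNat 723, .negSucc 85, .negSucc 3, .negSucc 1985, .ofNat 669, .ofNat 704⟩, ⟨.negSucc 4491, .ofNat 78, .negSucc 88, .ofNat 5847, .negSucc 3021, .negSucc 2235⟩, ⟨.ofNat 2907, .ofNat 242, .negSucc 412, .negSucc 169, .ofNat 1874, .ofNat 284⟩, .ofNat 3025, .negSucc 4437, .ofNat 0, .negSucc 4437, .ofNat 7405, .ofNat 0, .ofNat 128, .ofNat 577, .negSucc 937, .ofNat 0, .ofNat 359, .negSucc 542, .ofNat 0, .ofNat 0, .ofNat 827, .ofNat 1257, .ofNat 0, .ofNat 0, .ofNat 2275191770223618521448938293685330808668160,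 .ofNat 0, .ofNat 0, .ofNat 0, .ofNat 0, .ofNat 0, .ofNat 0, .ofNat 0, .ofNat 14000594009157677095430950239617193340829696, .ofNat 0, .ofNat 0, .ofNat 0, .ofNat 108018879369663467416931957855484402322112512, .ofNat 0⟩)
    (by decide +kernel)
theorem L03464 : Good (Phi V5.P V5.D 1 1) ⟨6, 56, 4, 9, 4, 14, 2, 1, 5, 0⟩ :=
  leafX_sound T5.ok_pp T5.Ypp.bz_eq (w := 260) (c := ⟨⟨.ofNat 4751, .ofNat 2044, .negSucc 1696, .ofNat 38, .negSucc 2323, .negSucc 3989⟩, ⟨.ofNat 3121, .ofNat 1448, .negSucc 1213, .ofNat 18, .negSucc 1450, .negSucc 2525⟩, ⟨.negSucc 3049, .negSucc 1179, .ofNat 1001, .ofNat 226, .ofNat 1347, .ofNat 2001⟩, ⟨.ofNat 7106, .ofNat 2890, .negSucc 2479, .negSucc 1303, .negSucc 5462, .negSucc 6437⟩, ⟨.negSucc 497, .negSucc 239, .ofNat 208, .ofNat 2082, .ofNat 3363, .ofNat 1188⟩, .ofNat 2365, .negSucc 3246, .ofNat 0, .negSucc 3246, .ofNat 5255, .ofNat 0, .ofNat 128, .ofNat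 1393, .negSucc 3285, .ofNat 0, .ofNat 894, .negSucc 1966, .ofNat 0, .ofNat 0, .ofNat 2402, .ofNat 675, .ofNat 0, .ofNat 0, .ofNat 3225026747354603681451350957258897537659568128, .ofNat 0, .ofNat 0, .ofNat 0, .ofNat 191627574760027165670753334951371339770200326144, .ofNat 0, .ofNat 0, .ofNat 0, .ofNat 59235711769307123157556723502871032369837506560, .ofNat 0, .ofNat 0, .ofNat 0, .ofNat 710679533376339365251381582841093741456438329344, .ofNat 0⟩)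
    (by decide +kernel)
theorem L03465 : Good (Phi V5.P V5.D 1 1) ⟨6, 56, 4, 9, 4, 14, 2, 1, 5, 1⟩ :=
  leafX_sound T5.ok_pp T5.Ypp.bz_eq (w := 259) (c := ⟨⟨.negSucc 450, .negSucc 603, .ofNat 548, .ofNat 609, .negSucc 2654, .negSucc 1287⟩, ⟨.negSucc 117, .negSucc 291, .ofNat 130, .ofNat 401, .negSucc 1633, .negSucc 812⟩, ⟨.negSucc 38, .ofNat 684, .negSucc 628, .negSucc 296, .ofNat 1623, .ofNat 706⟩, ⟨.negSucc 1393, .negSucc 866, .ofNat 542, .ofNat 362, .negSucc 5551, .negSucc 1866⟩, ⟨.ofNat 1331, .ofNat 87, .ofNat 170, .ofNat 798, .ofNat 2796, .ofNat 47⟩, .ofNat 3958, .negSucc 5762, .ofNat 0, .negSucc 5762, .ofNat 9229, .ofNat 0, .ofNat 128, .ofNat 1019, .negSucc 1548, .ofNat 0, .ofNat 651, .negSucc 948, .ofNat 0, .ofNat 0, .ofNat 1461, .ofNat 822, .ofNat 0, .ofNat 0, .ofNat 0, .ofNat 0, .ofNat 0, .ofNat 0, .ofNat 726476935915942165752575844959268867463572357120, .ofNat 0,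 .ofNat 0, .ofNat 0, .ofNat 0, .ofNat 0, .ofNat 0, .ofNat 0, .ofNat 0, .ofNat 0⟩)
    (by decide +kernel)
theorem L03466 : Good (Phi V5.P V5.D 1 1) ⟨6, 57, 4, 9, 4, 14, 2, 1, 4, 0⟩ :=
  out_sound (S := T5.ds_pp) T5.ok_pp (w := 65) (j := 3) (by decide +kernel)
theorem L03467 : Good (Phi V5.P V5.D 1 1) ⟨5, 29, 4, 9, 4, 14, 2, 1, 4, 0⟩ :=
  out_sound (S := T5.ds_pp) T5.ok_pp (w := 59) (j := 3) (by decide +kernel)
theorem L03468 : Good (Phi V5.P V5.D 1 1) ⟨4, 15, 4, 9, 4, 14, 2, 1, 4, 0⟩ :=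
  out_sound (S := T5.ds_pp) T5.ok_pp (w := 53) (j := 3) (by decide +kernel)
theorem L03469 : Good (Phi V5.P V5.D 1 1) ⟨6, 56, 5, 18, 4, 15, 2, 1, 6, 0⟩ :=
  out_sound (S := T5.ds_pp) T5.ok_pp (w := 67) (j := 3) (by decide +kernel)
theorem L03470 : Good (Phi V5.P V5.D 1 1) ⟨7, 112, 5, 19, 5, 30, 2, 1, 6, 0⟩ :=
  leafX_sound T5.ok_pp T5.Ypp.bz_eq (w := 287) (c := ⟨⟨.ofNat 2852, .ofNat 342, .ofNat 31, .ofNat 1070, .negSucc 2685, .negSucc 1962⟩, ⟨.ofNat 1859, .ofNat 254, .negSucc 25, .ofNat 685, .negSucc 1676, .negSucc 1244⟩, ⟨.negSucc 1418, .negSucc 137, .negSucc 69, .negSucc 386, .ofNat 1127, .ofNat 849⟩, ⟨.ofNat 2948, .ofNat 21, .ofNat 644, .ofNat 1500, .negSucc 6665, .negSucc 2955⟩, ⟨.ofNat 1883, .ofNat 647, .negSucc 1017, .ofNat 42, .ofNat 4432, .ofNat 247⟩, .ofNat 3595, .negSucc 5196, .ofNat 0, .negSucc 5196, .ofNat 8349, .ofNat 0, .ofNat 128, .ofNat 1286, .negSucc 3830,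 .ofNat 0, .ofNat 823, .negSucc 2344, .ofNat 0, .ofNat 0, .ofNat 2555, .ofNat 1352, .ofNat 0, .ofNat 0, .ofNat 0, .ofNat 0, .ofNat 0, .ofNat 0, .ofNat 135667956052261701220914977629103158579042352470425600, .ofNat 0, .ofNat 0, .ofNat 0, .ofNat 0, .ofNat 0, .ofNat 0, .ofNat 0, .ofNat 767473630574325109162217139101979422953640661201453056, .ofNat 0⟩)
    (by decide +kernel)
theorem L03471 : Good (Phi V5.P V5.D 1 1) ⟨7, 112, 5, 19, 5, 31, 2, 1, 6, 0⟩ :=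
  leafX_sound T5.ok_pp T5.Ypp.bz_eq (w := 287) (c := ⟨⟨.ofNat 3132, .negSucc 27, .ofNat 164, .ofNat 2038, .negSucc 1553, .negSucc 1731⟩, ⟨.ofNat 2047, .ofNat 74, .ofNat 21, .ofNat 1292, .negSucc 974, .negSucc 1100⟩, ⟨.negSucc 1144, .ofNat 126, .negSucc 257, .negSucc 810, .ofNat 258, .ofNat 660⟩, ⟨.ofNat 2711, .ofNat 129, .negSucc 12, .ofNat 2843, .negSucc 3783, .negSucc 2331⟩, ⟨.ofNat 2900, .negSucc 346, .ofNat 282, .ofNat 102, .ofNat 2438, .negSucc 214⟩, .ofNat 3595, .negSucc 5196, .ofNat 0, .negSucc 5196, .ofNat 8349, .ofNat 0, .ofNat 128, .ofNat 1095, .negSucc 3870, .ofNat 0, .ofNat 706, .negSucc 2356, .ofNat 0, .ofNat 0, .ofNat 2699, .ofNat 1811, .ofNat 0, .ofNat 0, .ofNat 1281812206416459453932638496855439594953078854385664, .ofNat 0, .ofNat 0, .ofNat 0, .ofNat 441453269646044739405258040620644433850385662532911104, .ofNat 0, .ofNat 0, .ofNat 0, .ofNat 128552592135766547384731476812683622970011730395004928,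 .ofNat 0, .ofNat 0, .ofNat 0, .ofNat 0, .ofNat 0⟩)
    (by decide +kernel)
theorem L03472 : Good (Phi V5.P V5.D 1 1) ⟨7, 113, 5, 19, 4, 15, 2, 1, 6, 0⟩ :=
  out_sound (S := T5.ds_pp) T5.ok_pp (w := 73) (j := 3) (by decide +kernel)
theorem L03473 : Good (Phi V5.P V5.D 1 1) ⟨6, 57, 4, 9, 4, 15, 2, 1, 6, 0⟩ :=
  out_sound (S := T5.ds_pp) T5.ok_pp (w := 65) (j := 3) (by decide +kernel)
theorem L03474 : Good (Phi V5.P V5.D 1 1) ⟨6, 56, 4, 9, 4, 15, 3, 2, 6, 1⟩ :=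
  leafX_sound T5.ok_pp T5.Ypp.bz_eq (w := 268) (c := ⟨⟨.ofNat 638, .negSucc 118, .ofNat 263, .ofNat 2307, .negSucc 196, .negSucc 877⟩, ⟨.ofNat 500, .ofNat 48, .ofNat 59, .ofNat 1467, .negSucc 113, .negSucc 561⟩, ⟨.negSucc 313, .ofNat 136, .negSucc 238, .negSucc 756, .negSucc 175, .ofNat 285⟩, ⟨.negSucc 721, .negSucc 222, .ofNat 249, .ofNat 3167, .negSucc 794, .negSucc 991⟩, ⟨.ofNat 2727, .negSucc 30, .ofNat 43, .ofNat 193, .ofNat 815, .negSucc 405⟩, .ofNat 2917, .negSucc 4094, .ofNat 0, .negSucc 4094, .ofNat 6562, .ofNat 0, .ofNat 128, .ofNat 718, .negSucc 1676, .ofNat 0, .ofNat 464, .negSucc 992, .ofNat 0, .ofNat 0, .ofNat 1408, .ofNat 6795, .ofNat 0, .ofNat 0, .ofNat 2208226724013350425785623838720308761092920705024, .ofNat 0, .ofNat 0, .ofNat 0, .ofNat 248257740741213057325166419414929605082368534642688, .ofNat 0, .ofNat 0, .ofNat 0, .ofNat 78540190421687167226929528351365534793288696987648,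 .ofNat 0, .ofNat 0, .ofNat 0, .ofNat 33965230886665524965407996880840789336025995411456, .ofNat 0⟩)
    (by decide +kernel)
theorem L03475 : Good (Phi V5.P V5.D 1 1) ⟨6, 56, 4, 9, 4, 15, 3, 3, 6, 1⟩ :=
  leafX_sound T5.ok_pp T5.Ypp.bz_eq (w := 268) (c := ⟨⟨.negSucc 552, .negSucc 165, .ofNat 491, .ofNat 3203, .negSucc 1215, .negSucc 709⟩, ⟨.negSucc 156, .ofNat 59, .ofNat 92, .ofNat 2026, .negSucc 751, .negSucc 455⟩, ⟨.ofNat 254, .ofNat 247, .negSucc 508, .negSucc 1448, .ofNat 508, .ofNat 265⟩, ⟨.negSucc 3315, .negSucc 545, .ofNat 567, .ofNat 5215, .negSucc 2801, .negSucc 843⟩, ⟨.ofNat 4186, .ofNat 361, .ofNat 5, .negSucc 1013, .ofNat 1683, .negSucc 266⟩, .ofNat 2365, .negSucc 3246, .ofNat 0, .negSucc 3246, .ofNat 5255, .ofNat 0, .ofNat 128, .ofNat 745, .negSucc 2212, .ofNat 0, .ofNat 483, .negSucc 1292, .ofNat 0, .ofNat 0, .ofNat 1644, .ofNat 3183, .ofNat 0, .ofNat 0, .ofNat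 3354973307212193201873624750239917266968420286464, .ofNat 0, .ofNat 0, .ofNat 0, .ofNat 130761244461342295820470843210583039669825764851712, .ofNat 0, .ofNat 0, .ofNat 0, .ofNat 113532240937818081835217155674983660688678326370304, .ofNat 0, .ofNat 0, .ofNat 0, .ofNat 236725931900007195599337632128165627928106367975424, .ofNat 0⟩)
    (by decide +kernel)
theorem L03476 : Good (Phi V5.P V5.D 1 1) ⟨6, 57, 4, 9, 4, 15, 2, 1, 6, 1⟩ :=
  out_sound (S := T5.ds_pp) T5.ok_pp (w := 65) (j := 3) (by decide +kernel)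
theorem L03477 : Good (Phi V5.P V5.D 1 1) ⟨5, 29, 4, 9, 4, 15, 2, 1, 5, 0⟩ :=
  out_sound (S := T5.ds_pp) T5.ok_pp (w := 59) (j := 3) (by decide +kernel)
theorem L03478 : Good (Phi V5.P V5.D 1 1) ⟨4, 14, 4, 9, 4, 15, 3, 2, 5, 1⟩ :=
  leafX_sound T5.ok_pp T5.Ypp.bz_eq (w := 251) (c := ⟨⟨.ofNat 557, .ofNat 1634, .negSucc 532, .ofNat 2097, .negSucc 369, .negSucc 1312⟩, ⟨.ofNat 498, .ofNat 1650, .negSucc 514, .ofNat 1324, .negSucc 218, .negSucc 839⟩, ⟨.negSucc 339, .negSucc 54, .ofNat 61, .negSucc 816, .ofNat 6, .ofNat 526⟩, ⟨.negSucc 682, .ofNat 1489, .negSucc 781, .ofNat 3208, .negSucc 1245, .negSucc 1752⟩, ⟨.ofNat 2368, .ofNat 672, .ofNat 3, .negSucc 295, .ofNat 1120, .negSucc 180⟩, .ofNat 1141, .negSucc 1296, .ofNat 0, .negSucc 1296, .ofNat 2100, .ofNat 0, .ofNat 128, .ofNat 628, .negSucc 945, .ofNat 0, .ofNat 428, .negSucc 503, .ofNat 0, .ofNat 0, .ofNat 859, .ofNat 1505,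 .ofNat 0, .ofNat 0, .ofNat 463160764319144697989501352272946395130670088192, .ofNat 19540682239338130631938552818332350824201774946779660288, .ofNat 0, .ofNat 0, .ofNat 1158487512887037857744886724203256004175424651264, .ofNat 292144837415668764784397330793004330659515601260927516672, .ofNat 0, .ofNat 0, .ofNat 8676276834042720786950725893671097102185200091136, .ofNat 0, .ofNat 0, .ofNat 0, .ofNat 2034607506513189675284091640956445033155243540480, .ofNat 0⟩)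
    (by decide +kernel)
theorem L03479 : Good (Phi V5.P V5.D 1 1) ⟨6, 56, 5, 18, 4, 15, 3, 3, 5, 1⟩ :=
  out_sound (S := T5.ds_pp) T5.ok_pp (w := 67) (j := 3) (by decide +kernel)
theorem L03480 : Good (Phi V5.P V5.D 1 1) ⟨6, 56, 5, 19, 4, 15, 3, 3, 5, 1⟩ :=
  leafX_sound T5.ok_pp T5.Ypp.bz_eq (w := 266) (c := ⟨⟨.negSucc 956, .negSucc 151, .ofNat 243, .ofNat 3059, .negSucc 1216, .negSucc 1283⟩, ⟨.negSucc 526, .negSucc 2, .ofNat 66, .ofNat 1921, .negSucc 736, .negSucc 807⟩, ⟨.ofNat 312, .ofNat 140, .negSucc 251, .negSucc 1518, .ofNat 600, .ofNat 592⟩, ⟨.negSucc 3756, .negSucc 333, .ofNat 309, .ofNat 4859, .negSucc 2715, .negSucc 1860⟩, ⟨.ofNat 3857, .ofNat 144, .negSucc 52, .negSucc 786, .ofNat 1550, .ofNat 49⟩, .ofNat 3875, .negSucc 5632, .ofNat 0, .negSucc 5632, .ofNat 9026, .ofNat 0, .ofNat 128, .ofNat 755, .negSucc 1375, .ofNat 0, .ofNat 484, .negSucc 832, .ofNat 0, .ofNat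 0, .ofNat 1201, .ofNat 4118, .ofNat 0, .ofNat 0, .ofNat 336521223547353972148531552698981178344501936128, .ofNat 0, .ofNat 0, .ofNat 0, .ofNat 21399655768318520958336010200724224660257613283328, .ofNat 0, .ofNat 0, .ofNat 0, .ofNat 5227909851907118937653837882213191075678824431616, .ofNat 0, .ofNat 0, .ofNat 0, .ofNat 15966508119984532317875727989750314278236545089536, .ofNat 0⟩)
    (by decide +kernel)
theorem L03481 : Good (Phi V5.P V5.D 1 1) ⟨6, 57, 4, 9, 4, 15, 3, 3, 5, 1⟩ :=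
  out_sound (S := T5.ds_pp) T5.ok_pp (w := 65) (j := 3) (by decide +kernel)
theorem L03482 : Good (Phi V5.P V5.D 1 1) ⟨5, 29, 4, 9, 4, 15, 3, 3, 5, 1⟩ :=
  out_sound (S := T5.ds_pp) T5.ok_pp (w := 59) (j := 3) (by decide +kernel)
theorem L03483 : Good (Phi V5.P V5.D 1 1) ⟨4, 15, 4, 9, 4, 15, 2, 1, 4, 0⟩ :=
  out_sound (S := T5.ds_pp) T5.ok_pp (w := 53) (j := 3) (by decide +kernel)
theorem L03484 : Good (Phi V5.P V5.D 1 1) ⟨4, 12, 4, 9, 3, 7, 2, 1, 4, 1⟩ :=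
  out_sound (S := T5.ds_pp) T5.ok_pp (w := 53) (j := 3) (by decide +kernel)
theorem L03485 : Good (Phi V5.P V5.D 1 1) ⟨4, 13, 4, 9, 3, 7, 2, 1, 4, 1⟩ :=
  leafX_sound T5.ok_pp T5.Ypp.bz_eq (w := 230) (c := ⟨⟨.negSucc 0, .negSucc 1976, .ofNat 487, .ofNat 2330, .negSucc 2059, .negSucc 1279⟩, ⟨.negSucc 199, .negSucc 896, .ofNat 57, .ofNat 1451, .negSucc 1192, .negSucc 777⟩, ⟨.negSucc 784, .ofNat 1479, .negSucc 393, .negSucc 1307, .ofNat 1372, .ofNat 936⟩, ⟨.negSucc 1787, .negSucc 1860, .ofNat 138, .ofNat 2873, .negSucc 4521, .negSucc 1755⟩, ⟨.ofNat 2487, .negSucc 1082, .ofNat 653, .ofNat 826, .ofNat 2537, .negSucc 134⟩, .ofNat 2436, .negSucc 3493, .ofNat 0, .negSucc 3493, .ofNat 5881, .ofNat 0, .ofNat 128, .ofNat 941, .negSucc 825, .ofNat 0, .ofNat 590, .negSucc 465, .ofNat 0, .ofNat 0, .ofNat 1079, .ofNat 1488, .ofNat 0, .ofNat 0, .ofNat 45375656564142881717552259048486228459520,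 .ofNat 0, .ofNat 0, .ofNat 0, .ofNat 2764168845220040474759065363568269065191424, .ofNat 0, .ofNat 0, .ofNat 0, .ofNat 1875954121817447643279460168904660683325440, .ofNat 0, .ofNat 0, .ofNat 0, .ofNat 2146998615328120436910041543290762293149696, .ofNat 0⟩)
    (by decide +kernel)
theorem L03486 : Good (Phi V5.P V5.D 1 1) ⟨6, 56, 5, 18, 3, 7, 2, 1, 4, 1⟩ :=
  out_sound (S := T5.ds_pp) T5.ok_pp (w := 67) (j := 3) (by decide +kernel)
theorem L03487 : Good (Phi V5.P V5.D 1 1) ⟨6, 56, 5, 19, 4, 14, 2, 1, 4, 1⟩ :=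
  leafX_sound T5.ok_pp T5.Ypp.bz_eq (w := 257) (c := ⟨⟨.negSucc 2003, .negSucc 300, .ofNat 204, .ofNat 867, .negSucc 2384, .negSucc 663⟩, ⟨.negSucc 1190, .negSucc 156, .ofNat 20, .ofNat 564, .negSucc 1468, .negSucc 427⟩, ⟨.ofNat 623, .ofNat 110, .negSucc 75, .negSucc 551, .ofNat 1708, .ofNat 575⟩, ⟨.negSucc 3830, .negSucc 494, .ofNat 108, .ofNat 765, .negSucc 5142, .negSucc 573⟩, ⟨.ofNat 1572, .ofNat 210, .ofNat 191, .ofNat 741, .ofNat 2754, .negSucc 593⟩, .ofNat 3979, .negSucc 5796, .ofNat 0, .negSucc 5796, .ofNat 9286, .ofNat 0, .ofNat 128, .ofNat 1128, .negSucc 1036, .ofNat 0, .ofNat 724, .negSucc 629, .ofNat 0, .ofNat 0, .ofNat 1346, .ofNat 2876, .ofNat 0, .ofNat 0, .ofNat 0, .ofNat 0, .ofNat 0, .ofNat 0, .ofNat 69210603882151994187580632914619618946025783296, .ofNat 0, .ofNat 0, .ofNat 0, .ofNat 0, .ofNat 0, .ofNat 0, .ofNat 0, .ofNat 0, .ofNat 0⟩)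
    (by decide +kernel)
theorem L03488 : Good (Phi V5.P V5.D 1 1) ⟨6, 56, 5, 19, 4, 15, 2, 1, 4, 1⟩ :=
  leafX_sound T5.ok_pp T5.Ypp.bz_eq (w := 254) (c := ⟨⟨.negSucc 764, .negSucc 483, .ofNat 203, .ofNat 1734, .negSucc 1871, .negSucc 1477⟩, ⟨.negSucc 414, .negSucc 217, .ofNat 18, .ofNat 1117, .negSucc 1147, .negSucc 936⟩, ⟨.negSucc 33, .ofNat 144, .negSucc 20, .negSucc 923, .ofNat 1195, .ofNat 998⟩, ⟨.negSucc 2041, .negSucc 968, .ofNat 201, .ofNat 2344, .negSucc 4835, .negSucc 2279⟩, ⟨.ofNat 1559, .ofNat 456, .ofNat 33, .ofNat 233, .ofNat 3410, .ofNat 265⟩, .ofNat 1800, .negSucc 2385, .ofNat 0, .negSucc 2385, .ofNat 3924, .ofNat 0, .ofNat 128, .ofNat 1061, .negSucc 1113, .ofNat 0, .ofNat 692, .negSucc 625, .ofNat 0, .ofNat 0, .ofNat 1334, .ofNat 2503, .ofNat 0, .ofNat 0, .ofNat 310396002867500220477613476743656370119639040, .ofNat 0, .ofNat 0, .ofNat 0, .ofNat 20715102042890491446286827744763535408154804224,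 .ofNat 0, .ofNat 0, .ofNat 0, .ofNat 27061272380487431221414030137540091815059783680, .ofNat 0, .ofNat 0, .ofNat 0, .ofNat 4827593394238530388504431838095459870765481984, .ofNat 0⟩)
    (by decide +kernel)
theorem L03489 : Good (Phi V5.P V5.D 1 1) ⟨6, 57, 4, 9, 3, 7, 2, 1, 4, 1⟩ :=
  out_sound (S := T5.ds_pp) T5.ok_pp (w := 65) (j := 3) (by decide +kernel)
theorem L03490 : Good (Phi V5.P V5.D 1 1) ⟨5, 29, 4, 9, 3, 7, 2, 1, 4, 1⟩ :=
  out_sound (S := T5.ds_pp) T5.ok_pp (w := 59) (j := 3) (by decide +kernel)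
theorem L03491 : Good (Phi V5.P V5.D 1 1) ⟨4, 15, 4, 9, 3, 7, 2, 1, 4, 1⟩ :=
  out_sound (S := T5.ds_pp) T5.ok_pp (w := 53) (j := 3) (by decide +kernel)
theorem L03492 : Good (Phi V5.P V5.D 1 1) ⟨2, 2, 3, 4, 2, 3, 2, 1, 4, 2⟩ :=
  out_sound (S := T5.ds_pp) T5.ok_pp (w := 39) (j := 3) (by decide +kernel)
theorem L03493 : Good (Phi V5.P V5.D 1 1) ⟨4, 12, 3, 4, 2, 3, 2, 1, 4, 2⟩ :=
  out_sound (S := T5.ds_pp) T5.ok_pp (w := 51) (j := 3) (by decide +kernel)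
theorem L03494 : Good (Phi V5.P V5.D 1 1) ⟨5, 26, 3, 4, 3, 6, 2, 1, 4, 2⟩ :=
  leafX_sound T5.ok_pp T5.Ypp.bz_eq (w := 231) (c := ⟨⟨.negSucc 2763, .negSucc 485, .ofNat 792, .ofNat 402, .negSucc 1341, .ofNat 312⟩, ⟨.negSucc 1478, .negSucc 289, .ofNat 103, .ofNat 250, .negSucc 731, .ofNat 151⟩, ⟨.ofNat 1095, .ofNat 316, .negSucc 214, .negSucc 319, .ofNat 1361, .negSucc 26⟩, ⟨.negSucc 4820, .negSucc 416, .ofNat 711, .ofNat 79, .negSucc 2211, .ofNat 825⟩, ⟨.ofNat 891, .negSucc 135, .ofNat 312, .ofNat 942, .ofNat 380, .negSucc 656⟩, .ofNat 3087, .negSucc 4891, .ofNat 0, .negSucc 4891, .ofNat 8844, .ofNat 0, .ofNat 128, .ofNat 774, .negSucc 315, .ofNat 0, .ofNat 463, .negSucc 164, .ofNat 0, .ofNat 0, .ofNat 715, .ofNat 2889, .ofNat 0, .ofNat 0, .ofNat 1374067094275046753315052515198859476992, .ofNat 0, .ofNat 0, .ofNat 0, .ofNat 275334308243666692347084743412018631933952, .ofNat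 0, .ofNat 0, .ofNat 0, .ofNat 837292569847847203785693303715855817768960, .ofNat 0, .ofNat 0, .ofNat 0, .ofNat 1133625460869372643371846521281191889338368, .ofNat 0⟩)
    (by decide +kernel)
theorem L03495 : Good (Phi V5.P V5.D 1 1) ⟨5, 26, 3, 4, 3, 7, 2, 1, 4, 2⟩ :=
  leafX_sound T5.ok_pp T5.Ypp.bz_eq (w := 228) (c := ⟨⟨.negSucc 2599, .negSucc 17, .ofNat 671, .ofNat 1248, .negSucc 1344, .negSucc 37⟩, ⟨.negSucc 1413, .ofNat 14, .ofNat 54, .ofNat 743, .negSucc 716, .negSucc 41⟩, ⟨.ofNat 1057, .negSucc 28, .negSucc 378, .negSucc 667, .ofNat 1145, .ofNat 243⟩, ⟨.negSucc 4906, .ofNat 187, .ofNat 537, .ofNat 941, .negSucc 2671, .ofNat 422⟩, ⟨.ofNat 1695, .negSucc 220, .ofNat 528, .ofNat 1694, .ofNat 1182, .negSucc 849⟩, .ofNat 1038, .negSucc 1339, .ofNat 0, .negSucc 1339, .ofNat 2621, .ofNat 0, .ofNat 128, .ofNat 455, .negSucc 236, .ofNat 0, .ofNat 293, .negSucc 102, .ofNat 0,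 .ofNat 0, .ofNat 565, .ofNat 1277, .ofNat 0, .ofNat 0, .ofNat 708374256017104801600568151885924532224, .ofNat 0, .ofNat 0, .ofNat 0, .ofNat 126173441280328348820409487372669599875072, .ofNat 0, .ofNat 0, .ofNat 0, .ofNat 348508044660896977584386475391742103257088, .ofNat 0, .ofNat 0, .ofNat 0, .ofNat 12563351540176909887660462045112366530560, .ofNat 0⟩)
    (by decide +kernel)
theorem L03496 : Good (Phi V5.P V5.D 1 1) ⟨5, 27, 3, 4, 2, 3, 2, 1, 5, 4⟩ :=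
  leafX_sound T5.ok_pp T5.Ypp.bz_eq (w := 219) (c := ⟨⟨.negSucc 3343, .negSucc 309, .ofNat 207, .ofNat 2189, .negSucc 1741, .ofNat 90⟩, ⟨.negSucc 1854, .negSucc 111, .negSucc 298, .ofNat 1375, .negSucc 986, .ofNat 56⟩, ⟨.ofNat 1529, .ofNat 108, .ofNat 19, .negSucc 1324, .ofNat 1407, .ofNat 67⟩, ⟨.negSucc 4779, .negSucc 520, .ofNat 228, .ofNat 1344, .negSucc 3425, .ofNat 312⟩, ⟨.negSucc 179, .ofNat 330, .negSucc 102, .ofNat 3132, .ofNat 1480, .negSucc 306⟩, .ofNat 1094, .negSucc 1377, .ofNat 0, .negSucc 1377, .ofNat 2538, .ofNat 0, .ofNat 128, .ofNat 352, .negSucc 240, .ofNat 0, .ofNat 228, .negSucc 117, .ofNat 0, .ofNat 0, .ofNat 456, .ofNat 819, .ofNat 0, .ofNat 0, .ofNat 1607798419251203361787184472232296448, .ofNat 0, .ofNat 0, .ofNat 0, .ofNat 84497643567640176563609919839134547968, .ofNat 0, .ofNat 0, .ofNat 0, .ofNat 116557683047421783086818434119083491328, .ofNat 0,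 .ofNat 0, .ofNat 0, .ofNat 30128104340291675632752013952589758464, .ofNat 0⟩)
    (by decide +kernel)
theorem L03497 : Good (Phi V5.P V5.D 1 1) ⟨5, 27, 3, 4, 3, 6, 2, 1, 5, 5⟩ :=
  leafX_sound T5.ok_pp T5.Ypp.bz_eq (w := 233) (c := ⟨⟨.negSucc 3066, .negSucc 145, .ofNat 7, .ofNat 356, .negSucc 1312, .ofNat 240⟩, ⟨.negSucc 1667, .negSucc 69, .negSucc 334, .ofNat 228, .negSucc 771, .ofNat 138⟩, ⟨.ofNat 1391, .ofNat 135, .ofNat 30, .negSucc 273, .ofNat 1358, .negSucc 69⟩, ⟨.negSucc 4681, .ofNat 114, .negSucc 376, .negSucc 90, .negSucc 2253, .ofNat 573⟩, ⟨.ofNat 256, .negSucc 276, .ofNat 563, .ofNat 1012, .ofNat 562, .negSucc 377⟩, .ofNat 754, .negSucc 834, .ofNat 0, .negSucc 834, .ofNat 1631, .ofNat 0, .ofNat 128, .ofNat 305, .negSucc 166, .ofNat 0, .ofNat 209, .negSucc 73, .ofNat 0, .ofNat 0, .ofNat 386, .ofNat 1762, .ofNat 0, .ofNat 0, .ofNat 53310060526329856942862840383783265370112,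 .ofNat 0, .ofNat 0, .ofNat 0, .ofNat 2047864475014638702546012210778887977697280, .ofNat 0, .ofNat 0, .ofNat 0, .ofNat 0, .ofNat 0, .ofNat 0, .ofNat 0, .ofNat 0, .ofNat 0⟩)
    (by decide +kernel)
theorem L03498 : Good (Phi V5.P V5.D 1 1) ⟨5, 27, 3, 4, 3, 7, 2, 1, 5, 5⟩ :=
  leafX_sound T5.ok_pp T5.Ypp.bz_eq (w := 233) (c := ⟨⟨.negSucc 2690, .negSucc 54, .ofNat 0, .ofNat 1293, .negSucc 1370, .ofNat 51⟩, ⟨.negSucc 1444, .ofNat 27, .negSucc 367, .ofNat 819, .negSucc 775, .ofNat 19⟩, ⟨.ofNat 1183, .ofNat 111, .negSucc 14, .negSucc 713, .ofNat 1193, .ofNat 52⟩, ⟨.negSucc 4487, .negSucc 81, .negSucc 112, .ofNat 692, .negSucc 2727, .ofNat 377⟩, ⟨.ofNat 941, .ofNat 143, .ofNat 5, .ofNat 2027, .ofNat 1256, .negSucc 514⟩, .ofNat 1575, .negSucc 2159, .ofNat 0, .negSucc 2159, .ofNat 3834, .ofNat 0, .ofNat 128, .ofNat 448, .negSucc 173, .ofNat 0, .ofNat 292, .negSucc 86, .ofNat 0, .ofNat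 0, .ofNat 458, .ofNat 1553, .ofNat 0, .ofNat 0, .ofNat 38013962799910163440965003298961931370496, .ofNat 0, .ofNat 0, .ofNat 0, .ofNat 6984198297884225514802366449010583128768512, .ofNat 0, .ofNat 0, .ofNat 0, .ofNat 0, .ofNat 0, .ofNat 0, .ofNat 0, .ofNat 0, .ofNat 0⟩)
    (by decide +kernel)
theorem L03499 : Good (Phi V5.P V5.D 1 1) ⟨5, 28, 4, 8, 2, 3, 2, 1, 4, 2⟩ :=
  out_sound (S := T5.ds_pp) T5.ok_pp (w := 59) (j := 3) (by decide +kernel)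

end Crest.Agent.R097C5.N5pp
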