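import Crest.Agent.R097.KP7
import Crest.Agent.R097.T5Ypp

/-!
# Row 97, box cover in dimension n = 5 (generated)
-/

set_option autoImplicit false
set_option Elab.async false
set_option maxHeartbeats 0
set_option maxRecDepth 100000

open Crest.Agent.R097 Crest.Agent.R097.KA


namespace Crest.Agent.R097C5.N5pp

theorem L03500 : Good (Phi V5.P V5.D 1 1) ⟨7, 112, 4, 9, 2, 3, 2, 1, 5, 4⟩ :=
  leafX_sound T5.ok_pp T5.Ypp.bz_eq (w := 231) (c := ⟨⟨.negSucc 3392, .ofNat 96, .negSucc 78, .ofNat 2385, .negSucc 1739, .negSucc 200⟩, ⟨.negSucc 1970, .ofNat 96, .negSucc 294, .ofNat 1563, .negSucc 1079, .negSucc 136⟩, ⟨.ofNat 1465, .negSucc 88, .ofNat 219, .negSucc 1501, .ofNat 1476, .ofNat 285⟩, ⟨.negSucc 5163, .ofNat 44, .ofNat 197, .ofNat 1303, .negSucc 3569, .ofNat 224⟩, ⟨.ofNat 617, .ofNat 216, .negSucc 674, .ofNat 3314, .ofNat 1712, .negSucc 783⟩, .ofNat 1331, .negSucc 1690, .ofNat 0,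 .negSucc 1690, .ofNat 2880, .ofNat 0, .ofNat 128, .ofNat 497, .negSucc 362, .ofNat 0, .ofNat 330, .negSucc 197, .ofNat 0, .ofNat 0, .ofNat 668, .ofNat 1110, .ofNat 0, .ofNat 0, .ofNat 841737593509379564386662470394052608, .ofNat 0, .ofNat 0, .ofNat 0, .ofNat 142903912002398554543593599012089888768, .ofNat 0, .ofNat 0, .ofNat 0, .ofNat 0, .ofNat 0, .ofNat 0, .ofNat 0, .ofNat 0, .ofNat 0⟩)
    (by decide +kernel)
theorem L03501 : Good (Phi V5.P V5.D 1 1) ⟨7, 112, 4, 9, 2, 3, 2, 1, 5, 5⟩ :=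
  leafX_sound T5.ok_pp T5.Ypp.bz_eq (w := 231) (c := ⟨⟨.negSucc 3571, .negSucc 245, .ofNat 437, .ofNat 1746, .negSucc 1357, .ofNat 81⟩, ⟨.negSucc 2100, .negSucc 133, .ofNat 65, .ofNat 1146, .negSucc 841, .ofNat 44⟩, ⟨.ofNat 1606, .ofNat 8, .ofNat 87, .negSucc 1113, .ofNat 1263, .ofNat 52⟩, ⟨.negSucc 4994, .negSucc 358, .ofNat 572, .ofNat 430, .negSucc 2680, .ofNat 453⟩, ⟨.negSucc 79, .ofNat 67, .negSucc 41, .ofNat 3245, .ofNat 1174, .negSucc 529⟩, .ofNat 2060, .negSucc 2816, .ofNat 0, .negSucc 2816, .ofNat 4640, .ofNat 0, .ofNat 128, .ofNat 634, .negSucc 224, .ofNat 0, .ofNat 422, .negSucc 127, .ofNat 0, .ofNat 0, .ofNat 591, .ofNat 2088, .ofNat 0, .ofNat 0, .ofNat 2082735192284934501387716734369136640, .ofNat 0, .ofNat 0, .ofNat 0, .ofNat 167068675728688861868437805513498951680, .ofNat 0, .ofNat 0, .ofNat 0, .ofNat 494522330859992962688671690788878417920, .ofNat 0, .ofNat 0,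 .ofNat 0, .ofNat 103320585021967194147615959667030622208, .ofNat 0⟩)
    (by decide +kernel)
theorem L03502 : Good (Phi V5.P V5.D 1 1) ⟨7, 113, 4, 9, 2, 3, 2, 1, 4, 2⟩ :=
  out_sound (S := T5.ds_pp) T5.ok_pp (w := 71) (j := 3) (by decide +kernel)
theorem L03503 : Good (Phi V5.P V5.D 1 1) ⟨6, 57, 4, 9, 2, 3, 2, 1, 4, 2⟩ :=
  out_sound (S := T5.ds_pp) T5.ok_pp (w := 65) (j := 3) (by decide +kernel)
theorem L03504 : Good (Phi V5.P V5.D 1 1) ⟨5, 29, 3, 4, 2, 3, 2, 1, 4, 2⟩ :=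
  out_sound (S := T5.ds_pp) T5.ok_pp (w := 57) (j := 3) (by decide +kernel)
theorem L03505 : Good (Phi V5.P V5.D 1 1) ⟨4, 15, 3, 4, 2, 3, 2, 1, 4, 2⟩ :=
  out_sound (S := T5.ds_pp) T5.ok_pp (w := 51) (j := 3) (by decide +kernel)
theorem L03506 : Good (Phi V5.P V5.D 1 1) ⟨2, 2, 3, 4, 2, 3, 2, 1, 4, 3⟩ :=
  out_sound (S := T5.ds_pp) T5.ok_pp (w := 39) (j := 3) (by decide +kernel)
theorem L03507 : Good (Phi V5.P V5.D 1 1) ⟨4, 12, 3, 4, 2, 3, 2, 1, 4, 3⟩ :=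
  out_sound (S := T5.ds_pp) T5.ok_pp (w := 51) (j := 3) (by decide +kernel)
theorem L03508 : Good (Phi V5.P V5.D 1 1) ⟨4, 13, 3, 4, 3, 6, 2, 1, 4, 3⟩ :=
  leafX_sound T5.ok_pp T5.Ypp.bz_eq (w := 225) (c := ⟨⟨.negSucc 2848, .negSucc 318, .ofNat 100, .ofNat 316, .negSucc 893, .ofNat 406⟩, ⟨.negSucc 1520, .negSucc 248, .negSucc 189, .ofNat 200, .negSucc 522, .ofNat 214⟩, ⟨.ofNat 1422, .ofNat 126, .ofNat 58, .negSucc 262, .ofNat 1050, .negSucc 201⟩, ⟨.negSucc 4465, .negSucc 316, .ofNat 192, .ofNat 82, .negSucc 1377, .ofNat 917⟩, ⟨.ofNat 113, .ofNat 321, .negSucc 139, .ofNat 643, .ofNat 131, .negSucc 547⟩, .ofNat 1551, .negSucc 2126, .ofNat 0, .negSucc 2126, .ofNat 3793, .ofNat 0, .ofNat 128, .ofNat 449, .negSucc 115, .ofNat 0, .ofNat 297, .negSucc 57, .ofNat 0, .ofNat 0, .ofNat 495, .ofNat 2723, .ofNat 0, .ofNat 0, .ofNat 3872312242917231435210904070341802328064, .ofNat 0, .ofNat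 0, .ofNat 0, .ofNat 643824203584670291650444678680343549575168, .ofNat 0, .ofNat 0, .ofNat 0, .ofNat 1613208307484146295040099466592790094282752, .ofNat 0, .ofNat 0, .ofNat 0, .ofNat 110945281431591267726585700616999180173312, .ofNat 0⟩)
    (by decide +kernel)
theorem L03509 : Good (Phi V5.P V5.D 1 1) ⟨4, 13, 3, 4, 4, 14, 2, 1, 4, 3⟩ :=
  leafX_sound T5.ok_pp T5.Ypp.bz_eq (w := 238) (c := ⟨⟨.negSucc 2623, .ofNat 22, .negSucc 115, .ofNat 300, .negSucc 904, .ofNat 332⟩, ⟨.negSucc 1419, .ofNat 31, .negSucc 355, .ofNat 191, .negSucc 526, .ofNat 176⟩, ⟨.ofNat 1194, .ofNat 53, .ofNat 76, .negSucc 157, .ofNat 951, .negSucc 129⟩, ⟨.negSucc 4538, .ofNat 282, .negSucc 330, .negSucc 14, .negSucc 1580, .ofNat 1003⟩, ⟨.ofNat 979, .negSucc 97, .ofNat 228, .ofNat 770, .ofNat 436, .negSucc 879⟩, .ofNat 1096, .negSucc 1390, .ofNat 0, .negSucc 1390, .ofNat 2582, .ofNat 0, .ofNat 128, .ofNat 453,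 .negSucc 90, .ofNat 0, .ofNat 316, .negSucc 38, .ofNat 0, .ofNat 0, .ofNat 448, .ofNat 2051, .ofNat 0, .ofNat 0, .ofNat 88950832206025998944985698804966986725982208, .ofNat 0, .ofNat 0, .ofNat 0, .ofNat 7735320332806771414040758415998766157762920448, .ofNat 0, .ofNat 0, .ofNat 0, .ofNat 0, .ofNat 0, .ofNat 0, .ofNat 0, .ofNat 0, .ofNat 0⟩)
    (by decide +kernel)
theorem L03510 : Good (Phi V5.P V5.D 1 1) ⟨4, 13, 3, 4, 4, 15, 2, 1, 4, 3⟩ :=
  leafX_sound T5.ok_pp T5.Ypp.bz_eq (w := 238) (c := ⟨⟨.negSucc 1957, .negSucc 491, .ofNat 309, .ofNat 518, .negSucc 903, .ofNat 106⟩, ⟨.negSucc 1058, .negSucc 192, .negSucc 129, .ofNat 338, .negSucc 511, .ofNat 36⟩, ⟨.ofNat 754, .ofNat 431, .negSucc 197, .negSucc 82, .ofNat 879, .ofNat 81⟩, ⟨.negSucc 3780, .negSucc 603, .ofNat 237, .ofNat 55, .negSucc 1803, .ofNat 657⟩, ⟨.ofNat 1333, .ofNat 320, .negSucc 19, .ofNat 1170, .ofNat 825, .negSucc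 842⟩, .ofNat 1567, .negSucc 2156, .ofNat 0, .negSucc 2156, .ofNat 3848, .ofNat 0, .ofNat 128, .ofNat 363, .negSucc 64, .ofNat 0, .ofNat 250, .negSucc 26, .ofNat 0, .ofNat 0, .ofNat 412, .ofNat 1491, .ofNat 0, .ofNat 0, .ofNat 153185800578498854181023147741286455689871360, .ofNat 0, .ofNat 0, .ofNat 0, .ofNat 10365690473238746739731447992598965009499815936, .ofNat 0, .ofNat 0, .ofNat 0, .ofNat 3650216843269822054782440995466975299361570816, .ofNat 0, .ofNat 0, .ofNat 0, .ofNat 5073889649365775691639564142716726987569758208, .ofNat 0⟩)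
    (by decide +kernel)
theorem L03511 : Good (Phi V5.P V5.D 1 1) ⟨5, 28, 4, 8, 2, 3, 2, 1, 4, 3⟩ :=
  out_sound (S := T5.ds_pp) T5.ok_pp (w := 59) (j := 3) (by decide +kernel)
theorem L03512 : Good (Phi V5.P V5.D 1 1) ⟨6, 56, 4, 9, 3, 6, 2, 1, 4, 3⟩ :=
  leafX_sound T5.ok_pp T5.Ypp.bz_eq (w := 236) (c := ⟨⟨.negSucc 3229, .negSucc 145, .ofNat 147, .ofNat 333, .negSucc 936, .ofNat 439⟩, ⟨.negSucc 1936, .negSucc 118, .negSucc 26, .ofNat 222, .negSucc 593, .ofNat 270⟩, ⟨.ofNat 1630, .ofNat 146, .negSucc 68, .negSucc 269, .ofNat 1126, .negSucc 241⟩, ⟨.negSucc 4714, .ofNat 26, .ofNat 43, .ofNat 51, .negSucc 1453, .ofNat 1007⟩, ⟨.ofNat 173, .negSucc 215, .ofNat 218, .ofNat 666, .ofNat 178, .negSucc 599⟩, .ofNat 1325, .negSucc 1681, .ofNat 0, .negSucc 1681, .ofNat 2868, .ofNat 0, .ofNat 128, .ofNat 425, .negSucc 108, .ofNat 0, .ofNat 295, .negSucc 56, .ofNat 0, .ofNat 0, .ofNat 456,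 .ofNat 3215, .ofNat 0, .ofNat 0, .ofNat 1084536419465224779264753794359505190912, .ofNat 0, .ofNat 0, .ofNat 0, .ofNat 225834846148622148955160939812082660933632, .ofNat 0, .ofNat 0, .ofNat 0, .ofNat 141861748095371615525271940171985374412800, .ofNat 0, .ofNat 0, .ofNat 0, .ofNat 269598077622018348252695305526951375011840, .ofNat 0⟩)
    (by decide +kernel)
theorem L03513 : Good (Phi V5.P V5.D 1 1) ⟨6, 56, 5, 18, 3, 7, 2, 1, 4, 3⟩ :=
  out_sound (S := T5.ds_pp) T5.ok_pp (w := 67) (j := 3) (by decide +kernel)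
theorem L03514 : Good (Phi V5.P V5.D 1 1) ⟨6, 56, 5, 19, 3, 7, 2, 1, 4, 3⟩ :=
  leafX_sound T5.ok_pp T5.Ypp.bz_eq (w := 239) (c := ⟨⟨.negSucc 2690, .negSucc 167, .ofNat 118, .ofNat 842, .negSucc 968, .ofNat 217⟩, ⟨.negSucc 1648, .negSucc 87, .negSucc 1, .ofNat 561, .negSucc 604, .ofNat 125⟩, ⟨.ofNat 1243, .ofNat 30, .negSucc 5, .negSucc 289, .ofNat 972, .negSucc 27⟩, ⟨.negSucc 4341, .negSucc 215, .ofNat 153, .negSucc 44, .negSucc 1848, .ofNat 890⟩, ⟨.ofNat 799, .ofNat 63, .negSucc 23, .ofNat 1967, .ofNat 734, .negSucc 909⟩, .ofNat 1800, .negSucc 2385, .ofNat 0, .negSucc 2385, .ofNat 3924, .ofNat 0, .ofNat 128, .ofNat 471, .negSucc 156, .ofNat 0, .ofNat 333, .negSucc 77, .ofNat 0, .ofNat 0, .ofNat 804, .ofNat 2447, .ofNat 0, .ofNat 0, .ofNat 4258888786125519872645525166154399612928, .ofNat 0, .ofNat 0, .ofNat 0, .ofNat 1009107863015439013725476163702380019318784, .ofNat 0, .ofNat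 0, .ofNat 0, .ofNat 1379943424673854527430013467548997115707392, .ofNat 0, .ofNat 0, .ofNat 0, .ofNat 0, .ofNat 0⟩)
    (by decide +kernel)
theorem L03515 : Good (Phi V5.P V5.D 1 1) ⟨6, 57, 4, 9, 2, 3, 2, 1, 4, 3⟩ :=
  out_sound (S := T5.ds_pp) T5.ok_pp (w := 65) (j := 3) (by decide +kernel)
theorem L03516 : Good (Phi V5.P V5.D 1 1) ⟨5, 29, 3, 4, 2, 3, 2, 1, 4, 3⟩ :=
  out_sound (S := T5.ds_pp) T5.ok_pp (w := 57) (j := 3) (by decide +kernel)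
theorem L03517 : Good (Phi V5.P V5.D 1 1) ⟨4, 15, 3, 4, 2, 3, 2, 1, 4, 3⟩ :=
  out_sound (S := T5.ds_pp) T5.ok_pp (w := 51) (j := 3) (by decide +kernel)
theorem L03518 : Good (Phi V5.P V5.D 1 1) ⟨2, 2, 3, 5, 2, 3, 2, 1, 3, 0⟩ :=
  out_sound (S := T5.ds_pp) T5.ok_pp (w := 39) (j := 3) (by decide +kernel)
theorem L03519 : Good (Phi V5.P V5.D 1 1) ⟨3, 6, 4, 10, 2, 3, 3, 2, 4, 0⟩ :=
  out_sound (S := T5.ds_pp) T5.ok_pp (w := 47) (j := 3) (by decide +kernel)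
theorem L03520 : Good (Phi V5.P V5.D 1 1) ⟨5, 28, 5, 20, 3, 6, 3, 2, 5, 0⟩ :=
  leafX_sound T5.ok_pp T5.Ypp.bz_eq (w := 249) (c := ⟨⟨.ofNat 5228, .ofNat 2421, .negSucc 635, .negSucc 1049, .ofNat 264, .negSucc 5097⟩, ⟨.ofNat 3315, .ofNat 1860, .negSucc 422, .negSucc 667, .ofNat 160, .negSucc 3329⟩, ⟨.negSucc 3741, .negSucc 705, .ofNat 202, .ofNat 666, .ofNat 32, .ofNat 2836⟩, ⟨.ofNat 8248, .ofNat 1477, .negSucc 317, .negSucc 1989, .negSucc 102, .negSucc 7856⟩, ⟨.negSucc 806, .ofNat 850, .negSucc 379, .ofNat 766, .ofNat 742, .ofNat 1007⟩, .ofNat 3968, .negSucc 5600, .ofNat 0, .negSucc 5600, .ofNat 8683, .ofNat 0, .ofNat 128, .ofNat 1307, .negSucc 1963, .ofNat 0, .ofNat 861, .negSucc 1260, .ofNat 0, .ofNat 0, .ofNat 1745, .ofNat 2130, .ofNat 0, .ofNat 0, .ofNat 0, .ofNat 0, .ofNat 0, .ofNat 0, .ofNat 2773422448197851682806332704421587423835717632, .ofNat 0, .ofNat 0, .ofNat 0, .ofNat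 1995070623068539363947462843511778801348509696, .ofNat 0, .ofNat 0, .ofNat 0, .ofNat 801623282960952147796857821349379552434978816, .ofNat 5196778834398353069751379814478412522121944546871869440⟩)
    (by decide +kernel)
theorem L03521 : Good (Phi V5.P V5.D 1 1) ⟨6, 56, 5, 20, 4, 14, 3, 2, 6, 0⟩ :=
  leafX_sound T5.ok_pp T5.Ypp.bz_eq (w := 276) (c := ⟨⟨.ofNat 5219, .negSucc 19, .ofNat 262, .negSucc 681, .negSucc 670, .negSucc 3755⟩, ⟨.ofNat 3380, .negSucc 9, .ofNat 212, .negSucc 433, .negSucc 427, .negSucc 2439⟩, ⟨.negSucc 3227, .negSucc 233, .ofNat 29, .ofNat 801, .ofNat 380, .ofNat 1958⟩, ⟨.ofNat 7649, .negSucc 96, .ofNat 279, .negSucc 1783, .negSucc 1411, .negSucc 6419⟩, ⟨.negSucc 380, .ofNat 123, .ofNat 34, .ofNat 1268, .ofNat 714, .ofNat 1717⟩, .ofNat 7187, .negSucc 10587, .ofNat 0, .negSucc 10587, .ofNat 16419, .ofNat 0, .ofNat 128, .ofNat 1391, .negSucc 3868, .ofNat 0,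 .ofNat 906, .negSucc 2481, .ofNat 0, .ofNat 0, .ofNat 2762, .ofNat 887, .ofNat 0, .ofNat 0, .ofNat 0, .ofNat 0, .ofNat 0, .ofNat 0, .ofNat 1511799596377188948076917224016816923229203204145152, .ofNat 0, .ofNat 0, .ofNat 0, .ofNat 0, .ofNat 0, .ofNat 0, .ofNat 0, .ofNat 0, .ofNat 0⟩)
    (by decide +kernel)
theorem L03522 : Good (Phi V5.P V5.D 1 1) ⟨6, 56, 6, 40, 4, 15, 3, 2, 6, 0⟩ :=
  leafX_sound T5.ok_pp T5.Ypp.bz_eq (w := 279) (c := ⟨⟨.ofNat 2810, .ofNat 415, .negSucc 154, .ofNat 2301, .negSucc 148, .negSucc 2134⟩, ⟨.ofNat 1780, .ofNat 382, .negSucc 107, .ofNat 1497, .negSucc 90, .negSucc 1387⟩, ⟨.negSucc 1365, .negSucc 148, .ofNat 94, .negSucc 643, .negSucc 256, .ofNat 887⟩, ⟨.ofNat 2857, .ofNat 303, .negSucc 226, .ofNat 2630, .negSucc 632, .negSucc 3387⟩, ⟨.ofNat 1868, .ofNat 299, .negSucc 38, .ofNat 966, .ofNat 643, .ofNat 552⟩, .ofNat 4814, .negSucc 6997, .ofNat 0, .negSucc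 6997, .ofNat 10990, .ofNat 0, .ofNat 128, .ofNat 2168, .negSucc 7046, .ofNat 0, .ofNat 1411, .negSucc 4440, .ofNat 0, .ofNat 0, .ofNat 5004, .ofNat 3792, .ofNat 0, .ofNat 0, .ofNat 0, .ofNat 0, .ofNat 0, .ofNat 0, .ofNat 1200583992184713419472645648665954038337474408742912, .ofNat 0, .ofNat 0, .ofNat 0, .ofNat 1770285306348870589678900517879553990117602730442752, .ofNat 0, .ofNat 0, .ofNat 0, .ofNat 6096272633871792891216837941042663745628534558687232, .ofNat 0⟩)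
    (by decide +kernel)
theorem L03523 : Good (Phi V5.P V5.D 1 1) ⟨6, 56, 6, 41, 4, 15, 3, 2, 6, 0⟩ :=
  leafX_sound T5.ok_pp T5.Ypp.bz_eq (w := 280) (c := ⟨⟨.ofNat 3598, .negSucc 33, .ofNat 286, .ofNat 2066, .negSucc 59, .negSucc 2839⟩, ⟨.ofNat 2333, .ofNat 21, .ofNat 204, .ofNat 1363, .negSucc 39, .negSucc 1867⟩, ⟨.negSucc 1365, .negSucc 481, .negSucc 20, .negSucc 559, .negSucc 290, .ofNat 1235⟩, ⟨.ofNat 3850, .ofNat 61, .ofNat 460, .ofNat 2499, .negSucc 847, .negSucc 4440⟩, ⟨.ofNat 1903, .negSucc 147, .negSucc 184, .ofNat 632, .ofNat 1160, .ofNat 664⟩, .ofNat 8406, .negSucc 12369, .ofNat 0, .negSucc 12369, .ofNat 19014, .ofNat 0, .ofNat 128, .ofNat 2314, .negSucc 6231, .ofNat 0, .ofNat 1523, .negSucc 4030, .ofNat 0, .ofNat 0, .ofNat 4311, .ofNat 2522, .ofNat 0, .ofNat 0, .ofNat 0, .ofNat 0, .ofNat 0, .ofNat 0, .ofNat 4766299354908112983460627631530104348517870166081536, .ofNat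 0, .ofNat 0, .ofNat 0, .ofNat 1182016995159221471948231530795898866591345707843584, .ofNat 0, .ofNat 0, .ofNat 0, .ofNat 0, .ofNat 0⟩)
    (by decide +kernel)
theorem L03524 : Good (Phi V5.P V5.D 1 1) ⟨6, 56, 5, 20, 3, 7, 3, 2, 6, 1⟩ :=
  leafX_sound T5.ok_pp T5.Ypp.bz_eq (w := 261) (c := ⟨⟨.ofNat 539, .ofNat 267, .ofNat 202, .ofNat 2621, .negSucc 374, .negSucc 1548⟩, ⟨.ofNat 332, .ofNat 200, .ofNat 124, .ofNat 1727, .negSucc 234, .negSucc 999⟩, ⟨.negSucc 403, .negSucc 511, .ofNat 1, .negSucc 719, .negSucc 30, .ofNat 655⟩, ⟨.negSucc 1271, .ofNat 255, .ofNat 235, .ofNat 3841, .negSucc 962, .negSucc 1629⟩, ⟨.ofNat 3179, .ofNat 208, .negSucc 70, .negSucc 206, .ofNat 656, .negSucc 849⟩, .ofNat 5340, .negSucc 7750, .ofNat 0, .negSucc 7750, .ofNat 12056, .ofNat 0, .ofNat 128, .ofNat 2111, .negSucc 3910, .ofNat 0, .ofNat 1379, .negSucc 2488, .ofNat 0, .ofNat 0, .ofNat 3244, .ofNat 2647,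 .ofNat 0, .ofNat 0, .ofNat 0, .ofNat 0, .ofNat 0, .ofNat 0, .ofNat 84916717017240167406170161794274127169061912576, .ofNat 0, .ofNat 0, .ofNat 0, .ofNat 0, .ofNat 0, .ofNat 0, .ofNat 0, .ofNat 0, .ofNat 0⟩)
    (by decide +kernel)
theorem L03525 : Good (Phi V5.P V5.D 1 1) ⟨6, 57, 5, 20, 3, 7, 3, 2, 6, 0⟩ :=
  leafX_sound T5.ok_pp T5.Ypp.bz_eq (w := 271) (c := ⟨⟨.ofNat 3974, .negSucc 1, .ofNat 200, .ofNat 1519, .ofNat 45, .negSucc 3159⟩, ⟨.ofNat 3236, .negSucc 0, .negSucc 476, .ofNat 1015, .ofNat 33, .negSucc 2087⟩, ⟨.negSucc 2625, .ofNat 1, .ofNat 96, .ofNat 91, .negSucc 282, .ofNat 1479⟩, ⟨.ofNat 4480, .negSucc 1, .ofNat 0, .ofNat 1117, .negSucc 293, .negSucc 3639⟩, ⟨.ofNat 2089, .negSucc 0, .ofNat 2, .ofNat 1520, .ofNat 540, .negSucc 1175⟩, .ofNat 21713, .negSucc 32327, .ofNat 0, .negSucc 32327, .ofNat 48943, .ofNat 0, .ofNat 128, .ofNat 8929, .negSucc 32087, .ofNat 0, .ofNat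 5917, .negSucc 21120, .ofNat 0, .ofNat 0, .ofNat 22546, .ofNat 12568, .ofNat 0, .ofNat 0, .ofNat 10201755879792019246583716162186787724315328512, .ofNat 0, .ofNat 0, .ofNat 0, .ofNat 354231374162130142178804106371873247027684362420224, .ofNat 0, .ofNat 0, .ofNat 0, .ofNat 52201530603252438846769289852158177149888680165376, .ofNat 0, .ofNat 0, .ofNat 0, .ofNat 1541940215299807117681462716386170031845335367680, .ofNat 0⟩)
    (by decide +kernel)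
theorem L03526 : Good (Phi V5.P V5.D 1 1) ⟨6, 57, 5, 20, 3, 7, 3, 2, 6, 1⟩ :=
  leafX_sound T5.ok_pp T5.Ypp.bz_eq (w := 271) (c := ⟨⟨.ofNat 528, .negSucc 0, .ofNat 30, .ofNat 2728, .negSucc 273, .negSucc 1328⟩, ⟨.ofNat 521, .ofNat 0, .negSucc 146, .ofNat 1809, .negSucc 176, .negSucc 878⟩, ⟨.negSucc 596, .ofNat 0, .ofNat 37, .negSucc 866, .negSucc 102, .ofNat 547⟩, ⟨.negSucc 679, .ofNat 0, .negSucc 2, .ofNat 2679, .negSucc 335, .negSucc 1345⟩, ⟨.ofNat 2226, .negSucc 0, .ofNat 0, .ofNat 1721, .negSucc 59, .negSucc 779⟩, .ofNat 26843, .negSucc 40054, .ofNat 0, .negSucc 40054, .ofNat 60583, .ofNat 0, .ofNat 128, .ofNat 14804, .negSucc 28574, .ofNat 0, .ofNat 9811, .negSucc 18796, .ofNat 0, .ofNat 0, .ofNat 23818, .ofNat 11247, .ofNat 0, .ofNat 0, .ofNat 97775933276655909904306346961063945331940524032, .ofNat 0, .ofNat 0, .ofNat 0, .ofNat 209358047783936598771867435432591980238186257317888,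 .ofNat 0, .ofNat 0, .ofNat 0, .ofNat 0, .ofNat 0, .ofNat 0, .ofNat 0, .ofNat 0, .ofNat 0⟩)
    (by decide +kernel)
theorem L03527 : Good (Phi V5.P V5.D 1 1) ⟨6, 56, 5, 20, 2, 3, 3, 2, 5, 1⟩ :=
  leafX_sound T5.ok_pp T5.Ypp.bz_eq (w := 241) (c := ⟨⟨.negSucc 1297, .ofNat 1260, .negSucc 673, .ofNat 2992, .negSucc 320, .negSucc 1595⟩, ⟨.negSucc 864, .ofNat 844, .negSucc 478, .ofNat 1984, .negSucc 202, .negSucc 1031⟩, ⟨.ofNat 504, .negSucc 1628, .ofNat 906, .negSucc 1018, .ofNat 60, .ofNat 740⟩, ⟨.negSucc 1839, .ofNat 607, .negSucc 1316, .ofNat 3562, .negSucc 1286, .negSucc 1753⟩, ⟨.ofNat 244, .ofNat 1252, .ofNat 787, .ofNat 1049, .ofNat 1291, .negSucc 741⟩, .ofNat 5239, .negSucc 7606, .ofNat 0, .negSucc 7606, .ofNat 11854, .ofNat 0, .ofNat 128, .ofNat 2076, .negSucc 2191, .ofNat 0, .ofNat 1355, .negSucc 1393, .ofNat 0, .ofNat 0, .ofNat 2383, .ofNat 2621, .ofNat 0, .ofNat 0, .ofNat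 772518998109911713793027536329069559808, .ofNat 0, .ofNat 0, .ofNat 0, .ofNat 130623970719534593238876365323796192690176, .ofNat 0, .ofNat 0, .ofNat 0, .ofNat 66081661094005124739966604363834941505536, .ofNat 0, .ofNat 0, .ofNat 0, .ofNat 167677828375131887697355381910229001175040, .ofNat 0⟩)
    (by decide +kernel)
theorem L03528 : Good (Phi V5.P V5.D 1 1) ⟨6, 57, 5, 20, 2, 3, 3, 2, 5, 1⟩ :=
  leafX_sound T5.ok_pp T5.Ypp.bz_eq (w := 240) (c := ⟨⟨.negSucc 559, .ofNat 0, .negSucc 333, .ofNat 3201, .negSucc 456, .negSucc 1449⟩, ⟨.negSucc 481, .ofNat 0, .negSucc 144, .ofNat 2159, .negSucc 293, .negSucc 957⟩, ⟨.ofNat 51, .ofNat 0, .negSucc 179, .negSucc 1190, .ofNat 171, .ofNat 713⟩, ⟨.negSucc 2139, .ofNat 1, .negSucc 15, .ofNat 3982, .negSucc 1322, .negSucc 2035⟩, ⟨.ofNat 1303, .negSucc 0, .ofNat 13, .ofNat 819, .ofNat 1035, .negSucc 1⟩, .ofNat 3887, .negSucc 5360, .ofNat 0, .negSucc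 5360, .ofNat 8141, .ofNat 0, .ofNat 128, .ofNat 2557, .negSucc 2862, .ofNat 0, .ofNat 1708, .negSucc 1817, .ofNat 0, .ofNat 0, .ofNat 2861, .ofNat 4420, .ofNat 0, .ofNat 0, .ofNat 832813161347828198102766024432466001920, .ofNat 0, .ofNat 0, .ofNat 0, .ofNat 2432775007429640594811126757732649596354560, .ofNat 0, .ofNat 0, .ofNat 0, .ofNat 0, .ofNat 0, .ofNat 0, .ofNat 0, .ofNat 0, .ofNat 0⟩)
    (by decide +kernel)
theorem L03529 : Good (Phi V5.P V5.D 1 1) ⟨5, 29, 5, 20, 2, 3, 3, 2, 4, 0⟩ :=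
  out_sound (S := T5.ds_pp) T5.ok_pp (w := 61) (j := 3) (by decide +kernel)
theorem L03530 : Good (Phi V5.P V5.D 1 1) ⟨6, 56, 5, 21, 2, 3, 3, 2, 6, 0⟩ :=
  leafX_sound T5.ok_pp T5.Ypp.bz_eq (w := 254) (c := ⟨⟨.ofNat 5491, .ofNat 2, .ofNat 480, .ofNat 172, .ofNat 97, .negSucc 3102⟩, ⟨.ofNat 3615, .ofNat 1, .ofNat 399, .ofNat 137, .ofNat 66, .negSucc 2051⟩, ⟨.negSucc 3755, .negSucc 0, .negSucc 641, .ofNat 1114, .negSucc 109, .ofNat 1536⟩, ⟨.ofNat 6220, .ofNat 2, .ofNat 144, .negSucc 545, .negSucc 283, .negSucc 4291⟩, ⟨.ofNat 2250, .ofNat 2, .ofNat 70, .ofNat 1208, .ofNat 635, .negSucc 95⟩, .ofNat 14705, .negSucc 21773, .ofNat 0, .negSucc 21773, .ofNat 33047, .ofNat 0, .ofNat 128, .ofNat 7445, .negSucc 14755, .ofNat 0, .ofNat 4932, .negSucc 9701, .ofNat 0, .ofNat 0, .ofNat 11520, .ofNat 3681, .ofNat 0, .ofNat 0, .ofNat 0, .ofNat 0, .ofNat 0, .ofNat 0, .ofNat 21158171043129326352594227402844425791995904,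 .ofNat 0, .ofNat 0, .ofNat 0, .ofNat 63220457880294539966991977338103699064487936, .ofNat 0, .ofNat 0, .ofNat 0, .ofNat 155592715981923547005946205160875678075191296, .ofNat 0⟩)
    (by decide +kernel)
theorem L03531 : Good (Phi V5.P V5.D 1 1) ⟨6, 56, 5, 21, 2, 3, 3, 2, 6, 1⟩ :=
  leafX_sound T5.ok_pp T5.Ypp.bz_eq (w := 256) (c := ⟨⟨.ofNat 2000, .ofNat 1, .ofNat 94, .ofNat 995, .ofNat 181, .negSucc 1883⟩, ⟨.ofNat 1320, .ofNat 1, .ofNat 33, .ofNat 671, .ofNat 122, .negSucc 1245⟩, ⟨.negSucc 1725, .negSucc 0, .negSucc 377, .ofNat 309, .negSucc 248, .ofNat 880⟩, ⟨.ofNat 1135, .ofNat 0, .ofNat 6, .ofNat 911, .ofNat 120, .negSucc 1828⟩, ⟨.ofNat 2512, .ofNat 1, .ofNat 4, .ofNat 740, .ofNat 208, .negSucc 1202⟩, .ofNat 31326, .negSucc 46807, .ofNat 0, .negSucc 46807, .ofNat 70753, .ofNat 0, .ofNat 128, .ofNat 12129, .negSucc 15985, .ofNat 0, .ofNat 8040, .negSucc 10535, .ofNat 0, .ofNat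 0, .ofNat 14579, .ofNat 15594, .ofNat 0, .ofNat 0, .ofNat 0, .ofNat 0, .ofNat 0, .ofNat 0, .ofNat 50011214445511064088750196090113776248946688, .ofNat 0, .ofNat 0, .ofNat 0, .ofNat 0, .ofNat 0, .ofNat 0, .ofNat 0, .ofNat 209177486296782962139644739425686621243047936, .ofNat 0⟩)
    (by decide +kernel)
theorem L03532 : Good (Phi V5.P V5.D 1 1) ⟨6, 57, 5, 21, 3, 6, 3, 2, 5, 0⟩ :=
  leafX_sound T5.ok_pp T5.Ypp.bz_eq (w := 256) (c := ⟨⟨.ofNat 6067, .ofNat 13, .negSucc 270, .negSucc 976, .ofNat 107, .negSucc 5389⟩, ⟨.ofNat 4017, .negSucc 500, .ofNat 175, .negSucc 639, .ofNat 70, .negSucc 3593⟩, ⟨.negSucc 4057, .negSucc 211, .ofNat 391, .ofNat 703, .ofNat 94, .ofNat 2971⟩, ⟨.ofNat 8780, .ofNat 85, .negSucc 26, .negSucc 1645, .negSucc 321, .negSucc 8117⟩, ⟨.negSucc 367, .negSucc 247, .negSucc 512, .ofNat 428, .ofNat 693, .ofNat 795⟩, .ofNat 5676, .negSucc 8009, .ofNat 0, .negSucc 8009,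 .ofNat 12050, .ofNat 0, .ofNat 128, .ofNat 1874, .negSucc 3285, .ofNat 0, .ofNat 1263, .negSucc 2182, .ofNat 0, .ofNat 0, .ofNat 2882, .ofNat 1257, .ofNat 0, .ofNat 0, .ofNat 18536867348941742119331750805859565041614848, .ofNat 0, .ofNat 0, .ofNat 0, .ofNat 7247997017877674003200894568360320380673458176, .ofNat 0, .ofNat 0, .ofNat 0, .ofNat 463067374780602980283918862085563421235871744, .ofNat 71424098641415647399102434101274862929849648570647445504, .ofNat 0, .ofNat 0, .ofNat 4938431166532432497695038295375490129625874432, .ofNat 0⟩)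
    (by decide +kernel)
theorem L03533 : Good (Phi V5.P V5.D 1 1) ⟨6, 57, 5, 21, 4, 14, 3, 2, 6, 0⟩ :=
  leafX_sound T5.ok_pp T5.Ypp.bz_eq (w := 278) (c := ⟨⟨.ofNat 5964, .ofNat 61, .ofNat 224, .negSucc 406, .negSucc 604, .negSucc 4849⟩, ⟨.ofNat 3954, .ofNat 505, .negSucc 11, .negSucc 258, .negSucc 405, .negSucc 3224⟩, ⟨.negSucc 3662, .negSucc 237, .ofNat 71, .ofNat 595, .ofNat 326, .ofNat 2551⟩, ⟨.ofNat 8224, .ofNat 576, .ofNat 977, .negSucc 840, .negSucc 1774, .negSucc 7258⟩, ⟨.ofNat 239, .negSucc 553, .negSucc 1170, .ofNat 405, .ofNat 1387, .ofNat 696⟩, .ofNat 10725, .negSucc 15449, .ofNat 0, .negSucc 15449, .ofNat 23019, .ofNat 0, .ofNat 128, .ofNat 1818, .negSucc 5748, .ofNat 0, .ofNat 1226, .negSucc 3839, .ofNat 0, .ofNat 0, .ofNat 3896, .ofNat 725, .ofNat 0, .ofNat 0, .ofNat 29162269620156175133746398448656682673746703548416, .ofNat 467376317630523138494023783118018433512603779507437206241280,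 .ofNat 0, .ofNat 0, .ofNat 8680180981040356010543736704189258915984189601873920, .ofNat 0, .ofNat 0, .ofNat 0, .ofNat 0, .ofNat 29716934516987553319233372232075181702988264775606445430276096, .ofNat 0, .ofNat 0, .ofNat 2679336932414872696611408858427757977726909203611648, .ofNat 188560017518569970698469962156591080675403569041691392394395648⟩)
    (by decide +kernel)
theorem L03534 : Good (Phi V5.P V5.D 1 1) ⟨8, 228, 6, 42, 4, 15, 3, 2, 7, 0⟩ :=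
  leafX_sound T5.ok_pp T5.Ypp.bz_eq (w := 295) (c := ⟨⟨.ofNat 4364, .ofNat 217, .negSucc 308, .ofNat 1540, .ofNat 493, .negSucc 2190⟩, ⟨.ofNat 2917, .ofNat 321, .negSucc 346, .ofNat 1030, .ofNat 308, .negSucc 1477⟩, ⟨.negSucc 2107, .negSucc 301, .ofNat 353, .negSucc 286, .negSucc 613, .ofNat 1019⟩, ⟨.ofNat 5990, .ofNat 652, .ofNat 102, .ofNat 1170, .negSucc 546, .negSucc 4538⟩, ⟨.ofNat 279, .negSucc 680, .negSucc 707, .ofNat 1485, .ofNat 1822, .ofNat 2164⟩, .ofNat 7277, .negSucc 10533, .ofNat 0, .negSucc 10533, .ofNat 16028, .ofNat 0, .ofNat 128, .ofNat 3676, .negSucc 14782, .ofNat 0, .ofNat 2448, .negSucc 9693, .ofNat 0, .ofNat 0, .ofNat 9106, .ofNat 2227, .ofNat 0, .ofNat 0, .ofNat 377629685335943832575706224955167725084684821987328, .ofNat 0, .ofNat 0, .ofNat 0, .ofNat 74264165877940207971949562496314692348949058782494720, .ofNat 0, .ofNat 0, .ofNat 0, .ofNat 0, .ofNat 0, .ofNat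 0, .ofNat 0, .ofNat 0, .ofNat 0⟩)
    (by decide +kernel)
theorem L03535 : Good (Phi V5.P V5.D 1 1) ⟨8, 229, 6, 42, 4, 15, 3, 2, 7, 0⟩ :=
  out_sound (S := T5.ds_pp) T5.ok_pp (w := 23) (j := 4) (by decide +kernel)
theorem L03536 : Good (Phi V5.P V5.D 1 1) ⟨8, 228, 6, 43, 4, 15, 3, 2, 7, 0⟩ :=
  out_sound (S := T5.ds_pp) T5.ok_pp (w := 81) (j := 3) (by decide +kernel)
theorem L03537 : Good (Phi V5.P V5.D 1 1) ⟨8, 229, 6, 43, 4, 15, 3, 2, 7, 0⟩ :=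
  out_sound (S := T5.ds_pp) T5.ok_pp (w := 23) (j := 4) (by decide +kernel)
theorem L03538 : Good (Phi V5.P V5.D 1 1) ⟨7, 114, 5, 21, 4, 15, 3, 2, 7, 1⟩ :=
  leafX_sound T5.ok_pp T5.Ypp.bz_eq (w := 289) (c := ⟨⟨.ofNat 1807, .ofNat 53, .ofNat 127, .ofNat 2384, .negSucc 12, .negSucc 1006⟩, ⟨.ofNat 1203, .ofNat 110, .ofNat 37, .ofNat 1587, .negSucc 6, .negSucc 670⟩, ⟨.negSucc 852, .negSucc 333, .ofNat 211, .negSucc 835, .negSucc 322, .ofNat 423⟩, ⟨.ofNat 1066, .ofNat 108, .ofNat 72, .ofNat 2375, .negSucc 404, .negSucc 1143⟩, ⟨.ofNat 2250, .negSucc 19, .negSucc 35, .ofNat 1439, .ofNat 582, .negSucc 393⟩, .ofNat 19408, .negSucc 28694, .ofNat 0, .negSucc 28694, .ofNat 43222, .ofNat 0, .ofNat 128, .ofNat 1946, .negSucc 7650, .ofNat 0, .ofNat 1298, .negSucc 5067, .ofNat 0, .ofNat 0, .ofNat 5541, .ofNat 2691, .ofNat 0, .ofNat 0, .ofNat 0, .ofNat 0, .ofNat 0, .ofNat 0, .ofNat 94338946539182143024251927198211182453055197036937216,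 .ofNat 0, .ofNat 0, .ofNat 0, .ofNat 20009926476866934683862536832102201826177952142852096, .ofNat 9877697577406774159881125761509382199797122153389897478083444736, .ofNat 0, .ofNat 0, .ofNat 0, .ofNat 0⟩)
    (by decide +kernel)
theorem L03539 : Good (Phi V5.P V5.D 1 1) ⟨7, 115, 5, 21, 4, 15, 3, 2, 6, 0⟩ :=
  out_sound (S := T5.ds_pp) T5.ok_pp (w := 21) (j := 4) (by decide +kernel)
theorem L03540 : Good (Phi V5.P V5.D 1 1) ⟨7, 114, 5, 21, 3, 7, 3, 2, 6, 1⟩ :=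
  leafX_sound T5.ok_pp T5.Ypp.bz_eq (w := 267) (c := ⟨⟨.ofNat 98, .ofNat 323, .ofNat 239, .ofNat 3102, .negSucc 230, .negSucc 1114⟩, ⟨.ofNat 68, .ofNat 237, .ofNat 136, .ofNat 2073, .negSucc 156, .negSucc 747⟩, ⟨.negSucc 285, .negSucc 105, .negSucc 212, .negSucc 1108, .negSucc 143, .ofNat 464⟩, ⟨.negSucc 845, .ofNat 135, .ofNat 86, .ofNat 3797, .negSucc 1279, .negSucc 1589⟩, ⟨.ofNat 1512, .ofNat 375, .ofNat 339, .ofNat 830, .ofNat 1425, .ofNat 38⟩, .ofNat 8455, .negSucc 12235, .ofNat 0, .negSucc 12235, .ofNat 18480, .ofNat 0, .ofNat 128, .ofNat 2774, .negSucc 5623, .ofNat 0, .ofNat 1853, .negSucc 3713, .ofNat 0, .ofNat 0, .ofNat 4350, .ofNat 8571, .ofNat 0, .ofNat 0, .ofNat 0, .ofNat 0, .ofNat 0, .ofNat 0, .ofNat 129332483189262789479926117684500134340000219136, .ofNat 8335048162128460072278519296376106929077262006544307847168, .ofNat 0, .ofNat 0, .ofNat 0, .ofNat 0, .ofNat 0,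 .ofNat 0, .ofNat 0, .ofNat 0⟩)
    (by decide +kernel)
theorem L03541 : Good (Phi V5.P V5.D 1 1) ⟨7, 115, 5, 21, 3, 7, 3, 2, 6, 1⟩ :=
  out_sound (S := T5.ds_pp) T5.ok_pp (w := 21) (j := 4) (by decide +kernel)
theorem L03542 : Good (Phi V5.P V5.D 1 1) ⟨6, 56, 5, 21, 2, 3, 3, 2, 5, 1⟩ :=
  leafX_sound T5.ok_pp T5.Ypp.bz_eq (w := 242) (c := ⟨⟨.negSucc 346, .ofNat 0, .ofNat 65, .ofNat 2598, .negSucc 321, .negSucc 1469⟩, ⟨.negSucc 293, .ofNat 0, .negSucc 33, .ofNat 1786, .negSucc 200, .negSucc 972⟩, ⟨.negSucc 394, .ofNat 0, .negSucc 794, .negSucc 895, .ofNat 65, .ofNat 724⟩, ⟨.negSucc 3115, .negSucc 0, .ofNat 23, .ofNat 4569, .negSucc 830, .negSucc 2197⟩, ⟨.ofNat 3870, .ofNat 2, .ofNat 23, .negSucc 1288, .ofNat 582, .ofNat 194⟩, .ofNat 5306, .negSucc 7788, .ofNat 0, .negSucc 7788, .ofNat 12236, .ofNat 0, .ofNat 128, .ofNat 2872, .negSucc 3669, .ofNat 0, .ofNat 1857, .negSucc 2346,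 .ofNat 0, .ofNat 0, .ofNat 3530, .ofNat 4238, .ofNat 0, .ofNat 0, .ofNat 0, .ofNat 0, .ofNat 0, .ofNat 0, .ofNat 193493470058876423654062913052259720888320, .ofNat 0, .ofNat 0, .ofNat 0, .ofNat 541931502078591079774856701473495302799360, .ofNat 0, .ofNat 0, .ofNat 0, .ofNat 1922445317574860538382816926830762613800960, .ofNat 0⟩)
    (by decide +kernel)
theorem L03543 : Good (Phi V5.P V5.D 1 1) ⟨7, 114, 6, 42, 3, 6, 3, 2, 5, 1⟩ :=
  leafX_sound T5.ok_pp T5.Ypp.bz_eq (w := 264) (c := ⟨⟨.ofNat 842, .negSucc 434, .ofNat 317, .negSucc 688, .negSucc 826, .negSucc 2018⟩, ⟨.ofNat 569, .negSucc 507, .ofNat 312, .negSucc 461, .negSucc 549, .negSucc 1344⟩, ⟨.negSucc 1122, .negSucc 360, .ofNat 174, .ofNat 487, .ofNat 599, .ofNat 1181⟩, ⟨.ofNat 1422, .negSucc 83, .ofNat 42, .negSucc 2157, .negSucc 1558, .negSucc 3020⟩, ⟨.negSucc 351, .ofNat 52, .ofNat 149, .ofNat 1783, .ofNat 598, .ofNat 292⟩,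 .ofNat 7270, .negSucc 10520, .ofNat 0, .negSucc 10520, .ofNat 16004, .ofNat 0, .ofNat 128, .ofNat 4444, .negSucc 3579, .ofNat 0, .ofNat 2957, .negSucc 2350, .ofNat 0, .ofNat 0, .ofNat 4077, .ofNat 3833, .ofNat 0, .ofNat 0, .ofNat 0, .ofNat 0, .ofNat 0, .ofNat 0, .ofNat 12523051464716530459218292453395766355532185600, .ofNat 0, .ofNat 0, .ofNat 0, .ofNat 0, .ofNat 0, .ofNat 0, .ofNat 0, .ofNat 0, .ofNat 0⟩)
    (by decide +kernel)
theorem L03544 : Good (Phi V5.P V5.D 1 1) ⟨7, 114, 6, 42, 3, 7, 3, 2, 5, 1⟩ :=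
  leafX_sound T5.ok_pp T5.Ypp.bz_eq (w := 267) (c := ⟨⟨.negSucc 771, .negSucc 840, .ofNat 413, .ofNat 3204, .negSucc 462, .negSucc 1314⟩, ⟨.negSucc 510, .negSucc 580, .ofNat 283, .ofNat 2132, .negSucc 301, .negSucc 875⟩, ⟨.ofNat 182, .negSucc 370, .ofNat 202, .negSucc 1429, .ofNat 46, .ofNat 561⟩, ⟨.negSucc 2691, .negSucc 73, .ofNat 89, .ofNat 3780, .negSucc 574, .negSucc 1522⟩, ⟨.ofNat 2479, .negSucc 160, .negSucc 125, .ofNat 1038, .negSucc 92, .negSucc 484⟩, .ofNat 17424, .negSucc 25593, .ofNat 0, .negSucc 25593, .ofNat 38383, .ofNat 0, .ofNat 128, .ofNat 3904, .negSucc 5418, .ofNat 0, .ofNat 2611, .negSucc 3584, .ofNat 0, .ofNat 0, .ofNat 5271, .ofNat 6685, .ofNat 0, .ofNat 0, .ofNat 39005356256283680065335576373852671626444800, .ofNat 36664862023125807773543370671681650467889063463711932416, .ofNat 0, .ofNat 0, .ofNat 44720373172474371240979685525900556124326723584, .ofNat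 0, .ofNat 0, .ofNat 0, .ofNat 14766783298718871818126646104345693009517477888, .ofNat 0, .ofNat 0, .ofNat 0, .ofNat 0, .ofNat 0⟩)
    (by decide +kernel)
theorem L03545 : Good (Phi V5.P V5.D 1 1) ⟨8, 228, 6, 43, 2, 3, 3, 2, 5, 1⟩ :=
  out_sound (S := T5.ds_pp) T5.ok_pp (w := 81) (j := 3) (by decide +kernel)
theorem L03546 : Good (Phi V5.P V5.D 1 1) ⟨8, 229, 6, 43, 2, 3, 3, 2, 5, 1⟩ :=
  out_sound (S := T5.ds_pp) T5.ok_pp (w := 23) (j := 4) (by decide +kernel)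
theorem L03547 : Good (Phi V5.P V5.D 1 1) ⟨7, 115, 5, 21, 2, 3, 3, 2, 5, 1⟩ :=
  out_sound (S := T5.ds_pp) T5.ok_pp (w := 21) (j := 4) (by decide +kernel)
theorem L03548 : Good (Phi V5.P V5.D 1 1) ⟨5, 29, 5, 21, 2, 3, 3, 2, 4, 0⟩ :=
  out_sound (S := T5.ds_pp) T5.ok_pp (w := 61) (j := 3) (by decide +kernel)
theorem L03549 : Good (Phi V5.P V5.D 1 1) ⟨4, 15, 4, 10, 2, 3, 3, 2, 4, 0⟩ :=
  out_sound (S := T5.ds_pp) T5.ok_pp (w := 53) (j := 3) (by decide +kernel)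
theorem L03550 : Good (Phi V5.P V5.D 1 1) ⟨3, 6, 4, 10, 2, 3, 3, 3, 4, 0⟩ :=
  out_sound (S := T5.ds_pp) T5.ok_pp (w := 47) (j := 3) (by decide +kernel)
theorem L03551 : Good (Phi V5.P V5.D 1 1) ⟨4, 14, 4, 10, 3, 6, 3, 3, 5, 0⟩ :=
  leafX_sound T5.ok_pp T5.Ypp.bz_eq (w := 241) (c := ⟨⟨.ofNat 7107, .ofNat 19, .negSucc 470, .negSucc 2257, .negSucc 1358, .negSucc 6094⟩, ⟨.ofNat 4551, .ofNat 649, .negSucc 376, .negSucc 1468, .negSucc 910, .negSucc 3968⟩, ⟨.negSucc 4460, .ofNat 71, .ofNat 345, .ofNat 1338, .ofNat 955, .ofNat 3325⟩, ⟨.ofNat 10211, .negSucc 30, .negSucc 807, .negSucc 4274, .negSucc 2713, .negSucc 8939⟩, ⟨.negSucc 232, .ofNat 179, .negSucc 5, .ofNat 1647, .ofNat 1232, .ofNat 561⟩, .ofNat 3366, .negSucc 4502, .ofNat 0, .negSucc 4502, .ofNat 6728, .ofNat 0, .ofNat 128, .ofNat 698, .negSucc 1606, .ofNat 0, .ofNat 479, .negSucc 1051, .ofNat 0, .ofNat 0, .ofNat 1195, .ofNat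 598, .ofNat 0, .ofNat 0, .ofNat 5496290159428365877502852581461554599297024, .ofNat 495099423831757190990009514352831024389781867986944, .ofNat 0, .ofNat 0, .ofNat 638201151353958922990888615687121542290866176, .ofNat 45804189543696051899855166423125704424480245410693120, .ofNat 0, .ofNat 0, .ofNat 160833068482659808277276937732503623333576704, .ofNat 14308715704256104524291522811445480522950773967945728, .ofNat 0, .ofNat 0, .ofNat 38684491841940463023170673212583018598760448, .ofNat 59718677770314146790293289387798804211386499687514112⟩)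
    (by decide +kernel)
theorem L03552 : Good (Phi V5.P V5.D 1 1) ⟨4, 14, 5, 20, 4, 14, 3, 3, 5, 0⟩ :=
  leafX_sound T5.ok_pp T5.Ypp.bz_eq (w := 259) (c := ⟨⟨.ofNat 3114, .negSucc 777, .negSucc 36, .negSucc 341, .negSucc 2406, .negSucc 3667⟩, ⟨.ofNat 1993, .negSucc 184, .negSucc 85, .negSucc 190, .negSucc 1547, .negSucc 2372⟩, ⟨.negSucc 1936, .negSucc 299, .ofNat 161, .ofNat 320, .ofNat 1341, .ofNat 1833⟩, ⟨.ofNat 3131, .negSucc 407, .negSucc 250, .negSucc 1331, .negSucc 4897, .negSucc 5493⟩, ⟨.ofNat 1953, .negSucc 266, .ofNat 74, .ofNat 1297, .ofNat 2271, .ofNat 453⟩, .ofNat 2821, .negSucc 3713, .ofNat 0, .negSucc 3713, .ofNat 5588, .ofNat 0, .ofNat 128, .ofNat 897, .negSucc 2936, .ofNat 0, .ofNat 610, .negSucc 1852, .ofNat 0, .ofNat 0, .ofNat 1929, .ofNat 746, .ofNat 0, .ofNat 0, .ofNat 241814613966976522422819678601864045618081562624, .ofNat 41772365991604785226577482949602992899216349328318660608,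 .ofNat 0, .ofNat 0, .ofNat 16932138772574205740860545103030595620651589959680, .ofNat 2199645400625742514121454585911140869482648591774118838272, .ofNat 0, .ofNat 0, .ofNat 10805375131792317853515107768847731445965887897600, .ofNat 5501811116519512454383535010237643461047213298073320030208, .ofNat 0, .ofNat 0, .ofNat 14992554116846082703138652254729849352600158208000, .ofNat 19853796704973158314669661216852156014006755513118492721152⟩)
    (by decide +kernel)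
theorem L03553 : Good (Phi V5.P V5.D 1 1) ⟨7, 112, 6, 40, 4, 15, 3, 3, 6, 0⟩ :=
  leafX_sound T5.ok_pp T5.Ypp.bz_eq (w := 286) (c := ⟨⟨.ofNat 918, .ofNat 387, .ofNat 82, .ofNat 3572, .negSucc 1698, .negSucc 1484⟩, ⟨.ofNat 573, .ofNat 317, .ofNat 18, .ofNat 2288, .negSucc 1076, .negSucc 954⟩, ⟨.negSucc 400, .negSucc 322, .negSucc 18, .negSucc 1553, .ofNat 651, .ofNat 597⟩, ⟨.negSucc 1065, .ofNat 310, .ofNat 109, .ofNat 4593, .negSucc 2874, .negSucc 1687⟩, ⟨.ofNat 3870, .ofNat 189, .ofNat 0, .ofNat 722, .ofNat 730, .negSucc 641⟩, .ofNat 9614, .negSucc 14435, .ofNat 0, .negSucc 14435, .ofNat 22529, .ofNat 0, .ofNat 128, .ofNat 2260, .negSucc 10685, .ofNat 0, .ofNat 1464, .negSucc 6756, .ofNat 0, .ofNat 0, .ofNat 6973, .ofNat 5719, .ofNat 0, .ofNat 0, .ofNat 0, .ofNat 0, .ofNat 0, .ofNat 0, .ofNat 2919569956542006429971085018011784412678314979753984, .ofNat 0, .ofNat 0, .ofNat 0,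 .ofNat 1548039603678117527365920714820309967037870471380992, .ofNat 0, .ofNat 0, .ofNat 0, .ofNat 0, .ofNat 0⟩)
    (by decide +kernel)
theorem L03554 : Good (Phi V5.P V5.D 1 1) ⟨7, 113, 6, 40, 4, 15, 3, 3, 6, 0⟩ :=
  leafX_sound T5.ok_pp T5.Ypp.bz_eq (w := 283) (c := ⟨⟨.ofNat 1742, .ofNat 276, .negSucc 212, .ofNat 3794, .negSucc 1889, .negSucc 2159⟩, ⟨.ofNat 1167, .ofNat 243, .negSucc 164, .ofNat 2449, .negSucc 1210, .negSucc 1393⟩, ⟨.negSucc 877, .negSucc 195, .ofNat 82, .negSucc 1680, .ofNat 747, .ofNat 903⟩, ⟨.negSucc 36, .ofNat 155, .negSucc 223, .ofNat 5508, .negSucc 3834, .negSucc 2959⟩, ⟨.ofNat 3929, .ofNat 229, .negSucc 146, .negSucc 221, .ofNat 1781, .negSucc 146⟩, .ofNat 6259, .negSucc 9143, .ofNat 0, .negSucc 9143, .ofNat 14174, .ofNat 0, .ofNat 128, .ofNat 1595, .negSucc 6256, .ofNat 0, .ofNat 1046, .negSucc 3964, .ofNat 0, .ofNat 0, .ofNat 4013, .ofNat 4224, .ofNat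 0, .ofNat 0, .ofNat 5779834929739189251870163930883005922494382080000, .ofNat 0, .ofNat 0, .ofNat 0, .ofNat 2531972610465027374989608542252525580404990228299776, .ofNat 0, .ofNat 0, .ofNat 0, .ofNat 167245091063241989082807871492834063956083960971264, .ofNat 0, .ofNat 0, .ofNat 0, .ofNat 260472923799434993962865064016766321182948223614976, .ofNat 0⟩)
    (by decide +kernel)
theorem L03555 : Good (Phi V5.P V5.D 1 1) ⟨6, 56, 6, 40, 4, 15, 3, 3, 6, 1⟩ :=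
  leafX_sound T5.ok_pp T5.Ypp.bz_eq (w := 277) (c := ⟨⟨.negSucc 257, .ofNat 117, .ofNat 85, .ofNat 3447, .negSucc 1342, .negSucc 930⟩, ⟨.negSucc 206, .ofNat 250, .ofNat 7, .ofNat 2217, .negSucc 853, .negSucc 596⟩, ⟨.negSucc 98, .ofNat 113, .negSucc 122, .negSucc 1611, .ofNat 538, .ofNat 365⟩, ⟨.negSucc 3233, .ofNat 64, .ofNat 152, .ofNat 5481, .negSucc 2940, .negSucc 786⟩, ⟨.ofNat 4528, .ofNat 53, .negSucc 105, .negSucc 921, .ofNat 1603, .negSucc 818⟩, .ofNat 4792, .negSucc 6969, .ofNat 0, .negSucc 6969, .ofNat 10957, .ofNat 0, .ofNat 128, .ofNat 1363, .negSucc 3932, .ofNat 0, .ofNat 886, .negSucc 2458, .ofNat 0, .ofNat 0, .ofNat 2920, .ofNat 6209, .ofNat 0, .ofNat 0, .ofNat 29102035461097503177175061343181738356620339970048, .ofNat 0, .ofNat 0, .ofNat 0, .ofNat 2755211096041783896203321007593442288396854414540800, .ofNat 0, .ofNat 0, .ofNat 0, .ofNat 1720198416522123080273636997589821163916517680611328,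 .ofNat 0, .ofNat 0, .ofNat 0, .ofNat 0, .ofNat 0⟩)
    (by decide +kernel)
theorem L03556 : Good (Phi V5.P V5.D 1 1) ⟨6, 57, 6, 40, 4, 15, 3, 3, 5, 0⟩ :=
  out_sound (S := T5.ds_pp) T5.ok_pp (w := 69) (j := 3) (by decide +kernel)
theorem L03557 : Good (Phi V5.P V5.D 1 1) ⟨6, 56, 6, 41, 5, 30, 3, 3, 6, 0⟩ :=
  leafX_sound T5.ok_pp T5.Ypp.bz_eq (w := 293) (c := ⟨⟨.ofNat 2227, .negSucc 25, .ofNat 504, .ofNat 1349, .negSucc 2544, .negSucc 2063⟩, ⟨.ofNat 1484, .ofNat 2, .ofNat 313, .ofNat 892, .negSucc 1681, .negSucc 1354⟩, ⟨.negSucc 1054, .negSucc 223, .negSucc 204, .negSucc 586, .ofNat 1162, .ofNat 910⟩, ⟨.ofNat 1194, .ofNat 76, .ofNat 578, .ofNat 2157, .negSucc 6052, .negSucc 3171⟩, ⟨.ofNat 2982, .negSucc 97, .ofNat 93, .negSucc 381, .ofNat 3703, .ofNat 398⟩, .ofNat 3878, .negSucc 5503, .ofNat 0, .negSucc 5503, .ofNat 8595, .ofNat 0, .ofNat 128, .ofNat 2108, .negSucc 10900, .ofNat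 0, .ofNat 1384, .negSucc 6917, .ofNat 0, .ofNat 0, .ofNat 6639, .ofNat 2549, .ofNat 0, .ofNat 0, .ofNat 0, .ofNat 0, .ofNat 0, .ofNat 0, .ofNat 30320901878876071803028584070639507466829260616456208384, .ofNat 0, .ofNat 0, .ofNat 0, .ofNat 18562941540684468844908722301488889855263403823016706048, .ofNat 0, .ofNat 0, .ofNat 0, .ofNat 0, .ofNat 0⟩)
    (by decide +kernel)
theorem L03558 : Good (Phi V5.P V5.D 1 1) ⟨6, 56, 6, 41, 5, 31, 3, 3, 6, 0⟩ :=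
  leafX_sound T5.ok_pp T5.Ypp.bz_eq (w := 294) (c := ⟨⟨.ofNat 2896, .ofNat 386, .ofNat 269, .ofNat 2212, .negSucc 1883, .negSucc 1895⟩, ⟨.ofNat 1748, .ofNat 491, .ofNat 119, .ofNat 1449, .negSucc 1228, .negSucc 1244⟩, ⟨.negSucc 1393, .negSucc 189, .negSucc 177, .negSucc 1000, .ofNat 724, .ofNat 777⟩, ⟨.ofNat 1635, .ofNat 263, .ofNat 336, .ofNat 3387, .negSucc 3537, .negSucc 2439⟩, ⟨.ofNat 4040, .ofNat 69, .ofNat 63, .negSucc 416, .ofNat 1344, .negSucc 345⟩, .ofNat 8644, .negSucc 12713, .ofNat 0, .negSucc 12713, .ofNat 19509, .ofNat 0, .ofNat 128, .ofNat 1605, .negSucc 5719, .ofNat 0, .ofNat 1060, .negSucc 3694, .ofNat 0, .ofNat 0, .ofNat 3762, .ofNat 4044, .ofNat 0, .ofNat 0, .ofNat 0, .ofNat 0, .ofNat 0, .ofNat 0, .ofNat 64627862493152470197036233301415105595764217243129348096, .ofNat 0, .ofNat 0, .ofNat 0, .ofNat 0, .ofNat 0, .ofNat 0, .ofNat 0, .ofNat 0, .ofNat 0⟩)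
    (by decide +kernel)
theorem L03559 : Good (Phi V5.P V5.D 1 1) ⟨6, 57, 6, 41, 4, 15, 3, 3, 6, 0⟩ :=
  leafX_sound T5.ok_pp T5.Ypp.bz_eq (w := 287) (c := ⟨⟨.ofNat 1469, .negSucc 0, .ofNat 92, .ofNat 4367, .negSucc 1822, .negSucc 2246⟩, ⟨.ofNat 1262, .negSucc 0, .negSucc 209, .ofNat 2879, .negSucc 1201, .negSucc 1483⟩, ⟨.negSucc 1044, .ofNat 1, .ofNat 230, .negSucc 2049, .ofNat 712, .ofNat 962⟩, ⟨.ofNat 188, .ofNat 0, .negSucc 2, .ofNat 5540, .negSucc 3530, .negSucc 2907⟩, ⟨.ofNat 3051, .negSucc 1, .ofNat 8, .ofNat 877, .ofNat 1461, .negSucc 368⟩, .ofNat 14071, .negSucc 20817, .ofNat 0, .negSucc 20817, .ofNat 31607, .ofNat 0, .ofNat 128, .ofNat 6810, .negSucc 33323, .ofNat 0, .ofNat 4518, .negSucc 21838, .ofNat 0, .ofNat 0, .ofNat 21317, .ofNat 16876, .ofNat 0, .ofNat 0, .ofNat 5421230385106138516537046288728084408569642851762176, .ofNat 0, .ofNat 0, .ofNat 0, .ofNat 7202782122165134556642542647445564267347710567512014848,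 .ofNat 0, .ofNat 0, .ofNat 0, .ofNat 73250677915683459133335761345762093587255259910111232, .ofNat 0, .ofNat 0, .ofNat 0, .ofNat 67632192106663288763700983001676286436439224909561856, .ofNat 0⟩)
    (by decide +kernel)
theorem L03560 : Good (Phi V5.P V5.D 1 1) ⟨6, 56, 6, 41, 4, 15, 3, 3, 6, 1⟩ :=
  leafX_sound T5.ok_pp T5.Ypp.bz_eq (w := 278) (c := ⟨⟨.negSucc 468, .ofNat 199, .ofNat 117, .ofNat 3577, .negSucc 1358, .negSucc 770⟩, ⟨.negSucc 335, .ofNat 200, .ofNat 56, .ofNat 2343, .negSucc 881, .negSucc 507⟩, ⟨.negSucc 39, .ofNat 110, .negSucc 164, .negSucc 1739, .ofNat 561, .ofNat 277⟩, ⟨.negSucc 3350, .ofNat 154, .ofNat 167, .ofNat 5532, .negSucc 2869, .negSucc 902⟩, ⟨.ofNat 4259, .ofNat 38, .negSucc 47, .negSucc 759, .ofNat 1457, .negSucc 278⟩, .ofNat 8523, .negSucc 12537, .ofNat 0, .negSucc 12537, .ofNat 19254, .ofNat 0, .ofNat 128, .ofNat 1157, .negSucc 2747, .ofNat 0, .ofNat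 762, .negSucc 1770, .ofNat 0, .ofNat 0, .ofNat 2050, .ofNat 4695, .ofNat 0, .ofNat 0, .ofNat 29516363320358845757959026159447055582566585204736, .ofNat 0, .ofNat 0, .ofNat 0, .ofNat 4769280782786816449027631344297805116135728499130368, .ofNat 0, .ofNat 0, .ofNat 0, .ofNat 920832212282782282113608091376626489009618450120704, .ofNat 0, .ofNat 0, .ofNat 0, .ofNat 0, .ofNat 0⟩)
    (by decide +kernel)
theorem L03561 : Good (Phi V5.P V5.D 1 1) ⟨6, 57, 6, 41, 4, 15, 3, 3, 6, 1⟩ :=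
  leafX_sound T5.ok_pp T5.Ypp.bz_eq (w := 285) (c := ⟨⟨.negSucc 333, .ofNat 0, .negSucc 17, .ofNat 3741, .negSucc 1261, .negSucc 840⟩, ⟨.negSucc 116, .ofNat 0, .negSucc 95, .ofNat 2465, .negSucc 826, .negSucc 556⟩, ⟨.ofNat 88, .ofNat 0, .negSucc 39, .negSucc 1854, .ofNat 490, .ofNat 321⟩, ⟨.negSucc 2738, .ofNat 1, .negSucc 6, .ofNat 4783, .negSucc 2286, .negSucc 975⟩, ⟨.ofNat 3422, .negSucc 1, .ofNat 3, .ofNat 693, .ofNat 780, .negSucc 309⟩, .ofNat 14069, .negSucc 20814, .ofNat 0, .negSucc 20814, .ofNat 31602, .ofNat 0, .ofNat 128, .ofNat 7430, .negSucc 19848, .ofNat 0, .ofNat 4928, .negSucc 12983, .ofNat 0, .ofNat 0, .ofNat 14664, .ofNat 51515, .ofNat 0, .ofNat 0, .ofNat 12473400104631790796838238455143356053437250915008512, .ofNat 0, .ofNat 0, .ofNat 0, .ofNat 5628860710606990968158924716840464484009058291597443072, .ofNat 0, .ofNat 0, .ofNat 0, .ofNat 957384463446831807727802975714294218820557662232510464,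 .ofNat 0, .ofNat 0, .ofNat 0, .ofNat 31378052157115191312329754228502690141586385734205440, .ofNat 0⟩)
    (by decide +kernel)
theorem L03562 : Good (Phi V5.P V5.D 1 1) ⟨5, 29, 5, 20, 4, 15, 3, 3, 5, 0⟩ :=
  out_sound (S := T5.ds_pp) T5.ok_pp (w := 61) (j := 3) (by decide +kernel)
theorem L03563 : Good (Phi V5.P V5.D 1 1) ⟨6, 56, 5, 21, 4, 14, 3, 3, 5, 0⟩ :=
  leafX_sound T5.ok_pp T5.Ypp.bz_eq (w := 278) (c := ⟨⟨.ofNat 2985, .ofNat 0, .ofNat 267, .negSucc 129, .negSucc 2303, .negSucc 3587⟩, ⟨.ofNat 1984, .ofNat 0, .ofNat 175, .negSucc 82, .negSucc 1516, .negSucc 2371⟩, ⟨.negSucc 1901, .ofNat 0, .negSucc 26, .ofNat 209, .ofNat 1262, .ofNat 1740⟩, ⟨.ofNat 3425, .negSucc 0, .ofNat 91, .negSucc 1663, .negSucc 4159, .negSucc 5207⟩, ⟨.ofNat 1181, .ofNat 2, .negSucc 3, .ofNat 2217, .ofNat 1401, .ofNat 261⟩, .ofNat 14707, .negSucc 21775, .ofNat 0, .negSucc 21775, .ofNat 33050, .ofNat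 0, .ofNat 128, .ofNat 9843, .negSucc 27657, .ofNat 0, .ofNat 6520, .negSucc 18166, .ofNat 0, .ofNat 0, .ofNat 18984, .ofNat 2107, .ofNat 0, .ofNat 0, .ofNat 65890801266281531662560598028867385854410096640, .ofNat 0, .ofNat 0, .ofNat 0, .ofNat 531598594372889258543381073418412269568224244269056, .ofNat 0, .ofNat 0, .ofNat 0, .ofNat 0, .ofNat 0, .ofNat 0, .ofNat 0, .ofNat 2507374102820840948700522569727481852586726743080960, .ofNat 0⟩)
    (by decide +kernel)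
theorem L03564 : Good (Phi V5.P V5.D 1 1) ⟨7, 114, 6, 42, 4, 14, 3, 3, 5, 0⟩ :=
  leafX_sound T5.ok_pp T5.Ypp.bz_eq (w := 281) (c := ⟨⟨.ofNat 3391, .ofNat 329, .negSucc 599, .negSucc 307, .negSucc 2359, .negSucc 3849⟩, ⟨.ofNat 2274, .ofNat 229, .negSucc 406, .negSucc 204, .negSucc 1578, .negSucc 2568⟩, ⟨.negSucc 2126, .ofNat 473, .ofNat 9, .ofNat 317, .ofNat 1273, .ofNat 1900⟩, ⟨.ofNat 4661, .ofNat 100, .negSucc 738, .negSucc 1860, .negSucc 5468, .negSucc 6530⟩, ⟨.ofNat 219, .ofNat 103, .ofNat 18, .ofNat 2113, .ofNat 3212, .ofNat 1665⟩, .ofNat 7168, .negSucc 10373, .ofNat 0, .negSucc 10373, .ofNat 15794, .ofNat 0, .ofNat 128, .ofNat 3909, .negSucc 11728, .ofNat 0, .ofNat 2597, .negSucc 7679, .ofNat 0, .ofNat 0, .ofNat 7986, .ofNat 2103, .ofNat 0, .ofNat 0, .ofNat 0, .ofNat 0, .ofNat 0, .ofNat 0, .ofNat 58025684260486836615814903808265743180648427814912, .ofNat 11349113996756344145963541459832056008191103688841598571905024,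 .ofNat 0, .ofNat 0, .ofNat 85149290496107277855184862833048660765456736452608, .ofNat 141059506975454987809283225864853906032302356917513480203927552, .ofNat 0, .ofNat 0, .ofNat 23415636558861907389441557705985331658554179846144, .ofNat 381523361181248613237708273879362105096578381800296182129360896⟩)
    (by decide +kernel)
theorem L03565 : Good (Phi V5.P V5.D 1 1) ⟨8, 228, 6, 43, 4, 14, 3, 3, 5, 0⟩ :=
  out_sound (S := T5.ds_pp) T5.ok_pp (w := 81) (j := 3) (by decide +kernel)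
theorem L03566 : Good (Phi V5.P V5.D 1 1) ⟨8, 229, 6, 43, 4, 14, 3, 3, 5, 0⟩ :=
  out_sound (S := T5.ds_pp) T5.ok_pp (w := 23) (j := 4) (by decide +kernel)
theorem L03567 : Good (Phi V5.P V5.D 1 1) ⟨7, 115, 5, 21, 4, 14, 3, 3, 5, 0⟩ :=
  out_sound (S := T5.ds_pp) T5.ok_pp (w := 21) (j := 4) (by decide +kernel)
theorem L03568 : Good (Phi V5.P V5.D 1 1) ⟨6, 56, 8, 168, 4, 15, 3, 3, 6, 0⟩ :=
  leafX_sound T5.ok_pp T5.Ypp.bz_eq (w := 290) (c := ⟨⟨.ofNat 1536, .ofNat 1, .ofNat 418, .ofNat 4014, .negSucc 1573, .negSucc 2084⟩, ⟨.ofNat 1037, .ofNat 1, .ofNat 264, .ofNat 2652, .negSucc 1046, .negSucc 1374⟩, ⟨.negSucc 792, .negSucc 0, .negSucc 287, .negSucc 1877, .ofNat 573, .ofNat 892⟩, ⟨.negSucc 56, .ofNat 0, .ofNat 500, .ofNat 5887, .negSucc 4065, .negSucc 2537⟩, ⟨.ofNat 3371, .ofNat 2, .ofNat 102, .negSucc 381, .ofNat 2775, .negSucc 579⟩, .ofNat 10084, .negSucc 14813, .ofNat 0, .negSucc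 14813, .ofNat 22562, .ofNat 0, .ofNat 128, .ofNat 4821, .negSucc 20652, .ofNat 0, .ofNat 3197, .negSucc 13487, .ofNat 0, .ofNat 0, .ofNat 13107, .ofNat 4864, .ofNat 0, .ofNat 0, .ofNat 0, .ofNat 0, .ofNat 0, .ofNat 0, .ofNat 30902371136120361827476732673861239773561956962664448, .ofNat 0, .ofNat 0, .ofNat 0, .ofNat 15332150622931844863795442107748113772959590716014592, .ofNat 0, .ofNat 0, .ofNat 0, .ofNat 0, .ofNat 0⟩)
    (by decide +kernel)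
theorem L03569 : Good (Phi V5.P V5.D 1 1) ⟨6, 56, 8, 169, 4, 15, 3, 3, 6, 0⟩ :=
  out_sound (S := T5.ds_pp) T5.ok_pp (w := 73) (j := 3) (by decide +kernel)
theorem L03570 : Good (Phi V5.P V5.D 1 1) ⟨6, 56, 7, 85, 4, 15, 3, 3, 6, 0⟩ :=
  out_sound (S := T5.ds_pp) T5.ok_pp (w := 71) (j := 3) (by decide +kernel)
theorem L03571 : Good (Phi V5.P V5.D 1 1) ⟨6, 56, 6, 43, 4, 15, 3, 3, 6, 0⟩ :=
  out_sound (S := T5.ds_pp) T5.ok_pp (w := 69) (j := 3) (by decide +kernel)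
theorem L03572 : Good (Phi V5.P V5.D 1 1) ⟨8, 228, 6, 42, 4, 15, 3, 3, 7, 0⟩ :=
  leafX_sound T5.ok_pp T5.Ypp.bz_eq (w := 297) (c := ⟨⟨.ofNat 1782, .negSucc 120, .ofNat 363, .ofNat 4543, .negSucc 2245, .negSucc 1555⟩, ⟨.ofNat 1199, .negSucc 32, .ofNat 207, .ofNat 3014, .negSucc 1496, .negSucc 1035⟩, ⟨.negSucc 895, .negSucc 187, .ofNat 48, .negSucc 2152, .ofNat 897, .ofNat 668⟩, ⟨.ofNat 1211, .ofNat 18, .ofNat 144, .ofNat 5309, .negSucc 4176, .negSucc 2311⟩, ⟨.ofNat 2008, .ofNat 41, .ofNat 110, .ofNat 1556, .ofNat 1537, .ofNat 215⟩, .ofNat 18771, .negSucc 27757, .ofNat 0, .negSucc 27757, .ofNat 41845, .ofNat 0, .ofNat 128, .ofNat 2131, .negSucc 11275, .ofNat 0, .ofNat 1421, .negSucc 7461, .ofNat 0, .ofNat 0, .ofNat 6810, .ofNat 2686, .ofNat 0, .ofNat 0, .ofNat 88042035402215360807661093546576706468365601865728, .ofNat 0, .ofNat 0, .ofNat 0, .ofNat 73040491362819494943940081321292019969060497445093376,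 .ofNat 0, .ofNat 0, .ofNat 0, .ofNat 19079765301965209222161433730699372615039841340489728, .ofNat 0, .ofNat 0, .ofNat 0, .ofNat 0, .ofNat 0⟩)
    (by decide +kernel)
theorem L03573 : Good (Phi V5.P V5.D 1 1) ⟨8, 228, 6, 42, 4, 15, 3, 3, 7, 1⟩ :=
  leafX_sound T5.ok_pp T5.Ypp.bz_eq (w := 294) (c := ⟨⟨.ofNat 384, .ofNat 423, .negSucc 113, .ofNat 3963, .negSucc 1653, .negSucc 924⟩, ⟨.ofNat 262, .ofNat 313, .negSucc 113, .ofNat 2635, .negSucc 1096, .negSucc 607⟩, ⟨.negSucc 247, .negSucc 190, .negSucc 34, .negSucc 1907, .ofNat 615, .ofNat 401⟩, ⟨.negSucc 2247, .ofNat 69, .negSucc 226, .ofNat 5971, .negSucc 3322, .negSucc 783⟩, ⟨.ofNat 4232, .ofNat 457, .ofNat 348, .negSucc 629, .ofNat 1505, .negSucc 767⟩, .ofNat 12028, .negSucc 17646, .ofNat 0, .negSucc 17646, .ofNat 26683, .ofNat 0, .ofNat 128, .ofNat 1312, .negSucc 5955, .ofNat 0, .ofNat 875, .negSucc 3923, .ofNat 0, .ofNat 0, .ofNat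 3915, .ofNat 7210, .ofNat 0, .ofNat 0, .ofNat 0, .ofNat 0, .ofNat 0, .ofNat 0, .ofNat 40161412014400726467271196437015793963973769550626816, .ofNat 0, .ofNat 0, .ofNat 0, .ofNat 4595526776846146252309577140134209369447793717936128, .ofNat 78593332630316731814305435219640176291184658116527171563723685888, .ofNat 0, .ofNat 0, .ofNat 27505020929711627183133194236955489506166698800054272, .ofNat 0⟩)
    (by decide +kernel)
theorem L03574 : Good (Phi V5.P V5.D 1 1) ⟨8, 229, 6, 42, 4, 15, 3, 3, 6, 0⟩ :=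
  out_sound (S := T5.ds_pp) T5.ok_pp (w := 23) (j := 4) (by decide +kernel)
theorem L03575 : Good (Phi V5.P V5.D 1 1) ⟨7, 115, 6, 42, 4, 15, 3, 3, 6, 0⟩ :=
  out_sound (S := T5.ds_pp) T5.ok_pp (w := 75) (j := 3) (by decide +kernel)
theorem L03576 : Good (Phi V5.P V5.D 1 1) ⟨8, 228, 6, 43, 4, 15, 3, 3, 6, 0⟩ :=
  out_sound (S := T5.ds_pp) T5.ok_pp (w := 81) (j := 3) (by decide +kernel)
theorem L03577 : Good (Phi V5.P V5.D 1 1) ⟨8, 229, 6, 43, 4, 15, 3, 3, 6, 0⟩ :=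
  out_sound (S := T5.ds_pp) T5.ok_pp (w := 23) (j := 4) (by decide +kernel)
theorem L03578 : Good (Phi V5.P V5.D 1 1) ⟨7, 115, 6, 43, 4, 15, 3, 3, 6, 0⟩ :=
  out_sound (S := T5.ds_pp) T5.ok_pp (w := 21) (j := 4) (by decide +kernel)
theorem L03579 : Good (Phi V5.P V5.D 1 1) ⟨6, 56, 5, 21, 4, 15, 3, 3, 6, 1⟩ :=
  leafX_sound T5.ok_pp T5.Ypp.bz_eq (w := 281) (c := ⟨⟨.negSucc 412, .ofNat 0, .ofNat 364, .ofNat 3800, .negSucc 1307, .negSucc 860⟩, ⟨.negSucc 254, .ofNat 0, .ofNat 190, .ofNat 2503, .negSucc 857, .negSucc 568⟩, ⟨.ofNat 72, .ofNat 0, .negSucc 437, .negSucc 1891, .ofNat 522, .ofNat 346⟩, ⟨.negSucc 2947, .negSucc 0, .ofNat 182, .ofNat 4839, .negSucc 2389, .negSucc 778⟩, ⟨.ofNat 3599, .ofNat 2, .ofNat 63, .ofNat 735, .ofNat 835, .negSucc 646⟩, .ofNat 14592, .negSucc 21603, .ofNat 0, .negSucc 21603, .ofNat 32790, .ofNat 0, .ofNat 128, .ofNat 4774, .negSucc 14205, .ofNat 0, .ofNat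 3166, .negSucc 9298, .ofNat 0, .ofNat 0, .ofNat 10570, .ofNat 9836, .ofNat 0, .ofNat 0, .ofNat 0, .ofNat 0, .ofNat 0, .ofNat 0, .ofNat 15197154353225066389022051926737323142127321723437056, .ofNat 0, .ofNat 0, .ofNat 0, .ofNat 0, .ofNat 0, .ofNat 0, .ofNat 0, .ofNat 0, .ofNat 0⟩)
    (by decide +kernel)
theorem L03580 : Good (Phi V5.P V5.D 1 1) ⟨8, 228, 6, 42, 4, 15, 3, 3, 6, 1⟩ :=
  leafX_sound T5.ok_pp T5.Ypp.bz_eq (w := 288) (c := ⟨⟨.negSucc 377, .ofNat 402, .negSucc 235, .ofNat 3742, .negSucc 1280, .negSucc 876⟩, ⟨.negSucc 242, .ofNat 290, .negSucc 185, .ofNat 2487, .negSucc 848, .negSucc 578⟩, ⟨.ofNat 84, .negSucc 248, .ofNat 119, .negSucc 1874, .ofNat 497, .ofNat 339⟩, ⟨.negSucc 3366, .ofNat 189, .negSucc 88, .ofNat 5466, .negSucc 2780, .negSucc 514⟩, ⟨.ofNat 4302, .ofNat 127, .ofNat 10, .negSucc 342, .ofNat 1476, .negSucc 1064⟩, .ofNat 12138, .negSucc 17807, .ofNat 0, .negSucc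 17807, .ofNat 26916, .ofNat 0, .ofNat 128, .ofNat 1799, .negSucc 4309, .ofNat 0, .ofNat 1200, .negSucc 2836, .ofNat 0, .ofNat 0, .ofNat 3162, .ofNat 8532, .ofNat 0, .ofNat 0, .ofNat 7435015418384426688148298390697099976842365894656, .ofNat 0, .ofNat 0, .ofNat 0, .ofNat 1592516165387688891029913514918467213431207463223296, .ofNat 0, .ofNat 0, .ofNat 0, .ofNat 0, .ofNat 0, .ofNat 0, .ofNat 0, .ofNat 1489551894457987045804202607709089451949196973178880, .ofNat 0⟩)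
    (by decide +kernel)
theorem L03581 : Good (Phi V5.P V5.D 1 1) ⟨8, 229, 6, 42, 4, 15, 3, 3, 6, 1⟩ :=
  out_sound (S := T5.ds_pp) T5.ok_pp (w := 23) (j := 4) (by decide +kernel)
theorem L03582 : Good (Phi V5.P V5.D 1 1) ⟨8, 228, 6, 43, 4, 15, 3, 3, 6, 1⟩ :=
  out_sound (S := T5.ds_pp) T5.ok_pp (w := 81) (j := 3) (by decide +kernel)
theorem L03583 : Good (Phi V5.P V5.D 1 1) ⟨8, 229, 6, 43, 4, 15, 3, 3, 6, 1⟩ :=
  out_sound (S := T5.ds_pp) T5.ok_pp (w := 23) (j := 4) (by decide +kernel)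
theorem L03584 : Good (Phi V5.P V5.D 1 1) ⟨7, 115, 5, 21, 4, 15, 3, 3, 6, 1⟩ :=
  out_sound (S := T5.ds_pp) T5.ok_pp (w := 21) (j := 4) (by decide +kernel)
theorem L03585 : Good (Phi V5.P V5.D 1 1) ⟨5, 29, 5, 21, 3, 7, 3, 3, 5, 0⟩ :=
  out_sound (S := T5.ds_pp) T5.ok_pp (w := 61) (j := 3) (by decide +kernel)
theorem L03586 : Good (Phi V5.P V5.D 1 1) ⟨4, 15, 4, 10, 2, 3, 3, 3, 5, 0⟩ :=
  out_sound (S := T5.ds_pp) T5.ok_pp (w := 53) (j := 3) (by decide +kernel)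
theorem L03587 : Good (Phi V5.P V5.D 1 1) ⟨3, 7, 4, 10, 3, 6, 3, 3, 5, 1⟩ :=
  leafX_sound T5.ok_pp T5.Ypp.bz_eq (w := 233) (c := ⟨⟨.ofNat 347, .ofNat 552, .negSucc 132, .negSucc 914, .negSucc 1752, .negSucc 2266⟩, ⟨.ofNat 221, .ofNat 1353, .negSucc 347, .negSucc 592, .negSucc 1148, .negSucc 1479⟩, ⟨.negSucc 710, .ofNat 281, .ofNat 49, .ofNat 472, .ofNat 1223, .ofNat 1396⟩, ⟨.ofNat 598, .ofNat 278, .negSucc 339, .negSucc 2991, .negSucc 3316, .negSucc 3417⟩, ⟨.negSucc 106, .ofNat 260, .ofNat 241, .ofNat 2558, .ofNat 1280, .ofNat 365⟩, .ofNat 1553, .negSucc 1746, .ofNat 0, .negSucc 1746, .ofNat 2519, .ofNat 0, .ofNat 128, .ofNat 437, .negSucc 939, .ofNat 0, .ofNat 321, .negSucc 590, .ofNat 0, .ofNat 0, .ofNat 772, .ofNat 941, .ofNat 0, .ofNat 0, .ofNat 7992574018824708756751833335413929762881536, .ofNat 111175242677926939206937007919033761464077032357888, .ofNat 0, .ofNat 0, .ofNat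 928196269172327239076188193955369051433730048, .ofNat 3419509455856236221865673125059325817150755712270336, .ofNat 0, .ofNat 0, .ofNat 597558203202148270577187050693971650740748288, .ofNat 4232183650707915569813975189464580272972550104940544, .ofNat 0, .ofNat 0, .ofNat 190770070196217370370777605592225320024408064, .ofNat 9561579119846584488726336091163384689138969922764800⟩)
    (by decide +kernel)
theorem L03588 : Good (Phi V5.P V5.D 1 1) ⟨6, 56, 4, 10, 4, 14, 3, 3, 5, 1⟩ :=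
  leafX_sound T5.ok_pp T5.Ypp.bz_eq (w := 262) (c := ⟨⟨.negSucc 1083, .negSucc 923, .ofNat 982, .ofNat 997, .negSucc 1687, .negSucc 1309⟩, ⟨.negSucc 636, .negSucc 629, .ofNat 518, .ofNat 663, .negSucc 1087, .negSucc 857⟩, ⟨.ofNat 44, .ofNat 875, .negSucc 864, .negSucc 594, .ofNat 1041, .ofNat 764⟩, ⟨.negSucc 3075, .negSucc 1354, .ofNat 1091, .ofNat 682, .negSucc 3794, .negSucc 1877⟩, ⟨.ofNat 2380, .ofNat 156, .ofNat 208, .ofNat 1110, .ofNat 2158, .ofNat 45⟩, .ofNat 2373, .negSucc 3241, .ofNat 0, .negSucc 3241, .ofNat 5189, .ofNat 0, .ofNat 128, .ofNat 995, .negSucc 1664, .ofNat 0, .ofNat 645, .negSucc 1020, .ofNat 0, .ofNat 0, .ofNat 1347, .ofNat 1963, .ofNat 0, .ofNat 0, .ofNat 0, .ofNat 0, .ofNat 0, .ofNat 0, .ofNat 6761557117312010940773328731269110560638384472064, .ofNat 0, .ofNat 0, .ofNat 0, .ofNat 0, .ofNat 0, .ofNat 0, .ofNat 0, .ofNat 5129917582170201715790687200366617775103631425536,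 .ofNat 0⟩)
    (by decide +kernel)
theorem L03589 : Good (Phi V5.P V5.D 1 1) ⟨6, 56, 4, 10, 5, 30, 3, 3, 5, 1⟩ :=
  leafX_sound T5.ok_pp T5.Ypp.bz_eq (w := 277) (c := ⟨⟨.negSucc 625, .negSucc 89, .ofNat 100, .ofNat 1245, .negSucc 1525, .negSucc 1170⟩, ⟨.negSucc 403, .ofNat 45, .negSucc 165, .ofNat 818, .negSucc 978, .negSucc 760⟩, ⟨.negSucc 27, .ofNat 168, .negSucc 181, .negSucc 642, .ofNat 844, .ofNat 584⟩, ⟨.negSucc 3148, .negSucc 298, .ofNat 15, .ofNat 1933, .negSucc 3627, .negSucc 1602⟩, ⟨.ofNat 3546, .ofNat 235, .negSucc 8, .negSucc 260, .ofNat 2256, .negSucc 78⟩, .ofNat 2343, .negSucc 3200, .ofNat 0, .negSucc 3200, .ofNat 5135, .ofNat 0, .ofNat 128, .ofNat 947, .negSucc 2091, .ofNat 0, .ofNat 614, .negSucc 1265, .ofNat 0, .ofNat 0, .ofNat 1687, .ofNat 3451, .ofNat 0, .ofNat 0, .ofNat 0, .ofNat 0, .ofNat 0, .ofNat 0, .ofNat 98929288820371175438467737979631239774072238969454592,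 .ofNat 0, .ofNat 0, .ofNat 0, .ofNat 78585319991217884681024381739505969728224942962507776, .ofNat 0, .ofNat 0, .ofNat 0, .ofNat 170096914864794570695008218540359819561414550339190784, .ofNat 0⟩)
    (by decide +kernel)
theorem L03590 : Good (Phi V5.P V5.D 1 1) ⟨6, 56, 4, 10, 5, 31, 4, 6, 5, 1⟩ :=
  leafX_sound T5.ok_pp T5.Ypp.bz_eq (w := 281) (c := ⟨⟨.ofNat 563, .negSucc 0, .ofNat 230, .ofNat 1642, .negSucc 441, .negSucc 1295⟩, ⟨.ofNat 317, .ofNat 170, .negSucc 60, .ofNat 1073, .negSucc 273, .negSucc 849⟩, ⟨.negSucc 472, .negSucc 50, .negSucc 133, .negSucc 794, .ofNat 173, .ofNat 574⟩, ⟨.negSucc 1581, .ofNat 33, .ofNat 232, .ofNat 2819, .negSucc 1051, .negSucc 1904⟩, ⟨.ofNat 3756, .negSucc 143, .negSucc 9, .negSucc 764, .ofNat 652, .ofNat 113⟩, .ofNat 3507, .negSucc 5017, .ofNat 0, .negSucc 5017, .ofNat 7972, .ofNat 0, .ofNat 128, .ofNat 763, .negSucc 1432, .ofNat 0, .ofNat 494,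 .negSucc 889, .ofNat 0, .ofNat 0, .ofNat 1211, .ofNat 3906, .ofNat 0, .ofNat 0, .ofNat 28516101704015477226940369149216751113646226181980160, .ofNat 0, .ofNat 0, .ofNat 0, .ofNat 2062203970671535287288509552733021738636233162306355200, .ofNat 0, .ofNat 0, .ofNat 0, .ofNat 0, .ofNat 0, .ofNat 0, .ofNat 0, .ofNat 3020741330195172217863612460136348482869744272574251008, .ofNat 0⟩)
    (by decide +kernel)
theorem L03591 : Good (Phi V5.P V5.D 1 1) ⟨6, 56, 5, 20, 5, 31, 4, 7, 5, 1⟩ :=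
  leafX_sound T5.ok_pp T5.Ypp.bz_eq (w := 285) (c := ⟨⟨.ofNat 81, .negSucc 184, .ofNat 143, .ofNat 1890, .negSucc 733, .negSucc 1333⟩, ⟨.ofNat 35, .ofNat 23, .negSucc 17, .ofNat 1226, .negSucc 470, .negSucc 866⟩, ⟨.negSucc 383, .ofNat 218, .negSucc 162, .negSucc 970, .ofNat 385, .ofNat 677⟩, ⟨.negSucc 2710, .negSucc 284, .ofNat 78, .ofNat 3345, .negSucc 1761, .negSucc 2005⟩, ⟨.ofNat 4421, .ofNat 3, .ofNat 67, .negSucc 1030, .ofNat 1115, .ofNat 187⟩, .ofNat 3577, .negSucc 5081, .ofNat 0, .negSucc 5081, .ofNat 8013, .ofNat 0, .ofNat 128, .ofNat 1121, .negSucc 1905, .ofNat 0, .ofNat 733, .negSucc 1173, .ofNat 0, .ofNat 0, .ofNat 1588, .ofNat 6582, .ofNat 0, .ofNat 0, .ofNat 147808131438758867655729276893550043219450750973247488, .ofNat 0, .ofNat 0, .ofNat 0, .ofNat 5177625346995291433109378209302056875903035395295674368, .ofNat 0, .ofNat 0, .ofNat 0, .ofNat 0, .ofNat 0, .ofNat 0,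 .ofNat 0, .ofNat 6499921649017603211140295541115131580852734121947955200, .ofNat 0⟩)
    (by decide +kernel)
theorem L03592 : Good (Phi V5.P V5.D 1 1) ⟨6, 56, 5, 21, 5, 31, 4, 7, 5, 1⟩ :=
  leafX_sound T5.ok_pp T5.Ypp.bz_eq (w := 291) (c := ⟨⟨.negSucc 7, .ofNat 0, .ofNat 20, .ofNat 2094, .negSucc 738, .negSucc 1417⟩, ⟨.ofNat 12, .ofNat 0, .negSucc 88, .ofNat 1379, .negSucc 483, .negSucc 935⟩, ⟨.negSucc 285, .ofNat 0, .negSucc 323, .negSucc 1115, .ofNat 380, .ofNat 727⟩, ⟨.negSucc 2901, .negSucc 1, .negSucc 2, .ofNat 3268, .negSucc 1564, .negSucc 2019⟩, ⟨.ofNat 4373, .ofNat 2, .negSucc 15, .negSucc 496, .ofNat 796, .ofNat 44⟩, .ofNat 10072, .negSucc 14795, .ofNat 0, .negSucc 14795, .ofNat 22536, .ofNat 0, .ofNat 128, .ofNat 3815, .negSucc 5814, .ofNat 0, .ofNat 2530, .negSucc 3775, .ofNat 0, .ofNat 0, .ofNat 4929, .ofNat 11486, .ofNat 0, .ofNat 0, .ofNat 0, .ofNat 0, .ofNat 0,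 .ofNat 0, .ofNat 55936140030323323637476562268148008499654652888111644672, .ofNat 0, .ofNat 0, .ofNat 0, .ofNat 0, .ofNat 0, .ofNat 0, .ofNat 0, .ofNat 0, .ofNat 0⟩)
    (by decide +kernel)
theorem L03593 : Good (Phi V5.P V5.D 1 1) ⟨6, 57, 5, 20, 4, 14, 3, 3, 5, 1⟩ :=
  leafX_sound T5.ok_pp T5.Ypp.bz_eq (w := 273) (c := ⟨⟨.negSucc 1343, .ofNat 1, .ofNat 5, .ofNat 893, .negSucc 1851, .negSucc 1381⟩, ⟨.negSucc 812, .ofNat 1, .negSucc 63, .ofNat 595, .negSucc 1215, .negSucc 912⟩, ⟨.ofNat 401, .negSucc 0, .negSucc 41, .negSucc 535, .ofNat 1134, .ofNat 799⟩, ⟨.negSucc 3738, .ofNat 3, .negSucc 3, .ofNat 602, .negSucc 3925, .negSucc 1949⟩, ⟨.ofNat 2810, .negSucc 1, .ofNat 1, .ofNat 986, .ofNat 1999, .ofNat 14⟩, .ofNat 6370, .negSucc 9221, .ofNat 0, .negSucc 9221, .ofNat 14138, .ofNat 0, .ofNat 128, .ofNat 4543, .negSucc 8351, .ofNat 0, .ofNat 3002, .negSucc 5404, .ofNat 0, .ofNat 0,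 .ofNat 7153, .ofNat 36382, .ofNat 0, .ofNat 0, .ofNat 0, .ofNat 0, .ofNat 0, .ofNat 0, .ofNat 31200045851450151205151040029613238456449191525744640, .ofNat 0, .ofNat 0, .ofNat 0, .ofNat 86946730197899113593816462759451972914016801521664, .ofNat 0, .ofNat 0, .ofNat 0, .ofNat 137619658565638426003964026985933295070071320739840, .ofNat 0⟩)
    (by decide +kernel)
theorem L03594 : Good (Phi V5.P V5.D 1 1) ⟨6, 57, 5, 20, 4, 15, 3, 3, 5, 1⟩ :=
  leafX_sound T5.ok_pp T5.Ypp.bz_eq (w := 279) (c := ⟨⟨.negSucc 883, .ofNat 0, .ofNat 37, .ofNat 3156, .negSucc 1327, .negSucc 1286⟩, ⟨.negSucc 535, .ofNat 0, .negSucc 9, .ofNat 2083, .negSucc 869, .negSucc 850⟩, ⟨.ofNat 136, .ofNat 0, .ofNat 17, .negSucc 1639, .ofNat 678, .ofNat 654⟩, ⟨.negSucc 3794, .ofNat 2, .negSucc 0, .ofNat 3211, .negSucc 1514, .negSucc 1285⟩, ⟨.ofNat 3947, .negSucc 1, .ofNat 3, .ofNat 1806, .negSucc 517, .negSucc 770⟩,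 .ofNat 26831, .negSucc 40036, .ofNat 0, .negSucc 40036, .ofNat 60555, .ofNat 0, .ofNat 128, .ofNat 10942, .negSucc 16088, .ofNat 0, .ofNat 7256, .negSucc 10555, .ofNat 0, .ofNat 0, .ofNat 13954, .ofNat 91643, .ofNat 0, .ofNat 0, .ofNat 357025970475163920998733640573503687527724069421056, .ofNat 0, .ofNat 0, .ofNat 0, .ofNat 260634544145044227736529681996531997915404309232615424, .ofNat 0, .ofNat 0, .ofNat 0, .ofNat 180115122528824732120821401893163319312030561168523264, .ofNat 0, .ofNat 0, .ofNat 0, .ofNat 23803528950279221247310311612884233776403117842104320, .ofNat 0⟩)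
    (by decide +kernel)
theorem L03595 : Good (Phi V5.P V5.D 1 1) ⟨7, 114, 5, 21, 4, 14, 3, 3, 5, 1⟩ :=
  leafX_sound T5.ok_pp T5.Ypp.bz_eq (w := 275) (c := ⟨⟨.negSucc 1461, .negSucc 219, .ofNat 99, .ofNat 907, .negSucc 1801, .negSucc 1251⟩, ⟨.negSucc 947, .ofNat 21, .negSucc 201, .ofNat 608, .negSucc 1194, .negSucc 835⟩, ⟨.ofNat 417, .negSucc 9, .ofNat 127, .negSucc 569, .ofNat 1100, .ofNat 762⟩, ⟨.negSucc 3852, .negSucc 293, .negSucc 242, .ofNat 643, .negSucc 3848, .negSucc 1863⟩, ⟨.ofNat 2721, .ofNat 234, .ofNat 219, .ofNat 946, .ofNat 1986, .ofNat 166⟩, .ofNat 7212, .negSucc 10436, .ofNat 0, .negSucc 10436, .ofNat 15883, .ofNat 0, .ofNat 128, .ofNat 2383, .negSucc 4322, .ofNat 0, .ofNat 1584, .negSucc 2824, .ofNat 0, .ofNat 0, .ofNat 3663, .ofNat 4432, .ofNat 0, .ofNat 0, .ofNat 0, .ofNat 0, .ofNat 0, .ofNat 0, .ofNat 51651279526973309632979942689047754462847710527488, .ofNat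 6084590299834006812296755902755485226212616807581834977214464, .ofNat 0, .ofNat 0, .ofNat 0, .ofNat 0, .ofNat 0, .ofNat 0, .ofNat 34442081740527894869359255928258572681208232148992, .ofNat 0⟩)
    (by decide +kernel)
theorem L03596 : Good (Phi V5.P V5.D 1 1) ⟨8, 228, 6, 42, 5, 30, 3, 3, 5, 1⟩ :=
  leafX_sound T5.ok_pp T5.Ypp.bz_eq (w := 292) (c := ⟨⟨.negSucc 556, .negSucc 60, .ofNat 6, .ofNat 1239, .negSucc 1643, .negSucc 1217⟩, ⟨.negSucc 352, .ofNat 10, .negSucc 80, .ofNat 831, .negSucc 1090, .negSucc 808⟩, ⟨.negSucc 40, .negSucc 232, .ofNat 280, .negSucc 665, .ofNat 901, .ofNat 663⟩, ⟨.negSucc 3241, .ofNat 11, .negSucc 163, .ofNat 1966, .negSucc 3872, .negSucc 1725⟩, ⟨.ofNat 3715, .negSucc 21, .ofNat 71, .negSucc 329, .ofNat 2349, .ofNat 28⟩, .ofNat 2680, .negSucc 3655, .ofNat 0, .negSucc 3655, .ofNat 5724, .ofNat 0, .ofNat 128, .ofNat 1573, .negSucc 2846, .ofNat 0, .ofNat 1038,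 .negSucc 1777, .ofNat 0, .ofNat 0, .ofNat 2216, .ofNat 7896, .ofNat 0, .ofNat 0, .ofNat 0, .ofNat 0, .ofNat 0, .ofNat 0, .ofNat 185283787894724169269753877855705508015749619303579648, .ofNat 0, .ofNat 0, .ofNat 0, .ofNat 494159358089851927316252222986901541956926411984863232, .ofNat 0, .ofNat 0, .ofNat 0, .ofNat 925720529478060334990114121589163075409986993680023552, .ofNat 0⟩)
    (by decide +kernel)
theorem L03597 : Good (Phi V5.P V5.D 1 1) ⟨8, 228, 6, 42, 5, 31, 4, 6, 5, 1⟩ :=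
  leafX_sound T5.ok_pp T5.Ypp.bz_eq (w := 299) (c := ⟨⟨.ofNat 571, .ofNat 54, .ofNat 35, .ofNat 1791, .negSucc 438, .negSucc 1355⟩, ⟨.ofNat 389, .ofNat 103, .negSucc 54, .ofNat 1193, .negSucc 287, .negSucc 901⟩, ⟨.negSucc 517, .negSucc 195, .ofNat 125, .negSucc 926, .ofNat 168, .ofNat 642⟩, ⟨.negSucc 1655, .ofNat 86, .ofNat 58, .ofNat 3014, .negSucc 1035, .negSucc 1927⟩, ⟨.ofNat 3717, .negSucc 49, .negSucc 37, .negSucc 753, .ofNat 631, .ofNat 39⟩, .ofNat 7277, .negSucc 10533, .ofNat 0, .negSucc 10533, .ofNat 16028, .ofNat 0, .ofNat 128, .ofNat 1506, .negSucc 2560, .ofNat 0, .ofNat 1003, .negSucc 1662, .ofNat 0, .ofNat 0, .ofNat 2260, .ofNat 14397, .ofNat 0, .ofNat 0, .ofNat 85520105806153373102504037055021161165419271017201664, .ofNat 0, .ofNat 0, .ofNat 0, .ofNat 22171008082560403131360597637557777209692717785238470656, .ofNat 0, .ofNat 0, .ofNat 0, .ofNat 5548852369106277723343526953759280760512537972640317440,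 .ofNat 0, .ofNat 0, .ofNat 0, .ofNat 18484200368302848705613471012218018873205182324981891072, .ofNat 0⟩)
    (by decide +kernel)
theorem L03598 : Good (Phi V5.P V5.D 1 1) ⟨8, 228, 7, 84, 5, 31, 4, 7, 5, 1⟩ :=
  leafX_sound T5.ok_pp T5.Ypp.bz_eq (w := 305) (c := ⟨⟨.negSucc 16, .ofNat 86, .ofNat 5, .ofNat 2105, .negSucc 773, .negSucc 1374⟩, ⟨.ofNat 4, .ofNat 83, .negSucc 18, .ofNat 1390, .negSucc 506, .negSucc 908⟩, ⟨.negSucc 288, .negSucc 303, .ofNat 118, .negSucc 1146, .ofNat 412, .ofNat 719⟩, ⟨.negSucc 2955, .ofNat 52, .negSucc 21, .ofNat 2980, .negSucc 1353, .negSucc 1807⟩, ⟨.ofNat 4434, .ofNat 37, .ofNat 43, .negSucc 52, .ofNat 409, .negSucc 177⟩, .ofNat 13090, .negSucc 19237, .ofNat 0, .negSucc 19237, .ofNat 29069, .ofNat 0, .ofNat 128, .ofNat 3161, .negSucc 4185, .ofNat 0, .ofNat 2108, .negSucc 2739, .ofNat 0, .ofNat 0, .ofNat 3523, .ofNat 28368, .ofNat 0, .ofNat 0, .ofNat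 1009448643084543103806146305962071923424671895713218560, .ofNat 0, .ofNat 0, .ofNat 0, .ofNat 23245488488560470238947264088526428483845567985964023808, .ofNat 0, .ofNat 0, .ofNat 0, .ofNat 217390523189703465635814333359697074147740904323761045504, .ofNat 0, .ofNat 0, .ofNat 0, .ofNat 328867824351785000295978065517936356637946732131133685760, .ofNat 0⟩)
    (by decide +kernel)
theorem L03599 : Good (Phi V5.P V5.D 1 1) ⟨8, 228, 7, 85, 5, 31, 4, 7, 5, 1⟩ :=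
  leafX_sound T5.ok_pp T5.Ypp.bz_eq (w := 308) (c := ⟨⟨.ofNat 68, .negSucc 24, .ofNat 22, .ofNat 2116, .negSucc 765, .negSucc 1418⟩, ⟨.ofNat 38, .ofNat 13, .negSucc 7, .ofNat 1411, .negSucc 509, .negSucc 947⟩, ⟨.negSucc 333, .ofNat 0, .negSucc 13, .negSucc 1152, .ofNat 400, .ofNat 755⟩, ⟨.negSucc 2823, .ofNat 5, .ofNat 11, .ofNat 2061, .negSucc 754, .negSucc 1379⟩, ⟨.ofNat 4360, .negSucc 11, .negSucc 23, .ofNat 1327, .negSucc 467, .negSucc 901⟩, .ofNat 51870, .negSucc 77127, .ofNat 0, .negSucc 77127, .ofNat 115482, .ofNat 0, .ofNat 128, .ofNat 2428, .negSucc 3050, .ofNat 0, .ofNat 1624, .negSucc 2032, .ofNat 0, .ofNat 0, .ofNat 2572, .ofNat 27768, .ofNat 0, .ofNat 0, .ofNat 521100973867344559162312894799550858414180150374563840, .ofNat 0, .ofNat 0, .ofNat 0, .ofNat 303640639292010482737359540404714749373748646723880747008, .ofNat 0, .ofNat 0, .ofNat 0, .ofNat 0, .ofNat 0, .ofNat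 0, .ofNat 0, .ofNat 168439021764165817512310725531147472023061323326492246016, .ofNat 406939672917889113372466162298513190203179294304647975784966044778496⟩)
    (by decide +kernel)
theorem L03600 : Good (Phi V5.P V5.D 1 1) ⟨8, 229, 6, 42, 4, 15, 3, 3, 5, 1⟩ :=
  out_sound (S := T5.ds_pp) T5.ok_pp (w := 23) (j := 4) (by decide +kernel)
theorem L03601 : Good (Phi V5.P V5.D 1 1) ⟨8, 228, 6, 43, 4, 15, 3, 3, 5, 1⟩ :=
  out_sound (S := T5.ds_pp) T5.ok_pp (w := 81) (j := 3) (by decide +kernel)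
theorem L03602 : Good (Phi V5.P V5.D 1 1) ⟨8, 229, 6, 43, 4, 15, 3, 3, 5, 1⟩ :=
  out_sound (S := T5.ds_pp) T5.ok_pp (w := 23) (j := 4) (by decide +kernel)
theorem L03603 : Good (Phi V5.P V5.D 1 1) ⟨7, 115, 5, 21, 3, 7, 3, 3, 5, 1⟩ :=
  out_sound (S := T5.ds_pp) T5.ok_pp (w := 21) (j := 4) (by decide +kernel)
theorem L03604 : Good (Phi V5.P V5.D 1 1) ⟨5, 29, 4, 10, 3, 7, 3, 3, 5, 1⟩ :=
  out_sound (S := T5.ds_pp) T5.ok_pp (w := 59) (j := 3) (by decide +kernel)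
theorem L03605 : Good (Phi V5.P V5.D 1 1) ⟨4, 15, 4, 10, 3, 7, 3, 3, 5, 1⟩ :=
  out_sound (S := T5.ds_pp) T5.ok_pp (w := 53) (j := 3) (by decide +kernel)
theorem L03606 : Good (Phi V5.P V5.D 1 1) ⟨3, 6, 4, 11, 2, 3, 2, 1, 4, 0⟩ :=
  out_sound (S := T5.ds_pp) T5.ok_pp (w := 47) (j := 3) (by decide +kernel)
theorem L03607 : Good (Phi V5.P V5.D 1 1) ⟨6, 56, 4, 11, 2, 3, 2, 1, 4, 0⟩ :=
  out_sound (S := T5.ds_pp) T5.ok_pp (w := 65) (j := 3) (by decide +kernel)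
theorem L03608 : Good (Phi V5.P V5.D 1 1) ⟨7, 114, 5, 22, 2, 3, 2, 1, 4, 0⟩ :=
  out_sound (S := T5.ds_pp) T5.ok_pp (w := 73) (j := 3) (by decide +kernel)
theorem L03609 : Good (Phi V5.P V5.D 1 1) ⟨7, 115, 5, 22, 2, 3, 2, 1, 4, 0⟩ :=
  out_sound (S := T5.ds_pp) T5.ok_pp (w := 21) (j := 4) (by decide +kernel)
theorem L03610 : Good (Phi V5.P V5.D 1 1) ⟨6, 57, 5, 23, 2, 3, 2, 1, 4, 0⟩ :=
  out_sound (S := T5.ds_pp) T5.ok_pp (w := 67) (j := 3) (by decide +kernel)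
theorem L03611 : Good (Phi V5.P V5.D 1 1) ⟨5, 29, 4, 11, 2, 3, 2, 1, 4, 0⟩ :=
  out_sound (S := T5.ds_pp) T5.ok_pp (w := 17) (j := 4) (by decide +kernel)
theorem L03612 : Good (Phi V5.P V5.D 1 1) ⟨4, 15, 4, 11, 2, 3, 2, 1, 4, 0⟩ :=
  out_sound (S := T5.ds_pp) T5.ok_pp (w := 53) (j := 3) (by decide +kernel)
theorem L03613 : Good (Phi V5.P V5.D 1 1) ⟨3, 6, 3, 5, 2, 3, 2, 1, 4, 1⟩ :=
  out_sound (S := T5.ds_pp) T5.ok_pp (w := 45) (j := 3) (by decide +kernel)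
theorem L03614 : Good (Phi V5.P V5.D 1 1) ⟨6, 56, 4, 10, 2, 3, 3, 2, 5, 2⟩ :=
  leafX_sound T5.ok_pp T5.Ypp.bz_eq (w := 236) (c := ⟨⟨.negSucc 1931, .negSucc 942, .ofNat 996, .ofNat 3305, .negSucc 635, .negSucc 1069⟩, ⟨.negSucc 1304, .negSucc 516, .ofNat 476, .ofNat 2183, .negSucc 397, .negSucc 691⟩, ⟨.ofNat 607, .ofNat 301, .negSucc 273, .negSucc 1557, .ofNat 327, .ofNat 643⟩, ⟨.negSucc 3620, .negSucc 898, .ofNat 813, .ofNat 4000, .negSucc 1612, .negSucc 1614⟩, ⟨.ofNat 1254, .negSucc 411, .ofNat 471, .ofNat 1074, .ofNat 1111, .ofNat 145⟩, .ofNat 3612, .negSucc 5132, .ofNat 0, .negSucc 5132, .ofNat 8086, .ofNat 0, .ofNat 128, .ofNat 1740, .negSucc 1630, .ofNat 0, .ofNat 1137, .negSucc 1017, .ofNat 0, .ofNat 0, .ofNat 2138, .ofNat 2929, .ofNat 0, .ofNat 0, .ofNat 236376802066609712510480888422920617984, .ofNat 0, .ofNat 0, .ofNat 0, .ofNat 9280086768943273046112422658838777298944,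 .ofNat 0, .ofNat 0, .ofNat 0, .ofNat 37851669368057774665760281724657445371904, .ofNat 0, .ofNat 0, .ofNat 0, .ofNat 0, .ofNat 0⟩)
    (by decide +kernel)
theorem L03615 : Good (Phi V5.P V5.D 1 1) ⟨6, 56, 4, 10, 3, 6, 3, 3, 5, 2⟩ :=
  leafX_sound T5.ok_pp T5.Ypp.bz_eq (w := 250) (c := ⟨⟨.negSucc 1956, .negSucc 777, .ofNat 814, .negSucc 321, .negSucc 1752, .negSucc 955⟩, ⟨.negSucc 1234, .negSucc 488, .ofNat 302, .negSucc 185, .negSucc 1131, .negSucc 615⟩, ⟨.ofNat 781, .ofNat 337, .negSucc 277, .ofNat 77, .ofNat 1299, .ofNat 749⟩, ⟨.negSucc 3575, .negSucc 736, .ofNat 386, .negSucc 1685, .negSucc 3217, .negSucc 1160⟩, ⟨.ofNat 978, .ofNat 4, .ofNat 569, .ofNat 1904, .ofNat 1143, .negSucc 292⟩, .ofNat 5245, .negSucc 7616, .ofNat 0, .negSucc 7616, .ofNat 11872, .ofNat 0, .ofNat 128, .ofNat 989, .negSucc 1239, .ofNat 0, .ofNat 648, .negSucc 788, .ofNat 0, .ofNat 0, .ofNat 1376, .ofNat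 4517, .ofNat 0, .ofNat 0, .ofNat 0, .ofNat 0, .ofNat 0, .ofNat 0, .ofNat 1866056384191820875607574296314262639249195008, .ofNat 0, .ofNat 0, .ofNat 0, .ofNat 438635618945127404861122357466140802633695232, .ofNat 0, .ofNat 0, .ofNat 0, .ofNat 213834237049133660909373411384333245112909824, .ofNat 0⟩)
    (by decide +kernel)
theorem L03616 : Good (Phi V5.P V5.D 1 1) ⟨6, 56, 4, 10, 4, 14, 3, 3, 5, 2⟩ :=
  leafX_sound T5.ok_pp T5.Ypp.bz_eq (w := 262) (c := ⟨⟨.negSucc 2817, .negSucc 132, .ofNat 119, .ofNat 1036, .negSucc 1711, .negSucc 598⟩, ⟨.negSucc 1819, .ofNat 34, .negSucc 265, .ofNat 682, .negSucc 1100, .negSucc 387⟩, ⟨.ofNat 1206, .ofNat 120, .negSucc 83, .negSucc 695, .ofNat 1142, .ofNat 481⟩, ⟨.negSucc 5718, .negSucc 292, .negSucc 27, .ofNat 841, .negSucc 3753, .negSucc 678⟩, ⟨.ofNat 2684, .ofNat 193, .ofNat 144, .ofNat 957, .ofNat 2044, .negSucc 260⟩, .ofNat 2345, .negSucc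 3203, .ofNat 0, .negSucc 3203, .ofNat 5137, .ofNat 0, .ofNat 128, .ofNat 776, .negSucc 1449, .ofNat 0, .ofNat 505, .negSucc 880, .ofNat 0, .ofNat 0, .ofNat 1404, .ofNat 4504, .ofNat 0, .ofNat 0, .ofNat 0, .ofNat 0, .ofNat 0, .ofNat 0, .ofNat 2490704090776829459118696023126526640545593294848, .ofNat 0, .ofNat 0, .ofNat 0, .ofNat 5082728840398540042449254209998888284550055591936, .ofNat 0, .ofNat 0, .ofNat 0, .ofNat 13910975308738131136030638328753474144602427490304, .ofNat 0⟩)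
    (by decide +kernel)
theorem L03617 : Good (Phi V5.P V5.D 1 1) ⟨6, 56, 4, 10, 4, 15, 3, 3, 5, 2⟩ :=
  leafX_sound T5.ok_pp T5.Ypp.bz_eq (w := 264) (c := ⟨⟨.negSucc 1389, .negSucc 661, .ofNat 830, .ofNat 2551, .negSucc 1349, .negSucc 1107⟩, ⟨.negSucc 903, .negSucc 321, .ofNat 314, .ofNat 1664, .negSucc 867, .negSucc 717⟩, ⟨.ofNat 420, .ofNat 367, .negSucc 418, .negSucc 1418, .ofNat 819, .ofNat 685⟩, ⟨.negSucc 4327, .negSucc 616, .ofNat 503, .ofNat 3886, .negSucc 3158, .negSucc 1816⟩, ⟨.ofNat 3532, .negSucc 151, .ofNat 414, .negSucc 435, .ofNat 1940, .ofNat 386⟩, .ofNat 5193, .negSucc 7542, .ofNat 0, .negSucc 7542, .ofNat 11765, .ofNat 0, .ofNat 128, .ofNat 1143, .negSucc 1299, .ofNat 0, .ofNat 747, .negSucc 814, .ofNat 0, .ofNat 0, .ofNat 1362, .ofNat 3333, .ofNat 0, .ofNat 0, .ofNat 76703698426975378034353733507490842102827319296, .ofNat 0, .ofNat 0, .ofNat 0, .ofNat 14764353668551836438105752926707640065540795400192,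 .ofNat 0, .ofNat 0, .ofNat 0, .ofNat 4947604557840194278874095851776614002018767339520, .ofNat 0, .ofNat 0, .ofNat 0, .ofNat 18003067328946585434704245259121726914496347242496, .ofNat 0⟩)
    (by decide +kernel)
theorem L03618 : Good (Phi V5.P V5.D 1 1) ⟨6, 56, 4, 10, 3, 6, 2, 1, 5, 3⟩ :=
  leafX_sound T5.ok_pp T5.Ypp.bz_eq (w := 242) (c := ⟨⟨.negSucc 2984, .ofNat 619, .negSucc 762, .ofNat 290, .negSucc 2387, .negSucc 95⟩, ⟨.negSucc 1926, .ofNat 474, .negSucc 745, .ofNat 201, .negSucc 1540, .negSucc 67⟩, ⟨.ofNat 1267, .negSucc 514, .ofNat 703, .negSucc 244, .ofNat 1967, .ofNat 212⟩, ⟨.negSucc 4389, .ofNat 594, .negSucc 780, .negSucc 607, .negSucc 4499, .ofNat 142⟩, ⟨.ofNat 282, .ofNat 361, .negSucc 340, .ofNat 1558, .ofNat 1727, .negSucc 413⟩, .ofNat 2360, .negSucc 3224, .ofNat 0, .negSucc 3224, .ofNat 5165, .ofNat 0, .ofNat 128, .ofNat 815, .negSucc 654, .ofNat 0, .ofNat 537,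 .negSucc 400, .ofNat 0, .ofNat 0, .ofNat 980, .ofNat 2728, .ofNat 0, .ofNat 0, .ofNat 0, .ofNat 0, .ofNat 0, .ofNat 0, .ofNat 10406976497480167730475223228289824027836416, .ofNat 0, .ofNat 0, .ofNat 0, .ofNat 18607219773670473331579631662020806840418304, .ofNat 0, .ofNat 0, .ofNat 0, .ofNat 29144258716858043261252370089680421703909376, .ofNat 0⟩)
    (by decide +kernel)
theorem L03619 : Good (Phi V5.P V5.D 1 1) ⟨6, 56, 4, 10, 3, 7, 2, 1, 5, 3⟩ :=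
  leafX_sound T5.ok_pp T5.Ypp.bz_eq (w := 243) (c := ⟨⟨.negSucc 2625, .ofNat 122, .negSucc 115, .ofNat 2488, .negSucc 2050, .negSucc 447⟩, ⟨.negSucc 1674, .ofNat 97, .negSucc 240, .ofNat 1630, .negSucc 1313, .negSucc 291⟩, ⟨.ofNat 981, .ofNat 178, .negSucc 191, .negSucc 1452, .ofNat 1434, .ofNat 391⟩, ⟨.negSucc 4418, .negSucc 32, .negSucc 244, .ofNat 2641, .negSucc 5031, .negSucc 427⟩, ⟨.ofNat 1127, .ofNat 272, .ofNat 57, .ofNat 1352, .ofNat 3266, .negSucc 313⟩, .ofNat 2338, .negSucc 3194, .ofNat 0, .negSucc 3194, .ofNat 5129, .ofNat 0, .ofNat 128, .ofNat 923, .negSucc 763, .ofNat 0, .ofNat 606, .negSucc 454, .ofNat 0, .ofNat 0, .ofNat 1092, .ofNat 2315, .ofNat 0, .ofNat 0, .ofNat 157436293366990623734396947506169299075072, .ofNat 0, .ofNat 0, .ofNat 0, .ofNat 29296057772746673737366860630954766831190016, .ofNat 0, .ofNat 0, .ofNat 0, .ofNat 19474864778905255768841612659264342189932544,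 .ofNat 0, .ofNat 0, .ofNat 0, .ofNat 13599961851285110748030850030554572417662976, .ofNat 0⟩)
    (by decide +kernel)
theorem L03620 : Good (Phi V5.P V5.D 1 1) ⟨6, 57, 4, 10, 3, 6, 2, 1, 5, 2⟩ :=
  leafX_sound T5.ok_pp T5.Ypp.bz_eq (w := 241) (c := ⟨⟨.negSucc 1359, .negSucc 387, .negSucc 24, .ofNat 67, .negSucc 2730, .negSucc 974⟩, ⟨.negSucc 493, .ofNat 330, .negSucc 792, .ofNat 42, .negSucc 1823, .negSucc 646⟩, ⟨.negSucc 18, .negSucc 11, .ofNat 369, .negSucc 54, .ofNat 2059, .ofNat 728⟩, ⟨.negSucc 1663, .negSucc 279, .negSucc 337, .negSucc 1168, .negSucc 5383, .negSucc 1403⟩, ⟨.negSucc 116, .ofNat 70, .negSucc 7, .ofNat 1868, .ofNat 2306, .ofNat 60⟩, .ofNat 1567, .negSucc 1993, .ofNat 0, .negSucc 1993, .ofNat 3223, .ofNat 0, .ofNat 128, .ofNat 732, .negSucc 868, .ofNat 0, .ofNat 485, .negSucc 528, .ofNat 0, .ofNat 0, .ofNat 996, .ofNat 965, .ofNat 0, .ofNat 0, .ofNat 204776518943148756804529004421963436785664,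 .ofNat 0, .ofNat 0, .ofNat 0, .ofNat 17048160886076811201105915833748719554002944, .ofNat 0, .ofNat 0, .ofNat 0, .ofNat 819652982289503894952290943096298275864576, .ofNat 122965497581942956533315900438541845805466317628637184, .ofNat 0, .ofNat 0, .ofNat 15753075609057320845244290502924605090430976, .ofNat 159206182128953954771425021679804021727196567090233344⟩)
    (by decide +kernel)
theorem L03621 : Good (Phi V5.P V5.D 1 1) ⟨7, 114, 5, 20, 4, 14, 2, 1, 5, 2⟩ :=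
  leafX_sound T5.ok_pp T5.Ypp.bz_eq (w := 277) (c := ⟨⟨.negSucc 1720, .ofNat 1, .ofNat 7, .ofNat 934, .negSucc 2663, .negSucc 641⟩, ⟨.negSucc 1074, .ofNat 1, .negSucc 53, .ofNat 622, .negSucc 1748, .negSucc 424⟩, ⟨.ofNat 531, .negSucc 0, .ofNat 7, .negSucc 615, .ofNat 1753, .ofNat 465⟩, ⟨.negSucc 5185, .ofNat 3, .negSucc 4, .ofNat 955, .negSucc 2927, .negSucc 655⟩, ⟨.ofNat 4182, .negSucc 1, .ofNat 1, .ofNat 537, .negSucc 1202, .negSucc 367⟩, .ofNat 26834, .negSucc 40040, .ofNat 0, .negSucc 40040, .ofNat 60561, .ofNat 0, .ofNat 128, .ofNat 8039, .negSucc 8630, .ofNat 0, .ofNat 5330, .negSucc 5669, .ofNat 0, .ofNat 0, .ofNat 9689, .ofNat 45043, .ofNat 0, .ofNat 0, .ofNat 0, .ofNat 0, .ofNat 0, .ofNat 0, .ofNat 2934704671994067014139021828931131141567586146189312, .ofNat 0, .ofNat 0, .ofNat 0, .ofNat 0, .ofNat 0, .ofNat 0, .ofNat 0, .ofNat 12214182832466553358437285552146701203708275851264,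 .ofNat 0⟩)
    (by decide +kernel)

end Crest.Agent.R097C5.N5pp
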