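import Crest.Agent.R097.KP7
import Crest.Agent.R097.T5Ypp

/-!
# Row 97, box cover in dimension n = 5 (generated)
-/

set_option autoImplicit false
set_option Elab.async false
set_option maxHeartbeats 0
set_option maxRecDepth 100000

open Crest.Agent.R097 Crest.Agent.R097.KA


namespace Crest.Agent.R097C5.N5pp

theorem L03622 : Good (Phi V5.P V5.D 1 1) ⟨7, 114, 5, 20, 4, 15, 2, 1, 5, 2⟩ :=
  leafX_sound T5.ok_pp T5.Ypp.bz_eq (w := 278) (c := ⟨⟨.negSucc 875, .ofNat 1, .ofNat 14, .ofNat 2173, .negSucc 1812, .negSucc 1037⟩, ⟨.negSucc 555, .ofNat 0, .negSucc 7, .ofNat 1437, .negSucc 1184, .negSucc 684⟩, ⟨.ofNat 195, .ofNat 0, .ofNat 6, .negSucc 1171, .ofNat 980, .ofNat 621⟩, ⟨.negSucc 3670, .ofNat 2, .negSucc 1, .ofNat 2328, .negSucc 2120, .negSucc 1030⟩, ⟨.ofNat 3706, .negSucc 1, .ofNat 2, .ofNat 1083, .negSucc 621, .negSucc 633⟩, .ofNat 26859, .negSucc 40078, .ofNat 0, .negSucc 40078, .ofNat 60618,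 .ofNat 0, .ofNat 128, .ofNat 13176, .negSucc 12601, .ofNat 0, .ofNat 8741, .negSucc 8257, .ofNat 0, .ofNat 0, .ofNat 15071, .ofNat 46501, .ofNat 0, .ofNat 0, .ofNat 158314965558007217556724019696182949216916602880, .ofNat 0, .ofNat 0, .ofNat 0, .ofNat 3519312444193469190643739838437430483369699752017920, .ofNat 0, .ofNat 0, .ofNat 0, .ofNat 4878343761680861218254781621160349361279088984064, .ofNat 0, .ofNat 0, .ofNat 0, .ofNat 47563010924713955686156356419450911455770117668864, .ofNat 0⟩)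
    (by decide +kernel)
theorem L03623 : Good (Phi V5.P V5.D 1 1) ⟨7, 114, 6, 42, 4, 14, 2, 1, 5, 2⟩ :=
  leafX_sound T5.ok_pp T5.Ypp.bz_eq (w := 272) (c := ⟨⟨.negSucc 1769, .ofNat 419, .negSucc 213, .ofNat 969, .negSucc 2638, .negSucc 581⟩, ⟨.negSucc 1156, .ofNat 491, .negSucc 295, .ofNat 650, .negSucc 1749, .negSucc 388⟩, ⟨.ofNat 560, .negSucc 366, .ofNat 189, .negSucc 603, .ofNat 1754, .ofNat 409⟩, ⟨.negSucc 3758, .ofNat 133, .negSucc 100, .ofNat 1164, .negSucc 5666, .negSucc 760⟩, ⟨.ofNat 1909, .ofNat 71, .ofNat 11, .ofNat 297, .ofNat 2954, .negSucc 80⟩, .ofNat 7180, .negSucc 10390, .ofNat 0, .negSucc 10390, .ofNat 15820, .ofNat 0, .ofNat 128, .ofNat 1876, .negSucc 2152, .ofNat 0, .ofNat 1247, .negSucc 1402, .ofNat 0, .ofNat 0, .ofNat 2437, .ofNat 4471, .ofNat 0, .ofNat 0, .ofNat 0, .ofNat 0, .ofNat 0, .ofNat 0, .ofNat 17258147228256640385825154698677437642876265693184, .ofNat 2129790974254152564362598059315607468472177626188603614822400,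 .ofNat 0, .ofNat 0, .ofNat 2799290779743052921220100850501247207089272520704, .ofNat 0, .ofNat 0, .ofNat 0, .ofNat 4368617861148367157773746231496074872622338277376, .ofNat 0⟩)
    (by decide +kernel)
theorem L03624 : Good (Phi V5.P V5.D 1 1) ⟨7, 114, 6, 42, 4, 15, 3, 2, 5, 2⟩ :=
  leafX_sound T5.ok_pp T5.Ypp.bz_eq (w := 274) (c := ⟨⟨.negSucc 823, .negSucc 358, .ofNat 253, .ofNat 1922, .negSucc 635, .negSucc 917⟩, ⟨.negSucc 538, .negSucc 273, .ofNat 170, .ofNat 1283, .negSucc 419, .negSucc 610⟩, ⟨.ofNat 113, .negSucc 336, .ofNat 140, .negSucc 892, .ofNat 266, .ofNat 504⟩, ⟨.negSucc 2457, .negSucc 210, .ofNat 165, .ofNat 2859, .negSucc 1905, .negSucc 1427⟩, ⟨.ofNat 1975, .negSucc 49, .ofNat 38, .negSucc 235, .ofNat 1522, .ofNat 208⟩, .ofNat 2694, .negSucc 3673, .ofNat 0, .negSucc 3673, .ofNat 5747, .ofNat 0, .ofNat 128, .ofNat 2207, .negSucc 2717, .ofNat 0, .ofNat 1463, .negSucc 1680, .ofNat 0,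 .ofNat 0, .ofNat 3231, .ofNat 10531, .ofNat 0, .ofNat 0, .ofNat 0, .ofNat 0, .ofNat 0, .ofNat 0, .ofNat 32303568296595538146903531657377184533331513966592, .ofNat 0, .ofNat 0, .ofNat 0, .ofNat 319549286616340277122609750248997555505019907735552, .ofNat 76379786427480972029985465606018375466160688322342756972232704, .ofNat 0, .ofNat 0, .ofNat 101455039133088805318699968035866771698775308107776, .ofNat 0⟩)
    (by decide +kernel)
theorem L03625 : Good (Phi V5.P V5.D 1 1) ⟨7, 114, 6, 42, 4, 15, 3, 3, 5, 2⟩ :=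
  leafX_sound T5.ok_pp T5.Ypp.bz_eq (w := 277) (c := ⟨⟨.negSucc 1759, .ofNat 22, .negSucc 58, .ofNat 2797, .negSucc 1362, .negSucc 1188⟩, ⟨.negSucc 1155, .ofNat 106, .negSucc 122, .ofNat 1866, .negSucc 900, .negSucc 784⟩, ⟨.ofNat 621, .negSucc 22, .ofNat 38, .negSucc 1568, .ofNat 814, .ofNat 757⟩, ⟨.negSucc 4997, .negSucc 110, .negSucc 266, .ofNat 4359, .negSucc 3151, .negSucc 1733⟩, ⟨.ofNat 3812, .ofNat 139, .ofNat 260, .negSucc 650, .ofNat 1868, .ofNat 105⟩, .ofNat 7245, .negSucc 10483, .ofNat 0, .negSucc 10483, .ofNat 15952, .ofNat 0, .ofNat 128, .ofNat 2251, .negSucc 2686, .ofNat 0, .ofNat 1500, .negSucc 1742, .ofNat 0, .ofNat 0, .ofNat 2750, .ofNat 8370, .ofNat 0, .ofNat 0, .ofNat 119892634976370289624509972838520301872698359808, .ofNat 653272814616188602232185861323761073612371086353490973294592, .ofNat 0, .ofNat 0, .ofNat 139485640110224860371586778246120199830725780832256, .ofNat 5859928486293080810270378653025151070994375502998679351984128,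 .ofNat 0, .ofNat 0, .ofNat 0, .ofNat 0, .ofNat 0, .ofNat 0, .ofNat 48585015725638450320363413748251255266152927985664, .ofNat 0⟩)
    (by decide +kernel)
theorem L03626 : Good (Phi V5.P V5.D 1 1) ⟨8, 228, 6, 43, 3, 7, 2, 1, 5, 2⟩ :=
  out_sound (S := T5.ds_pp) T5.ok_pp (w := 81) (j := 3) (by decide +kernel)
theorem L03627 : Good (Phi V5.P V5.D 1 1) ⟨8, 229, 6, 43, 3, 7, 2, 1, 5, 2⟩ :=
  out_sound (S := T5.ds_pp) T5.ok_pp (w := 23) (j := 4) (by decide +kernel)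
theorem L03628 : Good (Phi V5.P V5.D 1 1) ⟨7, 115, 4, 10, 3, 7, 2, 1, 5, 2⟩ :=
  out_sound (S := T5.ds_pp) T5.ok_pp (w := 21) (j := 4) (by decide +kernel)
theorem L03629 : Good (Phi V5.P V5.D 1 1) ⟨7, 114, 4, 10, 3, 6, 3, 2, 5, 3⟩ :=
  leafX_sound T5.ok_pp T5.Ypp.bz_eq (w := 253) (c := ⟨⟨.negSucc 2669, .negSucc 60, .ofNat 90, .ofNat 331, .negSucc 1062, .negSucc 319⟩, ⟨.negSucc 1890, .negSucc 233, .ofNat 318, .ofNat 222, .negSucc 708, .negSucc 210⟩, ⟨.ofNat 1029, .ofNat 67, .negSucc 9, .negSucc 230, .ofNat 881, .ofNat 318⟩, ⟨.negSucc 3967, .negSucc 36, .ofNat 65, .negSucc 471, .negSucc 2046, .negSucc 309⟩, ⟨.ofNat 373, .negSucc 18, .ofNat 8, .ofNat 1401, .ofNat 834, .negSucc 203⟩, .ofNat 2690, .negSucc 3668, .ofNat 0, .negSucc 3668, .ofNat 5740, .ofNat 0, .ofNat 128, .ofNat 2216, .negSucc 1454, .ofNat 0, .ofNat 1479, .negSucc 917, .ofNat 0, .ofNat 0, .ofNat 2292, .ofNat 1342, .ofNat 0, .ofNat 0,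 .ofNat 2496176960943850327117729045949505184202752, .ofNat 0, .ofNat 0, .ofNat 0, .ofNat 272963206637955913013550383397967911293288448, .ofNat 0, .ofNat 0, .ofNat 0, .ofNat 0, .ofNat 0, .ofNat 0, .ofNat 0, .ofNat 0, .ofNat 0⟩)
    (by decide +kernel)
theorem L03630 : Good (Phi V5.P V5.D 1 1) ⟨7, 114, 4, 10, 3, 7, 3, 2, 5, 3⟩ :=
  leafX_sound T5.ok_pp T5.Ypp.bz_eq (w := 253) (c := ⟨⟨.negSucc 2119, .ofNat 471, .negSucc 804, .ofNat 2449, .negSucc 881, .negSucc 533⟩, ⟨.negSucc 1231, .ofNat 411, .negSucc 861, .ofNat 1633, .negSucc 585, .negSucc 356⟩, ⟨.ofNat 1380, .ofNat 278, .negSucc 675, .negSucc 1295, .ofNat 555, .ofNat 387⟩, ⟨.negSucc 4466, .ofNat 166, .negSucc 154, .ofNat 2866, .negSucc 2228, .negSucc 696⟩, ⟨.ofNat 1524, .ofNat 21, .negSucc 18, .ofNat 848, .ofNat 1485, .negSucc 75⟩, .ofNat 2697, .negSucc 3678, .ofNat 0, .negSucc 3678, .ofNat 5754, .ofNat 0, .ofNat 128, .ofNat 1730, .negSucc 1095,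 .ofNat 0, .ofNat 1152, .negSucc 678, .ofNat 0, .ofNat 0, .ofNat 1635, .ofNat 3829, .ofNat 0, .ofNat 0, .ofNat 2597757667405085675914743564625482616930304, .ofNat 0, .ofNat 0, .ofNat 0, .ofNat 253294462760928599300295304970004491776557056, .ofNat 0, .ofNat 0, .ofNat 0, .ofNat 496101915993623260970236095673781963464900608, .ofNat 0, .ofNat 0, .ofNat 0, .ofNat 0, .ofNat 0⟩)
    (by decide +kernel)
theorem L03631 : Good (Phi V5.P V5.D 1 1) ⟨7, 115, 4, 10, 2, 3, 3, 2, 5, 3⟩ :=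
  out_sound (S := T5.ds_pp) T5.ok_pp (w := 21) (j := 4) (by decide +kernel)
theorem L03632 : Good (Phi V5.P V5.D 1 1) ⟨7, 114, 4, 10, 3, 6, 3, 3, 5, 3⟩ :=
  leafX_sound T5.ok_pp T5.Ypp.bz_eq (w := 256) (c := ⟨⟨.negSucc 3335, .ofNat 190, .negSucc 818, .ofNat 137, .negSucc 1401, .negSucc 32⟩, ⟨.negSucc 1985, .ofNat 225, .negSucc 964, .ofNat 97, .negSucc 930, .negSucc 24⟩, ⟨.ofNat 1981, .ofNat 141, .ofNat 46, .negSucc 232, .ofNat 1127, .ofNat 180⟩, ⟨.negSucc 5953, .negSucc 147, .negSucc 217, .negSucc 993, .negSucc 2543, .ofNat 255⟩, ⟨.ofNat 1215, .ofNat 11, .negSucc 57, .ofNat 1792, .ofNat 873, .negSucc 444⟩, .ofNat 7209, .negSucc 10433, .ofNat 0, .negSucc 10433, .ofNat 15880, .ofNat 0, .ofNat 128, .ofNat 1764, .negSucc 2012, .ofNat 0, .ofNat 1178, .negSucc 1314, .ofNat 0, .ofNat 0, .ofNat 2762, .ofNat 1837, .ofNat 0, .ofNat 0, .ofNat 2267152758527097341316141814176664692719616, .ofNat 0, .ofNat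 0, .ofNat 0, .ofNat 1089273206239320177873976009888911522418130944, .ofNat 0, .ofNat 0, .ofNat 0, .ofNat 0, .ofNat 0, .ofNat 0, .ofNat 0, .ofNat 0, .ofNat 0⟩)
    (by decide +kernel)
theorem L03633 : Good (Phi V5.P V5.D 1 1) ⟨7, 114, 5, 20, 3, 7, 3, 3, 5, 3⟩ :=
  leafX_sound T5.ok_pp T5.Ypp.bz_eq (w := 264) (c := ⟨⟨.negSucc 3659, .ofNat 2, .ofNat 36, .ofNat 2726, .negSucc 1384, .negSucc 294⟩, ⟨.negSucc 2246, .ofNat 1, .negSucc 143, .ofNat 1812, .negSucc 904, .negSucc 195⟩, ⟨.ofNat 1829, .negSucc 0, .negSucc 2, .negSucc 1682, .ofNat 957, .ofNat 331⟩, ⟨.negSucc 7292, .ofNat 4, .negSucc 1, .ofNat 2806, .negSucc 2323, .negSucc 293⟩, ⟨.ofNat 3322, .negSucc 1, .ofNat 2, .ofNat 1547, .ofNat 578, .negSucc 184⟩, .ofNat 14067, .negSucc 20812, .ofNat 0, .negSucc 20812, .ofNat 31598, .ofNat 0, .ofNat 128, .ofNat 5802, .negSucc 4948, .ofNat 0, .ofNat 3853, .negSucc 3227, .ofNat 0, .ofNat 0, .ofNat 6631, .ofNat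 23890, .ofNat 0, .ofNat 0, .ofNat 10642550364814784083750523910561953006747648, .ofNat 0, .ofNat 0, .ofNat 0, .ofNat 476094618181874581411556104933015288585092333568, .ofNat 0, .ofNat 0, .ofNat 0, .ofNat 306277699101747957409769885412851130874952941568, .ofNat 0, .ofNat 0, .ofNat 0, .ofNat 1711870137420274985357933470234779386355122176, .ofNat 0⟩)
    (by decide +kernel)
theorem L03634 : Good (Phi V5.P V5.D 1 1) ⟨7, 114, 6, 42, 3, 7, 3, 3, 5, 3⟩ :=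
  leafX_sound T5.ok_pp T5.Ypp.bz_eq (w := 266) (c := ⟨⟨.negSucc 3635, .negSucc 831, .ofNat 475, .ofNat 2848, .negSucc 1340, .negSucc 433⟩, ⟨.negSucc 2397, .negSucc 514, .ofNat 249, .ofNat 1901, .negSucc 884, .negSucc 289⟩, ⟨.ofNat 1820, .negSucc 158, .ofNat 84, .negSucc 1763, .ofNat 944, .ofNat 419⟩, ⟨.negSucc 7483, .negSucc 113, .ofNat 89, .ofNat 2650, .negSucc 1784, .negSucc 323⟩, ⟨.ofNat 3612, .negSucc 90, .ofNat 26, .ofNat 2009, .negSucc 127, .negSucc 423⟩, .ofNat 19121, .negSucc 28272, .ofNat 0, .negSucc 28272, .ofNat 42603, .ofNat 0, .ofNat 128, .ofNat 3262, .negSucc 2346, .ofNat 0, .ofNat 2178, .negSucc 1548, .ofNat 0, .ofNat 0, .ofNat 3100, .ofNat 9304, .ofNat 0, .ofNat 0, .ofNat 36685671474359644574743154309065201527291904, .ofNat 0, .ofNat 0, .ofNat 0, .ofNat 28390546230650517686560704760452594882106621952, .ofNat 0, .ofNat 0, .ofNat 0, .ofNat 49809386635961676327635078717411547771983364096,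 .ofNat 2487647938605011903511846104818489920398020042369768882176, .ofNat 0, .ofNat 0, .ofNat 26957827421390859636554815571540035831970398208, .ofNat 0⟩)
    (by decide +kernel)
theorem L03635 : Good (Phi V5.P V5.D 1 1) ⟨8, 228, 6, 43, 3, 7, 3, 3, 5, 3⟩ :=
  out_sound (S := T5.ds_pp) T5.ok_pp (w := 81) (j := 3) (by decide +kernel)
theorem L03636 : Good (Phi V5.P V5.D 1 1) ⟨8, 229, 6, 43, 3, 7, 3, 3, 5, 3⟩ :=
  out_sound (S := T5.ds_pp) T5.ok_pp (w := 23) (j := 4) (by decide +kernel)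
theorem L03637 : Good (Phi V5.P V5.D 1 1) ⟨7, 115, 4, 10, 2, 3, 3, 3, 5, 3⟩ :=
  out_sound (S := T5.ds_pp) T5.ok_pp (w := 21) (j := 4) (by decide +kernel)
theorem L03638 : Good (Phi V5.P V5.D 1 1) ⟨6, 56, 4, 11, 2, 3, 2, 1, 4, 1⟩ :=
  out_sound (S := T5.ds_pp) T5.ok_pp (w := 65) (j := 3) (by decide +kernel)
theorem L03639 : Good (Phi V5.P V5.D 1 1) ⟨7, 114, 5, 22, 2, 3, 2, 1, 4, 1⟩ :=
  out_sound (S := T5.ds_pp) T5.ok_pp (w := 73) (j := 3) (by decide +kernel)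
theorem L03640 : Good (Phi V5.P V5.D 1 1) ⟨7, 115, 5, 22, 2, 3, 2, 1, 4, 1⟩ :=
  out_sound (S := T5.ds_pp) T5.ok_pp (w := 21) (j := 4) (by decide +kernel)
theorem L03641 : Good (Phi V5.P V5.D 1 1) ⟨6, 57, 5, 23, 2, 3, 2, 1, 4, 1⟩ :=
  out_sound (S := T5.ds_pp) T5.ok_pp (w := 67) (j := 3) (by decide +kernel)
theorem L03642 : Good (Phi V5.P V5.D 1 1) ⟨5, 29, 3, 5, 2, 3, 2, 1, 4, 1⟩ :=
  out_sound (S := T5.ds_pp) T5.ok_pp (w := 17) (j := 4) (by decide +kernel)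
theorem L03643 : Good (Phi V5.P V5.D 1 1) ⟨4, 15, 3, 5, 2, 3, 2, 1, 4, 1⟩ :=
  out_sound (S := T5.ds_pp) T5.ok_pp (w := 51) (j := 3) (by decide +kernel)
theorem L03644 : Good (Phi V5.P V5.D 1 1) ⟨2, 2, 3, 5, 2, 3, 2, 1, 3, 1⟩ :=
  out_sound (S := T5.ds_pp) T5.ok_pp (w := 39) (j := 3) (by decide +kernel)
theorem L03645 : Good (Phi V5.P V5.D 1 1) ⟨3, 6, 3, 5, 2, 3, 2, 1, 3, 1⟩ :=
  out_sound (S := T5.ds_pp) T5.ok_pp (w := 45) (j := 3) (by decide +kernel)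
theorem L03646 : Good (Phi V5.P V5.D 1 1) ⟨5, 28, 4, 10, 3, 6, 3, 2, 4, 2⟩ :=
  leafX_sound T5.ok_pp T5.Ypp.bz_eq (w := 238) (c := ⟨⟨.negSucc 3026, .negSucc 619, .ofNat 261, .ofNat 334, .negSucc 728, .ofNat 179⟩, ⟨.negSucc 1925, .negSucc 412, .ofNat 26, .ofNat 224, .negSucc 475, .ofNat 113⟩, ⟨.ofNat 1427, .ofNat 115, .ofNat 42, .negSucc 253, .ofNat 724, .ofNat 62⟩, ⟨.negSucc 4800, .negSucc 343, .ofNat 83, .negSucc 164, .negSucc 1329, .ofNat 722⟩, ⟨.ofNat 629, .negSucc 109, .ofNat 129, .ofNat 970, .ofNat 458, .negSucc 716⟩, .ofNat 2447, .negSucc 3341, .ofNat 0, .negSucc 3341, .ofNat 5316, .ofNat 0, .ofNat 128, .ofNat 1089, .negSucc 377, .ofNat 0, .ofNat 729, .negSucc 230, .ofNat 0, .ofNat 0, .ofNat 893, .ofNat 6858, .ofNat 0, .ofNat 0, .ofNat 0, .ofNat 0, .ofNat 0, .ofNat 0, .ofNat 24611499068612822379576288013368925316186112, .ofNat 0, .ofNat 0, .ofNat 0, .ofNat 55516520011560458408150756421037617882071040,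 .ofNat 0, .ofNat 0, .ofNat 0, .ofNat 10331433625750069591649412891908415674122240, .ofNat 0⟩)
    (by decide +kernel)
theorem L03647 : Good (Phi V5.P V5.D 1 1) ⟨5, 28, 4, 10, 3, 6, 3, 2, 4, 3⟩ :=
  leafX_sound T5.ok_pp T5.Ypp.bz_eq (w := 237) (c := ⟨⟨.negSucc 3068, .negSucc 235, .ofNat 82, .ofNat 379, .negSucc 468, .ofNat 356⟩, ⟨.negSucc 1978, .negSucc 82, .negSucc 114, .ofNat 253, .negSucc 307, .ofNat 229⟩, ⟨.ofNat 1617, .negSucc 132, .ofNat 155, .negSucc 291, .ofNat 591, .negSucc 190⟩, ⟨.negSucc 4550, .negSucc 163, .ofNat 83, .ofNat 123, .negSucc 736, .ofNat 847⟩, ⟨.ofNat 263, .negSucc 84, .ofNat 67, .ofNat 627, .ofNat 113, .negSucc 527⟩, .ofNat 2460, .negSucc 3358, .ofNat 0, .negSucc 3358, .ofNat 5338, .ofNat 0, .ofNat 128, .ofNat 838, .negSucc 192, .ofNat 0, .ofNat 573, .negSucc 115, .ofNat 0, .ofNat 0, .ofNat 823, .ofNat 7615, .ofNat 0, .ofNat 0, .ofNat 142635266393986050378402626341236180516864,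 .ofNat 0, .ofNat 0, .ofNat 0, .ofNat 111036821818908051404350830504184070356860928, .ofNat 0, .ofNat 0, .ofNat 0, .ofNat 0, .ofNat 0, .ofNat 0, .ofNat 0, .ofNat 15892946627501423932960231491569737478963200, .ofNat 0⟩)
    (by decide +kernel)
theorem L03648 : Good (Phi V5.P V5.D 1 1) ⟨6, 56, 4, 10, 3, 7, 3, 2, 4, 2⟩ :=
  leafX_sound T5.ok_pp T5.Ypp.bz_eq (w := 244) (c := ⟨⟨.negSucc 2222, .negSucc 534, .ofNat 569, .ofNat 1314, .negSucc 734, .negSucc 237⟩, ⟨.negSucc 1416, .negSucc 332, .ofNat 228, .ofNat 872, .negSucc 473, .negSucc 157⟩, ⟨.ofNat 837, .ofNat 314, .negSucc 271, .negSucc 601, .ofNat 575, .ofNat 341⟩, ⟨.negSucc 4207, .negSucc 318, .ofNat 313, .ofNat 934, .negSucc 1658, .ofNat 50⟩, ⟨.ofNat 1458, .negSucc 252, .ofNat 243, .ofNat 1430, .ofNat 954, .negSucc 594⟩, .ofNat 3657, .negSucc 5195, .ofNat 0, .negSucc 5195, .ofNat 8171, .ofNat 0, .ofNat 128, .ofNat 1339, .negSucc 568, .ofNat 0, .ofNat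 892, .negSucc 346, .ofNat 0, .ofNat 0, .ofNat 1483, .ofNat 5272, .ofNat 0, .ofNat 0, .ofNat 302174608619964306887941431737115656323072, .ofNat 0, .ofNat 0, .ofNat 0, .ofNat 26348264663485538628964012747757354158653440, .ofNat 0, .ofNat 0, .ofNat 0, .ofNat 69650684014523924946931227288452799093800960, .ofNat 0, .ofNat 0, .ofNat 0, .ofNat 10908543219701175543237210853280221742759936, .ofNat 0⟩)
    (by decide +kernel)
theorem L03649 : Good (Phi V5.P V5.D 1 1) ⟨6, 57, 4, 10, 4, 14, 3, 2, 4, 2⟩ :=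
  leafX_sound T5.ok_pp T5.Ypp.bz_eq (w := 255) (c := ⟨⟨.negSucc 2771, .negSucc 233, .ofNat 166, .ofNat 557, .negSucc 729, .ofNat 33⟩, ⟨.negSucc 1723, .negSucc 96, .negSucc 96, .ofNat 376, .negSucc 486, .ofNat 22⟩, ⟨.ofNat 1163, .ofNat 70, .ofNat 48, .negSucc 351, .ofNat 640, .ofNat 136⟩, ⟨.negSucc 4741, .negSucc 126, .negSucc 72, .ofNat 330, .negSucc 1551, .ofNat 629⟩, ⟨.ofNat 1483, .ofNat 64, .ofNat 65, .ofNat 681, .ofNat 785, .negSucc 874⟩, .ofNat 2055, .negSucc 2675, .ofNat 0, .negSucc 2675, .ofNat 4181, .ofNat 0, .ofNat 128, .ofNat 967, .negSucc 419, .ofNat 0, .ofNat 668, .negSucc 251, .ofNat 0, .ofNat 0, .ofNat 946, .ofNat 8923, .ofNat 0, .ofNat 0, .ofNat 0, .ofNat 0, .ofNat 0, .ofNat 0, .ofNat 183695244773278531665995434732535624872325283840, .ofNat 49818652646484347512995093949353735161109989642525999104, .ofNat 0, .ofNat 0, .ofNat 114042793207310214440219920245055897675489083392, .ofNat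 0, .ofNat 0, .ofNat 0, .ofNat 46751993274775082889606459641208667998653513728, .ofNat 0⟩)
    (by decide +kernel)
theorem L03650 : Good (Phi V5.P V5.D 1 1) ⟨6, 57, 4, 10, 4, 15, 3, 2, 4, 2⟩ :=
  leafX_sound T5.ok_pp T5.Ypp.bz_eq (w := 254) (c := ⟨⟨.negSucc 1758, .ofNat 280, .negSucc 349, .ofNat 938, .negSucc 629, .negSucc 333⟩, ⟨.negSucc 1095, .ofNat 184, .negSucc 350, .ofNat 630, .negSucc 418, .negSucc 224⟩, ⟨.ofNat 752, .ofNat 120, .negSucc 61, .negSucc 396, .ofNat 514, .ofNat 398⟩, ⟨.negSucc 3859, .negSucc 23, .negSucc 182, .ofNat 622, .negSucc 1667, .negSucc 56⟩, ⟨.ofNat 1824, .ofNat 64, .ofNat 75, .ofNat 1050, .ofNat 1170, .negSucc 619⟩, .ofNat 1567, .negSucc 1994, .ofNat 0, .negSucc 1994, .ofNat 3224, .ofNat 0, .ofNat 128, .ofNat 879, .negSucc 390, .ofNat 0, .ofNat 607, .negSucc 216, .ofNat 0, .ofNat 0, .ofNat 931, .ofNat 3712, .ofNat 0, .ofNat 0, .ofNat 2093388504091073479275378871245777693042540544,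 .ofNat 31752713112942280890684390837831159643477499378491457536, .ofNat 0, .ofNat 0, .ofNat 141956244168136498267628040569728098595961307136, .ofNat 196892911188936992442149328506673990960521823195733426176, .ofNat 0, .ofNat 0, .ofNat 71257749917868479033162930741652660112964190208, .ofNat 0, .ofNat 0, .ofNat 0, .ofNat 1711787209769938869372719749360979206538788864, .ofNat 1303355046114321603614833875997266870602044090305562542080⟩)
    (by decide +kernel)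
theorem L03651 : Good (Phi V5.P V5.D 1 1) ⟨6, 56, 4, 10, 3, 7, 3, 2, 5, 6⟩ :=
  leafX_sound T5.ok_pp T5.Ypp.bz_eq (w := 249) (c := ⟨⟨.negSucc 2319, .negSucc 624, .ofNat 542, .ofNat 1024, .negSucc 525, .ofNat 0⟩, ⟨.negSucc 1491, .negSucc 373, .ofNat 189, .ofNat 680, .negSucc 335, .negSucc 0⟩, ⟨.ofNat 1151, .ofNat 127, .negSucc 26, .negSucc 388, .ofNat 526, .ofNat 62⟩, ⟨.negSucc 4093, .negSucc 321, .ofNat 409, .ofNat 273, .negSucc 1060, .ofNat 278⟩, ⟨.ofNat 1065, .negSucc 456, .ofNat 79, .ofNat 1823, .ofNat 499, .negSucc 425⟩, .ofNat 5191, .negSucc 7541, .ofNat 0, .negSucc 7541, .ofNat 11769, .ofNat 0, .ofNat 128, .ofNat 1197, .negSucc 343, .ofNat 0, .ofNat 801, .negSucc 209, .ofNat 0, .ofNat 0, .ofNat 1487, .ofNat 8970, .ofNat 0, .ofNat 0, .ofNat 9052321146485678815897755156375253934931968, .ofNat 0, .ofNat 0, .ofNat 0, .ofNat 2446245847830654998285156888641143885457784832, .ofNat 0, .ofNat 0,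 .ofNat 0, .ofNat 4791275921002371715294375320949106082282733568, .ofNat 0, .ofNat 0, .ofNat 0, .ofNat 416375255465296702795589894650208231551401984, .ofNat 0⟩)
    (by decide +kernel)
theorem L03652 : Good (Phi V5.P V5.D 1 1) ⟨7, 114, 4, 10, 4, 14, 3, 2, 5, 6⟩ :=
  leafX_sound T5.ok_pp T5.Ypp.bz_eq (w := 266) (c := ⟨⟨.negSucc 2670, .negSucc 14, .ofNat 21, .ofNat 416, .negSucc 555, .ofNat 110⟩, ⟨.negSucc 1753, .negSucc 62, .negSucc 2, .ofNat 280, .negSucc 369, .ofNat 72⟩, ⟨.ofNat 1302, .ofNat 29, .negSucc 20, .negSucc 236, .ofNat 569, .negSucc 18⟩, ⟨.negSucc 4307, .ofNat 24, .negSucc 1, .ofNat 141, .negSucc 1070, .ofNat 431⟩, ⟨.ofNat 872, .negSucc 18, .negSucc 22, .ofNat 666, .ofNat 437, .negSucc 414⟩, .ofNat 2699, .negSucc 3680, .ofNat 0, .negSucc 3680, .ofNat 5757, .ofNat 0, .ofNat 128, .ofNat 1445, .negSucc 345, .ofNat 0, .ofNat 994, .negSucc 207, .ofNat 0, .ofNat 0, .ofNat 1390, .ofNat 6630,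 .ofNat 0, .ofNat 0, .ofNat 10629019466631265264594923561434669877869674496, .ofNat 0, .ofNat 0, .ofNat 0, .ofNat 6450691068024425057422018214290579640223260475392, .ofNat 121926008574364890637212072202592181041632209201364146847744, .ofNat 0, .ofNat 0, .ofNat 0, .ofNat 0, .ofNat 0, .ofNat 0, .ofNat 0, .ofNat 0⟩)
    (by decide +kernel)
theorem L03653 : Good (Phi V5.P V5.D 1 1) ⟨7, 114, 4, 10, 4, 15, 3, 2, 5, 6⟩ :=
  leafX_sound T5.ok_pp T5.Ypp.bz_eq (w := 263) (c := ⟨⟨.negSucc 2190, .ofNat 4, .ofNat 19, .ofNat 625, .negSucc 527, .negSucc 15⟩, ⟨.negSucc 1392, .negSucc 7, .negSucc 87, .ofNat 419, .negSucc 349, .negSucc 10⟩, ⟨.ofNat 1056, .ofNat 36, .negSucc 86, .negSucc 145, .ofNat 497, .ofNat 101⟩, ⟨.negSucc 3876, .negSucc 41, .negSucc 30, .negSucc 41, .negSucc 1300, .ofNat 251⟩, ⟨.ofNat 1233, .ofNat 72, .ofNat 39, .ofNat 1381, .ofNat 841, .negSucc 409⟩, .ofNat 1562, .negSucc 1986, .ofNat 0, .negSucc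 1986, .ofNat 3216, .ofNat 0, .ofNat 128, .ofNat 442, .negSucc 138, .ofNat 0, .ofNat 317, .negSucc 70, .ofNat 0, .ofNat 0, .ofNat 605, .ofNat 7129, .ofNat 0, .ofNat 0, .ofNat 36011012789557232588012595509082871854952087552, .ofNat 6983599717402964052124575475487962912478951218249331638272, .ofNat 0, .ofNat 0, .ofNat 2251088695148413845332234830902636981373246636032, .ofNat 34079786960972722097861465043452681476902763637869207617536, .ofNat 0, .ofNat 0, .ofNat 696851744444757446632434731922134797167355756544, .ofNat 0, .ofNat 0, .ofNat 0, .ofNat 0, .ofNat 0⟩)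
    (by decide +kernel)
theorem L03654 : Good (Phi V5.P V5.D 1 1) ⟨7, 115, 4, 10, 3, 7, 3, 2, 5, 6⟩ :=
  out_sound (S := T5.ds_pp) T5.ok_pp (w := 21) (j := 4) (by decide +kernel)
theorem L03655 : Good (Phi V5.P V5.D 1 1) ⟨6, 56, 4, 10, 3, 7, 3, 2, 5, 7⟩ :=
  leafX_sound T5.ok_pp T5.Ypp.bz_eq (w := 250) (c := ⟨⟨.negSucc 2540, .ofNat 29, .negSucc 39, .ofNat 804, .negSucc 426, .ofNat 44⟩, ⟨.negSucc 1634, .ofNat 42, .negSucc 167, .ofNat 538, .negSucc 271, .ofNat 26⟩, ⟨.ofNat 1104, .ofNat 145, .negSucc 174, .negSucc 148, .ofNat 490, .ofNat 31⟩, ⟨.negSucc 3807, .ofNat 5, .negSucc 98, .negSucc 113, .negSucc 817, .ofNat 259⟩, ⟨.ofNat 302, .ofNat 114, .ofNat 4, .ofNat 1922, .ofNat 330, .negSucc 296⟩, .ofNat 5322, .negSucc 7726, .ofNat 0, .negSucc 7726, .ofNat 12026, .ofNat 0, .ofNat 128, .ofNat 1476, .negSucc 264, .ofNat 0, .ofNat 997, .negSucc 157, .ofNat 0, .ofNat 0, .ofNat 2030, .ofNat 9445, .ofNat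 0, .ofNat 0, .ofNat 11071217343839761290657866095505811712245760, .ofNat 0, .ofNat 0, .ofNat 0, .ofNat 3139559967646595673735457541712162610263097344, .ofNat 0, .ofNat 0, .ofNat 0, .ofNat 0, .ofNat 0, .ofNat 0, .ofNat 0, .ofNat 768580528648698378276269632289325958672941056, .ofNat 0⟩)
    (by decide +kernel)
theorem L03656 : Good (Phi V5.P V5.D 1 1) ⟨7, 114, 5, 20, 3, 7, 3, 2, 5, 7⟩ :=
  leafX_sound T5.ok_pp T5.Ypp.bz_eq (w := 265) (c := ⟨⟨.negSucc 2558, .ofNat 1, .ofNat 8, .ofNat 817, .negSucc 433, .ofNat 61⟩, ⟨.negSucc 1701, .ofNat 1, .ofNat 16, .ofNat 548, .negSucc 284, .ofNat 39⟩, ⟨.ofNat 1196, .negSucc 0, .negSucc 3, .negSucc 171, .ofNat 498, .ofNat 4⟩, ⟨.negSucc 4339, .ofNat 2, .negSucc 2, .ofNat 714, .negSucc 476, .ofNat 97⟩, ⟨.ofNat 1141, .negSucc 0, .ofNat 0, .ofNat 655, .negSucc 193, .negSucc 18⟩, .ofNat 26832, .negSucc 40038, .ofNat 0, .negSucc 40038, .ofNat 60558, .ofNat 0, .ofNat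 128, .ofNat 5619, .negSucc 851, .ofNat 0, .ofNat 3762, .negSucc 548, .ofNat 0, .ofNat 0, .ofNat 6793, .ofNat 90011, .ofNat 0, .ofNat 0, .ofNat 17651910517921685303276434633855867497218048, .ofNat 0, .ofNat 0, .ofNat 0, .ofNat 10420616727937703009195047833722065484374129770496, .ofNat 0, .ofNat 0, .ofNat 0, .ofNat 105609106460283774252056813940666421652345585664, .ofNat 0, .ofNat 0, .ofNat 0, .ofNat 463701534660410337678622166785957387103297863680, .ofNat 0⟩)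
    (by decide +kernel)
theorem L03657 : Good (Phi V5.P V5.D 1 1) ⟨7, 114, 6, 42, 3, 7, 3, 2, 5, 7⟩ :=
  leafX_sound T5.ok_pp T5.Ypp.bz_eq (w := 262) (c := ⟨⟨.negSucc 2553, .negSucc 448, .ofNat 220, .ofNat 828, .negSucc 426, .ofNat 45⟩, ⟨.negSucc 1687, .negSucc 297, .ofNat 117, .ofNat 556, .negSucc 281, .ofNat 28⟩, ⟨.ofNat 1180, .ofNat 66, .negSucc 22, .negSucc 165, .ofNat 502, .ofNat 29⟩, ⟨.negSucc 3862, .negSucc 94, .ofNat 49, .negSucc 50, .negSucc 852, .ofNat 265⟩, ⟨.ofNat 429, .negSucc 75, .ofNat 2, .ofNat 1820, .ofNat 383, .negSucc 304⟩, .ofNat 7219, .negSucc 10446, .ofNat 0, .negSucc 10446, .ofNat 15900, .ofNat 0, .ofNat 128, .ofNat 1946, .negSucc 301, .ofNat 0, .ofNat 1322, .negSucc 188, .ofNat 0, .ofNat 0, .ofNat 2310, .ofNat 22034, .ofNat 0, .ofNat 0, .ofNat 76154964776124700645118272934190852622778368, .ofNat 87742038493824316401704737611656447165050778165067120640, .ofNat 0, .ofNat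 0, .ofNat 9341714366835013635445796170735499521661337600, .ofNat 0, .ofNat 0, .ofNat 0, .ofNat 108398373544299731470758285414398051448902385664, .ofNat 29850823504906049011750859792335426251061917642965617999872, .ofNat 0, .ofNat 0, .ofNat 19674894123262655700415413595754241000728428544, .ofNat 0⟩)
    (by decide +kernel)
theorem L03658 : Good (Phi V5.P V5.D 1 1) ⟨8, 228, 6, 43, 3, 7, 3, 2, 5, 7⟩ :=
  out_sound (S := T5.ds_pp) T5.ok_pp (w := 81) (j := 3) (by decide +kernel)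
theorem L03659 : Good (Phi V5.P V5.D 1 1) ⟨8, 229, 6, 43, 3, 7, 3, 2, 5, 7⟩ :=
  out_sound (S := T5.ds_pp) T5.ok_pp (w := 23) (j := 4) (by decide +kernel)
theorem L03660 : Good (Phi V5.P V5.D 1 1) ⟨7, 115, 4, 10, 3, 7, 3, 2, 5, 7⟩ :=
  out_sound (S := T5.ds_pp) T5.ok_pp (w := 21) (j := 4) (by decide +kernel)
theorem L03661 : Good (Phi V5.P V5.D 1 1) ⟨6, 56, 4, 11, 2, 3, 3, 2, 3, 1⟩ :=
  out_sound (S := T5.ds_pp) T5.ok_pp (w := 65) (j := 3) (by decide +kernel)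
theorem L03662 : Good (Phi V5.P V5.D 1 1) ⟨7, 114, 5, 22, 2, 3, 3, 2, 3, 1⟩ :=
  out_sound (S := T5.ds_pp) T5.ok_pp (w := 73) (j := 3) (by decide +kernel)
theorem L03663 : Good (Phi V5.P V5.D 1 1) ⟨7, 115, 5, 22, 2, 3, 3, 2, 3, 1⟩ :=
  out_sound (S := T5.ds_pp) T5.ok_pp (w := 21) (j := 4) (by decide +kernel)
theorem L03664 : Good (Phi V5.P V5.D 1 1) ⟨6, 57, 5, 23, 2, 3, 3, 2, 3, 1⟩ :=
  out_sound (S := T5.ds_pp) T5.ok_pp (w := 67) (j := 3) (by decide +kernel)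
theorem L03665 : Good (Phi V5.P V5.D 1 1) ⟨5, 28, 4, 10, 3, 6, 3, 3, 4, 2⟩ :=
  leafX_sound T5.ok_pp T5.Ypp.bz_eq (w := 236) (c := ⟨⟨.negSucc 4135, .negSucc 651, .ofNat 240, .ofNat 373, .negSucc 781, .ofNat 675⟩, ⟨.negSucc 2616, .negSucc 502, .ofNat 14, .ofNat 247, .negSucc 515, .ofNat 436⟩, ⟨.ofNat 2427, .ofNat 254, .negSucc 13, .negSucc 376, .ofNat 749, .negSucc 249⟩, ⟨.negSucc 6664, .negSucc 470, .negSucc 21, .negSucc 335, .negSucc 1413, .ofNat 1728⟩, ⟨.ofNat 1131, .negSucc 129, .ofNat 341, .ofNat 1301, .ofNat 448, .negSucc 1187⟩, .ofNat 921, .negSucc 1044, .ofNat 0, .negSucc 1044, .ofNat 1801, .ofNat 0, .ofNat 128, .ofNat 425, .negSucc 394, .ofNat 0, .ofNat 295, .negSucc 211, .ofNat 0, .ofNat 0, .ofNat 684, .ofNat 1131, .ofNat 0, .ofNat 0, .ofNat 144307961216535679323907861595896617631744, .ofNat 0, .ofNat 0, .ofNat 0, .ofNat 4813532127573431432855247113751338804051968, .ofNat 0, .ofNat 0,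 .ofNat 0, .ofNat 3548954340161703404425995809722970425786368, .ofNat 0, .ofNat 0, .ofNat 0, .ofNat 0, .ofNat 0⟩)
    (by decide +kernel)
theorem L03666 : Good (Phi V5.P V5.D 1 1) ⟨5, 28, 4, 10, 3, 6, 3, 3, 4, 3⟩ :=
  leafX_sound T5.ok_pp T5.Ypp.bz_eq (w := 241) (c := ⟨⟨.negSucc 3718, .ofNat 9, .negSucc 73, .ofNat 355, .negSucc 503, .ofNat 583⟩, ⟨.negSucc 2372, .negSucc 22, .negSucc 181, .ofNat 237, .negSucc 329, .ofNat 374⟩, ⟨.ofNat 2336, .negSucc 110, .ofNat 167, .negSucc 355, .ofNat 559, .negSucc 350⟩, ⟨.negSucc 5578, .ofNat 42, .negSucc 25, .ofNat 65, .negSucc 670, .ofNat 1199⟩, ⟨.ofNat 443, .ofNat 41, .negSucc 34, .ofNat 665, .negSucc 56, .negSucc 578⟩, .ofNat 5635, .negSucc 8176, .ofNat 0, .negSucc 8176, .ofNat 12665, .ofNat 0, .ofNat 128, .ofNat 1427, .negSucc 266, .ofNat 0, .ofNat 956, .negSucc 167, .ofNat 0, .ofNat 0, .ofNat 1095, .ofNat 4900, .ofNat 0, .ofNat 0, .ofNat 226592874479145724325039037770910423580672,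 .ofNat 0, .ofNat 0, .ofNat 0, .ofNat 198115469517777842472601226728613836048302080, .ofNat 0, .ofNat 0, .ofNat 0, .ofNat 0, .ofNat 0, .ofNat 0, .ofNat 0, .ofNat 0, .ofNat 0⟩)
    (by decide +kernel)
theorem L03667 : Good (Phi V5.P V5.D 1 1) ⟨6, 56, 4, 11, 3, 6, 3, 3, 3, 1⟩ :=
  out_sound (S := T5.ds_pp) T5.ok_pp (w := 65) (j := 3) (by decide +kernel)
theorem L03668 : Good (Phi V5.P V5.D 1 1) ⟨7, 114, 5, 22, 3, 6, 3, 3, 3, 1⟩ :=
  out_sound (S := T5.ds_pp) T5.ok_pp (w := 73) (j := 3) (by decide +kernel)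
theorem L03669 : Good (Phi V5.P V5.D 1 1) ⟨7, 115, 5, 22, 3, 6, 3, 3, 3, 1⟩ :=
  out_sound (S := T5.ds_pp) T5.ok_pp (w := 21) (j := 4) (by decide +kernel)
theorem L03670 : Good (Phi V5.P V5.D 1 1) ⟨6, 57, 5, 23, 3, 6, 3, 3, 3, 1⟩ :=
  out_sound (S := T5.ds_pp) T5.ok_pp (w := 67) (j := 3) (by decide +kernel)
theorem L03671 : Good (Phi V5.P V5.D 1 1) ⟨5, 28, 4, 10, 4, 14, 3, 3, 4, 2⟩ :=
  leafX_sound T5.ok_pp T5.Ypp.bz_eq (w := 252) (c := ⟨⟨.negSucc 3602, .negSucc 524, .ofNat 235, .ofNat 603, .negSucc 888, .ofNat 482⟩, ⟨.negSucc 2299, .negSucc 253, .negSucc 81, .ofNat 402, .negSucc 580, .ofNat 307⟩, ⟨.ofNat 1909, .ofNat 420, .negSucc 163, .negSucc 430, .ofNat 742, .negSucc 97⟩, ⟨.negSucc 6770, .negSucc 348, .negSucc 29, .ofNat 252, .negSucc 1855, .ofNat 1637⟩, ⟨.ofNat 2453, .negSucc 31, .ofNat 235, .ofNat 918, .ofNat 912, .negSucc 1461⟩, .ofNat 2440, .negSucc 3332, .ofNat 0, .negSucc 3332, .ofNat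 5306, .ofNat 0, .ofNat 128, .ofNat 867, .negSucc 446, .ofNat 0, .ofNat 581, .negSucc 268, .ofNat 0, .ofNat 0, .ofNat 894, .ofNat 3151, .ofNat 0, .ofNat 0, .ofNat 2066852207678038325478760792066281372274130944, .ofNat 0, .ofNat 0, .ofNat 0, .ofNat 425684006732302974422588862431046427178390519808, .ofNat 0, .ofNat 0, .ofNat 0, .ofNat 0, .ofNat 0, .ofNat 0, .ofNat 0, .ofNat 118167423445097718974356741648746184918328934400, .ofNat 0⟩)
    (by decide +kernel)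
theorem L03672 : Good (Phi V5.P V5.D 1 1) ⟨5, 28, 4, 10, 4, 15, 3, 3, 5, 4⟩ :=
  leafX_sound T5.ok_pp T5.Ypp.bz_eq (w := 257) (c := ⟨⟨.negSucc 2767, .negSucc 198, .ofNat 68, .ofNat 1291, .negSucc 985, .negSucc 157⟩, ⟨.negSucc 1763, .negSucc 6, .negSucc 200, .ofNat 855, .negSucc 638, .negSucc 103⟩, ⟨.ofNat 1286, .ofNat 443, .negSucc 195, .negSucc 689, .ofNat 734, .ofNat 234⟩, ⟨.negSucc 5840, .negSucc 281, .negSucc 259, .ofNat 897, .negSucc 2433, .ofNat 208⟩, ⟨.ofNat 2986, .ofNat 100, .ofNat 343, .ofNat 1414, .ofNat 1592, .negSucc 660⟩, .ofNat 2570, .negSucc 3503, .ofNat 0, .negSucc 3503, .ofNat 5521, .ofNat 0, .ofNat 128, .ofNat 787, .negSucc 545, .ofNat 0, .ofNat 530, .negSucc 326, .ofNat 0, .ofNat 0, .ofNat 934, .ofNat 2659, .ofNat 0, .ofNat 0, .ofNat 96863904404079831549549575760960487472620371968, .ofNat 167768113480395603134621025456535711566876755123102547968, .ofNat 0, .ofNat 0, .ofNat 20141023224219060010808611736403489747481871253504,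 .ofNat 0, .ofNat 0, .ofNat 0, .ofNat 0, .ofNat 0, .ofNat 0, .ofNat 0, .ofNat 0, .ofNat 0⟩)
    (by decide +kernel)
theorem L03673 : Good (Phi V5.P V5.D 1 1) ⟨5, 28, 4, 10, 4, 15, 3, 3, 5, 5⟩ :=
  leafX_sound T5.ok_pp T5.Ypp.bz_eq (w := 255) (c := ⟨⟨.negSucc 2837, .negSucc 103, .ofNat 12, .ofNat 881, .negSucc 779, .ofNat 41⟩, ⟨.negSucc 1841, .ofNat 186, .negSucc 302, .ofNat 590, .negSucc 505, .ofNat 22⟩, ⟨.ofNat 1472, .ofNat 229, .negSucc 73, .negSucc 404, .ofNat 627, .ofNat 94⟩, ⟨.negSucc 5623, .negSucc 139, .negSucc 181, .ofNat 50, .negSucc 1869, .ofNat 551⟩, ⟨.ofNat 2474, .ofNat 134, .ofNat 121, .ofNat 1826, .ofNat 1172, .negSucc 754⟩, .ofNat 1481, .negSucc 1883, .ofNat 0, .negSucc 1883, .ofNat 3098, .ofNat 0, .ofNat 128, .ofNat 383, .negSucc 197, .ofNat 0, .ofNat 267, .negSucc 102, .ofNat 0, .ofNat 0, .ofNat 498, .ofNat 3239, .ofNat 0, .ofNat 0, .ofNat 116715269055042878144695634110830458274758787072,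 .ofNat 184018936660289886680062269717357727905072584197731778560, .ofNat 0, .ofNat 0, .ofNat 5532485572224958993586101975324351027657457008640, .ofNat 0, .ofNat 0, .ofNat 0, .ofNat 4394686951742944420063415113972472374672658268160, .ofNat 3350150898085772680994872778242117344333524880633393840128, .ofNat 0, .ofNat 0, .ofNat 5483364075726819290016408352727887585142103867392, .ofNat 0⟩)
    (by decide +kernel)
theorem L03674 : Good (Phi V5.P V5.D 1 1) ⟨6, 56, 4, 10, 3, 7, 3, 3, 5, 6⟩ :=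
  leafX_sound T5.ok_pp T5.Ypp.bz_eq (w := 250) (c := ⟨⟨.negSucc 3113, .negSucc 269, .ofNat 283, .ofNat 1059, .negSucc 616, .ofNat 138⟩, ⟨.negSucc 1994, .negSucc 146, .negSucc 4, .ofNat 710, .negSucc 396, .ofNat 86⟩, ⟨.ofNat 1799, .ofNat 83, .negSucc 45, .negSucc 501, .ofNat 575, .negSucc 8⟩, ⟨.negSucc 5264, .negSucc 225, .ofNat 115, .negSucc 183, .negSucc 1130, .ofNat 632⟩, ⟨.ofNat 1227, .negSucc 7, .ofNat 158, .ofNat 2577, .ofNat 403, .negSucc 667⟩, .ofNat 5235, .negSucc 7602, .ofNat 0, .negSucc 7602, .ofNat 11850, .ofNat 0, .ofNat 128, .ofNat 1317, .negSucc 307, .ofNat 0, .ofNat 883, .negSucc 186, .ofNat 0, .ofNat 0, .ofNat 1262, .ofNat 4846, .ofNat 0, .ofNat 0, .ofNat 6773953523498386958340243034640558925545472, .ofNat 0, .ofNat 0, .ofNat 0, .ofNat 2057783871931507965041416505514242898120409088, .ofNat 0, .ofNat 0, .ofNat 0, .ofNat 801512705255038884137812856476813535458885632, .ofNat 0, .ofNat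 0, .ofNat 0, .ofNat 0, .ofNat 0⟩)
    (by decide +kernel)
theorem L03675 : Good (Phi V5.P V5.D 1 1) ⟨6, 57, 4, 10, 3, 7, 3, 3, 5, 6⟩ :=
  leafX_sound T5.ok_pp T5.Ypp.bz_eq (w := 245) (c := ⟨⟨.negSucc 3167, .ofNat 78, .negSucc 160, .ofNat 1051, .negSucc 604, .ofNat 151⟩, ⟨.negSucc 2021, .ofNat 37, .negSucc 243, .ofNat 706, .negSucc 401, .ofNat 100⟩, ⟨.ofNat 1741, .negSucc 145, .ofNat 226, .negSucc 483, .ofNat 568, .negSucc 1⟩, ⟨.negSucc 5165, .ofNat 10, .negSucc 79, .negSucc 407, .negSucc 1299, .ofNat 635⟩, ⟨.ofNat 978, .negSucc 70, .negSucc 13, .ofNat 2830, .ofNat 676, .negSucc 629⟩, .ofNat 1565, .negSucc 1990, .ofNat 0, .negSucc 1990, .ofNat 3220, .ofNat 0, .ofNat 128, .ofNat 505, .negSucc 140, .ofNat 0, .ofNat 360, .negSucc 73, .ofNat 0, .ofNat 0, .ofNat 546, .ofNat 2933, .ofNat 0, .ofNat 0, .ofNat 1573291801393407800497569658052802326298624, .ofNat 45623994551124434768211922066626696903226694727368704,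 .ofNat 0, .ofNat 0, .ofNat 241601576601242774687939819528667408084500480, .ofNat 1332257082269921964190270973580997753287287933922967552, .ofNat 0, .ofNat 0, .ofNat 0, .ofNat 0, .ofNat 0, .ofNat 0, .ofNat 146440271930417151444048336879948176126115840, .ofNat 0⟩)
    (by decide +kernel)
theorem L03676 : Good (Phi V5.P V5.D 1 1) ⟨5, 28, 5, 20, 3, 7, 3, 3, 5, 7⟩ :=
  leafX_sound T5.ok_pp T5.Ypp.bz_eq (w := 243) (c := ⟨⟨.negSucc 3030, .ofNat 78, .negSucc 29, .ofNat 808, .negSucc 483, .ofNat 135⟩, ⟨.negSucc 1953, .ofNat 137, .negSucc 111, .ofNat 544, .negSucc 312, .ofNat 84⟩, ⟨.ofNat 1722, .ofNat 26, .ofNat 13, .negSucc 231, .ofNat 474, .negSucc 31⟩, ⟨.negSucc 4616, .negSucc 180, .ofNat 31, .negSucc 522, .negSucc 928, .ofNat 597⟩, ⟨.ofNat 491, .ofNat 476, .negSucc 111, .ofNat 2558, .ofNat 377, .negSucc 608⟩, .ofNat 892, .negSucc 1008, .ofNat 0, .negSucc 1008, .ofNat 1770, .ofNat 0, .ofNat 128, .ofNat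 286, .negSucc 88, .ofNat 0, .ofNat 223, .negSucc 27, .ofNat 0, .ofNat 0, .ofNat 561, .ofNat 2834, .ofNat 0, .ofNat 0, .ofNat 14756408915463568858441107768376746378788864, .ofNat 0, .ofNat 0, .ofNat 0, .ofNat 387328658875409466278775991227456024788074496, .ofNat 0, .ofNat 0, .ofNat 0, .ofNat 792701454853924622250395683124787586090926080, .ofNat 0, .ofNat 0, .ofNat 0, .ofNat 192506523631541590540169313321154954739580928, .ofNat 0⟩)
    (by decide +kernel)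
theorem L03677 : Good (Phi V5.P V5.D 1 1) ⟨5, 28, 5, 21, 3, 7, 3, 3, 5, 7⟩ :=
  leafX_sound T5.ok_pp T5.Ypp.bz_eq (w := 244) (c := ⟨⟨.negSucc 3064, .ofNat 70, .negSucc 3, .ofNat 812, .negSucc 492, .ofNat 133⟩, ⟨.negSucc 2095, .ofNat 189, .negSucc 109, .ofNat 545, .negSucc 327, .ofNat 89⟩, ⟨.ofNat 1706, .ofNat 37, .ofNat 11, .negSucc 215, .ofNat 489, .negSucc 20⟩, ⟨.negSucc 4587, .negSucc 33, .negSucc 128, .negSucc 585, .negSucc 950, .ofNat 549⟩, ⟨.ofNat 477, .ofNat 94, .ofNat 217, .ofNat 2586, .ofNat 389, .negSucc 535⟩, .ofNat 1563, .negSucc 1988, .ofNat 0, .negSucc 1988, .ofNat 3218, .ofNat 0, .ofNat 128, .ofNat 418, .negSucc 78, .ofNat 0, .ofNat 305, .negSucc 35, .ofNat 0, .ofNat 0, .ofNat 549, .ofNat 4008, .ofNat 0, .ofNat 0, .ofNat 9776563667836047741583599091163587370024960, .ofNat 80389723675768356055779510677773735395204892412870656, .ofNat 0, .ofNat 0, .ofNat 1391021778488089437477338012190739939779936256,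 .ofNat 0, .ofNat 0, .ofNat 0, .ofNat 3269178450586495940526753661909040215713906688, .ofNat 3215738045024743484880507497251697834898009309463969792, .ofNat 0, .ofNat 0, .ofNat 370376732723372024144497695039154004384808960, .ofNat 1646579142003032971318854620857192576120098353961762816⟩)
    (by decide +kernel)
theorem L03678 : Good (Phi V5.P V5.D 1 1) ⟨6, 56, 4, 11, 3, 7, 3, 3, 3, 1⟩ :=
  out_sound (S := T5.ds_pp) T5.ok_pp (w := 65) (j := 3) (by decide +kernel)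
theorem L03679 : Good (Phi V5.P V5.D 1 1) ⟨7, 114, 5, 22, 3, 7, 3, 3, 3, 1⟩ :=
  out_sound (S := T5.ds_pp) T5.ok_pp (w := 73) (j := 3) (by decide +kernel)
theorem L03680 : Good (Phi V5.P V5.D 1 1) ⟨7, 115, 5, 22, 3, 7, 3, 3, 3, 1⟩ :=
  out_sound (S := T5.ds_pp) T5.ok_pp (w := 21) (j := 4) (by decide +kernel)
theorem L03681 : Good (Phi V5.P V5.D 1 1) ⟨6, 57, 5, 23, 3, 7, 3, 3, 3, 1⟩ :=
  out_sound (S := T5.ds_pp) T5.ok_pp (w := 67) (j := 3) (by decide +kernel)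
theorem L03682 : Good (Phi V5.P V5.D 1 1) ⟨5, 29, 3, 5, 2, 3, 2, 1, 3, 1⟩ :=
  out_sound (S := T5.ds_pp) T5.ok_pp (w := 17) (j := 4) (by decide +kernel)
theorem L03683 : Good (Phi V5.P V5.D 1 1) ⟨4, 15, 3, 5, 2, 3, 2, 1, 3, 1⟩ :=
  out_sound (S := T5.ds_pp) T5.ok_pp (w := 51) (j := 3) (by decide +kernel)
theorem L03684 : Good (Phi V5.P V5.D 1 1) ⟨2, 2, 2, 3, 2, 3, 2, 1, 2, 0⟩ :=
  out_sound (S := T5.ds_pp) T5.ok_pp (w := 37) (j := 3) (by decide +kernel)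
theorem L03685 : Good (Phi V5.P V5.D 1 1) ⟨3, 6, 2, 3, 2, 3, 2, 1, 2, 0⟩ :=
  out_sound (S := T5.ds_pp) T5.ok_pp (w := 43) (j := 3) (by decide +kernel)
theorem L03686 : Good (Phi V5.P V5.D 1 1) ⟨5, 28, 3, 6, 2, 3, 2, 1, 2, 0⟩ :=
  out_sound (S := T5.ds_pp) T5.ok_pp (w := 57) (j := 3) (by decide +kernel)
theorem L03687 : Good (Phi V5.P V5.D 1 1) ⟨5, 29, 3, 6, 2, 3, 2, 1, 2, 0⟩ :=
  out_sound (S := T5.ds_pp) T5.ok_pp (w := 17) (j := 4) (by decide +kernel)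
theorem L03688 : Good (Phi V5.P V5.D 1 1) ⟨4, 14, 3, 7, 2, 3, 2, 1, 2, 0⟩ :=
  out_sound (S := T5.ds_pp) T5.ok_pp (w := 51) (j := 3) (by decide +kernel)
theorem L03689 : Good (Phi V5.P V5.D 1 1) ⟨4, 15, 2, 3, 2, 3, 2, 1, 2, 0⟩ :=
  out_sound (S := T5.ds_pp) T5.ok_pp (w := 15) (j := 4) (by decide +kernel)
theorem L03690 : Good (Phi V5.P V5.D 1 1) ⟨2, 2, 1, 1, 1, 1, 1, 0, 3, 2⟩ :=
  out_sound (S := T5.ds_pp) T5.ok_pp (w := 35) (j := 3) (by decide +kernel)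
theorem L03691 : Good (Phi V5.P V5.D 1 1) ⟨4, 12, 2, 2, 2, 2, 1, 0, 3, 2⟩ :=
  out_sound (S := T5.ds_pp) T5.ok_pp (w := 49) (j := 3) (by decide +kernel)
theorem L03692 : Good (Phi V5.P V5.D 1 1) ⟨4, 13, 3, 4, 3, 4, 2, 0, 4, 4⟩ :=
  leafX_sound T5.ok_pp T5.Ypp.bz_eq (w := 225) (c := ⟨⟨.negSucc 2264, .negSucc 193, .negSucc 7, .ofNat 14, .negSucc 403, .ofNat 231⟩, ⟨.negSucc 1176, .negSucc 248, .negSucc 151, .ofNat 7, .negSucc 243, .ofNat 137⟩, ⟨.ofNat 569, .negSucc 42, .ofNat 105, .negSucc 275, .ofNat 1156, .negSucc 155⟩, ⟨.negSucc 3360, .ofNat 10, .ofNat 16, .ofNat 35, .negSucc 632, .ofNat 390⟩, ⟨.negSucc 305, .ofNat 13, .negSucc 12, .negSucc 23, .ofNat 76, .negSucc 88⟩, .ofNat 378, .negSucc 284, .ofNat 0, .negSucc 284, .ofNat 704, .ofNat 0, .ofNat 128, .ofNat 171, .negSucc 55, .ofNat 0, .ofNat 159, .negSucc 6, .ofNat 0, .ofNat 0, .ofNat 484, .ofNat 10882, .ofNat 13344531953293374198367874091033209755274313728,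 .ofNat 0, .ofNat 1534024182792671853621317533752203673600, .ofNat 0, .ofNat 61634130293564330696344541692001370002050514944, .ofNat 0, .ofNat 33545444603830140022933920222121371369472, .ofNat 0, .ofNat 118926197886597432907808510569164734550016786432, .ofNat 0, .ofNat 0, .ofNat 0, .ofNat 191407416327808123978709217332386758640682401792, .ofNat 0, .ofNat 334548549825537140803273052274563336896512, .ofNat 0⟩)
    (by decide +kernel)
theorem L03693 : Good (Phi V5.P V5.D 1 1) ⟨4, 13, 3, 4, 3, 5, 2, 0, 4, 4⟩ :=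
  leafX_sound T5.ok_pp T5.Ypp.bz_eq (w := 224) (c := ⟨⟨.negSucc 2184, .negSucc 150, .negSucc 12, .ofNat 140, .negSucc 511, .ofNat 230⟩, ⟨.negSucc 1138, .negSucc 225, .negSucc 141, .ofNat 83, .negSucc 298, .ofNat 134⟩, ⟨.ofNat 187, .negSucc 47, .ofNat 93, .negSucc 195, .ofNat 1300, .negSucc 188⟩, ⟨.negSucc 3237, .ofNat 44, .ofNat 34, .ofNat 142, .negSucc 782, .ofNat 420⟩, ⟨.negSucc 278, .ofNat 37, .negSucc 64, .ofNat 105, .ofNat 45, .negSucc 140⟩, .ofNat 367, .negSucc 261, .ofNat 0, .negSucc 261, .ofNat 643, .ofNat 0, .ofNat 128, .ofNat 153, .negSucc 68, .ofNat 0, .ofNat 155, .negSucc 8, .ofNat 0, .ofNat 0, .ofNat 470, .ofNat 5333, .ofNat 2729696167680522742796400993523687390953078784, .ofNat 0, .ofNat 2365794307974484144022536227992161484800, .ofNat 0, .ofNat 0, .ofNat 0, .ofNat 0, .ofNat 0, .ofNat 0, .ofNat 0, .ofNat 0, .ofNat 0, .ofNat 125336284951777714702706354212990086172584706048, .ofNat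 0, .ofNat 311955378452053190036604334083065751011328, .ofNat 0⟩)
    (by decide +kernel)
theorem L03694 : Good (Phi V5.P V5.D 1 1) ⟨4, 13, 3, 4, 2, 2, 2, 0, 4, 5⟩ :=
  leafX_sound T5.ok_pp T5.Ypp.bz_eq (w := 212) (c := ⟨⟨.negSucc 2132, .negSucc 143, .negSucc 13, .ofNat 254, .negSucc 444, .ofNat 215⟩, ⟨.negSucc 1104, .negSucc 220, .negSucc 128, .ofNat 148, .negSucc 270, .ofNat 127⟩, ⟨.ofNat 314, .negSucc 88, .ofNat 42, .negSucc 438, .ofNat 1256, .negSucc 370⟩, ⟨.negSucc 3128, .ofNat 52, .ofNat 45, .ofNat 314, .negSucc 626, .ofNat 372⟩, ⟨.negSucc 348, .ofNat 19, .negSucc 71, .ofNat 98, .negSucc 26, .negSucc 97⟩, .ofNat 368, .negSucc 263, .ofNat 0, .negSucc 263, .ofNat 643, .ofNat 0, .ofNat 131, .ofNat 120, .negSucc 56, .ofNat 0, .ofNat 128, .negSucc 0, .ofNat 0, .ofNat 0, .ofNat 687, .ofNat 24192, .ofNat 10390831242320854558518239036554979433250816, .ofNat 0, .ofNat 875022724413284746159011418318307328,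 .ofNat 0, .ofNat 55350328129655409973616670260724241153392640, .ofNat 0, .ofNat 0, .ofNat 0, .ofNat 82606683090970198137769504747543505768808448, .ofNat 0, .ofNat 3870623986079883865407544226289287168, .ofNat 0, .ofNat 164625695465620492155054633086529017267355648, .ofNat 0, .ofNat 42650617154954580056048088932941824000, .ofNat 0⟩)
    (by decide +kernel)
theorem L03695 : Good (Phi V5.P V5.D 1 1) ⟨4, 13, 3, 4, 2, 2, 3, 2, 5, 8⟩ :=
  leafX_sound T5.ok_pp T5.Ypp.bz_eq (w := 221) (c := ⟨⟨.negSucc 2605, .negSucc 270, .ofNat 36, .ofNat 10, .negSucc 232, .ofNat 139⟩, ⟨.negSucc 1376, .negSucc 293, .negSucc 136, .ofNat 8, .negSucc 136, .ofNat 78⟩, ⟨.ofNat 1619, .ofNat 21, .ofNat 81, .negSucc 350, .ofNat 478, .negSucc 70⟩, ⟨.negSucc 3915, .negSucc 77, .ofNat 84, .negSucc 24, .negSucc 328, .ofNat 235⟩, ⟨.negSucc 224, .ofNat 7, .negSucc 38, .ofNat 64, .negSucc 21, .negSucc 49⟩, .ofNat 748, .negSucc 828,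 .ofNat 0, .negSucc 828, .ofNat 1631, .ofNat 0, .ofNat 128, .ofNat 413, .negSucc 99, .ofNat 0, .ofNat 304, .negSucc 41, .ofNat 0, .ofNat 0, .ofNat 618, .ofNat 15754, .ofNat 0, .ofNat 0, .ofNat 0, .ofNat 0, .ofNat 0, .ofNat 0, .ofNat 26442652981587243855954017515978862100480, .ofNat 0, .ofNat 0, .ofNat 0, .ofNat 61915924728996868835714087418800042409984, .ofNat 0, .ofNat 0, .ofNat 0, .ofNat 3878384685101369294837279332742339756032, .ofNat 0⟩)
    (by decide +kernel)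
theorem L03696 : Good (Phi V5.P V5.D 1 1) ⟨4, 13, 3, 4, 2, 2, 3, 2, 5, 9⟩ :=
  leafX_sound T5.ok_pp T5.Ypp.bz_eq (w := 221) (c := ⟨⟨.negSucc 2557, .negSucc 185, .negSucc 18, .ofNat 82, .negSucc 214, .ofNat 135⟩, ⟨.negSucc 1346, .negSucc 259, .negSucc 148, .ofNat 49, .negSucc 126, .ofNat 78⟩, ⟨.ofNat 1587, .ofNat 15, .ofNat 63, .negSucc 397, .ofNat 470, .negSucc 125⟩, ⟨.negSucc 3817, .ofNat 34, .ofNat 7, .ofNat 100, .negSucc 290, .ofNat 236⟩, ⟨.negSucc 260, .negSucc 3, .negSucc 19, .ofNat 34, .negSucc 38, .negSucc 65⟩, .ofNat 752, .negSucc 834, .ofNat 0, .negSucc 834, .ofNat 1641, .ofNat 0, .ofNat 128, .ofNat 552, .negSucc 67, .ofNat 0, .ofNat 412, .negSucc 26, .ofNat 0, .ofNat 0, .ofNat 566, .ofNat 19372, .ofNat 103556132188886800345972918486177206828531712, .ofNat 0, .ofNat 79254331747565380787910257174781100032, .ofNat 0, .ofNat 0, .ofNat 0, .ofNat 6655190074022063403410983203086165606400, .ofNat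 0, .ofNat 0, .ofNat 0, .ofNat 0, .ofNat 0, .ofNat 582474273928312253112883026212673364730839040, .ofNat 0, .ofNat 7750034858477713259125207006114335424512, .ofNat 0⟩)
    (by decide +kernel)
theorem L03697 : Good (Phi V5.P V5.D 1 1) ⟨4, 13, 3, 4, 2, 2, 3, 3, 4, 4⟩ :=
  leafX_sound T5.ok_pp T5.Ypp.bz_eq (w := 215) (c := ⟨⟨.negSucc 2799, .negSucc 329, .ofNat 25, .negSucc 56, .negSucc 248, .ofNat 352⟩, ⟨.negSucc 1475, .negSucc 351, .negSucc 140, .negSucc 31, .negSucc 146, .ofNat 202⟩, ⟨.ofNat 2064, .ofNat 98, .ofNat 59, .negSucc 295, .ofNat 394, .negSucc 261⟩, ⟨.negSucc 4221, .negSucc 144, .ofNat 72, .negSucc 83, .negSucc 307, .ofNat 589⟩, ⟨.negSucc 201, .negSucc 10, .negSucc 16, .negSucc 1, .negSucc 98, .negSucc 128⟩, .ofNat 746, .negSucc 824, .ofNat 0, .negSucc 824, .ofNat 1624, .ofNat 0, .ofNat 128, .ofNat 287, .negSucc 61, .ofNat 0, .ofNat 212, .negSucc 26, .ofNat 0, .ofNat 0, .ofNat 399, .ofNat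 5300, .ofNat 0, .ofNat 0, .ofNat 0, .ofNat 0, .ofNat 0, .ofNat 0, .ofNat 0, .ofNat 0, .ofNat 0, .ofNat 0, .ofNat 0, .ofNat 0, .ofNat 0, .ofNat 0, .ofNat 282028458832280340202675346196630863872, .ofNat 0⟩)
    (by decide +kernel)
theorem L03698 : Good (Phi V5.P V5.D 1 1) ⟨4, 13, 3, 4, 3, 4, 4, 4, 4, 5⟩ :=
  leafX_sound T5.ok_pp T5.Ypp.bz_eq (w := 236) (c := ⟨⟨.negSucc 2422, .negSucc 211, .ofNat 1, .ofNat 6, .negSucc 85, .ofNat 245⟩, ⟨.negSucc 1274, .negSucc 267, .negSucc 130, .ofNat 2, .negSucc 50, .ofNat 143⟩, ⟨.ofNat 1531, .negSucc 10, .ofNat 40, .negSucc 228, .ofNat 236, .negSucc 250⟩, ⟨.negSucc 3598, .negSucc 16, .ofNat 37, .ofNat 39, .negSucc 117, .ofNat 397⟩, ⟨.negSucc 281, .ofNat 2, .negSucc 18, .negSucc 51, .negSucc 12, .negSucc 65⟩, .ofNat 365, .negSucc 258, .ofNat 0, .negSucc 258, .ofNat 644, .ofNat 0, .ofNat 128, .ofNat 150, .negSucc 56, .ofNat 0, .ofNat 152, .negSucc 9, .ofNat 0, .ofNat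 0, .ofNat 483, .ofNat 70946, .ofNat 4268998417231572342284903192309036028531625164800, .ofNat 0, .ofNat 15830279927959316545099497662439765806415872, .ofNat 0, .ofNat 18215534503523214319813072314417156755128481480704, .ofNat 0, .ofNat 95407663215924967282456795020742260777025536, .ofNat 0, .ofNat 14052132838107734594306422499482554907733155381248, .ofNat 0, .ofNat 354012873657536591516033708747221914276069376, .ofNat 0, .ofNat 16848560497713697369514798975030832599002106560512, .ofNat 0, .ofNat 209356847482339950872099749179628804045275136, .ofNat 0⟩)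
    (by decide +kernel)
theorem L03699 : Good (Phi V5.P V5.D 1 1) ⟨4, 13, 3, 4, 3, 4, 4, 5, 4, 5⟩ :=
  leafX_sound T5.ok_pp T5.Ypp.bz_eq (w := 237) (c := ⟨⟨.negSucc 2500, .negSucc 203, .negSucc 8, .negSucc 9, .negSucc 85, .ofNat 244⟩, ⟨.negSucc 1318, .negSucc 267, .negSucc 133, .negSucc 6, .negSucc 49, .ofNat 141⟩, ⟨.ofNat 1751, .ofNat 15, .ofNat 23, .negSucc 212, .ofNat 197, .negSucc 270⟩, ⟨.negSucc 3711, .ofNat 3, .ofNat 16, .ofNat 25, .negSucc 112, .ofNat 389⟩, ⟨.negSucc 291, .ofNat 1, .negSucc 10, .negSucc 67, .negSucc 20, .negSucc 55⟩, .ofNat 1095, .negSucc 1383, .ofNat 0, .negSucc 1383, .ofNat 2559, .ofNat 0, .ofNat 128, .ofNat 408, .negSucc 137, .ofNat 0, .ofNat 286, .negSucc 64, .ofNat 0, .ofNat 0, .ofNat 1560, .ofNat 80591, .ofNat 3808400592716289761212942394337716522862237450240, .ofNat 0, .ofNat 5997385781731073288045608527985347433332736, .ofNat 0, .ofNat 8450174781530448731629432851884458930881173651456,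 .ofNat 0, .ofNat 483091327290474755593045792874705864081014784, .ofNat 0, .ofNat 0, .ofNat 0, .ofNat 2106159628405164606352090951912777716909211648, .ofNat 0, .ofNat 0, .ofNat 0, .ofNat 0, .ofNat 0⟩)
    (by decide +kernel)
theorem L03700 : Good (Phi V5.P V5.D 1 1) ⟨4, 13, 3, 4, 3, 5, 3, 2, 4, 5⟩ :=
  leafX_sound T5.ok_pp T5.Ypp.bz_eq (w := 229) (c := ⟨⟨.negSucc 2445, .negSucc 133, .negSucc 36, .ofNat 98, .negSucc 205, .ofNat 248⟩, ⟨.negSucc 1288, .negSucc 219, .negSucc 153, .ofNat 58, .negSucc 123, .ofNat 141⟩, ⟨.ofNat 1315, .negSucc 6, .ofNat 28, .negSucc 240, .ofNat 469, .negSucc 321⟩, ⟨.negSucc 3599, .ofNat 60, .ofNat 23, .ofNat 130, .negSucc 268, .ofNat 414⟩, ⟨.negSucc 333, .ofNat 51, .negSucc 80, .ofNat 24, .negSucc 53, .negSucc 81⟩, .ofNat 366, .negSucc 259, .ofNat 0, .negSucc 259, .ofNat 642, .ofNat 0, .ofNat 132, .ofNat 120, .negSucc 30, .ofNat 0, .ofNat 128, .negSucc 1, .ofNat 0, .ofNat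 0, .ofNat 382, .ofNat 6344, .ofNat 0, .ofNat 0, .ofNat 0, .ofNat 0, .ofNat 0, .ofNat 0, .ofNat 0, .ofNat 0, .ofNat 0, .ofNat 0, .ofNat 0, .ofNat 0, .ofNat 0, .ofNat 0, .ofNat 4024659272446139016142047073260920392122368, .ofNat 0⟩)
    (by decide +kernel)
theorem L03701 : Good (Phi V5.P V5.D 1 1) ⟨4, 13, 3, 4, 2, 2, 3, 3, 4, 5⟩ :=
  leafX_sound T5.ok_pp T5.Ypp.bz_eq (w := 216) (c := ⟨⟨.negSucc 2593, .negSucc 197, .negSucc 17, .ofNat 17, .negSucc 195, .ofNat 268⟩, ⟨.negSucc 1365, .negSucc 274, .negSucc 141, .ofNat 8, .negSucc 116, .ofNat 155⟩, ⟨.ofNat 1982, .negSucc 3, .ofNat 16, .negSucc 415, .ofNat 326, .negSucc 340⟩, ⟨.negSucc 3856, .ofNat 34, .ofNat 0, .ofNat 85, .negSucc 225, .ofNat 435⟩, ⟨.negSucc 295, .negSucc 16, .ofNat 6, .negSucc 106, .negSucc 101, .negSucc 74⟩, .ofNat 748, .negSucc 828, .ofNat 0, .negSucc 828, .ofNat 1636, .ofNat 0, .ofNat 128, .ofNat 445, .negSucc 94, .ofNat 0, .ofNat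 338, .negSucc 38, .ofNat 0, .ofNat 0, .ofNat 1135, .ofNat 12632, .ofNat 0, .ofNat 0, .ofNat 0, .ofNat 0, .ofNat 0, .ofNat 0, .ofNat 189688037882001597807271823373307478016, .ofNat 0, .ofNat 0, .ofNat 0, .ofNat 0, .ofNat 0, .ofNat 0, .ofNat 9542416087646038679631899751980807693008896, .ofNat 1247483941266605577213296863540229963776, .ofNat 0⟩)
    (by decide +kernel)
theorem L03702 : Good (Phi V5.P V5.D 1 1) ⟨4, 13, 3, 5, 2, 2, 1, 0, 3, 2⟩ :=
  out_sound (S := T5.ds_pp) T5.ok_pp (w := 51) (j := 3) (by decide +kernel)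
theorem L03703 : Good (Phi V5.P V5.D 1 1) ⟨5, 28, 2, 2, 3, 4, 2, 0, 4, 4⟩ :=
  leafX_sound T5.ok_pp T5.Ypp.bz_eq (w := 227) (c := ⟨⟨.negSucc 2489, .negSucc 173, .ofNat 133, .ofNat 21, .negSucc 439, .ofNat 231⟩, ⟨.negSucc 1444, .negSucc 184, .negSucc 192, .ofNat 14, .negSucc 279, .ofNat 148⟩, ⟨.ofNat 489, .ofNat 65, .ofNat 76, .negSucc 261, .ofNat 1247, .negSucc 186⟩, ⟨.negSucc 3408, .negSucc 35, .ofNat 95, .ofNat 60, .negSucc 603, .ofNat 369⟩, ⟨.negSucc 225, .negSucc 23, .ofNat 50, .negSucc 43, .negSucc 28, .negSucc 66⟩, .ofNat 2257, .negSucc 3082, .ofNat 0, .negSucc 3082, .ofNat 4979, .ofNat 0, .ofNat 128, .ofNat 430, .negSucc 149, .ofNat 0, .ofNat 295, .negSucc 86, .ofNat 0, .ofNat 0, .ofNat 1305, .ofNat 24074, .ofNat 30376517658628357289610255051698949981644783616, .ofNat 0, .ofNat 2201299106431450878195516876060517990400, .ofNat 145831492360372593933460742891866320158265966592, .ofNat 666564539226771745979798822320625656186422689792,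 .ofNat 0, .ofNat 418553793943552913600917704722616653185024, .ofNat 0, .ofNat 1501761303060597816180416781537120815741864509440, .ofNat 0, .ofNat 170040255212570201083546878077729060683776, .ofNat 0, .ofNat 2925175911660838173514175006747033374160284811264, .ofNat 0, .ofNat 117004895559047303517321870057263203352576, .ofNat 20564735740320550835532475322075813065163429380096⟩)
    (by decide +kernel)
theorem L03704 : Good (Phi V5.P V5.D 1 1) ⟨5, 28, 2, 2, 3, 5, 3, 0, 4, 4⟩ :=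
  leafX_sound T5.ok_pp T5.Ypp.bz_eq (w := 234) (c := ⟨⟨.negSucc 2365, .negSucc 71, .negSucc 1, .ofNat 257, .negSucc 296, .ofNat 166⟩, ⟨.negSucc 1361, .negSucc 94, .negSucc 280, .ofNat 166, .negSucc 197, .ofNat 109⟩, ⟨.negSucc 54, .ofNat 14, .ofNat 131, .negSucc 115, .ofNat 761, .negSucc 210⟩, ⟨.negSucc 3116, .ofNat 69, .ofNat 46, .ofNat 242, .negSucc 487, .ofNat 360⟩, ⟨.negSucc 433, .negSucc 45, .negSucc 57, .ofNat 188, .ofNat 99, .negSucc 188⟩, .ofNat 387, .negSucc 292, .ofNat 0, .negSucc 292, .ofNat 645, .ofNat 0, .ofNat 128, .ofNat 206, .negSucc 167, .ofNat 0, .ofNat 198, .negSucc 29, .ofNat 0, .ofNat 0, .ofNat 974, .ofNat 274353, .ofNat 5223310669548251666365436320643809749523677315072, .ofNat 0, .ofNat 0, .ofNat 0, .ofNat 10199013494408525749139753761077876487084675432448, .ofNat 0, .ofNat 481471712953741911529277726128504720850944, .ofNat 0, .ofNat 12074092499548487466198592156300132115212346064896,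 .ofNat 0, .ofNat 0, .ofNat 0, .ofNat 26974967620277223023645228840831267925039828172800, .ofNat 0, .ofNat 0, .ofNat 0⟩)
    (by decide +kernel)
theorem L03705 : Good (Phi V5.P V5.D 1 1) ⟨5, 28, 2, 2, 3, 5, 3, 1, 4, 4⟩ :=
  leafX_sound T5.ok_pp T5.Ypp.bz_eq (w := 232) (c := ⟨⟨.negSucc 2600, .negSucc 102, .ofNat 0, .ofNat 147, .negSucc 281, .ofNat 252⟩, ⟨.negSucc 1517, .negSucc 131, .negSucc 271, .ofNat 96, .negSucc 184, .ofNat 163⟩, ⟨.ofNat 784, .negSucc 30, .ofNat 223, .negSucc 188, .ofNat 684, .negSucc 257⟩, ⟨.negSucc 3554, .ofNat 48, .ofNat 0, .ofNat 156, .negSucc 435, .ofNat 450⟩, ⟨.negSucc 267, .negSucc 41, .negSucc 18, .ofNat 79, .ofNat 57, .negSucc 144⟩, .ofNat 884, .negSucc 997, .ofNat 0, .negSucc 997, .ofNat 1759, .ofNat 0, .ofNat 128, .ofNat 325, .negSucc 117, .ofNat 0, .ofNat 246, .negSucc 52, .ofNat 0, .ofNat 0, .ofNat 1002, .ofNat 28678, .ofNat 176786200863816074869634363819301595928034541568,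 .ofNat 0, .ofNat 41554664018886420391067695187755561648128, .ofNat 2550949382904210631873569062998846971123184173056, .ofNat 206724803166666349156637249914106789493844475904, .ofNat 0, .ofNat 2188840687449507169972043852430313663758336, .ofNat 0, .ofNat 2549245874576651059696529633381693672339149946880, .ofNat 0, .ofNat 1203643538581723185364207891047862222454784, .ofNat 0, .ofNat 3667479014358323220146193194293990396364490539008, .ofNat 0, .ofNat 755272155677528394307360599369837671612416, .ofNat 533361288564784403412121255328126702746072334204928⟩)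
    (by decide +kernel)
theorem L03706 : Good (Phi V5.P V5.D 1 1) ⟨5, 29, 2, 2, 2, 2, 2, 0, 4, 4⟩ :=
  out_sound (S := T5.ds_pp) T5.ok_pp (w := 17) (j := 4) (by decide +kernel)
theorem L03707 : Good (Phi V5.P V5.D 1 1) ⟨4, 14, 2, 2, 2, 2, 2, 0, 4, 5⟩ :=
  leafX_sound T5.ok_pp T5.Ypp.bz_eq (w := 210) (c := ⟨⟨.negSucc 2297, .negSucc 169, .negSucc 5, .ofNat 293, .negSucc 467, .ofNat 215⟩, ⟨.negSucc 1309, .negSucc 178, .negSucc 311, .ofNat 190, .negSucc 306, .ofNat 141⟩, ⟨.ofNat 161, .negSucc 122, .ofNat 145, .negSucc 460, .ofNat 1349, .negSucc 497⟩, ⟨.negSucc 3116, .ofNat 80, .ofNat 71, .ofNat 389, .negSucc 645, .ofNat 379⟩, ⟨.negSucc 321, .negSucc 58, .negSucc 68, .ofNat 42, .negSucc 11, .negSucc 116⟩, .ofNat 888, .negSucc 1002, .ofNat 0, .negSucc 1002, .ofNat 1765, .ofNat 0, .ofNat 128, .ofNat 475, .negSucc 148, .ofNat 0, .ofNat 368, .negSucc 55, .ofNat 0, .ofNat 0, .ofNat 2343, .ofNat 29019, .ofNat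 1181357502719577725159614911381484454543360, .ofNat 0, .ofNat 267243744165460219394317648926867456, .ofNat 3407797859394282497263628110937630988828672, .ofNat 9201592036160468025001177368250798959493120, .ofNat 0, .ofNat 33496183969538787089295332590550515712, .ofNat 100107891789986694928851976721567208980873216, .ofNat 35537082142046176463417814198550397859135488, .ofNat 0, .ofNat 31790560686094683443705571478893232128, .ofNat 0, .ofNat 130547650156899875963006214015638656671285248, .ofNat 0, .ofNat 0, .ofNat 0⟩)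
    (by decide +kernel)
theorem L03708 : Good (Phi V5.P V5.D 1 1) ⟨5, 28, 4, 8, 2, 2, 2, 1, 4, 4⟩ :=
  out_sound (S := T5.ds_pp) T5.ok_pp (w := 59) (j := 3) (by decide +kernel)
theorem L03709 : Good (Phi V5.P V5.D 1 1) ⟨6, 56, 4, 9, 3, 4, 2, 1, 4, 4⟩ :=
  leafX_sound T5.ok_pp T5.Ypp.bz_eq (w := 237) (c := ⟨⟨.negSucc 2884, .negSucc 62, .ofNat 9, .negSucc 54, .negSucc 436, .ofNat 308⟩, ⟨.negSucc 1758, .negSucc 83, .negSucc 66, .negSucc 35, .negSucc 278, .ofNat 193⟩, ⟨.ofNat 1771, .ofNat 9, .ofNat 27, .negSucc 165, .ofNat 822, .negSucc 257⟩, ⟨.negSucc 4018, .negSucc 3, .ofNat 18, .negSucc 48, .negSucc 566, .ofNat 508⟩, ⟨.negSucc 194, .ofNat 0, .ofNat 5, .negSucc 48, .negSucc 90, .negSucc 106⟩, .ofNat 847, .negSucc 951, .ofNat 0, .negSucc 951, .ofNat 1718, .ofNat 0, .ofNat 128, .ofNat 525, .negSucc 115, .ofNat 0, .ofNat 392, .negSucc 56, .ofNat 0, .ofNat 0, .ofNat 753, .ofNat 13217, .ofNat 10553554080595491007552561344539775562532326998016,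 .ofNat 0, .ofNat 3744710898051792392572170799082352148480, .ofNat 0, .ofNat 0, .ofNat 0, .ofNat 254528119190412004065121476579582583767040, .ofNat 0, .ofNat 0, .ofNat 0, .ofNat 0, .ofNat 0, .ofNat 71364552389314180930334968739754605475246494449664, .ofNat 0, .ofNat 51134592188988186024149907143432823898112, .ofNat 0⟩)
    (by decide +kernel)
theorem L03710 : Good (Phi V5.P V5.D 1 1) ⟨6, 56, 4, 9, 3, 5, 2, 1, 4, 4⟩ :=
  leafX_sound T5.ok_pp T5.Ypp.bz_eq (w := 237) (c := ⟨⟨.negSucc 2956, .negSucc 120, .ofNat 62, .ofNat 87, .negSucc 563, .ofNat 365⟩, ⟨.negSucc 1807, .negSucc 120, .negSucc 29, .ofNat 56, .negSucc 358, .ofNat 228⟩, ⟨.ofNat 1572, .ofNat 14, .ofNat 52, .negSucc 180, .ofNat 932, .negSucc 316⟩, ⟨.negSucc 4113, .negSucc 55, .ofNat 85, .ofNat 77, .negSucc 731, .ofNat 634⟩, ⟨.negSucc 205, .negSucc 54, .ofNat 22, .ofNat 75, .negSucc 117, .negSucc 177⟩, .ofNat 774, .negSucc 829, .ofNat 0, .negSucc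 829, .ofNat 1513, .ofNat 0, .ofNat 128, .ofNat 319, .negSucc 93, .ofNat 0, .ofNat 249, .negSucc 40, .ofNat 0, .ofNat 0, .ofNat 610, .ofNat 8310, .ofNat 0, .ofNat 0, .ofNat 0, .ofNat 0, .ofNat 0, .ofNat 0, .ofNat 64535500652344905452850988819017185099776, .ofNat 0, .ofNat 0, .ofNat 0, .ofNat 634429324647903079381812279504660257046528, .ofNat 0, .ofNat 0, .ofNat 0, .ofNat 0, .ofNat 0⟩)
    (by decide +kernel)
theorem L03711 : Good (Phi V5.P V5.D 1 1) ⟨6, 57, 4, 9, 2, 2, 2, 1, 4, 4⟩ :=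
  out_sound (S := T5.ds_pp) T5.ok_pp (w := 65) (j := 3) (by decide +kernel)
theorem L03712 : Good (Phi V5.P V5.D 1 1) ⟨5, 28, 4, 10, 3, 4, 3, 2, 4, 4⟩ :=
  leafX_sound T5.ok_pp T5.Ypp.bz_eq (w := 239) (c := ⟨⟨.negSucc 2815, .negSucc 314, .ofNat 91, .negSucc 37, .negSucc 220, .ofNat 268⟩, ⟨.negSucc 1785, .negSucc 298, .negSucc 4, .negSucc 24, .negSucc 144, .ofNat 175⟩, ⟨.ofNat 1738, .ofNat 115, .ofNat 3, .negSucc 185, .ofNat 475, .negSucc 215⟩, ⟨.negSucc 3942, .negSucc 110, .ofNat 44, .negSucc 30, .negSucc 284, .ofNat 426⟩, ⟨.negSucc 192, .negSucc 66, .ofNat 29, .negSucc 34, .negSucc 40, .negSucc 74⟩, .ofNat 3849, .negSucc 5465, .ofNat 0, .negSucc 5465, .ofNat 8545, .ofNat 0, .ofNat 128, .ofNat 953, .negSucc 182, .ofNat 0, .ofNat 646, .negSucc 113, .ofNat 0, .ofNat 0, .ofNat 1380, .ofNat 35261, .ofNat 10638366142276400066073101675361428961867778228224, .ofNat 0, .ofNat 614775195181116782800478075198957030473728,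 .ofNat 0, .ofNat 0, .ofNat 0, .ofNat 118110313120319007898526450771961914727596032, .ofNat 0, .ofNat 0, .ofNat 0, .ofNat 325480534763528380691571615922539653681381376, .ofNat 0, .ofNat 140461019051517056357930443433253731786158728282112, .ofNat 0, .ofNat 96562925520952839581745951550118238510645248, .ofNat 41368070989328661593916763115471590252951419557511168⟩)
    (by decide +kernel)
theorem L03713 : Good (Phi V5.P V5.D 1 1) ⟨5, 28, 4, 10, 3, 5, 3, 2, 4, 4⟩ :=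
  leafX_sound T5.ok_pp T5.Ypp.bz_eq (w := 238) (c := ⟨⟨.negSucc 2900, .negSucc 128, .ofNat 9, .ofNat 118, .negSucc 286, .ofNat 320⟩, ⟨.negSucc 1840, .negSucc 181, .negSucc 52, .ofNat 78, .negSucc 189, .ofNat 209⟩, ⟨.ofNat 1601, .ofNat 11, .ofNat 46, .negSucc 197, .ofNat 530, .negSucc 296⟩, ⟨.negSucc 4032, .negSucc 3, .ofNat 18, .ofNat 129, .negSucc 387, .ofNat 572⟩, ⟨.negSucc 195, .negSucc 15, .negSucc 5, .ofNat 57, .negSucc 25, .negSucc 183⟩, .ofNat 910, .negSucc 1030, .ofNat 0, .negSucc 1030, .ofNat 1790, .ofNat 0, .ofNat 128, .ofNat 464, .negSucc 86, .ofNat 0, .ofNat 350, .negSucc 40, .ofNat 0, .ofNat 0, .ofNat 639, .ofNat 19183, .ofNat 0, .ofNat 0, .ofNat 0, .ofNat 0, .ofNat 0, .ofNat 0, .ofNat 13924408958654810301134714085566076831137792, .ofNat 0, .ofNat 0, .ofNat 0, .ofNat 19198654428738448793109651081048658469191680, .ofNat 0, .ofNat 0, .ofNat 0, .ofNat 6978498537865391414070978464475092210417664,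 .ofNat 0⟩)
    (by decide +kernel)
theorem L03714 : Good (Phi V5.P V5.D 1 1) ⟨5, 28, 4, 10, 2, 2, 3, 3, 4, 4⟩ :=
  leafX_sound T5.ok_pp T5.Ypp.bz_eq (w := 223) (c := ⟨⟨.negSucc 3108, .negSucc 89, .negSucc 71, .negSucc 46, .negSucc 254, .ofNat 383⟩, ⟨.negSucc 1977, .negSucc 132, .negSucc 130, .negSucc 30, .negSucc 168, .ofNat 252⟩, ⟨.ofNat 2259, .ofNat 2, .ofNat 79, .negSucc 282, .ofNat 395, .negSucc 351⟩, ⟨.negSucc 4320, .ofNat 9, .negSucc 73, .negSucc 52, .negSucc 308, .ofNat 652⟩, ⟨.negSucc 200, .ofNat 7, .ofNat 2, .negSucc 25, .negSucc 75, .negSucc 171⟩, .ofNat 1483, .negSucc 1885, .ofNat 0, .negSucc 1885, .ofNat 3101, .ofNat 0, .ofNat 128, .ofNat 533, .negSucc 98, .ofNat 0, .ofNat 379, .negSucc 56, .ofNat 0, .ofNat 0, .ofNat 642, .ofNat 9212, .ofNat 0, .ofNat 0, .ofNat 0, .ofNat 0, .ofNat 0, .ofNat 0, .ofNat 0, .ofNat 0, .ofNat 0, .ofNat 0, .ofNat 958443946924193591396624003093334327296, .ofNat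 1659592012653304730618649233157798330769864654848, .ofNat 0, .ofNat 0, .ofNat 3386846594057961434596554356708868096, .ofNat 184041289382773423615422865594236016655788408832⟩)
    (by decide +kernel)
theorem L03715 : Good (Phi V5.P V5.D 1 1) ⟨6, 56, 4, 11, 2, 2, 2, 1, 4, 4⟩ :=
  out_sound (S := T5.ds_pp) T5.ok_pp (w := 65) (j := 3) (by decide +kernel)
theorem L03716 : Good (Phi V5.P V5.D 1 1) ⟨7, 114, 5, 22, 2, 2, 2, 1, 4, 4⟩ :=
  out_sound (S := T5.ds_pp) T5.ok_pp (w := 73) (j := 3) (by decide +kernel)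
theorem L03717 : Good (Phi V5.P V5.D 1 1) ⟨7, 115, 5, 22, 2, 2, 2, 1, 4, 4⟩ :=
  out_sound (S := T5.ds_pp) T5.ok_pp (w := 21) (j := 4) (by decide +kernel)
theorem L03718 : Good (Phi V5.P V5.D 1 1) ⟨6, 57, 5, 23, 2, 2, 2, 1, 4, 4⟩ :=
  out_sound (S := T5.ds_pp) T5.ok_pp (w := 67) (j := 3) (by decide +kernel)
theorem L03719 : Good (Phi V5.P V5.D 1 1) ⟨5, 28, 4, 8, 2, 2, 3, 2, 4, 5⟩ :=
  out_sound (S := T5.ds_pp) T5.ok_pp (w := 59) (j := 3) (by decide +kernel)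
theorem L03720 : Good (Phi V5.P V5.D 1 1) ⟨5, 28, 4, 9, 3, 4, 3, 2, 5, 10⟩ :=
  leafX_sound T5.ok_pp T5.Ypp.bz_eq (w := 245) (c := ⟨⟨.negSucc 2626, .negSucc 119, .ofNat 7, .negSucc 11, .negSucc 182, .ofNat 128⟩, ⟨.negSucc 1604, .negSucc 153, .negSucc 59, .negSucc 8, .negSucc 115, .ofNat 80⟩, ⟨.ofNat 1563, .ofNat 20, .ofNat 13, .negSucc 205, .ofNat 428, .negSucc 145⟩, ⟨.negSucc 3600, .negSucc 11, .ofNat 19, .ofNat 31, .negSucc 231, .ofNat 202⟩, ⟨.negSucc 272, .negSucc 7, .ofNat 2, .negSucc 76, .negSucc 44, .negSucc 32⟩, .ofNat 2055, .negSucc 2808, .ofNat 0, .negSucc 2808, .ofNat 4626, .ofNat 0, .ofNat 128, .ofNat 1370, .negSucc 423, .ofNat 0, .ofNat 941, .negSucc 241, .ofNat 0, .ofNat 0, .ofNat 4428, .ofNat 144492, .ofNat 767836993390752777483371716436896826262113482702848, .ofNat 0, .ofNat 131880402167321087129518131901434469101338624, .ofNat 0, .ofNat 3746557163453191286373819672467762288113546774446080,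 .ofNat 0, .ofNat 7838995239187402130890549403892455115719704576, .ofNat 0, .ofNat 0, .ofNat 0, .ofNat 0, .ofNat 0, .ofNat 0, .ofNat 0, .ofNat 0, .ofNat 0⟩)
    (by decide +kernel)
theorem L03721 : Good (Phi V5.P V5.D 1 1) ⟨5, 28, 4, 9, 3, 5, 3, 2, 5, 10⟩ :=
  leafX_sound T5.ok_pp T5.Ypp.bz_eq (w := 245) (c := ⟨⟨.negSucc 2601, .negSucc 101, .negSucc 5, .ofNat 113, .negSucc 229, .ofNat 131⟩, ⟨.negSucc 1592, .negSucc 139, .negSucc 64, .ofNat 71, .negSucc 145, .ofNat 82⟩, ⟨.ofNat 1317, .negSucc 27, .ofNat 39, .negSucc 252, .ofNat 489, .negSucc 185⟩, ⟨.negSucc 3527, .ofNat 4, .ofNat 10, .ofNat 155, .negSucc 287, .ofNat 213⟩, ⟨.negSucc 332, .negSucc 6, .negSucc 8, .ofNat 9, .negSucc 61, .negSucc 40⟩, .ofNat 3930, .negSucc 5724, .ofNat 0, .negSucc 5724, .ofNat 9182, .ofNat 0, .ofNat 128, .ofNat 1366, .negSucc 124, .ofNat 0, .ofNat 914, .negSucc 72, .ofNat 0, .ofNat 0, .ofNat 1726, .ofNat 86882, .ofNat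 0, .ofNat 0, .ofNat 0, .ofNat 0, .ofNat 0, .ofNat 0, .ofNat 21536502013668413201064662028915400193876164608, .ofNat 0, .ofNat 0, .ofNat 0, .ofNat 0, .ofNat 0, .ofNat 0, .ofNat 0, .ofNat 2753356876286670114332875532989849690701824000, .ofNat 0⟩)
    (by decide +kernel)
theorem L03722 : Good (Phi V5.P V5.D 1 1) ⟨5, 28, 4, 9, 2, 2, 3, 2, 5, 11⟩ :=
  leafX_sound T5.ok_pp T5.Ypp.bz_eq (w := 231) (c := ⟨⟨.negSucc 2440, .ofNat 104, .negSucc 115, .ofNat 96, .negSucc 187, .ofNat 109⟩, ⟨.negSucc 1492, .negSucc 13, .negSucc 130, .ofNat 59, .negSucc 118, .ofNat 68⟩, ⟨.ofNat 1366, .negSucc 150, .ofNat 89, .negSucc 520, .ofNat 465, .negSucc 199⟩, ⟨.negSucc 3364, .ofNat 180, .negSucc 76, .ofNat 200, .negSucc 224, .ofNat 172⟩, ⟨.negSucc 252, .ofNat 104, .negSucc 77, .negSucc 99, .negSucc 66, .negSucc 25⟩, .ofNat 3931, .negSucc 5724, .ofNat 0, .negSucc 5724, .ofNat 9181, .ofNat 0, .ofNat 128, .ofNat 1238, .negSucc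 166, .ofNat 0, .ofNat 830, .negSucc 97, .ofNat 0, .ofNat 0, .ofNat 2978, .ofNat 62193, .ofNat 318338743315165894306061913114961153715850969088, .ofNat 0, .ofNat 3077836815763142018789107306093940310016, .ofNat 0, .ofNat 495043050622272053937622774159744734282544840704, .ofNat 0, .ofNat 1413247038535463638574532286094748281733120, .ofNat 0, .ofNat 0, .ofNat 0, .ofNat 3023591959365447933095704011650691271491584, .ofNat 0, .ofNat 0, .ofNat 0, .ofNat 246948680937194404610564072636317702291456, .ofNat 0⟩)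
    (by decide +kernel)
theorem L03723 : Good (Phi V5.P V5.D 1 1) ⟨5, 28, 3, 4, 2, 2, 3, 3, 4, 5⟩ :=
  leafX_sound T5.ok_pp T5.Ypp.bz_eq (w := 221) (c := ⟨⟨.negSucc 2617, .ofNat 184, .negSucc 263, .ofNat 37, .negSucc 206, .ofNat 285⟩, ⟨.negSucc 1537, .ofNat 30, .negSucc 291, .ofNat 21, .negSucc 131, .ofNat 179⟩, ⟨.ofNat 1821, .negSucc 255, .ofNat 270, .negSucc 430, .ofNat 337, .negSucc 394⟩, ⟨.negSucc 3667, .ofNat 267, .negSucc 221, .ofNat 119, .negSucc 234, .ofNat 445⟩, ⟨.negSucc 242, .ofNat 152, .negSucc 108, .negSucc 106, .negSucc 94, .negSucc 61⟩, .ofNat 2026, .negSucc 2766, .ofNat 0, .negSucc 2766, .ofNat 4570, .ofNat 0, .ofNat 128, .ofNat 1043, .negSucc 197, .ofNat 0, .ofNat 719, .negSucc 110, .ofNat 0, .ofNat 0, .ofNat 2494, .ofNat 15370, .ofNat 0, .ofNat 0, .ofNat 9189732219717238437690686777174523904, .ofNat 0, .ofNat 0, .ofNat 0, .ofNat 4484294301270084832609080430566194544640, .ofNat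 0, .ofNat 0, .ofNat 0, .ofNat 9474518425221166939988213121583511764992, .ofNat 0, .ofNat 0, .ofNat 0, .ofNat 2306006919356657207471888635895176232960, .ofNat 0⟩)
    (by decide +kernel)
theorem L03724 : Good (Phi V5.P V5.D 1 1) ⟨6, 56, 3, 5, 3, 4, 4, 4, 5, 10⟩ :=
  leafX_sound T5.ok_pp T5.Ypp.bz_eq (w := 250) (c := ⟨⟨.negSucc 2634, .negSucc 49, .negSucc 6, .ofNat 15, .negSucc 98, .ofNat 129⟩, ⟨.negSucc 1673, .negSucc 72, .negSucc 126, .ofNat 9, .negSucc 63, .ofNat 84⟩, ⟨.ofNat 1571, .ofNat 1, .ofNat 38, .negSucc 238, .ofNat 255, .negSucc 159⟩, ⟨.negSucc 3595, .ofNat 5, .ofNat 15, .ofNat 67, .negSucc 131, .ofNat 208⟩, ⟨.negSucc 286, .ofNat 1, .negSucc 15, .negSucc 70, .negSucc 10, .negSucc 37⟩, .ofNat 412, .negSucc 332, .ofNat 0, .negSucc 332, .ofNat 708, .ofNat 0, .ofNat 128, .ofNat 251, .negSucc 62, .ofNat 0, .ofNat 230, .negSucc 17, .ofNat 0, .ofNat 0, .ofNat 544, .ofNat 138316, .ofNat 13403701457183102352823715561183620709785225561899008,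 .ofNat 0, .ofNat 28471022773612501249362156398916367296757760, .ofNat 0, .ofNat 34029304834458224090796240991986506063774891091427328, .ofNat 0, .ofNat 136049819559988695032500052359492371373621248, .ofNat 0, .ofNat 0, .ofNat 0, .ofNat 0, .ofNat 0, .ofNat 21511768033477270113421172413963817613531905555169280, .ofNat 0, .ofNat 885051077631397215014843417094471582415323136, .ofNat 0⟩)
    (by decide +kernel)
theorem L03725 : Good (Phi V5.P V5.D 1 1) ⟨6, 57, 3, 5, 3, 4, 4, 4, 5, 10⟩ :=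
  leafX_sound T5.ok_pp T5.Ypp.bz_eq (w := 250) (c := ⟨⟨.negSucc 2689, .negSucc 67, .ofNat 20, .ofNat 12, .negSucc 98, .ofNat 129⟩, ⟨.negSucc 1760, .negSucc 103, .negSucc 67, .ofNat 8, .negSucc 65, .ofNat 86⟩, ⟨.ofNat 1580, .ofNat 13, .ofNat 11, .negSucc 238, .ofNat 254, .negSucc 162⟩, ⟨.negSucc 3591, .ofNat 3, .ofNat 15, .ofNat 68, .negSucc 130, .ofNat 208⟩, ⟨.negSucc 284, .negSucc 11, .negSucc 2, .negSucc 76, .negSucc 10, .negSucc 38⟩, .ofNat 402, .negSucc 312, .ofNat 0, .negSucc 312, .ofNat 651, .ofNat 0, .ofNat 128, .ofNat 243, .negSucc 50, .ofNat 0, .ofNat 235, .negSucc 12, .ofNat 0, .ofNat 0, .ofNat 437, .ofNat 79278, .ofNat 7069821035006229063831548169838574811326384298786816, .ofNat 0, .ofNat 23213067283852326400243991176416102497386496, .ofNat 193112436657149781879786847933959664504030814636343296, .ofNat 0, .ofNat 0, .ofNat 749319081435568970150025168716745757310320640, .ofNat 0, .ofNat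 30945938764928254339320325227620279413062359826038784, .ofNat 0, .ofNat 1684355662047257259092423065011665315074932736, .ofNat 8091237323208703661668033197281322265702586105647333376, .ofNat 7550795914371068516315111773555822458654774607740928, .ofNat 0, .ofNat 734123767973992805036278140027732734953652224, .ofNat 2488317644766242462033552666107688300731644344600100864⟩)
    (by decide +kernel)
theorem L03726 : Good (Phi V5.P V5.D 1 1) ⟨5, 28, 3, 5, 3, 4, 4, 5, 5, 10⟩ :=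
  leafX_sound T5.ok_pp T5.Ypp.bz_eq (w := 247) (c := ⟨⟨.negSucc 2706, .negSucc 132, .ofNat 7, .negSucc 12, .negSucc 94, .ofNat 131⟩, ⟨.negSucc 1719, .negSucc 166, .negSucc 122, .negSucc 8, .negSucc 61, .ofNat 86⟩, ⟨.ofNat 1795, .ofNat 33, .ofNat 24, .negSucc 202, .ofNat 211, .negSucc 159⟩, ⟨.negSucc 3699, .negSucc 11, .ofNat 13, .ofNat 33, .negSucc 117, .ofNat 207⟩, ⟨.negSucc 289, .negSucc 11, .ofNat 3, .negSucc 77, .negSucc 25, .negSucc 34⟩, .ofNat 2468, .negSucc 3370, .ofNat 0, .negSucc 3370, .ofNat 5358, .ofNat 0, .ofNat 128, .ofNat 1091, .negSucc 158, .ofNat 0, .ofNat 755, .negSucc 95, .ofNat 0, .ofNat 0, .ofNat 1617, .ofNat 184547, .ofNat 572517107315425492735145063771109442709305138610176, .ofNat 0, .ofNat 65465823392116611710327989108705844363526144, .ofNat 16043917839973358256731010983490297816997868794281984, .ofNat 0, .ofNat 0, .ofNat 18736667461723878047784883050913710145405976576,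 .ofNat 4691556502881710401033299596594591068166966733977944064, .ofNat 0, .ofNat 0, .ofNat 0, .ofNat 0, .ofNat 0, .ofNat 0, .ofNat 12142043062859282069873288547440830262731079680, .ofNat 3597863611686369821118252892776268647240804331421696000⟩)
    (by decide +kernel)
theorem L03727 : Good (Phi V5.P V5.D 1 1) ⟨5, 28, 3, 5, 3, 5, 3, 2, 5, 10⟩ :=
  leafX_sound T5.ok_pp T5.Ypp.bz_eq (w := 241) (c := ⟨⟨.negSucc 2615, .negSucc 85, .negSucc 25, .ofNat 114, .negSucc 230, .ofNat 142⟩, ⟨.negSucc 1669, .negSucc 102, .negSucc 171, .ofNat 75, .negSucc 151, .ofNat 94⟩, ⟨.ofNat 1353, .negSucc 52, .ofNat 89, .negSucc 243, .ofNat 510, .negSucc 202⟩, ⟨.negSucc 3525, .ofNat 20, .ofNat 19, .ofNat 161, .negSucc 293, .ofNat 231⟩, ⟨.negSucc 343, .negSucc 18, .negSucc 12, .negSucc 0, .negSucc 47, .negSucc 49⟩, .ofNat 2446, .negSucc 3340, .ofNat 0, .negSucc 3340, .ofNat 5316, .ofNat 0, .ofNat 128, .ofNat 1088, .negSucc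 137, .ofNat 0, .ofNat 756, .negSucc 79, .ofNat 0, .ofNat 0, .ofNat 1818, .ofNat 44696, .ofNat 0, .ofNat 0, .ofNat 0, .ofNat 0, .ofNat 0, .ofNat 0, .ofNat 2807222596663642072259580103772832728570920960, .ofNat 265221009768177343274149741224876730654265954143305728, .ofNat 0, .ofNat 0, .ofNat 0, .ofNat 0, .ofNat 0, .ofNat 0, .ofNat 0, .ofNat 0⟩)
    (by decide +kernel)
theorem L03728 : Good (Phi V5.P V5.D 1 1) ⟨5, 28, 3, 5, 2, 2, 3, 2, 5, 11⟩ :=
  leafX_sound T5.ok_pp T5.Ypp.bz_eq (w := 227) (c := ⟨⟨.negSucc 2525, .negSucc 19, .negSucc 81, .ofNat 108, .negSucc 214, .ofNat 122⟩, ⟨.negSucc 1600, .negSucc 105, .negSucc 151, .ofNat 71, .negSucc 140, .ofNat 80⟩, ⟨.ofNat 1461, .negSucc 129, .ofNat 131, .negSucc 538, .ofNat 480, .negSucc 219⟩, ⟨.negSucc 3423, .ofNat 70, .negSucc 17, .ofNat 238, .negSucc 261, .ofNat 196⟩, ⟨.negSucc 296, .ofNat 9, .negSucc 38, .negSucc 133, .negSucc 62, .negSucc 38⟩, .ofNat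 908, .negSucc 1028, .ofNat 0, .negSucc 1028, .ofNat 1789, .ofNat 0, .ofNat 128, .ofNat 659, .negSucc 130, .ofNat 0, .ofNat 508, .negSucc 58, .ofNat 0, .ofNat 0, .ofNat 1964, .ofNat 42147, .ofNat 26169975341172662755124127474826286488327553024, .ofNat 0, .ofNat 172723665681002485552899619733651849216, .ofNat 0, .ofNat 30402353539266181476595199571283136037102026752, .ofNat 0, .ofNat 29728317857480452524725527848997084987392, .ofNat 2859769193902078318096975550361201464365847412736, .ofNat 0, .ofNat 0, .ofNat 0, .ofNat 0, .ofNat 0, .ofNat 0, .ofNat 56558871932720283054334843082607540830208, .ofNat 21042168431028433066131888210617349991805090791424⟩)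
    (by decide +kernel)
theorem L03729 : Good (Phi V5.P V5.D 1 1) ⟨5, 28, 3, 5, 2, 2, 3, 3, 4, 5⟩ :=
  leafX_sound T5.ok_pp T5.Ypp.bz_eq (w := 221) (c := ⟨⟨.negSucc 2842, .ofNat 29, .negSucc 122, .ofNat 21, .negSucc 227, .ofNat 290⟩, ⟨.negSucc 1811, .negSucc 39, .negSucc 240, .ofNat 13, .negSucc 149, .ofNat 188⟩, ⟨.ofNat 2023, .ofNat 47, .negSucc 21, .negSucc 413, .ofNat 342, .negSucc 404⟩, ⟨.negSucc 3845, .ofNat 67, .ofNat 1, .ofNat 117, .negSucc 261, .ofNat 451⟩, ⟨.negSucc 320, .ofNat 24, .negSucc 24, .negSucc 135, .negSucc 90, .negSucc 62⟩, .ofNat 2429, .negSucc 3316, .ofNat 0, .negSucc 3316, .ofNat 5286, .ofNat 0, .ofNat 128, .ofNat 1204, .negSucc 325, .ofNat 0, .ofNat 836, .negSucc 195, .ofNat 0, .ofNat 0, .ofNat 3735, .ofNat 18485, .ofNat 0, .ofNat 0, .ofNat 6482971164878726062825962620456009728, .ofNat 1371809121067534699888046331588245614835531776, .ofNat 0, .ofNat 74593747749182602904533707266978511216181248,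 .ofNat 2849198365444467710409571138333510205440, .ofNat 337903521611226187757044266027552266967754735616, .ofNat 0, .ofNat 0, .ofNat 4113823904221369167460655521795795845120, .ofNat 0, .ofNat 0, .ofNat 0, .ofNat 0, .ofNat 0⟩)
    (by decide +kernel)
theorem L03730 : Good (Phi V5.P V5.D 1 1) ⟨5, 29, 2, 2, 2, 2, 2, 1, 3, 2⟩ :=
  out_sound (S := T5.ds_pp) T5.ok_pp (w := 17) (j := 4) (by decide +kernel)
theorem L03731 : Good (Phi V5.P V5.D 1 1) ⟨4, 15, 2, 2, 2, 2, 1, 0, 3, 2⟩ :=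
  out_sound (S := T5.ds_pp) T5.ok_pp (w := 49) (j := 3) (by decide +kernel)
theorem L03732 : Good (Phi V5.P V5.D 1 1) ⟨4, 12, 3, 4, 2, 3, 2, 0, 4, 4⟩ :=
  out_sound (S := T5.ds_pp) T5.ok_pp (w := 51) (j := 3) (by decide +kernel)
theorem L03733 : Good (Phi V5.P V5.D 1 1) ⟨4, 13, 3, 4, 3, 6, 2, 0, 4, 4⟩ :=
  leafX_sound T5.ok_pp T5.Ypp.bz_eq (w := 224) (c := ⟨⟨.negSucc 1937, .negSucc 199, .ofNat 46, .ofNat 272, .negSucc 569, .ofNat 162⟩, ⟨.negSucc 1010, .negSucc 224, .negSucc 105, .ofNat 166, .negSucc 330, .ofNat 88⟩, ⟨.ofNat 120, .negSucc 101, .ofNat 68, .negSucc 120, .ofNat 1181, .negSucc 195⟩, ⟨.negSucc 2962, .negSucc 31, .ofNat 131, .ofNat 178, .negSucc 860, .ofNat 362⟩, ⟨.negSucc 107, .ofNat 25, .negSucc 142, .ofNat 383, .ofNat 41, .negSucc 212⟩, .ofNat 1084, .negSucc 1371, .ofNat 0, .negSucc 1371, .ofNat 2557, .ofNat 0, .ofNat 128, .ofNat 260, .negSucc 61, .ofNat 0, .ofNat 185, .negSucc 24,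 .ofNat 0, .ofNat 0, .ofNat 691, .ofNat 6607, .ofNat 0, .ofNat 0, .ofNat 5093803102897767040206789728773905317888, .ofNat 0, .ofNat 0, .ofNat 0, .ofNat 0, .ofNat 0, .ofNat 0, .ofNat 0, .ofNat 379988251567008648357252946302307026337792, .ofNat 0, .ofNat 270006230304503696463429963733287509521151819776, .ofNat 0, .ofNat 321798667770687274021915657851937482604544, .ofNat 0⟩)
    (by decide +kernel)
theorem L03734 : Good (Phi V5.P V5.D 1 1) ⟨4, 13, 3, 4, 3, 7, 2, 0, 4, 4⟩ :=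
  leafX_sound T5.ok_pp T5.Ypp.bz_eq (w := 224) (c := ⟨⟨.negSucc 1707, .negSucc 100, .ofNat 51, .ofNat 518, .negSucc 515, .ofNat 30⟩, ⟨.negSucc 928, .negSucc 70, .negSucc 145, .ofNat 334, .negSucc 290, .ofNat 9⟩, ⟨.ofNat 18, .ofNat 47, .negSucc 11, .ofNat 211, .ofNat 924, .negSucc 107⟩, ⟨.negSucc 2624, .ofNat 26, .ofNat 121, .ofNat 84, .negSucc 1012, .ofNat 220⟩, ⟨.ofNat 31, .ofNat 18, .negSucc 156, .ofNat 1132, .ofNat 438, .negSucc 305⟩, .ofNat 1101, .negSucc 1393, .ofNat 0, .negSucc 1393, .ofNat 2577, .ofNat 0, .ofNat 128, .ofNat 411, .negSucc 54, .ofNat 0, .ofNat 305, .negSucc 11, .ofNat 0, .ofNat 0, .ofNat 1042, .ofNat 6417, .ofNat 0, .ofNat 0, .ofNat 15131670909437097904362714367650491793408, .ofNat 0, .ofNat 0, .ofNat 0, .ofNat 1098161116226558887551676972114757917081600, .ofNat 0, .ofNat 0, .ofNat 0, .ofNat 0, .ofNat 0, .ofNat 108070205959055041103566792198954978514613305344, .ofNat 0, .ofNat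 706170033765240382789514587356739798040576, .ofNat 0⟩)
    (by decide +kernel)
theorem L03735 : Good (Phi V5.P V5.D 1 1) ⟨3, 6, 3, 5, 2, 3, 2, 0, 4, 4⟩ :=
  out_sound (S := T5.ds_pp) T5.ok_pp (w := 45) (j := 3) (by decide +kernel)
theorem L03736 : Good (Phi V5.P V5.D 1 1) ⟨5, 28, 4, 8, 2, 3, 2, 0, 5, 8⟩ :=
  out_sound (S := T5.ds_pp) T5.ok_pp (w := 59) (j := 3) (by decide +kernel)
theorem L03737 : Good (Phi V5.P V5.D 1 1) ⟨5, 28, 4, 9, 2, 3, 2, 0, 5, 8⟩ :=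
  leafX_sound T5.ok_pp T5.Ypp.bz_eq (w := 224) (c := ⟨⟨.negSucc 2243, .negSucc 127, .ofNat 71, .ofNat 938, .negSucc 563, .ofNat 37⟩, ⟨.negSucc 1366, .negSucc 124, .negSucc 25, .ofNat 614, .negSucc 349, .ofNat 21⟩, ⟨.ofNat 148, .negSucc 23, .ofNat 21, .negSucc 148, .ofNat 1092, .negSucc 82⟩, ⟨.negSucc 2773, .negSucc 21, .ofNat 27, .ofNat 371, .negSucc 1080, .ofNat 203⟩, ⟨.negSucc 660, .negSucc 27, .ofNat 73, .ofNat 1521, .ofNat 439, .negSucc 235⟩, .ofNat 2417, .negSucc 3254, .ofNat 0, .negSucc 3254, .ofNat 5151, .ofNat 0, .ofNat 128, .ofNat 645, .negSucc 176, .ofNat 0, .ofNat 478, .negSucc 82, .ofNat 0, .ofNat 0, .ofNat 1999, .ofNat 9107, .ofNat 373670813210172126533195438482445660374171648, .ofNat 0, .ofNat 11942641521452135688558163002199638016, .ofNat 0, .ofNat 24558788270779363651632184032227676237307314176, .ofNat 0, .ofNat 10699046254700325745088214643680626081792, .ofNat 0, .ofNat 0, .ofNat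 0, .ofNat 10816945182437552050053459045392387670016, .ofNat 0, .ofNat 228058116903221958812143014355154411506272043008, .ofNat 0, .ofNat 11366744575645043861924829930196117225472, .ofNat 0⟩)
    (by decide +kernel)
theorem L03738 : Good (Phi V5.P V5.D 1 1) ⟨6, 56, 4, 10, 3, 6, 2, 0, 5, 8⟩ :=
  leafX_sound T5.ok_pp T5.Ypp.bz_eq (w := 244) (c := ⟨⟨.negSucc 2060, .negSucc 113, .ofNat 91, .ofNat 347, .negSucc 656, .ofNat 97⟩, ⟨.negSucc 1310, .negSucc 94, .negSucc 16, .ofNat 228, .negSucc 424, .ofNat 62⟩, ⟨.ofNat 112, .negSucc 83, .ofNat 128, .negSucc 191, .ofNat 1293, .negSucc 110⟩, ⟨.negSucc 2815, .negSucc 53, .ofNat 78, .ofNat 254, .negSucc 994, .ofNat 212⟩, ⟨.negSucc 232, .negSucc 42, .ofNat 50, .ofNat 362, .ofNat 105, .negSucc 114⟩, .ofNat 3623, .negSucc 5148, .ofNat 0, .negSucc 5148, .ofNat 8109, .ofNat 0, .ofNat 128, .ofNat 1251, .negSucc 277, .ofNat 0, .ofNat 849, .negSucc 164, .ofNat 0, .ofNat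 0, .ofNat 2596, .ofNat 29481, .ofNat 0, .ofNat 0, .ofNat 433873023334334130544134111859663098085376, .ofNat 0, .ofNat 0, .ofNat 0, .ofNat 44511063083723903882739426335947041932312576, .ofNat 0, .ofNat 0, .ofNat 0, .ofNat 188619374934911866889896623988809557790949376, .ofNat 0, .ofNat 63439254097142954231183553544597255608600555492999168, .ofNat 0, .ofNat 69436017079474638820725549748754809152864256, .ofNat 0⟩)
    (by decide +kernel)
theorem L03739 : Good (Phi V5.P V5.D 1 1) ⟨6, 56, 5, 20, 3, 7, 2, 0, 5, 8⟩ :=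
  leafX_sound T5.ok_pp T5.Ypp.bz_eq (w := 245) (c := ⟨⟨.negSucc 1757, .negSucc 43, .ofNat 1, .ofNat 605, .negSucc 567, .ofNat 2⟩, ⟨.negSucc 1124, .negSucc 33, .negSucc 37, .ofNat 402, .negSucc 362, .ofNat 2⟩, ⟨.ofNat 9, .negSucc 4, .negSucc 22, .ofNat 220, .ofNat 990, .negSucc 15⟩, ⟨.negSucc 2397, .ofNat 18, .ofNat 20, .ofNat 106, .negSucc 1210, .ofNat 129⟩, ⟨.negSucc 166, .negSucc 74, .negSucc 34, .ofNat 1157, .ofNat 630, .negSucc 193⟩, .ofNat 2642, .negSucc 3684, .ofNat 0, .negSucc 3684, .ofNat 5922, .ofNat 0, .ofNat 128, .ofNat 604, .negSucc 87, .ofNat 0, .ofNat 415, .negSucc 44, .ofNat 0, .ofNat 0, .ofNat 1353, .ofNat 15412, .ofNat 0, .ofNat 0, .ofNat 0, .ofNat 0, .ofNat 0, .ofNat 0, .ofNat 177797620909932945409160082458663180830769152, .ofNat 0, .ofNat 0, .ofNat 0, .ofNat 0, .ofNat 0, .ofNat 56124470200899518796016944373974294504720271428026368, .ofNat 0, .ofNat 47158160168124303081475919616270359576182784,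 .ofNat 0⟩)
    (by decide +kernel)
theorem L03740 : Good (Phi V5.P V5.D 1 1) ⟨6, 56, 5, 21, 3, 7, 2, 0, 5, 8⟩ :=
  leafX_sound T5.ok_pp T5.Ypp.bz_eq (w := 257) (c := ⟨⟨.negSucc 1786, .negSucc 0, .ofNat 167, .ofNat 621, .negSucc 581, .negSucc 5⟩, ⟨.negSucc 1182, .negSucc 0, .ofNat 66, .ofNat 415, .negSucc 381, .negSucc 3⟩, ⟨.ofNat 62, .ofNat 0, .ofNat 62, .ofNat 177, .ofNat 973, .negSucc 60⟩, ⟨.negSucc 2915, .negSucc 0, .ofNat 29, .ofNat 574, .negSucc 614, .ofNat 15⟩, ⟨.ofNat 608, .ofNat 0, .ofNat 18, .ofNat 451, .negSucc 300, .negSucc 33⟩, .ofNat 28904, .negSucc 43158, .ofNat 0, .negSucc 43158, .ofNat 65259, .ofNat 0, .ofNat 128, .ofNat 4531, .negSucc 533, .ofNat 0, .ofNat 3034, .negSucc 338, .ofNat 0, .ofNat 0, .ofNat 9827, .ofNat 101990, .ofNat 703768618151588611883612097404618922904003645800448, .ofNat 0, .ofNat 58094576416257328383656355629480152305500160, .ofNat 0, .ofNat 0, .ofNat 0, .ofNat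 3737414703851106968888927261104888551575650304, .ofNat 0, .ofNat 0, .ofNat 0, .ofNat 47246137015970608860849096964660999933057302528, .ofNat 0, .ofNat 3367365689410223416927049380255868595903499366802915328, .ofNat 0, .ofNat 10064082665180694840436456494873129525796929536, .ofNat 0⟩)
    (by decide +kernel)
theorem L03741 : Good (Phi V5.P V5.D 1 1) ⟨7, 114, 4, 10, 3, 6, 3, 0, 5, 8⟩ :=
  leafX_sound T5.ok_pp T5.Ypp.bz_eq (w := 252) (c := ⟨⟨.negSucc 2136, .negSucc 24, .ofNat 18, .ofNat 366, .negSucc 316, .ofNat 55⟩, ⟨.negSucc 1381, .negSucc 26, .negSucc 52, .ofNat 244, .negSucc 210, .ofNat 36⟩, ⟨.negSucc 61, .ofNat 19, .negSucc 11, .negSucc 94, .ofNat 751, .negSucc 147⟩, ⟨.negSucc 2808, .ofNat 34, .ofNat 21, .ofNat 308, .negSucc 502, .ofNat 160⟩, ⟨.negSucc 288, .negSucc 45, .negSucc 19, .ofNat 309, .ofNat 93, .negSucc 124⟩, .ofNat 2687, .negSucc 3664, .ofNat 0, .negSucc 3664, .ofNat 5734, .ofNat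 0, .ofNat 128, .ofNat 1356, .negSucc 207, .ofNat 0, .ofNat 943, .negSucc 121, .ofNat 0, .ofNat 0, .ofNat 2141, .ofNat 162928, .ofNat 0, .ofNat 0, .ofNat 0, .ofNat 0, .ofNat 0, .ofNat 0, .ofNat 322582067781373390288862229368192255477678080, .ofNat 0, .ofNat 0, .ofNat 0, .ofNat 0, .ofNat 0, .ofNat 14038692254354917427741350635619105775707078244060626944, .ofNat 0, .ofNat 274315933281501559938823513485439843006676992, .ofNat 37783343768246166398062881768424660378326456942192492544⟩)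
    (by decide +kernel)
theorem L03742 : Good (Phi V5.P V5.D 1 1) ⟨7, 114, 5, 20, 3, 7, 3, 0, 5, 8⟩ :=
  leafX_sound T5.ok_pp T5.Ypp.bz_eq (w := 265) (c := ⟨⟨.negSucc 1812, .ofNat 1, .ofNat 15, .ofNat 624, .negSucc 251, .negSucc 29⟩, ⟨.negSucc 1180, .ofNat 1, .negSucc 9, .ofNat 417, .negSucc 164, .negSucc 19⟩, ⟨.negSucc 111, .ofNat 0, .ofNat 3, .ofNat 318, .ofNat 585, .negSucc 75⟩, ⟨.negSucc 2745, .ofNat 1, .negSucc 1, .ofNat 541, .negSucc 275, .negSucc 36⟩, ⟨.ofNat 328, .ofNat 0, .ofNat 0, .ofNat 506, .negSucc 112, .negSucc 6⟩, .ofNat 21726, .negSucc 32347, .ofNat 0, .negSucc 32347, .ofNat 48974, .ofNat 0, .ofNat 128, .ofNat 6431, .negSucc 741, .ofNat 0, .ofNat 4311, .negSucc 468, .ofNat 0, .ofNat 0, .ofNat 14319, .ofNat 454922, .ofNat 0, .ofNat 0, .ofNat 0, .ofNat 0, .ofNat 0, .ofNat 0, .ofNat 5426815291253928679408942993948847591367542571008, .ofNat 0, .ofNat 0, .ofNat 0, .ofNat 50845466214689485359767484573732592870039224320,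 .ofNat 0, .ofNat 0, .ofNat 0, .ofNat 500114111372068622584074972743049608979407699968, .ofNat 0⟩)
    (by decide +kernel)
theorem L03743 : Good (Phi V5.P V5.D 1 1) ⟨7, 114, 6, 42, 3, 7, 3, 0, 5, 8⟩ :=
  leafX_sound T5.ok_pp T5.Ypp.bz_eq (w := 264) (c := ⟨⟨.negSucc 1781, .ofNat 60, .negSucc 35, .ofNat 613, .negSucc 253, .negSucc 27⟩, ⟨.negSucc 1180, .ofNat 41, .negSucc 42, .ofNat 412, .negSucc 166, .negSucc 18⟩, ⟨.negSucc 91, .ofNat 23, .ofNat 8, .ofNat 356, .ofNat 498, .negSucc 39⟩, ⟨.negSucc 2568, .ofNat 4, .negSucc 6, .ofNat 354, .negSucc 367, .ofNat 43⟩, ⟨.ofNat 93, .ofNat 9, .ofNat 7, .ofNat 759, .ofNat 22, .negSucc 123⟩, .ofNat 12201, .negSucc 17812, .ofNat 0, .negSucc 17812, .ofNat 26788, .ofNat 0, .ofNat 128, .ofNat 2676, .negSucc 354, .ofNat 0, .ofNat 1822, .negSucc 220, .ofNat 0, .ofNat 0, .ofNat 6927, .ofNat 215340, .ofNat 0, .ofNat 0, .ofNat 22266218969782642157676021995743295257444352,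 .ofNat 13199580848132079884652452971228439427439916314552958976, .ofNat 0, .ofNat 0, .ofNat 93419777348570324127078863920218051545986498560, .ofNat 0, .ofNat 0, .ofNat 0, .ofNat 99828242694118953519559405797628784610205761536, .ofNat 0, .ofNat 3137944002570991343327559958691986817949076745375480545280, .ofNat 0, .ofNat 64328325507591654121145499220125722367970246656, .ofNat 0⟩)
    (by decide +kernel)
theorem L03744 : Good (Phi V5.P V5.D 1 1) ⟨8, 228, 6, 43, 3, 7, 3, 0, 5, 8⟩ :=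
  out_sound (S := T5.ds_pp) T5.ok_pp (w := 81) (j := 3) (by decide +kernel)
theorem L03745 : Good (Phi V5.P V5.D 1 1) ⟨8, 229, 6, 43, 3, 7, 3, 0, 5, 8⟩ :=
  out_sound (S := T5.ds_pp) T5.ok_pp (w := 23) (j := 4) (by decide +kernel)
theorem L03746 : Good (Phi V5.P V5.D 1 1) ⟨7, 114, 5, 20, 2, 3, 3, 1, 5, 8⟩ :=
  leafX_sound T5.ok_pp T5.Ypp.bz_eq (w := 251) (c := ⟨⟨.negSucc 2527, .ofNat 1, .ofNat 3, .ofNat 1000, .negSucc 286, .ofNat 48⟩, ⟨.negSucc 1664, .ofNat 1, .negSucc 6, .ofNat 667, .negSucc 188, .ofNat 31⟩, ⟨.ofNat 698, .ofNat 0, .ofNat 7, .negSucc 136, .ofNat 563, .negSucc 0⟩, ⟨.negSucc 3617, .ofNat 2, .negSucc 1, .ofNat 931, .negSucc 292, .ofNat 50⟩, ⟨.ofNat 105, .ofNat 0, .ofNat 0, .ofNat 713, .negSucc 164, .ofNat 26⟩, .ofNat 26827, .negSucc 40030, .ofNat 0, .negSucc 40030, .ofNat 60546, .ofNat 0, .ofNat 128, .ofNat 4658, .negSucc 741, .ofNat 0, .ofNat 3119, .negSucc 477, .ofNat 0, .ofNat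 0, .ofNat 9413, .ofNat 110912, .ofNat 0, .ofNat 0, .ofNat 0, .ofNat 0, .ofNat 0, .ofNat 0, .ofNat 446048494649852139517869032834519495398653952, .ofNat 0, .ofNat 0, .ofNat 0, .ofNat 154729270992739847423233584724894354526699520, .ofNat 0, .ofNat 0, .ofNat 0, .ofNat 0, .ofNat 0⟩)
    (by decide +kernel)
theorem L03747 : Good (Phi V5.P V5.D 1 1) ⟨7, 114, 6, 42, 3, 6, 3, 1, 5, 8⟩ :=
  leafX_sound T5.ok_pp T5.Ypp.bz_eq (w := 265) (c := ⟨⟨.negSucc 2450, .ofNat 135, .negSucc 91, .ofNat 355, .negSucc 330, .ofNat 97⟩, ⟨.negSucc 1622, .ofNat 61, .negSucc 69, .ofNat 237, .negSucc 218, .ofNat 64⟩, ⟨.ofNat 741, .ofNat 49, .negSucc 6, .negSucc 186, .ofNat 650, .negSucc 123⟩, ⟨.negSucc 3390, .ofNat 17, .negSucc 8, .ofNat 306, .negSucc 342, .ofNat 140⟩, ⟨.negSucc 87, .ofNat 5, .negSucc 18, .ofNat 288, .negSucc 179, .negSucc 7⟩, .ofNat 18990, .negSucc 28079, .ofNat 0, .negSucc 28079, .ofNat 42319, .ofNat 0, .ofNat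 128, .ofNat 2939, .negSucc 587, .ofNat 0, .ofNat 1974, .negSucc 384, .ofNat 0, .ofNat 0, .ofNat 5572, .ofNat 54209, .ofNat 0, .ofNat 0, .ofNat 29999564339208497249367707184181926757924864, .ofNat 0, .ofNat 0, .ofNat 0, .ofNat 165538378692458610381064965405535669463445143552, .ofNat 96352142072160424087137084332557409309709049051746402304, .ofNat 0, .ofNat 0, .ofNat 0, .ofNat 0, .ofNat 0, .ofNat 0, .ofNat 0, .ofNat 0⟩)
    (by decide +kernel)
theorem L03748 : Good (Phi V5.P V5.D 1 1) ⟨7, 114, 6, 42, 3, 7, 3, 1, 5, 8⟩ :=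
  leafX_sound T5.ok_pp T5.Ypp.bz_eq (w := 260) (c := ⟨⟨.negSucc 2079, .negSucc 35, .ofNat 15, .ofNat 649, .negSucc 321, .ofNat 7⟩, ⟨.negSucc 1374, .negSucc 12, .negSucc 18, .ofNat 435, .negSucc 213, .ofNat 4⟩, ⟨.ofNat 541, .negSucc 37, .ofNat 24, .ofNat 135, .ofNat 500, .negSucc 27⟩, ⟨.negSucc 2909, .ofNat 4, .negSucc 2, .ofNat 60, .negSucc 648, .ofNat 138⟩, ⟨.negSucc 16, .ofNat 8, .negSucc 1, .ofNat 1274, .ofNat 295, .negSucc 192⟩, .ofNat 4541, .negSucc 6433, .ofNat 0, .negSucc 6433, .ofNat 9879, .ofNat 0, .ofNat 128, .ofNat 1793, .negSucc 221, .ofNat 0, .ofNat 1236, .negSucc 126, .ofNat 0, .ofNat 0, .ofNat 3447, .ofNat 50309, .ofNat 0, .ofNat 0, .ofNat 0, .ofNat 0, .ofNat 0, .ofNat 0, .ofNat 13389184554936868304460558009112246539610226688, .ofNat 0, .ofNat 0, .ofNat 0, .ofNat 0, .ofNat 0, .ofNat 0, .ofNat 0, .ofNat 0, .ofNat 0⟩)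
    (by decide +kernel)
theorem L03749 : Good (Phi V5.P V5.D 1 1) ⟨8, 228, 6, 43, 2, 3, 3, 1, 5, 8⟩ :=
  out_sound (S := T5.ds_pp) T5.ok_pp (w := 81) (j := 3) (by decide +kernel)
theorem L03750 : Good (Phi V5.P V5.D 1 1) ⟨8, 229, 6, 43, 2, 3, 3, 1, 5, 8⟩ :=
  out_sound (S := T5.ds_pp) T5.ok_pp (w := 23) (j := 4) (by decide +kernel)
theorem L03751 : Good (Phi V5.P V5.D 1 1) ⟨7, 115, 4, 10, 2, 3, 2, 0, 5, 8⟩ :=
  out_sound (S := T5.ds_pp) T5.ok_pp (w := 21) (j := 4) (by decide +kernel)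
theorem L03752 : Good (Phi V5.P V5.D 1 1) ⟨6, 56, 4, 11, 2, 3, 2, 0, 5, 8⟩ :=
  out_sound (S := T5.ds_pp) T5.ok_pp (w := 65) (j := 3) (by decide +kernel)
theorem L03753 : Good (Phi V5.P V5.D 1 1) ⟨7, 114, 5, 22, 2, 3, 2, 0, 5, 8⟩ :=
  out_sound (S := T5.ds_pp) T5.ok_pp (w := 73) (j := 3) (by decide +kernel)
theorem L03754 : Good (Phi V5.P V5.D 1 1) ⟨7, 115, 5, 22, 2, 3, 2, 0, 5, 8⟩ :=
  out_sound (S := T5.ds_pp) T5.ok_pp (w := 21) (j := 4) (by decide +kernel)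
theorem L03755 : Good (Phi V5.P V5.D 1 1) ⟨6, 57, 5, 23, 2, 3, 2, 0, 5, 8⟩ :=
  out_sound (S := T5.ds_pp) T5.ok_pp (w := 67) (j := 3) (by decide +kernel)
theorem L03756 : Good (Phi V5.P V5.D 1 1) ⟨5, 28, 4, 8, 2, 3, 2, 0, 5, 9⟩ :=
  out_sound (S := T5.ds_pp) T5.ok_pp (w := 59) (j := 3) (by decide +kernel)
theorem L03757 : Good (Phi V5.P V5.D 1 1) ⟨5, 28, 4, 9, 2, 3, 2, 0, 5, 9⟩ :=
  leafX_sound T5.ok_pp T5.Ypp.bz_eq (w := 224) (c := ⟨⟨.negSucc 2072, .negSucc 67, .negSucc 12, .ofNat 767, .negSucc 509, .ofNat 38⟩, ⟨.negSucc 1256, .negSucc 68, .negSucc 83, .ofNat 503, .negSucc 318, .ofNat 23⟩, ⟨.ofNat 108, .ofNat 142, .negSucc 28, .negSucc 47, .ofNat 1032, .negSucc 138⟩, ⟨.negSucc 2689, .ofNat 26, .ofNat 76, .ofNat 300, .negSucc 923, .ofNat 172⟩, ⟨.negSucc 426, .ofNat 6, .negSucc 181, .ofNat 1255, .ofNat 321, .negSucc 185⟩, .ofNat 2059, .negSucc 2811, .ofNat 0, .negSucc 2811, .ofNat 4626, .ofNat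 0, .ofNat 128, .ofNat 873, .negSucc 152, .ofNat 0, .ofNat 612, .negSucc 65, .ofNat 0, .ofNat 0, .ofNat 3230, .ofNat 7932, .ofNat 725368398107533318241497323769035869938253824, .ofNat 0, .ofNat 16692861804454847944783052689765302272, .ofNat 0, .ofNat 0, .ofNat 0, .ofNat 7369767875256721330896925645630582292480, .ofNat 0, .ofNat 0, .ofNat 0, .ofNat 0, .ofNat 0, .ofNat 209351126634277896605332252065636352440334811136, .ofNat 0, .ofNat 4922072493969534301792257993557858582528, .ofNat 0⟩)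
    (by decide +kernel)
theorem L03758 : Good (Phi V5.P V5.D 1 1) ⟨6, 56, 4, 10, 2, 3, 3, 0, 5, 9⟩ :=
  leafX_sound T5.ok_pp T5.Ypp.bz_eq (w := 234) (c := ⟨⟨.negSucc 2143, .negSucc 127, .ofNat 141, .ofNat 925, .negSucc 221, .negSucc 5⟩, ⟨.negSucc 1373, .negSucc 104, .ofNat 39, .ofNat 613, .negSucc 140, .negSucc 4⟩, ⟨.negSucc 164, .negSucc 341, .ofNat 362, .ofNat 501, .ofNat 577, .negSucc 178⟩, ⟨.negSucc 2582, .ofNat 1, .ofNat 113, .ofNat 346, .negSucc 496, .ofNat 101⟩, ⟨.negSucc 799, .negSucc 72, .negSucc 32, .ofNat 1476, .ofNat 284, .negSucc 165⟩, .ofNat 3507, .negSucc 5017, .ofNat 0, .negSucc 5017, .ofNat 7972, .ofNat 0, .ofNat 128, .ofNat 1261, .negSucc 173, .ofNat 0, .ofNat 848, .negSucc 95, .ofNat 0, .ofNat 0, .ofNat 4230, .ofNat 49448, .ofNat 767145491364546623007073630198303812687855878144, .ofNat 0, .ofNat 3993174137825696755089821729831641939968, .ofNat 0, .ofNat 0, .ofNat 0, .ofNat 195359918267306137776792144542151120781312,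 .ofNat 0, .ofNat 149514868372830368330933835658613855628909785120768, .ofNat 0, .ofNat 868302399374316716926092934754450618187776, .ofNat 0, .ofNat 164153628999593678596498223819106087112871342243840, .ofNat 0, .ofNat 73154800510214060442889800081446491127808, .ofNat 0⟩)
    (by decide +kernel)

end Crest.Agent.R097C5.N5pp
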