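import Crest.Agent.R097.KP7
import Crest.Agent.R097.T5Ypp

/-!
# Row 97, box cover in dimension n = 5 (generated)
-/

set_option autoImplicit false
set_option Elab.async false
set_option maxHeartbeats 0
set_option maxRecDepth 100000

open Crest.Agent.R097 Crest.Agent.R097.KA


namespace Crest.Agent.R097C5.N5pp

theorem L03759 : Good (Phi V5.P V5.D 1 1) ⟨6, 56, 4, 10, 3, 6, 3, 1, 5, 9⟩ :=
  leafX_sound T5.ok_pp T5.Ypp.bz_eq (w := 247) (c := ⟨⟨.negSucc 2321, .negSucc 54, .ofNat 39, .ofNat 298, .negSucc 272, .ofNat 90⟩, ⟨.negSucc 1476, .negSucc 66, .negSucc 31, .ofNat 196, .negSucc 177, .ofNat 58⟩, ⟨.ofNat 609, .negSucc 19, .ofNat 42, .negSucc 180, .ofNat 653, .negSucc 176⟩, ⟨.negSucc 3134, .negSucc 17, .ofNat 85, .ofNat 226, .negSucc 424, .ofNat 201⟩, ⟨.negSucc 305, .ofNat 26, .negSucc 60, .ofNat 299, .ofNat 61, .negSucc 111⟩, .ofNat 895, .negSucc 1011, .ofNat 0, .negSucc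 1011, .ofNat 1774, .ofNat 0, .ofNat 128, .ofNat 675, .negSucc 109, .ofNat 0, .ofNat 525, .negSucc 38, .ofNat 0, .ofNat 0, .ofNat 1425, .ofNat 51528, .ofNat 0, .ofNat 0, .ofNat 0, .ofNat 0, .ofNat 2122171044712010108904692774867300298010759595556864, .ofNat 0, .ofNat 853281553974363456675040346579323826741444608, .ofNat 0, .ofNat 0, .ofNat 0, .ofNat 749874978298858373787820721592661051046887424, .ofNat 0, .ofNat 0, .ofNat 0, .ofNat 0, .ofNat 0⟩)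
    (by decide +kernel)
theorem L03760 : Good (Phi V5.P V5.D 1 1) ⟨6, 56, 4, 10, 3, 7, 3, 1, 5, 9⟩ :=
  leafX_sound T5.ok_pp T5.Ypp.bz_eq (w := 250) (c := ⟨⟨.negSucc 2073, .ofNat 95, .negSucc 113, .ofNat 542, .negSucc 272, .ofNat 20⟩, ⟨.negSucc 1324, .ofNat 52, .negSucc 150, .ofNat 362, .negSucc 174, .ofNat 11⟩, ⟨.ofNat 340, .ofNat 234, .negSucc 240, .ofNat 272, .ofNat 519, .negSucc 139⟩, ⟨.negSucc 2894, .ofNat 66, .negSucc 107, .ofNat 45, .negSucc 459, .ofNat 178⟩, ⟨.negSucc 66, .ofNat 104, .negSucc 21, .ofNat 1102, .ofNat 112, .negSucc 232⟩, .ofNat 5167, .negSucc 7506, .ofNat 0, .negSucc 7506, .ofNat 11716, .ofNat 0, .ofNat 128, .ofNat 1539, .negSucc 91, .ofNat 0, .ofNat 1047, .negSucc 41, .ofNat 0, .ofNat 0, .ofNat 3835, .ofNat 13700, .ofNat 0, .ofNat 0, .ofNat 23746241967744364503606703752472914949046272, .ofNat 0, .ofNat 0, .ofNat 0, .ofNat 5687588103125500793945371698172688982700195840,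 .ofNat 0, .ofNat 0, .ofNat 0, .ofNat 0, .ofNat 0, .ofNat 0, .ofNat 0, .ofNat 0, .ofNat 0⟩)
    (by decide +kernel)
theorem L03761 : Good (Phi V5.P V5.D 1 1) ⟨7, 114, 4, 10, 3, 6, 3, 0, 5, 9⟩ :=
  leafX_sound T5.ok_pp T5.Ypp.bz_eq (w := 252) (c := ⟨⟨.negSucc 2077, .ofNat 0, .negSucc 35, .ofNat 345, .negSucc 276, .ofNat 53⟩, ⟨.negSucc 1347, .negSucc 12, .negSucc 79, .ofNat 231, .negSucc 183, .ofNat 35⟩, ⟨.negSucc 253, .negSucc 6, .negSucc 4, .negSucc 62, .ofNat 777, .negSucc 216⟩, ⟨.negSucc 2654, .ofNat 29, .ofNat 7, .ofNat 266, .negSucc 453, .ofNat 153⟩, ⟨.negSucc 437, .negSucc 29, .negSucc 18, .ofNat 327, .ofNat 100, .negSucc 118⟩, .ofNat 938, .negSucc 1064, .ofNat 0, .negSucc 1064, .ofNat 1821, .ofNat 0, .ofNat 128, .ofNat 497, .negSucc 86, .ofNat 0, .ofNat 388, .negSucc 29, .ofNat 0, .ofNat 0, .ofNat 1267, .ofNat 161486, .ofNat 0, .ofNat 0, .ofNat 0, .ofNat 0, .ofNat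 934392324098366329325222485188741323842252617877028864, .ofNat 0, .ofNat 61829824222711200170641959798560896774569984, .ofNat 0, .ofNat 4447628768450945615876768089722339003717964164356898816, .ofNat 0, .ofNat 103644815066409295946296331706078727610826752, .ofNat 0, .ofNat 7168879523305411652427839510709697230746083242826268672, .ofNat 0, .ofNat 53816811802169166010450690281431574006202368, .ofNat 3079160251371035675555329298583179724245212078075281408⟩)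
    (by decide +kernel)
theorem L03762 : Good (Phi V5.P V5.D 1 1) ⟨7, 114, 5, 20, 3, 7, 3, 0, 5, 9⟩ :=
  leafX_sound T5.ok_pp T5.Ypp.bz_eq (w := 263) (c := ⟨⟨.negSucc 1830, .ofNat 1, .ofNat 38, .ofNat 532, .negSucc 217, .negSucc 9⟩, ⟨.negSucc 1195, .ofNat 1, .ofNat 8, .ofNat 356, .negSucc 142, .negSucc 7⟩, ⟨.negSucc 257, .ofNat 0, .ofNat 10, .ofNat 462, .ofNat 579, .negSucc 156⟩, ⟨.negSucc 2662, .ofNat 1, .negSucc 0, .ofNat 462, .negSucc 219, .ofNat 20⟩, ⟨.ofNat 213, .ofNat 0, .ofNat 0, .ofNat 432, .negSucc 128, .negSucc 52⟩, .ofNat 21697, .negSucc 32303, .ofNat 0, .negSucc 32303, .ofNat 48907, .ofNat 0, .ofNat 128, .ofNat 2993, .negSucc 172, .ofNat 0, .ofNat 2009, .negSucc 101, .ofNat 0, .ofNat 0, .ofNat 9193, .ofNat 227871, .ofNat 0, .ofNat 0, .ofNat 0, .ofNat 0, .ofNat 0, .ofNat 0, .ofNat 4338673832567645013630889768361817203697103405056, .ofNat 0, .ofNat 0, .ofNat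 0, .ofNat 22420593157960652426751034689024081858201124864, .ofNat 0, .ofNat 398234032743967089613508626993588968772709274623894618112, .ofNat 0, .ofNat 267307847176734491734949749561989007848983494656, .ofNat 0⟩)
    (by decide +kernel)
theorem L03763 : Good (Phi V5.P V5.D 1 1) ⟨7, 114, 6, 42, 3, 7, 3, 0, 6, 18⟩ :=
  leafX_sound T5.ok_pp T5.Ypp.bz_eq (w := 270) (c := ⟨⟨.negSucc 1787, .negSucc 79, .ofNat 48, .ofNat 548, .negSucc 242, .negSucc 12⟩, ⟨.negSucc 1184, .negSucc 54, .ofNat 14, .ofNat 369, .negSucc 158, .negSucc 8⟩, ⟨.negSucc 207, .negSucc 77, .ofNat 41, .ofNat 440, .ofNat 542, .negSucc 81⟩, ⟨.negSucc 2620, .negSucc 3, .ofNat 10, .ofNat 373, .negSucc 250, .ofNat 5⟩, ⟨.ofNat 164, .negSucc 0, .ofNat 11, .ofNat 594, .negSucc 130, .negSucc 33⟩, .ofNat 17424, .negSucc 25593, .ofNat 0, .negSucc 25593, .ofNat 38383, .ofNat 0, .ofNat 128, .ofNat 2493, .negSucc 166,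 .ofNat 0, .ofNat 1696, .negSucc 97, .ofNat 0, .ofNat 0, .ofNat 7639, .ofNat 208818, .ofNat 0, .ofNat 0, .ofNat 1063856654123726818700483412349089626917437440, .ofNat 1172487298778025428504034951982135380009360979558993494016, .ofNat 0, .ofNat 0, .ofNat 5396036051385876046445009975259994429692263268352, .ofNat 511316481207586393428833135293745070247177520452957288529920, .ofNat 0, .ofNat 0, .ofNat 4381936680796711789104622172499172798450546769920, .ofNat 0, .ofNat 21814743426092986095918385916543571935926391254801279090688, .ofNat 0, .ofNat 1909602306995676225725096177807012238426617413632, .ofNat 0⟩)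
    (by decide +kernel)
theorem L03764 : Good (Phi V5.P V5.D 1 1) ⟨7, 114, 6, 42, 3, 7, 3, 0, 6, 19⟩ :=
  leafX_sound T5.ok_pp T5.Ypp.bz_eq (w := 271) (c := ⟨⟨.negSucc 1774, .ofNat 73, .negSucc 39, .ofNat 508, .negSucc 230, .negSucc 13⟩, ⟨.negSucc 1175, .ofNat 46, .negSucc 43, .ofNat 342, .negSucc 151, .negSucc 8⟩, ⟨.negSucc 352, .ofNat 31, .negSucc 19, .ofNat 498, .ofNat 631, .negSucc 150⟩, ⟨.negSucc 2604, .ofNat 14, .ofNat 15, .ofNat 375, .negSucc 202, .ofNat 53⟩, ⟨.ofNat 164, .negSucc 5, .negSucc 18, .ofNat 504, .negSucc 177, .negSucc 109⟩, .ofNat 19542, .negSucc 28892, .ofNat 0, .negSucc 28892, .ofNat 43514, .ofNat 0, .ofNat 128, .ofNat 3071, .negSucc 147, .ofNat 0, .ofNat 2069, .negSucc 85, .ofNat 0, .ofNat 0, .ofNat 11917, .ofNat 158377, .ofNat 0, .ofNat 0, .ofNat 0, .ofNat 0, .ofNat 0, .ofNat 0, .ofNat 6835963735696707019654581954224755881834595745792, .ofNat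 755812203828419591976405587008314343476358651526827883888640, .ofNat 0, .ofNat 0, .ofNat 0, .ofNat 0, .ofNat 0, .ofNat 0, .ofNat 0, .ofNat 0⟩)
    (by decide +kernel)
theorem L03765 : Good (Phi V5.P V5.D 1 1) ⟨8, 228, 6, 43, 3, 7, 3, 0, 5, 9⟩ :=
  out_sound (S := T5.ds_pp) T5.ok_pp (w := 81) (j := 3) (by decide +kernel)
theorem L03766 : Good (Phi V5.P V5.D 1 1) ⟨8, 229, 6, 43, 3, 7, 3, 0, 5, 9⟩ :=
  out_sound (S := T5.ds_pp) T5.ok_pp (w := 23) (j := 4) (by decide +kernel)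
theorem L03767 : Good (Phi V5.P V5.D 1 1) ⟨7, 114, 4, 10, 3, 6, 3, 1, 5, 9⟩ :=
  leafX_sound T5.ok_pp T5.Ypp.bz_eq (w := 250) (c := ⟨⟨.negSucc 2345, .negSucc 8, .negSucc 33, .ofNat 306, .negSucc 274, .ofNat 95⟩, ⟨.negSucc 1549, .negSucc 45, .negSucc 29, .ofNat 205, .negSucc 183, .ofNat 63⟩, ⟨.ofNat 609, .ofNat 9, .negSucc 4, .negSucc 187, .ofNat 665, .negSucc 184⟩, ⟨.negSucc 3113, .ofNat 19, .negSucc 1, .ofNat 233, .negSucc 431, .ofNat 210⟩, ⟨.negSucc 307, .negSucc 20, .negSucc 12, .ofNat 295, .ofNat 69, .negSucc 115⟩, .ofNat 937, .negSucc 1063, .ofNat 0, .negSucc 1063, .ofNat 1821, .ofNat 0, .ofNat 128, .ofNat 507, .negSucc 81, .ofNat 0, .ofNat 394, .negSucc 30, .ofNat 0, .ofNat 0, .ofNat 1040, .ofNat 29662, .ofNat 0, .ofNat 0, .ofNat 0, .ofNat 0, .ofNat 0, .ofNat 0, .ofNat 245235800519484474865183253360370055013990400, .ofNat 1106902917782804450036747910950539584982383031383752704,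 .ofNat 0, .ofNat 0, .ofNat 0, .ofNat 0, .ofNat 0, .ofNat 0, .ofNat 0, .ofNat 0⟩)
    (by decide +kernel)
theorem L03768 : Good (Phi V5.P V5.D 1 1) ⟨7, 114, 4, 10, 3, 7, 3, 1, 5, 9⟩ :=
  leafX_sound T5.ok_pp T5.Ypp.bz_eq (w := 249) (c := ⟨⟨.negSucc 1840, .ofNat 180, .negSucc 400, .ofNat 548, .negSucc 264, .ofNat 29⟩, ⟨.negSucc 1185, .ofNat 109, .negSucc 327, .ofNat 366, .negSucc 176, .ofNat 19⟩, ⟨.ofNat 471, .ofNat 85, .negSucc 154, .ofNat 330, .ofNat 536, .negSucc 106⟩, ⟨.negSucc 2742, .ofNat 17, .negSucc 70, .negSucc 55, .negSucc 528, .ofNat 186⟩, ⟨.negSucc 104, .ofNat 58, .negSucc 65, .ofNat 1237, .ofNat 234, .negSucc 216⟩, .ofNat 1565, .negSucc 1991, .ofNat 0, .negSucc 1991, .ofNat 3221, .ofNat 0, .ofNat 128, .ofNat 421, .negSucc 29, .ofNat 0, .ofNat 315, .negSucc 0, .ofNat 0, .ofNat 0, .ofNat 1173, .ofNat 9452, .ofNat 0, .ofNat 0, .ofNat 3045966217822399890606743821309473523236864,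 .ofNat 0, .ofNat 0, .ofNat 0, .ofNat 316028839379994240741914179836451504152117248, .ofNat 3812573422619407487042749999035377803675365093784158208, .ofNat 0, .ofNat 0, .ofNat 640053950652500038400789482582787018788438016, .ofNat 35629490208965884766586027911752345254287283523183181824, .ofNat 0, .ofNat 0, .ofNat 0, .ofNat 0⟩)
    (by decide +kernel)
theorem L03769 : Good (Phi V5.P V5.D 1 1) ⟨7, 115, 4, 10, 2, 3, 2, 0, 5, 9⟩ :=
  out_sound (S := T5.ds_pp) T5.ok_pp (w := 21) (j := 4) (by decide +kernel)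
theorem L03770 : Good (Phi V5.P V5.D 1 1) ⟨6, 56, 4, 11, 2, 3, 2, 0, 5, 9⟩ :=
  out_sound (S := T5.ds_pp) T5.ok_pp (w := 65) (j := 3) (by decide +kernel)
theorem L03771 : Good (Phi V5.P V5.D 1 1) ⟨7, 114, 5, 22, 2, 3, 2, 0, 5, 9⟩ :=
  out_sound (S := T5.ds_pp) T5.ok_pp (w := 73) (j := 3) (by decide +kernel)
theorem L03772 : Good (Phi V5.P V5.D 1 1) ⟨7, 115, 5, 22, 2, 3, 2, 0, 5, 9⟩ :=
  out_sound (S := T5.ds_pp) T5.ok_pp (w := 21) (j := 4) (by decide +kernel)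
theorem L03773 : Good (Phi V5.P V5.D 1 1) ⟨6, 57, 5, 23, 2, 3, 2, 0, 5, 9⟩ :=
  out_sound (S := T5.ds_pp) T5.ok_pp (w := 67) (j := 3) (by decide +kernel)
theorem L03774 : Good (Phi V5.P V5.D 1 1) ⟨5, 29, 2, 2, 2, 3, 2, 0, 4, 4⟩ :=
  out_sound (S := T5.ds_pp) T5.ok_pp (w := 17) (j := 4) (by decide +kernel)
theorem L03775 : Good (Phi V5.P V5.D 1 1) ⟨4, 15, 2, 2, 2, 3, 2, 0, 4, 4⟩ :=
  out_sound (S := T5.ds_pp) T5.ok_pp (w := 49) (j := 3) (by decide +kernel)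
theorem L03776 : Good (Phi V5.P V5.D 1 1) ⟨4, 12, 3, 4, 2, 3, 2, 0, 4, 5⟩ :=
  out_sound (S := T5.ds_pp) T5.ok_pp (w := 51) (j := 3) (by decide +kernel)
theorem L03777 : Good (Phi V5.P V5.D 1 1) ⟨4, 13, 3, 4, 2, 3, 2, 0, 4, 5⟩ :=
  leafX_sound T5.ok_pp T5.Ypp.bz_eq (w := 210) (c := ⟨⟨.negSucc 1916, .negSucc 130, .ofNat 9, .ofNat 562, .negSucc 410, .ofNat 153⟩, ⟨.negSucc 1015, .negSucc 187, .negSucc 114, .ofNat 354, .negSucc 228, .ofNat 85⟩, ⟨.negSucc 21, .negSucc 136, .ofNat 29, .negSucc 170, .ofNat 1160, .negSucc 404⟩, ⟨.negSucc 2774, .ofNat 40, .ofNat 94, .ofNat 319, .negSucc 654, .ofNat 319⟩, ⟨.negSucc 321, .ofNat 10, .negSucc 114, .ofNat 837, .ofNat 69, .negSucc 167⟩, .ofNat 1531, .negSucc 2105, .ofNat 0, .negSucc 2105, .ofNat 3786, .ofNat 0, .ofNat 128, .ofNat 502, .negSucc 42, .ofNat 0, .ofNat 349, .negSucc 10, .ofNat 0, .ofNat 0, .ofNat 1612, .ofNat 3318, .ofNat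 486910154002228197366004280500229934940160, .ofNat 5698081900820454693106863042562761949184, .ofNat 2069029065323123974239121526273081344, .ofNat 0, .ofNat 13590641385667740513329426890388997282988032, .ofNat 1459778203932379921461837724200313475301376, .ofNat 156131668896735295067875503096178147328, .ofNat 0, .ofNat 0, .ofNat 0, .ofNat 0, .ofNat 0, .ofNat 263238055751647728119135371351410327225892864, .ofNat 7995018999118743774865729119975382297083904, .ofNat 32776855510014651803396567782586843136, .ofNat 0⟩)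
    (by decide +kernel)
theorem L03778 : Good (Phi V5.P V5.D 1 1) ⟨3, 6, 3, 5, 2, 3, 2, 0, 4, 5⟩ :=
  out_sound (S := T5.ds_pp) T5.ok_pp (w := 45) (j := 3) (by decide +kernel)
theorem L03779 : Good (Phi V5.P V5.D 1 1) ⟨5, 28, 2, 2, 3, 6, 2, 0, 4, 5⟩ :=
  leafX_sound T5.ok_pp T5.Ypp.bz_eq (w := 226) (c := ⟨⟨.negSucc 1981, .negSucc 44, .negSucc 48, .ofNat 253, .negSucc 468, .ofNat 169⟩, ⟨.negSucc 1142, .negSucc 82, .negSucc 263, .ofNat 166, .negSucc 304, .ofNat 108⟩, ⟨.negSucc 240, .negSucc 67, .ofNat 35, .negSucc 193, .ofNat 1344, .negSucc 520⟩, ⟨.negSucc 2660, .ofNat 108, .ofNat 36, .ofNat 202, .negSucc 702, .ofNat 350⟩, ⟨.negSucc 323, .negSucc 83, .negSucc 88, .ofNat 240, .ofNat 62, .negSucc 169⟩, .ofNat 820, .negSucc 888, .ofNat 0, .negSucc 888, .ofNat 1567, .ofNat 0, .ofNat 128, .ofNat 410, .negSucc 36, .ofNat 0, .ofNat 343, .ofNat 6, .ofNat 0, .ofNat 0, .ofNat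 1551, .ofNat 8579, .ofNat 22323235399260006986629076906993215155138985984, .ofNat 0, .ofNat 73291369674969901543715730538408968192, .ofNat 0, .ofNat 0, .ofNat 0, .ofNat 67973492520334818339033006131652014899200, .ofNat 0, .ofNat 0, .ofNat 0, .ofNat 0, .ofNat 0, .ofNat 2886842529911934880997558432522777346425277644800, .ofNat 35712119552283666513642598685167063782012223488, .ofNat 101312000713527376302706979688282641661952, .ofNat 15855043613427487506323683755325600235832223989760⟩)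
    (by decide +kernel)
theorem L03780 : Good (Phi V5.P V5.D 1 1) ⟨5, 28, 2, 2, 4, 14, 2, 0, 4, 5⟩ :=
  leafX_sound T5.ok_pp T5.Ypp.bz_eq (w := 239) (c := ⟨⟨.negSucc 1732, .negSucc 60, .ofNat 23, .ofNat 190, .negSucc 478, .ofNat 76⟩, ⟨.negSucc 983, .negSucc 77, .negSucc 223, .ofNat 128, .negSucc 308, .ofNat 52⟩, ⟨.negSucc 324, .negSucc 65, .negSucc 73, .ofNat 64, .ofNat 1258, .negSucc 540⟩, ⟨.negSucc 2398, .ofNat 116, .ofNat 104, .ofNat 50, .negSucc 820, .ofNat 248⟩, ⟨.negSucc 139, .negSucc 168, .negSucc 89, .ofNat 338, .ofNat 220, .negSucc 216⟩, .ofNat 880, .negSucc 992, .ofNat 0, .negSucc 992, .ofNat 1756, .ofNat 0, .ofNat 128, .ofNat 322, .negSucc 22, .ofNat 0, .ofNat 263, .ofNat 19, .ofNat 0, .ofNat 0, .ofNat 1593, .ofNat 9049, .ofNat 713327105069536303943798540003384976864819806208, .ofNat 0, .ofNat 72516970158358771122410590336833182664491008, .ofNat 14069682795518562548737418124067618751956060632776704,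 .ofNat 0, .ofNat 60754137413031914400820220953411747049444562960384, .ofNat 504110532544007388825259351335337276957786112, .ofNat 0, .ofNat 179472257725289963703822558923917780910636433145856, .ofNat 127038527236594379226580158183295760963366736101376, .ofNat 932291129599615098529758234821850683221737472, .ofNat 0, .ofNat 8307925994916178233652666783526697831700513270267904, .ofNat 396479676122968787693953800460175913678720179634176, .ofNat 2703704746839446090436885699118131297608794112, .ofNat 489234036247088183385054411796941391985752561760075776⟩)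
    (by decide +kernel)
theorem L03781 : Good (Phi V5.P V5.D 1 1) ⟨5, 28, 2, 2, 4, 15, 2, 0, 4, 5⟩ :=
  leafX_sound T5.ok_pp T5.Ypp.bz_eq (w := 240) (c := ⟨⟨.negSucc 1543, .negSucc 38, .ofNat 17, .ofNat 238, .negSucc 457, .negSucc 13⟩, ⟨.negSucc 845, .negSucc 35, .negSucc 264, .ofNat 159, .negSucc 295, .negSucc 12⟩, ⟨.negSucc 276, .negSucc 98, .negSucc 8, .ofNat 314, .ofNat 1297, .negSucc 468⟩, ⟨.negSucc 2305, .ofNat 151, .ofNat 87, .ofNat 42, .negSucc 901, .ofNat 85⟩, ⟨.ofNat 172, .negSucc 177, .negSucc 150, .ofNat 452, .ofNat 391, .negSucc 163⟩, .ofNat 887, .negSucc 1001, .ofNat 0, .negSucc 1001, .ofNat 1763, .ofNat 0, .ofNat 128, .ofNat 357, .negSucc 8, .ofNat 0, .ofNat 296, .ofNat 43, .ofNat 0, .ofNat 0, .ofNat 2015, .ofNat 23325, .ofNat 114659259434566506673562032566629310322570451484672, .ofNat 14064751090304883962864327530061929972088984043520, .ofNat 284470079231614037462540384009971134778834944,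 .ofNat 28719708050213378599225406372219676755969247142739968, .ofNat 0, .ofNat 265934377881888996853353831916819953295780315398144, .ofNat 2667415881313116410917931163063960066817261568, .ofNat 0, .ofNat 0, .ofNat 580967168388242746461842663009668004066449743151104, .ofNat 4468523472414335908606120054501924973274202112, .ofNat 0, .ofNat 9994238911803754897817001941559670947561082877640704, .ofNat 1435367829395449637463524294929453146730232121655296, .ofNat 11398788976805056740299488216262674361748553728, .ofNat 944684619492708270712612786563341234073210900407386112⟩)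
    (by decide +kernel)
theorem L03782 : Good (Phi V5.P V5.D 1 1) ⟨5, 29, 2, 2, 2, 3, 2, 0, 4, 5⟩ :=
  out_sound (S := T5.ds_pp) T5.ok_pp (w := 17) (j := 4) (by decide +kernel)
theorem L03783 : Good (Phi V5.P V5.D 1 1) ⟨4, 15, 2, 2, 2, 3, 2, 0, 4, 5⟩ :=
  out_sound (S := T5.ds_pp) T5.ok_pp (w := 49) (j := 3) (by decide +kernel)
theorem L03784 : Good (Phi V5.P V5.D 1 1) ⟨4, 12, 2, 2, 2, 3, 2, 1, 3, 2⟩ :=
  out_sound (S := T5.ds_pp) T5.ok_pp (w := 49) (j := 3) (by decide +kernel)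
theorem L03785 : Good (Phi V5.P V5.D 1 1) ⟨4, 13, 3, 4, 3, 6, 2, 1, 4, 4⟩ :=
  leafX_sound T5.ok_pp T5.Ypp.bz_eq (w := 224) (c := ⟨⟨.negSucc 2587, .negSucc 120, .negSucc 64, .ofNat 246, .negSucc 613, .ofNat 293⟩, ⟨.negSucc 1374, .negSucc 173, .negSucc 217, .ofNat 151, .negSucc 365, .ofNat 163⟩, ⟨.ofNat 1326, .ofNat 26, .ofNat 61, .negSucc 214, .ofNat 884, .negSucc 265⟩, ⟨.negSucc 4009, .ofNat 246, .negSucc 151, .ofNat 64, .negSucc 862, .ofNat 611⟩, ⟨.negSucc 30, .negSucc 130, .ofNat 52, .ofNat 504, .negSucc 61, .negSucc 307⟩, .ofNat 753, .negSucc 835, .ofNat 0, .negSucc 835, .ofNat 1641, .ofNat 0, .ofNat 128, .ofNat 281, .negSucc 58, .ofNat 0, .ofNat 216, .negSucc 18, .ofNat 0, .ofNat 0, .ofNat 557, .ofNat 3782, .ofNat 0, .ofNat 0, .ofNat 0, .ofNat 0, .ofNat 0, .ofNat 0, .ofNat 367223655656175833524838768317563752415232, .ofNat 0, .ofNat 0, .ofNat 0, .ofNat 183509524133969129527219133494141858611200,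 .ofNat 0, .ofNat 0, .ofNat 0, .ofNat 0, .ofNat 0⟩)
    (by decide +kernel)
theorem L03786 : Good (Phi V5.P V5.D 1 1) ⟨4, 13, 3, 4, 3, 7, 2, 1, 4, 4⟩ :=
  leafX_sound T5.ok_pp T5.Ypp.bz_eq (w := 224) (c := ⟨⟨.negSucc 2279, .negSucc 175, .ofNat 39, .ofNat 571, .negSucc 653, .ofNat 191⟩, ⟨.negSucc 1247, .negSucc 102, .negSucc 201, .ofNat 377, .negSucc 376, .ofNat 98⟩, ⟨.ofNat 1065, .ofNat 33, .ofNat 1, .ofNat 74, .ofNat 806, .negSucc 147⟩, ⟨.negSucc 3602, .negSucc 155, .ofNat 87, .negSucc 101, .negSucc 1032, .ofNat 579⟩, ⟨.ofNat 236, .ofNat 153, .negSucc 123, .ofNat 1593, .ofNat 140, .negSucc 502⟩, .ofNat 1550, .negSucc 2130, .ofNat 0, .negSucc 2130, .ofNat 3812, .ofNat 0, .ofNat 128, .ofNat 354, .negSucc 27, .ofNat 0, .ofNat 249, .negSucc 5, .ofNat 0, .ofNat 0, .ofNat 582, .ofNat 1781, .ofNat 0, .ofNat 0, .ofNat 1861019750772423295555382594700643926016, .ofNat 0, .ofNat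 0, .ofNat 0, .ofNat 918423693611762293305631842197953465810944, .ofNat 0, .ofNat 0, .ofNat 0, .ofNat 0, .ofNat 0, .ofNat 0, .ofNat 3497616609857122325535232265112624743302823936, .ofNat 298884794190926386478425416715516715728896, .ofNat 0⟩)
    (by decide +kernel)
theorem L03787 : Good (Phi V5.P V5.D 1 1) ⟨4, 13, 3, 4, 2, 3, 2, 1, 4, 5⟩ :=
  leafX_sound T5.ok_pp T5.Ypp.bz_eq (w := 209) (c := ⟨⟨.negSucc 2342, .negSucc 124, .negSucc 13, .ofNat 523, .negSucc 474, .ofNat 220⟩, ⟨.negSucc 1243, .negSucc 194, .negSucc 140, .ofNat 331, .negSucc 284, .ofNat 125⟩, ⟨.ofNat 1137, .negSucc 60, .ofNat 16, .negSucc 339, .ofNat 831, .negSucc 384⟩, ⟨.negSucc 3450, .ofNat 59, .ofNat 68, .ofNat 274, .negSucc 600, .ofNat 407⟩, ⟨.negSucc 300, .ofNat 73, .negSucc 161, .ofNat 815, .negSucc 155, .negSucc 146⟩, .ofNat 378, .negSucc 284, .ofNat 0, .negSucc 284, .ofNat 704, .ofNat 0, .ofNat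 128, .ofNat 181, .ofNat 7, .ofNat 0, .ofNat 208, .ofNat 27, .ofNat 0, .ofNat 0, .ofNat 587, .ofNat 1483, .ofNat 0, .ofNat 0, .ofNat 0, .ofNat 0, .ofNat 0, .ofNat 421762255880566881905895032917899673075712, .ofNat 9621420754604301643280861370330906624, .ofNat 0, .ofNat 0, .ofNat 1572222106791463260141896870842808634703872, .ofNat 33487371009368576778408193159405240320, .ofNat 0, .ofNat 0, .ofNat 972023062911415831874834475131543752802304, .ofNat 11609625048314788177604925410850635776, .ofNat 0⟩)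
    (by decide +kernel)
theorem L03788 : Good (Phi V5.P V5.D 1 1) ⟨4, 13, 3, 5, 2, 3, 2, 1, 3, 2⟩ :=
  out_sound (S := T5.ds_pp) T5.ok_pp (w := 51) (j := 3) (by decide +kernel)
theorem L03789 : Good (Phi V5.P V5.D 1 1) ⟨5, 28, 4, 8, 2, 3, 2, 1, 3, 2⟩ :=
  out_sound (S := T5.ds_pp) T5.ok_pp (w := 59) (j := 3) (by decide +kernel)
theorem L03790 : Good (Phi V5.P V5.D 1 1) ⟨6, 56, 5, 18, 2, 3, 2, 1, 4, 4⟩ :=
  out_sound (S := T5.ds_pp) T5.ok_pp (w := 67) (j := 3) (by decide +kernel)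
theorem L03791 : Good (Phi V5.P V5.D 1 1) ⟨6, 56, 5, 19, 3, 6, 2, 1, 4, 4⟩ :=
  leafX_sound T5.ok_pp T5.Ypp.bz_eq (w := 242) (c := ⟨⟨.negSucc 2803, .negSucc 148, .ofNat 68, .ofNat 295, .negSucc 664, .ofNat 348⟩, ⟨.negSucc 1745, .negSucc 130, .ofNat 6, .ofNat 194, .negSucc 421, .ofNat 216⟩, ⟨.ofNat 1423, .ofNat 67, .ofNat 8, .negSucc 250, .ofNat 928, .negSucc 334⟩, ⟨.negSucc 3954, .negSucc 85, .ofNat 73, .ofNat 185, .negSucc 910, .ofNat 675⟩, ⟨.negSucc 100, .negSucc 70, .ofNat 35, .ofNat 368, .negSucc 55, .negSucc 282⟩, .ofNat 3949, .negSucc 5750, .ofNat 0, .negSucc 5750, .ofNat 9215, .ofNat 0, .ofNat 128, .ofNat 1029, .negSucc 104, .ofNat 0, .ofNat 688, .negSucc 60, .ofNat 0, .ofNat 0, .ofNat 998, .ofNat 4471, .ofNat 0, .ofNat 0, .ofNat 14329640122466178452123199945118964514816, .ofNat 0, .ofNat 0, .ofNat 0, .ofNat 4050667179183831823439833814253592872222720, .ofNat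 0, .ofNat 0, .ofNat 0, .ofNat 0, .ofNat 0, .ofNat 0, .ofNat 106763991058238011821941121578776805505434677936128, .ofNat 1592944664169839198522386137289052854943744, .ofNat 0⟩)
    (by decide +kernel)
theorem L03792 : Good (Phi V5.P V5.D 1 1) ⟨6, 56, 5, 19, 3, 7, 2, 1, 4, 4⟩ :=
  leafX_sound T5.ok_pp T5.Ypp.bz_eq (w := 241) (c := ⟨⟨.negSucc 2408, .negSucc 43, .ofNat 11, .ofNat 592, .negSucc 715, .ofNat 178⟩, ⟨.negSucc 1490, .negSucc 11, .negSucc 55, .ofNat 402, .negSucc 445, .ofNat 107⟩, ⟨.ofNat 1143, .ofNat 31, .negSucc 21, .ofNat 21, .ofNat 838, .negSucc 201⟩, ⟨.negSucc 3656, .ofNat 4, .ofNat 18, .negSucc 137, .negSucc 1125, .ofNat 519⟩, ⟨.ofNat 338, .ofNat 11, .negSucc 44, .ofNat 1561, .ofNat 173, .negSucc 416⟩, .ofNat 5931, .negSucc 8841, .ofNat 0, .negSucc 8841, .ofNat 14043, .ofNat 0, .ofNat 128, .ofNat 530, .negSucc 34, .ofNat 0, .ofNat 356, .negSucc 15, .ofNat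 0, .ofNat 0, .ofNat 975, .ofNat 3712, .ofNat 0, .ofNat 0, .ofNat 4278726685752003251217789756637318217728, .ofNat 0, .ofNat 0, .ofNat 0, .ofNat 13817564297688393073776732534647808877133824, .ofNat 0, .ofNat 0, .ofNat 0, .ofNat 1457111671627282782846428987251921453580288, .ofNat 0, .ofNat 0, .ofNat 185265010883343587220929261572455106817674943922176, .ofNat 686580488144177466564640363993528713347072, .ofNat 0⟩)
    (by decide +kernel)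
theorem L03793 : Good (Phi V5.P V5.D 1 1) ⟨6, 57, 4, 9, 2, 3, 2, 1, 4, 4⟩ :=
  out_sound (S := T5.ds_pp) T5.ok_pp (w := 65) (j := 3) (by decide +kernel)
theorem L03794 : Good (Phi V5.P V5.D 1 1) ⟨5, 28, 4, 9, 2, 3, 2, 1, 4, 5⟩ :=
  leafX_sound T5.ok_pp T5.Ypp.bz_eq (w := 218) (c := ⟨⟨.negSucc 2524, .negSucc 226, .ofNat 80, .ofNat 514, .negSucc 518, .ofNat 214⟩, ⟨.negSucc 1544, .negSucc 208, .negSucc 10, .ofNat 334, .negSucc 331, .ofNat 133⟩, ⟨.ofNat 1055, .negSucc 203, .ofNat 117, .negSucc 432, .ofNat 852, .negSucc 477⟩, ⟨.negSucc 3409, .negSucc 100, .ofNat 91, .ofNat 334, .negSucc 612, .ofNat 419⟩, ⟨.negSucc 327, .negSucc 115, .ofNat 34, .ofNat 628, .negSucc 198, .negSucc 182⟩, .ofNat 2373, .negSucc 3188, .ofNat 0, .negSucc 3188, .ofNat 5052, .ofNat 0, .ofNat 128, .ofNat 576, .ofNat 41, .ofNat 0, .ofNat 443, .ofNat 41, .ofNat 0, .ofNat 0, .ofNat 1325, .ofNat 3276,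 .ofNat 0, .ofNat 0, .ofNat 355015548782793009313732338550571008, .ofNat 0, .ofNat 0, .ofNat 105312050380598837780879677984489707845713920, .ofNat 139479980635619286756172613001314041856, .ofNat 0, .ofNat 0, .ofNat 0, .ofNat 275293932721463298127740857292288950272, .ofNat 0, .ofNat 0, .ofNat 671195669037579994411652841087780941262225408, .ofNat 161086860266984241422493828659216908288, .ofNat 0⟩)
    (by decide +kernel)
theorem L03795 : Good (Phi V5.P V5.D 1 1) ⟨6, 56, 4, 10, 3, 6, 2, 1, 4, 4⟩ :=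
  leafX_sound T5.ok_pp T5.Ypp.bz_eq (w := 240) (c := ⟨⟨.negSucc 2684, .negSucc 258, .ofNat 287, .ofNat 293, .negSucc 678, .ofNat 318⟩, ⟨.negSucc 1703, .negSucc 207, .ofNat 120, .ofNat 194, .negSucc 442, .ofNat 203⟩, ⟨.ofNat 1484, .negSucc 15, .ofNat 12, .negSucc 264, .ofNat 937, .negSucc 346⟩, ⟨.negSucc 3886, .negSucc 135, .ofNat 199, .ofNat 176, .negSucc 845, .ofNat 662⟩, ⟨.negSucc 8, .negSucc 94, .ofNat 158, .ofNat 368, .negSucc 169, .negSucc 325⟩, .ofNat 5197, .negSucc 7548, .ofNat 0, .negSucc 7548, .ofNat 11772, .ofNat 0, .ofNat 128, .ofNat 1289, .negSucc 141, .ofNat 0, .ofNat 869, .negSucc 85, .ofNat 0, .ofNat 0, .ofNat 1467, .ofNat 8637, .ofNat 0, .ofNat 0, .ofNat 4683964696880847461768388646491396243456, .ofNat 0, .ofNat 0, .ofNat 0, .ofNat 4579094497517234749962420715404840249851904, .ofNat 0, .ofNat 0, .ofNat 0, .ofNat 5545321074328583412021075536821611120295936,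 .ofNat 0, .ofNat 0, .ofNat 24509752404165904136117429744621674407469080641536, .ofNat 1823772251599823928420067468477142939992064, .ofNat 0⟩)
    (by decide +kernel)
theorem L03796 : Good (Phi V5.P V5.D 1 1) ⟨6, 56, 4, 10, 3, 7, 2, 1, 4, 4⟩ :=
  leafX_sound T5.ok_pp T5.Ypp.bz_eq (w := 239) (c := ⟨⟨.negSucc 2315, .negSucc 214, .ofNat 200, .ofNat 575, .negSucc 720, .ofNat 168⟩, ⟨.negSucc 1472, .negSucc 157, .ofNat 42, .ofNat 387, .negSucc 464, .ofNat 104⟩, ⟨.ofNat 1126, .negSucc 31, .ofNat 32, .ofNat 81, .ofNat 844, .negSucc 183⟩, ⟨.negSucc 3541, .negSucc 122, .ofNat 139, .negSucc 180, .negSucc 1139, .ofNat 564⟩, ⟨.ofNat 325, .negSucc 120, .ofNat 94, .ofNat 1531, .ofNat 189, .negSucc 501⟩, .ofNat 5223, .negSucc 7585, .ofNat 0, .negSucc 7585, .ofNat 11826, .ofNat 0, .ofNat 128, .ofNat 675, .negSucc 41, .ofNat 0, .ofNat 460, .negSucc 19, .ofNat 0, .ofNat 0, .ofNat 1248,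 .ofNat 4347, .ofNat 0, .ofNat 0, .ofNat 10321804733493396152954618414770010718208, .ofNat 0, .ofNat 0, .ofNat 0, .ofNat 5568576879059913319427281904720073990340608, .ofNat 0, .ofNat 0, .ofNat 0, .ofNat 2289929835688711779611203911311850234445824, .ofNat 0, .ofNat 0, .ofNat 31724144680205083187745234022589695807274876928000, .ofNat 469225623977772859334723334431350911401984, .ofNat 0⟩)
    (by decide +kernel)
theorem L03797 : Good (Phi V5.P V5.D 1 1) ⟨7, 114, 4, 10, 3, 6, 2, 1, 4, 4⟩ :=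
  leafX_sound T5.ok_pp T5.Ypp.bz_eq (w := 241) (c := ⟨⟨.negSucc 2726, .ofNat 59, .negSucc 164, .ofNat 297, .negSucc 683, .ofNat 299⟩, ⟨.negSucc 1782, .ofNat 5, .negSucc 150, .ofNat 200, .negSucc 455, .ofNat 199⟩, ⟨.ofNat 1417, .negSucc 34, .ofNat 145, .negSucc 278, .ofNat 956, .negSucc 363⟩, ⟨.negSucc 3907, .ofNat 70, .ofNat 9, .ofNat 138, .negSucc 922, .ofNat 674⟩, ⟨.negSucc 61, .negSucc 79, .negSucc 26, .ofNat 418, .negSucc 54, .negSucc 379⟩, .ofNat 2280, .negSucc 3036, .ofNat 0, .negSucc 3036, .ofNat 4765, .ofNat 0, .ofNat 128, .ofNat 752, .negSucc 121, .ofNat 0, .ofNat 535, .negSucc 68, .ofNat 0, .ofNat 0, .ofNat 1143, .ofNat 8292, .ofNat 0, .ofNat 0, .ofNat 0, .ofNat 0, .ofNat 0, .ofNat 0, .ofNat 624580045948607931610906459580070027591680, .ofNat 2108287045805351509364505246564544989717052879011840, .ofNat 0, .ofNat 0, .ofNat 316670395493248716859141331346695974289408,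 .ofNat 0, .ofNat 0, .ofNat 237805283490520976180600597104942098645221461983232, .ofNat 234670810969691773976495823969757385719808, .ofNat 0⟩)
    (by decide +kernel)
theorem L03798 : Good (Phi V5.P V5.D 1 1) ⟨7, 114, 5, 20, 3, 7, 2, 1, 4, 4⟩ :=
  leafX_sound T5.ok_pp T5.Ypp.bz_eq (w := 252) (c := ⟨⟨.negSucc 2488, .ofNat 1, .ofNat 39, .ofNat 598, .negSucc 725, .ofNat 186⟩, ⟨.negSucc 1603, .ofNat 1, .negSucc 17, .ofNat 405, .negSucc 476, .ofNat 119⟩, ⟨.ofNat 1132, .negSucc 0, .negSucc 5, .ofNat 60, .ofNat 881, .negSucc 189⟩, ⟨.negSucc 3826, .ofNat 2, .negSucc 1, .ofNat 264, .negSucc 947, .ofNat 416⟩, ⟨.ofNat 576, .ofNat 0, .ofNat 0, .ofNat 875, .negSucc 104, .negSucc 237⟩, .ofNat 14068, .negSucc 20812, .ofNat 0, .negSucc 20812, .ofNat 31599, .ofNat 0, .ofNat 128, .ofNat 2619, .negSucc 166, .ofNat 0, .ofNat 1765, .negSucc 97, .ofNat 0, .ofNat 0, .ofNat 4961, .ofNat 21134,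 .ofNat 0, .ofNat 0, .ofNat 0, .ofNat 0, .ofNat 0, .ofNat 0, .ofNat 1130666298843664207157489630856696358139592704, .ofNat 0, .ofNat 0, .ofNat 0, .ofNat 8694552523677670716227085838993850703544320, .ofNat 0, .ofNat 0, .ofNat 61346252950077507848898647585790727090564826627309568, .ofNat 86468161202225524894105070109474380824182784, .ofNat 0⟩)
    (by decide +kernel)
theorem L03799 : Good (Phi V5.P V5.D 1 1) ⟨8, 228, 6, 42, 3, 7, 2, 1, 4, 4⟩ :=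
  leafX_sound T5.ok_pp T5.Ypp.bz_eq (w := 255) (c := ⟨⟨.negSucc 2424, .negSucc 25, .ofNat 48, .ofNat 613, .negSucc 754, .ofNat 130⟩, ⟨.negSucc 1604, .negSucc 25, .ofNat 13, .ofNat 415, .negSucc 500, .ofNat 86⟩, ⟨.ofNat 1111, .ofNat 214, .negSucc 210, .ofNat 109, .ofNat 869, .negSucc 194⟩, ⟨.negSucc 3655, .negSucc 21, .ofNat 13, .negSucc 127, .negSucc 1162, .ofNat 602⟩, ⟨.ofNat 371, .ofNat 28, .ofNat 39, .ofNat 1483, .ofNat 162, .negSucc 627⟩, .ofNat 7269, .negSucc 10518, .ofNat 0, .negSucc 10518, .ofNat 16001, .ofNat 0, .ofNat 128, .ofNat 1392, .negSucc 78, .ofNat 0, .ofNat 951, .negSucc 43, .ofNat 0, .ofNat 0, .ofNat 2300, .ofNat 7670, .ofNat 0, .ofNat 0, .ofNat 16607048855009675184744428418976668712960, .ofNat 0, .ofNat 0, .ofNat 0, .ofNat 9020245270223423364568074019728114722013184, .ofNat 0, .ofNat 0, .ofNat 0, .ofNat 0, .ofNat 0, .ofNat 0, .ofNat 1559846810782335323984170718241713333926121944595300352,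 .ofNat 12606780901834338706968236913508727750918144, .ofNat 0⟩)
    (by decide +kernel)
theorem L03800 : Good (Phi V5.P V5.D 1 1) ⟨8, 229, 6, 42, 3, 7, 2, 1, 4, 4⟩ :=
  out_sound (S := T5.ds_pp) T5.ok_pp (w := 23) (j := 4) (by decide +kernel)
theorem L03801 : Good (Phi V5.P V5.D 1 1) ⟨8, 228, 6, 43, 3, 7, 2, 1, 4, 4⟩ :=
  out_sound (S := T5.ds_pp) T5.ok_pp (w := 81) (j := 3) (by decide +kernel)
theorem L03802 : Good (Phi V5.P V5.D 1 1) ⟨8, 229, 6, 43, 3, 7, 2, 1, 4, 4⟩ :=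
  out_sound (S := T5.ds_pp) T5.ok_pp (w := 23) (j := 4) (by decide +kernel)
theorem L03803 : Good (Phi V5.P V5.D 1 1) ⟨7, 115, 4, 10, 2, 3, 2, 1, 4, 4⟩ :=
  out_sound (S := T5.ds_pp) T5.ok_pp (w := 21) (j := 4) (by decide +kernel)
theorem L03804 : Good (Phi V5.P V5.D 1 1) ⟨6, 56, 4, 11, 2, 3, 2, 1, 4, 4⟩ :=
  out_sound (S := T5.ds_pp) T5.ok_pp (w := 65) (j := 3) (by decide +kernel)
theorem L03805 : Good (Phi V5.P V5.D 1 1) ⟨7, 114, 5, 22, 2, 3, 2, 1, 4, 4⟩ :=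
  out_sound (S := T5.ds_pp) T5.ok_pp (w := 73) (j := 3) (by decide +kernel)
theorem L03806 : Good (Phi V5.P V5.D 1 1) ⟨7, 115, 5, 22, 2, 3, 2, 1, 4, 4⟩ :=
  out_sound (S := T5.ds_pp) T5.ok_pp (w := 21) (j := 4) (by decide +kernel)
theorem L03807 : Good (Phi V5.P V5.D 1 1) ⟨6, 57, 5, 23, 2, 3, 2, 1, 4, 4⟩ :=
  out_sound (S := T5.ds_pp) T5.ok_pp (w := 67) (j := 3) (by decide +kernel)
theorem L03808 : Good (Phi V5.P V5.D 1 1) ⟨5, 28, 3, 5, 2, 3, 2, 1, 4, 5⟩ :=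
  leafX_sound T5.ok_pp T5.Ypp.bz_eq (w := 218) (c := ⟨⟨.negSucc 2497, .negSucc 45, .negSucc 41, .ofNat 568, .negSucc 529, .ofNat 232⟩, ⟨.negSucc 1589, .negSucc 95, .negSucc 149, .ofNat 377, .negSucc 346, .ofNat 151⟩, ⟨.ofNat 1132, .negSucc 44, .ofNat 75, .negSucc 415, .ofNat 879, .negSucc 515⟩, ⟨.negSucc 3363, .ofNat 29, .ofNat 33, .ofNat 355, .negSucc 527, .ofNat 376⟩, ⟨.negSucc 313, .negSucc 25, .negSucc 16, .ofNat 675, .negSucc 331, .negSucc 78⟩, .ofNat 5805, .negSucc 8420, .ofNat 0, .negSucc 8420, .ofNat 13014, .ofNat 0, .ofNat 128, .ofNat 843, .negSucc 45, .ofNat 0, .ofNat 572, .negSucc 25, .ofNat 0, .ofNat 0, .ofNat 1659, .ofNat 5158, .ofNat 0, .ofNat 0, .ofNat 331306492830405387451464922039320576, .ofNat 74006956541180842168628304888864335596617728, .ofNat 0, .ofNat 58453529416217019819272565390685221043568640, .ofNat 481191793443475463499804082189069451264,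 .ofNat 33827490535730921085701348061028659420572155904, .ofNat 0, .ofNat 136700397248231737892585527631732978653069312, .ofNat 142804400548712588059474679547929034752, .ofNat 0, .ofNat 0, .ofNat 153479372387028416391459847174982242333097984, .ofNat 83596547441913200621439776301850296320, .ofNat 1803043045511626921448736085270208738337226752⟩)
    (by decide +kernel)
theorem L03809 : Good (Phi V5.P V5.D 1 1) ⟨5, 29, 2, 2, 2, 3, 2, 1, 3, 2⟩ :=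
  out_sound (S := T5.ds_pp) T5.ok_pp (w := 17) (j := 4) (by decide +kernel)
theorem L03810 : Good (Phi V5.P V5.D 1 1) ⟨4, 15, 2, 2, 2, 3, 2, 1, 3, 2⟩ :=
  out_sound (S := T5.ds_pp) T5.ok_pp (w := 49) (j := 3) (by decide +kernel)
theorem L03811 : Good (Phi V5.P V5.D 1 1) ⟨3, 6, 2, 3, 1, 1, 1, 0, 3, 2⟩ :=
  out_sound (S := T5.ds_pp) T5.ok_pp (w := 43) (j := 3) (by decide +kernel)
theorem L03812 : Good (Phi V5.P V5.D 1 1) ⟨5, 28, 3, 6, 1, 1, 1, 0, 3, 2⟩ :=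
  out_sound (S := T5.ds_pp) T5.ok_pp (w := 57) (j := 3) (by decide +kernel)
theorem L03813 : Good (Phi V5.P V5.D 1 1) ⟨5, 29, 3, 6, 1, 1, 1, 0, 3, 2⟩ :=
  out_sound (S := T5.ds_pp) T5.ok_pp (w := 17) (j := 4) (by decide +kernel)
theorem L03814 : Good (Phi V5.P V5.D 1 1) ⟨4, 14, 3, 7, 1, 1, 1, 0, 3, 2⟩ :=
  out_sound (S := T5.ds_pp) T5.ok_pp (w := 51) (j := 3) (by decide +kernel)
theorem L03815 : Good (Phi V5.P V5.D 1 1) ⟨4, 15, 2, 3, 1, 1, 1, 0, 3, 2⟩ :=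
  out_sound (S := T5.ds_pp) T5.ok_pp (w := 15) (j := 4) (by decide +kernel)
theorem L03816 : Good (Phi V5.P V5.D 1 1) ⟨2, 2, 1, 1, 1, 1, 1, 0, 3, 3⟩ :=
  out_sound (S := T5.ds_pp) T5.ok_pp (w := 35) (j := 3) (by decide +kernel)
theorem L03817 : Good (Phi V5.P V5.D 1 1) ⟨3, 6, 1, 1, 2, 2, 2, 0, 4, 6⟩ :=
  leafX_sound T5.ok_pp T5.Ypp.bz_eq (w := 208) (c := ⟨⟨.negSucc 1713, .negSucc 278, .negSucc 38, .negSucc 0, .negSucc 265, .ofNat 1⟩, ⟨.negSucc 743, .negSucc 425, .negSucc 454, .negSucc 0, .negSucc 158, .ofNat 1⟩, ⟨.ofNat 480, .negSucc 285, .negSucc 144, .ofNat 0, .ofNat 423, .ofNat 0⟩, ⟨.negSucc 2769, .ofNat 94, .ofNat 282, .negSucc 0, .negSucc 364, .ofNat 1⟩, ⟨.negSucc 300, .ofNat 4, .negSucc 388, .ofNat 0, .negSucc 45, .ofNat 0⟩, .ofNat 164, .negSucc 51, .ofNat 0, .negSucc 51, .ofNat 220, .ofNat 0, .ofNat 128, .ofNat 63, .negSucc 60, .ofNat 0, .ofNat 186, .ofNat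 61, .ofNat 0, .ofNat 0, .ofNat 919, .ofNat 1204242, .ofNat 1219779417861269660276057821769173506719744, .ofNat 0, .ofNat 0, .ofNat 0, .ofNat 610936890959218893901802221109808946216960, .ofNat 0, .ofNat 9710950902400472850607695890135121920, .ofNat 0, .ofNat 510910670158743270949775354811961296551936, .ofNat 0, .ofNat 5826792255795307043316908529201184768, .ofNat 0, .ofNat 1731041791631719065084510077045443733225472, .ofNat 0, .ofNat 19731008768643873990858844849450254336, .ofNat 0⟩)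
    (by decide +kernel)
theorem L03818 : Good (Phi V5.P V5.D 1 1) ⟨3, 6, 1, 1, 2, 2, 2, 1, 4, 6⟩ :=
  leafX_sound T5.ok_pp T5.Ypp.bz_eq (w := 202) (c := ⟨⟨.negSucc 1865, .negSucc 495, .ofNat 65, .ofNat 24, .negSucc 386, .ofNat 206⟩, ⟨.negSucc 792, .negSucc 594, .negSucc 431, .ofNat 7, .negSucc 231, .ofNat 117⟩, ⟨.ofNat 1256, .ofNat 147, .negSucc 314, .negSucc 577, .ofNat 657, .negSucc 398⟩, ⟨.negSucc 3169, .negSucc 63, .ofNat 188, .ofNat 127, .negSucc 432, .ofNat 312⟩, ⟨.negSucc 166, .negSucc 91, .ofNat 13, .negSucc 147, .negSucc 216, .negSucc 19⟩, .ofNat 1558, .negSucc 2142, .ofNat 0, .negSucc 2142, .ofNat 3830, .ofNat 0, .ofNat 128, .ofNat 646, .negSucc 86, .ofNat 0, .ofNat 439, .negSucc 44, .ofNat 0, .ofNat 0, .ofNat 2109, .ofNat 9654, .ofNat 10021176610080599906337481322012809887744, .ofNat 0, .ofNat 148062569275218096599004015774138368, .ofNat 0, .ofNat 13487448558307297081391920015523006382080,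 .ofNat 853871383189461764506997794384547676160, .ofNat 138846017489798600093955943640606965760, .ofNat 0, .ofNat 0, .ofNat 1252904239526162010163647448639221006336, .ofNat 220093497931774789451273297411486777344, .ofNat 0, .ofNat 159657917428058772187408688777757110304768, .ofNat 12825305540251365438869100657535891800064, .ofNat 38555317210657546902296653784718245888, .ofNat 0⟩)
    (by decide +kernel)
theorem L03819 : Good (Phi V5.P V5.D 1 1) ⟨3, 6, 1, 1, 2, 3, 1, 0, 4, 6⟩ :=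
  leafX_sound T5.ok_pp T5.Ypp.bz_eq (w := 195) (c := ⟨⟨.negSucc 1585, .negSucc 300, .negSucc 28, .ofNat 284, .negSucc 750, .ofNat 156⟩, ⟨.negSucc 661, .negSucc 446, .negSucc 449, .ofNat 173, .negSucc 447, .ofNat 80⟩, ⟨.negSucc 127, .negSucc 257, .negSucc 191, .negSucc 777, .ofNat 2029, .negSucc 413⟩, ⟨.negSucc 2669, .ofNat 109, .ofNat 257, .ofNat 316, .negSucc 952, .ofNat 253⟩, ⟨.negSucc 185, .negSucc 45, .negSucc 339, .ofNat 159, .negSucc 248, .negSucc 28⟩, .ofNat 365, .negSucc 258, .ofNat 0, .negSucc 258, .ofNat 643, .ofNat 0, .ofNat 128, .ofNat 168, .negSucc 26, .ofNat 0, .ofNat 195, .ofNat 21, .ofNat 0, .ofNat 0, .ofNat 1199, .ofNat 1766, .ofNat 80110688468970755112013350558087774208, .ofNat 5002535840612109554140997085095264256, .ofNat 22991821151090563287710508408373248, .ofNat 0, .ofNat 2150456971145259121881504320268286296064, .ofNat 488774515894652238220474734779142504448,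 .ofNat 207335465475208393315031265251950592, .ofNat 0, .ofNat 0, .ofNat 589240349118344398268687763627701174272, .ofNat 298687119611270285342883323857338368, .ofNat 0, .ofNat 39681980339279285088799232572875069194240, .ofNat 4616827879808863813587314273672381857792, .ofNat 1018422849434222449524091625519710208, .ofNat 0⟩)
    (by decide +kernel)
theorem L03820 : Good (Phi V5.P V5.D 1 1) ⟨4, 12, 3, 4, 1, 1, 1, 0, 4, 7⟩ :=
  out_sound (S := T5.ds_pp) T5.ok_pp (w := 51) (j := 3) (by decide +kernel)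
theorem L03821 : Good (Phi V5.P V5.D 1 1) ⟨6, 52, 4, 8, 1, 1, 1, 0, 4, 7⟩ :=
  out_sound (S := T5.ds_pp) T5.ok_pp (w := 65) (j := 3) (by decide +kernel)
theorem L03822 : Good (Phi V5.P V5.D 1 1) ⟨7, 106, 5, 16, 1, 1, 1, 0, 4, 7⟩ :=
  out_sound (S := T5.ds_pp) T5.ok_pp (w := 73) (j := 3) (by decide +kernel)
theorem L03823 : Good (Phi V5.P V5.D 1 1) ⟨7, 107, 6, 32, 2, 2, 2, 0, 4, 7⟩ :=
  out_sound (S := T5.ds_pp) T5.ok_pp (w := 24) (j := 1) (by decide +kernel)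
theorem L03824 : Good (Phi V5.P V5.D 1 1) ⟨9, 428, 7, 64, 2, 2, 2, 1, 4, 7⟩ :=
  out_sound (S := T5.ds_pp) T5.ok_pp (w := 89) (j := 3) (by decide +kernel)
theorem L03825 : Good (Phi V5.P V5.D 1 1) ⟨9, 429, 7, 64, 3, 4, 3, 2, 4, 7⟩ :=
  out_sound (S := T5.ds_pp) T5.ok_pp (w := 27) (j := 1) (by decide +kernel)
theorem L03826 : Good (Phi V5.P V5.D 1 1) ⟨9, 429, 7, 64, 4, 8, 3, 3, 5, 14⟩ :=
  out_sound (S := T5.ds_pp) T5.ok_pp (w := 31) (j := 1) (by decide +kernel)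
theorem L03827 : Good (Phi V5.P V5.D 1 1) ⟨9, 429, 7, 64, 4, 9, 4, 6, 5, 14⟩ :=
  out_sound (S := T5.ds_pp) T5.ok_pp (w := 32) (j := 1) (by decide +kernel)
theorem L03828 : Good (Phi V5.P V5.D 1 1) ⟨9, 429, 7, 64, 5, 18, 4, 7, 6, 28⟩ :=
  leafX_sound T5.ok_pp T5.Ypp.bz_eq (w := 313) (c := ⟨⟨.negSucc 2326, .negSucc 6, .negSucc 0, .negSucc 0, .negSucc 74, .ofNat 1⟩, ⟨.negSucc 1289, .negSucc 7, .negSucc 6, .negSucc 0, .negSucc 42, .ofNat 1⟩, ⟨.ofNat 1333, .ofNat 2, .negSucc 9, .ofNat 1, .ofNat 33, .negSucc 0⟩, ⟨.negSucc 3225, .ofNat 0, .ofNat 2, .negSucc 0, .negSucc 85, .ofNat 2⟩, ⟨.negSucc 472, .ofNat 0, .negSucc 0, .ofNat 0, .negSucc 46, .ofNat 0⟩, .ofNat 164, .negSucc 48, .ofNat 0, .negSucc 48, .ofNat 223, .ofNat 0, .ofNat 150, .ofNat 53, .negSucc 14, .ofNat 0, .ofNat 128, .negSucc 4, .ofNat 0, .ofNat 0, .ofNat 461, .ofNat 4431778, .ofNat 0, .ofNat 0, .ofNat 0, .ofNat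 0, .ofNat 1170939616584310421195832636644939984347202280093655408473899488247808, .ofNat 4647507969604654051197423286854435376160056799010513487260666560512, .ofNat 508822209128141069888488678116158678964313538634448896, .ofNat 0, .ofNat 691798958989642156707688441597997687791991280846515240164746942480384, .ofNat 0, .ofNat 0, .ofNat 0, .ofNat 1534154300615740035334217288509660996749493414574566589008964594171904, .ofNat 1555507350404648598773623269434382603965006154783579745002308239360, .ofNat 1224030237328428866092657164969756228650775953780244480, .ofNat 0⟩)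
    (by decide +kernel)
theorem L03829 : Good (Phi V5.P V5.D 1 1) ⟨9, 429, 7, 64, 5, 19, 6, 28, 7, 56⟩ :=
  out_sound (S := T5.ds_pp) T5.ok_pp (w := 40) (j := 1) (by decide +kernel)
theorem L03830 : Good (Phi V5.P V5.D 1 1) ⟨9, 429, 7, 64, 6, 38, 6, 29, 7, 56⟩ :=
  out_sound (S := T5.ds_pp) T5.ok_pp (w := 42) (j := 1) (by decide +kernel)
theorem L03831 : Good (Phi V5.P V5.D 1 1) ⟨9, 429, 7, 64, 6, 39, 6, 29, 7, 56⟩ :=
  out_sound (S := T5.ds_pp) T5.ok_pp (w := 52) (j := 2) (by decide +kernel)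
theorem L03832 : Good (Phi V5.P V5.D 1 1) ⟨9, 429, 7, 64, 5, 19, 5, 14, 7, 57⟩ :=
  out_sound (S := T5.ds_pp) T5.ok_pp (w := 39) (j := 1) (by decide +kernel)
theorem L03833 : Good (Phi V5.P V5.D 1 1) ⟨9, 429, 7, 64, 7, 76, 6, 30, 7, 56⟩ :=
  out_sound (S := T5.ds_pp) T5.ok_pp (w := 44) (j := 1) (by decide +kernel)
theorem L03834 : Good (Phi V5.P V5.D 1 1) ⟨9, 429, 7, 64, 8, 152, 8, 124, 9, 224⟩ :=
  out_sound (S := T5.ds_pp) T5.ok_pp (w := 52) (j := 1) (by decide +kernel)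
theorem L03835 : Good (Phi V5.P V5.D 1 1) ⟨9, 429, 7, 64, 8, 152, 9, 250, 10, 448⟩ :=
  out_sound (S := T5.ds_pp) T5.ok_pp (w := 55) (j := 1) (by decide +kernel)
theorem L03836 : Good (Phi V5.P V5.D 1 1) ⟨9, 429, 7, 64, 9, 304, 9, 251, 10, 448⟩ :=
  out_sound (S := T5.ds_pp) T5.ok_pp (w := 57) (j := 1) (by decide +kernel)
theorem L03837 : Good (Phi V5.P V5.D 1 1) ⟨9, 429, 7, 64, 9, 305, 9, 251, 10, 448⟩ :=
  out_sound (S := T5.ds_pp) T5.ok_pp (w := 70) (j := 2) (by decide +kernel)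
theorem L03838 : Good (Phi V5.P V5.D 1 1) ⟨9, 429, 7, 64, 8, 152, 8, 125, 10, 449⟩ :=
  out_sound (S := T5.ds_pp) T5.ok_pp (w := 54) (j := 1) (by decide +kernel)
theorem L03839 : Good (Phi V5.P V5.D 1 1) ⟨9, 429, 7, 64, 8, 152, 7, 62, 9, 225⟩ :=
  out_sound (S := T5.ds_pp) T5.ok_pp (w := 51) (j := 1) (by decide +kernel)
theorem L03840 : Good (Phi V5.P V5.D 1 1) ⟨9, 429, 7, 64, 10, 608, 9, 252, 10, 448⟩ :=
  out_sound (S := T5.ds_pp) T5.ok_pp (w := 59) (j := 1) (by decide +kernel)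
theorem L03841 : Good (Phi V5.P V5.D 1 1) ⟨9, 429, 7, 64, 11, 1216, 10, 506, 11, 896⟩ :=
  out_sound (S := T5.ds_pp) T5.ok_pp (w := 64) (j := 1) (by decide +kernel)
theorem L03842 : Good (Phi V5.P V5.D 1 1) ⟨9, 429, 7, 64, 11, 1216, 10, 507, 11, 896⟩ :=
  out_sound (S := T5.ds_pp) T5.ok_pp (w := 78) (j := 2) (by decide +kernel)
theorem L03843 : Good (Phi V5.P V5.D 1 1) ⟨9, 429, 7, 64, 11, 1217, 9, 253, 11, 896⟩ :=
  out_sound (S := T5.ds_pp) T5.ok_pp (w := 76) (j := 2) (by decide +kernel)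
theorem L03844 : Good (Phi V5.P V5.D 1 1) ⟨9, 429, 7, 64, 10, 608, 9, 253, 11, 897⟩ :=
  out_sound (S := T5.ds_pp) T5.ok_pp (w := 74) (j := 2) (by decide +kernel)
theorem L03845 : Good (Phi V5.P V5.D 1 1) ⟨9, 429, 7, 64, 10, 609, 8, 126, 10, 448⟩ :=
  out_sound (S := T5.ds_pp) T5.ok_pp (w := 70) (j := 2) (by decide +kernel)
theorem L03846 : Good (Phi V5.P V5.D 1 1) ⟨9, 429, 7, 64, 9, 304, 8, 126, 10, 449⟩ :=
  out_sound (S := T5.ds_pp) T5.ok_pp (w := 56) (j := 1) (by decide +kernel)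
theorem L03847 : Good (Phi V5.P V5.D 1 1) ⟨9, 429, 7, 64, 9, 304, 8, 127, 9, 224⟩ :=
  out_sound (S := T5.ds_pp) T5.ok_pp (w := 66) (j := 2) (by decide +kernel)
theorem L03848 : Good (Phi V5.P V5.D 1 1) ⟨9, 429, 7, 64, 9, 305, 7, 63, 9, 224⟩ :=
  out_sound (S := T5.ds_pp) T5.ok_pp (w := 64) (j := 2) (by decide +kernel)
theorem L03849 : Good (Phi V5.P V5.D 1 1) ⟨9, 429, 7, 64, 8, 152, 7, 63, 9, 225⟩ :=
  out_sound (S := T5.ds_pp) T5.ok_pp (w := 62) (j := 2) (by decide +kernel)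
theorem L03850 : Good (Phi V5.P V5.D 1 1) ⟨9, 429, 7, 64, 8, 153, 6, 31, 8, 112⟩ :=
  out_sound (S := T5.ds_pp) T5.ok_pp (w := 58) (j := 2) (by decide +kernel)
theorem L03851 : Good (Phi V5.P V5.D 1 1) ⟨9, 429, 7, 64, 7, 76, 6, 31, 8, 113⟩ :=
  out_sound (S := T5.ds_pp) T5.ok_pp (w := 56) (j := 2) (by decide +kernel)
theorem L03852 : Good (Phi V5.P V5.D 1 1) ⟨9, 429, 7, 64, 8, 154, 6, 30, 8, 112⟩ :=
  out_sound (S := T5.ds_pp) T5.ok_pp (w := 48) (j := 1) (by decide +kernel)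
theorem L03853 : Good (Phi V5.P V5.D 1 1) ⟨9, 429, 7, 64, 8, 155, 6, 30, 8, 112⟩ :=
  out_sound (S := T5.ds_pp) T5.ok_pp (w := 58) (j := 2) (by decide +kernel)
theorem L03854 : Good (Phi V5.P V5.D 1 1) ⟨9, 429, 7, 64, 7, 77, 6, 30, 8, 113⟩ :=
  out_sound (S := T5.ds_pp) T5.ok_pp (w := 46) (j := 1) (by decide +kernel)
theorem L03855 : Good (Phi V5.P V5.D 1 1) ⟨9, 429, 7, 64, 7, 77, 6, 31, 7, 56⟩ :=
  out_sound (S := T5.ds_pp) T5.ok_pp (w := 54) (j := 2) (by decide +kernel)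
theorem L03856 : Good (Phi V5.P V5.D 1 1) ⟨9, 429, 7, 64, 6, 38, 5, 15, 7, 57⟩ :=
  out_sound (S := T5.ds_pp) T5.ok_pp (w := 50) (j := 2) (by decide +kernel)
theorem L03857 : Good (Phi V5.P V5.D 1 1) ⟨9, 429, 7, 64, 6, 39, 5, 15, 6, 28⟩ :=
  out_sound (S := T5.ds_pp) T5.ok_pp (w := 48) (j := 2) (by decide +kernel)
theorem L03858 : Good (Phi V5.P V5.D 1 1) ⟨9, 429, 7, 64, 4, 9, 4, 7, 6, 29⟩ :=
  out_sound (S := T5.ds_pp) T5.ok_pp (w := 34) (j := 1) (by decide +kernel)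
theorem L03859 : Good (Phi V5.P V5.D 1 1) ⟨9, 429, 7, 64, 3, 4, 3, 3, 5, 15⟩ :=
  out_sound (S := T5.ds_pp) T5.ok_pp (w := 29) (j := 1) (by decide +kernel)
theorem L03860 : Good (Phi V5.P V5.D 1 1) ⟨9, 429, 7, 64, 4, 10, 3, 2, 5, 14⟩ :=
  out_sound (S := T5.ds_pp) T5.ok_pp (w := 31) (j := 1) (by decide +kernel)
theorem L03861 : Good (Phi V5.P V5.D 1 1) ⟨9, 429, 7, 64, 5, 20, 5, 12, 6, 28⟩ :=
  out_sound (S := T5.ds_pp) T5.ok_pp (w := 37) (j := 1) (by decide +kernel)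
theorem L03862 : Good (Phi V5.P V5.D 1 1) ⟨9, 429, 7, 64, 5, 20, 5, 13, 6, 28⟩ :=
  out_sound (S := T5.ds_pp) T5.ok_pp (w := 46) (j := 2) (by decide +kernel)
theorem L03863 : Good (Phi V5.P V5.D 1 1) ⟨9, 429, 7, 64, 5, 20, 4, 7, 6, 28⟩ :=
  out_sound (S := T5.ds_pp) T5.ok_pp (w := 44) (j := 2) (by decide +kernel)
theorem L03864 : Good (Phi V5.P V5.D 1 1) ⟨9, 429, 7, 64, 5, 20, 3, 3, 6, 29⟩ :=
  out_sound (S := T5.ds_pp) T5.ok_pp (w := 42) (j := 2) (by decide +kernel)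
theorem L03865 : Good (Phi V5.P V5.D 1 1) ⟨9, 429, 7, 64, 5, 21, 3, 3, 5, 14⟩ :=
  out_sound (S := T5.ds_pp) T5.ok_pp (w := 40) (j := 2) (by decide +kernel)
theorem L03866 : Good (Phi V5.P V5.D 1 1) ⟨9, 429, 7, 64, 4, 10, 2, 1, 5, 15⟩ :=
  out_sound (S := T5.ds_pp) T5.ok_pp (w := 36) (j := 2) (by decide +kernel)
theorem L03867 : Good (Phi V5.P V5.D 1 1) ⟨9, 429, 7, 64, 4, 11, 2, 1, 4, 7⟩ :=
  out_sound (S := T5.ds_pp) T5.ok_pp (w := 34) (j := 2) (by decide +kernel)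
theorem L03868 : Good (Phi V5.P V5.D 1 1) ⟨8, 214, 7, 65, 2, 2, 2, 1, 4, 7⟩ :=
  out_sound (S := T5.ds_pp) T5.ok_pp (w := 83) (j := 3) (by decide +kernel)
theorem L03869 : Good (Phi V5.P V5.D 1 1) ⟨8, 215, 6, 32, 3, 4, 3, 2, 4, 7⟩ :=
  out_sound (S := T5.ds_pp) T5.ok_pp (w := 27) (j := 1) (by decide +kernel)
theorem L03870 : Good (Phi V5.P V5.D 1 1) ⟨8, 215, 6, 32, 4, 8, 3, 3, 5, 14⟩ :=
  out_sound (S := T5.ds_pp) T5.ok_pp (w := 31) (j := 1) (by decide +kernel)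
theorem L03871 : Good (Phi V5.P V5.D 1 1) ⟨8, 215, 6, 32, 4, 9, 4, 6, 5, 14⟩ :=
  out_sound (S := T5.ds_pp) T5.ok_pp (w := 32) (j := 1) (by decide +kernel)
theorem L03872 : Good (Phi V5.P V5.D 1 1) ⟨8, 215, 6, 32, 5, 18, 4, 7, 6, 28⟩ :=
  leafX_sound T5.ok_pp T5.Ypp.bz_eq (w := 306) (c := ⟨⟨.negSucc 2330, .negSucc 12, .negSucc 0, .negSucc 0, .negSucc 76, .ofNat 1⟩, ⟨.negSucc 1297, .negSucc 16, .negSucc 13, .negSucc 0, .negSucc 43, .ofNat 1⟩, ⟨.ofNat 1332, .ofNat 4, .negSucc 21, .ofNat 1, .ofNat 36, .negSucc 0⟩, ⟨.negSucc 3224, .negSucc 0, .ofNat 4, .negSucc 0, .negSucc 87, .ofNat 2⟩, ⟨.negSucc 471, .negSucc 0, .negSucc 1, .ofNat 0, .negSucc 47, .ofNat 0⟩, .ofNat 164, .negSucc 49, .ofNat 0, .negSucc 49, .ofNat 222, .ofNat 0, .ofNat 149, .ofNat 53, .negSucc 14, .ofNat 0, .ofNat 128, .negSucc 4, .ofNat 0, .ofNat 0, .ofNat 459, .ofNat 4411093, .ofNat 0, .ofNat 0, .ofNat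 0, .ofNat 0, .ofNat 8998894928526004471045918699095140901068235318471766385996349833216, .ofNat 35256479081571496104658688121903677812683493652079531963625504768, .ofNat 0, .ofNat 0, .ofNat 5594628443193166680116628140720029725927871529596848756220563030016, .ofNat 0, .ofNat 0, .ofNat 0, .ofNat 12040523201115673284837339829827082381399471122688475697916074262528, .ofNat 11710702330573769148528328582015398582089269438747206639274688512, .ofNat 238720104143569078372641540479797286577263090969083904, .ofNat 0⟩)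
    (by decide +kernel)
theorem L03873 : Good (Phi V5.P V5.D 1 1) ⟨8, 215, 6, 32, 5, 19, 6, 28, 7, 56⟩ :=
  out_sound (S := T5.ds_pp) T5.ok_pp (w := 40) (j := 1) (by decide +kernel)
theorem L03874 : Good (Phi V5.P V5.D 1 1) ⟨8, 215, 6, 32, 6, 38, 6, 29, 7, 56⟩ :=
  out_sound (S := T5.ds_pp) T5.ok_pp (w := 42) (j := 1) (by decide +kernel)
theorem L03875 : Good (Phi V5.P V5.D 1 1) ⟨8, 215, 6, 32, 6, 39, 6, 29, 7, 56⟩ :=
  out_sound (S := T5.ds_pp) T5.ok_pp (w := 52) (j := 2) (by decide +kernel)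
theorem L03876 : Good (Phi V5.P V5.D 1 1) ⟨8, 215, 6, 32, 5, 19, 5, 14, 7, 57⟩ :=
  out_sound (S := T5.ds_pp) T5.ok_pp (w := 39) (j := 1) (by decide +kernel)
theorem L03877 : Good (Phi V5.P V5.D 1 1) ⟨8, 215, 6, 32, 7, 76, 6, 30, 7, 56⟩ :=
  out_sound (S := T5.ds_pp) T5.ok_pp (w := 44) (j := 1) (by decide +kernel)
theorem L03878 : Good (Phi V5.P V5.D 1 1) ⟨8, 215, 6, 32, 8, 152, 8, 124, 9, 224⟩ :=
  out_sound (S := T5.ds_pp) T5.ok_pp (w := 52) (j := 1) (by decide +kernel)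
theorem L03879 : Good (Phi V5.P V5.D 1 1) ⟨8, 215, 6, 32, 8, 152, 9, 250, 10, 448⟩ :=
  out_sound (S := T5.ds_pp) T5.ok_pp (w := 55) (j := 1) (by decide +kernel)
theorem L03880 : Good (Phi V5.P V5.D 1 1) ⟨8, 215, 6, 32, 9, 304, 9, 251, 10, 448⟩ :=
  out_sound (S := T5.ds_pp) T5.ok_pp (w := 57) (j := 1) (by decide +kernel)
theorem L03881 : Good (Phi V5.P V5.D 1 1) ⟨8, 215, 6, 32, 9, 305, 9, 251, 10, 448⟩ :=
  out_sound (S := T5.ds_pp) T5.ok_pp (w := 70) (j := 2) (by decide +kernel)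
theorem L03882 : Good (Phi V5.P V5.D 1 1) ⟨8, 215, 6, 32, 8, 152, 8, 125, 10, 449⟩ :=
  out_sound (S := T5.ds_pp) T5.ok_pp (w := 54) (j := 1) (by decide +kernel)
theorem L03883 : Good (Phi V5.P V5.D 1 1) ⟨8, 215, 6, 32, 8, 152, 7, 62, 9, 225⟩ :=
  out_sound (S := T5.ds_pp) T5.ok_pp (w := 51) (j := 1) (by decide +kernel)
theorem L03884 : Good (Phi V5.P V5.D 1 1) ⟨8, 215, 6, 32, 10, 608, 9, 252, 10, 448⟩ :=
  out_sound (S := T5.ds_pp) T5.ok_pp (w := 59) (j := 1) (by decide +kernel)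
theorem L03885 : Good (Phi V5.P V5.D 1 1) ⟨8, 215, 6, 32, 11, 1216, 10, 506, 11, 896⟩ :=
  out_sound (S := T5.ds_pp) T5.ok_pp (w := 64) (j := 1) (by decide +kernel)
theorem L03886 : Good (Phi V5.P V5.D 1 1) ⟨8, 215, 6, 32, 11, 1216, 10, 507, 11, 896⟩ :=
  out_sound (S := T5.ds_pp) T5.ok_pp (w := 78) (j := 2) (by decide +kernel)
theorem L03887 : Good (Phi V5.P V5.D 1 1) ⟨8, 215, 6, 32, 11, 1217, 9, 253, 11, 896⟩ :=
  out_sound (S := T5.ds_pp) T5.ok_pp (w := 76) (j := 2) (by decide +kernel)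
theorem L03888 : Good (Phi V5.P V5.D 1 1) ⟨8, 215, 6, 32, 10, 608, 9, 253, 11, 897⟩ :=
  out_sound (S := T5.ds_pp) T5.ok_pp (w := 74) (j := 2) (by decide +kernel)
theorem L03889 : Good (Phi V5.P V5.D 1 1) ⟨8, 215, 6, 32, 10, 609, 8, 126, 10, 448⟩ :=
  out_sound (S := T5.ds_pp) T5.ok_pp (w := 70) (j := 2) (by decide +kernel)
theorem L03890 : Good (Phi V5.P V5.D 1 1) ⟨8, 215, 6, 32, 9, 304, 8, 126, 10, 449⟩ :=
  out_sound (S := T5.ds_pp) T5.ok_pp (w := 56) (j := 1) (by decide +kernel)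
theorem L03891 : Good (Phi V5.P V5.D 1 1) ⟨8, 215, 6, 32, 9, 304, 8, 127, 9, 224⟩ :=
  out_sound (S := T5.ds_pp) T5.ok_pp (w := 66) (j := 2) (by decide +kernel)
theorem L03892 : Good (Phi V5.P V5.D 1 1) ⟨8, 215, 6, 32, 9, 305, 7, 63, 9, 224⟩ :=
  out_sound (S := T5.ds_pp) T5.ok_pp (w := 64) (j := 2) (by decide +kernel)
theorem L03893 : Good (Phi V5.P V5.D 1 1) ⟨8, 215, 6, 32, 8, 152, 7, 63, 9, 225⟩ :=
  out_sound (S := T5.ds_pp) T5.ok_pp (w := 62) (j := 2) (by decide +kernel)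
theorem L03894 : Good (Phi V5.P V5.D 1 1) ⟨8, 215, 6, 32, 8, 153, 6, 31, 8, 112⟩ :=
  out_sound (S := T5.ds_pp) T5.ok_pp (w := 58) (j := 2) (by decide +kernel)
theorem L03895 : Good (Phi V5.P V5.D 1 1) ⟨8, 215, 6, 32, 7, 76, 6, 31, 8, 113⟩ :=
  out_sound (S := T5.ds_pp) T5.ok_pp (w := 56) (j := 2) (by decide +kernel)
theorem L03896 : Good (Phi V5.P V5.D 1 1) ⟨8, 215, 6, 32, 8, 154, 6, 30, 8, 112⟩ :=
  out_sound (S := T5.ds_pp) T5.ok_pp (w := 48) (j := 1) (by decide +kernel)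
theorem L03897 : Good (Phi V5.P V5.D 1 1) ⟨8, 215, 6, 32, 8, 155, 6, 30, 8, 112⟩ :=
  out_sound (S := T5.ds_pp) T5.ok_pp (w := 58) (j := 2) (by decide +kernel)
theorem L03898 : Good (Phi V5.P V5.D 1 1) ⟨8, 215, 6, 32, 7, 77, 6, 30, 8, 113⟩ :=
  out_sound (S := T5.ds_pp) T5.ok_pp (w := 46) (j := 1) (by decide +kernel)
theorem L03899 : Good (Phi V5.P V5.D 1 1) ⟨8, 215, 6, 32, 7, 77, 6, 31, 7, 56⟩ :=
  out_sound (S := T5.ds_pp) T5.ok_pp (w := 54) (j := 2) (by decide +kernel)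
theorem L03900 : Good (Phi V5.P V5.D 1 1) ⟨8, 215, 6, 32, 6, 38, 5, 15, 7, 57⟩ :=
  out_sound (S := T5.ds_pp) T5.ok_pp (w := 50) (j := 2) (by decide +kernel)
theorem L03901 : Good (Phi V5.P V5.D 1 1) ⟨8, 215, 6, 32, 6, 39, 5, 15, 6, 28⟩ :=
  out_sound (S := T5.ds_pp) T5.ok_pp (w := 48) (j := 2) (by decide +kernel)
theorem L03902 : Good (Phi V5.P V5.D 1 1) ⟨8, 215, 6, 32, 4, 9, 4, 7, 6, 29⟩ :=
  out_sound (S := T5.ds_pp) T5.ok_pp (w := 34) (j := 1) (by decide +kernel)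
theorem L03903 : Good (Phi V5.P V5.D 1 1) ⟨8, 215, 6, 32, 3, 4, 3, 3, 5, 15⟩ :=
  out_sound (S := T5.ds_pp) T5.ok_pp (w := 29) (j := 1) (by decide +kernel)
theorem L03904 : Good (Phi V5.P V5.D 1 1) ⟨8, 215, 6, 32, 4, 10, 3, 2, 5, 14⟩ :=
  out_sound (S := T5.ds_pp) T5.ok_pp (w := 31) (j := 1) (by decide +kernel)
theorem L03905 : Good (Phi V5.P V5.D 1 1) ⟨8, 215, 6, 32, 5, 20, 5, 12, 6, 28⟩ :=
  out_sound (S := T5.ds_pp) T5.ok_pp (w := 37) (j := 1) (by decide +kernel)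
theorem L03906 : Good (Phi V5.P V5.D 1 1) ⟨8, 215, 6, 32, 5, 20, 5, 13, 6, 28⟩ :=
  out_sound (S := T5.ds_pp) T5.ok_pp (w := 46) (j := 2) (by decide +kernel)
theorem L03907 : Good (Phi V5.P V5.D 1 1) ⟨8, 215, 6, 32, 5, 20, 4, 7, 6, 28⟩ :=
  out_sound (S := T5.ds_pp) T5.ok_pp (w := 44) (j := 2) (by decide +kernel)
theorem L03908 : Good (Phi V5.P V5.D 1 1) ⟨8, 215, 6, 32, 5, 20, 3, 3, 6, 29⟩ :=
  out_sound (S := T5.ds_pp) T5.ok_pp (w := 42) (j := 2) (by decide +kernel)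
theorem L03909 : Good (Phi V5.P V5.D 1 1) ⟨8, 215, 6, 32, 5, 21, 3, 3, 5, 14⟩ :=
  out_sound (S := T5.ds_pp) T5.ok_pp (w := 40) (j := 2) (by decide +kernel)
theorem L03910 : Good (Phi V5.P V5.D 1 1) ⟨8, 215, 6, 32, 4, 10, 2, 1, 5, 15⟩ :=
  out_sound (S := T5.ds_pp) T5.ok_pp (w := 36) (j := 2) (by decide +kernel)
theorem L03911 : Good (Phi V5.P V5.D 1 1) ⟨8, 215, 6, 32, 4, 11, 2, 1, 4, 7⟩ :=
  out_sound (S := T5.ds_pp) T5.ok_pp (w := 34) (j := 2) (by decide +kernel)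
theorem L03912 : Good (Phi V5.P V5.D 1 1) ⟨7, 107, 6, 32, 2, 3, 1, 0, 4, 7⟩ :=
  out_sound (S := T5.ds_pp) T5.ok_pp (w := 28) (j := 2) (by decide +kernel)
theorem L03913 : Good (Phi V5.P V5.D 1 1) ⟨7, 107, 6, 33, 1, 1, 1, 0, 4, 7⟩ :=
  out_sound (S := T5.ds_pp) T5.ok_pp (w := 75) (j := 3) (by decide +kernel)
theorem L03914 : Good (Phi V5.P V5.D 1 1) ⟨6, 53, 5, 17, 1, 1, 1, 0, 4, 7⟩ :=
  out_sound (S := T5.ds_pp) T5.ok_pp (w := 67) (j := 3) (by decide +kernel)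
theorem L03915 : Good (Phi V5.P V5.D 1 1) ⟨6, 54, 5, 16, 2, 2, 2, 0, 4, 7⟩ :=
  out_sound (S := T5.ds_pp) T5.ok_pp (w := 24) (j := 1) (by decide +kernel)
theorem L03916 : Good (Phi V5.P V5.D 1 1) ⟨6, 54, 5, 16, 3, 4, 3, 2, 4, 7⟩ :=
  out_sound (S := T5.ds_pp) T5.ok_pp (w := 27) (j := 1) (by decide +kernel)
theorem L03917 : Good (Phi V5.P V5.D 1 1) ⟨6, 54, 5, 16, 4, 8, 3, 3, 5, 14⟩ :=
  out_sound (S := T5.ds_pp) T5.ok_pp (w := 31) (j := 1) (by decide +kernel)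
theorem L03918 : Good (Phi V5.P V5.D 1 1) ⟨6, 54, 5, 16, 4, 9, 4, 6, 5, 14⟩ :=
  out_sound (S := T5.ds_pp) T5.ok_pp (w := 32) (j := 1) (by decide +kernel)
theorem L03919 : Good (Phi V5.P V5.D 1 1) ⟨6, 54, 5, 16, 5, 18, 4, 7, 6, 28⟩ :=
  leafX_sound T5.ok_pp T5.Ypp.bz_eq (w := 295) (c := ⟨⟨.negSucc 2342, .negSucc 53, .negSucc 1, .negSucc 0, .negSucc 78, .ofNat 1⟩, ⟨.negSucc 1311, .negSucc 70, .negSucc 27, .negSucc 0, .negSucc 45, .ofNat 1⟩, ⟨.ofNat 1335, .ofNat 17, .negSucc 43, .ofNat 1, .ofNat 37, .negSucc 0⟩, ⟨.negSucc 3234, .negSucc 3, .ofNat 8, .negSucc 0, .negSucc 78, .ofNat 2⟩, ⟨.negSucc 476, .negSucc 3, .negSucc 4, .ofNat 0, .negSucc 43, .ofNat 0⟩, .ofNat 361, .negSucc 251, .ofNat 0, .negSucc 251, .ofNat 639, .ofNat 0, .ofNat 140, .ofNat 117, .negSucc 14, .ofNat 0, .ofNat 128, .negSucc 6, .ofNat 0, .ofNat 0, .ofNat 624, .ofNat 5762089, .ofNat 0, .ofNat 0, .ofNat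 0, .ofNat 0, .ofNat 5453788482524967357467015776867210761345779512488547387336294400, .ofNat 22537472708567430591845445014514442922453755831311980394708992, .ofNat 6128717946935250681869582295193103643838910607736700928, .ofNat 0, .ofNat 5965070591412457874958554225502364328945491104102862106411401216, .ofNat 11205051299705293944630768673701612767618662967358535487193088, .ofNat 0, .ofNat 0, .ofNat 10608934051212425081101183528654425193868569406488771090769248256, .ofNat 8388268160317837404011297291651193033047539520064323927932928, .ofNat 4367252236980573697680770679566124807221310463605211136, .ofNat 0⟩)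
    (by decide +kernel)
theorem L03920 : Good (Phi V5.P V5.D 1 1) ⟨7, 108, 6, 32, 5, 19, 6, 28, 7, 56⟩ :=
  out_sound (S := T5.ds_pp) T5.ok_pp (w := 40) (j := 1) (by decide +kernel)
theorem L03921 : Good (Phi V5.P V5.D 1 1) ⟨7, 108, 6, 32, 6, 38, 6, 29, 7, 56⟩ :=
  out_sound (S := T5.ds_pp) T5.ok_pp (w := 42) (j := 1) (by decide +kernel)
theorem L03922 : Good (Phi V5.P V5.D 1 1) ⟨7, 108, 6, 32, 6, 39, 6, 29, 7, 56⟩ :=
  out_sound (S := T5.ds_pp) T5.ok_pp (w := 52) (j := 2) (by decide +kernel)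
theorem L03923 : Good (Phi V5.P V5.D 1 1) ⟨7, 108, 6, 32, 5, 19, 5, 14, 7, 57⟩ :=
  out_sound (S := T5.ds_pp) T5.ok_pp (w := 39) (j := 1) (by decide +kernel)
theorem L03924 : Good (Phi V5.P V5.D 1 1) ⟨7, 108, 6, 32, 7, 76, 6, 30, 7, 56⟩ :=
  out_sound (S := T5.ds_pp) T5.ok_pp (w := 44) (j := 1) (by decide +kernel)
theorem L03925 : Good (Phi V5.P V5.D 1 1) ⟨7, 108, 6, 32, 8, 152, 8, 124, 9, 224⟩ :=
  out_sound (S := T5.ds_pp) T5.ok_pp (w := 52) (j := 1) (by decide +kernel)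
theorem L03926 : Good (Phi V5.P V5.D 1 1) ⟨7, 108, 6, 32, 8, 152, 9, 250, 10, 448⟩ :=
  out_sound (S := T5.ds_pp) T5.ok_pp (w := 55) (j := 1) (by decide +kernel)
theorem L03927 : Good (Phi V5.P V5.D 1 1) ⟨7, 108, 6, 32, 9, 304, 9, 251, 10, 448⟩ :=
  out_sound (S := T5.ds_pp) T5.ok_pp (w := 57) (j := 1) (by decide +kernel)
theorem L03928 : Good (Phi V5.P V5.D 1 1) ⟨7, 108, 6, 32, 9, 305, 9, 251, 10, 448⟩ :=
  out_sound (S := T5.ds_pp) T5.ok_pp (w := 70) (j := 2) (by decide +kernel)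
theorem L03929 : Good (Phi V5.P V5.D 1 1) ⟨7, 108, 6, 32, 8, 152, 8, 125, 10, 449⟩ :=
  out_sound (S := T5.ds_pp) T5.ok_pp (w := 54) (j := 1) (by decide +kernel)
theorem L03930 : Good (Phi V5.P V5.D 1 1) ⟨7, 108, 6, 32, 8, 152, 7, 62, 9, 225⟩ :=
  out_sound (S := T5.ds_pp) T5.ok_pp (w := 51) (j := 1) (by decide +kernel)
theorem L03931 : Good (Phi V5.P V5.D 1 1) ⟨7, 108, 6, 32, 10, 608, 9, 252, 10, 448⟩ :=
  out_sound (S := T5.ds_pp) T5.ok_pp (w := 59) (j := 1) (by decide +kernel)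
theorem L03932 : Good (Phi V5.P V5.D 1 1) ⟨7, 108, 6, 32, 11, 1216, 10, 506, 11, 896⟩ :=
  out_sound (S := T5.ds_pp) T5.ok_pp (w := 64) (j := 1) (by decide +kernel)
theorem L03933 : Good (Phi V5.P V5.D 1 1) ⟨7, 108, 6, 32, 11, 1216, 10, 507, 11, 896⟩ :=
  out_sound (S := T5.ds_pp) T5.ok_pp (w := 78) (j := 2) (by decide +kernel)
theorem L03934 : Good (Phi V5.P V5.D 1 1) ⟨7, 108, 6, 32, 11, 1217, 9, 253, 11, 896⟩ :=
  out_sound (S := T5.ds_pp) T5.ok_pp (w := 76) (j := 2) (by decide +kernel)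
theorem L03935 : Good (Phi V5.P V5.D 1 1) ⟨7, 108, 6, 32, 10, 608, 9, 253, 11, 897⟩ :=
  out_sound (S := T5.ds_pp) T5.ok_pp (w := 74) (j := 2) (by decide +kernel)
theorem L03936 : Good (Phi V5.P V5.D 1 1) ⟨7, 108, 6, 32, 10, 609, 8, 126, 10, 448⟩ :=
  out_sound (S := T5.ds_pp) T5.ok_pp (w := 70) (j := 2) (by decide +kernel)
theorem L03937 : Good (Phi V5.P V5.D 1 1) ⟨7, 108, 6, 32, 9, 304, 8, 126, 10, 449⟩ :=
  out_sound (S := T5.ds_pp) T5.ok_pp (w := 56) (j := 1) (by decide +kernel)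
theorem L03938 : Good (Phi V5.P V5.D 1 1) ⟨7, 108, 6, 32, 9, 304, 8, 127, 9, 224⟩ :=
  out_sound (S := T5.ds_pp) T5.ok_pp (w := 66) (j := 2) (by decide +kernel)
theorem L03939 : Good (Phi V5.P V5.D 1 1) ⟨7, 108, 6, 32, 9, 305, 7, 63, 9, 224⟩ :=
  out_sound (S := T5.ds_pp) T5.ok_pp (w := 64) (j := 2) (by decide +kernel)
theorem L03940 : Good (Phi V5.P V5.D 1 1) ⟨7, 108, 6, 32, 8, 152, 7, 63, 9, 225⟩ :=
  out_sound (S := T5.ds_pp) T5.ok_pp (w := 62) (j := 2) (by decide +kernel)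
theorem L03941 : Good (Phi V5.P V5.D 1 1) ⟨7, 108, 6, 32, 8, 153, 6, 31, 8, 112⟩ :=
  out_sound (S := T5.ds_pp) T5.ok_pp (w := 58) (j := 2) (by decide +kernel)
theorem L03942 : Good (Phi V5.P V5.D 1 1) ⟨7, 108, 6, 32, 7, 76, 6, 31, 8, 113⟩ :=
  out_sound (S := T5.ds_pp) T5.ok_pp (w := 56) (j := 2) (by decide +kernel)
theorem L03943 : Good (Phi V5.P V5.D 1 1) ⟨7, 108, 6, 32, 8, 154, 6, 30, 8, 112⟩ :=
  out_sound (S := T5.ds_pp) T5.ok_pp (w := 48) (j := 1) (by decide +kernel)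
theorem L03944 : Good (Phi V5.P V5.D 1 1) ⟨7, 108, 6, 32, 8, 155, 6, 30, 8, 112⟩ :=
  out_sound (S := T5.ds_pp) T5.ok_pp (w := 58) (j := 2) (by decide +kernel)
theorem L03945 : Good (Phi V5.P V5.D 1 1) ⟨7, 108, 6, 32, 7, 77, 6, 30, 8, 113⟩ :=
  out_sound (S := T5.ds_pp) T5.ok_pp (w := 46) (j := 1) (by decide +kernel)
theorem L03946 : Good (Phi V5.P V5.D 1 1) ⟨7, 108, 6, 32, 7, 77, 6, 31, 7, 56⟩ :=
  out_sound (S := T5.ds_pp) T5.ok_pp (w := 54) (j := 2) (by decide +kernel)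
theorem L03947 : Good (Phi V5.P V5.D 1 1) ⟨7, 108, 6, 32, 6, 38, 5, 15, 7, 57⟩ :=
  out_sound (S := T5.ds_pp) T5.ok_pp (w := 50) (j := 2) (by decide +kernel)
theorem L03948 : Good (Phi V5.P V5.D 1 1) ⟨7, 108, 6, 32, 6, 39, 5, 15, 6, 28⟩ :=
  out_sound (S := T5.ds_pp) T5.ok_pp (w := 48) (j := 2) (by decide +kernel)
theorem L03949 : Good (Phi V5.P V5.D 1 1) ⟨10, 872, 9, 256, 5, 19, 4, 7, 6, 28⟩ :=
  out_sound (S := T5.ds_pp) T5.ok_pp (w := 99) (j := 3) (by decide +kernel)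
theorem L03950 : Good (Phi V5.P V5.D 1 1) ⟨11, 1744, 9, 257, 5, 19, 6, 28, 7, 56⟩ :=
  out_sound (S := T5.ds_pp) T5.ok_pp (w := 40) (j := 1) (by decide +kernel)
theorem L03951 : Good (Phi V5.P V5.D 1 1) ⟨11, 1744, 9, 257, 6, 38, 6, 29, 7, 56⟩ :=
  out_sound (S := T5.ds_pp) T5.ok_pp (w := 42) (j := 1) (by decide +kernel)
theorem L03952 : Good (Phi V5.P V5.D 1 1) ⟨11, 1744, 9, 257, 6, 39, 6, 29, 7, 56⟩ :=
  out_sound (S := T5.ds_pp) T5.ok_pp (w := 52) (j := 2) (by decide +kernel)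
theorem L03953 : Good (Phi V5.P V5.D 1 1) ⟨11, 1744, 9, 257, 5, 19, 5, 14, 7, 57⟩ :=
  out_sound (S := T5.ds_pp) T5.ok_pp (w := 39) (j := 1) (by decide +kernel)
theorem L03954 : Good (Phi V5.P V5.D 1 1) ⟨11, 1744, 9, 257, 7, 76, 6, 30, 7, 56⟩ :=
  out_sound (S := T5.ds_pp) T5.ok_pp (w := 44) (j := 1) (by decide +kernel)
theorem L03955 : Good (Phi V5.P V5.D 1 1) ⟨11, 1744, 9, 257, 8, 152, 8, 124, 9, 224⟩ :=
  out_sound (S := T5.ds_pp) T5.ok_pp (w := 52) (j := 1) (by decide +kernel)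
theorem L03956 : Good (Phi V5.P V5.D 1 1) ⟨11, 1744, 9, 257, 8, 152, 9, 250, 10, 448⟩ :=
  out_sound (S := T5.ds_pp) T5.ok_pp (w := 55) (j := 1) (by decide +kernel)
theorem L03957 : Good (Phi V5.P V5.D 1 1) ⟨11, 1744, 9, 257, 9, 304, 9, 251, 10, 448⟩ :=
  out_sound (S := T5.ds_pp) T5.ok_pp (w := 57) (j := 1) (by decide +kernel)
theorem L03958 : Good (Phi V5.P V5.D 1 1) ⟨11, 1744, 9, 257, 9, 305, 9, 251, 10, 448⟩ :=
  out_sound (S := T5.ds_pp) T5.ok_pp (w := 70) (j := 2) (by decide +kernel)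
theorem L03959 : Good (Phi V5.P V5.D 1 1) ⟨11, 1744, 9, 257, 8, 152, 8, 125, 10, 449⟩ :=
  out_sound (S := T5.ds_pp) T5.ok_pp (w := 54) (j := 1) (by decide +kernel)
theorem L03960 : Good (Phi V5.P V5.D 1 1) ⟨11, 1744, 9, 257, 8, 152, 7, 62, 9, 225⟩ :=
  out_sound (S := T5.ds_pp) T5.ok_pp (w := 51) (j := 1) (by decide +kernel)
theorem L03961 : Good (Phi V5.P V5.D 1 1) ⟨11, 1744, 9, 257, 10, 608, 9, 252, 10, 448⟩ :=
  out_sound (S := T5.ds_pp) T5.ok_pp (w := 59) (j := 1) (by decide +kernel)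
theorem L03962 : Good (Phi V5.P V5.D 1 1) ⟨11, 1744, 9, 257, 11, 1216, 10, 506, 11, 896⟩ :=
  out_sound (S := T5.ds_pp) T5.ok_pp (w := 64) (j := 1) (by decide +kernel)
theorem L03963 : Good (Phi V5.P V5.D 1 1) ⟨11, 1744, 9, 257, 11, 1216, 10, 507, 11, 896⟩ :=
  out_sound (S := T5.ds_pp) T5.ok_pp (w := 78) (j := 2) (by decide +kernel)
theorem L03964 : Good (Phi V5.P V5.D 1 1) ⟨11, 1744, 9, 257, 11, 1217, 9, 253, 11, 896⟩ :=
  out_sound (S := T5.ds_pp) T5.ok_pp (w := 76) (j := 2) (by decide +kernel)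
theorem L03965 : Good (Phi V5.P V5.D 1 1) ⟨11, 1744, 9, 257, 10, 608, 9, 253, 11, 897⟩ :=
  out_sound (S := T5.ds_pp) T5.ok_pp (w := 74) (j := 2) (by decide +kernel)
theorem L03966 : Good (Phi V5.P V5.D 1 1) ⟨11, 1744, 9, 257, 10, 609, 8, 126, 10, 448⟩ :=
  out_sound (S := T5.ds_pp) T5.ok_pp (w := 70) (j := 2) (by decide +kernel)
theorem L03967 : Good (Phi V5.P V5.D 1 1) ⟨11, 1744, 9, 257, 9, 304, 8, 126, 10, 449⟩ :=
  out_sound (S := T5.ds_pp) T5.ok_pp (w := 56) (j := 1) (by decide +kernel)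
theorem L03968 : Good (Phi V5.P V5.D 1 1) ⟨11, 1744, 9, 257, 9, 304, 8, 127, 9, 224⟩ :=
  out_sound (S := T5.ds_pp) T5.ok_pp (w := 66) (j := 2) (by decide +kernel)
theorem L03969 : Good (Phi V5.P V5.D 1 1) ⟨11, 1744, 9, 257, 9, 305, 7, 63, 9, 224⟩ :=
  out_sound (S := T5.ds_pp) T5.ok_pp (w := 64) (j := 2) (by decide +kernel)
theorem L03970 : Good (Phi V5.P V5.D 1 1) ⟨11, 1744, 9, 257, 8, 152, 7, 63, 9, 225⟩ :=
  out_sound (S := T5.ds_pp) T5.ok_pp (w := 62) (j := 2) (by decide +kernel)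
theorem L03971 : Good (Phi V5.P V5.D 1 1) ⟨11, 1744, 9, 257, 8, 153, 6, 31, 8, 112⟩ :=
  out_sound (S := T5.ds_pp) T5.ok_pp (w := 58) (j := 2) (by decide +kernel)
theorem L03972 : Good (Phi V5.P V5.D 1 1) ⟨11, 1744, 9, 257, 7, 76, 6, 31, 8, 113⟩ :=
  out_sound (S := T5.ds_pp) T5.ok_pp (w := 56) (j := 2) (by decide +kernel)
theorem L03973 : Good (Phi V5.P V5.D 1 1) ⟨11, 1744, 9, 257, 8, 154, 6, 30, 8, 112⟩ :=
  out_sound (S := T5.ds_pp) T5.ok_pp (w := 48) (j := 1) (by decide +kernel)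
theorem L03974 : Good (Phi V5.P V5.D 1 1) ⟨11, 1744, 9, 257, 8, 155, 6, 30, 8, 112⟩ :=
  out_sound (S := T5.ds_pp) T5.ok_pp (w := 58) (j := 2) (by decide +kernel)
theorem L03975 : Good (Phi V5.P V5.D 1 1) ⟨11, 1744, 9, 257, 7, 77, 6, 30, 8, 113⟩ :=
  out_sound (S := T5.ds_pp) T5.ok_pp (w := 46) (j := 1) (by decide +kernel)
theorem L03976 : Good (Phi V5.P V5.D 1 1) ⟨11, 1744, 9, 257, 7, 77, 6, 31, 7, 56⟩ :=
  out_sound (S := T5.ds_pp) T5.ok_pp (w := 54) (j := 2) (by decide +kernel)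
theorem L03977 : Good (Phi V5.P V5.D 1 1) ⟨11, 1744, 9, 257, 6, 38, 5, 15, 7, 57⟩ :=
  out_sound (S := T5.ds_pp) T5.ok_pp (w := 50) (j := 2) (by decide +kernel)
theorem L03978 : Good (Phi V5.P V5.D 1 1) ⟨11, 1744, 9, 257, 6, 39, 5, 15, 6, 28⟩ :=
  out_sound (S := T5.ds_pp) T5.ok_pp (w := 48) (j := 2) (by decide +kernel)
theorem L03979 : Good (Phi V5.P V5.D 1 1) ⟨11, 1745, 9, 257, 5, 19, 4, 7, 6, 28⟩ :=
  out_sound (S := T5.ds_pp) T5.ok_pp (w := 105) (j := 3) (by decide +kernel)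
theorem L03980 : Good (Phi V5.P V5.D 1 1) ⟨10, 873, 8, 128, 5, 19, 4, 7, 6, 28⟩ :=
  out_sound (S := T5.ds_pp) T5.ok_pp (w := 97) (j := 3) (by decide +kernel)
theorem L03981 : Good (Phi V5.P V5.D 1 1) ⟨9, 436, 8, 129, 5, 19, 6, 28, 7, 56⟩ :=
  out_sound (S := T5.ds_pp) T5.ok_pp (w := 40) (j := 1) (by decide +kernel)
theorem L03982 : Good (Phi V5.P V5.D 1 1) ⟨9, 436, 8, 129, 6, 38, 6, 29, 7, 56⟩ :=
  out_sound (S := T5.ds_pp) T5.ok_pp (w := 42) (j := 1) (by decide +kernel)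
theorem L03983 : Good (Phi V5.P V5.D 1 1) ⟨9, 436, 8, 129, 6, 39, 6, 29, 7, 56⟩ :=
  out_sound (S := T5.ds_pp) T5.ok_pp (w := 52) (j := 2) (by decide +kernel)
theorem L03984 : Good (Phi V5.P V5.D 1 1) ⟨9, 436, 8, 129, 5, 19, 5, 14, 7, 57⟩ :=
  out_sound (S := T5.ds_pp) T5.ok_pp (w := 39) (j := 1) (by decide +kernel)
theorem L03985 : Good (Phi V5.P V5.D 1 1) ⟨9, 436, 8, 129, 7, 76, 6, 30, 7, 56⟩ :=
  out_sound (S := T5.ds_pp) T5.ok_pp (w := 44) (j := 1) (by decide +kernel)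
theorem L03986 : Good (Phi V5.P V5.D 1 1) ⟨9, 436, 8, 129, 8, 152, 8, 124, 9, 224⟩ :=
  out_sound (S := T5.ds_pp) T5.ok_pp (w := 52) (j := 1) (by decide +kernel)
theorem L03987 : Good (Phi V5.P V5.D 1 1) ⟨9, 436, 8, 129, 8, 152, 9, 250, 10, 448⟩ :=
  out_sound (S := T5.ds_pp) T5.ok_pp (w := 55) (j := 1) (by decide +kernel)
theorem L03988 : Good (Phi V5.P V5.D 1 1) ⟨9, 436, 8, 129, 9, 304, 9, 251, 10, 448⟩ :=
  out_sound (S := T5.ds_pp) T5.ok_pp (w := 57) (j := 1) (by decide +kernel)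
theorem L03989 : Good (Phi V5.P V5.D 1 1) ⟨9, 436, 8, 129, 9, 305, 9, 251, 10, 448⟩ :=
  out_sound (S := T5.ds_pp) T5.ok_pp (w := 70) (j := 2) (by decide +kernel)
theorem L03990 : Good (Phi V5.P V5.D 1 1) ⟨9, 436, 8, 129, 8, 152, 8, 125, 10, 449⟩ :=
  out_sound (S := T5.ds_pp) T5.ok_pp (w := 54) (j := 1) (by decide +kernel)
theorem L03991 : Good (Phi V5.P V5.D 1 1) ⟨9, 436, 8, 129, 8, 152, 7, 62, 9, 225⟩ :=
  out_sound (S := T5.ds_pp) T5.ok_pp (w := 51) (j := 1) (by decide +kernel)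
theorem L03992 : Good (Phi V5.P V5.D 1 1) ⟨9, 436, 8, 129, 10, 608, 9, 252, 10, 448⟩ :=
  out_sound (S := T5.ds_pp) T5.ok_pp (w := 59) (j := 1) (by decide +kernel)
theorem L03993 : Good (Phi V5.P V5.D 1 1) ⟨9, 436, 8, 129, 11, 1216, 10, 506, 11, 896⟩ :=
  out_sound (S := T5.ds_pp) T5.ok_pp (w := 64) (j := 1) (by decide +kernel)
theorem L03994 : Good (Phi V5.P V5.D 1 1) ⟨9, 436, 8, 129, 11, 1216, 10, 507, 11, 896⟩ :=
  out_sound (S := T5.ds_pp) T5.ok_pp (w := 78) (j := 2) (by decide +kernel)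
theorem L03995 : Good (Phi V5.P V5.D 1 1) ⟨9, 436, 8, 129, 11, 1217, 9, 253, 11, 896⟩ :=
  out_sound (S := T5.ds_pp) T5.ok_pp (w := 76) (j := 2) (by decide +kernel)
theorem L03996 : Good (Phi V5.P V5.D 1 1) ⟨9, 436, 8, 129, 10, 608, 9, 253, 11, 897⟩ :=
  out_sound (S := T5.ds_pp) T5.ok_pp (w := 74) (j := 2) (by decide +kernel)
theorem L03997 : Good (Phi V5.P V5.D 1 1) ⟨9, 436, 8, 129, 10, 609, 8, 126, 10, 448⟩ :=
  out_sound (S := T5.ds_pp) T5.ok_pp (w := 70) (j := 2) (by decide +kernel)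
theorem L03998 : Good (Phi V5.P V5.D 1 1) ⟨9, 436, 8, 129, 9, 304, 8, 126, 10, 449⟩ :=
  out_sound (S := T5.ds_pp) T5.ok_pp (w := 56) (j := 1) (by decide +kernel)
theorem L03999 : Good (Phi V5.P V5.D 1 1) ⟨9, 436, 8, 129, 9, 304, 8, 127, 9, 224⟩ :=
  out_sound (S := T5.ds_pp) T5.ok_pp (w := 66) (j := 2) (by decide +kernel)
theorem L04000 : Good (Phi V5.P V5.D 1 1) ⟨9, 436, 8, 129, 9, 305, 7, 63, 9, 224⟩ :=
  out_sound (S := T5.ds_pp) T5.ok_pp (w := 64) (j := 2) (by decide +kernel)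
theorem L04001 : Good (Phi V5.P V5.D 1 1) ⟨9, 436, 8, 129, 8, 152, 7, 63, 9, 225⟩ :=
  out_sound (S := T5.ds_pp) T5.ok_pp (w := 62) (j := 2) (by decide +kernel)
theorem L04002 : Good (Phi V5.P V5.D 1 1) ⟨9, 436, 8, 129, 8, 153, 6, 31, 8, 112⟩ :=
  out_sound (S := T5.ds_pp) T5.ok_pp (w := 58) (j := 2) (by decide +kernel)
theorem L04003 : Good (Phi V5.P V5.D 1 1) ⟨9, 436, 8, 129, 7, 76, 6, 31, 8, 113⟩ :=
  out_sound (S := T5.ds_pp) T5.ok_pp (w := 56) (j := 2) (by decide +kernel)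
theorem L04004 : Good (Phi V5.P V5.D 1 1) ⟨9, 436, 8, 129, 8, 154, 6, 30, 8, 112⟩ :=
  out_sound (S := T5.ds_pp) T5.ok_pp (w := 48) (j := 1) (by decide +kernel)
theorem L04005 : Good (Phi V5.P V5.D 1 1) ⟨9, 436, 8, 129, 8, 155, 6, 30, 8, 112⟩ :=
  out_sound (S := T5.ds_pp) T5.ok_pp (w := 58) (j := 2) (by decide +kernel)
theorem L04006 : Good (Phi V5.P V5.D 1 1) ⟨9, 436, 8, 129, 7, 77, 6, 30, 8, 113⟩ :=
  out_sound (S := T5.ds_pp) T5.ok_pp (w := 46) (j := 1) (by decide +kernel)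
theorem L04007 : Good (Phi V5.P V5.D 1 1) ⟨9, 436, 8, 129, 7, 77, 6, 31, 7, 56⟩ :=
  out_sound (S := T5.ds_pp) T5.ok_pp (w := 54) (j := 2) (by decide +kernel)
theorem L04008 : Good (Phi V5.P V5.D 1 1) ⟨9, 436, 8, 129, 6, 38, 5, 15, 7, 57⟩ :=
  out_sound (S := T5.ds_pp) T5.ok_pp (w := 50) (j := 2) (by decide +kernel)
theorem L04009 : Good (Phi V5.P V5.D 1 1) ⟨9, 436, 8, 129, 6, 39, 5, 15, 6, 28⟩ :=
  out_sound (S := T5.ds_pp) T5.ok_pp (w := 48) (j := 2) (by decide +kernel)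
theorem L04010 : Good (Phi V5.P V5.D 1 1) ⟨9, 437, 7, 64, 5, 19, 4, 7, 6, 28⟩ :=
  out_sound (S := T5.ds_pp) T5.ok_pp (w := 89) (j := 3) (by decide +kernel)
theorem L04011 : Good (Phi V5.P V5.D 1 1) ⟨8, 218, 7, 65, 5, 19, 6, 28, 7, 56⟩ :=
  out_sound (S := T5.ds_pp) T5.ok_pp (w := 40) (j := 1) (by decide +kernel)
theorem L04012 : Good (Phi V5.P V5.D 1 1) ⟨8, 218, 7, 65, 6, 38, 6, 29, 7, 56⟩ :=
  out_sound (S := T5.ds_pp) T5.ok_pp (w := 42) (j := 1) (by decide +kernel)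
theorem L04013 : Good (Phi V5.P V5.D 1 1) ⟨8, 218, 7, 65, 6, 39, 6, 29, 7, 56⟩ :=
  out_sound (S := T5.ds_pp) T5.ok_pp (w := 52) (j := 2) (by decide +kernel)
theorem L04014 : Good (Phi V5.P V5.D 1 1) ⟨8, 218, 7, 65, 5, 19, 5, 14, 7, 57⟩ :=
  out_sound (S := T5.ds_pp) T5.ok_pp (w := 39) (j := 1) (by decide +kernel)
theorem L04015 : Good (Phi V5.P V5.D 1 1) ⟨8, 218, 7, 65, 7, 76, 6, 30, 7, 56⟩ :=
  out_sound (S := T5.ds_pp) T5.ok_pp (w := 44) (j := 1) (by decide +kernel)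
theorem L04016 : Good (Phi V5.P V5.D 1 1) ⟨8, 218, 7, 65, 8, 152, 8, 124, 9, 224⟩ :=
  out_sound (S := T5.ds_pp) T5.ok_pp (w := 52) (j := 1) (by decide +kernel)
theorem L04017 : Good (Phi V5.P V5.D 1 1) ⟨8, 218, 7, 65, 8, 152, 9, 250, 10, 448⟩ :=
  out_sound (S := T5.ds_pp) T5.ok_pp (w := 55) (j := 1) (by decide +kernel)
theorem L04018 : Good (Phi V5.P V5.D 1 1) ⟨8, 218, 7, 65, 9, 304, 9, 251, 10, 448⟩ :=
  out_sound (S := T5.ds_pp) T5.ok_pp (w := 57) (j := 1) (by decide +kernel)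
theorem L04019 : Good (Phi V5.P V5.D 1 1) ⟨8, 218, 7, 65, 9, 305, 9, 251, 10, 448⟩ :=
  out_sound (S := T5.ds_pp) T5.ok_pp (w := 70) (j := 2) (by decide +kernel)
theorem L04020 : Good (Phi V5.P V5.D 1 1) ⟨8, 218, 7, 65, 8, 152, 8, 125, 10, 449⟩ :=
  out_sound (S := T5.ds_pp) T5.ok_pp (w := 54) (j := 1) (by decide +kernel)
theorem L04021 : Good (Phi V5.P V5.D 1 1) ⟨8, 218, 7, 65, 8, 152, 7, 62, 9, 225⟩ :=
  out_sound (S := T5.ds_pp) T5.ok_pp (w := 51) (j := 1) (by decide +kernel)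
theorem L04022 : Good (Phi V5.P V5.D 1 1) ⟨8, 218, 7, 65, 10, 608, 9, 252, 10, 448⟩ :=
  out_sound (S := T5.ds_pp) T5.ok_pp (w := 59) (j := 1) (by decide +kernel)
theorem L04023 : Good (Phi V5.P V5.D 1 1) ⟨8, 218, 7, 65, 11, 1216, 10, 506, 11, 896⟩ :=
  out_sound (S := T5.ds_pp) T5.ok_pp (w := 64) (j := 1) (by decide +kernel)
theorem L04024 : Good (Phi V5.P V5.D 1 1) ⟨8, 218, 7, 65, 11, 1216, 10, 507, 11, 896⟩ :=
  out_sound (S := T5.ds_pp) T5.ok_pp (w := 78) (j := 2) (by decide +kernel)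
theorem L04025 : Good (Phi V5.P V5.D 1 1) ⟨8, 218, 7, 65, 11, 1217, 9, 253, 11, 896⟩ :=
  out_sound (S := T5.ds_pp) T5.ok_pp (w := 76) (j := 2) (by decide +kernel)
theorem L04026 : Good (Phi V5.P V5.D 1 1) ⟨8, 218, 7, 65, 10, 608, 9, 253, 11, 897⟩ :=
  out_sound (S := T5.ds_pp) T5.ok_pp (w := 74) (j := 2) (by decide +kernel)
theorem L04027 : Good (Phi V5.P V5.D 1 1) ⟨8, 218, 7, 65, 10, 609, 8, 126, 10, 448⟩ :=
  out_sound (S := T5.ds_pp) T5.ok_pp (w := 70) (j := 2) (by decide +kernel)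
theorem L04028 : Good (Phi V5.P V5.D 1 1) ⟨8, 218, 7, 65, 9, 304, 8, 126, 10, 449⟩ :=
  out_sound (S := T5.ds_pp) T5.ok_pp (w := 56) (j := 1) (by decide +kernel)
theorem L04029 : Good (Phi V5.P V5.D 1 1) ⟨8, 218, 7, 65, 9, 304, 8, 127, 9, 224⟩ :=
  out_sound (S := T5.ds_pp) T5.ok_pp (w := 66) (j := 2) (by decide +kernel)
theorem L04030 : Good (Phi V5.P V5.D 1 1) ⟨8, 218, 7, 65, 9, 305, 7, 63, 9, 224⟩ :=
  out_sound (S := T5.ds_pp) T5.ok_pp (w := 64) (j := 2) (by decide +kernel)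
theorem L04031 : Good (Phi V5.P V5.D 1 1) ⟨8, 218, 7, 65, 8, 152, 7, 63, 9, 225⟩ :=
  out_sound (S := T5.ds_pp) T5.ok_pp (w := 62) (j := 2) (by decide +kernel)
theorem L04032 : Good (Phi V5.P V5.D 1 1) ⟨8, 218, 7, 65, 8, 153, 6, 31, 8, 112⟩ :=
  out_sound (S := T5.ds_pp) T5.ok_pp (w := 58) (j := 2) (by decide +kernel)
theorem L04033 : Good (Phi V5.P V5.D 1 1) ⟨8, 218, 7, 65, 7, 76, 6, 31, 8, 113⟩ :=
  out_sound (S := T5.ds_pp) T5.ok_pp (w := 56) (j := 2) (by decide +kernel)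
theorem L04034 : Good (Phi V5.P V5.D 1 1) ⟨8, 218, 7, 65, 8, 154, 6, 30, 8, 112⟩ :=
  out_sound (S := T5.ds_pp) T5.ok_pp (w := 48) (j := 1) (by decide +kernel)
theorem L04035 : Good (Phi V5.P V5.D 1 1) ⟨8, 218, 7, 65, 8, 155, 6, 30, 8, 112⟩ :=
  out_sound (S := T5.ds_pp) T5.ok_pp (w := 58) (j := 2) (by decide +kernel)
theorem L04036 : Good (Phi V5.P V5.D 1 1) ⟨8, 218, 7, 65, 7, 77, 6, 30, 8, 113⟩ :=
  out_sound (S := T5.ds_pp) T5.ok_pp (w := 46) (j := 1) (by decide +kernel)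
theorem L04037 : Good (Phi V5.P V5.D 1 1) ⟨8, 218, 7, 65, 7, 77, 6, 31, 7, 56⟩ :=
  out_sound (S := T5.ds_pp) T5.ok_pp (w := 54) (j := 2) (by decide +kernel)
theorem L04038 : Good (Phi V5.P V5.D 1 1) ⟨8, 218, 7, 65, 6, 38, 5, 15, 7, 57⟩ :=
  out_sound (S := T5.ds_pp) T5.ok_pp (w := 50) (j := 2) (by decide +kernel)
theorem L04039 : Good (Phi V5.P V5.D 1 1) ⟨8, 218, 7, 65, 6, 39, 5, 15, 6, 28⟩ :=
  out_sound (S := T5.ds_pp) T5.ok_pp (w := 48) (j := 2) (by decide +kernel)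
theorem L04040 : Good (Phi V5.P V5.D 1 1) ⟨8, 219, 6, 32, 5, 19, 4, 7, 6, 28⟩ :=
  out_sound (S := T5.ds_pp) T5.ok_pp (w := 81) (j := 3) (by decide +kernel)
theorem L04041 : Good (Phi V5.P V5.D 1 1) ⟨6, 54, 6, 33, 5, 19, 6, 28, 7, 56⟩ :=
  out_sound (S := T5.ds_pp) T5.ok_pp (w := 40) (j := 1) (by decide +kernel)
theorem L04042 : Good (Phi V5.P V5.D 1 1) ⟨6, 54, 6, 33, 6, 38, 6, 29, 7, 56⟩ :=
  out_sound (S := T5.ds_pp) T5.ok_pp (w := 42) (j := 1) (by decide +kernel)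
theorem L04043 : Good (Phi V5.P V5.D 1 1) ⟨6, 54, 6, 33, 6, 39, 6, 29, 7, 56⟩ :=
  out_sound (S := T5.ds_pp) T5.ok_pp (w := 52) (j := 2) (by decide +kernel)
theorem L04044 : Good (Phi V5.P V5.D 1 1) ⟨6, 54, 6, 33, 5, 19, 5, 14, 7, 57⟩ :=
  out_sound (S := T5.ds_pp) T5.ok_pp (w := 39) (j := 1) (by decide +kernel)
theorem L04045 : Good (Phi V5.P V5.D 1 1) ⟨6, 54, 6, 33, 7, 76, 6, 30, 7, 56⟩ :=
  out_sound (S := T5.ds_pp) T5.ok_pp (w := 44) (j := 1) (by decide +kernel)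
theorem L04046 : Good (Phi V5.P V5.D 1 1) ⟨6, 54, 6, 33, 8, 152, 8, 124, 9, 224⟩ :=
  out_sound (S := T5.ds_pp) T5.ok_pp (w := 52) (j := 1) (by decide +kernel)
theorem L04047 : Good (Phi V5.P V5.D 1 1) ⟨6, 54, 6, 33, 8, 152, 9, 250, 10, 448⟩ :=
  out_sound (S := T5.ds_pp) T5.ok_pp (w := 55) (j := 1) (by decide +kernel)
theorem L04048 : Good (Phi V5.P V5.D 1 1) ⟨6, 54, 6, 33, 9, 304, 9, 251, 10, 448⟩ :=
  out_sound (S := T5.ds_pp) T5.ok_pp (w := 57) (j := 1) (by decide +kernel)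
theorem L04049 : Good (Phi V5.P V5.D 1 1) ⟨6, 54, 6, 33, 9, 305, 9, 251, 10, 448⟩ :=
  out_sound (S := T5.ds_pp) T5.ok_pp (w := 70) (j := 2) (by decide +kernel)
theorem L04050 : Good (Phi V5.P V5.D 1 1) ⟨6, 54, 6, 33, 8, 152, 8, 125, 10, 449⟩ :=
  out_sound (S := T5.ds_pp) T5.ok_pp (w := 54) (j := 1) (by decide +kernel)
theorem L04051 : Good (Phi V5.P V5.D 1 1) ⟨6, 54, 6, 33, 8, 152, 7, 62, 9, 225⟩ :=
  out_sound (S := T5.ds_pp) T5.ok_pp (w := 51) (j := 1) (by decide +kernel)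
theorem L04052 : Good (Phi V5.P V5.D 1 1) ⟨6, 54, 6, 33, 10, 608, 9, 252, 10, 448⟩ :=
  out_sound (S := T5.ds_pp) T5.ok_pp (w := 59) (j := 1) (by decide +kernel)
theorem L04053 : Good (Phi V5.P V5.D 1 1) ⟨6, 54, 6, 33, 11, 1216, 10, 506, 11, 896⟩ :=
  out_sound (S := T5.ds_pp) T5.ok_pp (w := 64) (j := 1) (by decide +kernel)
theorem L04054 : Good (Phi V5.P V5.D 1 1) ⟨6, 54, 6, 33, 11, 1216, 10, 507, 11, 896⟩ :=
  out_sound (S := T5.ds_pp) T5.ok_pp (w := 78) (j := 2) (by decide +kernel)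
theorem L04055 : Good (Phi V5.P V5.D 1 1) ⟨6, 54, 6, 33, 11, 1217, 9, 253, 11, 896⟩ :=
  out_sound (S := T5.ds_pp) T5.ok_pp (w := 76) (j := 2) (by decide +kernel)
theorem L04056 : Good (Phi V5.P V5.D 1 1) ⟨6, 54, 6, 33, 10, 608, 9, 253, 11, 897⟩ :=
  out_sound (S := T5.ds_pp) T5.ok_pp (w := 74) (j := 2) (by decide +kernel)
theorem L04057 : Good (Phi V5.P V5.D 1 1) ⟨6, 54, 6, 33, 10, 609, 8, 126, 10, 448⟩ :=
  out_sound (S := T5.ds_pp) T5.ok_pp (w := 70) (j := 2) (by decide +kernel)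
theorem L04058 : Good (Phi V5.P V5.D 1 1) ⟨6, 54, 6, 33, 9, 304, 8, 126, 10, 449⟩ :=
  out_sound (S := T5.ds_pp) T5.ok_pp (w := 56) (j := 1) (by decide +kernel)
theorem L04059 : Good (Phi V5.P V5.D 1 1) ⟨6, 54, 6, 33, 9, 304, 8, 127, 9, 224⟩ :=
  out_sound (S := T5.ds_pp) T5.ok_pp (w := 66) (j := 2) (by decide +kernel)
theorem L04060 : Good (Phi V5.P V5.D 1 1) ⟨6, 54, 6, 33, 9, 305, 7, 63, 9, 224⟩ :=
  out_sound (S := T5.ds_pp) T5.ok_pp (w := 64) (j := 2) (by decide +kernel)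
theorem L04061 : Good (Phi V5.P V5.D 1 1) ⟨6, 54, 6, 33, 8, 152, 7, 63, 9, 225⟩ :=
  out_sound (S := T5.ds_pp) T5.ok_pp (w := 62) (j := 2) (by decide +kernel)
theorem L04062 : Good (Phi V5.P V5.D 1 1) ⟨6, 54, 6, 33, 8, 153, 6, 31, 8, 112⟩ :=
  out_sound (S := T5.ds_pp) T5.ok_pp (w := 58) (j := 2) (by decide +kernel)
theorem L04063 : Good (Phi V5.P V5.D 1 1) ⟨6, 54, 6, 33, 7, 76, 6, 31, 8, 113⟩ :=
  out_sound (S := T5.ds_pp) T5.ok_pp (w := 56) (j := 2) (by decide +kernel)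
theorem L04064 : Good (Phi V5.P V5.D 1 1) ⟨6, 54, 6, 33, 8, 154, 6, 30, 8, 112⟩ :=
  out_sound (S := T5.ds_pp) T5.ok_pp (w := 48) (j := 1) (by decide +kernel)
theorem L04065 : Good (Phi V5.P V5.D 1 1) ⟨6, 54, 6, 33, 8, 155, 6, 30, 8, 112⟩ :=
  out_sound (S := T5.ds_pp) T5.ok_pp (w := 58) (j := 2) (by decide +kernel)
theorem L04066 : Good (Phi V5.P V5.D 1 1) ⟨6, 54, 6, 33, 7, 77, 6, 30, 8, 113⟩ :=
  out_sound (S := T5.ds_pp) T5.ok_pp (w := 46) (j := 1) (by decide +kernel)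
theorem L04067 : Good (Phi V5.P V5.D 1 1) ⟨6, 54, 6, 33, 7, 77, 6, 31, 7, 56⟩ :=
  out_sound (S := T5.ds_pp) T5.ok_pp (w := 54) (j := 2) (by decide +kernel)
theorem L04068 : Good (Phi V5.P V5.D 1 1) ⟨6, 54, 6, 33, 6, 38, 5, 15, 7, 57⟩ :=
  out_sound (S := T5.ds_pp) T5.ok_pp (w := 50) (j := 2) (by decide +kernel)
theorem L04069 : Good (Phi V5.P V5.D 1 1) ⟨6, 54, 6, 33, 6, 39, 5, 15, 6, 28⟩ :=
  out_sound (S := T5.ds_pp) T5.ok_pp (w := 48) (j := 2) (by decide +kernel)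
theorem L04070 : Good (Phi V5.P V5.D 1 1) ⟨6, 54, 5, 16, 4, 9, 4, 7, 6, 29⟩ :=
  out_sound (S := T5.ds_pp) T5.ok_pp (w := 34) (j := 1) (by decide +kernel)
theorem L04071 : Good (Phi V5.P V5.D 1 1) ⟨6, 54, 5, 16, 3, 4, 3, 3, 5, 15⟩ :=
  out_sound (S := T5.ds_pp) T5.ok_pp (w := 29) (j := 1) (by decide +kernel)
theorem L04072 : Good (Phi V5.P V5.D 1 1) ⟨6, 54, 5, 16, 4, 10, 3, 2, 5, 14⟩ :=
  out_sound (S := T5.ds_pp) T5.ok_pp (w := 31) (j := 1) (by decide +kernel)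
theorem L04073 : Good (Phi V5.P V5.D 1 1) ⟨6, 54, 5, 16, 5, 20, 5, 12, 6, 28⟩ :=
  out_sound (S := T5.ds_pp) T5.ok_pp (w := 37) (j := 1) (by decide +kernel)
theorem L04074 : Good (Phi V5.P V5.D 1 1) ⟨6, 54, 5, 16, 5, 20, 5, 13, 6, 28⟩ :=
  out_sound (S := T5.ds_pp) T5.ok_pp (w := 46) (j := 2) (by decide +kernel)
theorem L04075 : Good (Phi V5.P V5.D 1 1) ⟨6, 54, 5, 16, 5, 20, 4, 7, 6, 28⟩ :=
  out_sound (S := T5.ds_pp) T5.ok_pp (w := 44) (j := 2) (by decide +kernel)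
theorem L04076 : Good (Phi V5.P V5.D 1 1) ⟨6, 54, 5, 16, 5, 20, 3, 3, 6, 29⟩ :=
  out_sound (S := T5.ds_pp) T5.ok_pp (w := 42) (j := 2) (by decide +kernel)
theorem L04077 : Good (Phi V5.P V5.D 1 1) ⟨6, 54, 5, 16, 5, 21, 3, 3, 5, 14⟩ :=
  out_sound (S := T5.ds_pp) T5.ok_pp (w := 40) (j := 2) (by decide +kernel)
theorem L04078 : Good (Phi V5.P V5.D 1 1) ⟨6, 54, 5, 16, 4, 10, 2, 1, 5, 15⟩ :=
  out_sound (S := T5.ds_pp) T5.ok_pp (w := 36) (j := 2) (by decide +kernel)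
theorem L04079 : Good (Phi V5.P V5.D 1 1) ⟨6, 54, 5, 16, 4, 11, 2, 1, 4, 7⟩ :=
  out_sound (S := T5.ds_pp) T5.ok_pp (w := 34) (j := 2) (by decide +kernel)
theorem L04080 : Good (Phi V5.P V5.D 1 1) ⟨6, 54, 5, 16, 2, 3, 1, 0, 4, 7⟩ :=
  out_sound (S := T5.ds_pp) T5.ok_pp (w := 28) (j := 2) (by decide +kernel)
theorem L04081 : Good (Phi V5.P V5.D 1 1) ⟨6, 55, 5, 16, 1, 1, 1, 0, 4, 7⟩ :=
  out_sound (S := T5.ds_pp) T5.ok_pp (w := 67) (j := 3) (by decide +kernel)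
theorem L04082 : Good (Phi V5.P V5.D 1 1) ⟨8, 216, 6, 34, 1, 1, 1, 0, 4, 7⟩ :=
  out_sound (S := T5.ds_pp) T5.ok_pp (w := 81) (j := 3) (by decide +kernel)
theorem L04083 : Good (Phi V5.P V5.D 1 1) ⟨9, 434, 7, 68, 1, 1, 1, 0, 4, 7⟩ :=
  out_sound (S := T5.ds_pp) T5.ok_pp (w := 89) (j := 3) (by decide +kernel)
theorem L04084 : Good (Phi V5.P V5.D 1 1) ⟨9, 435, 7, 68, 2, 2, 2, 0, 4, 7⟩ :=
  out_sound (S := T5.ds_pp) T5.ok_pp (w := 24) (j := 1) (by decide +kernel)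
theorem L04085 : Good (Phi V5.P V5.D 1 1) ⟨9, 435, 7, 68, 3, 4, 3, 2, 4, 7⟩ :=
  out_sound (S := T5.ds_pp) T5.ok_pp (w := 27) (j := 1) (by decide +kernel)
theorem L04086 : Good (Phi V5.P V5.D 1 1) ⟨9, 435, 7, 68, 4, 8, 3, 3, 5, 14⟩ :=
  out_sound (S := T5.ds_pp) T5.ok_pp (w := 31) (j := 1) (by decide +kernel)
theorem L04087 : Good (Phi V5.P V5.D 1 1) ⟨9, 435, 7, 68, 4, 9, 4, 6, 5, 14⟩ :=
  out_sound (S := T5.ds_pp) T5.ok_pp (w := 32) (j := 1) (by decide +kernel)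
theorem L04088 : Good (Phi V5.P V5.D 1 1) ⟨9, 435, 7, 68, 5, 18, 4, 7, 6, 28⟩ :=
  leafX_sound T5.ok_pp T5.Ypp.bz_eq (w := 313) (c := ⟨⟨.negSucc 2364, .negSucc 6, .ofNat 0, .negSucc 0, .negSucc 78, .ofNat 1⟩, ⟨.negSucc 1365, .negSucc 8, .negSucc 6, .negSucc 0, .negSucc 45, .ofNat 1⟩, ⟨.ofNat 1300, .ofNat 2, .negSucc 10, .ofNat 1, .ofNat 35, .negSucc 0⟩, ⟨.negSucc 3218, .negSucc 0, .ofNat 2, .negSucc 0, .negSucc 87, .ofNat 2⟩, ⟨.negSucc 478, .negSucc 0, .negSucc 0, .ofNat 0, .negSucc 47, .ofNat 0⟩, .ofNat 165, .negSucc 50, .ofNat 0, .negSucc 50, .ofNat 221, .ofNat 0, .ofNat 147, .ofNat 55, .negSucc 15, .ofNat 0, .ofNat 128, .negSucc 3, .ofNat 0, .ofNat 0, .ofNat 456, .ofNat 4121093, .ofNat 0, .ofNat 0, .ofNat 0, .ofNat 0, .ofNat 1058292707191661034784706973628105770797022820752488064189463317708800, .ofNat 4145257557757551094366103184921460624929945440458673348371193790464,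 .ofNat 0, .ofNat 0, .ofNat 664506935282520898645343284317244729716220929627611228492284196552704, .ofNat 0, .ofNat 0, .ofNat 0, .ofNat 1495023627517483965382668065307403402270274563774237920175998705336320, .ofNat 1443605895264737247190673935527768845635415203752764002715660451840, .ofNat 0, .ofNat 0⟩)
    (by decide +kernel)
theorem L04089 : Good (Phi V5.P V5.D 1 1) ⟨9, 435, 8, 136, 5, 19, 6, 28, 7, 56⟩ :=
  out_sound (S := T5.ds_pp) T5.ok_pp (w := 40) (j := 1) (by decide +kernel)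
theorem L04090 : Good (Phi V5.P V5.D 1 1) ⟨9, 435, 8, 136, 6, 38, 6, 29, 7, 56⟩ :=
  out_sound (S := T5.ds_pp) T5.ok_pp (w := 42) (j := 1) (by decide +kernel)
theorem L04091 : Good (Phi V5.P V5.D 1 1) ⟨9, 435, 8, 136, 6, 39, 6, 29, 7, 56⟩ :=
  out_sound (S := T5.ds_pp) T5.ok_pp (w := 52) (j := 2) (by decide +kernel)
theorem L04092 : Good (Phi V5.P V5.D 1 1) ⟨9, 435, 8, 136, 5, 19, 5, 14, 7, 57⟩ :=
  out_sound (S := T5.ds_pp) T5.ok_pp (w := 39) (j := 1) (by decide +kernel)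
theorem L04093 : Good (Phi V5.P V5.D 1 1) ⟨9, 435, 8, 136, 7, 76, 6, 30, 7, 56⟩ :=
  out_sound (S := T5.ds_pp) T5.ok_pp (w := 44) (j := 1) (by decide +kernel)
theorem L04094 : Good (Phi V5.P V5.D 1 1) ⟨9, 435, 8, 136, 8, 152, 8, 124, 9, 224⟩ :=
  out_sound (S := T5.ds_pp) T5.ok_pp (w := 52) (j := 1) (by decide +kernel)
theorem L04095 : Good (Phi V5.P V5.D 1 1) ⟨9, 435, 8, 136, 8, 152, 9, 250, 10, 448⟩ :=
  out_sound (S := T5.ds_pp) T5.ok_pp (w := 55) (j := 1) (by decide +kernel)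
theorem L04096 : Good (Phi V5.P V5.D 1 1) ⟨9, 435, 8, 136, 9, 304, 9, 251, 10, 448⟩ :=
  out_sound (S := T5.ds_pp) T5.ok_pp (w := 57) (j := 1) (by decide +kernel)
theorem L04097 : Good (Phi V5.P V5.D 1 1) ⟨9, 435, 8, 136, 9, 305, 9, 251, 10, 448⟩ :=
  out_sound (S := T5.ds_pp) T5.ok_pp (w := 70) (j := 2) (by decide +kernel)
theorem L04098 : Good (Phi V5.P V5.D 1 1) ⟨9, 435, 8, 136, 8, 152, 8, 125, 10, 449⟩ :=
  out_sound (S := T5.ds_pp) T5.ok_pp (w := 54) (j := 1) (by decide +kernel)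
theorem L04099 : Good (Phi V5.P V5.D 1 1) ⟨9, 435, 8, 136, 8, 152, 7, 62, 9, 225⟩ :=
  out_sound (S := T5.ds_pp) T5.ok_pp (w := 51) (j := 1) (by decide +kernel)
theorem L04100 : Good (Phi V5.P V5.D 1 1) ⟨9, 435, 8, 136, 10, 608, 9, 252, 10, 448⟩ :=
  out_sound (S := T5.ds_pp) T5.ok_pp (w := 59) (j := 1) (by decide +kernel)
theorem L04101 : Good (Phi V5.P V5.D 1 1) ⟨9, 435, 8, 136, 11, 1216, 10, 506, 11, 896⟩ :=
  out_sound (S := T5.ds_pp) T5.ok_pp (w := 64) (j := 1) (by decide +kernel)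
theorem L04102 : Good (Phi V5.P V5.D 1 1) ⟨9, 435, 8, 136, 11, 1216, 10, 507, 11, 896⟩ :=
  out_sound (S := T5.ds_pp) T5.ok_pp (w := 78) (j := 2) (by decide +kernel)
theorem L04103 : Good (Phi V5.P V5.D 1 1) ⟨9, 435, 8, 136, 11, 1217, 9, 253, 11, 896⟩ :=
  out_sound (S := T5.ds_pp) T5.ok_pp (w := 76) (j := 2) (by decide +kernel)
theorem L04104 : Good (Phi V5.P V5.D 1 1) ⟨9, 435, 8, 136, 10, 608, 9, 253, 11, 897⟩ :=
  out_sound (S := T5.ds_pp) T5.ok_pp (w := 74) (j := 2) (by decide +kernel)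
theorem L04105 : Good (Phi V5.P V5.D 1 1) ⟨9, 435, 8, 136, 10, 609, 8, 126, 10, 448⟩ :=
  out_sound (S := T5.ds_pp) T5.ok_pp (w := 70) (j := 2) (by decide +kernel)
theorem L04106 : Good (Phi V5.P V5.D 1 1) ⟨9, 435, 8, 136, 9, 304, 8, 126, 10, 449⟩ :=
  out_sound (S := T5.ds_pp) T5.ok_pp (w := 56) (j := 1) (by decide +kernel)
theorem L04107 : Good (Phi V5.P V5.D 1 1) ⟨9, 435, 8, 136, 9, 304, 8, 127, 9, 224⟩ :=
  out_sound (S := T5.ds_pp) T5.ok_pp (w := 66) (j := 2) (by decide +kernel)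
theorem L04108 : Good (Phi V5.P V5.D 1 1) ⟨9, 435, 8, 136, 9, 305, 7, 63, 9, 224⟩ :=
  out_sound (S := T5.ds_pp) T5.ok_pp (w := 64) (j := 2) (by decide +kernel)
theorem L04109 : Good (Phi V5.P V5.D 1 1) ⟨9, 435, 8, 136, 8, 152, 7, 63, 9, 225⟩ :=
  out_sound (S := T5.ds_pp) T5.ok_pp (w := 62) (j := 2) (by decide +kernel)
theorem L04110 : Good (Phi V5.P V5.D 1 1) ⟨9, 435, 8, 136, 8, 153, 6, 31, 8, 112⟩ :=
  out_sound (S := T5.ds_pp) T5.ok_pp (w := 58) (j := 2) (by decide +kernel)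
theorem L04111 : Good (Phi V5.P V5.D 1 1) ⟨9, 435, 8, 136, 7, 76, 6, 31, 8, 113⟩ :=
  out_sound (S := T5.ds_pp) T5.ok_pp (w := 56) (j := 2) (by decide +kernel)
theorem L04112 : Good (Phi V5.P V5.D 1 1) ⟨9, 435, 8, 136, 8, 154, 6, 30, 8, 112⟩ :=
  out_sound (S := T5.ds_pp) T5.ok_pp (w := 48) (j := 1) (by decide +kernel)
theorem L04113 : Good (Phi V5.P V5.D 1 1) ⟨9, 435, 8, 136, 8, 155, 6, 30, 8, 112⟩ :=
  out_sound (S := T5.ds_pp) T5.ok_pp (w := 58) (j := 2) (by decide +kernel)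
theorem L04114 : Good (Phi V5.P V5.D 1 1) ⟨9, 435, 8, 136, 7, 77, 6, 30, 8, 113⟩ :=
  out_sound (S := T5.ds_pp) T5.ok_pp (w := 46) (j := 1) (by decide +kernel)
theorem L04115 : Good (Phi V5.P V5.D 1 1) ⟨9, 435, 8, 136, 7, 77, 6, 31, 7, 56⟩ :=
  out_sound (S := T5.ds_pp) T5.ok_pp (w := 54) (j := 2) (by decide +kernel)
theorem L04116 : Good (Phi V5.P V5.D 1 1) ⟨9, 435, 8, 136, 6, 38, 5, 15, 7, 57⟩ :=
  out_sound (S := T5.ds_pp) T5.ok_pp (w := 50) (j := 2) (by decide +kernel)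
theorem L04117 : Good (Phi V5.P V5.D 1 1) ⟨9, 435, 8, 136, 6, 39, 5, 15, 6, 28⟩ :=
  out_sound (S := T5.ds_pp) T5.ok_pp (w := 48) (j := 2) (by decide +kernel)
theorem L04118 : Good (Phi V5.P V5.D 1 1) ⟨10, 870, 8, 137, 5, 19, 4, 7, 6, 28⟩ :=
  out_sound (S := T5.ds_pp) T5.ok_pp (w := 97) (j := 3) (by decide +kernel)
theorem L04119 : Good (Phi V5.P V5.D 1 1) ⟨11, 1742, 9, 274, 5, 19, 4, 7, 6, 28⟩ :=
  out_sound (S := T5.ds_pp) T5.ok_pp (w := 105) (j := 3) (by decide +kernel)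
theorem L04120 : Good (Phi V5.P V5.D 1 1) ⟨12, 3486, 10, 548, 5, 19, 4, 7, 6, 28⟩ :=
  out_sound (S := T5.ds_pp) T5.ok_pp (w := 113) (j := 3) (by decide +kernel)
theorem L04121 : Good (Phi V5.P V5.D 1 1) ⟨12, 3487, 10, 548, 5, 19, 6, 28, 7, 56⟩ :=
  out_sound (S := T5.ds_pp) T5.ok_pp (w := 40) (j := 1) (by decide +kernel)
theorem L04122 : Good (Phi V5.P V5.D 1 1) ⟨12, 3487, 10, 548, 6, 38, 6, 29, 7, 56⟩ :=
  out_sound (S := T5.ds_pp) T5.ok_pp (w := 42) (j := 1) (by decide +kernel)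
theorem L04123 : Good (Phi V5.P V5.D 1 1) ⟨12, 3487, 10, 548, 6, 39, 6, 29, 7, 56⟩ :=
  out_sound (S := T5.ds_pp) T5.ok_pp (w := 52) (j := 2) (by decide +kernel)
theorem L04124 : Good (Phi V5.P V5.D 1 1) ⟨12, 3487, 10, 548, 5, 19, 5, 14, 7, 57⟩ :=
  out_sound (S := T5.ds_pp) T5.ok_pp (w := 39) (j := 1) (by decide +kernel)
theorem L04125 : Good (Phi V5.P V5.D 1 1) ⟨12, 3487, 10, 548, 7, 76, 6, 30, 7, 56⟩ :=
  out_sound (S := T5.ds_pp) T5.ok_pp (w := 44) (j := 1) (by decide +kernel)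
theorem L04126 : Good (Phi V5.P V5.D 1 1) ⟨12, 3487, 10, 548, 8, 152, 8, 124, 9, 224⟩ :=
  out_sound (S := T5.ds_pp) T5.ok_pp (w := 52) (j := 1) (by decide +kernel)
theorem L04127 : Good (Phi V5.P V5.D 1 1) ⟨12, 3487, 10, 548, 8, 152, 9, 250, 10, 448⟩ :=
  out_sound (S := T5.ds_pp) T5.ok_pp (w := 55) (j := 1) (by decide +kernel)
theorem L04128 : Good (Phi V5.P V5.D 1 1) ⟨12, 3487, 10, 548, 9, 304, 9, 251, 10, 448⟩ :=
  out_sound (S := T5.ds_pp) T5.ok_pp (w := 57) (j := 1) (by decide +kernel)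
theorem L04129 : Good (Phi V5.P V5.D 1 1) ⟨12, 3487, 10, 548, 9, 305, 9, 251, 10, 448⟩ :=
  out_sound (S := T5.ds_pp) T5.ok_pp (w := 70) (j := 2) (by decide +kernel)
theorem L04130 : Good (Phi V5.P V5.D 1 1) ⟨12, 3487, 10, 548, 8, 152, 8, 125, 10, 449⟩ :=
  out_sound (S := T5.ds_pp) T5.ok_pp (w := 54) (j := 1) (by decide +kernel)
theorem L04131 : Good (Phi V5.P V5.D 1 1) ⟨12, 3487, 10, 548, 8, 152, 7, 62, 9, 225⟩ :=
  out_sound (S := T5.ds_pp) T5.ok_pp (w := 51) (j := 1) (by decide +kernel)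
theorem L04132 : Good (Phi V5.P V5.D 1 1) ⟨12, 3487, 10, 548, 10, 608, 9, 252, 10, 448⟩ :=
  out_sound (S := T5.ds_pp) T5.ok_pp (w := 59) (j := 1) (by decide +kernel)
theorem L04133 : Good (Phi V5.P V5.D 1 1) ⟨12, 3487, 10, 548, 11, 1216, 10, 506, 11, 896⟩ :=
  out_sound (S := T5.ds_pp) T5.ok_pp (w := 64) (j := 1) (by decide +kernel)
theorem L04134 : Good (Phi V5.P V5.D 1 1) ⟨12, 3487, 10, 548, 11, 1216, 10, 507, 11, 896⟩ :=
  out_sound (S := T5.ds_pp) T5.ok_pp (w := 78) (j := 2) (by decide +kernel)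
theorem L04135 : Good (Phi V5.P V5.D 1 1) ⟨12, 3487, 10, 548, 11, 1217, 9, 253, 11, 896⟩ :=
  out_sound (S := T5.ds_pp) T5.ok_pp (w := 76) (j := 2) (by decide +kernel)
theorem L04136 : Good (Phi V5.P V5.D 1 1) ⟨12, 3487, 10, 548, 10, 608, 9, 253, 11, 897⟩ :=
  out_sound (S := T5.ds_pp) T5.ok_pp (w := 74) (j := 2) (by decide +kernel)
theorem L04137 : Good (Phi V5.P V5.D 1 1) ⟨12, 3487, 10, 548, 10, 609, 8, 126, 10, 448⟩ :=
  out_sound (S := T5.ds_pp) T5.ok_pp (w := 70) (j := 2) (by decide +kernel)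
theorem L04138 : Good (Phi V5.P V5.D 1 1) ⟨12, 3487, 10, 548, 9, 304, 8, 126, 10, 449⟩ :=
  out_sound (S := T5.ds_pp) T5.ok_pp (w := 56) (j := 1) (by decide +kernel)
theorem L04139 : Good (Phi V5.P V5.D 1 1) ⟨12, 3487, 10, 548, 9, 304, 8, 127, 9, 224⟩ :=
  out_sound (S := T5.ds_pp) T5.ok_pp (w := 66) (j := 2) (by decide +kernel)
theorem L04140 : Good (Phi V5.P V5.D 1 1) ⟨12, 3487, 10, 548, 9, 305, 7, 63, 9, 224⟩ :=
  out_sound (S := T5.ds_pp) T5.ok_pp (w := 64) (j := 2) (by decide +kernel)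
theorem L04141 : Good (Phi V5.P V5.D 1 1) ⟨12, 3487, 10, 548, 8, 152, 7, 63, 9, 225⟩ :=
  out_sound (S := T5.ds_pp) T5.ok_pp (w := 62) (j := 2) (by decide +kernel)
theorem L04142 : Good (Phi V5.P V5.D 1 1) ⟨12, 3487, 10, 548, 8, 153, 6, 31, 8, 112⟩ :=
  out_sound (S := T5.ds_pp) T5.ok_pp (w := 58) (j := 2) (by decide +kernel)
theorem L04143 : Good (Phi V5.P V5.D 1 1) ⟨12, 3487, 10, 548, 7, 76, 6, 31, 8, 113⟩ :=
  out_sound (S := T5.ds_pp) T5.ok_pp (w := 56) (j := 2) (by decide +kernel)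
theorem L04144 : Good (Phi V5.P V5.D 1 1) ⟨12, 3487, 10, 548, 8, 154, 6, 30, 8, 112⟩ :=
  out_sound (S := T5.ds_pp) T5.ok_pp (w := 48) (j := 1) (by decide +kernel)
theorem L04145 : Good (Phi V5.P V5.D 1 1) ⟨12, 3487, 10, 548, 8, 155, 6, 30, 8, 112⟩ :=
  out_sound (S := T5.ds_pp) T5.ok_pp (w := 58) (j := 2) (by decide +kernel)
theorem L04146 : Good (Phi V5.P V5.D 1 1) ⟨12, 3487, 10, 548, 7, 77, 6, 30, 8, 113⟩ :=
  out_sound (S := T5.ds_pp) T5.ok_pp (w := 46) (j := 1) (by decide +kernel)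
theorem L04147 : Good (Phi V5.P V5.D 1 1) ⟨12, 3487, 10, 548, 7, 77, 6, 31, 7, 56⟩ :=
  out_sound (S := T5.ds_pp) T5.ok_pp (w := 54) (j := 2) (by decide +kernel)
theorem L04148 : Good (Phi V5.P V5.D 1 1) ⟨12, 3487, 10, 548, 6, 38, 5, 15, 7, 57⟩ :=
  out_sound (S := T5.ds_pp) T5.ok_pp (w := 50) (j := 2) (by decide +kernel)
theorem L04149 : Good (Phi V5.P V5.D 1 1) ⟨12, 3487, 10, 548, 6, 39, 5, 15, 6, 28⟩ :=
  out_sound (S := T5.ds_pp) T5.ok_pp (w := 48) (j := 2) (by decide +kernel)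
theorem L04150 : Good (Phi V5.P V5.D 1 1) ⟨11, 1743, 10, 549, 5, 19, 4, 7, 6, 28⟩ :=
  out_sound (S := T5.ds_pp) T5.ok_pp (w := 107) (j := 3) (by decide +kernel)
theorem L04151 : Good (Phi V5.P V5.D 1 1) ⟨10, 871, 9, 275, 5, 19, 4, 7, 6, 28⟩ :=
  out_sound (S := T5.ds_pp) T5.ok_pp (w := 99) (j := 3) (by decide +kernel)
theorem L04152 : Good (Phi V5.P V5.D 1 1) ⟨9, 435, 7, 68, 4, 9, 4, 7, 6, 29⟩ :=
  out_sound (S := T5.ds_pp) T5.ok_pp (w := 34) (j := 1) (by decide +kernel)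
theorem L04153 : Good (Phi V5.P V5.D 1 1) ⟨9, 435, 7, 68, 3, 4, 3, 3, 5, 15⟩ :=
  out_sound (S := T5.ds_pp) T5.ok_pp (w := 29) (j := 1) (by decide +kernel)
theorem L04154 : Good (Phi V5.P V5.D 1 1) ⟨9, 435, 7, 68, 4, 10, 3, 2, 5, 14⟩ :=
  out_sound (S := T5.ds_pp) T5.ok_pp (w := 31) (j := 1) (by decide +kernel)
theorem L04155 : Good (Phi V5.P V5.D 1 1) ⟨9, 435, 7, 68, 5, 20, 5, 12, 6, 28⟩ :=
  out_sound (S := T5.ds_pp) T5.ok_pp (w := 37) (j := 1) (by decide +kernel)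
theorem L04156 : Good (Phi V5.P V5.D 1 1) ⟨9, 435, 7, 68, 5, 20, 5, 13, 6, 28⟩ :=
  out_sound (S := T5.ds_pp) T5.ok_pp (w := 46) (j := 2) (by decide +kernel)
theorem L04157 : Good (Phi V5.P V5.D 1 1) ⟨9, 435, 7, 68, 5, 20, 4, 7, 6, 28⟩ :=
  out_sound (S := T5.ds_pp) T5.ok_pp (w := 44) (j := 2) (by decide +kernel)
theorem L04158 : Good (Phi V5.P V5.D 1 1) ⟨9, 435, 7, 68, 5, 20, 3, 3, 6, 29⟩ :=
  out_sound (S := T5.ds_pp) T5.ok_pp (w := 42) (j := 2) (by decide +kernel)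
theorem L04159 : Good (Phi V5.P V5.D 1 1) ⟨9, 435, 7, 68, 5, 21, 3, 3, 5, 14⟩ :=
  out_sound (S := T5.ds_pp) T5.ok_pp (w := 40) (j := 2) (by decide +kernel)
theorem L04160 : Good (Phi V5.P V5.D 1 1) ⟨9, 435, 7, 68, 4, 10, 2, 1, 5, 15⟩ :=
  out_sound (S := T5.ds_pp) T5.ok_pp (w := 36) (j := 2) (by decide +kernel)
theorem L04161 : Good (Phi V5.P V5.D 1 1) ⟨9, 435, 7, 68, 4, 11, 2, 1, 4, 7⟩ :=
  out_sound (S := T5.ds_pp) T5.ok_pp (w := 34) (j := 2) (by decide +kernel)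
theorem L04162 : Good (Phi V5.P V5.D 1 1) ⟨9, 435, 7, 68, 2, 3, 1, 0, 4, 7⟩ :=
  out_sound (S := T5.ds_pp) T5.ok_pp (w := 28) (j := 2) (by decide +kernel)
theorem L04163 : Good (Phi V5.P V5.D 1 1) ⟨8, 217, 7, 69, 1, 1, 1, 0, 4, 7⟩ :=
  out_sound (S := T5.ds_pp) T5.ok_pp (w := 83) (j := 3) (by decide +kernel)
theorem L04164 : Good (Phi V5.P V5.D 1 1) ⟨7, 108, 6, 35, 1, 1, 1, 0, 4, 7⟩ :=
  out_sound (S := T5.ds_pp) T5.ok_pp (w := 75) (j := 3) (by decide +kernel)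
theorem L04165 : Good (Phi V5.P V5.D 1 1) ⟨7, 109, 5, 17, 2, 2, 2, 0, 4, 7⟩ :=
  out_sound (S := T5.ds_pp) T5.ok_pp (w := 24) (j := 1) (by decide +kernel)
theorem L04166 : Good (Phi V5.P V5.D 1 1) ⟨7, 109, 6, 34, 3, 4, 3, 2, 4, 7⟩ :=
  out_sound (S := T5.ds_pp) T5.ok_pp (w := 27) (j := 1) (by decide +kernel)
theorem L04167 : Good (Phi V5.P V5.D 1 1) ⟨7, 109, 6, 34, 4, 8, 3, 3, 5, 14⟩ :=
  out_sound (S := T5.ds_pp) T5.ok_pp (w := 31) (j := 1) (by decide +kernel)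
theorem L04168 : Good (Phi V5.P V5.D 1 1) ⟨7, 109, 6, 34, 4, 9, 4, 6, 5, 14⟩ :=
  out_sound (S := T5.ds_pp) T5.ok_pp (w := 32) (j := 1) (by decide +kernel)
theorem L04169 : Good (Phi V5.P V5.D 1 1) ⟨7, 109, 6, 34, 5, 18, 4, 7, 6, 28⟩ :=
  leafX_sound T5.ok_pp T5.Ypp.bz_eq (w := 302) (c := ⟨⟨.negSucc 2370, .negSucc 26, .negSucc 0, .negSucc 0, .negSucc 79, .ofNat 1⟩, ⟨.negSucc 1373, .negSucc 35, .negSucc 13, .negSucc 0, .negSucc 47, .ofNat 1⟩, ⟨.ofNat 1301, .ofNat 8, .negSucc 21, .ofNat 1, .ofNat 35, .negSucc 0⟩, ⟨.negSucc 3218, .negSucc 1, .ofNat 4, .negSucc 0, .negSucc 88, .ofNat 2⟩, ⟨.negSucc 478, .negSucc 1, .negSucc 1, .ofNat 0, .negSucc 47, .ofNat 0⟩, .ofNat 164, .negSucc 51, .ofNat 0, .negSucc 51, .ofNat 220, .ofNat 0, .ofNat 147, .ofNat 56, .negSucc 15, .ofNat 0, .ofNat 128, .negSucc 3, .ofNat 0, .ofNat 0, .ofNat 454, .ofNat 4150012, .ofNat 0, .ofNat 0, .ofNat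 0, .ofNat 0, .ofNat 517252753858896748206469377845123085990889463155770375817641590784, .ofNat 2076199011798754066380527215444013279028599889558008301914947584, .ofNat 1759666050886687960821927745042168271429897967091318784, .ofNat 0, .ofNat 328116902872153325509176667631658019097428923605946464694058352640, .ofNat 0, .ofNat 0, .ofNat 0, .ofNat 750297350380449258095802228675808461541586425048914029049664241664, .ofNat 622690501052219687123119866045036571161046630338776804026744832, .ofNat 0, .ofNat 0⟩)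
    (by decide +kernel)
theorem L04170 : Good (Phi V5.P V5.D 1 1) ⟨7, 109, 6, 34, 5, 19, 6, 28, 7, 56⟩ :=
  out_sound (S := T5.ds_pp) T5.ok_pp (w := 40) (j := 1) (by decide +kernel)
theorem L04171 : Good (Phi V5.P V5.D 1 1) ⟨7, 109, 6, 34, 6, 38, 6, 29, 7, 56⟩ :=
  out_sound (S := T5.ds_pp) T5.ok_pp (w := 42) (j := 1) (by decide +kernel)
theorem L04172 : Good (Phi V5.P V5.D 1 1) ⟨7, 109, 6, 34, 6, 39, 6, 29, 7, 56⟩ :=
  out_sound (S := T5.ds_pp) T5.ok_pp (w := 52) (j := 2) (by decide +kernel)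
theorem L04173 : Good (Phi V5.P V5.D 1 1) ⟨7, 109, 6, 34, 5, 19, 5, 14, 7, 57⟩ :=
  out_sound (S := T5.ds_pp) T5.ok_pp (w := 39) (j := 1) (by decide +kernel)
theorem L04174 : Good (Phi V5.P V5.D 1 1) ⟨7, 109, 6, 34, 7, 76, 6, 30, 7, 56⟩ :=
  out_sound (S := T5.ds_pp) T5.ok_pp (w := 44) (j := 1) (by decide +kernel)
theorem L04175 : Good (Phi V5.P V5.D 1 1) ⟨7, 109, 6, 34, 8, 152, 8, 124, 9, 224⟩ :=
  out_sound (S := T5.ds_pp) T5.ok_pp (w := 52) (j := 1) (by decide +kernel)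
theorem L04176 : Good (Phi V5.P V5.D 1 1) ⟨7, 109, 6, 34, 8, 152, 9, 250, 10, 448⟩ :=
  out_sound (S := T5.ds_pp) T5.ok_pp (w := 55) (j := 1) (by decide +kernel)
theorem L04177 : Good (Phi V5.P V5.D 1 1) ⟨7, 109, 6, 34, 9, 304, 9, 251, 10, 448⟩ :=
  out_sound (S := T5.ds_pp) T5.ok_pp (w := 57) (j := 1) (by decide +kernel)
theorem L04178 : Good (Phi V5.P V5.D 1 1) ⟨7, 109, 6, 34, 9, 305, 9, 251, 10, 448⟩ :=
  out_sound (S := T5.ds_pp) T5.ok_pp (w := 70) (j := 2) (by decide +kernel)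
theorem L04179 : Good (Phi V5.P V5.D 1 1) ⟨7, 109, 6, 34, 8, 152, 8, 125, 10, 449⟩ :=
  out_sound (S := T5.ds_pp) T5.ok_pp (w := 54) (j := 1) (by decide +kernel)
theorem L04180 : Good (Phi V5.P V5.D 1 1) ⟨7, 109, 6, 34, 8, 152, 7, 62, 9, 225⟩ :=
  out_sound (S := T5.ds_pp) T5.ok_pp (w := 51) (j := 1) (by decide +kernel)
theorem L04181 : Good (Phi V5.P V5.D 1 1) ⟨7, 109, 6, 34, 10, 608, 9, 252, 10, 448⟩ :=
  out_sound (S := T5.ds_pp) T5.ok_pp (w := 59) (j := 1) (by decide +kernel)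
theorem L04182 : Good (Phi V5.P V5.D 1 1) ⟨7, 109, 6, 34, 11, 1216, 10, 506, 11, 896⟩ :=
  out_sound (S := T5.ds_pp) T5.ok_pp (w := 64) (j := 1) (by decide +kernel)
theorem L04183 : Good (Phi V5.P V5.D 1 1) ⟨7, 109, 6, 34, 11, 1216, 10, 507, 11, 896⟩ :=
  out_sound (S := T5.ds_pp) T5.ok_pp (w := 78) (j := 2) (by decide +kernel)
theorem L04184 : Good (Phi V5.P V5.D 1 1) ⟨7, 109, 6, 34, 11, 1217, 9, 253, 11, 896⟩ :=
  out_sound (S := T5.ds_pp) T5.ok_pp (w := 76) (j := 2) (by decide +kernel)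
theorem L04185 : Good (Phi V5.P V5.D 1 1) ⟨7, 109, 6, 34, 10, 608, 9, 253, 11, 897⟩ :=
  out_sound (S := T5.ds_pp) T5.ok_pp (w := 74) (j := 2) (by decide +kernel)
theorem L04186 : Good (Phi V5.P V5.D 1 1) ⟨7, 109, 6, 34, 10, 609, 8, 126, 10, 448⟩ :=
  out_sound (S := T5.ds_pp) T5.ok_pp (w := 70) (j := 2) (by decide +kernel)
theorem L04187 : Good (Phi V5.P V5.D 1 1) ⟨7, 109, 6, 34, 9, 304, 8, 126, 10, 449⟩ :=
  out_sound (S := T5.ds_pp) T5.ok_pp (w := 56) (j := 1) (by decide +kernel)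
theorem L04188 : Good (Phi V5.P V5.D 1 1) ⟨7, 109, 6, 34, 9, 304, 8, 127, 9, 224⟩ :=
  out_sound (S := T5.ds_pp) T5.ok_pp (w := 66) (j := 2) (by decide +kernel)
theorem L04189 : Good (Phi V5.P V5.D 1 1) ⟨7, 109, 6, 34, 9, 305, 7, 63, 9, 224⟩ :=
  out_sound (S := T5.ds_pp) T5.ok_pp (w := 64) (j := 2) (by decide +kernel)
theorem L04190 : Good (Phi V5.P V5.D 1 1) ⟨7, 109, 6, 34, 8, 152, 7, 63, 9, 225⟩ :=
  out_sound (S := T5.ds_pp) T5.ok_pp (w := 62) (j := 2) (by decide +kernel)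
theorem L04191 : Good (Phi V5.P V5.D 1 1) ⟨7, 109, 6, 34, 8, 153, 6, 31, 8, 112⟩ :=
  out_sound (S := T5.ds_pp) T5.ok_pp (w := 58) (j := 2) (by decide +kernel)
theorem L04192 : Good (Phi V5.P V5.D 1 1) ⟨7, 109, 6, 34, 7, 76, 6, 31, 8, 113⟩ :=
  out_sound (S := T5.ds_pp) T5.ok_pp (w := 56) (j := 2) (by decide +kernel)
theorem L04193 : Good (Phi V5.P V5.D 1 1) ⟨7, 109, 6, 34, 8, 154, 6, 30, 8, 112⟩ :=
  out_sound (S := T5.ds_pp) T5.ok_pp (w := 48) (j := 1) (by decide +kernel)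
theorem L04194 : Good (Phi V5.P V5.D 1 1) ⟨7, 109, 6, 34, 8, 155, 6, 30, 8, 112⟩ :=
  out_sound (S := T5.ds_pp) T5.ok_pp (w := 58) (j := 2) (by decide +kernel)
theorem L04195 : Good (Phi V5.P V5.D 1 1) ⟨7, 109, 6, 34, 7, 77, 6, 30, 8, 113⟩ :=
  out_sound (S := T5.ds_pp) T5.ok_pp (w := 46) (j := 1) (by decide +kernel)
theorem L04196 : Good (Phi V5.P V5.D 1 1) ⟨7, 109, 6, 34, 7, 77, 6, 31, 7, 56⟩ :=
  out_sound (S := T5.ds_pp) T5.ok_pp (w := 54) (j := 2) (by decide +kernel)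
theorem L04197 : Good (Phi V5.P V5.D 1 1) ⟨7, 109, 6, 34, 6, 38, 5, 15, 7, 57⟩ :=
  out_sound (S := T5.ds_pp) T5.ok_pp (w := 50) (j := 2) (by decide +kernel)
theorem L04198 : Good (Phi V5.P V5.D 1 1) ⟨7, 109, 6, 34, 6, 39, 5, 15, 6, 28⟩ :=
  out_sound (S := T5.ds_pp) T5.ok_pp (w := 48) (j := 2) (by decide +kernel)
theorem L04199 : Good (Phi V5.P V5.D 1 1) ⟨7, 109, 6, 34, 4, 9, 4, 7, 6, 29⟩ :=
  out_sound (S := T5.ds_pp) T5.ok_pp (w := 34) (j := 1) (by decide +kernel)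
theorem L04200 : Good (Phi V5.P V5.D 1 1) ⟨7, 109, 6, 34, 3, 4, 3, 3, 5, 15⟩ :=
  out_sound (S := T5.ds_pp) T5.ok_pp (w := 29) (j := 1) (by decide +kernel)
theorem L04201 : Good (Phi V5.P V5.D 1 1) ⟨7, 109, 6, 34, 4, 10, 3, 2, 5, 14⟩ :=
  out_sound (S := T5.ds_pp) T5.ok_pp (w := 31) (j := 1) (by decide +kernel)
theorem L04202 : Good (Phi V5.P V5.D 1 1) ⟨7, 109, 6, 34, 5, 20, 5, 12, 6, 28⟩ :=
  out_sound (S := T5.ds_pp) T5.ok_pp (w := 37) (j := 1) (by decide +kernel)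
theorem L04203 : Good (Phi V5.P V5.D 1 1) ⟨7, 109, 6, 34, 5, 20, 5, 13, 6, 28⟩ :=
  out_sound (S := T5.ds_pp) T5.ok_pp (w := 46) (j := 2) (by decide +kernel)
theorem L04204 : Good (Phi V5.P V5.D 1 1) ⟨7, 109, 6, 34, 5, 20, 4, 7, 6, 28⟩ :=
  out_sound (S := T5.ds_pp) T5.ok_pp (w := 44) (j := 2) (by decide +kernel)
theorem L04205 : Good (Phi V5.P V5.D 1 1) ⟨7, 109, 6, 34, 5, 20, 3, 3, 6, 29⟩ :=
  out_sound (S := T5.ds_pp) T5.ok_pp (w := 42) (j := 2) (by decide +kernel)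
theorem L04206 : Good (Phi V5.P V5.D 1 1) ⟨7, 109, 6, 34, 5, 21, 3, 3, 5, 14⟩ :=
  out_sound (S := T5.ds_pp) T5.ok_pp (w := 40) (j := 2) (by decide +kernel)
theorem L04207 : Good (Phi V5.P V5.D 1 1) ⟨7, 109, 6, 34, 4, 10, 2, 1, 5, 15⟩ :=
  out_sound (S := T5.ds_pp) T5.ok_pp (w := 36) (j := 2) (by decide +kernel)
theorem L04208 : Good (Phi V5.P V5.D 1 1) ⟨7, 109, 6, 34, 4, 11, 2, 1, 4, 7⟩ :=
  out_sound (S := T5.ds_pp) T5.ok_pp (w := 34) (j := 2) (by decide +kernel)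
theorem L04209 : Good (Phi V5.P V5.D 1 1) ⟨8, 218, 6, 35, 2, 2, 2, 1, 4, 7⟩ :=
  out_sound (S := T5.ds_pp) T5.ok_pp (w := 81) (j := 3) (by decide +kernel)
theorem L04210 : Good (Phi V5.P V5.D 1 1) ⟨8, 219, 7, 70, 3, 4, 3, 2, 4, 7⟩ :=
  out_sound (S := T5.ds_pp) T5.ok_pp (w := 27) (j := 1) (by decide +kernel)
theorem L04211 : Good (Phi V5.P V5.D 1 1) ⟨8, 219, 7, 70, 4, 8, 3, 3, 5, 14⟩ :=
  out_sound (S := T5.ds_pp) T5.ok_pp (w := 31) (j := 1) (by decide +kernel)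
theorem L04212 : Good (Phi V5.P V5.D 1 1) ⟨8, 219, 7, 70, 4, 9, 4, 6, 5, 14⟩ :=
  out_sound (S := T5.ds_pp) T5.ok_pp (w := 32) (j := 1) (by decide +kernel)
theorem L04213 : Good (Phi V5.P V5.D 1 1) ⟨8, 219, 7, 70, 5, 18, 4, 7, 6, 28⟩ :=
  leafX_sound T5.ok_pp T5.Ypp.bz_eq (w := 309) (c := ⟨⟨.negSucc 2384, .negSucc 13, .ofNat 0, .negSucc 0, .negSucc 79, .ofNat 1⟩, ⟨.negSucc 1404, .negSucc 17, .negSucc 6, .negSucc 0, .negSucc 47, .ofNat 1⟩, ⟨.ofNat 1284, .ofNat 4, .negSucc 10, .ofNat 1, .ofNat 35, .negSucc 0⟩, ⟨.negSucc 3224, .negSucc 0, .ofNat 2, .negSucc 0, .negSucc 78, .ofNat 2⟩, ⟨.negSucc 486, .negSucc 0, .negSucc 0, .ofNat 0, .negSucc 43, .ofNat 0⟩, .ofNat 369, .negSucc 264, .ofNat 0, .negSucc 264, .ofNat 649, .ofNat 0, .ofNat 136, .ofNat 120, .negSucc 15, .ofNat 0, .ofNat 128, .negSucc 6, .ofNat 0, .ofNat 0, .ofNat 620, .ofNat 5589740, .ofNat 0, .ofNat 0, .ofNat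 0, .ofNat 0, .ofNat 83594982033743063981599981904723370737330139573591096662248499707904, .ofNat 319889573869991561675264433346442436485899090163245250274356363264, .ofNat 0, .ofNat 0, .ofNat 95057027446655574831484840999578856075198036499386459753321785720832, .ofNat 197785405103229250127049163452591607448510475119948216734528307200, .ofNat 0, .ofNat 0, .ofNat 173162483217439884924426560431752355623996655383341825084815466037248, .ofNat 146297231553596811822745318361329591673248465688271181620015267840, .ofNat 0, .ofNat 0⟩)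
    (by decide +kernel)
theorem L04214 : Good (Phi V5.P V5.D 1 1) ⟨8, 219, 7, 70, 5, 19, 6, 28, 7, 56⟩ :=
  out_sound (S := T5.ds_pp) T5.ok_pp (w := 40) (j := 1) (by decide +kernel)
theorem L04215 : Good (Phi V5.P V5.D 1 1) ⟨8, 219, 7, 70, 6, 38, 6, 29, 7, 56⟩ :=
  out_sound (S := T5.ds_pp) T5.ok_pp (w := 42) (j := 1) (by decide +kernel)
theorem L04216 : Good (Phi V5.P V5.D 1 1) ⟨8, 219, 7, 70, 6, 39, 6, 29, 7, 56⟩ :=
  out_sound (S := T5.ds_pp) T5.ok_pp (w := 52) (j := 2) (by decide +kernel)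
theorem L04217 : Good (Phi V5.P V5.D 1 1) ⟨8, 219, 7, 70, 5, 19, 5, 14, 7, 57⟩ :=
  out_sound (S := T5.ds_pp) T5.ok_pp (w := 39) (j := 1) (by decide +kernel)
theorem L04218 : Good (Phi V5.P V5.D 1 1) ⟨8, 219, 7, 70, 7, 76, 6, 30, 7, 56⟩ :=
  out_sound (S := T5.ds_pp) T5.ok_pp (w := 44) (j := 1) (by decide +kernel)
theorem L04219 : Good (Phi V5.P V5.D 1 1) ⟨8, 219, 7, 70, 8, 152, 8, 124, 9, 224⟩ :=
  out_sound (S := T5.ds_pp) T5.ok_pp (w := 52) (j := 1) (by decide +kernel)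
theorem L04220 : Good (Phi V5.P V5.D 1 1) ⟨8, 219, 7, 70, 8, 152, 9, 250, 10, 448⟩ :=
  out_sound (S := T5.ds_pp) T5.ok_pp (w := 55) (j := 1) (by decide +kernel)
theorem L04221 : Good (Phi V5.P V5.D 1 1) ⟨8, 219, 7, 70, 9, 304, 9, 251, 10, 448⟩ :=
  out_sound (S := T5.ds_pp) T5.ok_pp (w := 57) (j := 1) (by decide +kernel)
theorem L04222 : Good (Phi V5.P V5.D 1 1) ⟨8, 219, 7, 70, 9, 305, 9, 251, 10, 448⟩ :=
  out_sound (S := T5.ds_pp) T5.ok_pp (w := 70) (j := 2) (by decide +kernel)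
theorem L04223 : Good (Phi V5.P V5.D 1 1) ⟨8, 219, 7, 70, 8, 152, 8, 125, 10, 449⟩ :=
  out_sound (S := T5.ds_pp) T5.ok_pp (w := 54) (j := 1) (by decide +kernel)
theorem L04224 : Good (Phi V5.P V5.D 1 1) ⟨8, 219, 7, 70, 8, 152, 7, 62, 9, 225⟩ :=
  out_sound (S := T5.ds_pp) T5.ok_pp (w := 51) (j := 1) (by decide +kernel)
theorem L04225 : Good (Phi V5.P V5.D 1 1) ⟨8, 219, 7, 70, 10, 608, 9, 252, 10, 448⟩ :=
  out_sound (S := T5.ds_pp) T5.ok_pp (w := 59) (j := 1) (by decide +kernel)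
theorem L04226 : Good (Phi V5.P V5.D 1 1) ⟨8, 219, 7, 70, 11, 1216, 10, 506, 11, 896⟩ :=
  out_sound (S := T5.ds_pp) T5.ok_pp (w := 64) (j := 1) (by decide +kernel)
theorem L04227 : Good (Phi V5.P V5.D 1 1) ⟨8, 219, 7, 70, 11, 1216, 10, 507, 11, 896⟩ :=
  out_sound (S := T5.ds_pp) T5.ok_pp (w := 78) (j := 2) (by decide +kernel)
theorem L04228 : Good (Phi V5.P V5.D 1 1) ⟨8, 219, 7, 70, 11, 1217, 9, 253, 11, 896⟩ :=
  out_sound (S := T5.ds_pp) T5.ok_pp (w := 76) (j := 2) (by decide +kernel)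
theorem L04229 : Good (Phi V5.P V5.D 1 1) ⟨8, 219, 7, 70, 10, 608, 9, 253, 11, 897⟩ :=
  out_sound (S := T5.ds_pp) T5.ok_pp (w := 74) (j := 2) (by decide +kernel)
theorem L04230 : Good (Phi V5.P V5.D 1 1) ⟨8, 219, 7, 70, 10, 609, 8, 126, 10, 448⟩ :=
  out_sound (S := T5.ds_pp) T5.ok_pp (w := 70) (j := 2) (by decide +kernel)
theorem L04231 : Good (Phi V5.P V5.D 1 1) ⟨8, 219, 7, 70, 9, 304, 8, 126, 10, 449⟩ :=
  out_sound (S := T5.ds_pp) T5.ok_pp (w := 56) (j := 1) (by decide +kernel)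
theorem L04232 : Good (Phi V5.P V5.D 1 1) ⟨8, 219, 7, 70, 9, 304, 8, 127, 9, 224⟩ :=
  out_sound (S := T5.ds_pp) T5.ok_pp (w := 66) (j := 2) (by decide +kernel)
theorem L04233 : Good (Phi V5.P V5.D 1 1) ⟨8, 219, 7, 70, 9, 305, 7, 63, 9, 224⟩ :=
  out_sound (S := T5.ds_pp) T5.ok_pp (w := 64) (j := 2) (by decide +kernel)
theorem L04234 : Good (Phi V5.P V5.D 1 1) ⟨8, 219, 7, 70, 8, 152, 7, 63, 9, 225⟩ :=
  out_sound (S := T5.ds_pp) T5.ok_pp (w := 62) (j := 2) (by decide +kernel)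
theorem L04235 : Good (Phi V5.P V5.D 1 1) ⟨8, 219, 7, 70, 8, 153, 6, 31, 8, 112⟩ :=
  out_sound (S := T5.ds_pp) T5.ok_pp (w := 58) (j := 2) (by decide +kernel)
theorem L04236 : Good (Phi V5.P V5.D 1 1) ⟨8, 219, 7, 70, 7, 76, 6, 31, 8, 113⟩ :=
  out_sound (S := T5.ds_pp) T5.ok_pp (w := 56) (j := 2) (by decide +kernel)
theorem L04237 : Good (Phi V5.P V5.D 1 1) ⟨8, 219, 7, 70, 8, 154, 6, 30, 8, 112⟩ :=
  out_sound (S := T5.ds_pp) T5.ok_pp (w := 48) (j := 1) (by decide +kernel)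
theorem L04238 : Good (Phi V5.P V5.D 1 1) ⟨8, 219, 7, 70, 8, 155, 6, 30, 8, 112⟩ :=
  out_sound (S := T5.ds_pp) T5.ok_pp (w := 58) (j := 2) (by decide +kernel)
theorem L04239 : Good (Phi V5.P V5.D 1 1) ⟨8, 219, 7, 70, 7, 77, 6, 30, 8, 113⟩ :=
  out_sound (S := T5.ds_pp) T5.ok_pp (w := 46) (j := 1) (by decide +kernel)
theorem L04240 : Good (Phi V5.P V5.D 1 1) ⟨8, 219, 7, 70, 7, 77, 6, 31, 7, 56⟩ :=
  out_sound (S := T5.ds_pp) T5.ok_pp (w := 54) (j := 2) (by decide +kernel)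
theorem L04241 : Good (Phi V5.P V5.D 1 1) ⟨8, 219, 7, 70, 6, 38, 5, 15, 7, 57⟩ :=
  out_sound (S := T5.ds_pp) T5.ok_pp (w := 50) (j := 2) (by decide +kernel)
theorem L04242 : Good (Phi V5.P V5.D 1 1) ⟨8, 219, 7, 70, 6, 39, 5, 15, 6, 28⟩ :=
  out_sound (S := T5.ds_pp) T5.ok_pp (w := 48) (j := 2) (by decide +kernel)
theorem L04243 : Good (Phi V5.P V5.D 1 1) ⟨8, 219, 7, 70, 4, 9, 4, 7, 6, 29⟩ :=
  out_sound (S := T5.ds_pp) T5.ok_pp (w := 34) (j := 1) (by decide +kernel)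
theorem L04244 : Good (Phi V5.P V5.D 1 1) ⟨8, 219, 7, 70, 3, 4, 3, 3, 5, 15⟩ :=
  out_sound (S := T5.ds_pp) T5.ok_pp (w := 29) (j := 1) (by decide +kernel)
theorem L04245 : Good (Phi V5.P V5.D 1 1) ⟨8, 219, 7, 70, 4, 10, 3, 2, 5, 14⟩ :=
  out_sound (S := T5.ds_pp) T5.ok_pp (w := 31) (j := 1) (by decide +kernel)
theorem L04246 : Good (Phi V5.P V5.D 1 1) ⟨8, 219, 7, 70, 5, 20, 5, 12, 6, 28⟩ :=
  out_sound (S := T5.ds_pp) T5.ok_pp (w := 37) (j := 1) (by decide +kernel)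
theorem L04247 : Good (Phi V5.P V5.D 1 1) ⟨8, 219, 7, 70, 5, 20, 5, 13, 6, 28⟩ :=
  out_sound (S := T5.ds_pp) T5.ok_pp (w := 46) (j := 2) (by decide +kernel)
theorem L04248 : Good (Phi V5.P V5.D 1 1) ⟨8, 219, 7, 70, 5, 20, 4, 7, 6, 28⟩ :=
  out_sound (S := T5.ds_pp) T5.ok_pp (w := 44) (j := 2) (by decide +kernel)
theorem L04249 : Good (Phi V5.P V5.D 1 1) ⟨8, 219, 7, 70, 5, 20, 3, 3, 6, 29⟩ :=
  out_sound (S := T5.ds_pp) T5.ok_pp (w := 42) (j := 2) (by decide +kernel)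
theorem L04250 : Good (Phi V5.P V5.D 1 1) ⟨8, 219, 7, 70, 5, 21, 3, 3, 5, 14⟩ :=
  out_sound (S := T5.ds_pp) T5.ok_pp (w := 40) (j := 2) (by decide +kernel)
theorem L04251 : Good (Phi V5.P V5.D 1 1) ⟨8, 219, 7, 70, 4, 10, 2, 1, 5, 15⟩ :=
  out_sound (S := T5.ds_pp) T5.ok_pp (w := 36) (j := 2) (by decide +kernel)
theorem L04252 : Good (Phi V5.P V5.D 1 1) ⟨8, 219, 7, 70, 4, 11, 2, 1, 4, 7⟩ :=
  out_sound (S := T5.ds_pp) T5.ok_pp (w := 34) (j := 2) (by decide +kernel)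
theorem L04253 : Good (Phi V5.P V5.D 1 1) ⟨9, 438, 7, 71, 2, 2, 2, 1, 4, 7⟩ :=
  out_sound (S := T5.ds_pp) T5.ok_pp (w := 89) (j := 3) (by decide +kernel)
theorem L04254 : Good (Phi V5.P V5.D 1 1) ⟨11, 1756, 9, 284, 2, 2, 2, 1, 4, 7⟩ :=
  out_sound (S := T5.ds_pp) T5.ok_pp (w := 105) (j := 3) (by decide +kernel)
theorem L04255 : Good (Phi V5.P V5.D 1 1) ⟨12, 3514, 10, 568, 2, 2, 2, 1, 4, 7⟩ :=
  out_sound (S := T5.ds_pp) T5.ok_pp (w := 113) (j := 3) (by decide +kernel)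
theorem L04256 : Good (Phi V5.P V5.D 1 1) ⟨13, 7030, 11, 1136, 2, 2, 2, 1, 4, 7⟩ :=
  out_sound (S := T5.ds_pp) T5.ok_pp (w := 121) (j := 3) (by decide +kernel)
theorem L04257 : Good (Phi V5.P V5.D 1 1) ⟨13, 7031, 11, 1136, 3, 4, 3, 2, 4, 7⟩ :=
  out_sound (S := T5.ds_pp) T5.ok_pp (w := 27) (j := 1) (by decide +kernel)
theorem L04258 : Good (Phi V5.P V5.D 1 1) ⟨13, 7031, 11, 1136, 4, 8, 3, 3, 5, 14⟩ :=
  out_sound (S := T5.ds_pp) T5.ok_pp (w := 31) (j := 1) (by decide +kernel)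
theorem L04259 : Good (Phi V5.P V5.D 1 1) ⟨13, 7031, 11, 1136, 4, 9, 4, 6, 5, 14⟩ :=
  out_sound (S := T5.ds_pp) T5.ok_pp (w := 32) (j := 1) (by decide +kernel)
theorem L04260 : Good (Phi V5.P V5.D 1 1) ⟨13, 7031, 11, 1136, 5, 18, 4, 7, 6, 28⟩ :=
  leafX_sound T5.ok_pp T5.Ypp.bz_eq (w := 341) (c := ⟨⟨.negSucc 2395, .negSucc 0, .ofNat 0, .negSucc 0, .negSucc 78, .ofNat 1⟩, ⟨.negSucc 1424, .negSucc 0, .ofNat 0, .negSucc 0, .negSucc 47, .ofNat 1⟩, ⟨.ofNat 1278, .ofNat 0, .negSucc 0, .ofNat 1, .ofNat 33, .negSucc 0⟩, ⟨.negSucc 3224, .ofNat 0, .ofNat 0, .negSucc 0, .negSucc 77, .ofNat 2⟩, ⟨.negSucc 489, .ofNat 0, .ofNat 0, .ofNat 0, .negSucc 42, .ofNat 0⟩, .ofNat 370, .negSucc 267, .ofNat 0, .negSucc 267, .ofNat 651, .ofNat 0, .ofNat 135, .ofNat 121, .negSucc 15, .ofNat 0, .ofNat 128, .negSucc 6, .ofNat 0, .ofNat 0, .ofNat 619, .ofNat 5576212, .ofNat 0, .ofNat 0, .ofNat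 0, .ofNat 0, .ofNat 351595608771769980862594230873471223661038212823510421052523970461312791609344, .ofNat 1352588404992384162495378622800988019218691864651933025552290651125311340544, .ofNat 3530600175799085363369196096140399849353379798056960000, .ofNat 0, .ofNat 418207116835250039748326931582482716813342517535533965722060690853573634818048, .ofNat 783642985748468433570437534896678805988504358989941913895172024024006918144, .ofNat 6279450761643079340871462018086171480246050191841427456, .ofNat 0, .ofNat 741110958929492090276975683486118053015434690888164946637933457393128088535040, .ofNat 628781261440591226609462044321475371801657952492236621558162902499469557760, .ofNat 782060356519153952851175555788635820943424812423839744, .ofNat 0⟩)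
    (by decide +kernel)
theorem L04261 : Good (Phi V5.P V5.D 1 1) ⟨13, 7031, 11, 1136, 5, 19, 6, 28, 7, 56⟩ :=
  out_sound (S := T5.ds_pp) T5.ok_pp (w := 40) (j := 1) (by decide +kernel)
theorem L04262 : Good (Phi V5.P V5.D 1 1) ⟨13, 7031, 11, 1136, 6, 38, 6, 29, 7, 56⟩ :=
  out_sound (S := T5.ds_pp) T5.ok_pp (w := 42) (j := 1) (by decide +kernel)
theorem L04263 : Good (Phi V5.P V5.D 1 1) ⟨13, 7031, 11, 1136, 6, 39, 6, 29, 7, 56⟩ :=
  out_sound (S := T5.ds_pp) T5.ok_pp (w := 52) (j := 2) (by decide +kernel)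
theorem L04264 : Good (Phi V5.P V5.D 1 1) ⟨13, 7031, 11, 1136, 5, 19, 5, 14, 7, 57⟩ :=
  out_sound (S := T5.ds_pp) T5.ok_pp (w := 39) (j := 1) (by decide +kernel)
theorem L04265 : Good (Phi V5.P V5.D 1 1) ⟨13, 7031, 11, 1136, 7, 76, 6, 30, 7, 56⟩ :=
  out_sound (S := T5.ds_pp) T5.ok_pp (w := 44) (j := 1) (by decide +kernel)
theorem L04266 : Good (Phi V5.P V5.D 1 1) ⟨13, 7031, 11, 1136, 8, 152, 8, 124, 9, 224⟩ :=
  out_sound (S := T5.ds_pp) T5.ok_pp (w := 52) (j := 1) (by decide +kernel)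
theorem L04267 : Good (Phi V5.P V5.D 1 1) ⟨13, 7031, 11, 1136, 8, 152, 9, 250, 10, 448⟩ :=
  out_sound (S := T5.ds_pp) T5.ok_pp (w := 55) (j := 1) (by decide +kernel)
theorem L04268 : Good (Phi V5.P V5.D 1 1) ⟨13, 7031, 11, 1136, 9, 304, 9, 251, 10, 448⟩ :=
  out_sound (S := T5.ds_pp) T5.ok_pp (w := 57) (j := 1) (by decide +kernel)
theorem L04269 : Good (Phi V5.P V5.D 1 1) ⟨13, 7031, 11, 1136, 9, 305, 9, 251, 10, 448⟩ :=
  out_sound (S := T5.ds_pp) T5.ok_pp (w := 70) (j := 2) (by decide +kernel)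
theorem L04270 : Good (Phi V5.P V5.D 1 1) ⟨13, 7031, 11, 1136, 8, 152, 8, 125, 10, 449⟩ :=
  out_sound (S := T5.ds_pp) T5.ok_pp (w := 54) (j := 1) (by decide +kernel)
theorem L04271 : Good (Phi V5.P V5.D 1 1) ⟨13, 7031, 11, 1136, 8, 152, 7, 62, 9, 225⟩ :=
  out_sound (S := T5.ds_pp) T5.ok_pp (w := 51) (j := 1) (by decide +kernel)
theorem L04272 : Good (Phi V5.P V5.D 1 1) ⟨13, 7031, 11, 1136, 10, 608, 9, 252, 10, 448⟩ :=
  out_sound (S := T5.ds_pp) T5.ok_pp (w := 59) (j := 1) (by decide +kernel)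
theorem L04273 : Good (Phi V5.P V5.D 1 1) ⟨13, 7031, 11, 1136, 11, 1216, 10, 506, 11, 896⟩ :=
  out_sound (S := T5.ds_pp) T5.ok_pp (w := 64) (j := 1) (by decide +kernel)
theorem L04274 : Good (Phi V5.P V5.D 1 1) ⟨13, 7031, 11, 1136, 11, 1216, 10, 507, 11, 896⟩ :=
  out_sound (S := T5.ds_pp) T5.ok_pp (w := 78) (j := 2) (by decide +kernel)
theorem L04275 : Good (Phi V5.P V5.D 1 1) ⟨13, 7031, 11, 1136, 11, 1217, 9, 253, 11, 896⟩ :=
  out_sound (S := T5.ds_pp) T5.ok_pp (w := 76) (j := 2) (by decide +kernel)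
theorem L04276 : Good (Phi V5.P V5.D 1 1) ⟨13, 7031, 11, 1136, 10, 608, 9, 253, 11, 897⟩ :=
  out_sound (S := T5.ds_pp) T5.ok_pp (w := 74) (j := 2) (by decide +kernel)
theorem L04277 : Good (Phi V5.P V5.D 1 1) ⟨13, 7031, 11, 1136, 10, 609, 8, 126, 10, 448⟩ :=
  out_sound (S := T5.ds_pp) T5.ok_pp (w := 70) (j := 2) (by decide +kernel)
theorem L04278 : Good (Phi V5.P V5.D 1 1) ⟨13, 7031, 11, 1136, 9, 304, 8, 126, 10, 449⟩ :=
  out_sound (S := T5.ds_pp) T5.ok_pp (w := 56) (j := 1) (by decide +kernel)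
theorem L04279 : Good (Phi V5.P V5.D 1 1) ⟨13, 7031, 11, 1136, 9, 304, 8, 127, 9, 224⟩ :=
  out_sound (S := T5.ds_pp) T5.ok_pp (w := 66) (j := 2) (by decide +kernel)
theorem L04280 : Good (Phi V5.P V5.D 1 1) ⟨13, 7031, 11, 1136, 9, 305, 7, 63, 9, 224⟩ :=
  out_sound (S := T5.ds_pp) T5.ok_pp (w := 64) (j := 2) (by decide +kernel)
theorem L04281 : Good (Phi V5.P V5.D 1 1) ⟨13, 7031, 11, 1136, 8, 152, 7, 63, 9, 225⟩ :=
  out_sound (S := T5.ds_pp) T5.ok_pp (w := 62) (j := 2) (by decide +kernel)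
theorem L04282 : Good (Phi V5.P V5.D 1 1) ⟨13, 7031, 11, 1136, 8, 153, 6, 31, 8, 112⟩ :=
  out_sound (S := T5.ds_pp) T5.ok_pp (w := 58) (j := 2) (by decide +kernel)
theorem L04283 : Good (Phi V5.P V5.D 1 1) ⟨13, 7031, 11, 1136, 7, 76, 6, 31, 8, 113⟩ :=
  out_sound (S := T5.ds_pp) T5.ok_pp (w := 56) (j := 2) (by decide +kernel)
theorem L04284 : Good (Phi V5.P V5.D 1 1) ⟨13, 7031, 11, 1136, 8, 154, 6, 30, 8, 112⟩ :=
  out_sound (S := T5.ds_pp) T5.ok_pp (w := 48) (j := 1) (by decide +kernel)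
theorem L04285 : Good (Phi V5.P V5.D 1 1) ⟨13, 7031, 11, 1136, 8, 155, 6, 30, 8, 112⟩ :=
  out_sound (S := T5.ds_pp) T5.ok_pp (w := 58) (j := 2) (by decide +kernel)
theorem L04286 : Good (Phi V5.P V5.D 1 1) ⟨13, 7031, 11, 1136, 7, 77, 6, 30, 8, 113⟩ :=
  out_sound (S := T5.ds_pp) T5.ok_pp (w := 46) (j := 1) (by decide +kernel)
theorem L04287 : Good (Phi V5.P V5.D 1 1) ⟨13, 7031, 11, 1136, 7, 77, 6, 31, 7, 56⟩ :=
  out_sound (S := T5.ds_pp) T5.ok_pp (w := 54) (j := 2) (by decide +kernel)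
theorem L04288 : Good (Phi V5.P V5.D 1 1) ⟨13, 7031, 11, 1136, 6, 38, 5, 15, 7, 57⟩ :=
  out_sound (S := T5.ds_pp) T5.ok_pp (w := 50) (j := 2) (by decide +kernel)
theorem L04289 : Good (Phi V5.P V5.D 1 1) ⟨13, 7031, 11, 1136, 6, 39, 5, 15, 6, 28⟩ :=
  out_sound (S := T5.ds_pp) T5.ok_pp (w := 48) (j := 2) (by decide +kernel)
theorem L04290 : Good (Phi V5.P V5.D 1 1) ⟨13, 7031, 11, 1136, 4, 9, 4, 7, 6, 29⟩ :=
  out_sound (S := T5.ds_pp) T5.ok_pp (w := 34) (j := 1) (by decide +kernel)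
theorem L04291 : Good (Phi V5.P V5.D 1 1) ⟨13, 7031, 11, 1136, 3, 4, 3, 3, 5, 15⟩ :=
  out_sound (S := T5.ds_pp) T5.ok_pp (w := 29) (j := 1) (by decide +kernel)
theorem L04292 : Good (Phi V5.P V5.D 1 1) ⟨13, 7031, 11, 1136, 4, 10, 3, 2, 5, 14⟩ :=
  out_sound (S := T5.ds_pp) T5.ok_pp (w := 31) (j := 1) (by decide +kernel)
theorem L04293 : Good (Phi V5.P V5.D 1 1) ⟨13, 7031, 11, 1136, 5, 20, 5, 12, 6, 28⟩ :=
  out_sound (S := T5.ds_pp) T5.ok_pp (w := 37) (j := 1) (by decide +kernel)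
theorem L04294 : Good (Phi V5.P V5.D 1 1) ⟨13, 7031, 11, 1136, 5, 20, 5, 13, 6, 28⟩ :=
  out_sound (S := T5.ds_pp) T5.ok_pp (w := 46) (j := 2) (by decide +kernel)
theorem L04295 : Good (Phi V5.P V5.D 1 1) ⟨13, 7031, 11, 1136, 5, 20, 4, 7, 6, 28⟩ :=
  out_sound (S := T5.ds_pp) T5.ok_pp (w := 44) (j := 2) (by decide +kernel)
theorem L04296 : Good (Phi V5.P V5.D 1 1) ⟨13, 7031, 11, 1136, 5, 20, 3, 3, 6, 29⟩ :=
  out_sound (S := T5.ds_pp) T5.ok_pp (w := 42) (j := 2) (by decide +kernel)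
theorem L04297 : Good (Phi V5.P V5.D 1 1) ⟨13, 7031, 11, 1136, 5, 21, 3, 3, 5, 14⟩ :=
  out_sound (S := T5.ds_pp) T5.ok_pp (w := 40) (j := 2) (by decide +kernel)
theorem L04298 : Good (Phi V5.P V5.D 1 1) ⟨13, 7031, 11, 1136, 4, 10, 2, 1, 5, 15⟩ :=
  out_sound (S := T5.ds_pp) T5.ok_pp (w := 36) (j := 2) (by decide +kernel)
theorem L04299 : Good (Phi V5.P V5.D 1 1) ⟨13, 7031, 11, 1136, 4, 11, 2, 1, 4, 7⟩ :=
  out_sound (S := T5.ds_pp) T5.ok_pp (w := 34) (j := 2) (by decide +kernel)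
theorem L04300 : Good (Phi V5.P V5.D 1 1) ⟨12, 3515, 11, 1137, 2, 2, 2, 1, 4, 7⟩ :=
  out_sound (S := T5.ds_pp) T5.ok_pp (w := 115) (j := 3) (by decide +kernel)
theorem L04301 : Good (Phi V5.P V5.D 1 1) ⟨11, 1757, 10, 569, 2, 2, 2, 1, 4, 7⟩ :=
  out_sound (S := T5.ds_pp) T5.ok_pp (w := 107) (j := 3) (by decide +kernel)
theorem L04302 : Good (Phi V5.P V5.D 1 1) ⟨10, 878, 9, 285, 2, 2, 2, 1, 4, 7⟩ :=
  out_sound (S := T5.ds_pp) T5.ok_pp (w := 99) (j := 3) (by decide +kernel)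
theorem L04303 : Good (Phi V5.P V5.D 1 1) ⟨10, 879, 8, 142, 3, 4, 3, 2, 4, 7⟩ :=
  out_sound (S := T5.ds_pp) T5.ok_pp (w := 27) (j := 1) (by decide +kernel)
theorem L04304 : Good (Phi V5.P V5.D 1 1) ⟨10, 879, 8, 142, 4, 8, 3, 3, 5, 14⟩ :=
  out_sound (S := T5.ds_pp) T5.ok_pp (w := 31) (j := 1) (by decide +kernel)
theorem L04305 : Good (Phi V5.P V5.D 1 1) ⟨10, 879, 8, 142, 4, 9, 4, 6, 5, 14⟩ :=
  out_sound (S := T5.ds_pp) T5.ok_pp (w := 32) (j := 1) (by decide +kernel)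
theorem L04306 : Good (Phi V5.P V5.D 1 1) ⟨10, 879, 8, 142, 5, 18, 4, 7, 6, 28⟩ :=
  leafX_sound T5.ok_pp T5.Ypp.bz_eq (w := 320) (c := ⟨⟨.negSucc 2396, .negSucc 2, .ofNat 0, .negSucc 0, .negSucc 78, .ofNat 1⟩, ⟨.negSucc 1425, .negSucc 3, .negSucc 3, .negSucc 0, .negSucc 47, .ofNat 1⟩, ⟨.ofNat 1279, .ofNat 1, .negSucc 4, .ofNat 1, .ofNat 32, .negSucc 0⟩, ⟨.negSucc 3225, .ofNat 0, .ofNat 1, .negSucc 0, .negSucc 76, .ofNat 2⟩, ⟨.negSucc 490, .ofNat 0, .negSucc 0, .ofNat 0, .negSucc 41, .ofNat 0⟩, .ofNat 370, .negSucc 267, .ofNat 0, .negSucc 267, .ofNat 650, .ofNat 0, .ofNat 135, .ofNat 121, .negSucc 15, .ofNat 0, .ofNat 128, .negSucc 6, .ofNat 0, .ofNat 0, .ofNat 618, .ofNat 5503570, .ofNat 0, .ofNat 0, .ofNat 0, .ofNat 0, .ofNat 167997496488442310002385340926182259031326296399601450147936190389551104, .ofNat 617015107696303495965967989738471807762209352546801894211010563145728,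 .ofNat 0, .ofNat 0, .ofNat 196721275653971868732691954018810819524838472866093469848784908530483200, .ofNat 370997132473896909412307703650470986231312184414248127912430803091456, .ofNat 0, .ofNat 0, .ofNat 349469427610013129092508634911253743759085513078112540393927151777218560, .ofNat 300430106410042118604392992081689180943898617916337457002831750889472, .ofNat 1661481294849178549026458012062270110261078258228396032, .ofNat 0⟩)
    (by decide +kernel)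
theorem L04307 : Good (Phi V5.P V5.D 1 1) ⟨10, 879, 8, 142, 5, 19, 6, 28, 7, 56⟩ :=
  out_sound (S := T5.ds_pp) T5.ok_pp (w := 40) (j := 1) (by decide +kernel)
theorem L04308 : Good (Phi V5.P V5.D 1 1) ⟨10, 879, 8, 142, 6, 38, 6, 29, 7, 56⟩ :=
  out_sound (S := T5.ds_pp) T5.ok_pp (w := 42) (j := 1) (by decide +kernel)
theorem L04309 : Good (Phi V5.P V5.D 1 1) ⟨10, 879, 8, 142, 6, 39, 6, 29, 7, 56⟩ :=
  out_sound (S := T5.ds_pp) T5.ok_pp (w := 52) (j := 2) (by decide +kernel)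
theorem L04310 : Good (Phi V5.P V5.D 1 1) ⟨10, 879, 8, 142, 5, 19, 5, 14, 7, 57⟩ :=
  out_sound (S := T5.ds_pp) T5.ok_pp (w := 39) (j := 1) (by decide +kernel)
theorem L04311 : Good (Phi V5.P V5.D 1 1) ⟨10, 879, 8, 142, 7, 76, 6, 30, 7, 56⟩ :=
  out_sound (S := T5.ds_pp) T5.ok_pp (w := 44) (j := 1) (by decide +kernel)
theorem L04312 : Good (Phi V5.P V5.D 1 1) ⟨10, 879, 8, 142, 8, 152, 8, 124, 9, 224⟩ :=
  out_sound (S := T5.ds_pp) T5.ok_pp (w := 52) (j := 1) (by decide +kernel)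
theorem L04313 : Good (Phi V5.P V5.D 1 1) ⟨10, 879, 8, 142, 8, 152, 9, 250, 10, 448⟩ :=
  out_sound (S := T5.ds_pp) T5.ok_pp (w := 55) (j := 1) (by decide +kernel)
theorem L04314 : Good (Phi V5.P V5.D 1 1) ⟨10, 879, 8, 142, 9, 304, 9, 251, 10, 448⟩ :=
  out_sound (S := T5.ds_pp) T5.ok_pp (w := 57) (j := 1) (by decide +kernel)
theorem L04315 : Good (Phi V5.P V5.D 1 1) ⟨10, 879, 8, 142, 9, 305, 9, 251, 10, 448⟩ :=
  out_sound (S := T5.ds_pp) T5.ok_pp (w := 70) (j := 2) (by decide +kernel)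
theorem L04316 : Good (Phi V5.P V5.D 1 1) ⟨10, 879, 8, 142, 8, 152, 8, 125, 10, 449⟩ :=
  out_sound (S := T5.ds_pp) T5.ok_pp (w := 54) (j := 1) (by decide +kernel)
theorem L04317 : Good (Phi V5.P V5.D 1 1) ⟨10, 879, 8, 142, 8, 152, 7, 62, 9, 225⟩ :=
  out_sound (S := T5.ds_pp) T5.ok_pp (w := 51) (j := 1) (by decide +kernel)
theorem L04318 : Good (Phi V5.P V5.D 1 1) ⟨10, 879, 8, 142, 10, 608, 9, 252, 10, 448⟩ :=
  out_sound (S := T5.ds_pp) T5.ok_pp (w := 59) (j := 1) (by decide +kernel)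
theorem L04319 : Good (Phi V5.P V5.D 1 1) ⟨10, 879, 8, 142, 11, 1216, 10, 506, 11, 896⟩ :=
  out_sound (S := T5.ds_pp) T5.ok_pp (w := 64) (j := 1) (by decide +kernel)
theorem L04320 : Good (Phi V5.P V5.D 1 1) ⟨10, 879, 8, 142, 11, 1216, 10, 507, 11, 896⟩ :=
  out_sound (S := T5.ds_pp) T5.ok_pp (w := 78) (j := 2) (by decide +kernel)
theorem L04321 : Good (Phi V5.P V5.D 1 1) ⟨10, 879, 8, 142, 11, 1217, 9, 253, 11, 896⟩ :=
  out_sound (S := T5.ds_pp) T5.ok_pp (w := 76) (j := 2) (by decide +kernel)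
theorem L04322 : Good (Phi V5.P V5.D 1 1) ⟨10, 879, 8, 142, 10, 608, 9, 253, 11, 897⟩ :=
  out_sound (S := T5.ds_pp) T5.ok_pp (w := 74) (j := 2) (by decide +kernel)
theorem L04323 : Good (Phi V5.P V5.D 1 1) ⟨10, 879, 8, 142, 10, 609, 8, 126, 10, 448⟩ :=
  out_sound (S := T5.ds_pp) T5.ok_pp (w := 70) (j := 2) (by decide +kernel)
theorem L04324 : Good (Phi V5.P V5.D 1 1) ⟨10, 879, 8, 142, 9, 304, 8, 126, 10, 449⟩ :=
  out_sound (S := T5.ds_pp) T5.ok_pp (w := 56) (j := 1) (by decide +kernel)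
theorem L04325 : Good (Phi V5.P V5.D 1 1) ⟨10, 879, 8, 142, 9, 304, 8, 127, 9, 224⟩ :=
  out_sound (S := T5.ds_pp) T5.ok_pp (w := 66) (j := 2) (by decide +kernel)
theorem L04326 : Good (Phi V5.P V5.D 1 1) ⟨10, 879, 8, 142, 9, 305, 7, 63, 9, 224⟩ :=
  out_sound (S := T5.ds_pp) T5.ok_pp (w := 64) (j := 2) (by decide +kernel)
theorem L04327 : Good (Phi V5.P V5.D 1 1) ⟨10, 879, 8, 142, 8, 152, 7, 63, 9, 225⟩ :=
  out_sound (S := T5.ds_pp) T5.ok_pp (w := 62) (j := 2) (by decide +kernel)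
theorem L04328 : Good (Phi V5.P V5.D 1 1) ⟨10, 879, 8, 142, 8, 153, 6, 31, 8, 112⟩ :=
  out_sound (S := T5.ds_pp) T5.ok_pp (w := 58) (j := 2) (by decide +kernel)
theorem L04329 : Good (Phi V5.P V5.D 1 1) ⟨10, 879, 8, 142, 7, 76, 6, 31, 8, 113⟩ :=
  out_sound (S := T5.ds_pp) T5.ok_pp (w := 56) (j := 2) (by decide +kernel)
theorem L04330 : Good (Phi V5.P V5.D 1 1) ⟨10, 879, 8, 142, 8, 154, 6, 30, 8, 112⟩ :=
  out_sound (S := T5.ds_pp) T5.ok_pp (w := 48) (j := 1) (by decide +kernel)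
theorem L04331 : Good (Phi V5.P V5.D 1 1) ⟨10, 879, 8, 142, 8, 155, 6, 30, 8, 112⟩ :=
  out_sound (S := T5.ds_pp) T5.ok_pp (w := 58) (j := 2) (by decide +kernel)
theorem L04332 : Good (Phi V5.P V5.D 1 1) ⟨10, 879, 8, 142, 7, 77, 6, 30, 8, 113⟩ :=
  out_sound (S := T5.ds_pp) T5.ok_pp (w := 46) (j := 1) (by decide +kernel)
theorem L04333 : Good (Phi V5.P V5.D 1 1) ⟨10, 879, 8, 142, 7, 77, 6, 31, 7, 56⟩ :=
  out_sound (S := T5.ds_pp) T5.ok_pp (w := 54) (j := 2) (by decide +kernel)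
theorem L04334 : Good (Phi V5.P V5.D 1 1) ⟨10, 879, 8, 142, 6, 38, 5, 15, 7, 57⟩ :=
  out_sound (S := T5.ds_pp) T5.ok_pp (w := 50) (j := 2) (by decide +kernel)
theorem L04335 : Good (Phi V5.P V5.D 1 1) ⟨10, 879, 8, 142, 6, 39, 5, 15, 6, 28⟩ :=
  out_sound (S := T5.ds_pp) T5.ok_pp (w := 48) (j := 2) (by decide +kernel)
theorem L04336 : Good (Phi V5.P V5.D 1 1) ⟨10, 879, 8, 142, 4, 9, 4, 7, 6, 29⟩ :=
  out_sound (S := T5.ds_pp) T5.ok_pp (w := 34) (j := 1) (by decide +kernel)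
theorem L04337 : Good (Phi V5.P V5.D 1 1) ⟨10, 879, 8, 142, 3, 4, 3, 3, 5, 15⟩ :=
  out_sound (S := T5.ds_pp) T5.ok_pp (w := 29) (j := 1) (by decide +kernel)
theorem L04338 : Good (Phi V5.P V5.D 1 1) ⟨10, 879, 8, 142, 4, 10, 3, 2, 5, 14⟩ :=
  out_sound (S := T5.ds_pp) T5.ok_pp (w := 31) (j := 1) (by decide +kernel)
theorem L04339 : Good (Phi V5.P V5.D 1 1) ⟨10, 879, 8, 142, 5, 20, 5, 12, 6, 28⟩ :=
  out_sound (S := T5.ds_pp) T5.ok_pp (w := 37) (j := 1) (by decide +kernel)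
theorem L04340 : Good (Phi V5.P V5.D 1 1) ⟨10, 879, 8, 142, 5, 20, 5, 13, 6, 28⟩ :=
  out_sound (S := T5.ds_pp) T5.ok_pp (w := 46) (j := 2) (by decide +kernel)
theorem L04341 : Good (Phi V5.P V5.D 1 1) ⟨10, 879, 8, 142, 5, 20, 4, 7, 6, 28⟩ :=
  out_sound (S := T5.ds_pp) T5.ok_pp (w := 44) (j := 2) (by decide +kernel)
theorem L04342 : Good (Phi V5.P V5.D 1 1) ⟨10, 879, 8, 142, 5, 20, 3, 3, 6, 29⟩ :=
  out_sound (S := T5.ds_pp) T5.ok_pp (w := 42) (j := 2) (by decide +kernel)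
theorem L04343 : Good (Phi V5.P V5.D 1 1) ⟨10, 879, 8, 142, 5, 21, 3, 3, 5, 14⟩ :=
  out_sound (S := T5.ds_pp) T5.ok_pp (w := 40) (j := 2) (by decide +kernel)
theorem L04344 : Good (Phi V5.P V5.D 1 1) ⟨10, 879, 8, 142, 4, 10, 2, 1, 5, 15⟩ :=
  out_sound (S := T5.ds_pp) T5.ok_pp (w := 36) (j := 2) (by decide +kernel)
theorem L04345 : Good (Phi V5.P V5.D 1 1) ⟨10, 879, 8, 142, 4, 11, 2, 1, 4, 7⟩ :=
  out_sound (S := T5.ds_pp) T5.ok_pp (w := 34) (j := 2) (by decide +kernel)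
theorem L04346 : Good (Phi V5.P V5.D 1 1) ⟨9, 439, 8, 143, 2, 2, 2, 1, 4, 7⟩ :=
  out_sound (S := T5.ds_pp) T5.ok_pp (w := 91) (j := 3) (by decide +kernel)
theorem L04347 : Good (Phi V5.P V5.D 1 1) ⟨7, 109, 5, 17, 2, 3, 1, 0, 4, 7⟩ :=
  out_sound (S := T5.ds_pp) T5.ok_pp (w := 28) (j := 2) (by decide +kernel)
theorem L04348 : Good (Phi V5.P V5.D 1 1) ⟨7, 110, 5, 17, 2, 2, 2, 0, 4, 7⟩ :=
  out_sound (S := T5.ds_pp) T5.ok_pp (w := 24) (j := 1) (by decide +kernel)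
theorem L04349 : Good (Phi V5.P V5.D 1 1) ⟨9, 440, 7, 68, 3, 4, 3, 2, 4, 7⟩ :=
  out_sound (S := T5.ds_pp) T5.ok_pp (w := 27) (j := 1) (by decide +kernel)
theorem L04350 : Good (Phi V5.P V5.D 1 1) ⟨9, 440, 7, 68, 4, 8, 3, 3, 5, 14⟩ :=
  out_sound (S := T5.ds_pp) T5.ok_pp (w := 31) (j := 1) (by decide +kernel)
theorem L04351 : Good (Phi V5.P V5.D 1 1) ⟨9, 440, 7, 68, 4, 9, 4, 6, 5, 14⟩ :=
  out_sound (S := T5.ds_pp) T5.ok_pp (w := 32) (j := 1) (by decide +kernel)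
theorem L04352 : Good (Phi V5.P V5.D 1 1) ⟨9, 440, 7, 68, 5, 18, 4, 7, 6, 28⟩ :=
  leafX_sound T5.ok_pp T5.Ypp.bz_eq (w := 312) (c := ⟨⟨.negSucc 2395, .negSucc 6, .ofNat 0, .negSucc 0, .negSucc 81, .ofNat 1⟩, ⟨.negSucc 1407, .negSucc 8, .negSucc 6, .negSucc 0, .negSucc 49, .ofNat 1⟩, ⟨.ofNat 1307, .ofNat 2, .negSucc 10, .ofNat 1, .ofNat 38, .negSucc 0⟩, ⟨.negSucc 3218, .negSucc 0, .ofNat 2, .negSucc 0, .negSucc 90, .ofNat 2⟩, ⟨.negSucc 479, .negSucc 0, .negSucc 0, .ofNat 0, .negSucc 48, .ofNat 0⟩, .ofNat 164, .negSucc 51, .ofNat 0, .negSucc 51, .ofNat 218, .ofNat 0, .ofNat 146, .ofNat 55, .negSucc 15, .ofNat 0, .ofNat 128, .negSucc 3, .ofNat 0, .ofNat 0, .ofNat 450, .ofNat 3998951, .ofNat 0, .ofNat 0, .ofNat 0, .ofNat 0, .ofNat 1028586478750416164010256704978294238875961548963520512898102089220096, .ofNat 3988887147695601672335954512381007595210395400210130885101192478720,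 .ofNat 1652584651468470848232157036207622795672407320398135296, .ofNat 0, .ofNat 656549305528762144032369868667122402295312960071246666950980839407616, .ofNat 0, .ofNat 0, .ofNat 0, .ofNat 1447354628161999740284698885872144659063968937241668654213255433027584, .ofNat 1248300740987254394947084446954774648805211955618547165335211999232, .ofNat 173927966641666636461633697387259691785041246207082496, .ofNat 0⟩)
    (by decide +kernel)
theorem L04353 : Good (Phi V5.P V5.D 1 1) ⟨9, 440, 7, 68, 5, 19, 6, 28, 7, 56⟩ :=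
  out_sound (S := T5.ds_pp) T5.ok_pp (w := 40) (j := 1) (by decide +kernel)
theorem L04354 : Good (Phi V5.P V5.D 1 1) ⟨9, 440, 7, 68, 6, 38, 6, 29, 7, 56⟩ :=
  out_sound (S := T5.ds_pp) T5.ok_pp (w := 42) (j := 1) (by decide +kernel)
theorem L04355 : Good (Phi V5.P V5.D 1 1) ⟨9, 440, 7, 68, 6, 39, 6, 29, 7, 56⟩ :=
  out_sound (S := T5.ds_pp) T5.ok_pp (w := 52) (j := 2) (by decide +kernel)
theorem L04356 : Good (Phi V5.P V5.D 1 1) ⟨9, 440, 7, 68, 5, 19, 5, 14, 7, 57⟩ :=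
  out_sound (S := T5.ds_pp) T5.ok_pp (w := 39) (j := 1) (by decide +kernel)
theorem L04357 : Good (Phi V5.P V5.D 1 1) ⟨9, 440, 7, 68, 7, 76, 6, 30, 7, 56⟩ :=
  out_sound (S := T5.ds_pp) T5.ok_pp (w := 44) (j := 1) (by decide +kernel)
theorem L04358 : Good (Phi V5.P V5.D 1 1) ⟨9, 440, 7, 68, 8, 152, 8, 124, 9, 224⟩ :=
  out_sound (S := T5.ds_pp) T5.ok_pp (w := 52) (j := 1) (by decide +kernel)
theorem L04359 : Good (Phi V5.P V5.D 1 1) ⟨9, 440, 7, 68, 8, 152, 9, 250, 10, 448⟩ :=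
  out_sound (S := T5.ds_pp) T5.ok_pp (w := 55) (j := 1) (by decide +kernel)
theorem L04360 : Good (Phi V5.P V5.D 1 1) ⟨9, 440, 7, 68, 9, 304, 9, 251, 10, 448⟩ :=
  out_sound (S := T5.ds_pp) T5.ok_pp (w := 57) (j := 1) (by decide +kernel)
theorem L04361 : Good (Phi V5.P V5.D 1 1) ⟨9, 440, 7, 68, 9, 305, 9, 251, 10, 448⟩ :=
  out_sound (S := T5.ds_pp) T5.ok_pp (w := 70) (j := 2) (by decide +kernel)
theorem L04362 : Good (Phi V5.P V5.D 1 1) ⟨9, 440, 7, 68, 8, 152, 8, 125, 10, 449⟩ :=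
  out_sound (S := T5.ds_pp) T5.ok_pp (w := 54) (j := 1) (by decide +kernel)
theorem L04363 : Good (Phi V5.P V5.D 1 1) ⟨9, 440, 7, 68, 8, 152, 7, 62, 9, 225⟩ :=
  out_sound (S := T5.ds_pp) T5.ok_pp (w := 51) (j := 1) (by decide +kernel)
theorem L04364 : Good (Phi V5.P V5.D 1 1) ⟨9, 440, 7, 68, 10, 608, 9, 252, 10, 448⟩ :=
  out_sound (S := T5.ds_pp) T5.ok_pp (w := 59) (j := 1) (by decide +kernel)
theorem L04365 : Good (Phi V5.P V5.D 1 1) ⟨9, 440, 7, 68, 11, 1216, 10, 506, 11, 896⟩ :=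
  out_sound (S := T5.ds_pp) T5.ok_pp (w := 64) (j := 1) (by decide +kernel)
theorem L04366 : Good (Phi V5.P V5.D 1 1) ⟨9, 440, 7, 68, 11, 1216, 10, 507, 11, 896⟩ :=
  out_sound (S := T5.ds_pp) T5.ok_pp (w := 78) (j := 2) (by decide +kernel)
theorem L04367 : Good (Phi V5.P V5.D 1 1) ⟨9, 440, 7, 68, 11, 1217, 9, 253, 11, 896⟩ :=
  out_sound (S := T5.ds_pp) T5.ok_pp (w := 76) (j := 2) (by decide +kernel)
theorem L04368 : Good (Phi V5.P V5.D 1 1) ⟨9, 440, 7, 68, 10, 608, 9, 253, 11, 897⟩ :=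
  out_sound (S := T5.ds_pp) T5.ok_pp (w := 74) (j := 2) (by decide +kernel)
theorem L04369 : Good (Phi V5.P V5.D 1 1) ⟨9, 440, 7, 68, 10, 609, 8, 126, 10, 448⟩ :=
  out_sound (S := T5.ds_pp) T5.ok_pp (w := 70) (j := 2) (by decide +kernel)
theorem L04370 : Good (Phi V5.P V5.D 1 1) ⟨9, 440, 7, 68, 9, 304, 8, 126, 10, 449⟩ :=
  out_sound (S := T5.ds_pp) T5.ok_pp (w := 56) (j := 1) (by decide +kernel)
theorem L04371 : Good (Phi V5.P V5.D 1 1) ⟨9, 440, 7, 68, 9, 304, 8, 127, 9, 224⟩ :=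
  out_sound (S := T5.ds_pp) T5.ok_pp (w := 66) (j := 2) (by decide +kernel)
theorem L04372 : Good (Phi V5.P V5.D 1 1) ⟨9, 440, 7, 68, 9, 305, 7, 63, 9, 224⟩ :=
  out_sound (S := T5.ds_pp) T5.ok_pp (w := 64) (j := 2) (by decide +kernel)
theorem L04373 : Good (Phi V5.P V5.D 1 1) ⟨9, 440, 7, 68, 8, 152, 7, 63, 9, 225⟩ :=
  out_sound (S := T5.ds_pp) T5.ok_pp (w := 62) (j := 2) (by decide +kernel)
theorem L04374 : Good (Phi V5.P V5.D 1 1) ⟨9, 440, 7, 68, 8, 153, 6, 31, 8, 112⟩ :=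
  out_sound (S := T5.ds_pp) T5.ok_pp (w := 58) (j := 2) (by decide +kernel)
theorem L04375 : Good (Phi V5.P V5.D 1 1) ⟨9, 440, 7, 68, 7, 76, 6, 31, 8, 113⟩ :=
  out_sound (S := T5.ds_pp) T5.ok_pp (w := 56) (j := 2) (by decide +kernel)
theorem L04376 : Good (Phi V5.P V5.D 1 1) ⟨9, 440, 7, 68, 8, 154, 6, 30, 8, 112⟩ :=
  out_sound (S := T5.ds_pp) T5.ok_pp (w := 48) (j := 1) (by decide +kernel)
theorem L04377 : Good (Phi V5.P V5.D 1 1) ⟨9, 440, 7, 68, 8, 155, 6, 30, 8, 112⟩ :=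
  out_sound (S := T5.ds_pp) T5.ok_pp (w := 58) (j := 2) (by decide +kernel)
theorem L04378 : Good (Phi V5.P V5.D 1 1) ⟨9, 440, 7, 68, 7, 77, 6, 30, 8, 113⟩ :=
  out_sound (S := T5.ds_pp) T5.ok_pp (w := 46) (j := 1) (by decide +kernel)
theorem L04379 : Good (Phi V5.P V5.D 1 1) ⟨9, 440, 7, 68, 7, 77, 6, 31, 7, 56⟩ :=
  out_sound (S := T5.ds_pp) T5.ok_pp (w := 54) (j := 2) (by decide +kernel)
theorem L04380 : Good (Phi V5.P V5.D 1 1) ⟨9, 440, 7, 68, 6, 38, 5, 15, 7, 57⟩ :=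
  out_sound (S := T5.ds_pp) T5.ok_pp (w := 50) (j := 2) (by decide +kernel)
theorem L04381 : Good (Phi V5.P V5.D 1 1) ⟨9, 440, 7, 68, 6, 39, 5, 15, 6, 28⟩ :=
  out_sound (S := T5.ds_pp) T5.ok_pp (w := 48) (j := 2) (by decide +kernel)
theorem L04382 : Good (Phi V5.P V5.D 1 1) ⟨9, 440, 7, 68, 4, 9, 4, 7, 6, 29⟩ :=
  out_sound (S := T5.ds_pp) T5.ok_pp (w := 34) (j := 1) (by decide +kernel)
theorem L04383 : Good (Phi V5.P V5.D 1 1) ⟨9, 440, 7, 68, 3, 4, 3, 3, 5, 15⟩ :=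
  out_sound (S := T5.ds_pp) T5.ok_pp (w := 29) (j := 1) (by decide +kernel)
theorem L04384 : Good (Phi V5.P V5.D 1 1) ⟨9, 440, 7, 68, 4, 10, 3, 2, 5, 14⟩ :=
  out_sound (S := T5.ds_pp) T5.ok_pp (w := 31) (j := 1) (by decide +kernel)
theorem L04385 : Good (Phi V5.P V5.D 1 1) ⟨9, 440, 7, 68, 5, 20, 5, 12, 6, 28⟩ :=
  out_sound (S := T5.ds_pp) T5.ok_pp (w := 37) (j := 1) (by decide +kernel)
theorem L04386 : Good (Phi V5.P V5.D 1 1) ⟨9, 440, 7, 68, 5, 20, 5, 13, 6, 28⟩ :=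
  out_sound (S := T5.ds_pp) T5.ok_pp (w := 46) (j := 2) (by decide +kernel)
theorem L04387 : Good (Phi V5.P V5.D 1 1) ⟨9, 440, 7, 68, 5, 20, 4, 7, 6, 28⟩ :=
  out_sound (S := T5.ds_pp) T5.ok_pp (w := 44) (j := 2) (by decide +kernel)
theorem L04388 : Good (Phi V5.P V5.D 1 1) ⟨9, 440, 7, 68, 5, 20, 3, 3, 6, 29⟩ :=
  out_sound (S := T5.ds_pp) T5.ok_pp (w := 42) (j := 2) (by decide +kernel)
theorem L04389 : Good (Phi V5.P V5.D 1 1) ⟨9, 440, 7, 68, 5, 21, 3, 3, 5, 14⟩ :=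
  out_sound (S := T5.ds_pp) T5.ok_pp (w := 40) (j := 2) (by decide +kernel)
theorem L04390 : Good (Phi V5.P V5.D 1 1) ⟨9, 440, 7, 68, 4, 10, 2, 1, 5, 15⟩ :=
  out_sound (S := T5.ds_pp) T5.ok_pp (w := 36) (j := 2) (by decide +kernel)
theorem L04391 : Good (Phi V5.P V5.D 1 1) ⟨9, 440, 7, 68, 4, 11, 2, 1, 4, 7⟩ :=
  out_sound (S := T5.ds_pp) T5.ok_pp (w := 34) (j := 2) (by decide +kernel)
theorem L04392 : Good (Phi V5.P V5.D 1 1) ⟨9, 441, 7, 68, 2, 2, 2, 1, 4, 7⟩ :=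
  out_sound (S := T5.ds_pp) T5.ok_pp (w := 89) (j := 3) (by decide +kernel)
theorem L04393 : Good (Phi V5.P V5.D 1 1) ⟨8, 220, 7, 69, 3, 4, 3, 2, 4, 7⟩ :=
  out_sound (S := T5.ds_pp) T5.ok_pp (w := 27) (j := 1) (by decide +kernel)
theorem L04394 : Good (Phi V5.P V5.D 1 1) ⟨8, 220, 7, 69, 4, 8, 3, 3, 5, 14⟩ :=
  out_sound (S := T5.ds_pp) T5.ok_pp (w := 31) (j := 1) (by decide +kernel)
theorem L04395 : Good (Phi V5.P V5.D 1 1) ⟨8, 220, 7, 69, 4, 9, 4, 6, 5, 14⟩ :=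
  out_sound (S := T5.ds_pp) T5.ok_pp (w := 32) (j := 1) (by decide +kernel)
theorem L04396 : Good (Phi V5.P V5.D 1 1) ⟨8, 220, 7, 69, 5, 18, 4, 7, 6, 28⟩ :=
  leafX_sound T5.ok_pp T5.Ypp.bz_eq (w := 309) (c := ⟨⟨.negSucc 2394, .negSucc 13, .negSucc 0, .negSucc 0, .negSucc 82, .ofNat 1⟩, ⟨.negSucc 1413, .negSucc 17, .negSucc 6, .negSucc 0, .negSucc 49, .ofNat 1⟩, ⟨.ofNat 1294, .ofNat 4, .negSucc 10, .ofNat 1, .ofNat 40, .negSucc 0⟩, ⟨.negSucc 3224, .negSucc 0, .ofNat 2, .negSucc 0, .negSucc 82, .ofNat 2⟩, ⟨.negSucc 484, .negSucc 0, .negSucc 0, .ofNat 0, .negSucc 45, .ofNat 0⟩, .ofNat 365, .negSucc 258, .ofNat 0, .negSucc 258, .ofNat 633, .ofNat 0, .ofNat 135, .ofNat 118, .negSucc 14, .ofNat 0, .ofNat 128, .negSucc 6, .ofNat 0, .ofNat 0, .ofNat 612, .ofNat 5523062, .ofNat 0, .ofNat 0, .ofNat 0, .ofNat 0, .ofNat 80683035674362198307168693010900548838799779258672569980607539445760,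 .ofNat 328863500190162349572450597360848118847450621987697392782759952384, .ofNat 30357083877735200980744154545291922049679564116911456256, .ofNat 0, .ofNat 93095312808870048827803800562657230695146942818868473969194349625344, .ofNat 189091440022255678655493636916462508831996850605910787130130432000, .ofNat 0, .ofNat 0, .ofNat 167676766381287482720737291479816522449421963675590776981358469185536, .ofNat 130546111045686553135090108052747826156248467257526157124648828928, .ofNat 0, .ofNat 0⟩)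
    (by decide +kernel)
theorem L04397 : Good (Phi V5.P V5.D 1 1) ⟨8, 220, 7, 69, 5, 19, 6, 28, 7, 56⟩ :=
  out_sound (S := T5.ds_pp) T5.ok_pp (w := 40) (j := 1) (by decide +kernel)
theorem L04398 : Good (Phi V5.P V5.D 1 1) ⟨8, 220, 7, 69, 6, 38, 6, 29, 7, 56⟩ :=
  out_sound (S := T5.ds_pp) T5.ok_pp (w := 42) (j := 1) (by decide +kernel)
theorem L04399 : Good (Phi V5.P V5.D 1 1) ⟨8, 220, 7, 69, 6, 39, 6, 29, 7, 56⟩ :=
  out_sound (S := T5.ds_pp) T5.ok_pp (w := 52) (j := 2) (by decide +kernel)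
theorem L04400 : Good (Phi V5.P V5.D 1 1) ⟨8, 220, 7, 69, 5, 19, 5, 14, 7, 57⟩ :=
  out_sound (S := T5.ds_pp) T5.ok_pp (w := 39) (j := 1) (by decide +kernel)
theorem L04401 : Good (Phi V5.P V5.D 1 1) ⟨8, 220, 7, 69, 7, 76, 6, 30, 7, 56⟩ :=
  out_sound (S := T5.ds_pp) T5.ok_pp (w := 44) (j := 1) (by decide +kernel)
theorem L04402 : Good (Phi V5.P V5.D 1 1) ⟨8, 220, 7, 69, 8, 152, 8, 124, 9, 224⟩ :=
  out_sound (S := T5.ds_pp) T5.ok_pp (w := 52) (j := 1) (by decide +kernel)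
theorem L04403 : Good (Phi V5.P V5.D 1 1) ⟨8, 220, 7, 69, 8, 152, 9, 250, 10, 448⟩ :=
  out_sound (S := T5.ds_pp) T5.ok_pp (w := 55) (j := 1) (by decide +kernel)
theorem L04404 : Good (Phi V5.P V5.D 1 1) ⟨8, 220, 7, 69, 9, 304, 9, 251, 10, 448⟩ :=
  out_sound (S := T5.ds_pp) T5.ok_pp (w := 57) (j := 1) (by decide +kernel)
theorem L04405 : Good (Phi V5.P V5.D 1 1) ⟨8, 220, 7, 69, 9, 305, 9, 251, 10, 448⟩ :=
  out_sound (S := T5.ds_pp) T5.ok_pp (w := 70) (j := 2) (by decide +kernel)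
theorem L04406 : Good (Phi V5.P V5.D 1 1) ⟨8, 220, 7, 69, 8, 152, 8, 125, 10, 449⟩ :=
  out_sound (S := T5.ds_pp) T5.ok_pp (w := 54) (j := 1) (by decide +kernel)
theorem L04407 : Good (Phi V5.P V5.D 1 1) ⟨8, 220, 7, 69, 8, 152, 7, 62, 9, 225⟩ :=
  out_sound (S := T5.ds_pp) T5.ok_pp (w := 51) (j := 1) (by decide +kernel)
theorem L04408 : Good (Phi V5.P V5.D 1 1) ⟨8, 220, 7, 69, 10, 608, 9, 252, 10, 448⟩ :=
  out_sound (S := T5.ds_pp) T5.ok_pp (w := 59) (j := 1) (by decide +kernel)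
theorem L04409 : Good (Phi V5.P V5.D 1 1) ⟨8, 220, 7, 69, 11, 1216, 10, 506, 11, 896⟩ :=
  out_sound (S := T5.ds_pp) T5.ok_pp (w := 64) (j := 1) (by decide +kernel)
theorem L04410 : Good (Phi V5.P V5.D 1 1) ⟨8, 220, 7, 69, 11, 1216, 10, 507, 11, 896⟩ :=
  out_sound (S := T5.ds_pp) T5.ok_pp (w := 78) (j := 2) (by decide +kernel)
theorem L04411 : Good (Phi V5.P V5.D 1 1) ⟨8, 220, 7, 69, 11, 1217, 9, 253, 11, 896⟩ :=
  out_sound (S := T5.ds_pp) T5.ok_pp (w := 76) (j := 2) (by decide +kernel)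
theorem L04412 : Good (Phi V5.P V5.D 1 1) ⟨8, 220, 7, 69, 10, 608, 9, 253, 11, 897⟩ :=
  out_sound (S := T5.ds_pp) T5.ok_pp (w := 74) (j := 2) (by decide +kernel)
theorem L04413 : Good (Phi V5.P V5.D 1 1) ⟨8, 220, 7, 69, 10, 609, 8, 126, 10, 448⟩ :=
  out_sound (S := T5.ds_pp) T5.ok_pp (w := 70) (j := 2) (by decide +kernel)
theorem L04414 : Good (Phi V5.P V5.D 1 1) ⟨8, 220, 7, 69, 9, 304, 8, 126, 10, 449⟩ :=
  out_sound (S := T5.ds_pp) T5.ok_pp (w := 56) (j := 1) (by decide +kernel)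
theorem L04415 : Good (Phi V5.P V5.D 1 1) ⟨8, 220, 7, 69, 9, 304, 8, 127, 9, 224⟩ :=
  out_sound (S := T5.ds_pp) T5.ok_pp (w := 66) (j := 2) (by decide +kernel)
theorem L04416 : Good (Phi V5.P V5.D 1 1) ⟨8, 220, 7, 69, 9, 305, 7, 63, 9, 224⟩ :=
  out_sound (S := T5.ds_pp) T5.ok_pp (w := 64) (j := 2) (by decide +kernel)
theorem L04417 : Good (Phi V5.P V5.D 1 1) ⟨8, 220, 7, 69, 8, 152, 7, 63, 9, 225⟩ :=
  out_sound (S := T5.ds_pp) T5.ok_pp (w := 62) (j := 2) (by decide +kernel)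
theorem L04418 : Good (Phi V5.P V5.D 1 1) ⟨8, 220, 7, 69, 8, 153, 6, 31, 8, 112⟩ :=
  out_sound (S := T5.ds_pp) T5.ok_pp (w := 58) (j := 2) (by decide +kernel)
theorem L04419 : Good (Phi V5.P V5.D 1 1) ⟨8, 220, 7, 69, 7, 76, 6, 31, 8, 113⟩ :=
  out_sound (S := T5.ds_pp) T5.ok_pp (w := 56) (j := 2) (by decide +kernel)
theorem L04420 : Good (Phi V5.P V5.D 1 1) ⟨8, 220, 7, 69, 8, 154, 6, 30, 8, 112⟩ :=
  out_sound (S := T5.ds_pp) T5.ok_pp (w := 48) (j := 1) (by decide +kernel)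
theorem L04421 : Good (Phi V5.P V5.D 1 1) ⟨8, 220, 7, 69, 8, 155, 6, 30, 8, 112⟩ :=
  out_sound (S := T5.ds_pp) T5.ok_pp (w := 58) (j := 2) (by decide +kernel)
theorem L04422 : Good (Phi V5.P V5.D 1 1) ⟨8, 220, 7, 69, 7, 77, 6, 30, 8, 113⟩ :=
  out_sound (S := T5.ds_pp) T5.ok_pp (w := 46) (j := 1) (by decide +kernel)
theorem L04423 : Good (Phi V5.P V5.D 1 1) ⟨8, 220, 7, 69, 7, 77, 6, 31, 7, 56⟩ :=
  out_sound (S := T5.ds_pp) T5.ok_pp (w := 54) (j := 2) (by decide +kernel)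
theorem L04424 : Good (Phi V5.P V5.D 1 1) ⟨8, 220, 7, 69, 6, 38, 5, 15, 7, 57⟩ :=
  out_sound (S := T5.ds_pp) T5.ok_pp (w := 50) (j := 2) (by decide +kernel)
theorem L04425 : Good (Phi V5.P V5.D 1 1) ⟨8, 220, 7, 69, 6, 39, 5, 15, 6, 28⟩ :=
  out_sound (S := T5.ds_pp) T5.ok_pp (w := 48) (j := 2) (by decide +kernel)
theorem L04426 : Good (Phi V5.P V5.D 1 1) ⟨8, 220, 7, 69, 4, 9, 4, 7, 6, 29⟩ :=
  out_sound (S := T5.ds_pp) T5.ok_pp (w := 34) (j := 1) (by decide +kernel)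
theorem L04427 : Good (Phi V5.P V5.D 1 1) ⟨8, 220, 7, 69, 3, 4, 3, 3, 5, 15⟩ :=
  out_sound (S := T5.ds_pp) T5.ok_pp (w := 29) (j := 1) (by decide +kernel)
theorem L04428 : Good (Phi V5.P V5.D 1 1) ⟨8, 220, 7, 69, 4, 10, 3, 2, 5, 14⟩ :=
  out_sound (S := T5.ds_pp) T5.ok_pp (w := 31) (j := 1) (by decide +kernel)
theorem L04429 : Good (Phi V5.P V5.D 1 1) ⟨8, 220, 7, 69, 5, 20, 5, 12, 6, 28⟩ :=
  out_sound (S := T5.ds_pp) T5.ok_pp (w := 37) (j := 1) (by decide +kernel)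
theorem L04430 : Good (Phi V5.P V5.D 1 1) ⟨8, 220, 7, 69, 5, 20, 5, 13, 6, 28⟩ :=
  out_sound (S := T5.ds_pp) T5.ok_pp (w := 46) (j := 2) (by decide +kernel)
theorem L04431 : Good (Phi V5.P V5.D 1 1) ⟨8, 220, 7, 69, 5, 20, 4, 7, 6, 28⟩ :=
  out_sound (S := T5.ds_pp) T5.ok_pp (w := 44) (j := 2) (by decide +kernel)
theorem L04432 : Good (Phi V5.P V5.D 1 1) ⟨8, 220, 7, 69, 5, 20, 3, 3, 6, 29⟩ :=
  out_sound (S := T5.ds_pp) T5.ok_pp (w := 42) (j := 2) (by decide +kernel)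
theorem L04433 : Good (Phi V5.P V5.D 1 1) ⟨8, 220, 7, 69, 5, 21, 3, 3, 5, 14⟩ :=
  out_sound (S := T5.ds_pp) T5.ok_pp (w := 40) (j := 2) (by decide +kernel)
theorem L04434 : Good (Phi V5.P V5.D 1 1) ⟨8, 220, 7, 69, 4, 10, 2, 1, 5, 15⟩ :=
  out_sound (S := T5.ds_pp) T5.ok_pp (w := 36) (j := 2) (by decide +kernel)
theorem L04435 : Good (Phi V5.P V5.D 1 1) ⟨8, 220, 7, 69, 4, 11, 2, 1, 4, 7⟩ :=
  out_sound (S := T5.ds_pp) T5.ok_pp (w := 34) (j := 2) (by decide +kernel)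
theorem L04436 : Good (Phi V5.P V5.D 1 1) ⟨8, 221, 6, 34, 2, 2, 2, 1, 4, 7⟩ :=
  out_sound (S := T5.ds_pp) T5.ok_pp (w := 81) (j := 3) (by decide +kernel)
theorem L04437 : Good (Phi V5.P V5.D 1 1) ⟨7, 110, 6, 35, 3, 4, 3, 2, 4, 7⟩ :=
  out_sound (S := T5.ds_pp) T5.ok_pp (w := 27) (j := 1) (by decide +kernel)
theorem L04438 : Good (Phi V5.P V5.D 1 1) ⟨7, 110, 6, 35, 4, 8, 3, 3, 5, 14⟩ :=
  out_sound (S := T5.ds_pp) T5.ok_pp (w := 31) (j := 1) (by decide +kernel)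
theorem L04439 : Good (Phi V5.P V5.D 1 1) ⟨7, 110, 6, 35, 4, 9, 4, 6, 5, 14⟩ :=
  out_sound (S := T5.ds_pp) T5.ok_pp (w := 32) (j := 1) (by decide +kernel)
theorem L04440 : Good (Phi V5.P V5.D 1 1) ⟨7, 110, 6, 35, 5, 18, 4, 7, 6, 28⟩ :=
  leafX_sound T5.ok_pp T5.Ypp.bz_eq (w := 301) (c := ⟨⟨.negSucc 2397, .negSucc 26, .negSucc 0, .negSucc 0, .negSucc 80, .ofNat 1⟩, ⟨.negSucc 1421, .negSucc 36, .negSucc 13, .negSucc 0, .negSucc 48, .ofNat 1⟩, ⟨.ofNat 1290, .ofNat 8, .negSucc 21, .ofNat 1, .ofNat 33, .negSucc 0⟩, ⟨.negSucc 3216, .negSucc 1, .ofNat 4, .negSucc 0, .negSucc 87, .ofNat 2⟩, ⟨.negSucc 483, .negSucc 1, .negSucc 2, .ofNat 0, .negSucc 47, .ofNat 0⟩, .ofNat 165, .negSucc 52, .ofNat 0, .negSucc 52, .ofNat 219, .ofNat 0, .ofNat 145, .ofNat 57, .negSucc 16, .ofNat 0, .ofNat 128, .negSucc 3, .ofNat 0, .ofNat 0, .ofNat 451, .ofNat 3911463, .ofNat 0, .ofNat 0, .ofNat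 0, .ofNat 0, .ofNat 485764137392388221663256110816784770718403290687895263736298995712, .ofNat 1832134679568964063208038473925157282066481704660271533211516928, .ofNat 0, .ofNat 0, .ofNat 326401527413445682721117396323330804018796314173767101735803813888, .ofNat 0, .ofNat 0, .ofNat 0, .ofNat 721591524978948260322185563835893454305547595815760614496313278464, .ofNat 602264161361391914852092669025607676968153111061243086336163840, .ofNat 921292255966689832860749413623166941283093805763919872, .ofNat 0⟩)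
    (by decide +kernel)
theorem L04441 : Good (Phi V5.P V5.D 1 1) ⟨7, 110, 6, 35, 5, 19, 6, 28, 7, 56⟩ :=
  out_sound (S := T5.ds_pp) T5.ok_pp (w := 40) (j := 1) (by decide +kernel)
theorem L04442 : Good (Phi V5.P V5.D 1 1) ⟨7, 110, 6, 35, 6, 38, 6, 29, 7, 56⟩ :=
  out_sound (S := T5.ds_pp) T5.ok_pp (w := 42) (j := 1) (by decide +kernel)
theorem L04443 : Good (Phi V5.P V5.D 1 1) ⟨7, 110, 6, 35, 6, 39, 6, 29, 7, 56⟩ :=
  out_sound (S := T5.ds_pp) T5.ok_pp (w := 52) (j := 2) (by decide +kernel)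
theorem L04444 : Good (Phi V5.P V5.D 1 1) ⟨7, 110, 6, 35, 5, 19, 5, 14, 7, 57⟩ :=
  out_sound (S := T5.ds_pp) T5.ok_pp (w := 39) (j := 1) (by decide +kernel)
theorem L04445 : Good (Phi V5.P V5.D 1 1) ⟨7, 110, 6, 35, 7, 76, 6, 30, 7, 56⟩ :=
  out_sound (S := T5.ds_pp) T5.ok_pp (w := 44) (j := 1) (by decide +kernel)
theorem L04446 : Good (Phi V5.P V5.D 1 1) ⟨7, 110, 6, 35, 8, 152, 8, 124, 9, 224⟩ :=
  out_sound (S := T5.ds_pp) T5.ok_pp (w := 52) (j := 1) (by decide +kernel)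
theorem L04447 : Good (Phi V5.P V5.D 1 1) ⟨7, 110, 6, 35, 8, 152, 9, 250, 10, 448⟩ :=
  out_sound (S := T5.ds_pp) T5.ok_pp (w := 55) (j := 1) (by decide +kernel)
theorem L04448 : Good (Phi V5.P V5.D 1 1) ⟨7, 110, 6, 35, 9, 304, 9, 251, 10, 448⟩ :=
  out_sound (S := T5.ds_pp) T5.ok_pp (w := 57) (j := 1) (by decide +kernel)
theorem L04449 : Good (Phi V5.P V5.D 1 1) ⟨7, 110, 6, 35, 9, 305, 9, 251, 10, 448⟩ :=
  out_sound (S := T5.ds_pp) T5.ok_pp (w := 70) (j := 2) (by decide +kernel)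
theorem L04450 : Good (Phi V5.P V5.D 1 1) ⟨7, 110, 6, 35, 8, 152, 8, 125, 10, 449⟩ :=
  out_sound (S := T5.ds_pp) T5.ok_pp (w := 54) (j := 1) (by decide +kernel)
theorem L04451 : Good (Phi V5.P V5.D 1 1) ⟨7, 110, 6, 35, 8, 152, 7, 62, 9, 225⟩ :=
  out_sound (S := T5.ds_pp) T5.ok_pp (w := 51) (j := 1) (by decide +kernel)
theorem L04452 : Good (Phi V5.P V5.D 1 1) ⟨7, 110, 6, 35, 10, 608, 9, 252, 10, 448⟩ :=
  out_sound (S := T5.ds_pp) T5.ok_pp (w := 59) (j := 1) (by decide +kernel)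
theorem L04453 : Good (Phi V5.P V5.D 1 1) ⟨7, 110, 6, 35, 11, 1216, 10, 506, 11, 896⟩ :=
  out_sound (S := T5.ds_pp) T5.ok_pp (w := 64) (j := 1) (by decide +kernel)
theorem L04454 : Good (Phi V5.P V5.D 1 1) ⟨7, 110, 6, 35, 11, 1216, 10, 507, 11, 896⟩ :=
  out_sound (S := T5.ds_pp) T5.ok_pp (w := 78) (j := 2) (by decide +kernel)
theorem L04455 : Good (Phi V5.P V5.D 1 1) ⟨7, 110, 6, 35, 11, 1217, 9, 253, 11, 896⟩ :=
  out_sound (S := T5.ds_pp) T5.ok_pp (w := 76) (j := 2) (by decide +kernel)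
theorem L04456 : Good (Phi V5.P V5.D 1 1) ⟨7, 110, 6, 35, 10, 608, 9, 253, 11, 897⟩ :=
  out_sound (S := T5.ds_pp) T5.ok_pp (w := 74) (j := 2) (by decide +kernel)
theorem L04457 : Good (Phi V5.P V5.D 1 1) ⟨7, 110, 6, 35, 10, 609, 8, 126, 10, 448⟩ :=
  out_sound (S := T5.ds_pp) T5.ok_pp (w := 70) (j := 2) (by decide +kernel)
theorem L04458 : Good (Phi V5.P V5.D 1 1) ⟨7, 110, 6, 35, 9, 304, 8, 126, 10, 449⟩ :=
  out_sound (S := T5.ds_pp) T5.ok_pp (w := 56) (j := 1) (by decide +kernel)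
theorem L04459 : Good (Phi V5.P V5.D 1 1) ⟨7, 110, 6, 35, 9, 304, 8, 127, 9, 224⟩ :=
  out_sound (S := T5.ds_pp) T5.ok_pp (w := 66) (j := 2) (by decide +kernel)
theorem L04460 : Good (Phi V5.P V5.D 1 1) ⟨7, 110, 6, 35, 9, 305, 7, 63, 9, 224⟩ :=
  out_sound (S := T5.ds_pp) T5.ok_pp (w := 64) (j := 2) (by decide +kernel)
theorem L04461 : Good (Phi V5.P V5.D 1 1) ⟨7, 110, 6, 35, 8, 152, 7, 63, 9, 225⟩ :=
  out_sound (S := T5.ds_pp) T5.ok_pp (w := 62) (j := 2) (by decide +kernel)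
theorem L04462 : Good (Phi V5.P V5.D 1 1) ⟨7, 110, 6, 35, 8, 153, 6, 31, 8, 112⟩ :=
  out_sound (S := T5.ds_pp) T5.ok_pp (w := 58) (j := 2) (by decide +kernel)
theorem L04463 : Good (Phi V5.P V5.D 1 1) ⟨7, 110, 6, 35, 7, 76, 6, 31, 8, 113⟩ :=
  out_sound (S := T5.ds_pp) T5.ok_pp (w := 56) (j := 2) (by decide +kernel)
theorem L04464 : Good (Phi V5.P V5.D 1 1) ⟨7, 110, 6, 35, 8, 154, 6, 30, 8, 112⟩ :=
  out_sound (S := T5.ds_pp) T5.ok_pp (w := 48) (j := 1) (by decide +kernel)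
theorem L04465 : Good (Phi V5.P V5.D 1 1) ⟨7, 110, 6, 35, 8, 155, 6, 30, 8, 112⟩ :=
  out_sound (S := T5.ds_pp) T5.ok_pp (w := 58) (j := 2) (by decide +kernel)
theorem L04466 : Good (Phi V5.P V5.D 1 1) ⟨7, 110, 6, 35, 7, 77, 6, 30, 8, 113⟩ :=
  out_sound (S := T5.ds_pp) T5.ok_pp (w := 46) (j := 1) (by decide +kernel)
theorem L04467 : Good (Phi V5.P V5.D 1 1) ⟨7, 110, 6, 35, 7, 77, 6, 31, 7, 56⟩ :=
  out_sound (S := T5.ds_pp) T5.ok_pp (w := 54) (j := 2) (by decide +kernel)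
theorem L04468 : Good (Phi V5.P V5.D 1 1) ⟨7, 110, 6, 35, 6, 38, 5, 15, 7, 57⟩ :=
  out_sound (S := T5.ds_pp) T5.ok_pp (w := 50) (j := 2) (by decide +kernel)
theorem L04469 : Good (Phi V5.P V5.D 1 1) ⟨7, 110, 6, 35, 6, 39, 5, 15, 6, 28⟩ :=
  out_sound (S := T5.ds_pp) T5.ok_pp (w := 48) (j := 2) (by decide +kernel)
theorem L04470 : Good (Phi V5.P V5.D 1 1) ⟨7, 110, 6, 35, 4, 9, 4, 7, 6, 29⟩ :=
  out_sound (S := T5.ds_pp) T5.ok_pp (w := 34) (j := 1) (by decide +kernel)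
theorem L04471 : Good (Phi V5.P V5.D 1 1) ⟨7, 110, 6, 35, 3, 4, 3, 3, 5, 15⟩ :=
  out_sound (S := T5.ds_pp) T5.ok_pp (w := 29) (j := 1) (by decide +kernel)
theorem L04472 : Good (Phi V5.P V5.D 1 1) ⟨7, 110, 6, 35, 4, 10, 3, 2, 5, 14⟩ :=
  out_sound (S := T5.ds_pp) T5.ok_pp (w := 31) (j := 1) (by decide +kernel)
theorem L04473 : Good (Phi V5.P V5.D 1 1) ⟨7, 110, 6, 35, 5, 20, 5, 12, 6, 28⟩ :=
  out_sound (S := T5.ds_pp) T5.ok_pp (w := 37) (j := 1) (by decide +kernel)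
theorem L04474 : Good (Phi V5.P V5.D 1 1) ⟨7, 110, 6, 35, 5, 20, 5, 13, 6, 28⟩ :=
  out_sound (S := T5.ds_pp) T5.ok_pp (w := 46) (j := 2) (by decide +kernel)
theorem L04475 : Good (Phi V5.P V5.D 1 1) ⟨7, 110, 6, 35, 5, 20, 4, 7, 6, 28⟩ :=
  out_sound (S := T5.ds_pp) T5.ok_pp (w := 44) (j := 2) (by decide +kernel)
theorem L04476 : Good (Phi V5.P V5.D 1 1) ⟨7, 110, 6, 35, 5, 20, 3, 3, 6, 29⟩ :=
  out_sound (S := T5.ds_pp) T5.ok_pp (w := 42) (j := 2) (by decide +kernel)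
theorem L04477 : Good (Phi V5.P V5.D 1 1) ⟨7, 110, 6, 35, 5, 21, 3, 3, 5, 14⟩ :=
  out_sound (S := T5.ds_pp) T5.ok_pp (w := 40) (j := 2) (by decide +kernel)
theorem L04478 : Good (Phi V5.P V5.D 1 1) ⟨7, 110, 6, 35, 4, 10, 2, 1, 5, 15⟩ :=
  out_sound (S := T5.ds_pp) T5.ok_pp (w := 36) (j := 2) (by decide +kernel)
theorem L04479 : Good (Phi V5.P V5.D 1 1) ⟨7, 110, 6, 35, 4, 11, 2, 1, 4, 7⟩ :=
  out_sound (S := T5.ds_pp) T5.ok_pp (w := 34) (j := 2) (by decide +kernel)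
theorem L04480 : Good (Phi V5.P V5.D 1 1) ⟨7, 110, 5, 17, 2, 3, 1, 0, 4, 7⟩ :=
  out_sound (S := T5.ds_pp) T5.ok_pp (w := 28) (j := 2) (by decide +kernel)
theorem L04481 : Good (Phi V5.P V5.D 1 1) ⟨7, 111, 5, 17, 1, 1, 1, 0, 4, 7⟩ :=
  out_sound (S := T5.ds_pp) T5.ok_pp (w := 73) (j := 3) (by decide +kernel)
theorem L04482 : Good (Phi V5.P V5.D 1 1) ⟨5, 26, 4, 9, 1, 1, 1, 0, 4, 7⟩ :=
  out_sound (S := T5.ds_pp) T5.ok_pp (w := 59) (j := 3) (by decide +kernel)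
theorem L04483 : Good (Phi V5.P V5.D 1 1) ⟨6, 54, 4, 9, 1, 1, 1, 0, 4, 7⟩ :=
  out_sound (S := T5.ds_pp) T5.ok_pp (w := 65) (j := 3) (by decide +kernel)
theorem L04484 : Good (Phi V5.P V5.D 1 1) ⟨7, 110, 7, 72, 2, 2, 2, 0, 4, 7⟩ :=
  out_sound (S := T5.ds_pp) T5.ok_pp (w := 24) (j := 1) (by decide +kernel)
theorem L04485 : Good (Phi V5.P V5.D 1 1) ⟨10, 880, 8, 144, 2, 2, 2, 1, 4, 7⟩ :=
  out_sound (S := T5.ds_pp) T5.ok_pp (w := 97) (j := 3) (by decide +kernel)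
theorem L04486 : Good (Phi V5.P V5.D 1 1) ⟨11, 1762, 9, 288, 2, 2, 2, 1, 4, 7⟩ :=
  out_sound (S := T5.ds_pp) T5.ok_pp (w := 105) (j := 3) (by decide +kernel)
theorem L04487 : Good (Phi V5.P V5.D 1 1) ⟨11, 1763, 9, 288, 3, 4, 3, 2, 4, 7⟩ :=
  out_sound (S := T5.ds_pp) T5.ok_pp (w := 27) (j := 1) (by decide +kernel)
theorem L04488 : Good (Phi V5.P V5.D 1 1) ⟨11, 1763, 9, 288, 4, 8, 3, 3, 5, 14⟩ :=
  out_sound (S := T5.ds_pp) T5.ok_pp (w := 31) (j := 1) (by decide +kernel)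
theorem L04489 : Good (Phi V5.P V5.D 1 1) ⟨11, 1763, 9, 288, 4, 9, 4, 6, 5, 14⟩ :=
  out_sound (S := T5.ds_pp) T5.ok_pp (w := 32) (j := 1) (by decide +kernel)
theorem L04490 : Good (Phi V5.P V5.D 1 1) ⟨11, 1763, 9, 288, 5, 18, 4, 7, 6, 28⟩ :=
  leafX_sound T5.ok_pp T5.Ypp.bz_eq (w := 326) (c := ⟨⟨.negSucc 2400, .negSucc 0, .ofNat 0, .negSucc 0, .negSucc 83, .ofNat 1⟩, ⟨.negSucc 1440, .negSucc 1, .negSucc 1, .negSucc 0, .negSucc 50, .ofNat 1⟩, ⟨.ofNat 1265, .ofNat 0, .negSucc 1, .ofNat 1, .ofNat 38, .negSucc 0⟩, ⟨.negSucc 3209, .ofNat 0, .ofNat 0, .negSucc 0, .negSucc 91, .ofNat 2⟩, ⟨.negSucc 485, .ofNat 0, .ofNat 0, .ofNat 0, .negSucc 48, .ofNat 0⟩, .ofNat 165, .negSucc 52, .ofNat 0, .negSucc 52, .ofNat 220, .ofNat 0, .ofNat 146, .ofNat 57, .negSucc 16, .ofNat 0, .ofNat 128, .negSucc 3, .ofNat 0, .ofNat 0, .ofNat 453, .ofNat 3918435, .ofNat 0, .ofNat 0, .ofNat 0,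 .ofNat 0, .ofNat 16359628517028312217431750046988008810180112849377977558614101635272540160, .ofNat 61253724923424587432602770158829633660224800424038385241790005278408704, .ofNat 2335601879504232539182657366516915990941281998220558336, .ofNat 0, .ofNat 10643547170137277749099701055237698682559576099671238415963034617947095040, .ofNat 0, .ofNat 0, .ofNat 0, .ofNat 24243319779297251790824506183828728658039429375335213424706389421812875264, .ofNat 21827752254470435580206215239979142899758643647253301808680438679470080, .ofNat 1786101068449826069724703315131568116034010272325697536, .ofNat 0⟩)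
    (by decide +kernel)
theorem L04491 : Good (Phi V5.P V5.D 1 1) ⟨11, 1763, 10, 576, 5, 19, 6, 28, 7, 56⟩ :=
  out_sound (S := T5.ds_pp) T5.ok_pp (w := 40) (j := 1) (by decide +kernel)
theorem L04492 : Good (Phi V5.P V5.D 1 1) ⟨11, 1763, 10, 576, 6, 38, 6, 29, 7, 56⟩ :=
  out_sound (S := T5.ds_pp) T5.ok_pp (w := 42) (j := 1) (by decide +kernel)
theorem L04493 : Good (Phi V5.P V5.D 1 1) ⟨11, 1763, 10, 576, 6, 39, 6, 29, 7, 56⟩ :=
  out_sound (S := T5.ds_pp) T5.ok_pp (w := 52) (j := 2) (by decide +kernel)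
theorem L04494 : Good (Phi V5.P V5.D 1 1) ⟨11, 1763, 10, 576, 5, 19, 5, 14, 7, 57⟩ :=
  out_sound (S := T5.ds_pp) T5.ok_pp (w := 39) (j := 1) (by decide +kernel)
theorem L04495 : Good (Phi V5.P V5.D 1 1) ⟨11, 1763, 10, 576, 7, 76, 6, 30, 7, 56⟩ :=
  out_sound (S := T5.ds_pp) T5.ok_pp (w := 44) (j := 1) (by decide +kernel)
theorem L04496 : Good (Phi V5.P V5.D 1 1) ⟨11, 1763, 10, 576, 8, 152, 8, 124, 9, 224⟩ :=
  out_sound (S := T5.ds_pp) T5.ok_pp (w := 52) (j := 1) (by decide +kernel)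
theorem L04497 : Good (Phi V5.P V5.D 1 1) ⟨11, 1763, 10, 576, 8, 152, 9, 250, 10, 448⟩ :=
  out_sound (S := T5.ds_pp) T5.ok_pp (w := 55) (j := 1) (by decide +kernel)
theorem L04498 : Good (Phi V5.P V5.D 1 1) ⟨11, 1763, 10, 576, 9, 304, 9, 251, 10, 448⟩ :=
  out_sound (S := T5.ds_pp) T5.ok_pp (w := 57) (j := 1) (by decide +kernel)
theorem L04499 : Good (Phi V5.P V5.D 1 1) ⟨11, 1763, 10, 576, 9, 305, 9, 251, 10, 448⟩ :=
  out_sound (S := T5.ds_pp) T5.ok_pp (w := 70) (j := 2) (by decide +kernel)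
theorem L04500 : Good (Phi V5.P V5.D 1 1) ⟨11, 1763, 10, 576, 8, 152, 8, 125, 10, 449⟩ :=
  out_sound (S := T5.ds_pp) T5.ok_pp (w := 54) (j := 1) (by decide +kernel)
theorem L04501 : Good (Phi V5.P V5.D 1 1) ⟨11, 1763, 10, 576, 8, 152, 7, 62, 9, 225⟩ :=
  out_sound (S := T5.ds_pp) T5.ok_pp (w := 51) (j := 1) (by decide +kernel)
theorem L04502 : Good (Phi V5.P V5.D 1 1) ⟨11, 1763, 10, 576, 10, 608, 9, 252, 10, 448⟩ :=
  out_sound (S := T5.ds_pp) T5.ok_pp (w := 59) (j := 1) (by decide +kernel)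
theorem L04503 : Good (Phi V5.P V5.D 1 1) ⟨11, 1763, 10, 576, 11, 1216, 10, 506, 11, 896⟩ :=
  out_sound (S := T5.ds_pp) T5.ok_pp (w := 64) (j := 1) (by decide +kernel)
theorem L04504 : Good (Phi V5.P V5.D 1 1) ⟨11, 1763, 10, 576, 11, 1216, 10, 507, 11, 896⟩ :=
  out_sound (S := T5.ds_pp) T5.ok_pp (w := 78) (j := 2) (by decide +kernel)
theorem L04505 : Good (Phi V5.P V5.D 1 1) ⟨11, 1763, 10, 576, 11, 1217, 9, 253, 11, 896⟩ :=
  out_sound (S := T5.ds_pp) T5.ok_pp (w := 76) (j := 2) (by decide +kernel)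
theorem L04506 : Good (Phi V5.P V5.D 1 1) ⟨11, 1763, 10, 576, 10, 608, 9, 253, 11, 897⟩ :=
  out_sound (S := T5.ds_pp) T5.ok_pp (w := 74) (j := 2) (by decide +kernel)
theorem L04507 : Good (Phi V5.P V5.D 1 1) ⟨11, 1763, 10, 576, 10, 609, 8, 126, 10, 448⟩ :=
  out_sound (S := T5.ds_pp) T5.ok_pp (w := 70) (j := 2) (by decide +kernel)
theorem L04508 : Good (Phi V5.P V5.D 1 1) ⟨11, 1763, 10, 576, 9, 304, 8, 126, 10, 449⟩ :=
  out_sound (S := T5.ds_pp) T5.ok_pp (w := 56) (j := 1) (by decide +kernel)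
theorem L04509 : Good (Phi V5.P V5.D 1 1) ⟨11, 1763, 10, 576, 9, 304, 8, 127, 9, 224⟩ :=
  out_sound (S := T5.ds_pp) T5.ok_pp (w := 66) (j := 2) (by decide +kernel)
theorem L04510 : Good (Phi V5.P V5.D 1 1) ⟨11, 1763, 10, 576, 9, 305, 7, 63, 9, 224⟩ :=
  out_sound (S := T5.ds_pp) T5.ok_pp (w := 64) (j := 2) (by decide +kernel)
theorem L04511 : Good (Phi V5.P V5.D 1 1) ⟨11, 1763, 10, 576, 8, 152, 7, 63, 9, 225⟩ :=
  out_sound (S := T5.ds_pp) T5.ok_pp (w := 62) (j := 2) (by decide +kernel)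
theorem L04512 : Good (Phi V5.P V5.D 1 1) ⟨11, 1763, 10, 576, 8, 153, 6, 31, 8, 112⟩ :=
  out_sound (S := T5.ds_pp) T5.ok_pp (w := 58) (j := 2) (by decide +kernel)
theorem L04513 : Good (Phi V5.P V5.D 1 1) ⟨11, 1763, 10, 576, 7, 76, 6, 31, 8, 113⟩ :=
  out_sound (S := T5.ds_pp) T5.ok_pp (w := 56) (j := 2) (by decide +kernel)
theorem L04514 : Good (Phi V5.P V5.D 1 1) ⟨11, 1763, 10, 576, 8, 154, 6, 30, 8, 112⟩ :=
  out_sound (S := T5.ds_pp) T5.ok_pp (w := 48) (j := 1) (by decide +kernel)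
theorem L04515 : Good (Phi V5.P V5.D 1 1) ⟨11, 1763, 10, 576, 8, 155, 6, 30, 8, 112⟩ :=
  out_sound (S := T5.ds_pp) T5.ok_pp (w := 58) (j := 2) (by decide +kernel)
theorem L04516 : Good (Phi V5.P V5.D 1 1) ⟨11, 1763, 10, 576, 7, 77, 6, 30, 8, 113⟩ :=
  out_sound (S := T5.ds_pp) T5.ok_pp (w := 46) (j := 1) (by decide +kernel)
theorem L04517 : Good (Phi V5.P V5.D 1 1) ⟨11, 1763, 10, 576, 7, 77, 6, 31, 7, 56⟩ :=
  out_sound (S := T5.ds_pp) T5.ok_pp (w := 54) (j := 2) (by decide +kernel)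
theorem L04518 : Good (Phi V5.P V5.D 1 1) ⟨11, 1763, 10, 576, 6, 38, 5, 15, 7, 57⟩ :=
  out_sound (S := T5.ds_pp) T5.ok_pp (w := 50) (j := 2) (by decide +kernel)
theorem L04519 : Good (Phi V5.P V5.D 1 1) ⟨11, 1763, 10, 576, 6, 39, 5, 15, 6, 28⟩ :=
  out_sound (S := T5.ds_pp) T5.ok_pp (w := 48) (j := 2) (by decide +kernel)
theorem L04520 : Good (Phi V5.P V5.D 1 1) ⟨11, 1763, 10, 577, 5, 19, 4, 7, 6, 28⟩ :=
  out_sound (S := T5.ds_pp) T5.ok_pp (w := 107) (j := 3) (by decide +kernel)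
theorem L04521 : Good (Phi V5.P V5.D 1 1) ⟨11, 1763, 9, 288, 4, 9, 4, 7, 6, 29⟩ :=
  out_sound (S := T5.ds_pp) T5.ok_pp (w := 34) (j := 1) (by decide +kernel)
theorem L04522 : Good (Phi V5.P V5.D 1 1) ⟨11, 1763, 9, 288, 3, 4, 3, 3, 5, 15⟩ :=
  out_sound (S := T5.ds_pp) T5.ok_pp (w := 29) (j := 1) (by decide +kernel)
theorem L04523 : Good (Phi V5.P V5.D 1 1) ⟨11, 1763, 9, 288, 4, 10, 3, 2, 5, 14⟩ :=
  out_sound (S := T5.ds_pp) T5.ok_pp (w := 31) (j := 1) (by decide +kernel)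
theorem L04524 : Good (Phi V5.P V5.D 1 1) ⟨11, 1763, 9, 288, 5, 20, 5, 12, 6, 28⟩ :=
  out_sound (S := T5.ds_pp) T5.ok_pp (w := 37) (j := 1) (by decide +kernel)
theorem L04525 : Good (Phi V5.P V5.D 1 1) ⟨11, 1763, 9, 288, 5, 20, 5, 13, 6, 28⟩ :=
  out_sound (S := T5.ds_pp) T5.ok_pp (w := 46) (j := 2) (by decide +kernel)
theorem L04526 : Good (Phi V5.P V5.D 1 1) ⟨11, 1763, 9, 288, 5, 20, 4, 7, 6, 28⟩ :=
  out_sound (S := T5.ds_pp) T5.ok_pp (w := 44) (j := 2) (by decide +kernel)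
theorem L04527 : Good (Phi V5.P V5.D 1 1) ⟨11, 1763, 9, 288, 5, 20, 3, 3, 6, 29⟩ :=
  out_sound (S := T5.ds_pp) T5.ok_pp (w := 42) (j := 2) (by decide +kernel)
theorem L04528 : Good (Phi V5.P V5.D 1 1) ⟨11, 1763, 9, 288, 5, 21, 3, 3, 5, 14⟩ :=
  out_sound (S := T5.ds_pp) T5.ok_pp (w := 40) (j := 2) (by decide +kernel)
theorem L04529 : Good (Phi V5.P V5.D 1 1) ⟨11, 1763, 9, 288, 4, 10, 2, 1, 5, 15⟩ :=
  out_sound (S := T5.ds_pp) T5.ok_pp (w := 36) (j := 2) (by decide +kernel)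
theorem L04530 : Good (Phi V5.P V5.D 1 1) ⟨11, 1763, 9, 288, 4, 11, 2, 1, 4, 7⟩ :=
  out_sound (S := T5.ds_pp) T5.ok_pp (w := 34) (j := 2) (by decide +kernel)
theorem L04531 : Good (Phi V5.P V5.D 1 1) ⟨10, 881, 9, 289, 2, 2, 2, 1, 4, 7⟩ :=
  out_sound (S := T5.ds_pp) T5.ok_pp (w := 99) (j := 3) (by decide +kernel)
theorem L04532 : Good (Phi V5.P V5.D 1 1) ⟨9, 440, 8, 145, 2, 2, 2, 1, 4, 7⟩ :=
  out_sound (S := T5.ds_pp) T5.ok_pp (w := 91) (j := 3) (by decide +kernel)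
theorem L04533 : Good (Phi V5.P V5.D 1 1) ⟨9, 441, 7, 72, 3, 4, 3, 2, 4, 7⟩ :=
  out_sound (S := T5.ds_pp) T5.ok_pp (w := 27) (j := 1) (by decide +kernel)
theorem L04534 : Good (Phi V5.P V5.D 1 1) ⟨9, 441, 7, 72, 4, 8, 3, 3, 5, 14⟩ :=
  out_sound (S := T5.ds_pp) T5.ok_pp (w := 31) (j := 1) (by decide +kernel)
theorem L04535 : Good (Phi V5.P V5.D 1 1) ⟨9, 441, 7, 72, 4, 9, 4, 6, 5, 14⟩ :=
  out_sound (S := T5.ds_pp) T5.ok_pp (w := 32) (j := 1) (by decide +kernel)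
theorem L04536 : Good (Phi V5.P V5.D 1 1) ⟨9, 441, 7, 72, 5, 18, 4, 7, 6, 28⟩ :=
  leafX_sound T5.ok_pp T5.Ypp.bz_eq (w := 312) (c := ⟨⟨.negSucc 2406, .negSucc 6, .ofNat 0, .negSucc 0, .negSucc 78, .ofNat 1⟩, ⟨.negSucc 1445, .negSucc 8, .negSucc 6, .negSucc 0, .negSucc 47, .ofNat 1⟩, ⟨.ofNat 1273, .ofNat 2, .negSucc 10, .ofNat 1, .ofNat 30, .negSucc 0⟩, ⟨.negSucc 3214, .negSucc 0, .ofNat 2, .negSucc 0, .negSucc 86, .ofNat 2⟩, ⟨.negSucc 487, .negSucc 0, .negSucc 0, .ofNat 0, .negSucc 46, .ofNat 0⟩, .ofNat 165, .negSucc 53, .ofNat 0, .negSucc 53, .ofNat 220, .ofNat 0, .ofNat 145, .ofNat 57, .negSucc 16, .ofNat 0, .ofNat 128, .negSucc 3, .ofNat 0, .ofNat 0, .ofNat 452, .ofNat 3921397, .ofNat 0, .ofNat 0, .ofNat 0, .ofNat 0, .ofNat 989488122552484697836678388104710456214960281395838247227793678008320, .ofNat 3705707762969240146239827055066424705835076673017782339240229601280,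 .ofNat 0, .ofNat 0, .ofNat 658312088055856725106028712122182992172662788026579139657893708562432, .ofNat 0, .ofNat 0, .ofNat 0, .ofNat 1490439238303048498194007296244426100885683034576160317023411157073920, .ofNat 1319681472783646231963687123607062251036775005423943373062242566144, .ofNat 0, .ofNat 0⟩)
    (by decide +kernel)
theorem L04537 : Good (Phi V5.P V5.D 1 1) ⟨9, 441, 7, 72, 5, 19, 6, 28, 7, 56⟩ :=
  out_sound (S := T5.ds_pp) T5.ok_pp (w := 40) (j := 1) (by decide +kernel)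
theorem L04538 : Good (Phi V5.P V5.D 1 1) ⟨9, 441, 7, 72, 6, 38, 6, 29, 7, 56⟩ :=
  out_sound (S := T5.ds_pp) T5.ok_pp (w := 42) (j := 1) (by decide +kernel)
theorem L04539 : Good (Phi V5.P V5.D 1 1) ⟨9, 441, 7, 72, 6, 39, 6, 29, 7, 56⟩ :=
  out_sound (S := T5.ds_pp) T5.ok_pp (w := 52) (j := 2) (by decide +kernel)
theorem L04540 : Good (Phi V5.P V5.D 1 1) ⟨9, 441, 7, 72, 5, 19, 5, 14, 7, 57⟩ :=
  out_sound (S := T5.ds_pp) T5.ok_pp (w := 39) (j := 1) (by decide +kernel)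
theorem L04541 : Good (Phi V5.P V5.D 1 1) ⟨9, 441, 7, 72, 7, 76, 6, 30, 7, 56⟩ :=
  out_sound (S := T5.ds_pp) T5.ok_pp (w := 44) (j := 1) (by decide +kernel)
theorem L04542 : Good (Phi V5.P V5.D 1 1) ⟨9, 441, 7, 72, 8, 152, 8, 124, 9, 224⟩ :=
  out_sound (S := T5.ds_pp) T5.ok_pp (w := 52) (j := 1) (by decide +kernel)
theorem L04543 : Good (Phi V5.P V5.D 1 1) ⟨9, 441, 7, 72, 8, 152, 9, 250, 10, 448⟩ :=
  out_sound (S := T5.ds_pp) T5.ok_pp (w := 55) (j := 1) (by decide +kernel)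
theorem L04544 : Good (Phi V5.P V5.D 1 1) ⟨9, 441, 7, 72, 9, 304, 9, 251, 10, 448⟩ :=
  out_sound (S := T5.ds_pp) T5.ok_pp (w := 57) (j := 1) (by decide +kernel)
theorem L04545 : Good (Phi V5.P V5.D 1 1) ⟨9, 441, 7, 72, 9, 305, 9, 251, 10, 448⟩ :=
  out_sound (S := T5.ds_pp) T5.ok_pp (w := 70) (j := 2) (by decide +kernel)
theorem L04546 : Good (Phi V5.P V5.D 1 1) ⟨9, 441, 7, 72, 8, 152, 8, 125, 10, 449⟩ :=
  out_sound (S := T5.ds_pp) T5.ok_pp (w := 54) (j := 1) (by decide +kernel)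
theorem L04547 : Good (Phi V5.P V5.D 1 1) ⟨9, 441, 7, 72, 8, 152, 7, 62, 9, 225⟩ :=
  out_sound (S := T5.ds_pp) T5.ok_pp (w := 51) (j := 1) (by decide +kernel)
theorem L04548 : Good (Phi V5.P V5.D 1 1) ⟨9, 441, 7, 72, 10, 608, 9, 252, 10, 448⟩ :=
  out_sound (S := T5.ds_pp) T5.ok_pp (w := 59) (j := 1) (by decide +kernel)
theorem L04549 : Good (Phi V5.P V5.D 1 1) ⟨9, 441, 7, 72, 11, 1216, 10, 506, 11, 896⟩ :=
  out_sound (S := T5.ds_pp) T5.ok_pp (w := 64) (j := 1) (by decide +kernel)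
theorem L04550 : Good (Phi V5.P V5.D 1 1) ⟨9, 441, 7, 72, 11, 1216, 10, 507, 11, 896⟩ :=
  out_sound (S := T5.ds_pp) T5.ok_pp (w := 78) (j := 2) (by decide +kernel)
theorem L04551 : Good (Phi V5.P V5.D 1 1) ⟨9, 441, 7, 72, 11, 1217, 9, 253, 11, 896⟩ :=
  out_sound (S := T5.ds_pp) T5.ok_pp (w := 76) (j := 2) (by decide +kernel)
theorem L04552 : Good (Phi V5.P V5.D 1 1) ⟨9, 441, 7, 72, 10, 608, 9, 253, 11, 897⟩ :=
  out_sound (S := T5.ds_pp) T5.ok_pp (w := 74) (j := 2) (by decide +kernel)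
theorem L04553 : Good (Phi V5.P V5.D 1 1) ⟨9, 441, 7, 72, 10, 609, 8, 126, 10, 448⟩ :=
  out_sound (S := T5.ds_pp) T5.ok_pp (w := 70) (j := 2) (by decide +kernel)
theorem L04554 : Good (Phi V5.P V5.D 1 1) ⟨9, 441, 7, 72, 9, 304, 8, 126, 10, 449⟩ :=
  out_sound (S := T5.ds_pp) T5.ok_pp (w := 56) (j := 1) (by decide +kernel)
theorem L04555 : Good (Phi V5.P V5.D 1 1) ⟨9, 441, 7, 72, 9, 304, 8, 127, 9, 224⟩ :=
  out_sound (S := T5.ds_pp) T5.ok_pp (w := 66) (j := 2) (by decide +kernel)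
theorem L04556 : Good (Phi V5.P V5.D 1 1) ⟨9, 441, 7, 72, 9, 305, 7, 63, 9, 224⟩ :=
  out_sound (S := T5.ds_pp) T5.ok_pp (w := 64) (j := 2) (by decide +kernel)
theorem L04557 : Good (Phi V5.P V5.D 1 1) ⟨9, 441, 7, 72, 8, 152, 7, 63, 9, 225⟩ :=
  out_sound (S := T5.ds_pp) T5.ok_pp (w := 62) (j := 2) (by decide +kernel)
theorem L04558 : Good (Phi V5.P V5.D 1 1) ⟨9, 441, 7, 72, 8, 153, 6, 31, 8, 112⟩ :=
  out_sound (S := T5.ds_pp) T5.ok_pp (w := 58) (j := 2) (by decide +kernel)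
theorem L04559 : Good (Phi V5.P V5.D 1 1) ⟨9, 441, 7, 72, 7, 76, 6, 31, 8, 113⟩ :=
  out_sound (S := T5.ds_pp) T5.ok_pp (w := 56) (j := 2) (by decide +kernel)
theorem L04560 : Good (Phi V5.P V5.D 1 1) ⟨9, 441, 7, 72, 8, 154, 6, 30, 8, 112⟩ :=
  out_sound (S := T5.ds_pp) T5.ok_pp (w := 48) (j := 1) (by decide +kernel)
theorem L04561 : Good (Phi V5.P V5.D 1 1) ⟨9, 441, 7, 72, 8, 155, 6, 30, 8, 112⟩ :=
  out_sound (S := T5.ds_pp) T5.ok_pp (w := 58) (j := 2) (by decide +kernel)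
theorem L04562 : Good (Phi V5.P V5.D 1 1) ⟨9, 441, 7, 72, 7, 77, 6, 30, 8, 113⟩ :=
  out_sound (S := T5.ds_pp) T5.ok_pp (w := 46) (j := 1) (by decide +kernel)
theorem L04563 : Good (Phi V5.P V5.D 1 1) ⟨9, 441, 7, 72, 7, 77, 6, 31, 7, 56⟩ :=
  out_sound (S := T5.ds_pp) T5.ok_pp (w := 54) (j := 2) (by decide +kernel)
theorem L04564 : Good (Phi V5.P V5.D 1 1) ⟨9, 441, 7, 72, 6, 38, 5, 15, 7, 57⟩ :=
  out_sound (S := T5.ds_pp) T5.ok_pp (w := 50) (j := 2) (by decide +kernel)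
theorem L04565 : Good (Phi V5.P V5.D 1 1) ⟨9, 441, 7, 72, 6, 39, 5, 15, 6, 28⟩ :=
  out_sound (S := T5.ds_pp) T5.ok_pp (w := 48) (j := 2) (by decide +kernel)
theorem L04566 : Good (Phi V5.P V5.D 1 1) ⟨9, 441, 7, 72, 4, 9, 4, 7, 6, 29⟩ :=
  out_sound (S := T5.ds_pp) T5.ok_pp (w := 34) (j := 1) (by decide +kernel)
theorem L04567 : Good (Phi V5.P V5.D 1 1) ⟨9, 441, 7, 72, 3, 4, 3, 3, 5, 15⟩ :=
  out_sound (S := T5.ds_pp) T5.ok_pp (w := 29) (j := 1) (by decide +kernel)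
theorem L04568 : Good (Phi V5.P V5.D 1 1) ⟨9, 441, 7, 72, 4, 10, 3, 2, 5, 14⟩ :=
  out_sound (S := T5.ds_pp) T5.ok_pp (w := 31) (j := 1) (by decide +kernel)
theorem L04569 : Good (Phi V5.P V5.D 1 1) ⟨9, 441, 7, 72, 5, 20, 5, 12, 6, 28⟩ :=
  out_sound (S := T5.ds_pp) T5.ok_pp (w := 37) (j := 1) (by decide +kernel)
theorem L04570 : Good (Phi V5.P V5.D 1 1) ⟨9, 441, 7, 72, 5, 20, 5, 13, 6, 28⟩ :=
  out_sound (S := T5.ds_pp) T5.ok_pp (w := 46) (j := 2) (by decide +kernel)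
theorem L04571 : Good (Phi V5.P V5.D 1 1) ⟨9, 441, 7, 72, 5, 20, 4, 7, 6, 28⟩ :=
  out_sound (S := T5.ds_pp) T5.ok_pp (w := 44) (j := 2) (by decide +kernel)
theorem L04572 : Good (Phi V5.P V5.D 1 1) ⟨9, 441, 7, 72, 5, 20, 3, 3, 6, 29⟩ :=
  out_sound (S := T5.ds_pp) T5.ok_pp (w := 42) (j := 2) (by decide +kernel)
theorem L04573 : Good (Phi V5.P V5.D 1 1) ⟨9, 441, 7, 72, 5, 21, 3, 3, 5, 14⟩ :=
  out_sound (S := T5.ds_pp) T5.ok_pp (w := 40) (j := 2) (by decide +kernel)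
theorem L04574 : Good (Phi V5.P V5.D 1 1) ⟨9, 441, 7, 72, 4, 10, 2, 1, 5, 15⟩ :=
  out_sound (S := T5.ds_pp) T5.ok_pp (w := 36) (j := 2) (by decide +kernel)
theorem L04575 : Good (Phi V5.P V5.D 1 1) ⟨9, 441, 7, 72, 4, 11, 2, 1, 4, 7⟩ :=
  out_sound (S := T5.ds_pp) T5.ok_pp (w := 34) (j := 2) (by decide +kernel)
theorem L04576 : Good (Phi V5.P V5.D 1 1) ⟨8, 221, 7, 72, 3, 4, 3, 2, 4, 7⟩ :=
  out_sound (S := T5.ds_pp) T5.ok_pp (w := 27) (j := 1) (by decide +kernel)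
theorem L04577 : Good (Phi V5.P V5.D 1 1) ⟨8, 221, 7, 72, 4, 8, 3, 3, 5, 14⟩ :=
  out_sound (S := T5.ds_pp) T5.ok_pp (w := 31) (j := 1) (by decide +kernel)
theorem L04578 : Good (Phi V5.P V5.D 1 1) ⟨8, 221, 7, 72, 4, 9, 4, 6, 5, 14⟩ :=
  out_sound (S := T5.ds_pp) T5.ok_pp (w := 32) (j := 1) (by decide +kernel)
theorem L04579 : Good (Phi V5.P V5.D 1 1) ⟨8, 221, 7, 72, 5, 18, 4, 7, 6, 28⟩ :=
  leafX_sound T5.ok_pp T5.Ypp.bz_eq (w := 308) (c := ⟨⟨.negSucc 2409, .negSucc 13, .negSucc 0, .negSucc 0, .negSucc 82, .ofNat 1⟩, ⟨.negSucc 1451, .negSucc 18, .negSucc 6, .negSucc 0, .negSucc 50, .ofNat 1⟩, ⟨.ofNat 1269, .ofNat 4, .negSucc 10, .ofNat 1, .ofNat 36, .negSucc 0⟩, ⟨.negSucc 3210, .negSucc 0, .ofNat 2, .negSucc 0, .negSucc 90, .ofNat 2⟩, ⟨.negSucc 486, .negSucc 0, .negSucc 0, .ofNat 0, .negSucc 48, .ofNat 0⟩, .ofNat 165, .negSucc 53, .ofNat 0, .negSucc 53, .ofNat 219,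 .ofNat 0, .ofNat 145, .ofNat 57, .negSucc 16, .ofNat 0, .ofNat 128, .negSucc 3, .ofNat 0, .ofNat 0, .ofNat 450, .ofNat 3881758, .ofNat 0, .ofNat 0, .ofNat 0, .ofNat 0, .ofNat 61861522123416613427447758327400982248052841862857055953605479104512, .ofNat 226843586853966658717654813672183463901950534878501275708157853696, .ofNat 0, .ofNat 0, .ofNat 41448777862443361556968653007360819452087075894237019546871071244288, .ofNat 0, .ofNat 6154186217208873825617085780272766325393434797634748416, .ofNat 0, .ofNat 92385133420599848061638065788516801186727985768208930934952986411008, .ofNat 77177667847500334230759878754198670194635374404367981128183709696, .ofNat 658344825312113558189360041555734039089774248201289728, .ofNat 0⟩)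
    (by decide +kernel)
theorem L04580 : Good (Phi V5.P V5.D 1 1) ⟨8, 221, 7, 72, 5, 19, 6, 28, 7, 56⟩ :=
  out_sound (S := T5.ds_pp) T5.ok_pp (w := 40) (j := 1) (by decide +kernel)
theorem L04581 : Good (Phi V5.P V5.D 1 1) ⟨8, 221, 7, 72, 6, 38, 6, 29, 7, 56⟩ :=
  out_sound (S := T5.ds_pp) T5.ok_pp (w := 42) (j := 1) (by decide +kernel)
theorem L04582 : Good (Phi V5.P V5.D 1 1) ⟨8, 221, 7, 72, 6, 39, 6, 29, 7, 56⟩ :=
  out_sound (S := T5.ds_pp) T5.ok_pp (w := 52) (j := 2) (by decide +kernel)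
theorem L04583 : Good (Phi V5.P V5.D 1 1) ⟨8, 221, 7, 72, 5, 19, 5, 14, 7, 57⟩ :=
  out_sound (S := T5.ds_pp) T5.ok_pp (w := 39) (j := 1) (by decide +kernel)
theorem L04584 : Good (Phi V5.P V5.D 1 1) ⟨8, 221, 7, 72, 7, 76, 6, 30, 7, 56⟩ :=
  out_sound (S := T5.ds_pp) T5.ok_pp (w := 44) (j := 1) (by decide +kernel)
theorem L04585 : Good (Phi V5.P V5.D 1 1) ⟨8, 221, 7, 72, 8, 152, 8, 124, 9, 224⟩ :=
  out_sound (S := T5.ds_pp) T5.ok_pp (w := 52) (j := 1) (by decide +kernel)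
theorem L04586 : Good (Phi V5.P V5.D 1 1) ⟨8, 221, 7, 72, 8, 152, 9, 250, 10, 448⟩ :=
  out_sound (S := T5.ds_pp) T5.ok_pp (w := 55) (j := 1) (by decide +kernel)
theorem L04587 : Good (Phi V5.P V5.D 1 1) ⟨8, 221, 7, 72, 9, 304, 9, 251, 10, 448⟩ :=
  out_sound (S := T5.ds_pp) T5.ok_pp (w := 57) (j := 1) (by decide +kernel)
theorem L04588 : Good (Phi V5.P V5.D 1 1) ⟨8, 221, 7, 72, 9, 305, 9, 251, 10, 448⟩ :=
  out_sound (S := T5.ds_pp) T5.ok_pp (w := 70) (j := 2) (by decide +kernel)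
theorem L04589 : Good (Phi V5.P V5.D 1 1) ⟨8, 221, 7, 72, 8, 152, 8, 125, 10, 449⟩ :=
  out_sound (S := T5.ds_pp) T5.ok_pp (w := 54) (j := 1) (by decide +kernel)
theorem L04590 : Good (Phi V5.P V5.D 1 1) ⟨8, 221, 7, 72, 8, 152, 7, 62, 9, 225⟩ :=
  out_sound (S := T5.ds_pp) T5.ok_pp (w := 51) (j := 1) (by decide +kernel)
theorem L04591 : Good (Phi V5.P V5.D 1 1) ⟨8, 221, 7, 72, 10, 608, 9, 252, 10, 448⟩ :=
  out_sound (S := T5.ds_pp) T5.ok_pp (w := 59) (j := 1) (by decide +kernel)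
theorem L04592 : Good (Phi V5.P V5.D 1 1) ⟨8, 221, 7, 72, 11, 1216, 10, 506, 11, 896⟩ :=
  out_sound (S := T5.ds_pp) T5.ok_pp (w := 64) (j := 1) (by decide +kernel)

end Crest.Agent.R097C5.N5pp
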