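import Crest.Agent.R097.KP7
import Crest.Agent.R097.T5Ypp

/-!
# Row 97, box cover in dimension n = 5 (generated)
-/

set_option autoImplicit false
set_option Elab.async false
set_option maxHeartbeats 0
set_option maxRecDepth 100000

open Crest.Agent.R097 Crest.Agent.R097.KA


namespace Crest.Agent.R097C5.N5pp

theorem L04593 : Good (Phi V5.P V5.D 1 1) ⟨8, 221, 7, 72, 11, 1216, 10, 507, 11, 896⟩ :=
  out_sound (S := T5.ds_pp) T5.ok_pp (w := 78) (j := 2) (by decide +kernel)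
theorem L04594 : Good (Phi V5.P V5.D 1 1) ⟨8, 221, 7, 72, 11, 1217, 9, 253, 11, 896⟩ :=
  out_sound (S := T5.ds_pp) T5.ok_pp (w := 76) (j := 2) (by decide +kernel)
theorem L04595 : Good (Phi V5.P V5.D 1 1) ⟨8, 221, 7, 72, 10, 608, 9, 253, 11, 897⟩ :=
  out_sound (S := T5.ds_pp) T5.ok_pp (w := 74) (j := 2) (by decide +kernel)
theorem L04596 : Good (Phi V5.P V5.D 1 1) ⟨8, 221, 7, 72, 10, 609, 8, 126, 10, 448⟩ :=
  out_sound (S := T5.ds_pp) T5.ok_pp (w := 70) (j := 2) (by decide +kernel)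
theorem L04597 : Good (Phi V5.P V5.D 1 1) ⟨8, 221, 7, 72, 9, 304, 8, 126, 10, 449⟩ :=
  out_sound (S := T5.ds_pp) T5.ok_pp (w := 56) (j := 1) (by decide +kernel)
theorem L04598 : Good (Phi V5.P V5.D 1 1) ⟨8, 221, 7, 72, 9, 304, 8, 127, 9, 224⟩ :=
  out_sound (S := T5.ds_pp) T5.ok_pp (w := 66) (j := 2) (by decide +kernel)
theorem L04599 : Good (Phi V5.P V5.D 1 1) ⟨8, 221, 7, 72, 9, 305, 7, 63, 9, 224⟩ :=
  out_sound (S := T5.ds_pp) T5.ok_pp (w := 64) (j := 2) (by decide +kernel)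
theorem L04600 : Good (Phi V5.P V5.D 1 1) ⟨8, 221, 7, 72, 8, 152, 7, 63, 9, 225⟩ :=
  out_sound (S := T5.ds_pp) T5.ok_pp (w := 62) (j := 2) (by decide +kernel)
theorem L04601 : Good (Phi V5.P V5.D 1 1) ⟨8, 221, 7, 72, 8, 153, 6, 31, 8, 112⟩ :=
  out_sound (S := T5.ds_pp) T5.ok_pp (w := 58) (j := 2) (by decide +kernel)
theorem L04602 : Good (Phi V5.P V5.D 1 1) ⟨8, 221, 7, 72, 7, 76, 6, 31, 8, 113⟩ :=
  out_sound (S := T5.ds_pp) T5.ok_pp (w := 56) (j := 2) (by decide +kernel)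
theorem L04603 : Good (Phi V5.P V5.D 1 1) ⟨8, 221, 7, 72, 8, 154, 6, 30, 8, 112⟩ :=
  out_sound (S := T5.ds_pp) T5.ok_pp (w := 48) (j := 1) (by decide +kernel)
theorem L04604 : Good (Phi V5.P V5.D 1 1) ⟨8, 221, 7, 72, 8, 155, 6, 30, 8, 112⟩ :=
  out_sound (S := T5.ds_pp) T5.ok_pp (w := 58) (j := 2) (by decide +kernel)
theorem L04605 : Good (Phi V5.P V5.D 1 1) ⟨8, 221, 7, 72, 7, 77, 6, 30, 8, 113⟩ :=
  out_sound (S := T5.ds_pp) T5.ok_pp (w := 46) (j := 1) (by decide +kernel)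
theorem L04606 : Good (Phi V5.P V5.D 1 1) ⟨8, 221, 7, 72, 7, 77, 6, 31, 7, 56⟩ :=
  out_sound (S := T5.ds_pp) T5.ok_pp (w := 54) (j := 2) (by decide +kernel)
theorem L04607 : Good (Phi V5.P V5.D 1 1) ⟨8, 221, 7, 72, 6, 38, 5, 15, 7, 57⟩ :=
  out_sound (S := T5.ds_pp) T5.ok_pp (w := 50) (j := 2) (by decide +kernel)
theorem L04608 : Good (Phi V5.P V5.D 1 1) ⟨8, 221, 7, 72, 6, 39, 5, 15, 6, 28⟩ :=
  out_sound (S := T5.ds_pp) T5.ok_pp (w := 48) (j := 2) (by decide +kernel)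
theorem L04609 : Good (Phi V5.P V5.D 1 1) ⟨8, 221, 7, 72, 4, 9, 4, 7, 6, 29⟩ :=
  out_sound (S := T5.ds_pp) T5.ok_pp (w := 34) (j := 1) (by decide +kernel)
theorem L04610 : Good (Phi V5.P V5.D 1 1) ⟨8, 221, 7, 72, 3, 4, 3, 3, 5, 15⟩ :=
  out_sound (S := T5.ds_pp) T5.ok_pp (w := 29) (j := 1) (by decide +kernel)
theorem L04611 : Good (Phi V5.P V5.D 1 1) ⟨8, 221, 7, 72, 4, 10, 3, 2, 5, 14⟩ :=
  out_sound (S := T5.ds_pp) T5.ok_pp (w := 31) (j := 1) (by decide +kernel)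
theorem L04612 : Good (Phi V5.P V5.D 1 1) ⟨8, 221, 7, 72, 5, 20, 5, 12, 6, 28⟩ :=
  out_sound (S := T5.ds_pp) T5.ok_pp (w := 37) (j := 1) (by decide +kernel)
theorem L04613 : Good (Phi V5.P V5.D 1 1) ⟨8, 221, 7, 72, 5, 20, 5, 13, 6, 28⟩ :=
  out_sound (S := T5.ds_pp) T5.ok_pp (w := 46) (j := 2) (by decide +kernel)
theorem L04614 : Good (Phi V5.P V5.D 1 1) ⟨8, 221, 7, 72, 5, 20, 4, 7, 6, 28⟩ :=
  out_sound (S := T5.ds_pp) T5.ok_pp (w := 44) (j := 2) (by decide +kernel)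
theorem L04615 : Good (Phi V5.P V5.D 1 1) ⟨8, 221, 7, 72, 5, 20, 3, 3, 6, 29⟩ :=
  out_sound (S := T5.ds_pp) T5.ok_pp (w := 42) (j := 2) (by decide +kernel)
theorem L04616 : Good (Phi V5.P V5.D 1 1) ⟨8, 221, 7, 72, 5, 21, 3, 3, 5, 14⟩ :=
  out_sound (S := T5.ds_pp) T5.ok_pp (w := 40) (j := 2) (by decide +kernel)
theorem L04617 : Good (Phi V5.P V5.D 1 1) ⟨8, 221, 7, 72, 4, 10, 2, 1, 5, 15⟩ :=
  out_sound (S := T5.ds_pp) T5.ok_pp (w := 36) (j := 2) (by decide +kernel)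
theorem L04618 : Good (Phi V5.P V5.D 1 1) ⟨8, 221, 7, 72, 4, 11, 2, 1, 4, 7⟩ :=
  out_sound (S := T5.ds_pp) T5.ok_pp (w := 34) (j := 2) (by decide +kernel)
theorem L04619 : Good (Phi V5.P V5.D 1 1) ⟨7, 110, 7, 72, 2, 3, 1, 0, 4, 7⟩ :=
  out_sound (S := T5.ds_pp) T5.ok_pp (w := 28) (j := 2) (by decide +kernel)
theorem L04620 : Good (Phi V5.P V5.D 1 1) ⟨8, 220, 7, 73, 1, 1, 1, 0, 4, 7⟩ :=
  out_sound (S := T5.ds_pp) T5.ok_pp (w := 83) (j := 3) (by decide +kernel)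
theorem L04621 : Good (Phi V5.P V5.D 1 1) ⟨8, 221, 7, 73, 2, 2, 2, 0, 4, 7⟩ :=
  out_sound (S := T5.ds_pp) T5.ok_pp (w := 24) (j := 1) (by decide +kernel)
theorem L04622 : Good (Phi V5.P V5.D 1 1) ⟨9, 442, 8, 146, 3, 4, 3, 2, 4, 7⟩ :=
  out_sound (S := T5.ds_pp) T5.ok_pp (w := 27) (j := 1) (by decide +kernel)
theorem L04623 : Good (Phi V5.P V5.D 1 1) ⟨9, 442, 8, 146, 4, 8, 3, 3, 5, 14⟩ :=
  out_sound (S := T5.ds_pp) T5.ok_pp (w := 31) (j := 1) (by decide +kernel)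
theorem L04624 : Good (Phi V5.P V5.D 1 1) ⟨9, 442, 8, 146, 4, 9, 4, 6, 5, 14⟩ :=
  out_sound (S := T5.ds_pp) T5.ok_pp (w := 32) (j := 1) (by decide +kernel)
theorem L04625 : Good (Phi V5.P V5.D 1 1) ⟨9, 442, 8, 146, 5, 18, 4, 7, 6, 28⟩ :=
  leafX_sound T5.ok_pp T5.Ypp.bz_eq (w := 315) (c := ⟨⟨.negSucc 2414, .negSucc 6, .ofNat 0, .negSucc 0, .negSucc 78, .ofNat 1⟩, ⟨.negSucc 1461, .negSucc 8, .negSucc 2, .negSucc 0, .negSucc 48, .ofNat 1⟩, ⟨.ofNat 1265, .ofNat 2, .negSucc 4, .ofNat 1, .ofNat 29, .negSucc 0⟩, ⟨.negSucc 3213, .ofNat 0, .ofNat 1, .negSucc 0, .negSucc 85, .ofNat 2⟩, ⟨.negSucc 489, .negSucc 0, .negSucc 0, .ofNat 0, .negSucc 45, .ofNat 0⟩, .ofNat 165, .negSucc 53, .ofNat 0, .negSucc 53, .ofNat 219, .ofNat 0, .ofNat 145, .ofNat 58, .negSucc 16, .ofNat 0, .ofNat 128, .negSucc 3, .ofNat 0, .ofNat 0, .ofNat 451, .ofNat 3887711, .ofNat 0, .ofNat 0, .ofNat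 0, .ofNat 0, .ofNat 7856431472596559911936697838982189414270980690066174548707091368902656, .ofNat 28930253384676652886587347182357723108263946044536862119125829287936, .ofNat 6698579069679325051508627176031737688717764074575757312, .ofNat 0, .ofNat 5228590877696987586171104282167424259563545352852589150915044361371648, .ofNat 0, .ofNat 2247073610688639584226438599694608473947983309743063040, .ofNat 0, .ofNat 11891820301110612646315566676461696417393918187096962671646361690046464, .ofNat 10322955259756812813405812731266548047709105039982612865615233286144, .ofNat 41897322735259046457740907341349052929846078999625728, .ofNat 0⟩)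
    (by decide +kernel)
theorem L04626 : Good (Phi V5.P V5.D 1 1) ⟨9, 442, 8, 146, 5, 19, 6, 28, 7, 56⟩ :=
  out_sound (S := T5.ds_pp) T5.ok_pp (w := 40) (j := 1) (by decide +kernel)
theorem L04627 : Good (Phi V5.P V5.D 1 1) ⟨9, 442, 8, 146, 6, 38, 6, 29, 7, 56⟩ :=
  out_sound (S := T5.ds_pp) T5.ok_pp (w := 42) (j := 1) (by decide +kernel)
theorem L04628 : Good (Phi V5.P V5.D 1 1) ⟨9, 442, 8, 146, 6, 39, 6, 29, 7, 56⟩ :=
  out_sound (S := T5.ds_pp) T5.ok_pp (w := 52) (j := 2) (by decide +kernel)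
theorem L04629 : Good (Phi V5.P V5.D 1 1) ⟨9, 442, 8, 146, 5, 19, 5, 14, 7, 57⟩ :=
  out_sound (S := T5.ds_pp) T5.ok_pp (w := 39) (j := 1) (by decide +kernel)
theorem L04630 : Good (Phi V5.P V5.D 1 1) ⟨9, 442, 8, 146, 7, 76, 6, 30, 7, 56⟩ :=
  out_sound (S := T5.ds_pp) T5.ok_pp (w := 44) (j := 1) (by decide +kernel)
theorem L04631 : Good (Phi V5.P V5.D 1 1) ⟨9, 442, 8, 146, 8, 152, 8, 124, 9, 224⟩ :=
  out_sound (S := T5.ds_pp) T5.ok_pp (w := 52) (j := 1) (by decide +kernel)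
theorem L04632 : Good (Phi V5.P V5.D 1 1) ⟨9, 442, 8, 146, 8, 152, 9, 250, 10, 448⟩ :=
  out_sound (S := T5.ds_pp) T5.ok_pp (w := 55) (j := 1) (by decide +kernel)
theorem L04633 : Good (Phi V5.P V5.D 1 1) ⟨9, 442, 8, 146, 9, 304, 9, 251, 10, 448⟩ :=
  out_sound (S := T5.ds_pp) T5.ok_pp (w := 57) (j := 1) (by decide +kernel)
theorem L04634 : Good (Phi V5.P V5.D 1 1) ⟨9, 442, 8, 146, 9, 305, 9, 251, 10, 448⟩ :=
  out_sound (S := T5.ds_pp) T5.ok_pp (w := 70) (j := 2) (by decide +kernel)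
theorem L04635 : Good (Phi V5.P V5.D 1 1) ⟨9, 442, 8, 146, 8, 152, 8, 125, 10, 449⟩ :=
  out_sound (S := T5.ds_pp) T5.ok_pp (w := 54) (j := 1) (by decide +kernel)
theorem L04636 : Good (Phi V5.P V5.D 1 1) ⟨9, 442, 8, 146, 8, 152, 7, 62, 9, 225⟩ :=
  out_sound (S := T5.ds_pp) T5.ok_pp (w := 51) (j := 1) (by decide +kernel)
theorem L04637 : Good (Phi V5.P V5.D 1 1) ⟨9, 442, 8, 146, 10, 608, 9, 252, 10, 448⟩ :=
  out_sound (S := T5.ds_pp) T5.ok_pp (w := 59) (j := 1) (by decide +kernel)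
theorem L04638 : Good (Phi V5.P V5.D 1 1) ⟨9, 442, 8, 146, 11, 1216, 10, 506, 11, 896⟩ :=
  out_sound (S := T5.ds_pp) T5.ok_pp (w := 64) (j := 1) (by decide +kernel)
theorem L04639 : Good (Phi V5.P V5.D 1 1) ⟨9, 442, 8, 146, 11, 1216, 10, 507, 11, 896⟩ :=
  out_sound (S := T5.ds_pp) T5.ok_pp (w := 78) (j := 2) (by decide +kernel)
theorem L04640 : Good (Phi V5.P V5.D 1 1) ⟨9, 442, 8, 146, 11, 1217, 9, 253, 11, 896⟩ :=
  out_sound (S := T5.ds_pp) T5.ok_pp (w := 76) (j := 2) (by decide +kernel)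
theorem L04641 : Good (Phi V5.P V5.D 1 1) ⟨9, 442, 8, 146, 10, 608, 9, 253, 11, 897⟩ :=
  out_sound (S := T5.ds_pp) T5.ok_pp (w := 74) (j := 2) (by decide +kernel)
theorem L04642 : Good (Phi V5.P V5.D 1 1) ⟨9, 442, 8, 146, 10, 609, 8, 126, 10, 448⟩ :=
  out_sound (S := T5.ds_pp) T5.ok_pp (w := 70) (j := 2) (by decide +kernel)
theorem L04643 : Good (Phi V5.P V5.D 1 1) ⟨9, 442, 8, 146, 9, 304, 8, 126, 10, 449⟩ :=
  out_sound (S := T5.ds_pp) T5.ok_pp (w := 56) (j := 1) (by decide +kernel)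
theorem L04644 : Good (Phi V5.P V5.D 1 1) ⟨9, 442, 8, 146, 9, 304, 8, 127, 9, 224⟩ :=
  out_sound (S := T5.ds_pp) T5.ok_pp (w := 66) (j := 2) (by decide +kernel)
theorem L04645 : Good (Phi V5.P V5.D 1 1) ⟨9, 442, 8, 146, 9, 305, 7, 63, 9, 224⟩ :=
  out_sound (S := T5.ds_pp) T5.ok_pp (w := 64) (j := 2) (by decide +kernel)
theorem L04646 : Good (Phi V5.P V5.D 1 1) ⟨9, 442, 8, 146, 8, 152, 7, 63, 9, 225⟩ :=
  out_sound (S := T5.ds_pp) T5.ok_pp (w := 62) (j := 2) (by decide +kernel)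
theorem L04647 : Good (Phi V5.P V5.D 1 1) ⟨9, 442, 8, 146, 8, 153, 6, 31, 8, 112⟩ :=
  out_sound (S := T5.ds_pp) T5.ok_pp (w := 58) (j := 2) (by decide +kernel)
theorem L04648 : Good (Phi V5.P V5.D 1 1) ⟨9, 442, 8, 146, 7, 76, 6, 31, 8, 113⟩ :=
  out_sound (S := T5.ds_pp) T5.ok_pp (w := 56) (j := 2) (by decide +kernel)
theorem L04649 : Good (Phi V5.P V5.D 1 1) ⟨9, 442, 8, 146, 8, 154, 6, 30, 8, 112⟩ :=
  out_sound (S := T5.ds_pp) T5.ok_pp (w := 48) (j := 1) (by decide +kernel)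
theorem L04650 : Good (Phi V5.P V5.D 1 1) ⟨9, 442, 8, 146, 8, 155, 6, 30, 8, 112⟩ :=
  out_sound (S := T5.ds_pp) T5.ok_pp (w := 58) (j := 2) (by decide +kernel)
theorem L04651 : Good (Phi V5.P V5.D 1 1) ⟨9, 442, 8, 146, 7, 77, 6, 30, 8, 113⟩ :=
  out_sound (S := T5.ds_pp) T5.ok_pp (w := 46) (j := 1) (by decide +kernel)
theorem L04652 : Good (Phi V5.P V5.D 1 1) ⟨9, 442, 8, 146, 7, 77, 6, 31, 7, 56⟩ :=
  out_sound (S := T5.ds_pp) T5.ok_pp (w := 54) (j := 2) (by decide +kernel)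
theorem L04653 : Good (Phi V5.P V5.D 1 1) ⟨9, 442, 8, 146, 6, 38, 5, 15, 7, 57⟩ :=
  out_sound (S := T5.ds_pp) T5.ok_pp (w := 50) (j := 2) (by decide +kernel)
theorem L04654 : Good (Phi V5.P V5.D 1 1) ⟨9, 442, 8, 146, 6, 39, 5, 15, 6, 28⟩ :=
  out_sound (S := T5.ds_pp) T5.ok_pp (w := 48) (j := 2) (by decide +kernel)
theorem L04655 : Good (Phi V5.P V5.D 1 1) ⟨9, 442, 8, 146, 4, 9, 4, 7, 6, 29⟩ :=
  out_sound (S := T5.ds_pp) T5.ok_pp (w := 34) (j := 1) (by decide +kernel)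
theorem L04656 : Good (Phi V5.P V5.D 1 1) ⟨9, 442, 8, 146, 3, 4, 3, 3, 5, 15⟩ :=
  out_sound (S := T5.ds_pp) T5.ok_pp (w := 29) (j := 1) (by decide +kernel)
theorem L04657 : Good (Phi V5.P V5.D 1 1) ⟨9, 442, 8, 146, 4, 10, 3, 2, 5, 14⟩ :=
  out_sound (S := T5.ds_pp) T5.ok_pp (w := 31) (j := 1) (by decide +kernel)
theorem L04658 : Good (Phi V5.P V5.D 1 1) ⟨9, 442, 8, 146, 5, 20, 5, 12, 6, 28⟩ :=
  out_sound (S := T5.ds_pp) T5.ok_pp (w := 37) (j := 1) (by decide +kernel)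
theorem L04659 : Good (Phi V5.P V5.D 1 1) ⟨9, 442, 8, 146, 5, 20, 5, 13, 6, 28⟩ :=
  out_sound (S := T5.ds_pp) T5.ok_pp (w := 46) (j := 2) (by decide +kernel)
theorem L04660 : Good (Phi V5.P V5.D 1 1) ⟨9, 442, 8, 146, 5, 20, 4, 7, 6, 28⟩ :=
  out_sound (S := T5.ds_pp) T5.ok_pp (w := 44) (j := 2) (by decide +kernel)
theorem L04661 : Good (Phi V5.P V5.D 1 1) ⟨9, 442, 8, 146, 5, 20, 3, 3, 6, 29⟩ :=
  out_sound (S := T5.ds_pp) T5.ok_pp (w := 42) (j := 2) (by decide +kernel)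
theorem L04662 : Good (Phi V5.P V5.D 1 1) ⟨9, 442, 8, 146, 5, 21, 3, 3, 5, 14⟩ :=
  out_sound (S := T5.ds_pp) T5.ok_pp (w := 40) (j := 2) (by decide +kernel)
theorem L04663 : Good (Phi V5.P V5.D 1 1) ⟨9, 442, 8, 146, 4, 10, 2, 1, 5, 15⟩ :=
  out_sound (S := T5.ds_pp) T5.ok_pp (w := 36) (j := 2) (by decide +kernel)
theorem L04664 : Good (Phi V5.P V5.D 1 1) ⟨9, 442, 8, 146, 4, 11, 2, 1, 4, 7⟩ :=
  out_sound (S := T5.ds_pp) T5.ok_pp (w := 34) (j := 2) (by decide +kernel)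
theorem L04665 : Good (Phi V5.P V5.D 1 1) ⟨10, 884, 8, 147, 2, 2, 2, 1, 4, 7⟩ :=
  out_sound (S := T5.ds_pp) T5.ok_pp (w := 97) (j := 3) (by decide +kernel)
theorem L04666 : Good (Phi V5.P V5.D 1 1) ⟨11, 1770, 9, 294, 2, 2, 2, 1, 4, 7⟩ :=
  out_sound (S := T5.ds_pp) T5.ok_pp (w := 105) (j := 3) (by decide +kernel)
theorem L04667 : Good (Phi V5.P V5.D 1 1) ⟨11, 1771, 10, 588, 3, 4, 3, 2, 4, 7⟩ :=
  out_sound (S := T5.ds_pp) T5.ok_pp (w := 27) (j := 1) (by decide +kernel)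
theorem L04668 : Good (Phi V5.P V5.D 1 1) ⟨11, 1771, 10, 588, 4, 8, 3, 3, 5, 14⟩ :=
  out_sound (S := T5.ds_pp) T5.ok_pp (w := 31) (j := 1) (by decide +kernel)
theorem L04669 : Good (Phi V5.P V5.D 1 1) ⟨11, 1771, 10, 588, 4, 9, 4, 6, 5, 14⟩ :=
  out_sound (S := T5.ds_pp) T5.ok_pp (w := 32) (j := 1) (by decide +kernel)
theorem L04670 : Good (Phi V5.P V5.D 1 1) ⟨11, 1771, 10, 588, 5, 18, 4, 7, 6, 28⟩ :=
  leafX_sound T5.ok_pp T5.Ypp.bz_eq (w := 329) (c := ⟨⟨.negSucc 2418, .negSucc 1, .ofNat 0, .negSucc 0, .negSucc 79, .ofNat 1⟩, ⟨.negSucc 1471, .negSucc 1, .negSucc 0, .negSucc 0, .negSucc 48, .ofNat 1⟩, ⟨.ofNat 1260, .ofNat 1, .negSucc 0, .ofNat 1, .ofNat 30, .negSucc 0⟩, ⟨.negSucc 3211, .ofNat 0, .ofNat 0, .negSucc 0, .negSucc 86, .ofNat 2⟩, ⟨.negSucc 490, .ofNat 0, .ofNat 0, .ofNat 0, .negSucc 46, .ofNat 0⟩, .ofNat 165, .negSucc 53, .ofNat 0, .negSucc 53, .ofNat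 219, .ofNat 0, .ofNat 145, .ofNat 58, .negSucc 16, .ofNat 0, .ofNat 128, .negSucc 3, .ofNat 0, .ofNat 0, .ofNat 450, .ofNat 3834543, .ofNat 0, .ofNat 0, .ofNat 0, .ofNat 0, .ofNat 126971499717026895220176624599568722579250901313779139875404924341924659200, .ofNat 462079152530752234846873517422835973787039117004145481712608969729507328, .ofNat 3346140455630829449266134389989786210516884771913596928, .ofNat 0, .ofNat 85544645757168681576360132341264596080545227720260032276548703507980484608, .ofNat 0, .ofNat 0, .ofNat 0, .ofNat 191847507283294768306693694306571270548759668595649575054754444790938468352, .ofNat 168047956043172493123049070059277665233995527042096997265159473344806912, .ofNat 4238760341652394604692010782051170368332085528193138688, .ofNat 0⟩)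
    (by decide +kernel)
theorem L04671 : Good (Phi V5.P V5.D 1 1) ⟨11, 1771, 10, 588, 5, 19, 6, 28, 7, 56⟩ :=
  out_sound (S := T5.ds_pp) T5.ok_pp (w := 40) (j := 1) (by decide +kernel)
theorem L04672 : Good (Phi V5.P V5.D 1 1) ⟨11, 1771, 10, 588, 6, 38, 6, 29, 7, 56⟩ :=
  out_sound (S := T5.ds_pp) T5.ok_pp (w := 42) (j := 1) (by decide +kernel)
theorem L04673 : Good (Phi V5.P V5.D 1 1) ⟨11, 1771, 10, 588, 6, 39, 6, 29, 7, 56⟩ :=
  out_sound (S := T5.ds_pp) T5.ok_pp (w := 52) (j := 2) (by decide +kernel)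
theorem L04674 : Good (Phi V5.P V5.D 1 1) ⟨11, 1771, 10, 588, 5, 19, 5, 14, 7, 57⟩ :=
  out_sound (S := T5.ds_pp) T5.ok_pp (w := 39) (j := 1) (by decide +kernel)
theorem L04675 : Good (Phi V5.P V5.D 1 1) ⟨11, 1771, 10, 588, 7, 76, 6, 30, 7, 56⟩ :=
  out_sound (S := T5.ds_pp) T5.ok_pp (w := 44) (j := 1) (by decide +kernel)
theorem L04676 : Good (Phi V5.P V5.D 1 1) ⟨11, 1771, 10, 588, 8, 152, 8, 124, 9, 224⟩ :=
  out_sound (S := T5.ds_pp) T5.ok_pp (w := 52) (j := 1) (by decide +kernel)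
theorem L04677 : Good (Phi V5.P V5.D 1 1) ⟨11, 1771, 10, 588, 8, 152, 9, 250, 10, 448⟩ :=
  out_sound (S := T5.ds_pp) T5.ok_pp (w := 55) (j := 1) (by decide +kernel)
theorem L04678 : Good (Phi V5.P V5.D 1 1) ⟨11, 1771, 10, 588, 9, 304, 9, 251, 10, 448⟩ :=
  out_sound (S := T5.ds_pp) T5.ok_pp (w := 57) (j := 1) (by decide +kernel)
theorem L04679 : Good (Phi V5.P V5.D 1 1) ⟨11, 1771, 10, 588, 9, 305, 9, 251, 10, 448⟩ :=
  out_sound (S := T5.ds_pp) T5.ok_pp (w := 70) (j := 2) (by decide +kernel)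
theorem L04680 : Good (Phi V5.P V5.D 1 1) ⟨11, 1771, 10, 588, 8, 152, 8, 125, 10, 449⟩ :=
  out_sound (S := T5.ds_pp) T5.ok_pp (w := 54) (j := 1) (by decide +kernel)
theorem L04681 : Good (Phi V5.P V5.D 1 1) ⟨11, 1771, 10, 588, 8, 152, 7, 62, 9, 225⟩ :=
  out_sound (S := T5.ds_pp) T5.ok_pp (w := 51) (j := 1) (by decide +kernel)
theorem L04682 : Good (Phi V5.P V5.D 1 1) ⟨11, 1771, 10, 588, 10, 608, 9, 252, 10, 448⟩ :=
  out_sound (S := T5.ds_pp) T5.ok_pp (w := 59) (j := 1) (by decide +kernel)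
theorem L04683 : Good (Phi V5.P V5.D 1 1) ⟨11, 1771, 10, 588, 11, 1216, 10, 506, 11, 896⟩ :=
  out_sound (S := T5.ds_pp) T5.ok_pp (w := 64) (j := 1) (by decide +kernel)
theorem L04684 : Good (Phi V5.P V5.D 1 1) ⟨11, 1771, 10, 588, 11, 1216, 10, 507, 11, 896⟩ :=
  out_sound (S := T5.ds_pp) T5.ok_pp (w := 78) (j := 2) (by decide +kernel)
theorem L04685 : Good (Phi V5.P V5.D 1 1) ⟨11, 1771, 10, 588, 11, 1217, 9, 253, 11, 896⟩ :=
  out_sound (S := T5.ds_pp) T5.ok_pp (w := 76) (j := 2) (by decide +kernel)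
theorem L04686 : Good (Phi V5.P V5.D 1 1) ⟨11, 1771, 10, 588, 10, 608, 9, 253, 11, 897⟩ :=
  out_sound (S := T5.ds_pp) T5.ok_pp (w := 74) (j := 2) (by decide +kernel)
theorem L04687 : Good (Phi V5.P V5.D 1 1) ⟨11, 1771, 10, 588, 10, 609, 8, 126, 10, 448⟩ :=
  out_sound (S := T5.ds_pp) T5.ok_pp (w := 70) (j := 2) (by decide +kernel)
theorem L04688 : Good (Phi V5.P V5.D 1 1) ⟨11, 1771, 10, 588, 9, 304, 8, 126, 10, 449⟩ :=
  out_sound (S := T5.ds_pp) T5.ok_pp (w := 56) (j := 1) (by decide +kernel)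
theorem L04689 : Good (Phi V5.P V5.D 1 1) ⟨11, 1771, 10, 588, 9, 304, 8, 127, 9, 224⟩ :=
  out_sound (S := T5.ds_pp) T5.ok_pp (w := 66) (j := 2) (by decide +kernel)
theorem L04690 : Good (Phi V5.P V5.D 1 1) ⟨11, 1771, 10, 588, 9, 305, 7, 63, 9, 224⟩ :=
  out_sound (S := T5.ds_pp) T5.ok_pp (w := 64) (j := 2) (by decide +kernel)
theorem L04691 : Good (Phi V5.P V5.D 1 1) ⟨11, 1771, 10, 588, 8, 152, 7, 63, 9, 225⟩ :=
  out_sound (S := T5.ds_pp) T5.ok_pp (w := 62) (j := 2) (by decide +kernel)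
theorem L04692 : Good (Phi V5.P V5.D 1 1) ⟨11, 1771, 10, 588, 8, 153, 6, 31, 8, 112⟩ :=
  out_sound (S := T5.ds_pp) T5.ok_pp (w := 58) (j := 2) (by decide +kernel)
theorem L04693 : Good (Phi V5.P V5.D 1 1) ⟨11, 1771, 10, 588, 7, 76, 6, 31, 8, 113⟩ :=
  out_sound (S := T5.ds_pp) T5.ok_pp (w := 56) (j := 2) (by decide +kernel)
theorem L04694 : Good (Phi V5.P V5.D 1 1) ⟨11, 1771, 10, 588, 8, 154, 6, 30, 8, 112⟩ :=
  out_sound (S := T5.ds_pp) T5.ok_pp (w := 48) (j := 1) (by decide +kernel)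
theorem L04695 : Good (Phi V5.P V5.D 1 1) ⟨11, 1771, 10, 588, 8, 155, 6, 30, 8, 112⟩ :=
  out_sound (S := T5.ds_pp) T5.ok_pp (w := 58) (j := 2) (by decide +kernel)
theorem L04696 : Good (Phi V5.P V5.D 1 1) ⟨11, 1771, 10, 588, 7, 77, 6, 30, 8, 113⟩ :=
  out_sound (S := T5.ds_pp) T5.ok_pp (w := 46) (j := 1) (by decide +kernel)
theorem L04697 : Good (Phi V5.P V5.D 1 1) ⟨11, 1771, 10, 588, 7, 77, 6, 31, 7, 56⟩ :=
  out_sound (S := T5.ds_pp) T5.ok_pp (w := 54) (j := 2) (by decide +kernel)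
theorem L04698 : Good (Phi V5.P V5.D 1 1) ⟨11, 1771, 10, 588, 6, 38, 5, 15, 7, 57⟩ :=
  out_sound (S := T5.ds_pp) T5.ok_pp (w := 50) (j := 2) (by decide +kernel)
theorem L04699 : Good (Phi V5.P V5.D 1 1) ⟨11, 1771, 10, 588, 6, 39, 5, 15, 6, 28⟩ :=
  out_sound (S := T5.ds_pp) T5.ok_pp (w := 48) (j := 2) (by decide +kernel)
theorem L04700 : Good (Phi V5.P V5.D 1 1) ⟨11, 1771, 10, 588, 4, 9, 4, 7, 6, 29⟩ :=
  out_sound (S := T5.ds_pp) T5.ok_pp (w := 34) (j := 1) (by decide +kernel)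
theorem L04701 : Good (Phi V5.P V5.D 1 1) ⟨11, 1771, 10, 588, 3, 4, 3, 3, 5, 15⟩ :=
  out_sound (S := T5.ds_pp) T5.ok_pp (w := 29) (j := 1) (by decide +kernel)
theorem L04702 : Good (Phi V5.P V5.D 1 1) ⟨11, 1771, 10, 588, 4, 10, 3, 2, 5, 14⟩ :=
  out_sound (S := T5.ds_pp) T5.ok_pp (w := 31) (j := 1) (by decide +kernel)
theorem L04703 : Good (Phi V5.P V5.D 1 1) ⟨11, 1771, 10, 588, 5, 20, 5, 12, 6, 28⟩ :=
  out_sound (S := T5.ds_pp) T5.ok_pp (w := 37) (j := 1) (by decide +kernel)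
theorem L04704 : Good (Phi V5.P V5.D 1 1) ⟨11, 1771, 10, 588, 5, 20, 5, 13, 6, 28⟩ :=
  out_sound (S := T5.ds_pp) T5.ok_pp (w := 46) (j := 2) (by decide +kernel)
theorem L04705 : Good (Phi V5.P V5.D 1 1) ⟨11, 1771, 10, 588, 5, 20, 4, 7, 6, 28⟩ :=
  out_sound (S := T5.ds_pp) T5.ok_pp (w := 44) (j := 2) (by decide +kernel)
theorem L04706 : Good (Phi V5.P V5.D 1 1) ⟨11, 1771, 10, 588, 5, 20, 3, 3, 6, 29⟩ :=
  out_sound (S := T5.ds_pp) T5.ok_pp (w := 42) (j := 2) (by decide +kernel)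
theorem L04707 : Good (Phi V5.P V5.D 1 1) ⟨11, 1771, 10, 588, 5, 21, 3, 3, 5, 14⟩ :=
  out_sound (S := T5.ds_pp) T5.ok_pp (w := 40) (j := 2) (by decide +kernel)
theorem L04708 : Good (Phi V5.P V5.D 1 1) ⟨11, 1771, 10, 588, 4, 10, 2, 1, 5, 15⟩ :=
  out_sound (S := T5.ds_pp) T5.ok_pp (w := 36) (j := 2) (by decide +kernel)
theorem L04709 : Good (Phi V5.P V5.D 1 1) ⟨11, 1771, 10, 588, 4, 11, 2, 1, 4, 7⟩ :=
  out_sound (S := T5.ds_pp) T5.ok_pp (w := 34) (j := 2) (by decide +kernel)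
theorem L04710 : Good (Phi V5.P V5.D 1 1) ⟨11, 1771, 10, 589, 2, 2, 2, 1, 4, 7⟩ :=
  out_sound (S := T5.ds_pp) T5.ok_pp (w := 107) (j := 3) (by decide +kernel)
theorem L04711 : Good (Phi V5.P V5.D 1 1) ⟨10, 885, 9, 295, 2, 2, 2, 1, 4, 7⟩ :=
  out_sound (S := T5.ds_pp) T5.ok_pp (w := 99) (j := 3) (by decide +kernel)
theorem L04712 : Good (Phi V5.P V5.D 1 1) ⟨9, 443, 7, 73, 3, 4, 3, 2, 4, 7⟩ :=
  out_sound (S := T5.ds_pp) T5.ok_pp (w := 27) (j := 1) (by decide +kernel)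
theorem L04713 : Good (Phi V5.P V5.D 1 1) ⟨9, 443, 7, 73, 4, 8, 3, 3, 5, 14⟩ :=
  out_sound (S := T5.ds_pp) T5.ok_pp (w := 31) (j := 1) (by decide +kernel)
theorem L04714 : Good (Phi V5.P V5.D 1 1) ⟨9, 443, 7, 73, 4, 9, 4, 6, 5, 14⟩ :=
  out_sound (S := T5.ds_pp) T5.ok_pp (w := 32) (j := 1) (by decide +kernel)
theorem L04715 : Good (Phi V5.P V5.D 1 1) ⟨9, 443, 7, 73, 5, 18, 4, 7, 6, 28⟩ :=
  leafX_sound T5.ok_pp T5.Ypp.bz_eq (w := 312) (c := ⟨⟨.negSucc 2417, .negSucc 6, .ofNat 0, .negSucc 0, .negSucc 82, .ofNat 1⟩, ⟨.negSucc 1468, .negSucc 8, .negSucc 6, .negSucc 0, .negSucc 50, .ofNat 1⟩, ⟨.ofNat 1262, .ofNat 2, .negSucc 10, .ofNat 1, .ofNat 34, .negSucc 0⟩, ⟨.negSucc 3210, .ofNat 0, .ofNat 2, .negSucc 0, .negSucc 89, .ofNat 2⟩, ⟨.negSucc 488, .negSucc 0, .negSucc 0, .ofNat 0, .negSucc 47, .ofNat 0⟩, .ofNat 165, .negSucc 53, .ofNat 0, .negSucc 53, .ofNat 219,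 .ofNat 0, .ofNat 145, .ofNat 58, .negSucc 16, .ofNat 0, .ofNat 128, .negSucc 3, .ofNat 0, .ofNat 0, .ofNat 450, .ofNat 3880170, .ofNat 0, .ofNat 0, .ofNat 0, .ofNat 0, .ofNat 972515310055885490424569948464448931460372644071620758234706334449664, .ofNat 3677216281323936168307474766295815068046310373584650388251063877632, .ofNat 0, .ofNat 0, .ofNat 663204491371877322263306869172477646444385799090823078821013026242560, .ofNat 0, .ofNat 1523457548214724034345510281051052117331043417810010112, .ofNat 0, .ofNat 1490667049962855379120995349948504707666022348170232917856910133166080, .ofNat 1249021752974215838266196145970989466009723983549764870332487827456, .ofNat 0, .ofNat 0⟩)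
    (by decide +kernel)
theorem L04716 : Good (Phi V5.P V5.D 1 1) ⟨9, 443, 7, 73, 5, 19, 6, 28, 7, 56⟩ :=
  out_sound (S := T5.ds_pp) T5.ok_pp (w := 40) (j := 1) (by decide +kernel)
theorem L04717 : Good (Phi V5.P V5.D 1 1) ⟨9, 443, 7, 73, 6, 38, 6, 29, 7, 56⟩ :=
  out_sound (S := T5.ds_pp) T5.ok_pp (w := 42) (j := 1) (by decide +kernel)
theorem L04718 : Good (Phi V5.P V5.D 1 1) ⟨9, 443, 7, 73, 6, 39, 6, 29, 7, 56⟩ :=
  out_sound (S := T5.ds_pp) T5.ok_pp (w := 52) (j := 2) (by decide +kernel)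
theorem L04719 : Good (Phi V5.P V5.D 1 1) ⟨9, 443, 7, 73, 5, 19, 5, 14, 7, 57⟩ :=
  out_sound (S := T5.ds_pp) T5.ok_pp (w := 39) (j := 1) (by decide +kernel)
theorem L04720 : Good (Phi V5.P V5.D 1 1) ⟨9, 443, 7, 73, 7, 76, 6, 30, 7, 56⟩ :=
  out_sound (S := T5.ds_pp) T5.ok_pp (w := 44) (j := 1) (by decide +kernel)
theorem L04721 : Good (Phi V5.P V5.D 1 1) ⟨9, 443, 7, 73, 8, 152, 8, 124, 9, 224⟩ :=
  out_sound (S := T5.ds_pp) T5.ok_pp (w := 52) (j := 1) (by decide +kernel)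
theorem L04722 : Good (Phi V5.P V5.D 1 1) ⟨9, 443, 7, 73, 8, 152, 9, 250, 10, 448⟩ :=
  out_sound (S := T5.ds_pp) T5.ok_pp (w := 55) (j := 1) (by decide +kernel)
theorem L04723 : Good (Phi V5.P V5.D 1 1) ⟨9, 443, 7, 73, 9, 304, 9, 251, 10, 448⟩ :=
  out_sound (S := T5.ds_pp) T5.ok_pp (w := 57) (j := 1) (by decide +kernel)
theorem L04724 : Good (Phi V5.P V5.D 1 1) ⟨9, 443, 7, 73, 9, 305, 9, 251, 10, 448⟩ :=
  out_sound (S := T5.ds_pp) T5.ok_pp (w := 70) (j := 2) (by decide +kernel)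
theorem L04725 : Good (Phi V5.P V5.D 1 1) ⟨9, 443, 7, 73, 8, 152, 8, 125, 10, 449⟩ :=
  out_sound (S := T5.ds_pp) T5.ok_pp (w := 54) (j := 1) (by decide +kernel)
theorem L04726 : Good (Phi V5.P V5.D 1 1) ⟨9, 443, 7, 73, 8, 152, 7, 62, 9, 225⟩ :=
  out_sound (S := T5.ds_pp) T5.ok_pp (w := 51) (j := 1) (by decide +kernel)
theorem L04727 : Good (Phi V5.P V5.D 1 1) ⟨9, 443, 7, 73, 10, 608, 9, 252, 10, 448⟩ :=
  out_sound (S := T5.ds_pp) T5.ok_pp (w := 59) (j := 1) (by decide +kernel)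
theorem L04728 : Good (Phi V5.P V5.D 1 1) ⟨9, 443, 7, 73, 11, 1216, 10, 506, 11, 896⟩ :=
  out_sound (S := T5.ds_pp) T5.ok_pp (w := 64) (j := 1) (by decide +kernel)
theorem L04729 : Good (Phi V5.P V5.D 1 1) ⟨9, 443, 7, 73, 11, 1216, 10, 507, 11, 896⟩ :=
  out_sound (S := T5.ds_pp) T5.ok_pp (w := 78) (j := 2) (by decide +kernel)
theorem L04730 : Good (Phi V5.P V5.D 1 1) ⟨9, 443, 7, 73, 11, 1217, 9, 253, 11, 896⟩ :=
  out_sound (S := T5.ds_pp) T5.ok_pp (w := 76) (j := 2) (by decide +kernel)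
theorem L04731 : Good (Phi V5.P V5.D 1 1) ⟨9, 443, 7, 73, 10, 608, 9, 253, 11, 897⟩ :=
  out_sound (S := T5.ds_pp) T5.ok_pp (w := 74) (j := 2) (by decide +kernel)
theorem L04732 : Good (Phi V5.P V5.D 1 1) ⟨9, 443, 7, 73, 10, 609, 8, 126, 10, 448⟩ :=
  out_sound (S := T5.ds_pp) T5.ok_pp (w := 70) (j := 2) (by decide +kernel)
theorem L04733 : Good (Phi V5.P V5.D 1 1) ⟨9, 443, 7, 73, 9, 304, 8, 126, 10, 449⟩ :=
  out_sound (S := T5.ds_pp) T5.ok_pp (w := 56) (j := 1) (by decide +kernel)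
theorem L04734 : Good (Phi V5.P V5.D 1 1) ⟨9, 443, 7, 73, 9, 304, 8, 127, 9, 224⟩ :=
  out_sound (S := T5.ds_pp) T5.ok_pp (w := 66) (j := 2) (by decide +kernel)
theorem L04735 : Good (Phi V5.P V5.D 1 1) ⟨9, 443, 7, 73, 9, 305, 7, 63, 9, 224⟩ :=
  out_sound (S := T5.ds_pp) T5.ok_pp (w := 64) (j := 2) (by decide +kernel)
theorem L04736 : Good (Phi V5.P V5.D 1 1) ⟨9, 443, 7, 73, 8, 152, 7, 63, 9, 225⟩ :=
  out_sound (S := T5.ds_pp) T5.ok_pp (w := 62) (j := 2) (by decide +kernel)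
theorem L04737 : Good (Phi V5.P V5.D 1 1) ⟨9, 443, 7, 73, 8, 153, 6, 31, 8, 112⟩ :=
  out_sound (S := T5.ds_pp) T5.ok_pp (w := 58) (j := 2) (by decide +kernel)
theorem L04738 : Good (Phi V5.P V5.D 1 1) ⟨9, 443, 7, 73, 7, 76, 6, 31, 8, 113⟩ :=
  out_sound (S := T5.ds_pp) T5.ok_pp (w := 56) (j := 2) (by decide +kernel)
theorem L04739 : Good (Phi V5.P V5.D 1 1) ⟨9, 443, 7, 73, 8, 154, 6, 30, 8, 112⟩ :=
  out_sound (S := T5.ds_pp) T5.ok_pp (w := 48) (j := 1) (by decide +kernel)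
theorem L04740 : Good (Phi V5.P V5.D 1 1) ⟨9, 443, 7, 73, 8, 155, 6, 30, 8, 112⟩ :=
  out_sound (S := T5.ds_pp) T5.ok_pp (w := 58) (j := 2) (by decide +kernel)
theorem L04741 : Good (Phi V5.P V5.D 1 1) ⟨9, 443, 7, 73, 7, 77, 6, 30, 8, 113⟩ :=
  out_sound (S := T5.ds_pp) T5.ok_pp (w := 46) (j := 1) (by decide +kernel)
theorem L04742 : Good (Phi V5.P V5.D 1 1) ⟨9, 443, 7, 73, 7, 77, 6, 31, 7, 56⟩ :=
  out_sound (S := T5.ds_pp) T5.ok_pp (w := 54) (j := 2) (by decide +kernel)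
theorem L04743 : Good (Phi V5.P V5.D 1 1) ⟨9, 443, 7, 73, 6, 38, 5, 15, 7, 57⟩ :=
  out_sound (S := T5.ds_pp) T5.ok_pp (w := 50) (j := 2) (by decide +kernel)
theorem L04744 : Good (Phi V5.P V5.D 1 1) ⟨9, 443, 7, 73, 6, 39, 5, 15, 6, 28⟩ :=
  out_sound (S := T5.ds_pp) T5.ok_pp (w := 48) (j := 2) (by decide +kernel)
theorem L04745 : Good (Phi V5.P V5.D 1 1) ⟨9, 443, 7, 73, 4, 9, 4, 7, 6, 29⟩ :=
  out_sound (S := T5.ds_pp) T5.ok_pp (w := 34) (j := 1) (by decide +kernel)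
theorem L04746 : Good (Phi V5.P V5.D 1 1) ⟨9, 443, 7, 73, 3, 4, 3, 3, 5, 15⟩ :=
  out_sound (S := T5.ds_pp) T5.ok_pp (w := 29) (j := 1) (by decide +kernel)
theorem L04747 : Good (Phi V5.P V5.D 1 1) ⟨9, 443, 7, 73, 4, 10, 3, 2, 5, 14⟩ :=
  out_sound (S := T5.ds_pp) T5.ok_pp (w := 31) (j := 1) (by decide +kernel)
theorem L04748 : Good (Phi V5.P V5.D 1 1) ⟨9, 443, 7, 73, 5, 20, 5, 12, 6, 28⟩ :=
  out_sound (S := T5.ds_pp) T5.ok_pp (w := 37) (j := 1) (by decide +kernel)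
theorem L04749 : Good (Phi V5.P V5.D 1 1) ⟨9, 443, 7, 73, 5, 20, 5, 13, 6, 28⟩ :=
  out_sound (S := T5.ds_pp) T5.ok_pp (w := 46) (j := 2) (by decide +kernel)
theorem L04750 : Good (Phi V5.P V5.D 1 1) ⟨9, 443, 7, 73, 5, 20, 4, 7, 6, 28⟩ :=
  out_sound (S := T5.ds_pp) T5.ok_pp (w := 44) (j := 2) (by decide +kernel)
theorem L04751 : Good (Phi V5.P V5.D 1 1) ⟨9, 443, 7, 73, 5, 20, 3, 3, 6, 29⟩ :=
  out_sound (S := T5.ds_pp) T5.ok_pp (w := 42) (j := 2) (by decide +kernel)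
theorem L04752 : Good (Phi V5.P V5.D 1 1) ⟨9, 443, 7, 73, 5, 21, 3, 3, 5, 14⟩ :=
  out_sound (S := T5.ds_pp) T5.ok_pp (w := 40) (j := 2) (by decide +kernel)
theorem L04753 : Good (Phi V5.P V5.D 1 1) ⟨9, 443, 7, 73, 4, 10, 2, 1, 5, 15⟩ :=
  out_sound (S := T5.ds_pp) T5.ok_pp (w := 36) (j := 2) (by decide +kernel)
theorem L04754 : Good (Phi V5.P V5.D 1 1) ⟨9, 443, 7, 73, 4, 11, 2, 1, 4, 7⟩ :=
  out_sound (S := T5.ds_pp) T5.ok_pp (w := 34) (j := 2) (by decide +kernel)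
theorem L04755 : Good (Phi V5.P V5.D 1 1) ⟨8, 221, 7, 73, 2, 3, 1, 0, 4, 7⟩ :=
  out_sound (S := T5.ds_pp) T5.ok_pp (w := 28) (j := 2) (by decide +kernel)
theorem L04756 : Good (Phi V5.P V5.D 1 1) ⟨8, 222, 6, 36, 2, 2, 2, 0, 4, 7⟩ :=
  out_sound (S := T5.ds_pp) T5.ok_pp (w := 24) (j := 1) (by decide +kernel)
theorem L04757 : Good (Phi V5.P V5.D 1 1) ⟨11, 1776, 10, 576, 2, 2, 2, 1, 4, 7⟩ :=
  out_sound (S := T5.ds_pp) T5.ok_pp (w := 107) (j := 3) (by decide +kernel)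
theorem L04758 : Good (Phi V5.P V5.D 1 1) ⟨12, 3552, 10, 577, 3, 4, 3, 2, 4, 7⟩ :=
  out_sound (S := T5.ds_pp) T5.ok_pp (w := 27) (j := 1) (by decide +kernel)
theorem L04759 : Good (Phi V5.P V5.D 1 1) ⟨12, 3552, 10, 577, 4, 8, 3, 3, 5, 14⟩ :=
  out_sound (S := T5.ds_pp) T5.ok_pp (w := 31) (j := 1) (by decide +kernel)
theorem L04760 : Good (Phi V5.P V5.D 1 1) ⟨12, 3552, 10, 577, 4, 9, 4, 6, 5, 14⟩ :=
  out_sound (S := T5.ds_pp) T5.ok_pp (w := 32) (j := 1) (by decide +kernel)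
theorem L04761 : Good (Phi V5.P V5.D 1 1) ⟨12, 3552, 10, 577, 5, 18, 4, 7, 6, 28⟩ :=
  leafX_sound T5.ok_pp T5.Ypp.bz_eq (w := 333) (c := ⟨⟨.negSucc 2423, .negSucc 0, .ofNat 0, .negSucc 0, .negSucc 82, .ofNat 1⟩, ⟨.negSucc 1470, .negSucc 0, .negSucc 0, .negSucc 0, .negSucc 51, .ofNat 1⟩, ⟨.ofNat 1271, .ofNat 0, .negSucc 0, .ofNat 1, .ofNat 37, .negSucc 0⟩, ⟨.negSucc 3211, .ofNat 0, .ofNat 0, .negSucc 0, .negSucc 90, .ofNat 2⟩, ⟨.negSucc 487, .ofNat 0, .ofNat 0, .ofNat 0, .negSucc 48, .ofNat 0⟩, .ofNat 165, .negSucc 53, .ofNat 0, .negSucc 53, .ofNat 218, .ofNat 0, .ofNat 144, .ofNat 57, .negSucc 16, .ofNat 0, .ofNat 128, .negSucc 3, .ofNat 0, .ofNat 0, .ofNat 449, .ofNat 3786233, .ofNat 0, .ofNat 0, .ofNat 0, .ofNat 0, .ofNat 1994541614874845988393802360855176988389039808016610963819734942927657369600, .ofNat 7436317765195207735437167486168595740024749086806497708041443152058384384,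 .ofNat 857927631903278161689789399650706150847424201695952896, .ofNat 0, .ofNat 1361811504352186297281643693605139550240864762927875650674732018378129539072, .ofNat 0, .ofNat 1253307431939088567352203763810669751582020473777553408, .ofNat 0, .ofNat 2986118676073159938275302844371589345681559885577272458845099599849089662976, .ofNat 2575372030288242490732119188533005762928252808744055914505662384167714816, .ofNat 0, .ofNat 0⟩)
    (by decide +kernel)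
theorem L04762 : Good (Phi V5.P V5.D 1 1) ⟨12, 3552, 10, 577, 5, 19, 6, 28, 7, 56⟩ :=
  out_sound (S := T5.ds_pp) T5.ok_pp (w := 40) (j := 1) (by decide +kernel)
theorem L04763 : Good (Phi V5.P V5.D 1 1) ⟨12, 3552, 10, 577, 6, 38, 6, 29, 7, 56⟩ :=
  out_sound (S := T5.ds_pp) T5.ok_pp (w := 42) (j := 1) (by decide +kernel)
theorem L04764 : Good (Phi V5.P V5.D 1 1) ⟨12, 3552, 10, 577, 6, 39, 6, 29, 7, 56⟩ :=
  out_sound (S := T5.ds_pp) T5.ok_pp (w := 52) (j := 2) (by decide +kernel)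
theorem L04765 : Good (Phi V5.P V5.D 1 1) ⟨12, 3552, 10, 577, 5, 19, 5, 14, 7, 57⟩ :=
  out_sound (S := T5.ds_pp) T5.ok_pp (w := 39) (j := 1) (by decide +kernel)
theorem L04766 : Good (Phi V5.P V5.D 1 1) ⟨12, 3552, 10, 577, 7, 76, 6, 30, 7, 56⟩ :=
  out_sound (S := T5.ds_pp) T5.ok_pp (w := 44) (j := 1) (by decide +kernel)
theorem L04767 : Good (Phi V5.P V5.D 1 1) ⟨12, 3552, 10, 577, 8, 152, 8, 124, 9, 224⟩ :=
  out_sound (S := T5.ds_pp) T5.ok_pp (w := 52) (j := 1) (by decide +kernel)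
theorem L04768 : Good (Phi V5.P V5.D 1 1) ⟨12, 3552, 10, 577, 8, 152, 9, 250, 10, 448⟩ :=
  out_sound (S := T5.ds_pp) T5.ok_pp (w := 55) (j := 1) (by decide +kernel)
theorem L04769 : Good (Phi V5.P V5.D 1 1) ⟨12, 3552, 10, 577, 9, 304, 9, 251, 10, 448⟩ :=
  out_sound (S := T5.ds_pp) T5.ok_pp (w := 57) (j := 1) (by decide +kernel)
theorem L04770 : Good (Phi V5.P V5.D 1 1) ⟨12, 3552, 10, 577, 9, 305, 9, 251, 10, 448⟩ :=
  out_sound (S := T5.ds_pp) T5.ok_pp (w := 70) (j := 2) (by decide +kernel)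
theorem L04771 : Good (Phi V5.P V5.D 1 1) ⟨12, 3552, 10, 577, 8, 152, 8, 125, 10, 449⟩ :=
  out_sound (S := T5.ds_pp) T5.ok_pp (w := 54) (j := 1) (by decide +kernel)
theorem L04772 : Good (Phi V5.P V5.D 1 1) ⟨12, 3552, 10, 577, 8, 152, 7, 62, 9, 225⟩ :=
  out_sound (S := T5.ds_pp) T5.ok_pp (w := 51) (j := 1) (by decide +kernel)
theorem L04773 : Good (Phi V5.P V5.D 1 1) ⟨12, 3552, 10, 577, 10, 608, 9, 252, 10, 448⟩ :=
  out_sound (S := T5.ds_pp) T5.ok_pp (w := 59) (j := 1) (by decide +kernel)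
theorem L04774 : Good (Phi V5.P V5.D 1 1) ⟨12, 3552, 10, 577, 11, 1216, 10, 506, 11, 896⟩ :=
  out_sound (S := T5.ds_pp) T5.ok_pp (w := 64) (j := 1) (by decide +kernel)
theorem L04775 : Good (Phi V5.P V5.D 1 1) ⟨12, 3552, 10, 577, 11, 1216, 10, 507, 11, 896⟩ :=
  out_sound (S := T5.ds_pp) T5.ok_pp (w := 78) (j := 2) (by decide +kernel)
theorem L04776 : Good (Phi V5.P V5.D 1 1) ⟨12, 3552, 10, 577, 11, 1217, 9, 253, 11, 896⟩ :=
  out_sound (S := T5.ds_pp) T5.ok_pp (w := 76) (j := 2) (by decide +kernel)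
theorem L04777 : Good (Phi V5.P V5.D 1 1) ⟨12, 3552, 10, 577, 10, 608, 9, 253, 11, 897⟩ :=
  out_sound (S := T5.ds_pp) T5.ok_pp (w := 74) (j := 2) (by decide +kernel)
theorem L04778 : Good (Phi V5.P V5.D 1 1) ⟨12, 3552, 10, 577, 10, 609, 8, 126, 10, 448⟩ :=
  out_sound (S := T5.ds_pp) T5.ok_pp (w := 70) (j := 2) (by decide +kernel)
theorem L04779 : Good (Phi V5.P V5.D 1 1) ⟨12, 3552, 10, 577, 9, 304, 8, 126, 10, 449⟩ :=
  out_sound (S := T5.ds_pp) T5.ok_pp (w := 56) (j := 1) (by decide +kernel)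
theorem L04780 : Good (Phi V5.P V5.D 1 1) ⟨12, 3552, 10, 577, 9, 304, 8, 127, 9, 224⟩ :=
  out_sound (S := T5.ds_pp) T5.ok_pp (w := 66) (j := 2) (by decide +kernel)
theorem L04781 : Good (Phi V5.P V5.D 1 1) ⟨12, 3552, 10, 577, 9, 305, 7, 63, 9, 224⟩ :=
  out_sound (S := T5.ds_pp) T5.ok_pp (w := 64) (j := 2) (by decide +kernel)
theorem L04782 : Good (Phi V5.P V5.D 1 1) ⟨12, 3552, 10, 577, 8, 152, 7, 63, 9, 225⟩ :=
  out_sound (S := T5.ds_pp) T5.ok_pp (w := 62) (j := 2) (by decide +kernel)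
theorem L04783 : Good (Phi V5.P V5.D 1 1) ⟨12, 3552, 10, 577, 8, 153, 6, 31, 8, 112⟩ :=
  out_sound (S := T5.ds_pp) T5.ok_pp (w := 58) (j := 2) (by decide +kernel)
theorem L04784 : Good (Phi V5.P V5.D 1 1) ⟨12, 3552, 10, 577, 7, 76, 6, 31, 8, 113⟩ :=
  out_sound (S := T5.ds_pp) T5.ok_pp (w := 56) (j := 2) (by decide +kernel)
theorem L04785 : Good (Phi V5.P V5.D 1 1) ⟨12, 3552, 10, 577, 8, 154, 6, 30, 8, 112⟩ :=
  out_sound (S := T5.ds_pp) T5.ok_pp (w := 48) (j := 1) (by decide +kernel)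
theorem L04786 : Good (Phi V5.P V5.D 1 1) ⟨12, 3552, 10, 577, 8, 155, 6, 30, 8, 112⟩ :=
  out_sound (S := T5.ds_pp) T5.ok_pp (w := 58) (j := 2) (by decide +kernel)
theorem L04787 : Good (Phi V5.P V5.D 1 1) ⟨12, 3552, 10, 577, 7, 77, 6, 30, 8, 113⟩ :=
  out_sound (S := T5.ds_pp) T5.ok_pp (w := 46) (j := 1) (by decide +kernel)
theorem L04788 : Good (Phi V5.P V5.D 1 1) ⟨12, 3552, 10, 577, 7, 77, 6, 31, 7, 56⟩ :=
  out_sound (S := T5.ds_pp) T5.ok_pp (w := 54) (j := 2) (by decide +kernel)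
theorem L04789 : Good (Phi V5.P V5.D 1 1) ⟨12, 3552, 10, 577, 6, 38, 5, 15, 7, 57⟩ :=
  out_sound (S := T5.ds_pp) T5.ok_pp (w := 50) (j := 2) (by decide +kernel)
theorem L04790 : Good (Phi V5.P V5.D 1 1) ⟨12, 3552, 10, 577, 6, 39, 5, 15, 6, 28⟩ :=
  out_sound (S := T5.ds_pp) T5.ok_pp (w := 48) (j := 2) (by decide +kernel)
theorem L04791 : Good (Phi V5.P V5.D 1 1) ⟨12, 3552, 10, 577, 4, 9, 4, 7, 6, 29⟩ :=
  out_sound (S := T5.ds_pp) T5.ok_pp (w := 34) (j := 1) (by decide +kernel)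
theorem L04792 : Good (Phi V5.P V5.D 1 1) ⟨12, 3552, 10, 577, 3, 4, 3, 3, 5, 15⟩ :=
  out_sound (S := T5.ds_pp) T5.ok_pp (w := 29) (j := 1) (by decide +kernel)
theorem L04793 : Good (Phi V5.P V5.D 1 1) ⟨12, 3552, 10, 577, 4, 10, 3, 2, 5, 14⟩ :=
  out_sound (S := T5.ds_pp) T5.ok_pp (w := 31) (j := 1) (by decide +kernel)
theorem L04794 : Good (Phi V5.P V5.D 1 1) ⟨12, 3552, 10, 577, 5, 20, 5, 12, 6, 28⟩ :=
  out_sound (S := T5.ds_pp) T5.ok_pp (w := 37) (j := 1) (by decide +kernel)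
theorem L04795 : Good (Phi V5.P V5.D 1 1) ⟨12, 3552, 10, 577, 5, 20, 5, 13, 6, 28⟩ :=
  out_sound (S := T5.ds_pp) T5.ok_pp (w := 46) (j := 2) (by decide +kernel)
theorem L04796 : Good (Phi V5.P V5.D 1 1) ⟨12, 3552, 10, 577, 5, 20, 4, 7, 6, 28⟩ :=
  out_sound (S := T5.ds_pp) T5.ok_pp (w := 44) (j := 2) (by decide +kernel)
theorem L04797 : Good (Phi V5.P V5.D 1 1) ⟨12, 3552, 10, 577, 5, 20, 3, 3, 6, 29⟩ :=
  out_sound (S := T5.ds_pp) T5.ok_pp (w := 42) (j := 2) (by decide +kernel)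
theorem L04798 : Good (Phi V5.P V5.D 1 1) ⟨12, 3552, 10, 577, 5, 21, 3, 3, 5, 14⟩ :=
  out_sound (S := T5.ds_pp) T5.ok_pp (w := 40) (j := 2) (by decide +kernel)
theorem L04799 : Good (Phi V5.P V5.D 1 1) ⟨12, 3552, 10, 577, 4, 10, 2, 1, 5, 15⟩ :=
  out_sound (S := T5.ds_pp) T5.ok_pp (w := 36) (j := 2) (by decide +kernel)
theorem L04800 : Good (Phi V5.P V5.D 1 1) ⟨12, 3552, 10, 577, 4, 11, 2, 1, 4, 7⟩ :=
  out_sound (S := T5.ds_pp) T5.ok_pp (w := 34) (j := 2) (by decide +kernel)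
theorem L04801 : Good (Phi V5.P V5.D 1 1) ⟨12, 3553, 10, 577, 2, 2, 2, 1, 4, 7⟩ :=
  out_sound (S := T5.ds_pp) T5.ok_pp (w := 113) (j := 3) (by decide +kernel)
theorem L04802 : Good (Phi V5.P V5.D 1 1) ⟨11, 1777, 9, 288, 2, 2, 2, 1, 4, 7⟩ :=
  out_sound (S := T5.ds_pp) T5.ok_pp (w := 105) (j := 3) (by decide +kernel)
theorem L04803 : Good (Phi V5.P V5.D 1 1) ⟨10, 888, 9, 289, 3, 4, 3, 2, 4, 7⟩ :=
  out_sound (S := T5.ds_pp) T5.ok_pp (w := 27) (j := 1) (by decide +kernel)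
theorem L04804 : Good (Phi V5.P V5.D 1 1) ⟨10, 888, 9, 289, 4, 8, 3, 3, 5, 14⟩ :=
  out_sound (S := T5.ds_pp) T5.ok_pp (w := 31) (j := 1) (by decide +kernel)
theorem L04805 : Good (Phi V5.P V5.D 1 1) ⟨10, 888, 9, 289, 4, 9, 4, 6, 5, 14⟩ :=
  out_sound (S := T5.ds_pp) T5.ok_pp (w := 32) (j := 1) (by decide +kernel)
theorem L04806 : Good (Phi V5.P V5.D 1 1) ⟨10, 888, 9, 289, 5, 18, 4, 7, 6, 28⟩ :=
  leafX_sound T5.ok_pp T5.Ypp.bz_eq (w := 322) (c := ⟨⟨.negSucc 2423, .negSucc 3, .ofNat 0, .negSucc 0, .negSucc 82, .ofNat 1⟩, ⟨.negSucc 1471, .negSucc 4, .negSucc 1, .negSucc 0, .negSucc 51, .ofNat 1⟩, ⟨.ofNat 1270, .ofNat 1, .negSucc 2, .ofNat 1, .ofNat 36, .negSucc 0⟩, ⟨.negSucc 3211, .ofNat 0, .ofNat 1, .negSucc 0, .negSucc 90, .ofNat 2⟩, ⟨.negSucc 487, .ofNat 0, .ofNat 0, .ofNat 0, .negSucc 48, .ofNat 0⟩, .ofNat 165, .negSucc 53, .ofNat 0, .negSucc 53, .ofNat 218,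 .ofNat 0, .ofNat 144, .ofNat 57, .negSucc 16, .ofNat 0, .ofNat 128, .negSucc 3, .ofNat 0, .ofNat 0, .ofNat 449, .ofNat 3891572, .ofNat 0, .ofNat 0, .ofNat 0, .ofNat 0, .ofNat 1008267464406184332502875452017768878707804011144763799933866981973819392, .ofNat 3687955590712632702852712006164380372840218752721482946205236884144128, .ofNat 4546807201619866260493464342955811174770084889174736896, .ofNat 0, .ofNat 684831136300015119853801986080687295571371365317459915607715790475755520, .ofNat 0, .ofNat 0, .ofNat 0, .ofNat 1508489610752883369691135876580301237266562064167502074135605915257143296, .ofNat 1210425013591495444343570535335583004734367213143885631134672015589376, .ofNat 0, .ofNat 0⟩)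
    (by decide +kernel)
theorem L04807 : Good (Phi V5.P V5.D 1 1) ⟨10, 888, 9, 289, 5, 19, 6, 28, 7, 56⟩ :=
  out_sound (S := T5.ds_pp) T5.ok_pp (w := 40) (j := 1) (by decide +kernel)
theorem L04808 : Good (Phi V5.P V5.D 1 1) ⟨10, 888, 9, 289, 6, 38, 6, 29, 7, 56⟩ :=
  out_sound (S := T5.ds_pp) T5.ok_pp (w := 42) (j := 1) (by decide +kernel)
theorem L04809 : Good (Phi V5.P V5.D 1 1) ⟨10, 888, 9, 289, 6, 39, 6, 29, 7, 56⟩ :=
  out_sound (S := T5.ds_pp) T5.ok_pp (w := 52) (j := 2) (by decide +kernel)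
theorem L04810 : Good (Phi V5.P V5.D 1 1) ⟨10, 888, 9, 289, 5, 19, 5, 14, 7, 57⟩ :=
  out_sound (S := T5.ds_pp) T5.ok_pp (w := 39) (j := 1) (by decide +kernel)
theorem L04811 : Good (Phi V5.P V5.D 1 1) ⟨10, 888, 9, 289, 7, 76, 6, 30, 7, 56⟩ :=
  out_sound (S := T5.ds_pp) T5.ok_pp (w := 44) (j := 1) (by decide +kernel)
theorem L04812 : Good (Phi V5.P V5.D 1 1) ⟨10, 888, 9, 289, 8, 152, 8, 124, 9, 224⟩ :=
  out_sound (S := T5.ds_pp) T5.ok_pp (w := 52) (j := 1) (by decide +kernel)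
theorem L04813 : Good (Phi V5.P V5.D 1 1) ⟨10, 888, 9, 289, 8, 152, 9, 250, 10, 448⟩ :=
  out_sound (S := T5.ds_pp) T5.ok_pp (w := 55) (j := 1) (by decide +kernel)
theorem L04814 : Good (Phi V5.P V5.D 1 1) ⟨10, 888, 9, 289, 9, 304, 9, 251, 10, 448⟩ :=
  out_sound (S := T5.ds_pp) T5.ok_pp (w := 57) (j := 1) (by decide +kernel)
theorem L04815 : Good (Phi V5.P V5.D 1 1) ⟨10, 888, 9, 289, 9, 305, 9, 251, 10, 448⟩ :=
  out_sound (S := T5.ds_pp) T5.ok_pp (w := 70) (j := 2) (by decide +kernel)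
theorem L04816 : Good (Phi V5.P V5.D 1 1) ⟨10, 888, 9, 289, 8, 152, 8, 125, 10, 449⟩ :=
  out_sound (S := T5.ds_pp) T5.ok_pp (w := 54) (j := 1) (by decide +kernel)
theorem L04817 : Good (Phi V5.P V5.D 1 1) ⟨10, 888, 9, 289, 8, 152, 7, 62, 9, 225⟩ :=
  out_sound (S := T5.ds_pp) T5.ok_pp (w := 51) (j := 1) (by decide +kernel)
theorem L04818 : Good (Phi V5.P V5.D 1 1) ⟨10, 888, 9, 289, 10, 608, 9, 252, 10, 448⟩ :=
  out_sound (S := T5.ds_pp) T5.ok_pp (w := 59) (j := 1) (by decide +kernel)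
theorem L04819 : Good (Phi V5.P V5.D 1 1) ⟨10, 888, 9, 289, 11, 1216, 10, 506, 11, 896⟩ :=
  out_sound (S := T5.ds_pp) T5.ok_pp (w := 64) (j := 1) (by decide +kernel)
theorem L04820 : Good (Phi V5.P V5.D 1 1) ⟨10, 888, 9, 289, 11, 1216, 10, 507, 11, 896⟩ :=
  out_sound (S := T5.ds_pp) T5.ok_pp (w := 78) (j := 2) (by decide +kernel)
theorem L04821 : Good (Phi V5.P V5.D 1 1) ⟨10, 888, 9, 289, 11, 1217, 9, 253, 11, 896⟩ :=
  out_sound (S := T5.ds_pp) T5.ok_pp (w := 76) (j := 2) (by decide +kernel)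
theorem L04822 : Good (Phi V5.P V5.D 1 1) ⟨10, 888, 9, 289, 10, 608, 9, 253, 11, 897⟩ :=
  out_sound (S := T5.ds_pp) T5.ok_pp (w := 74) (j := 2) (by decide +kernel)
theorem L04823 : Good (Phi V5.P V5.D 1 1) ⟨10, 888, 9, 289, 10, 609, 8, 126, 10, 448⟩ :=
  out_sound (S := T5.ds_pp) T5.ok_pp (w := 70) (j := 2) (by decide +kernel)
theorem L04824 : Good (Phi V5.P V5.D 1 1) ⟨10, 888, 9, 289, 9, 304, 8, 126, 10, 449⟩ :=
  out_sound (S := T5.ds_pp) T5.ok_pp (w := 56) (j := 1) (by decide +kernel)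
theorem L04825 : Good (Phi V5.P V5.D 1 1) ⟨10, 888, 9, 289, 9, 304, 8, 127, 9, 224⟩ :=
  out_sound (S := T5.ds_pp) T5.ok_pp (w := 66) (j := 2) (by decide +kernel)
theorem L04826 : Good (Phi V5.P V5.D 1 1) ⟨10, 888, 9, 289, 9, 305, 7, 63, 9, 224⟩ :=
  out_sound (S := T5.ds_pp) T5.ok_pp (w := 64) (j := 2) (by decide +kernel)
theorem L04827 : Good (Phi V5.P V5.D 1 1) ⟨10, 888, 9, 289, 8, 152, 7, 63, 9, 225⟩ :=
  out_sound (S := T5.ds_pp) T5.ok_pp (w := 62) (j := 2) (by decide +kernel)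
theorem L04828 : Good (Phi V5.P V5.D 1 1) ⟨10, 888, 9, 289, 8, 153, 6, 31, 8, 112⟩ :=
  out_sound (S := T5.ds_pp) T5.ok_pp (w := 58) (j := 2) (by decide +kernel)
theorem L04829 : Good (Phi V5.P V5.D 1 1) ⟨10, 888, 9, 289, 7, 76, 6, 31, 8, 113⟩ :=
  out_sound (S := T5.ds_pp) T5.ok_pp (w := 56) (j := 2) (by decide +kernel)
theorem L04830 : Good (Phi V5.P V5.D 1 1) ⟨10, 888, 9, 289, 8, 154, 6, 30, 8, 112⟩ :=
  out_sound (S := T5.ds_pp) T5.ok_pp (w := 48) (j := 1) (by decide +kernel)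
theorem L04831 : Good (Phi V5.P V5.D 1 1) ⟨10, 888, 9, 289, 8, 155, 6, 30, 8, 112⟩ :=
  out_sound (S := T5.ds_pp) T5.ok_pp (w := 58) (j := 2) (by decide +kernel)
theorem L04832 : Good (Phi V5.P V5.D 1 1) ⟨10, 888, 9, 289, 7, 77, 6, 30, 8, 113⟩ :=
  out_sound (S := T5.ds_pp) T5.ok_pp (w := 46) (j := 1) (by decide +kernel)
theorem L04833 : Good (Phi V5.P V5.D 1 1) ⟨10, 888, 9, 289, 7, 77, 6, 31, 7, 56⟩ :=
  out_sound (S := T5.ds_pp) T5.ok_pp (w := 54) (j := 2) (by decide +kernel)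
theorem L04834 : Good (Phi V5.P V5.D 1 1) ⟨10, 888, 9, 289, 6, 38, 5, 15, 7, 57⟩ :=
  out_sound (S := T5.ds_pp) T5.ok_pp (w := 50) (j := 2) (by decide +kernel)
theorem L04835 : Good (Phi V5.P V5.D 1 1) ⟨10, 888, 9, 289, 6, 39, 5, 15, 6, 28⟩ :=
  out_sound (S := T5.ds_pp) T5.ok_pp (w := 48) (j := 2) (by decide +kernel)
theorem L04836 : Good (Phi V5.P V5.D 1 1) ⟨10, 888, 9, 289, 4, 9, 4, 7, 6, 29⟩ :=
  out_sound (S := T5.ds_pp) T5.ok_pp (w := 34) (j := 1) (by decide +kernel)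
theorem L04837 : Good (Phi V5.P V5.D 1 1) ⟨10, 888, 9, 289, 3, 4, 3, 3, 5, 15⟩ :=
  out_sound (S := T5.ds_pp) T5.ok_pp (w := 29) (j := 1) (by decide +kernel)
theorem L04838 : Good (Phi V5.P V5.D 1 1) ⟨10, 888, 9, 289, 4, 10, 3, 2, 5, 14⟩ :=
  out_sound (S := T5.ds_pp) T5.ok_pp (w := 31) (j := 1) (by decide +kernel)
theorem L04839 : Good (Phi V5.P V5.D 1 1) ⟨10, 888, 9, 289, 5, 20, 5, 12, 6, 28⟩ :=
  out_sound (S := T5.ds_pp) T5.ok_pp (w := 37) (j := 1) (by decide +kernel)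
theorem L04840 : Good (Phi V5.P V5.D 1 1) ⟨10, 888, 9, 289, 5, 20, 5, 13, 6, 28⟩ :=
  out_sound (S := T5.ds_pp) T5.ok_pp (w := 46) (j := 2) (by decide +kernel)
theorem L04841 : Good (Phi V5.P V5.D 1 1) ⟨10, 888, 9, 289, 5, 20, 4, 7, 6, 28⟩ :=
  out_sound (S := T5.ds_pp) T5.ok_pp (w := 44) (j := 2) (by decide +kernel)
theorem L04842 : Good (Phi V5.P V5.D 1 1) ⟨10, 888, 9, 289, 5, 20, 3, 3, 6, 29⟩ :=
  out_sound (S := T5.ds_pp) T5.ok_pp (w := 42) (j := 2) (by decide +kernel)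
theorem L04843 : Good (Phi V5.P V5.D 1 1) ⟨10, 888, 9, 289, 5, 21, 3, 3, 5, 14⟩ :=
  out_sound (S := T5.ds_pp) T5.ok_pp (w := 40) (j := 2) (by decide +kernel)
theorem L04844 : Good (Phi V5.P V5.D 1 1) ⟨10, 888, 9, 289, 4, 10, 2, 1, 5, 15⟩ :=
  out_sound (S := T5.ds_pp) T5.ok_pp (w := 36) (j := 2) (by decide +kernel)
theorem L04845 : Good (Phi V5.P V5.D 1 1) ⟨10, 888, 9, 289, 4, 11, 2, 1, 4, 7⟩ :=
  out_sound (S := T5.ds_pp) T5.ok_pp (w := 34) (j := 2) (by decide +kernel)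
theorem L04846 : Good (Phi V5.P V5.D 1 1) ⟨10, 889, 8, 144, 2, 2, 2, 1, 4, 7⟩ :=
  out_sound (S := T5.ds_pp) T5.ok_pp (w := 97) (j := 3) (by decide +kernel)
theorem L04847 : Good (Phi V5.P V5.D 1 1) ⟨9, 444, 8, 145, 3, 4, 3, 2, 4, 7⟩ :=
  out_sound (S := T5.ds_pp) T5.ok_pp (w := 27) (j := 1) (by decide +kernel)
theorem L04848 : Good (Phi V5.P V5.D 1 1) ⟨9, 444, 8, 145, 4, 8, 3, 3, 5, 14⟩ :=
  out_sound (S := T5.ds_pp) T5.ok_pp (w := 31) (j := 1) (by decide +kernel)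
theorem L04849 : Good (Phi V5.P V5.D 1 1) ⟨9, 444, 8, 145, 4, 9, 4, 6, 5, 14⟩ :=
  out_sound (S := T5.ds_pp) T5.ok_pp (w := 32) (j := 1) (by decide +kernel)
theorem L04850 : Good (Phi V5.P V5.D 1 1) ⟨9, 444, 8, 145, 5, 18, 4, 7, 6, 28⟩ :=
  leafX_sound T5.ok_pp T5.Ypp.bz_eq (w := 315) (c := ⟨⟨.negSucc 2422, .negSucc 6, .ofNat 0, .negSucc 0, .negSucc 83, .ofNat 1⟩, ⟨.negSucc 1472, .negSucc 8, .negSucc 2, .negSucc 0, .negSucc 51, .ofNat 1⟩, ⟨.ofNat 1267, .ofNat 2, .negSucc 4, .ofNat 1, .ofNat 37, .negSucc 0⟩, ⟨.negSucc 3210, .ofNat 0, .ofNat 1, .negSucc 0, .negSucc 90, .ofNat 2⟩, ⟨.negSucc 487, .negSucc 0, .negSucc 0, .ofNat 0, .negSucc 48, .ofNat 0⟩, .ofNat 165, .negSucc 53, .ofNat 0, .negSucc 53, .ofNat 218, .ofNat 0, .ofNat 144, .ofNat 57, .negSucc 16, .ofNat 0, .ofNat 128, .negSucc 3, .ofNat 0, .ofNat 0, .ofNat 449, .ofNat 3764426, .ofNat 0, .ofNat 0, .ofNat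 0, .ofNat 0, .ofNat 7599432897223114334571884524792980374348083642829021727517747284279296, .ofNat 27642518269576748552320113377979564807548887336642316747175750533120, .ofNat 6676536450588799750660564526852558620650334043045363712, .ofNat 0, .ofNat 5410535415751892713136914376148697455677914249118644179280263441809408, .ofNat 2822664636457874591588619031220406030556260429421882553557103673344, .ofNat 0, .ofNat 0, .ofNat 11411763156801620333484538727496636041665186144254013110552356146118656, .ofNat 9902364773532067879400025428510459422976641485837482510330466664448, .ofNat 0, .ofNat 0⟩)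
    (by decide +kernel)
theorem L04851 : Good (Phi V5.P V5.D 1 1) ⟨9, 444, 8, 145, 5, 19, 6, 28, 7, 56⟩ :=
  out_sound (S := T5.ds_pp) T5.ok_pp (w := 40) (j := 1) (by decide +kernel)
theorem L04852 : Good (Phi V5.P V5.D 1 1) ⟨9, 444, 8, 145, 6, 38, 6, 29, 7, 56⟩ :=
  out_sound (S := T5.ds_pp) T5.ok_pp (w := 42) (j := 1) (by decide +kernel)
theorem L04853 : Good (Phi V5.P V5.D 1 1) ⟨9, 444, 8, 145, 6, 39, 6, 29, 7, 56⟩ :=
  out_sound (S := T5.ds_pp) T5.ok_pp (w := 52) (j := 2) (by decide +kernel)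
theorem L04854 : Good (Phi V5.P V5.D 1 1) ⟨9, 444, 8, 145, 5, 19, 5, 14, 7, 57⟩ :=
  out_sound (S := T5.ds_pp) T5.ok_pp (w := 39) (j := 1) (by decide +kernel)
theorem L04855 : Good (Phi V5.P V5.D 1 1) ⟨9, 444, 8, 145, 7, 76, 6, 30, 7, 56⟩ :=
  out_sound (S := T5.ds_pp) T5.ok_pp (w := 44) (j := 1) (by decide +kernel)
theorem L04856 : Good (Phi V5.P V5.D 1 1) ⟨9, 444, 8, 145, 8, 152, 8, 124, 9, 224⟩ :=
  out_sound (S := T5.ds_pp) T5.ok_pp (w := 52) (j := 1) (by decide +kernel)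
theorem L04857 : Good (Phi V5.P V5.D 1 1) ⟨9, 444, 8, 145, 8, 152, 9, 250, 10, 448⟩ :=
  out_sound (S := T5.ds_pp) T5.ok_pp (w := 55) (j := 1) (by decide +kernel)
theorem L04858 : Good (Phi V5.P V5.D 1 1) ⟨9, 444, 8, 145, 9, 304, 9, 251, 10, 448⟩ :=
  out_sound (S := T5.ds_pp) T5.ok_pp (w := 57) (j := 1) (by decide +kernel)
theorem L04859 : Good (Phi V5.P V5.D 1 1) ⟨9, 444, 8, 145, 9, 305, 9, 251, 10, 448⟩ :=
  out_sound (S := T5.ds_pp) T5.ok_pp (w := 70) (j := 2) (by decide +kernel)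
theorem L04860 : Good (Phi V5.P V5.D 1 1) ⟨9, 444, 8, 145, 8, 152, 8, 125, 10, 449⟩ :=
  out_sound (S := T5.ds_pp) T5.ok_pp (w := 54) (j := 1) (by decide +kernel)
theorem L04861 : Good (Phi V5.P V5.D 1 1) ⟨9, 444, 8, 145, 8, 152, 7, 62, 9, 225⟩ :=
  out_sound (S := T5.ds_pp) T5.ok_pp (w := 51) (j := 1) (by decide +kernel)
theorem L04862 : Good (Phi V5.P V5.D 1 1) ⟨9, 444, 8, 145, 10, 608, 9, 252, 10, 448⟩ :=
  out_sound (S := T5.ds_pp) T5.ok_pp (w := 59) (j := 1) (by decide +kernel)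
theorem L04863 : Good (Phi V5.P V5.D 1 1) ⟨9, 444, 8, 145, 11, 1216, 10, 506, 11, 896⟩ :=
  out_sound (S := T5.ds_pp) T5.ok_pp (w := 64) (j := 1) (by decide +kernel)
theorem L04864 : Good (Phi V5.P V5.D 1 1) ⟨9, 444, 8, 145, 11, 1216, 10, 507, 11, 896⟩ :=
  out_sound (S := T5.ds_pp) T5.ok_pp (w := 78) (j := 2) (by decide +kernel)
theorem L04865 : Good (Phi V5.P V5.D 1 1) ⟨9, 444, 8, 145, 11, 1217, 9, 253, 11, 896⟩ :=
  out_sound (S := T5.ds_pp) T5.ok_pp (w := 76) (j := 2) (by decide +kernel)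
theorem L04866 : Good (Phi V5.P V5.D 1 1) ⟨9, 444, 8, 145, 10, 608, 9, 253, 11, 897⟩ :=
  out_sound (S := T5.ds_pp) T5.ok_pp (w := 74) (j := 2) (by decide +kernel)
theorem L04867 : Good (Phi V5.P V5.D 1 1) ⟨9, 444, 8, 145, 10, 609, 8, 126, 10, 448⟩ :=
  out_sound (S := T5.ds_pp) T5.ok_pp (w := 70) (j := 2) (by decide +kernel)
theorem L04868 : Good (Phi V5.P V5.D 1 1) ⟨9, 444, 8, 145, 9, 304, 8, 126, 10, 449⟩ :=
  out_sound (S := T5.ds_pp) T5.ok_pp (w := 56) (j := 1) (by decide +kernel)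
theorem L04869 : Good (Phi V5.P V5.D 1 1) ⟨9, 444, 8, 145, 9, 304, 8, 127, 9, 224⟩ :=
  out_sound (S := T5.ds_pp) T5.ok_pp (w := 66) (j := 2) (by decide +kernel)
theorem L04870 : Good (Phi V5.P V5.D 1 1) ⟨9, 444, 8, 145, 9, 305, 7, 63, 9, 224⟩ :=
  out_sound (S := T5.ds_pp) T5.ok_pp (w := 64) (j := 2) (by decide +kernel)
theorem L04871 : Good (Phi V5.P V5.D 1 1) ⟨9, 444, 8, 145, 8, 152, 7, 63, 9, 225⟩ :=
  out_sound (S := T5.ds_pp) T5.ok_pp (w := 62) (j := 2) (by decide +kernel)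
theorem L04872 : Good (Phi V5.P V5.D 1 1) ⟨9, 444, 8, 145, 8, 153, 6, 31, 8, 112⟩ :=
  out_sound (S := T5.ds_pp) T5.ok_pp (w := 58) (j := 2) (by decide +kernel)
theorem L04873 : Good (Phi V5.P V5.D 1 1) ⟨9, 444, 8, 145, 7, 76, 6, 31, 8, 113⟩ :=
  out_sound (S := T5.ds_pp) T5.ok_pp (w := 56) (j := 2) (by decide +kernel)
theorem L04874 : Good (Phi V5.P V5.D 1 1) ⟨9, 444, 8, 145, 8, 154, 6, 30, 8, 112⟩ :=
  out_sound (S := T5.ds_pp) T5.ok_pp (w := 48) (j := 1) (by decide +kernel)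
theorem L04875 : Good (Phi V5.P V5.D 1 1) ⟨9, 444, 8, 145, 8, 155, 6, 30, 8, 112⟩ :=
  out_sound (S := T5.ds_pp) T5.ok_pp (w := 58) (j := 2) (by decide +kernel)
theorem L04876 : Good (Phi V5.P V5.D 1 1) ⟨9, 444, 8, 145, 7, 77, 6, 30, 8, 113⟩ :=
  out_sound (S := T5.ds_pp) T5.ok_pp (w := 46) (j := 1) (by decide +kernel)
theorem L04877 : Good (Phi V5.P V5.D 1 1) ⟨9, 444, 8, 145, 7, 77, 6, 31, 7, 56⟩ :=
  out_sound (S := T5.ds_pp) T5.ok_pp (w := 54) (j := 2) (by decide +kernel)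
theorem L04878 : Good (Phi V5.P V5.D 1 1) ⟨9, 444, 8, 145, 6, 38, 5, 15, 7, 57⟩ :=
  out_sound (S := T5.ds_pp) T5.ok_pp (w := 50) (j := 2) (by decide +kernel)
theorem L04879 : Good (Phi V5.P V5.D 1 1) ⟨9, 444, 8, 145, 6, 39, 5, 15, 6, 28⟩ :=
  out_sound (S := T5.ds_pp) T5.ok_pp (w := 48) (j := 2) (by decide +kernel)
theorem L04880 : Good (Phi V5.P V5.D 1 1) ⟨9, 444, 8, 145, 4, 9, 4, 7, 6, 29⟩ :=
  out_sound (S := T5.ds_pp) T5.ok_pp (w := 34) (j := 1) (by decide +kernel)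
theorem L04881 : Good (Phi V5.P V5.D 1 1) ⟨9, 444, 8, 145, 3, 4, 3, 3, 5, 15⟩ :=
  out_sound (S := T5.ds_pp) T5.ok_pp (w := 29) (j := 1) (by decide +kernel)
theorem L04882 : Good (Phi V5.P V5.D 1 1) ⟨9, 444, 8, 145, 4, 10, 3, 2, 5, 14⟩ :=
  out_sound (S := T5.ds_pp) T5.ok_pp (w := 31) (j := 1) (by decide +kernel)
theorem L04883 : Good (Phi V5.P V5.D 1 1) ⟨9, 444, 8, 145, 5, 20, 5, 12, 6, 28⟩ :=
  out_sound (S := T5.ds_pp) T5.ok_pp (w := 37) (j := 1) (by decide +kernel)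
theorem L04884 : Good (Phi V5.P V5.D 1 1) ⟨9, 444, 8, 145, 5, 20, 5, 13, 6, 28⟩ :=
  out_sound (S := T5.ds_pp) T5.ok_pp (w := 46) (j := 2) (by decide +kernel)
theorem L04885 : Good (Phi V5.P V5.D 1 1) ⟨9, 444, 8, 145, 5, 20, 4, 7, 6, 28⟩ :=
  out_sound (S := T5.ds_pp) T5.ok_pp (w := 44) (j := 2) (by decide +kernel)
theorem L04886 : Good (Phi V5.P V5.D 1 1) ⟨9, 444, 8, 145, 5, 20, 3, 3, 6, 29⟩ :=
  out_sound (S := T5.ds_pp) T5.ok_pp (w := 42) (j := 2) (by decide +kernel)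
theorem L04887 : Good (Phi V5.P V5.D 1 1) ⟨9, 444, 8, 145, 5, 21, 3, 3, 5, 14⟩ :=
  out_sound (S := T5.ds_pp) T5.ok_pp (w := 40) (j := 2) (by decide +kernel)
theorem L04888 : Good (Phi V5.P V5.D 1 1) ⟨9, 444, 8, 145, 4, 10, 2, 1, 5, 15⟩ :=
  out_sound (S := T5.ds_pp) T5.ok_pp (w := 36) (j := 2) (by decide +kernel)
theorem L04889 : Good (Phi V5.P V5.D 1 1) ⟨9, 444, 8, 145, 4, 11, 2, 1, 4, 7⟩ :=
  out_sound (S := T5.ds_pp) T5.ok_pp (w := 34) (j := 2) (by decide +kernel)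
theorem L04890 : Good (Phi V5.P V5.D 1 1) ⟨9, 445, 7, 72, 2, 2, 2, 1, 4, 7⟩ :=
  out_sound (S := T5.ds_pp) T5.ok_pp (w := 89) (j := 3) (by decide +kernel)
theorem L04891 : Good (Phi V5.P V5.D 1 1) ⟨8, 222, 7, 73, 3, 4, 3, 2, 4, 7⟩ :=
  out_sound (S := T5.ds_pp) T5.ok_pp (w := 27) (j := 1) (by decide +kernel)
theorem L04892 : Good (Phi V5.P V5.D 1 1) ⟨8, 222, 7, 73, 4, 8, 3, 3, 5, 14⟩ :=
  out_sound (S := T5.ds_pp) T5.ok_pp (w := 31) (j := 1) (by decide +kernel)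
theorem L04893 : Good (Phi V5.P V5.D 1 1) ⟨8, 222, 7, 73, 4, 9, 4, 6, 5, 14⟩ :=
  out_sound (S := T5.ds_pp) T5.ok_pp (w := 32) (j := 1) (by decide +kernel)
theorem L04894 : Good (Phi V5.P V5.D 1 1) ⟨8, 222, 7, 73, 5, 18, 4, 7, 6, 28⟩ :=
  leafX_sound T5.ok_pp T5.Ypp.bz_eq (w := 308) (c := ⟨⟨.negSucc 2423, .negSucc 13, .ofNat 0, .negSucc 0, .negSucc 82, .ofNat 1⟩, ⟨.negSucc 1476, .negSucc 18, .negSucc 6, .negSucc 0, .negSucc 51, .ofNat 1⟩, ⟨.ofNat 1264, .ofNat 4, .negSucc 10, .ofNat 1, .ofNat 35, .negSucc 0⟩, ⟨.negSucc 3210, .negSucc 0, .ofNat 2, .negSucc 0, .negSucc 89, .ofNat 2⟩, ⟨.negSucc 488, .negSucc 0, .negSucc 0, .ofNat 0, .negSucc 48, .ofNat 0⟩, .ofNat 165, .negSucc 53, .ofNat 0, .negSucc 53, .ofNat 218, .ofNat 0, .ofNat 144, .ofNat 58, .negSucc 16, .ofNat 0, .ofNat 128, .negSucc 3, .ofNat 0, .ofNat 0, .ofNat 449, .ofNat 3725276, .ofNat 0, .ofNat 0, .ofNat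 0, .ofNat 0, .ofNat 58399796911644455597909639174151573805477909588572516869886837784576, .ofNat 212230481336033980201163042910940647627543952621864930317741064192, .ofNat 0, .ofNat 0, .ofNat 39702382400204437449824937563331152369972648272306217004557165133824, .ofNat 0, .ofNat 0, .ofNat 0, .ofNat 88956073428666141484679778593814193067383899454325586045398960570368, .ofNat 76943046473029115276816774199721309844884006346042100121836978176, .ofNat 1315566167934108040758751366933073551357735424000786432, .ofNat 0⟩)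
    (by decide +kernel)
theorem L04895 : Good (Phi V5.P V5.D 1 1) ⟨8, 222, 7, 73, 5, 19, 6, 28, 7, 56⟩ :=
  out_sound (S := T5.ds_pp) T5.ok_pp (w := 40) (j := 1) (by decide +kernel)
theorem L04896 : Good (Phi V5.P V5.D 1 1) ⟨8, 222, 7, 73, 6, 38, 6, 29, 7, 56⟩ :=
  out_sound (S := T5.ds_pp) T5.ok_pp (w := 42) (j := 1) (by decide +kernel)
theorem L04897 : Good (Phi V5.P V5.D 1 1) ⟨8, 222, 7, 73, 6, 39, 6, 29, 7, 56⟩ :=
  out_sound (S := T5.ds_pp) T5.ok_pp (w := 52) (j := 2) (by decide +kernel)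
theorem L04898 : Good (Phi V5.P V5.D 1 1) ⟨8, 222, 7, 73, 5, 19, 5, 14, 7, 57⟩ :=
  out_sound (S := T5.ds_pp) T5.ok_pp (w := 39) (j := 1) (by decide +kernel)
theorem L04899 : Good (Phi V5.P V5.D 1 1) ⟨8, 222, 7, 73, 7, 76, 6, 30, 7, 56⟩ :=
  out_sound (S := T5.ds_pp) T5.ok_pp (w := 44) (j := 1) (by decide +kernel)
theorem L04900 : Good (Phi V5.P V5.D 1 1) ⟨8, 222, 7, 73, 8, 152, 8, 124, 9, 224⟩ :=
  out_sound (S := T5.ds_pp) T5.ok_pp (w := 52) (j := 1) (by decide +kernel)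
theorem L04901 : Good (Phi V5.P V5.D 1 1) ⟨8, 222, 7, 73, 8, 152, 9, 250, 10, 448⟩ :=
  out_sound (S := T5.ds_pp) T5.ok_pp (w := 55) (j := 1) (by decide +kernel)
theorem L04902 : Good (Phi V5.P V5.D 1 1) ⟨8, 222, 7, 73, 9, 304, 9, 251, 10, 448⟩ :=
  out_sound (S := T5.ds_pp) T5.ok_pp (w := 57) (j := 1) (by decide +kernel)
theorem L04903 : Good (Phi V5.P V5.D 1 1) ⟨8, 222, 7, 73, 9, 305, 9, 251, 10, 448⟩ :=
  out_sound (S := T5.ds_pp) T5.ok_pp (w := 70) (j := 2) (by decide +kernel)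
theorem L04904 : Good (Phi V5.P V5.D 1 1) ⟨8, 222, 7, 73, 8, 152, 8, 125, 10, 449⟩ :=
  out_sound (S := T5.ds_pp) T5.ok_pp (w := 54) (j := 1) (by decide +kernel)
theorem L04905 : Good (Phi V5.P V5.D 1 1) ⟨8, 222, 7, 73, 8, 152, 7, 62, 9, 225⟩ :=
  out_sound (S := T5.ds_pp) T5.ok_pp (w := 51) (j := 1) (by decide +kernel)
theorem L04906 : Good (Phi V5.P V5.D 1 1) ⟨8, 222, 7, 73, 10, 608, 9, 252, 10, 448⟩ :=
  out_sound (S := T5.ds_pp) T5.ok_pp (w := 59) (j := 1) (by decide +kernel)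
theorem L04907 : Good (Phi V5.P V5.D 1 1) ⟨8, 222, 7, 73, 11, 1216, 10, 506, 11, 896⟩ :=
  out_sound (S := T5.ds_pp) T5.ok_pp (w := 64) (j := 1) (by decide +kernel)
theorem L04908 : Good (Phi V5.P V5.D 1 1) ⟨8, 222, 7, 73, 11, 1216, 10, 507, 11, 896⟩ :=
  out_sound (S := T5.ds_pp) T5.ok_pp (w := 78) (j := 2) (by decide +kernel)
theorem L04909 : Good (Phi V5.P V5.D 1 1) ⟨8, 222, 7, 73, 11, 1217, 9, 253, 11, 896⟩ :=
  out_sound (S := T5.ds_pp) T5.ok_pp (w := 76) (j := 2) (by decide +kernel)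
theorem L04910 : Good (Phi V5.P V5.D 1 1) ⟨8, 222, 7, 73, 10, 608, 9, 253, 11, 897⟩ :=
  out_sound (S := T5.ds_pp) T5.ok_pp (w := 74) (j := 2) (by decide +kernel)
theorem L04911 : Good (Phi V5.P V5.D 1 1) ⟨8, 222, 7, 73, 10, 609, 8, 126, 10, 448⟩ :=
  out_sound (S := T5.ds_pp) T5.ok_pp (w := 70) (j := 2) (by decide +kernel)
theorem L04912 : Good (Phi V5.P V5.D 1 1) ⟨8, 222, 7, 73, 9, 304, 8, 126, 10, 449⟩ :=
  out_sound (S := T5.ds_pp) T5.ok_pp (w := 56) (j := 1) (by decide +kernel)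
theorem L04913 : Good (Phi V5.P V5.D 1 1) ⟨8, 222, 7, 73, 9, 304, 8, 127, 9, 224⟩ :=
  out_sound (S := T5.ds_pp) T5.ok_pp (w := 66) (j := 2) (by decide +kernel)
theorem L04914 : Good (Phi V5.P V5.D 1 1) ⟨8, 222, 7, 73, 9, 305, 7, 63, 9, 224⟩ :=
  out_sound (S := T5.ds_pp) T5.ok_pp (w := 64) (j := 2) (by decide +kernel)
theorem L04915 : Good (Phi V5.P V5.D 1 1) ⟨8, 222, 7, 73, 8, 152, 7, 63, 9, 225⟩ :=
  out_sound (S := T5.ds_pp) T5.ok_pp (w := 62) (j := 2) (by decide +kernel)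
theorem L04916 : Good (Phi V5.P V5.D 1 1) ⟨8, 222, 7, 73, 8, 153, 6, 31, 8, 112⟩ :=
  out_sound (S := T5.ds_pp) T5.ok_pp (w := 58) (j := 2) (by decide +kernel)
theorem L04917 : Good (Phi V5.P V5.D 1 1) ⟨8, 222, 7, 73, 7, 76, 6, 31, 8, 113⟩ :=
  out_sound (S := T5.ds_pp) T5.ok_pp (w := 56) (j := 2) (by decide +kernel)
theorem L04918 : Good (Phi V5.P V5.D 1 1) ⟨8, 222, 7, 73, 8, 154, 6, 30, 8, 112⟩ :=
  out_sound (S := T5.ds_pp) T5.ok_pp (w := 48) (j := 1) (by decide +kernel)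
theorem L04919 : Good (Phi V5.P V5.D 1 1) ⟨8, 222, 7, 73, 8, 155, 6, 30, 8, 112⟩ :=
  out_sound (S := T5.ds_pp) T5.ok_pp (w := 58) (j := 2) (by decide +kernel)
theorem L04920 : Good (Phi V5.P V5.D 1 1) ⟨8, 222, 7, 73, 7, 77, 6, 30, 8, 113⟩ :=
  out_sound (S := T5.ds_pp) T5.ok_pp (w := 46) (j := 1) (by decide +kernel)
theorem L04921 : Good (Phi V5.P V5.D 1 1) ⟨8, 222, 7, 73, 7, 77, 6, 31, 7, 56⟩ :=
  out_sound (S := T5.ds_pp) T5.ok_pp (w := 54) (j := 2) (by decide +kernel)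
theorem L04922 : Good (Phi V5.P V5.D 1 1) ⟨8, 222, 7, 73, 6, 38, 5, 15, 7, 57⟩ :=
  out_sound (S := T5.ds_pp) T5.ok_pp (w := 50) (j := 2) (by decide +kernel)
theorem L04923 : Good (Phi V5.P V5.D 1 1) ⟨8, 222, 7, 73, 6, 39, 5, 15, 6, 28⟩ :=
  out_sound (S := T5.ds_pp) T5.ok_pp (w := 48) (j := 2) (by decide +kernel)
theorem L04924 : Good (Phi V5.P V5.D 1 1) ⟨8, 222, 7, 73, 4, 9, 4, 7, 6, 29⟩ :=
  out_sound (S := T5.ds_pp) T5.ok_pp (w := 34) (j := 1) (by decide +kernel)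
theorem L04925 : Good (Phi V5.P V5.D 1 1) ⟨8, 222, 7, 73, 3, 4, 3, 3, 5, 15⟩ :=
  out_sound (S := T5.ds_pp) T5.ok_pp (w := 29) (j := 1) (by decide +kernel)
theorem L04926 : Good (Phi V5.P V5.D 1 1) ⟨8, 222, 7, 73, 4, 10, 3, 2, 5, 14⟩ :=
  out_sound (S := T5.ds_pp) T5.ok_pp (w := 31) (j := 1) (by decide +kernel)
theorem L04927 : Good (Phi V5.P V5.D 1 1) ⟨8, 222, 7, 73, 5, 20, 5, 12, 6, 28⟩ :=
  out_sound (S := T5.ds_pp) T5.ok_pp (w := 37) (j := 1) (by decide +kernel)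
theorem L04928 : Good (Phi V5.P V5.D 1 1) ⟨8, 222, 7, 73, 5, 20, 5, 13, 6, 28⟩ :=
  out_sound (S := T5.ds_pp) T5.ok_pp (w := 46) (j := 2) (by decide +kernel)
theorem L04929 : Good (Phi V5.P V5.D 1 1) ⟨8, 222, 7, 73, 5, 20, 4, 7, 6, 28⟩ :=
  out_sound (S := T5.ds_pp) T5.ok_pp (w := 44) (j := 2) (by decide +kernel)
theorem L04930 : Good (Phi V5.P V5.D 1 1) ⟨8, 222, 7, 73, 5, 20, 3, 3, 6, 29⟩ :=
  out_sound (S := T5.ds_pp) T5.ok_pp (w := 42) (j := 2) (by decide +kernel)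
theorem L04931 : Good (Phi V5.P V5.D 1 1) ⟨8, 222, 7, 73, 5, 21, 3, 3, 5, 14⟩ :=
  out_sound (S := T5.ds_pp) T5.ok_pp (w := 40) (j := 2) (by decide +kernel)
theorem L04932 : Good (Phi V5.P V5.D 1 1) ⟨8, 222, 7, 73, 4, 10, 2, 1, 5, 15⟩ :=
  out_sound (S := T5.ds_pp) T5.ok_pp (w := 36) (j := 2) (by decide +kernel)
theorem L04933 : Good (Phi V5.P V5.D 1 1) ⟨8, 222, 7, 73, 4, 11, 2, 1, 4, 7⟩ :=
  out_sound (S := T5.ds_pp) T5.ok_pp (w := 34) (j := 2) (by decide +kernel)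
theorem L04934 : Good (Phi V5.P V5.D 1 1) ⟨8, 222, 6, 36, 2, 3, 1, 0, 4, 7⟩ :=
  out_sound (S := T5.ds_pp) T5.ok_pp (w := 28) (j := 2) (by decide +kernel)
theorem L04935 : Good (Phi V5.P V5.D 1 1) ⟨8, 223, 6, 36, 1, 1, 1, 0, 4, 7⟩ :=
  out_sound (S := T5.ds_pp) T5.ok_pp (w := 81) (j := 3) (by decide +kernel)
theorem L04936 : Good (Phi V5.P V5.D 1 1) ⟨8, 220, 6, 37, 1, 1, 1, 0, 4, 7⟩ :=
  out_sound (S := T5.ds_pp) T5.ok_pp (w := 81) (j := 3) (by decide +kernel)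
theorem L04937 : Good (Phi V5.P V5.D 1 1) ⟨9, 442, 7, 74, 1, 1, 1, 0, 4, 7⟩ :=
  out_sound (S := T5.ds_pp) T5.ok_pp (w := 89) (j := 3) (by decide +kernel)
theorem L04938 : Good (Phi V5.P V5.D 1 1) ⟨10, 886, 8, 148, 1, 1, 1, 0, 4, 7⟩ :=
  out_sound (S := T5.ds_pp) T5.ok_pp (w := 97) (j := 3) (by decide +kernel)
theorem L04939 : Good (Phi V5.P V5.D 1 1) ⟨10, 887, 8, 148, 2, 2, 2, 0, 4, 7⟩ :=
  out_sound (S := T5.ds_pp) T5.ok_pp (w := 24) (j := 1) (by decide +kernel)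
theorem L04940 : Good (Phi V5.P V5.D 1 1) ⟨10, 887, 8, 148, 3, 4, 3, 2, 4, 7⟩ :=
  out_sound (S := T5.ds_pp) T5.ok_pp (w := 27) (j := 1) (by decide +kernel)
theorem L04941 : Good (Phi V5.P V5.D 1 1) ⟨10, 887, 8, 148, 4, 8, 3, 3, 5, 14⟩ :=
  out_sound (S := T5.ds_pp) T5.ok_pp (w := 31) (j := 1) (by decide +kernel)
theorem L04942 : Good (Phi V5.P V5.D 1 1) ⟨10, 887, 8, 148, 4, 9, 4, 6, 5, 14⟩ :=
  out_sound (S := T5.ds_pp) T5.ok_pp (w := 32) (j := 1) (by decide +kernel)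
theorem L04943 : Good (Phi V5.P V5.D 1 1) ⟨10, 887, 8, 148, 5, 18, 4, 7, 6, 28⟩ :=
  leafX_sound T5.ok_pp T5.Ypp.bz_eq (w := 319) (c := ⟨⟨.negSucc 2421, .negSucc 3, .ofNat 0, .negSucc 0, .negSucc 82, .ofNat 1⟩, ⟨.negSucc 1479, .negSucc 4, .negSucc 2, .negSucc 0, .negSucc 50, .ofNat 1⟩, ⟨.ofNat 1253, .ofNat 1, .negSucc 5, .ofNat 1, .ofNat 34, .negSucc 0⟩, ⟨.negSucc 3207, .ofNat 0, .ofNat 1, .negSucc 0, .negSucc 89, .ofNat 2⟩, ⟨.negSucc 490, .ofNat 0, .negSucc 0, .ofNat 0, .negSucc 47, .ofNat 0⟩, .ofNat 165, .negSucc 53, .ofNat 0, .negSucc 53, .ofNat 219, .ofNat 0, .ofNat 145, .ofNat 58, .negSucc 16, .ofNat 0, .ofNat 128, .negSucc 3, .ofNat 0, .ofNat 0, .ofNat 450, .ofNat 3804104, .ofNat 0, .ofNat 0, .ofNat 0, .ofNat 0, .ofNat 122750983711034204541848629314643370132155803434369680688382317491650560, .ofNat 448397969891586919163468125653347956310091485098440330868814673608704,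 .ofNat 0, .ofNat 0, .ofNat 83055241306914867744699760462485753310803962521157369014185636889886720, .ofNat 0, .ofNat 0, .ofNat 0, .ofNat 187435032081569462696126185182866061465487293832153549949232429085491200, .ofNat 159644385720123236252181811044805690023722288788240909273123562455040, .ofNat 143058780091632216033538779894339294021719088036839424, .ofNat 0⟩)
    (by decide +kernel)
theorem L04944 : Good (Phi V5.P V5.D 1 1) ⟨10, 887, 8, 148, 5, 19, 6, 28, 7, 56⟩ :=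
  out_sound (S := T5.ds_pp) T5.ok_pp (w := 40) (j := 1) (by decide +kernel)
theorem L04945 : Good (Phi V5.P V5.D 1 1) ⟨10, 887, 8, 148, 6, 38, 6, 29, 7, 56⟩ :=
  out_sound (S := T5.ds_pp) T5.ok_pp (w := 42) (j := 1) (by decide +kernel)
theorem L04946 : Good (Phi V5.P V5.D 1 1) ⟨10, 887, 8, 148, 6, 39, 6, 29, 7, 56⟩ :=
  out_sound (S := T5.ds_pp) T5.ok_pp (w := 52) (j := 2) (by decide +kernel)
theorem L04947 : Good (Phi V5.P V5.D 1 1) ⟨10, 887, 8, 148, 5, 19, 5, 14, 7, 57⟩ :=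
  out_sound (S := T5.ds_pp) T5.ok_pp (w := 39) (j := 1) (by decide +kernel)
theorem L04948 : Good (Phi V5.P V5.D 1 1) ⟨10, 887, 8, 148, 7, 76, 6, 30, 7, 56⟩ :=
  out_sound (S := T5.ds_pp) T5.ok_pp (w := 44) (j := 1) (by decide +kernel)
theorem L04949 : Good (Phi V5.P V5.D 1 1) ⟨10, 887, 8, 148, 8, 152, 8, 124, 9, 224⟩ :=
  out_sound (S := T5.ds_pp) T5.ok_pp (w := 52) (j := 1) (by decide +kernel)
theorem L04950 : Good (Phi V5.P V5.D 1 1) ⟨10, 887, 8, 148, 8, 152, 9, 250, 10, 448⟩ :=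
  out_sound (S := T5.ds_pp) T5.ok_pp (w := 55) (j := 1) (by decide +kernel)
theorem L04951 : Good (Phi V5.P V5.D 1 1) ⟨10, 887, 8, 148, 9, 304, 9, 251, 10, 448⟩ :=
  out_sound (S := T5.ds_pp) T5.ok_pp (w := 57) (j := 1) (by decide +kernel)
theorem L04952 : Good (Phi V5.P V5.D 1 1) ⟨10, 887, 8, 148, 9, 305, 9, 251, 10, 448⟩ :=
  out_sound (S := T5.ds_pp) T5.ok_pp (w := 70) (j := 2) (by decide +kernel)
theorem L04953 : Good (Phi V5.P V5.D 1 1) ⟨10, 887, 8, 148, 8, 152, 8, 125, 10, 449⟩ :=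
  out_sound (S := T5.ds_pp) T5.ok_pp (w := 54) (j := 1) (by decide +kernel)
theorem L04954 : Good (Phi V5.P V5.D 1 1) ⟨10, 887, 8, 148, 8, 152, 7, 62, 9, 225⟩ :=
  out_sound (S := T5.ds_pp) T5.ok_pp (w := 51) (j := 1) (by decide +kernel)
theorem L04955 : Good (Phi V5.P V5.D 1 1) ⟨10, 887, 8, 148, 10, 608, 9, 252, 10, 448⟩ :=
  out_sound (S := T5.ds_pp) T5.ok_pp (w := 59) (j := 1) (by decide +kernel)
theorem L04956 : Good (Phi V5.P V5.D 1 1) ⟨10, 887, 8, 148, 11, 1216, 10, 506, 11, 896⟩ :=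
  out_sound (S := T5.ds_pp) T5.ok_pp (w := 64) (j := 1) (by decide +kernel)
theorem L04957 : Good (Phi V5.P V5.D 1 1) ⟨10, 887, 8, 148, 11, 1216, 10, 507, 11, 896⟩ :=
  out_sound (S := T5.ds_pp) T5.ok_pp (w := 78) (j := 2) (by decide +kernel)
theorem L04958 : Good (Phi V5.P V5.D 1 1) ⟨10, 887, 8, 148, 11, 1217, 9, 253, 11, 896⟩ :=
  out_sound (S := T5.ds_pp) T5.ok_pp (w := 76) (j := 2) (by decide +kernel)
theorem L04959 : Good (Phi V5.P V5.D 1 1) ⟨10, 887, 8, 148, 10, 608, 9, 253, 11, 897⟩ :=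
  out_sound (S := T5.ds_pp) T5.ok_pp (w := 74) (j := 2) (by decide +kernel)
theorem L04960 : Good (Phi V5.P V5.D 1 1) ⟨10, 887, 8, 148, 10, 609, 8, 126, 10, 448⟩ :=
  out_sound (S := T5.ds_pp) T5.ok_pp (w := 70) (j := 2) (by decide +kernel)
theorem L04961 : Good (Phi V5.P V5.D 1 1) ⟨10, 887, 8, 148, 9, 304, 8, 126, 10, 449⟩ :=
  out_sound (S := T5.ds_pp) T5.ok_pp (w := 56) (j := 1) (by decide +kernel)
theorem L04962 : Good (Phi V5.P V5.D 1 1) ⟨10, 887, 8, 148, 9, 304, 8, 127, 9, 224⟩ :=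
  out_sound (S := T5.ds_pp) T5.ok_pp (w := 66) (j := 2) (by decide +kernel)
theorem L04963 : Good (Phi V5.P V5.D 1 1) ⟨10, 887, 8, 148, 9, 305, 7, 63, 9, 224⟩ :=
  out_sound (S := T5.ds_pp) T5.ok_pp (w := 64) (j := 2) (by decide +kernel)
theorem L04964 : Good (Phi V5.P V5.D 1 1) ⟨10, 887, 8, 148, 8, 152, 7, 63, 9, 225⟩ :=
  out_sound (S := T5.ds_pp) T5.ok_pp (w := 62) (j := 2) (by decide +kernel)
theorem L04965 : Good (Phi V5.P V5.D 1 1) ⟨10, 887, 8, 148, 8, 153, 6, 31, 8, 112⟩ :=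
  out_sound (S := T5.ds_pp) T5.ok_pp (w := 58) (j := 2) (by decide +kernel)
theorem L04966 : Good (Phi V5.P V5.D 1 1) ⟨10, 887, 8, 148, 7, 76, 6, 31, 8, 113⟩ :=
  out_sound (S := T5.ds_pp) T5.ok_pp (w := 56) (j := 2) (by decide +kernel)
theorem L04967 : Good (Phi V5.P V5.D 1 1) ⟨10, 887, 8, 148, 8, 154, 6, 30, 8, 112⟩ :=
  out_sound (S := T5.ds_pp) T5.ok_pp (w := 48) (j := 1) (by decide +kernel)
theorem L04968 : Good (Phi V5.P V5.D 1 1) ⟨10, 887, 8, 148, 8, 155, 6, 30, 8, 112⟩ :=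
  out_sound (S := T5.ds_pp) T5.ok_pp (w := 58) (j := 2) (by decide +kernel)
theorem L04969 : Good (Phi V5.P V5.D 1 1) ⟨10, 887, 8, 148, 7, 77, 6, 30, 8, 113⟩ :=
  out_sound (S := T5.ds_pp) T5.ok_pp (w := 46) (j := 1) (by decide +kernel)
theorem L04970 : Good (Phi V5.P V5.D 1 1) ⟨10, 887, 8, 148, 7, 77, 6, 31, 7, 56⟩ :=
  out_sound (S := T5.ds_pp) T5.ok_pp (w := 54) (j := 2) (by decide +kernel)
theorem L04971 : Good (Phi V5.P V5.D 1 1) ⟨10, 887, 8, 148, 6, 38, 5, 15, 7, 57⟩ :=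
  out_sound (S := T5.ds_pp) T5.ok_pp (w := 50) (j := 2) (by decide +kernel)
theorem L04972 : Good (Phi V5.P V5.D 1 1) ⟨10, 887, 8, 148, 6, 39, 5, 15, 6, 28⟩ :=
  out_sound (S := T5.ds_pp) T5.ok_pp (w := 48) (j := 2) (by decide +kernel)
theorem L04973 : Good (Phi V5.P V5.D 1 1) ⟨10, 887, 8, 148, 4, 9, 4, 7, 6, 29⟩ :=
  out_sound (S := T5.ds_pp) T5.ok_pp (w := 34) (j := 1) (by decide +kernel)
theorem L04974 : Good (Phi V5.P V5.D 1 1) ⟨10, 887, 8, 148, 3, 4, 3, 3, 5, 15⟩ :=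
  out_sound (S := T5.ds_pp) T5.ok_pp (w := 29) (j := 1) (by decide +kernel)
theorem L04975 : Good (Phi V5.P V5.D 1 1) ⟨10, 887, 8, 148, 4, 10, 3, 2, 5, 14⟩ :=
  out_sound (S := T5.ds_pp) T5.ok_pp (w := 31) (j := 1) (by decide +kernel)
theorem L04976 : Good (Phi V5.P V5.D 1 1) ⟨10, 887, 8, 148, 5, 20, 5, 12, 6, 28⟩ :=
  out_sound (S := T5.ds_pp) T5.ok_pp (w := 37) (j := 1) (by decide +kernel)
theorem L04977 : Good (Phi V5.P V5.D 1 1) ⟨10, 887, 8, 148, 5, 20, 5, 13, 6, 28⟩ :=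
  out_sound (S := T5.ds_pp) T5.ok_pp (w := 46) (j := 2) (by decide +kernel)
theorem L04978 : Good (Phi V5.P V5.D 1 1) ⟨10, 887, 8, 148, 5, 20, 4, 7, 6, 28⟩ :=
  out_sound (S := T5.ds_pp) T5.ok_pp (w := 44) (j := 2) (by decide +kernel)
theorem L04979 : Good (Phi V5.P V5.D 1 1) ⟨10, 887, 8, 148, 5, 20, 3, 3, 6, 29⟩ :=
  out_sound (S := T5.ds_pp) T5.ok_pp (w := 42) (j := 2) (by decide +kernel)
theorem L04980 : Good (Phi V5.P V5.D 1 1) ⟨10, 887, 8, 148, 5, 21, 3, 3, 5, 14⟩ :=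
  out_sound (S := T5.ds_pp) T5.ok_pp (w := 40) (j := 2) (by decide +kernel)
theorem L04981 : Good (Phi V5.P V5.D 1 1) ⟨10, 887, 8, 148, 4, 10, 2, 1, 5, 15⟩ :=
  out_sound (S := T5.ds_pp) T5.ok_pp (w := 36) (j := 2) (by decide +kernel)
theorem L04982 : Good (Phi V5.P V5.D 1 1) ⟨10, 887, 8, 148, 4, 11, 2, 1, 4, 7⟩ :=
  out_sound (S := T5.ds_pp) T5.ok_pp (w := 34) (j := 2) (by decide +kernel)
theorem L04983 : Good (Phi V5.P V5.D 1 1) ⟨10, 887, 8, 148, 2, 3, 1, 0, 4, 7⟩ :=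
  out_sound (S := T5.ds_pp) T5.ok_pp (w := 28) (j := 2) (by decide +kernel)
theorem L04984 : Good (Phi V5.P V5.D 1 1) ⟨9, 443, 8, 149, 1, 1, 1, 0, 4, 7⟩ :=
  out_sound (S := T5.ds_pp) T5.ok_pp (w := 91) (j := 3) (by decide +kernel)
theorem L04985 : Good (Phi V5.P V5.D 1 1) ⟨8, 221, 7, 75, 1, 1, 1, 0, 4, 7⟩ :=
  out_sound (S := T5.ds_pp) T5.ok_pp (w := 83) (j := 3) (by decide +kernel)
theorem L04986 : Good (Phi V5.P V5.D 1 1) ⟨7, 111, 6, 37, 2, 2, 2, 0, 4, 7⟩ :=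
  out_sound (S := T5.ds_pp) T5.ok_pp (w := 24) (j := 1) (by decide +kernel)
theorem L04987 : Good (Phi V5.P V5.D 1 1) ⟨8, 222, 7, 74, 3, 4, 3, 2, 4, 7⟩ :=
  out_sound (S := T5.ds_pp) T5.ok_pp (w := 27) (j := 1) (by decide +kernel)
theorem L04988 : Good (Phi V5.P V5.D 1 1) ⟨8, 222, 7, 74, 4, 8, 3, 3, 5, 14⟩ :=
  out_sound (S := T5.ds_pp) T5.ok_pp (w := 31) (j := 1) (by decide +kernel)
theorem L04989 : Good (Phi V5.P V5.D 1 1) ⟨8, 222, 7, 74, 4, 9, 4, 6, 5, 14⟩ :=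
  out_sound (S := T5.ds_pp) T5.ok_pp (w := 32) (j := 1) (by decide +kernel)
theorem L04990 : Good (Phi V5.P V5.D 1 1) ⟨8, 222, 7, 74, 5, 18, 4, 7, 6, 28⟩ :=
  leafX_sound T5.ok_pp T5.Ypp.bz_eq (w := 308) (c := ⟨⟨.negSucc 2422, .negSucc 13, .negSucc 0, .negSucc 0, .negSucc 83, .ofNat 1⟩, ⟨.negSucc 1482, .negSucc 18, .negSucc 6, .negSucc 0, .negSucc 52, .ofNat 1⟩, ⟨.ofNat 1251, .ofNat 4, .negSucc 9, .ofNat 1, .ofNat 36, .negSucc 0⟩, ⟨.negSucc 3206, .negSucc 0, .ofNat 2, .negSucc 0, .negSucc 91, .ofNat 2⟩, ⟨.negSucc 489, .negSucc 0, .negSucc 0, .ofNat 0, .negSucc 48, .ofNat 0⟩, .ofNat 165, .negSucc 54, .ofNat 0, .negSucc 54, .ofNat 218, .ofNat 0, .ofNat 144, .ofNat 58, .negSucc 16, .ofNat 0, .ofNat 128, .negSucc 3, .ofNat 0, .ofNat 0, .ofNat 448, .ofNat 3721671, .ofNat 0, .ofNat 0, .ofNat 0, .ofNat 0, .ofNat 58462090432321304406127714253255582305895154930628479431404165267456,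 .ofNat 209022362739589242859092514568885364099539753388485959597040861184, .ofNat 0, .ofNat 0, .ofNat 39957186039371635303858269247275634088747155709620676546347648679936, .ofNat 0, .ofNat 3124360941934809492756448506757181994236458505385017344, .ofNat 0, .ofNat 89669037302486266801651018323542428845017619103010554392943792226304, .ofNat 76988770787727876926233349458484482748468365733001674584538218496, .ofNat 0, .ofNat 0⟩)
    (by decide +kernel)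
theorem L04991 : Good (Phi V5.P V5.D 1 1) ⟨8, 222, 7, 74, 5, 19, 6, 28, 7, 56⟩ :=
  out_sound (S := T5.ds_pp) T5.ok_pp (w := 40) (j := 1) (by decide +kernel)
theorem L04992 : Good (Phi V5.P V5.D 1 1) ⟨8, 222, 7, 74, 6, 38, 6, 29, 7, 56⟩ :=
  out_sound (S := T5.ds_pp) T5.ok_pp (w := 42) (j := 1) (by decide +kernel)
theorem L04993 : Good (Phi V5.P V5.D 1 1) ⟨8, 222, 7, 74, 6, 39, 6, 29, 7, 56⟩ :=
  out_sound (S := T5.ds_pp) T5.ok_pp (w := 52) (j := 2) (by decide +kernel)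
theorem L04994 : Good (Phi V5.P V5.D 1 1) ⟨8, 222, 7, 74, 5, 19, 5, 14, 7, 57⟩ :=
  out_sound (S := T5.ds_pp) T5.ok_pp (w := 39) (j := 1) (by decide +kernel)
theorem L04995 : Good (Phi V5.P V5.D 1 1) ⟨8, 222, 7, 74, 7, 76, 6, 30, 7, 56⟩ :=
  out_sound (S := T5.ds_pp) T5.ok_pp (w := 44) (j := 1) (by decide +kernel)
theorem L04996 : Good (Phi V5.P V5.D 1 1) ⟨8, 222, 7, 74, 8, 152, 8, 124, 9, 224⟩ :=
  out_sound (S := T5.ds_pp) T5.ok_pp (w := 52) (j := 1) (by decide +kernel)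
theorem L04997 : Good (Phi V5.P V5.D 1 1) ⟨8, 222, 7, 74, 8, 152, 9, 250, 10, 448⟩ :=
  out_sound (S := T5.ds_pp) T5.ok_pp (w := 55) (j := 1) (by decide +kernel)
theorem L04998 : Good (Phi V5.P V5.D 1 1) ⟨8, 222, 7, 74, 9, 304, 9, 251, 10, 448⟩ :=
  out_sound (S := T5.ds_pp) T5.ok_pp (w := 57) (j := 1) (by decide +kernel)
theorem L04999 : Good (Phi V5.P V5.D 1 1) ⟨8, 222, 7, 74, 9, 305, 9, 251, 10, 448⟩ :=
  out_sound (S := T5.ds_pp) T5.ok_pp (w := 70) (j := 2) (by decide +kernel)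
theorem L05000 : Good (Phi V5.P V5.D 1 1) ⟨8, 222, 7, 74, 8, 152, 8, 125, 10, 449⟩ :=
  out_sound (S := T5.ds_pp) T5.ok_pp (w := 54) (j := 1) (by decide +kernel)
theorem L05001 : Good (Phi V5.P V5.D 1 1) ⟨8, 222, 7, 74, 8, 152, 7, 62, 9, 225⟩ :=
  out_sound (S := T5.ds_pp) T5.ok_pp (w := 51) (j := 1) (by decide +kernel)
theorem L05002 : Good (Phi V5.P V5.D 1 1) ⟨8, 222, 7, 74, 10, 608, 9, 252, 10, 448⟩ :=
  out_sound (S := T5.ds_pp) T5.ok_pp (w := 59) (j := 1) (by decide +kernel)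
theorem L05003 : Good (Phi V5.P V5.D 1 1) ⟨8, 222, 7, 74, 11, 1216, 10, 506, 11, 896⟩ :=
  out_sound (S := T5.ds_pp) T5.ok_pp (w := 64) (j := 1) (by decide +kernel)
theorem L05004 : Good (Phi V5.P V5.D 1 1) ⟨8, 222, 7, 74, 11, 1216, 10, 507, 11, 896⟩ :=
  out_sound (S := T5.ds_pp) T5.ok_pp (w := 78) (j := 2) (by decide +kernel)
theorem L05005 : Good (Phi V5.P V5.D 1 1) ⟨8, 222, 7, 74, 11, 1217, 9, 253, 11, 896⟩ :=
  out_sound (S := T5.ds_pp) T5.ok_pp (w := 76) (j := 2) (by decide +kernel)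
theorem L05006 : Good (Phi V5.P V5.D 1 1) ⟨8, 222, 7, 74, 10, 608, 9, 253, 11, 897⟩ :=
  out_sound (S := T5.ds_pp) T5.ok_pp (w := 74) (j := 2) (by decide +kernel)
theorem L05007 : Good (Phi V5.P V5.D 1 1) ⟨8, 222, 7, 74, 10, 609, 8, 126, 10, 448⟩ :=
  out_sound (S := T5.ds_pp) T5.ok_pp (w := 70) (j := 2) (by decide +kernel)
theorem L05008 : Good (Phi V5.P V5.D 1 1) ⟨8, 222, 7, 74, 9, 304, 8, 126, 10, 449⟩ :=
  out_sound (S := T5.ds_pp) T5.ok_pp (w := 56) (j := 1) (by decide +kernel)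
theorem L05009 : Good (Phi V5.P V5.D 1 1) ⟨8, 222, 7, 74, 9, 304, 8, 127, 9, 224⟩ :=
  out_sound (S := T5.ds_pp) T5.ok_pp (w := 66) (j := 2) (by decide +kernel)
theorem L05010 : Good (Phi V5.P V5.D 1 1) ⟨8, 222, 7, 74, 9, 305, 7, 63, 9, 224⟩ :=
  out_sound (S := T5.ds_pp) T5.ok_pp (w := 64) (j := 2) (by decide +kernel)
theorem L05011 : Good (Phi V5.P V5.D 1 1) ⟨8, 222, 7, 74, 8, 152, 7, 63, 9, 225⟩ :=
  out_sound (S := T5.ds_pp) T5.ok_pp (w := 62) (j := 2) (by decide +kernel)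
theorem L05012 : Good (Phi V5.P V5.D 1 1) ⟨8, 222, 7, 74, 8, 153, 6, 31, 8, 112⟩ :=
  out_sound (S := T5.ds_pp) T5.ok_pp (w := 58) (j := 2) (by decide +kernel)
theorem L05013 : Good (Phi V5.P V5.D 1 1) ⟨8, 222, 7, 74, 7, 76, 6, 31, 8, 113⟩ :=
  out_sound (S := T5.ds_pp) T5.ok_pp (w := 56) (j := 2) (by decide +kernel)
theorem L05014 : Good (Phi V5.P V5.D 1 1) ⟨8, 222, 7, 74, 8, 154, 6, 30, 8, 112⟩ :=
  out_sound (S := T5.ds_pp) T5.ok_pp (w := 48) (j := 1) (by decide +kernel)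
theorem L05015 : Good (Phi V5.P V5.D 1 1) ⟨8, 222, 7, 74, 8, 155, 6, 30, 8, 112⟩ :=
  out_sound (S := T5.ds_pp) T5.ok_pp (w := 58) (j := 2) (by decide +kernel)
theorem L05016 : Good (Phi V5.P V5.D 1 1) ⟨8, 222, 7, 74, 7, 77, 6, 30, 8, 113⟩ :=
  out_sound (S := T5.ds_pp) T5.ok_pp (w := 46) (j := 1) (by decide +kernel)
theorem L05017 : Good (Phi V5.P V5.D 1 1) ⟨8, 222, 7, 74, 7, 77, 6, 31, 7, 56⟩ :=
  out_sound (S := T5.ds_pp) T5.ok_pp (w := 54) (j := 2) (by decide +kernel)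
theorem L05018 : Good (Phi V5.P V5.D 1 1) ⟨8, 222, 7, 74, 6, 38, 5, 15, 7, 57⟩ :=
  out_sound (S := T5.ds_pp) T5.ok_pp (w := 50) (j := 2) (by decide +kernel)
theorem L05019 : Good (Phi V5.P V5.D 1 1) ⟨8, 222, 7, 74, 6, 39, 5, 15, 6, 28⟩ :=
  out_sound (S := T5.ds_pp) T5.ok_pp (w := 48) (j := 2) (by decide +kernel)
theorem L05020 : Good (Phi V5.P V5.D 1 1) ⟨8, 222, 7, 74, 4, 9, 4, 7, 6, 29⟩ :=
  out_sound (S := T5.ds_pp) T5.ok_pp (w := 34) (j := 1) (by decide +kernel)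
theorem L05021 : Good (Phi V5.P V5.D 1 1) ⟨8, 222, 7, 74, 3, 4, 3, 3, 5, 15⟩ :=
  out_sound (S := T5.ds_pp) T5.ok_pp (w := 29) (j := 1) (by decide +kernel)
theorem L05022 : Good (Phi V5.P V5.D 1 1) ⟨8, 222, 7, 74, 4, 10, 3, 2, 5, 14⟩ :=
  out_sound (S := T5.ds_pp) T5.ok_pp (w := 31) (j := 1) (by decide +kernel)
theorem L05023 : Good (Phi V5.P V5.D 1 1) ⟨8, 222, 7, 74, 5, 20, 5, 12, 6, 28⟩ :=
  out_sound (S := T5.ds_pp) T5.ok_pp (w := 37) (j := 1) (by decide +kernel)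
theorem L05024 : Good (Phi V5.P V5.D 1 1) ⟨8, 222, 7, 74, 5, 20, 5, 13, 6, 28⟩ :=
  out_sound (S := T5.ds_pp) T5.ok_pp (w := 46) (j := 2) (by decide +kernel)
theorem L05025 : Good (Phi V5.P V5.D 1 1) ⟨8, 222, 7, 74, 5, 20, 4, 7, 6, 28⟩ :=
  out_sound (S := T5.ds_pp) T5.ok_pp (w := 44) (j := 2) (by decide +kernel)
theorem L05026 : Good (Phi V5.P V5.D 1 1) ⟨8, 222, 7, 74, 5, 20, 3, 3, 6, 29⟩ :=
  out_sound (S := T5.ds_pp) T5.ok_pp (w := 42) (j := 2) (by decide +kernel)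
theorem L05027 : Good (Phi V5.P V5.D 1 1) ⟨8, 222, 7, 74, 5, 21, 3, 3, 5, 14⟩ :=
  out_sound (S := T5.ds_pp) T5.ok_pp (w := 40) (j := 2) (by decide +kernel)
theorem L05028 : Good (Phi V5.P V5.D 1 1) ⟨8, 222, 7, 74, 4, 10, 2, 1, 5, 15⟩ :=
  out_sound (S := T5.ds_pp) T5.ok_pp (w := 36) (j := 2) (by decide +kernel)
theorem L05029 : Good (Phi V5.P V5.D 1 1) ⟨8, 222, 7, 74, 4, 11, 2, 1, 4, 7⟩ :=
  out_sound (S := T5.ds_pp) T5.ok_pp (w := 34) (j := 2) (by decide +kernel)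
theorem L05030 : Good (Phi V5.P V5.D 1 1) ⟨10, 892, 8, 148, 3, 4, 3, 2, 4, 7⟩ :=
  out_sound (S := T5.ds_pp) T5.ok_pp (w := 27) (j := 1) (by decide +kernel)
theorem L05031 : Good (Phi V5.P V5.D 1 1) ⟨10, 892, 8, 148, 4, 8, 3, 3, 5, 14⟩ :=
  out_sound (S := T5.ds_pp) T5.ok_pp (w := 31) (j := 1) (by decide +kernel)
theorem L05032 : Good (Phi V5.P V5.D 1 1) ⟨10, 892, 8, 148, 4, 9, 4, 6, 5, 14⟩ :=
  out_sound (S := T5.ds_pp) T5.ok_pp (w := 32) (j := 1) (by decide +kernel)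
theorem L05033 : Good (Phi V5.P V5.D 1 1) ⟨10, 892, 8, 148, 5, 18, 4, 7, 6, 28⟩ :=
  leafX_sound T5.ok_pp T5.Ypp.bz_eq (w := 319) (c := ⟨⟨.negSucc 2438, .negSucc 3, .ofNat 0, .negSucc 0, .negSucc 82, .ofNat 1⟩, ⟨.negSucc 1502, .negSucc 4, .negSucc 2, .negSucc 0, .negSucc 51, .ofNat 1⟩, ⟨.ofNat 1258, .ofNat 1, .negSucc 5, .ofNat 1, .ofNat 34, .negSucc 0⟩, ⟨.negSucc 3209, .ofNat 0, .ofNat 1, .negSucc 0, .negSucc 89, .ofNat 2⟩, ⟨.negSucc 491, .ofNat 0, .negSucc 0, .ofNat 0, .negSucc 47, .ofNat 0⟩, .ofNat 165, .negSucc 54, .ofNat 0, .negSucc 54, .ofNat 217, .ofNat 0, .ofNat 144, .ofNat 58, .negSucc 16, .ofNat 0, .ofNat 128, .negSucc 3, .ofNat 0, .ofNat 0, .ofNat 447, .ofNat 3713452, .ofNat 0, .ofNat 0, .ofNat 0, .ofNat 0, .ofNat 119069989104971928275168103236527325433527582347542989685005092384669696, .ofNat 437883823250579100163637073180263019724912630662837433791973087510528,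 .ofNat 1188839389266366291956303277482455068282302354664980480, .ofNat 0, .ofNat 81796781879539547788476796545021231050825085668141659807452164119330816, .ofNat 0, .ofNat 0, .ofNat 0, .ofNat 182538615845914206443741458666084977647703746274491686904614006212788224, .ofNat 152164843158785846123021561766593488315682032817094590182907006943232, .ofNat 1906676507916654236409287229904452751803151080650440704, .ofNat 0⟩)
    (by decide +kernel)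
theorem L05034 : Good (Phi V5.P V5.D 1 1) ⟨11, 1784, 10, 592, 5, 19, 4, 7, 6, 28⟩ :=
  out_sound (S := T5.ds_pp) T5.ok_pp (w := 107) (j := 3) (by decide +kernel)
theorem L05035 : Good (Phi V5.P V5.D 1 1) ⟨12, 3568, 10, 593, 5, 19, 6, 28, 7, 56⟩ :=
  out_sound (S := T5.ds_pp) T5.ok_pp (w := 40) (j := 1) (by decide +kernel)
theorem L05036 : Good (Phi V5.P V5.D 1 1) ⟨12, 3568, 10, 593, 6, 38, 6, 29, 7, 56⟩ :=
  out_sound (S := T5.ds_pp) T5.ok_pp (w := 42) (j := 1) (by decide +kernel)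
theorem L05037 : Good (Phi V5.P V5.D 1 1) ⟨12, 3568, 10, 593, 6, 39, 6, 29, 7, 56⟩ :=
  out_sound (S := T5.ds_pp) T5.ok_pp (w := 52) (j := 2) (by decide +kernel)
theorem L05038 : Good (Phi V5.P V5.D 1 1) ⟨12, 3568, 10, 593, 5, 19, 5, 14, 7, 57⟩ :=
  out_sound (S := T5.ds_pp) T5.ok_pp (w := 39) (j := 1) (by decide +kernel)
theorem L05039 : Good (Phi V5.P V5.D 1 1) ⟨12, 3568, 10, 593, 7, 76, 6, 30, 7, 56⟩ :=
  out_sound (S := T5.ds_pp) T5.ok_pp (w := 44) (j := 1) (by decide +kernel)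
theorem L05040 : Good (Phi V5.P V5.D 1 1) ⟨12, 3568, 10, 593, 8, 152, 8, 124, 9, 224⟩ :=
  out_sound (S := T5.ds_pp) T5.ok_pp (w := 52) (j := 1) (by decide +kernel)
theorem L05041 : Good (Phi V5.P V5.D 1 1) ⟨12, 3568, 10, 593, 8, 152, 9, 250, 10, 448⟩ :=
  out_sound (S := T5.ds_pp) T5.ok_pp (w := 55) (j := 1) (by decide +kernel)
theorem L05042 : Good (Phi V5.P V5.D 1 1) ⟨12, 3568, 10, 593, 9, 304, 9, 251, 10, 448⟩ :=
  out_sound (S := T5.ds_pp) T5.ok_pp (w := 57) (j := 1) (by decide +kernel)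
theorem L05043 : Good (Phi V5.P V5.D 1 1) ⟨12, 3568, 10, 593, 9, 305, 9, 251, 10, 448⟩ :=
  out_sound (S := T5.ds_pp) T5.ok_pp (w := 70) (j := 2) (by decide +kernel)
theorem L05044 : Good (Phi V5.P V5.D 1 1) ⟨12, 3568, 10, 593, 8, 152, 8, 125, 10, 449⟩ :=
  out_sound (S := T5.ds_pp) T5.ok_pp (w := 54) (j := 1) (by decide +kernel)
theorem L05045 : Good (Phi V5.P V5.D 1 1) ⟨12, 3568, 10, 593, 8, 152, 7, 62, 9, 225⟩ :=
  out_sound (S := T5.ds_pp) T5.ok_pp (w := 51) (j := 1) (by decide +kernel)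
theorem L05046 : Good (Phi V5.P V5.D 1 1) ⟨12, 3568, 10, 593, 10, 608, 9, 252, 10, 448⟩ :=
  out_sound (S := T5.ds_pp) T5.ok_pp (w := 59) (j := 1) (by decide +kernel)
theorem L05047 : Good (Phi V5.P V5.D 1 1) ⟨12, 3568, 10, 593, 11, 1216, 10, 506, 11, 896⟩ :=
  out_sound (S := T5.ds_pp) T5.ok_pp (w := 64) (j := 1) (by decide +kernel)
theorem L05048 : Good (Phi V5.P V5.D 1 1) ⟨12, 3568, 10, 593, 11, 1216, 10, 507, 11, 896⟩ :=
  out_sound (S := T5.ds_pp) T5.ok_pp (w := 78) (j := 2) (by decide +kernel)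
theorem L05049 : Good (Phi V5.P V5.D 1 1) ⟨12, 3568, 10, 593, 11, 1217, 9, 253, 11, 896⟩ :=
  out_sound (S := T5.ds_pp) T5.ok_pp (w := 76) (j := 2) (by decide +kernel)
theorem L05050 : Good (Phi V5.P V5.D 1 1) ⟨12, 3568, 10, 593, 10, 608, 9, 253, 11, 897⟩ :=
  out_sound (S := T5.ds_pp) T5.ok_pp (w := 74) (j := 2) (by decide +kernel)
theorem L05051 : Good (Phi V5.P V5.D 1 1) ⟨12, 3568, 10, 593, 10, 609, 8, 126, 10, 448⟩ :=
  out_sound (S := T5.ds_pp) T5.ok_pp (w := 70) (j := 2) (by decide +kernel)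
theorem L05052 : Good (Phi V5.P V5.D 1 1) ⟨12, 3568, 10, 593, 9, 304, 8, 126, 10, 449⟩ :=
  out_sound (S := T5.ds_pp) T5.ok_pp (w := 56) (j := 1) (by decide +kernel)
theorem L05053 : Good (Phi V5.P V5.D 1 1) ⟨12, 3568, 10, 593, 9, 304, 8, 127, 9, 224⟩ :=
  out_sound (S := T5.ds_pp) T5.ok_pp (w := 66) (j := 2) (by decide +kernel)
theorem L05054 : Good (Phi V5.P V5.D 1 1) ⟨12, 3568, 10, 593, 9, 305, 7, 63, 9, 224⟩ :=
  out_sound (S := T5.ds_pp) T5.ok_pp (w := 64) (j := 2) (by decide +kernel)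
theorem L05055 : Good (Phi V5.P V5.D 1 1) ⟨12, 3568, 10, 593, 8, 152, 7, 63, 9, 225⟩ :=
  out_sound (S := T5.ds_pp) T5.ok_pp (w := 62) (j := 2) (by decide +kernel)
theorem L05056 : Good (Phi V5.P V5.D 1 1) ⟨12, 3568, 10, 593, 8, 153, 6, 31, 8, 112⟩ :=
  out_sound (S := T5.ds_pp) T5.ok_pp (w := 58) (j := 2) (by decide +kernel)
theorem L05057 : Good (Phi V5.P V5.D 1 1) ⟨12, 3568, 10, 593, 7, 76, 6, 31, 8, 113⟩ :=
  out_sound (S := T5.ds_pp) T5.ok_pp (w := 56) (j := 2) (by decide +kernel)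
theorem L05058 : Good (Phi V5.P V5.D 1 1) ⟨12, 3568, 10, 593, 8, 154, 6, 30, 8, 112⟩ :=
  out_sound (S := T5.ds_pp) T5.ok_pp (w := 48) (j := 1) (by decide +kernel)
theorem L05059 : Good (Phi V5.P V5.D 1 1) ⟨12, 3568, 10, 593, 8, 155, 6, 30, 8, 112⟩ :=
  out_sound (S := T5.ds_pp) T5.ok_pp (w := 58) (j := 2) (by decide +kernel)
theorem L05060 : Good (Phi V5.P V5.D 1 1) ⟨12, 3568, 10, 593, 7, 77, 6, 30, 8, 113⟩ :=
  out_sound (S := T5.ds_pp) T5.ok_pp (w := 46) (j := 1) (by decide +kernel)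
theorem L05061 : Good (Phi V5.P V5.D 1 1) ⟨12, 3568, 10, 593, 7, 77, 6, 31, 7, 56⟩ :=
  out_sound (S := T5.ds_pp) T5.ok_pp (w := 54) (j := 2) (by decide +kernel)
theorem L05062 : Good (Phi V5.P V5.D 1 1) ⟨12, 3568, 10, 593, 6, 38, 5, 15, 7, 57⟩ :=
  out_sound (S := T5.ds_pp) T5.ok_pp (w := 50) (j := 2) (by decide +kernel)
theorem L05063 : Good (Phi V5.P V5.D 1 1) ⟨12, 3568, 10, 593, 6, 39, 5, 15, 6, 28⟩ :=
  out_sound (S := T5.ds_pp) T5.ok_pp (w := 48) (j := 2) (by decide +kernel)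
theorem L05064 : Good (Phi V5.P V5.D 1 1) ⟨12, 3569, 10, 593, 5, 19, 4, 7, 6, 28⟩ :=
  out_sound (S := T5.ds_pp) T5.ok_pp (w := 113) (j := 3) (by decide +kernel)
theorem L05065 : Good (Phi V5.P V5.D 1 1) ⟨11, 1785, 9, 296, 5, 19, 4, 7, 6, 28⟩ :=
  out_sound (S := T5.ds_pp) T5.ok_pp (w := 105) (j := 3) (by decide +kernel)
theorem L05066 : Good (Phi V5.P V5.D 1 1) ⟨10, 892, 9, 297, 5, 19, 6, 28, 7, 56⟩ :=
  out_sound (S := T5.ds_pp) T5.ok_pp (w := 40) (j := 1) (by decide +kernel)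
theorem L05067 : Good (Phi V5.P V5.D 1 1) ⟨10, 892, 9, 297, 6, 38, 6, 29, 7, 56⟩ :=
  out_sound (S := T5.ds_pp) T5.ok_pp (w := 42) (j := 1) (by decide +kernel)
theorem L05068 : Good (Phi V5.P V5.D 1 1) ⟨10, 892, 9, 297, 6, 39, 6, 29, 7, 56⟩ :=
  out_sound (S := T5.ds_pp) T5.ok_pp (w := 52) (j := 2) (by decide +kernel)
theorem L05069 : Good (Phi V5.P V5.D 1 1) ⟨10, 892, 9, 297, 5, 19, 5, 14, 7, 57⟩ :=
  out_sound (S := T5.ds_pp) T5.ok_pp (w := 39) (j := 1) (by decide +kernel)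
theorem L05070 : Good (Phi V5.P V5.D 1 1) ⟨10, 892, 9, 297, 7, 76, 6, 30, 7, 56⟩ :=
  out_sound (S := T5.ds_pp) T5.ok_pp (w := 44) (j := 1) (by decide +kernel)
theorem L05071 : Good (Phi V5.P V5.D 1 1) ⟨10, 892, 9, 297, 8, 152, 8, 124, 9, 224⟩ :=
  out_sound (S := T5.ds_pp) T5.ok_pp (w := 52) (j := 1) (by decide +kernel)
theorem L05072 : Good (Phi V5.P V5.D 1 1) ⟨10, 892, 9, 297, 8, 152, 9, 250, 10, 448⟩ :=
  out_sound (S := T5.ds_pp) T5.ok_pp (w := 55) (j := 1) (by decide +kernel)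
theorem L05073 : Good (Phi V5.P V5.D 1 1) ⟨10, 892, 9, 297, 9, 304, 9, 251, 10, 448⟩ :=
  out_sound (S := T5.ds_pp) T5.ok_pp (w := 57) (j := 1) (by decide +kernel)
theorem L05074 : Good (Phi V5.P V5.D 1 1) ⟨10, 892, 9, 297, 9, 305, 9, 251, 10, 448⟩ :=
  out_sound (S := T5.ds_pp) T5.ok_pp (w := 70) (j := 2) (by decide +kernel)
theorem L05075 : Good (Phi V5.P V5.D 1 1) ⟨10, 892, 9, 297, 8, 152, 8, 125, 10, 449⟩ :=
  out_sound (S := T5.ds_pp) T5.ok_pp (w := 54) (j := 1) (by decide +kernel)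
theorem L05076 : Good (Phi V5.P V5.D 1 1) ⟨10, 892, 9, 297, 8, 152, 7, 62, 9, 225⟩ :=
  out_sound (S := T5.ds_pp) T5.ok_pp (w := 51) (j := 1) (by decide +kernel)
theorem L05077 : Good (Phi V5.P V5.D 1 1) ⟨10, 892, 9, 297, 10, 608, 9, 252, 10, 448⟩ :=
  out_sound (S := T5.ds_pp) T5.ok_pp (w := 59) (j := 1) (by decide +kernel)
theorem L05078 : Good (Phi V5.P V5.D 1 1) ⟨10, 892, 9, 297, 11, 1216, 10, 506, 11, 896⟩ :=
  out_sound (S := T5.ds_pp) T5.ok_pp (w := 64) (j := 1) (by decide +kernel)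
theorem L05079 : Good (Phi V5.P V5.D 1 1) ⟨10, 892, 9, 297, 11, 1216, 10, 507, 11, 896⟩ :=
  out_sound (S := T5.ds_pp) T5.ok_pp (w := 78) (j := 2) (by decide +kernel)
theorem L05080 : Good (Phi V5.P V5.D 1 1) ⟨10, 892, 9, 297, 11, 1217, 9, 253, 11, 896⟩ :=
  out_sound (S := T5.ds_pp) T5.ok_pp (w := 76) (j := 2) (by decide +kernel)
theorem L05081 : Good (Phi V5.P V5.D 1 1) ⟨10, 892, 9, 297, 10, 608, 9, 253, 11, 897⟩ :=
  out_sound (S := T5.ds_pp) T5.ok_pp (w := 74) (j := 2) (by decide +kernel)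
theorem L05082 : Good (Phi V5.P V5.D 1 1) ⟨10, 892, 9, 297, 10, 609, 8, 126, 10, 448⟩ :=
  out_sound (S := T5.ds_pp) T5.ok_pp (w := 70) (j := 2) (by decide +kernel)
theorem L05083 : Good (Phi V5.P V5.D 1 1) ⟨10, 892, 9, 297, 9, 304, 8, 126, 10, 449⟩ :=
  out_sound (S := T5.ds_pp) T5.ok_pp (w := 56) (j := 1) (by decide +kernel)
theorem L05084 : Good (Phi V5.P V5.D 1 1) ⟨10, 892, 9, 297, 9, 304, 8, 127, 9, 224⟩ :=
  out_sound (S := T5.ds_pp) T5.ok_pp (w := 66) (j := 2) (by decide +kernel)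
theorem L05085 : Good (Phi V5.P V5.D 1 1) ⟨10, 892, 9, 297, 9, 305, 7, 63, 9, 224⟩ :=
  out_sound (S := T5.ds_pp) T5.ok_pp (w := 64) (j := 2) (by decide +kernel)
theorem L05086 : Good (Phi V5.P V5.D 1 1) ⟨10, 892, 9, 297, 8, 152, 7, 63, 9, 225⟩ :=
  out_sound (S := T5.ds_pp) T5.ok_pp (w := 62) (j := 2) (by decide +kernel)
theorem L05087 : Good (Phi V5.P V5.D 1 1) ⟨10, 892, 9, 297, 8, 153, 6, 31, 8, 112⟩ :=
  out_sound (S := T5.ds_pp) T5.ok_pp (w := 58) (j := 2) (by decide +kernel)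
theorem L05088 : Good (Phi V5.P V5.D 1 1) ⟨10, 892, 9, 297, 7, 76, 6, 31, 8, 113⟩ :=
  out_sound (S := T5.ds_pp) T5.ok_pp (w := 56) (j := 2) (by decide +kernel)
theorem L05089 : Good (Phi V5.P V5.D 1 1) ⟨10, 892, 9, 297, 8, 154, 6, 30, 8, 112⟩ :=
  out_sound (S := T5.ds_pp) T5.ok_pp (w := 48) (j := 1) (by decide +kernel)
theorem L05090 : Good (Phi V5.P V5.D 1 1) ⟨10, 892, 9, 297, 8, 155, 6, 30, 8, 112⟩ :=
  out_sound (S := T5.ds_pp) T5.ok_pp (w := 58) (j := 2) (by decide +kernel)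
theorem L05091 : Good (Phi V5.P V5.D 1 1) ⟨10, 892, 9, 297, 7, 77, 6, 30, 8, 113⟩ :=
  out_sound (S := T5.ds_pp) T5.ok_pp (w := 46) (j := 1) (by decide +kernel)
theorem L05092 : Good (Phi V5.P V5.D 1 1) ⟨10, 892, 9, 297, 7, 77, 6, 31, 7, 56⟩ :=
  out_sound (S := T5.ds_pp) T5.ok_pp (w := 54) (j := 2) (by decide +kernel)
theorem L05093 : Good (Phi V5.P V5.D 1 1) ⟨10, 892, 9, 297, 6, 38, 5, 15, 7, 57⟩ :=
  out_sound (S := T5.ds_pp) T5.ok_pp (w := 50) (j := 2) (by decide +kernel)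
theorem L05094 : Good (Phi V5.P V5.D 1 1) ⟨10, 892, 9, 297, 6, 39, 5, 15, 6, 28⟩ :=
  out_sound (S := T5.ds_pp) T5.ok_pp (w := 48) (j := 2) (by decide +kernel)
theorem L05095 : Good (Phi V5.P V5.D 1 1) ⟨10, 892, 8, 148, 4, 9, 4, 7, 6, 29⟩ :=
  out_sound (S := T5.ds_pp) T5.ok_pp (w := 34) (j := 1) (by decide +kernel)
theorem L05096 : Good (Phi V5.P V5.D 1 1) ⟨10, 892, 8, 148, 3, 4, 3, 3, 5, 15⟩ :=
  out_sound (S := T5.ds_pp) T5.ok_pp (w := 29) (j := 1) (by decide +kernel)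
theorem L05097 : Good (Phi V5.P V5.D 1 1) ⟨10, 892, 8, 148, 4, 10, 3, 2, 5, 14⟩ :=
  out_sound (S := T5.ds_pp) T5.ok_pp (w := 31) (j := 1) (by decide +kernel)
theorem L05098 : Good (Phi V5.P V5.D 1 1) ⟨10, 892, 8, 148, 5, 20, 5, 12, 6, 28⟩ :=
  out_sound (S := T5.ds_pp) T5.ok_pp (w := 37) (j := 1) (by decide +kernel)
theorem L05099 : Good (Phi V5.P V5.D 1 1) ⟨10, 892, 8, 148, 5, 20, 5, 13, 6, 28⟩ :=
  out_sound (S := T5.ds_pp) T5.ok_pp (w := 46) (j := 2) (by decide +kernel)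
theorem L05100 : Good (Phi V5.P V5.D 1 1) ⟨10, 892, 8, 148, 5, 20, 4, 7, 6, 28⟩ :=
  out_sound (S := T5.ds_pp) T5.ok_pp (w := 44) (j := 2) (by decide +kernel)
theorem L05101 : Good (Phi V5.P V5.D 1 1) ⟨10, 892, 8, 148, 5, 20, 3, 3, 6, 29⟩ :=
  out_sound (S := T5.ds_pp) T5.ok_pp (w := 42) (j := 2) (by decide +kernel)
theorem L05102 : Good (Phi V5.P V5.D 1 1) ⟨10, 892, 8, 148, 5, 21, 3, 3, 5, 14⟩ :=
  out_sound (S := T5.ds_pp) T5.ok_pp (w := 40) (j := 2) (by decide +kernel)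
theorem L05103 : Good (Phi V5.P V5.D 1 1) ⟨10, 892, 8, 148, 4, 10, 2, 1, 5, 15⟩ :=
  out_sound (S := T5.ds_pp) T5.ok_pp (w := 36) (j := 2) (by decide +kernel)
theorem L05104 : Good (Phi V5.P V5.D 1 1) ⟨10, 892, 8, 148, 4, 11, 2, 1, 4, 7⟩ :=
  out_sound (S := T5.ds_pp) T5.ok_pp (w := 34) (j := 2) (by decide +kernel)
theorem L05105 : Good (Phi V5.P V5.D 1 1) ⟨10, 893, 8, 148, 2, 2, 2, 1, 4, 7⟩ :=
  out_sound (S := T5.ds_pp) T5.ok_pp (w := 97) (j := 3) (by decide +kernel)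
theorem L05106 : Good (Phi V5.P V5.D 1 1) ⟨9, 446, 8, 149, 3, 4, 3, 2, 4, 7⟩ :=
  out_sound (S := T5.ds_pp) T5.ok_pp (w := 27) (j := 1) (by decide +kernel)
theorem L05107 : Good (Phi V5.P V5.D 1 1) ⟨9, 446, 8, 149, 4, 8, 3, 3, 5, 14⟩ :=
  out_sound (S := T5.ds_pp) T5.ok_pp (w := 31) (j := 1) (by decide +kernel)
theorem L05108 : Good (Phi V5.P V5.D 1 1) ⟨9, 446, 8, 149, 4, 9, 4, 6, 5, 14⟩ :=
  out_sound (S := T5.ds_pp) T5.ok_pp (w := 32) (j := 1) (by decide +kernel)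
theorem L05109 : Good (Phi V5.P V5.D 1 1) ⟨9, 446, 8, 149, 5, 18, 4, 7, 6, 28⟩ :=
  leafX_sound T5.ok_pp T5.Ypp.bz_eq (w := 315) (c := ⟨⟨.negSucc 2436, .negSucc 6, .ofNat 0, .negSucc 0, .negSucc 84, .ofNat 1⟩, ⟨.negSucc 1504, .negSucc 9, .negSucc 2, .negSucc 0, .negSucc 52, .ofNat 1⟩, ⟨.ofNat 1250, .ofNat 2, .negSucc 4, .ofNat 1, .ofNat 36, .negSucc 0⟩, ⟨.negSucc 3206, .negSucc 0, .ofNat 1, .negSucc 0, .negSucc 91, .ofNat 2⟩, ⟨.negSucc 491, .negSucc 0, .negSucc 0, .ofNat 0, .negSucc 48, .ofNat 0⟩, .ofNat 165, .negSucc 54, .ofNat 0, .negSucc 54, .ofNat 218, .ofNat 0, .ofNat 144, .ofNat 58, .negSucc 17, .ofNat 0, .ofNat 128, .negSucc 3, .ofNat 0, .ofNat 0, .ofNat 448, .ofNat 3667041, .ofNat 0, .ofNat 0, .ofNat 0, .ofNat 0, .ofNat 7341408314342770994188134717756922900647675940130156951617522620170240, .ofNat 26819520586520403799534726648495379391790759270033933326099970785280,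 .ofNat 4656584801970825370230250348066803924220960575988957184, .ofNat 0, .ofNat 5203625583094664236678417381423425931461807620863872802721827708207104, .ofNat 0, .ofNat 0, .ofNat 0, .ofNat 11364194768781790974943416685265265086842178228474289079640868287152128, .ofNat 9920602001398387098719952958666158964432020527736398778489473335296, .ofNat 1890363779281108649123302425983692044804960131682926592, .ofNat 0⟩)
    (by decide +kernel)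
theorem L05110 : Good (Phi V5.P V5.D 1 1) ⟨9, 446, 8, 149, 5, 19, 6, 28, 7, 56⟩ :=
  out_sound (S := T5.ds_pp) T5.ok_pp (w := 40) (j := 1) (by decide +kernel)
theorem L05111 : Good (Phi V5.P V5.D 1 1) ⟨9, 446, 8, 149, 6, 38, 6, 29, 7, 56⟩ :=
  out_sound (S := T5.ds_pp) T5.ok_pp (w := 42) (j := 1) (by decide +kernel)
theorem L05112 : Good (Phi V5.P V5.D 1 1) ⟨9, 446, 8, 149, 6, 39, 6, 29, 7, 56⟩ :=
  out_sound (S := T5.ds_pp) T5.ok_pp (w := 52) (j := 2) (by decide +kernel)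
theorem L05113 : Good (Phi V5.P V5.D 1 1) ⟨9, 446, 8, 149, 5, 19, 5, 14, 7, 57⟩ :=
  out_sound (S := T5.ds_pp) T5.ok_pp (w := 39) (j := 1) (by decide +kernel)
theorem L05114 : Good (Phi V5.P V5.D 1 1) ⟨9, 446, 8, 149, 7, 76, 6, 30, 7, 56⟩ :=
  out_sound (S := T5.ds_pp) T5.ok_pp (w := 44) (j := 1) (by decide +kernel)
theorem L05115 : Good (Phi V5.P V5.D 1 1) ⟨9, 446, 8, 149, 8, 152, 8, 124, 9, 224⟩ :=
  out_sound (S := T5.ds_pp) T5.ok_pp (w := 52) (j := 1) (by decide +kernel)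
theorem L05116 : Good (Phi V5.P V5.D 1 1) ⟨9, 446, 8, 149, 8, 152, 9, 250, 10, 448⟩ :=
  out_sound (S := T5.ds_pp) T5.ok_pp (w := 55) (j := 1) (by decide +kernel)
theorem L05117 : Good (Phi V5.P V5.D 1 1) ⟨9, 446, 8, 149, 9, 304, 9, 251, 10, 448⟩ :=
  out_sound (S := T5.ds_pp) T5.ok_pp (w := 57) (j := 1) (by decide +kernel)
theorem L05118 : Good (Phi V5.P V5.D 1 1) ⟨9, 446, 8, 149, 9, 305, 9, 251, 10, 448⟩ :=
  out_sound (S := T5.ds_pp) T5.ok_pp (w := 70) (j := 2) (by decide +kernel)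
theorem L05119 : Good (Phi V5.P V5.D 1 1) ⟨9, 446, 8, 149, 8, 152, 8, 125, 10, 449⟩ :=
  out_sound (S := T5.ds_pp) T5.ok_pp (w := 54) (j := 1) (by decide +kernel)
theorem L05120 : Good (Phi V5.P V5.D 1 1) ⟨9, 446, 8, 149, 8, 152, 7, 62, 9, 225⟩ :=
  out_sound (S := T5.ds_pp) T5.ok_pp (w := 51) (j := 1) (by decide +kernel)
theorem L05121 : Good (Phi V5.P V5.D 1 1) ⟨9, 446, 8, 149, 10, 608, 9, 252, 10, 448⟩ :=
  out_sound (S := T5.ds_pp) T5.ok_pp (w := 59) (j := 1) (by decide +kernel)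
theorem L05122 : Good (Phi V5.P V5.D 1 1) ⟨9, 446, 8, 149, 11, 1216, 10, 506, 11, 896⟩ :=
  out_sound (S := T5.ds_pp) T5.ok_pp (w := 64) (j := 1) (by decide +kernel)
theorem L05123 : Good (Phi V5.P V5.D 1 1) ⟨9, 446, 8, 149, 11, 1216, 10, 507, 11, 896⟩ :=
  out_sound (S := T5.ds_pp) T5.ok_pp (w := 78) (j := 2) (by decide +kernel)
theorem L05124 : Good (Phi V5.P V5.D 1 1) ⟨9, 446, 8, 149, 11, 1217, 9, 253, 11, 896⟩ :=
  out_sound (S := T5.ds_pp) T5.ok_pp (w := 76) (j := 2) (by decide +kernel)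
theorem L05125 : Good (Phi V5.P V5.D 1 1) ⟨9, 446, 8, 149, 10, 608, 9, 253, 11, 897⟩ :=
  out_sound (S := T5.ds_pp) T5.ok_pp (w := 74) (j := 2) (by decide +kernel)
theorem L05126 : Good (Phi V5.P V5.D 1 1) ⟨9, 446, 8, 149, 10, 609, 8, 126, 10, 448⟩ :=
  out_sound (S := T5.ds_pp) T5.ok_pp (w := 70) (j := 2) (by decide +kernel)
theorem L05127 : Good (Phi V5.P V5.D 1 1) ⟨9, 446, 8, 149, 9, 304, 8, 126, 10, 449⟩ :=
  out_sound (S := T5.ds_pp) T5.ok_pp (w := 56) (j := 1) (by decide +kernel)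
theorem L05128 : Good (Phi V5.P V5.D 1 1) ⟨9, 446, 8, 149, 9, 304, 8, 127, 9, 224⟩ :=
  out_sound (S := T5.ds_pp) T5.ok_pp (w := 66) (j := 2) (by decide +kernel)
theorem L05129 : Good (Phi V5.P V5.D 1 1) ⟨9, 446, 8, 149, 9, 305, 7, 63, 9, 224⟩ :=
  out_sound (S := T5.ds_pp) T5.ok_pp (w := 64) (j := 2) (by decide +kernel)
theorem L05130 : Good (Phi V5.P V5.D 1 1) ⟨9, 446, 8, 149, 8, 152, 7, 63, 9, 225⟩ :=
  out_sound (S := T5.ds_pp) T5.ok_pp (w := 62) (j := 2) (by decide +kernel)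
theorem L05131 : Good (Phi V5.P V5.D 1 1) ⟨9, 446, 8, 149, 8, 153, 6, 31, 8, 112⟩ :=
  out_sound (S := T5.ds_pp) T5.ok_pp (w := 58) (j := 2) (by decide +kernel)
theorem L05132 : Good (Phi V5.P V5.D 1 1) ⟨9, 446, 8, 149, 7, 76, 6, 31, 8, 113⟩ :=
  out_sound (S := T5.ds_pp) T5.ok_pp (w := 56) (j := 2) (by decide +kernel)
theorem L05133 : Good (Phi V5.P V5.D 1 1) ⟨9, 446, 8, 149, 8, 154, 6, 30, 8, 112⟩ :=
  out_sound (S := T5.ds_pp) T5.ok_pp (w := 48) (j := 1) (by decide +kernel)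
theorem L05134 : Good (Phi V5.P V5.D 1 1) ⟨9, 446, 8, 149, 8, 155, 6, 30, 8, 112⟩ :=
  out_sound (S := T5.ds_pp) T5.ok_pp (w := 58) (j := 2) (by decide +kernel)
theorem L05135 : Good (Phi V5.P V5.D 1 1) ⟨9, 446, 8, 149, 7, 77, 6, 30, 8, 113⟩ :=
  out_sound (S := T5.ds_pp) T5.ok_pp (w := 46) (j := 1) (by decide +kernel)
theorem L05136 : Good (Phi V5.P V5.D 1 1) ⟨9, 446, 8, 149, 7, 77, 6, 31, 7, 56⟩ :=
  out_sound (S := T5.ds_pp) T5.ok_pp (w := 54) (j := 2) (by decide +kernel)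
theorem L05137 : Good (Phi V5.P V5.D 1 1) ⟨9, 446, 8, 149, 6, 38, 5, 15, 7, 57⟩ :=
  out_sound (S := T5.ds_pp) T5.ok_pp (w := 50) (j := 2) (by decide +kernel)
theorem L05138 : Good (Phi V5.P V5.D 1 1) ⟨9, 446, 8, 149, 6, 39, 5, 15, 6, 28⟩ :=
  out_sound (S := T5.ds_pp) T5.ok_pp (w := 48) (j := 2) (by decide +kernel)
theorem L05139 : Good (Phi V5.P V5.D 1 1) ⟨9, 446, 8, 149, 4, 9, 4, 7, 6, 29⟩ :=
  out_sound (S := T5.ds_pp) T5.ok_pp (w := 34) (j := 1) (by decide +kernel)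
theorem L05140 : Good (Phi V5.P V5.D 1 1) ⟨9, 446, 8, 149, 3, 4, 3, 3, 5, 15⟩ :=
  out_sound (S := T5.ds_pp) T5.ok_pp (w := 29) (j := 1) (by decide +kernel)
theorem L05141 : Good (Phi V5.P V5.D 1 1) ⟨9, 446, 8, 149, 4, 10, 3, 2, 5, 14⟩ :=
  out_sound (S := T5.ds_pp) T5.ok_pp (w := 31) (j := 1) (by decide +kernel)
theorem L05142 : Good (Phi V5.P V5.D 1 1) ⟨9, 446, 8, 149, 5, 20, 5, 12, 6, 28⟩ :=
  out_sound (S := T5.ds_pp) T5.ok_pp (w := 37) (j := 1) (by decide +kernel)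
theorem L05143 : Good (Phi V5.P V5.D 1 1) ⟨9, 446, 8, 149, 5, 20, 5, 13, 6, 28⟩ :=
  out_sound (S := T5.ds_pp) T5.ok_pp (w := 46) (j := 2) (by decide +kernel)
theorem L05144 : Good (Phi V5.P V5.D 1 1) ⟨9, 446, 8, 149, 5, 20, 4, 7, 6, 28⟩ :=
  out_sound (S := T5.ds_pp) T5.ok_pp (w := 44) (j := 2) (by decide +kernel)
theorem L05145 : Good (Phi V5.P V5.D 1 1) ⟨9, 446, 8, 149, 5, 20, 3, 3, 6, 29⟩ :=
  out_sound (S := T5.ds_pp) T5.ok_pp (w := 42) (j := 2) (by decide +kernel)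
theorem L05146 : Good (Phi V5.P V5.D 1 1) ⟨9, 446, 8, 149, 5, 21, 3, 3, 5, 14⟩ :=
  out_sound (S := T5.ds_pp) T5.ok_pp (w := 40) (j := 2) (by decide +kernel)
theorem L05147 : Good (Phi V5.P V5.D 1 1) ⟨9, 446, 8, 149, 4, 10, 2, 1, 5, 15⟩ :=
  out_sound (S := T5.ds_pp) T5.ok_pp (w := 36) (j := 2) (by decide +kernel)
theorem L05148 : Good (Phi V5.P V5.D 1 1) ⟨9, 446, 8, 149, 4, 11, 2, 1, 4, 7⟩ :=
  out_sound (S := T5.ds_pp) T5.ok_pp (w := 34) (j := 2) (by decide +kernel)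
theorem L05149 : Good (Phi V5.P V5.D 1 1) ⟨9, 447, 7, 74, 2, 2, 2, 1, 4, 7⟩ :=
  out_sound (S := T5.ds_pp) T5.ok_pp (w := 89) (j := 3) (by decide +kernel)
theorem L05150 : Good (Phi V5.P V5.D 1 1) ⟨10, 888, 8, 150, 2, 2, 2, 1, 4, 7⟩ :=
  out_sound (S := T5.ds_pp) T5.ok_pp (w := 97) (j := 3) (by decide +kernel)
theorem L05151 : Good (Phi V5.P V5.D 1 1) ⟨11, 1778, 9, 300, 2, 2, 2, 1, 4, 7⟩ :=
  out_sound (S := T5.ds_pp) T5.ok_pp (w := 105) (j := 3) (by decide +kernel)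
theorem L05152 : Good (Phi V5.P V5.D 1 1) ⟨11, 1779, 10, 600, 3, 4, 3, 2, 4, 7⟩ :=
  out_sound (S := T5.ds_pp) T5.ok_pp (w := 27) (j := 1) (by decide +kernel)
theorem L05153 : Good (Phi V5.P V5.D 1 1) ⟨11, 1779, 10, 600, 4, 8, 3, 3, 5, 14⟩ :=
  out_sound (S := T5.ds_pp) T5.ok_pp (w := 31) (j := 1) (by decide +kernel)
theorem L05154 : Good (Phi V5.P V5.D 1 1) ⟨11, 1779, 10, 600, 4, 9, 4, 6, 5, 14⟩ :=
  out_sound (S := T5.ds_pp) T5.ok_pp (w := 32) (j := 1) (by decide +kernel)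
theorem L05155 : Good (Phi V5.P V5.D 1 1) ⟨11, 1779, 10, 600, 5, 18, 4, 7, 6, 28⟩ :=
  leafX_sound T5.ok_pp T5.Ypp.bz_eq (w := 329) (c := ⟨⟨.negSucc 2431, .negSucc 1, .ofNat 0, .negSucc 0, .negSucc 81, .ofNat 1⟩, ⟨.negSucc 1498, .negSucc 1, .negSucc 0, .negSucc 0, .negSucc 50, .ofNat 1⟩, ⟨.ofNat 1247, .ofNat 1, .negSucc 0, .ofNat 1, .ofNat 32, .negSucc 0⟩, ⟨.negSucc 3207, .ofNat 0, .ofNat 0, .negSucc 0, .negSucc 88, .ofNat 2⟩, ⟨.negSucc 492, .ofNat 0, .ofNat 0, .ofNat 0, .negSucc 47, .ofNat 0⟩, .ofNat 165, .negSucc 54, .ofNat 0, .negSucc 54, .ofNat 219, .ofNat 0, .ofNat 144, .ofNat 59, .negSucc 17, .ofNat 0, .ofNat 128, .negSucc 3, .ofNat 0, .ofNat 0, .ofNat 449, .ofNat 3608517, .ofNat 0, .ofNat 0, .ofNat 0, .ofNat 0, .ofNat 117089545377590322281450429381856742135719563874304993408234635062732128256, .ofNat 437301914208111477702461028741964572060340505312590772220090605138608128,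 .ofNat 4700875857420086541404167009493261706207463161548767232, .ofNat 0, .ofNat 81981603939675210543273034289906861662717701549167918785113065643642454016, .ofNat 0, .ofNat 0, .ofNat 0, .ofNat 182755291053209123701919717994686021595200604213636045598065131043745169408, .ofNat 171407796647193350185541146571679944154748841267589872506979213249609728, .ofNat 4935431577693108833086712692655392915406659133309452288, .ofNat 0⟩)
    (by decide +kernel)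
theorem L05156 : Good (Phi V5.P V5.D 1 1) ⟨11, 1779, 10, 600, 5, 19, 6, 28, 7, 56⟩ :=
  out_sound (S := T5.ds_pp) T5.ok_pp (w := 40) (j := 1) (by decide +kernel)
theorem L05157 : Good (Phi V5.P V5.D 1 1) ⟨11, 1779, 10, 600, 6, 38, 6, 29, 7, 56⟩ :=
  out_sound (S := T5.ds_pp) T5.ok_pp (w := 42) (j := 1) (by decide +kernel)
theorem L05158 : Good (Phi V5.P V5.D 1 1) ⟨11, 1779, 10, 600, 6, 39, 6, 29, 7, 56⟩ :=
  out_sound (S := T5.ds_pp) T5.ok_pp (w := 52) (j := 2) (by decide +kernel)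
theorem L05159 : Good (Phi V5.P V5.D 1 1) ⟨11, 1779, 10, 600, 5, 19, 5, 14, 7, 57⟩ :=
  out_sound (S := T5.ds_pp) T5.ok_pp (w := 39) (j := 1) (by decide +kernel)
theorem L05160 : Good (Phi V5.P V5.D 1 1) ⟨11, 1779, 10, 600, 7, 76, 6, 30, 7, 56⟩ :=
  out_sound (S := T5.ds_pp) T5.ok_pp (w := 44) (j := 1) (by decide +kernel)
theorem L05161 : Good (Phi V5.P V5.D 1 1) ⟨11, 1779, 10, 600, 8, 152, 8, 124, 9, 224⟩ :=
  out_sound (S := T5.ds_pp) T5.ok_pp (w := 52) (j := 1) (by decide +kernel)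
theorem L05162 : Good (Phi V5.P V5.D 1 1) ⟨11, 1779, 10, 600, 8, 152, 9, 250, 10, 448⟩ :=
  out_sound (S := T5.ds_pp) T5.ok_pp (w := 55) (j := 1) (by decide +kernel)
theorem L05163 : Good (Phi V5.P V5.D 1 1) ⟨11, 1779, 10, 600, 9, 304, 9, 251, 10, 448⟩ :=
  out_sound (S := T5.ds_pp) T5.ok_pp (w := 57) (j := 1) (by decide +kernel)
theorem L05164 : Good (Phi V5.P V5.D 1 1) ⟨11, 1779, 10, 600, 9, 305, 9, 251, 10, 448⟩ :=
  out_sound (S := T5.ds_pp) T5.ok_pp (w := 70) (j := 2) (by decide +kernel)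
theorem L05165 : Good (Phi V5.P V5.D 1 1) ⟨11, 1779, 10, 600, 8, 152, 8, 125, 10, 449⟩ :=
  out_sound (S := T5.ds_pp) T5.ok_pp (w := 54) (j := 1) (by decide +kernel)
theorem L05166 : Good (Phi V5.P V5.D 1 1) ⟨11, 1779, 10, 600, 8, 152, 7, 62, 9, 225⟩ :=
  out_sound (S := T5.ds_pp) T5.ok_pp (w := 51) (j := 1) (by decide +kernel)
theorem L05167 : Good (Phi V5.P V5.D 1 1) ⟨11, 1779, 10, 600, 10, 608, 9, 252, 10, 448⟩ :=
  out_sound (S := T5.ds_pp) T5.ok_pp (w := 59) (j := 1) (by decide +kernel)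
theorem L05168 : Good (Phi V5.P V5.D 1 1) ⟨11, 1779, 10, 600, 11, 1216, 10, 506, 11, 896⟩ :=
  out_sound (S := T5.ds_pp) T5.ok_pp (w := 64) (j := 1) (by decide +kernel)
theorem L05169 : Good (Phi V5.P V5.D 1 1) ⟨11, 1779, 10, 600, 11, 1216, 10, 507, 11, 896⟩ :=
  out_sound (S := T5.ds_pp) T5.ok_pp (w := 78) (j := 2) (by decide +kernel)
theorem L05170 : Good (Phi V5.P V5.D 1 1) ⟨11, 1779, 10, 600, 11, 1217, 9, 253, 11, 896⟩ :=
  out_sound (S := T5.ds_pp) T5.ok_pp (w := 76) (j := 2) (by decide +kernel)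
theorem L05171 : Good (Phi V5.P V5.D 1 1) ⟨11, 1779, 10, 600, 10, 608, 9, 253, 11, 897⟩ :=
  out_sound (S := T5.ds_pp) T5.ok_pp (w := 74) (j := 2) (by decide +kernel)
theorem L05172 : Good (Phi V5.P V5.D 1 1) ⟨11, 1779, 10, 600, 10, 609, 8, 126, 10, 448⟩ :=
  out_sound (S := T5.ds_pp) T5.ok_pp (w := 70) (j := 2) (by decide +kernel)
theorem L05173 : Good (Phi V5.P V5.D 1 1) ⟨11, 1779, 10, 600, 9, 304, 8, 126, 10, 449⟩ :=
  out_sound (S := T5.ds_pp) T5.ok_pp (w := 56) (j := 1) (by decide +kernel)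
theorem L05174 : Good (Phi V5.P V5.D 1 1) ⟨11, 1779, 10, 600, 9, 304, 8, 127, 9, 224⟩ :=
  out_sound (S := T5.ds_pp) T5.ok_pp (w := 66) (j := 2) (by decide +kernel)
theorem L05175 : Good (Phi V5.P V5.D 1 1) ⟨11, 1779, 10, 600, 9, 305, 7, 63, 9, 224⟩ :=
  out_sound (S := T5.ds_pp) T5.ok_pp (w := 64) (j := 2) (by decide +kernel)
theorem L05176 : Good (Phi V5.P V5.D 1 1) ⟨11, 1779, 10, 600, 8, 152, 7, 63, 9, 225⟩ :=
  out_sound (S := T5.ds_pp) T5.ok_pp (w := 62) (j := 2) (by decide +kernel)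
theorem L05177 : Good (Phi V5.P V5.D 1 1) ⟨11, 1779, 10, 600, 8, 153, 6, 31, 8, 112⟩ :=
  out_sound (S := T5.ds_pp) T5.ok_pp (w := 58) (j := 2) (by decide +kernel)
theorem L05178 : Good (Phi V5.P V5.D 1 1) ⟨11, 1779, 10, 600, 7, 76, 6, 31, 8, 113⟩ :=
  out_sound (S := T5.ds_pp) T5.ok_pp (w := 56) (j := 2) (by decide +kernel)
theorem L05179 : Good (Phi V5.P V5.D 1 1) ⟨11, 1779, 10, 600, 8, 154, 6, 30, 8, 112⟩ :=
  out_sound (S := T5.ds_pp) T5.ok_pp (w := 48) (j := 1) (by decide +kernel)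
theorem L05180 : Good (Phi V5.P V5.D 1 1) ⟨11, 1779, 10, 600, 8, 155, 6, 30, 8, 112⟩ :=
  out_sound (S := T5.ds_pp) T5.ok_pp (w := 58) (j := 2) (by decide +kernel)
theorem L05181 : Good (Phi V5.P V5.D 1 1) ⟨11, 1779, 10, 600, 7, 77, 6, 30, 8, 113⟩ :=
  out_sound (S := T5.ds_pp) T5.ok_pp (w := 46) (j := 1) (by decide +kernel)
theorem L05182 : Good (Phi V5.P V5.D 1 1) ⟨11, 1779, 10, 600, 7, 77, 6, 31, 7, 56⟩ :=
  out_sound (S := T5.ds_pp) T5.ok_pp (w := 54) (j := 2) (by decide +kernel)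
theorem L05183 : Good (Phi V5.P V5.D 1 1) ⟨11, 1779, 10, 600, 6, 38, 5, 15, 7, 57⟩ :=
  out_sound (S := T5.ds_pp) T5.ok_pp (w := 50) (j := 2) (by decide +kernel)
theorem L05184 : Good (Phi V5.P V5.D 1 1) ⟨11, 1779, 10, 600, 6, 39, 5, 15, 6, 28⟩ :=
  out_sound (S := T5.ds_pp) T5.ok_pp (w := 48) (j := 2) (by decide +kernel)
theorem L05185 : Good (Phi V5.P V5.D 1 1) ⟨11, 1779, 10, 600, 4, 9, 4, 7, 6, 29⟩ :=
  out_sound (S := T5.ds_pp) T5.ok_pp (w := 34) (j := 1) (by decide +kernel)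
theorem L05186 : Good (Phi V5.P V5.D 1 1) ⟨11, 1779, 10, 600, 3, 4, 3, 3, 5, 15⟩ :=
  out_sound (S := T5.ds_pp) T5.ok_pp (w := 29) (j := 1) (by decide +kernel)
theorem L05187 : Good (Phi V5.P V5.D 1 1) ⟨11, 1779, 10, 600, 4, 10, 3, 2, 5, 14⟩ :=
  out_sound (S := T5.ds_pp) T5.ok_pp (w := 31) (j := 1) (by decide +kernel)
theorem L05188 : Good (Phi V5.P V5.D 1 1) ⟨11, 1779, 10, 600, 5, 20, 5, 12, 6, 28⟩ :=
  out_sound (S := T5.ds_pp) T5.ok_pp (w := 37) (j := 1) (by decide +kernel)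
theorem L05189 : Good (Phi V5.P V5.D 1 1) ⟨11, 1779, 10, 600, 5, 20, 5, 13, 6, 28⟩ :=
  out_sound (S := T5.ds_pp) T5.ok_pp (w := 46) (j := 2) (by decide +kernel)
theorem L05190 : Good (Phi V5.P V5.D 1 1) ⟨11, 1779, 10, 600, 5, 20, 4, 7, 6, 28⟩ :=
  out_sound (S := T5.ds_pp) T5.ok_pp (w := 44) (j := 2) (by decide +kernel)
theorem L05191 : Good (Phi V5.P V5.D 1 1) ⟨11, 1779, 10, 600, 5, 20, 3, 3, 6, 29⟩ :=
  out_sound (S := T5.ds_pp) T5.ok_pp (w := 42) (j := 2) (by decide +kernel)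
theorem L05192 : Good (Phi V5.P V5.D 1 1) ⟨11, 1779, 10, 600, 5, 21, 3, 3, 5, 14⟩ :=
  out_sound (S := T5.ds_pp) T5.ok_pp (w := 40) (j := 2) (by decide +kernel)
theorem L05193 : Good (Phi V5.P V5.D 1 1) ⟨11, 1779, 10, 600, 4, 10, 2, 1, 5, 15⟩ :=
  out_sound (S := T5.ds_pp) T5.ok_pp (w := 36) (j := 2) (by decide +kernel)
theorem L05194 : Good (Phi V5.P V5.D 1 1) ⟨11, 1779, 10, 600, 4, 11, 2, 1, 4, 7⟩ :=
  out_sound (S := T5.ds_pp) T5.ok_pp (w := 34) (j := 2) (by decide +kernel)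
theorem L05195 : Good (Phi V5.P V5.D 1 1) ⟨11, 1779, 10, 601, 2, 2, 2, 1, 4, 7⟩ :=
  out_sound (S := T5.ds_pp) T5.ok_pp (w := 107) (j := 3) (by decide +kernel)
theorem L05196 : Good (Phi V5.P V5.D 1 1) ⟨10, 889, 9, 301, 2, 2, 2, 1, 4, 7⟩ :=
  out_sound (S := T5.ds_pp) T5.ok_pp (w := 99) (j := 3) (by decide +kernel)
theorem L05197 : Good (Phi V5.P V5.D 1 1) ⟨9, 444, 8, 151, 2, 2, 2, 1, 4, 7⟩ :=
  out_sound (S := T5.ds_pp) T5.ok_pp (w := 91) (j := 3) (by decide +kernel)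
theorem L05198 : Good (Phi V5.P V5.D 1 1) ⟨9, 445, 8, 150, 3, 4, 3, 2, 4, 7⟩ :=
  out_sound (S := T5.ds_pp) T5.ok_pp (w := 27) (j := 1) (by decide +kernel)
theorem L05199 : Good (Phi V5.P V5.D 1 1) ⟨9, 445, 8, 150, 4, 8, 3, 3, 5, 14⟩ :=
  out_sound (S := T5.ds_pp) T5.ok_pp (w := 31) (j := 1) (by decide +kernel)
theorem L05200 : Good (Phi V5.P V5.D 1 1) ⟨9, 445, 8, 150, 4, 9, 4, 6, 5, 14⟩ :=
  out_sound (S := T5.ds_pp) T5.ok_pp (w := 32) (j := 1) (by decide +kernel)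
theorem L05201 : Good (Phi V5.P V5.D 1 1) ⟨9, 445, 8, 150, 5, 18, 4, 7, 6, 28⟩ :=
  leafX_sound T5.ok_pp T5.Ypp.bz_eq (w := 315) (c := ⟨⟨.negSucc 2433, .negSucc 6, .ofNat 0, .negSucc 0, .negSucc 80, .ofNat 1⟩, ⟨.negSucc 1500, .negSucc 8, .negSucc 2, .negSucc 0, .negSucc 50, .ofNat 1⟩, ⟨.ofNat 1249, .ofNat 2, .negSucc 4, .ofNat 1, .ofNat 30, .negSucc 0⟩, ⟨.negSucc 3209, .ofNat 0, .ofNat 1, .negSucc 0, .negSucc 87, .ofNat 2⟩, ⟨.negSucc 493, .negSucc 0, .negSucc 0, .ofNat 0, .negSucc 46, .ofNat 0⟩, .ofNat 165, .negSucc 54, .ofNat 0, .negSucc 54, .ofNat 218, .ofNat 0, .ofNat 144, .ofNat 59, .negSucc 17, .ofNat 0, .ofNat 128, .negSucc 3, .ofNat 0, .ofNat 0, .ofNat 448, .ofNat 3655205, .ofNat 0, .ofNat 0, .ofNat 0, .ofNat 0, .ofNat 7269214639265829508576024313925754225570931810612191641745982918492160, .ofNat 26720343454520845072858432195428574482982909803359868138405939380224,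 .ofNat 0, .ofNat 0, .ofNat 4952140456963300543874502512196740112707694796653104261779145032204288, .ofNat 0, .ofNat 0, .ofNat 0, .ofNat 11349948843319858794726487959728108265859826985498714893401645987659776, .ofNat 10245096421970530550593931138126719294607084580577727207545593921536, .ofNat 0, .ofNat 0⟩)
    (by decide +kernel)
theorem L05202 : Good (Phi V5.P V5.D 1 1) ⟨9, 445, 8, 150, 5, 19, 6, 28, 7, 56⟩ :=
  out_sound (S := T5.ds_pp) T5.ok_pp (w := 40) (j := 1) (by decide +kernel)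
theorem L05203 : Good (Phi V5.P V5.D 1 1) ⟨9, 445, 8, 150, 6, 38, 6, 29, 7, 56⟩ :=
  out_sound (S := T5.ds_pp) T5.ok_pp (w := 42) (j := 1) (by decide +kernel)
theorem L05204 : Good (Phi V5.P V5.D 1 1) ⟨9, 445, 8, 150, 6, 39, 6, 29, 7, 56⟩ :=
  out_sound (S := T5.ds_pp) T5.ok_pp (w := 52) (j := 2) (by decide +kernel)
theorem L05205 : Good (Phi V5.P V5.D 1 1) ⟨9, 445, 8, 150, 5, 19, 5, 14, 7, 57⟩ :=
  out_sound (S := T5.ds_pp) T5.ok_pp (w := 39) (j := 1) (by decide +kernel)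
theorem L05206 : Good (Phi V5.P V5.D 1 1) ⟨9, 445, 8, 150, 7, 76, 6, 30, 7, 56⟩ :=
  out_sound (S := T5.ds_pp) T5.ok_pp (w := 44) (j := 1) (by decide +kernel)
theorem L05207 : Good (Phi V5.P V5.D 1 1) ⟨9, 445, 8, 150, 8, 152, 8, 124, 9, 224⟩ :=
  out_sound (S := T5.ds_pp) T5.ok_pp (w := 52) (j := 1) (by decide +kernel)
theorem L05208 : Good (Phi V5.P V5.D 1 1) ⟨9, 445, 8, 150, 8, 152, 9, 250, 10, 448⟩ :=
  out_sound (S := T5.ds_pp) T5.ok_pp (w := 55) (j := 1) (by decide +kernel)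
theorem L05209 : Good (Phi V5.P V5.D 1 1) ⟨9, 445, 8, 150, 9, 304, 9, 251, 10, 448⟩ :=
  out_sound (S := T5.ds_pp) T5.ok_pp (w := 57) (j := 1) (by decide +kernel)
theorem L05210 : Good (Phi V5.P V5.D 1 1) ⟨9, 445, 8, 150, 9, 305, 9, 251, 10, 448⟩ :=
  out_sound (S := T5.ds_pp) T5.ok_pp (w := 70) (j := 2) (by decide +kernel)
theorem L05211 : Good (Phi V5.P V5.D 1 1) ⟨9, 445, 8, 150, 8, 152, 8, 125, 10, 449⟩ :=
  out_sound (S := T5.ds_pp) T5.ok_pp (w := 54) (j := 1) (by decide +kernel)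
theorem L05212 : Good (Phi V5.P V5.D 1 1) ⟨9, 445, 8, 150, 8, 152, 7, 62, 9, 225⟩ :=
  out_sound (S := T5.ds_pp) T5.ok_pp (w := 51) (j := 1) (by decide +kernel)
theorem L05213 : Good (Phi V5.P V5.D 1 1) ⟨9, 445, 8, 150, 10, 608, 9, 252, 10, 448⟩ :=
  out_sound (S := T5.ds_pp) T5.ok_pp (w := 59) (j := 1) (by decide +kernel)
theorem L05214 : Good (Phi V5.P V5.D 1 1) ⟨9, 445, 8, 150, 11, 1216, 10, 506, 11, 896⟩ :=
  out_sound (S := T5.ds_pp) T5.ok_pp (w := 64) (j := 1) (by decide +kernel)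
theorem L05215 : Good (Phi V5.P V5.D 1 1) ⟨9, 445, 8, 150, 11, 1216, 10, 507, 11, 896⟩ :=
  out_sound (S := T5.ds_pp) T5.ok_pp (w := 78) (j := 2) (by decide +kernel)
theorem L05216 : Good (Phi V5.P V5.D 1 1) ⟨9, 445, 8, 150, 11, 1217, 9, 253, 11, 896⟩ :=
  out_sound (S := T5.ds_pp) T5.ok_pp (w := 76) (j := 2) (by decide +kernel)
theorem L05217 : Good (Phi V5.P V5.D 1 1) ⟨9, 445, 8, 150, 10, 608, 9, 253, 11, 897⟩ :=
  out_sound (S := T5.ds_pp) T5.ok_pp (w := 74) (j := 2) (by decide +kernel)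
theorem L05218 : Good (Phi V5.P V5.D 1 1) ⟨9, 445, 8, 150, 10, 609, 8, 126, 10, 448⟩ :=
  out_sound (S := T5.ds_pp) T5.ok_pp (w := 70) (j := 2) (by decide +kernel)
theorem L05219 : Good (Phi V5.P V5.D 1 1) ⟨9, 445, 8, 150, 9, 304, 8, 126, 10, 449⟩ :=
  out_sound (S := T5.ds_pp) T5.ok_pp (w := 56) (j := 1) (by decide +kernel)
theorem L05220 : Good (Phi V5.P V5.D 1 1) ⟨9, 445, 8, 150, 9, 304, 8, 127, 9, 224⟩ :=
  out_sound (S := T5.ds_pp) T5.ok_pp (w := 66) (j := 2) (by decide +kernel)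
theorem L05221 : Good (Phi V5.P V5.D 1 1) ⟨9, 445, 8, 150, 9, 305, 7, 63, 9, 224⟩ :=
  out_sound (S := T5.ds_pp) T5.ok_pp (w := 64) (j := 2) (by decide +kernel)
theorem L05222 : Good (Phi V5.P V5.D 1 1) ⟨9, 445, 8, 150, 8, 152, 7, 63, 9, 225⟩ :=
  out_sound (S := T5.ds_pp) T5.ok_pp (w := 62) (j := 2) (by decide +kernel)
theorem L05223 : Good (Phi V5.P V5.D 1 1) ⟨9, 445, 8, 150, 8, 153, 6, 31, 8, 112⟩ :=
  out_sound (S := T5.ds_pp) T5.ok_pp (w := 58) (j := 2) (by decide +kernel)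
theorem L05224 : Good (Phi V5.P V5.D 1 1) ⟨9, 445, 8, 150, 7, 76, 6, 31, 8, 113⟩ :=
  out_sound (S := T5.ds_pp) T5.ok_pp (w := 56) (j := 2) (by decide +kernel)
theorem L05225 : Good (Phi V5.P V5.D 1 1) ⟨9, 445, 8, 150, 8, 154, 6, 30, 8, 112⟩ :=
  out_sound (S := T5.ds_pp) T5.ok_pp (w := 48) (j := 1) (by decide +kernel)
theorem L05226 : Good (Phi V5.P V5.D 1 1) ⟨9, 445, 8, 150, 8, 155, 6, 30, 8, 112⟩ :=
  out_sound (S := T5.ds_pp) T5.ok_pp (w := 58) (j := 2) (by decide +kernel)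
theorem L05227 : Good (Phi V5.P V5.D 1 1) ⟨9, 445, 8, 150, 7, 77, 6, 30, 8, 113⟩ :=
  out_sound (S := T5.ds_pp) T5.ok_pp (w := 46) (j := 1) (by decide +kernel)
theorem L05228 : Good (Phi V5.P V5.D 1 1) ⟨9, 445, 8, 150, 7, 77, 6, 31, 7, 56⟩ :=
  out_sound (S := T5.ds_pp) T5.ok_pp (w := 54) (j := 2) (by decide +kernel)
theorem L05229 : Good (Phi V5.P V5.D 1 1) ⟨9, 445, 8, 150, 6, 38, 5, 15, 7, 57⟩ :=
  out_sound (S := T5.ds_pp) T5.ok_pp (w := 50) (j := 2) (by decide +kernel)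
theorem L05230 : Good (Phi V5.P V5.D 1 1) ⟨9, 445, 8, 150, 6, 39, 5, 15, 6, 28⟩ :=
  out_sound (S := T5.ds_pp) T5.ok_pp (w := 48) (j := 2) (by decide +kernel)
theorem L05231 : Good (Phi V5.P V5.D 1 1) ⟨9, 445, 8, 150, 4, 9, 4, 7, 6, 29⟩ :=
  out_sound (S := T5.ds_pp) T5.ok_pp (w := 34) (j := 1) (by decide +kernel)
theorem L05232 : Good (Phi V5.P V5.D 1 1) ⟨9, 445, 8, 150, 3, 4, 3, 3, 5, 15⟩ :=
  out_sound (S := T5.ds_pp) T5.ok_pp (w := 29) (j := 1) (by decide +kernel)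
theorem L05233 : Good (Phi V5.P V5.D 1 1) ⟨9, 445, 8, 150, 4, 10, 3, 2, 5, 14⟩ :=
  out_sound (S := T5.ds_pp) T5.ok_pp (w := 31) (j := 1) (by decide +kernel)
theorem L05234 : Good (Phi V5.P V5.D 1 1) ⟨9, 445, 8, 150, 5, 20, 5, 12, 6, 28⟩ :=
  out_sound (S := T5.ds_pp) T5.ok_pp (w := 37) (j := 1) (by decide +kernel)
theorem L05235 : Good (Phi V5.P V5.D 1 1) ⟨9, 445, 8, 150, 5, 20, 5, 13, 6, 28⟩ :=
  out_sound (S := T5.ds_pp) T5.ok_pp (w := 46) (j := 2) (by decide +kernel)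
theorem L05236 : Good (Phi V5.P V5.D 1 1) ⟨9, 445, 8, 150, 5, 20, 4, 7, 6, 28⟩ :=
  out_sound (S := T5.ds_pp) T5.ok_pp (w := 44) (j := 2) (by decide +kernel)
theorem L05237 : Good (Phi V5.P V5.D 1 1) ⟨9, 445, 8, 150, 5, 20, 3, 3, 6, 29⟩ :=
  out_sound (S := T5.ds_pp) T5.ok_pp (w := 42) (j := 2) (by decide +kernel)
theorem L05238 : Good (Phi V5.P V5.D 1 1) ⟨9, 445, 8, 150, 5, 21, 3, 3, 5, 14⟩ :=
  out_sound (S := T5.ds_pp) T5.ok_pp (w := 40) (j := 2) (by decide +kernel)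
theorem L05239 : Good (Phi V5.P V5.D 1 1) ⟨9, 445, 8, 150, 4, 10, 2, 1, 5, 15⟩ :=
  out_sound (S := T5.ds_pp) T5.ok_pp (w := 36) (j := 2) (by decide +kernel)
theorem L05240 : Good (Phi V5.P V5.D 1 1) ⟨9, 445, 8, 150, 4, 11, 2, 1, 4, 7⟩ :=
  out_sound (S := T5.ds_pp) T5.ok_pp (w := 34) (j := 2) (by decide +kernel)
theorem L05241 : Good (Phi V5.P V5.D 1 1) ⟨10, 890, 8, 151, 2, 2, 2, 1, 4, 7⟩ :=
  out_sound (S := T5.ds_pp) T5.ok_pp (w := 97) (j := 3) (by decide +kernel)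
theorem L05242 : Good (Phi V5.P V5.D 1 1) ⟨10, 891, 8, 151, 3, 4, 3, 2, 4, 7⟩ :=
  out_sound (S := T5.ds_pp) T5.ok_pp (w := 27) (j := 1) (by decide +kernel)
theorem L05243 : Good (Phi V5.P V5.D 1 1) ⟨10, 891, 8, 151, 4, 8, 3, 3, 5, 14⟩ :=
  out_sound (S := T5.ds_pp) T5.ok_pp (w := 31) (j := 1) (by decide +kernel)
theorem L05244 : Good (Phi V5.P V5.D 1 1) ⟨10, 891, 8, 151, 4, 9, 4, 6, 5, 14⟩ :=
  out_sound (S := T5.ds_pp) T5.ok_pp (w := 32) (j := 1) (by decide +kernel)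
theorem L05245 : Good (Phi V5.P V5.D 1 1) ⟨10, 891, 8, 151, 5, 18, 4, 7, 6, 28⟩ :=
  leafX_sound T5.ok_pp T5.Ypp.bz_eq (w := 319) (c := ⟨⟨.negSucc 2438, .negSucc 3, .ofNat 0, .negSucc 0, .negSucc 79, .ofNat 1⟩, ⟨.negSucc 1509, .negSucc 4, .negSucc 2, .negSucc 0, .negSucc 49, .ofNat 1⟩, ⟨.ofNat 1246, .ofNat 1, .negSucc 5, .ofNat 1, .ofNat 28, .negSucc 0⟩, ⟨.negSucc 3209, .ofNat 0, .ofNat 1, .negSucc 0, .negSucc 85, .ofNat 2⟩, ⟨.negSucc 495, .ofNat 0, .negSucc 0, .ofNat 0, .negSucc 45, .ofNat 0⟩, .ofNat 165, .negSucc 54, .ofNat 0, .negSucc 54, .ofNat 219, .ofNat 0, .ofNat 144, .ofNat 59, .negSucc 17, .ofNat 0, .ofNat 128, .negSucc 3, .ofNat 0, .ofNat 0, .ofNat 449, .ofNat 3778634, .ofNat 0, .ofNat 0, .ofNat 0, .ofNat 0, .ofNat 120781881366493338995540136772253631564020669763602676263387590947766272, .ofNat 434371104595023305043219938927588537230412057517643384095189694939136,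 .ofNat 0, .ofNat 0, .ofNat 82577083172210317816018024633522786492662471336418688837002182866763776, .ofNat 0, .ofNat 0, .ofNat 0, .ofNat 190151999574225403668375759764214936229319207834103303680306337552531456, .ofNat 155192268395355583896225057316576319400630253081164960286072167727104, .ofNat 0, .ofNat 0⟩)
    (by decide +kernel)
theorem L05246 : Good (Phi V5.P V5.D 1 1) ⟨10, 891, 8, 151, 5, 19, 6, 28, 7, 56⟩ :=
  out_sound (S := T5.ds_pp) T5.ok_pp (w := 40) (j := 1) (by decide +kernel)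
theorem L05247 : Good (Phi V5.P V5.D 1 1) ⟨10, 891, 8, 151, 6, 38, 6, 29, 7, 56⟩ :=
  out_sound (S := T5.ds_pp) T5.ok_pp (w := 42) (j := 1) (by decide +kernel)
theorem L05248 : Good (Phi V5.P V5.D 1 1) ⟨10, 891, 8, 151, 6, 39, 6, 29, 7, 56⟩ :=
  out_sound (S := T5.ds_pp) T5.ok_pp (w := 52) (j := 2) (by decide +kernel)
theorem L05249 : Good (Phi V5.P V5.D 1 1) ⟨10, 891, 8, 151, 5, 19, 5, 14, 7, 57⟩ :=
  out_sound (S := T5.ds_pp) T5.ok_pp (w := 39) (j := 1) (by decide +kernel)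
theorem L05250 : Good (Phi V5.P V5.D 1 1) ⟨10, 891, 8, 151, 7, 76, 6, 30, 7, 56⟩ :=
  out_sound (S := T5.ds_pp) T5.ok_pp (w := 44) (j := 1) (by decide +kernel)
theorem L05251 : Good (Phi V5.P V5.D 1 1) ⟨10, 891, 8, 151, 8, 152, 8, 124, 9, 224⟩ :=
  out_sound (S := T5.ds_pp) T5.ok_pp (w := 52) (j := 1) (by decide +kernel)
theorem L05252 : Good (Phi V5.P V5.D 1 1) ⟨10, 891, 8, 151, 8, 152, 9, 250, 10, 448⟩ :=
  out_sound (S := T5.ds_pp) T5.ok_pp (w := 55) (j := 1) (by decide +kernel)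
theorem L05253 : Good (Phi V5.P V5.D 1 1) ⟨10, 891, 8, 151, 9, 304, 9, 251, 10, 448⟩ :=
  out_sound (S := T5.ds_pp) T5.ok_pp (w := 57) (j := 1) (by decide +kernel)
theorem L05254 : Good (Phi V5.P V5.D 1 1) ⟨10, 891, 8, 151, 9, 305, 9, 251, 10, 448⟩ :=
  out_sound (S := T5.ds_pp) T5.ok_pp (w := 70) (j := 2) (by decide +kernel)
theorem L05255 : Good (Phi V5.P V5.D 1 1) ⟨10, 891, 8, 151, 8, 152, 8, 125, 10, 449⟩ :=
  out_sound (S := T5.ds_pp) T5.ok_pp (w := 54) (j := 1) (by decide +kernel)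
theorem L05256 : Good (Phi V5.P V5.D 1 1) ⟨10, 891, 8, 151, 8, 152, 7, 62, 9, 225⟩ :=
  out_sound (S := T5.ds_pp) T5.ok_pp (w := 51) (j := 1) (by decide +kernel)
theorem L05257 : Good (Phi V5.P V5.D 1 1) ⟨10, 891, 8, 151, 10, 608, 9, 252, 10, 448⟩ :=
  out_sound (S := T5.ds_pp) T5.ok_pp (w := 59) (j := 1) (by decide +kernel)
theorem L05258 : Good (Phi V5.P V5.D 1 1) ⟨10, 891, 8, 151, 11, 1216, 10, 506, 11, 896⟩ :=
  out_sound (S := T5.ds_pp) T5.ok_pp (w := 64) (j := 1) (by decide +kernel)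
theorem L05259 : Good (Phi V5.P V5.D 1 1) ⟨10, 891, 8, 151, 11, 1216, 10, 507, 11, 896⟩ :=
  out_sound (S := T5.ds_pp) T5.ok_pp (w := 78) (j := 2) (by decide +kernel)
theorem L05260 : Good (Phi V5.P V5.D 1 1) ⟨10, 891, 8, 151, 11, 1217, 9, 253, 11, 896⟩ :=
  out_sound (S := T5.ds_pp) T5.ok_pp (w := 76) (j := 2) (by decide +kernel)
theorem L05261 : Good (Phi V5.P V5.D 1 1) ⟨10, 891, 8, 151, 10, 608, 9, 253, 11, 897⟩ :=
  out_sound (S := T5.ds_pp) T5.ok_pp (w := 74) (j := 2) (by decide +kernel)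
theorem L05262 : Good (Phi V5.P V5.D 1 1) ⟨10, 891, 8, 151, 10, 609, 8, 126, 10, 448⟩ :=
  out_sound (S := T5.ds_pp) T5.ok_pp (w := 70) (j := 2) (by decide +kernel)
theorem L05263 : Good (Phi V5.P V5.D 1 1) ⟨10, 891, 8, 151, 9, 304, 8, 126, 10, 449⟩ :=
  out_sound (S := T5.ds_pp) T5.ok_pp (w := 56) (j := 1) (by decide +kernel)
theorem L05264 : Good (Phi V5.P V5.D 1 1) ⟨10, 891, 8, 151, 9, 304, 8, 127, 9, 224⟩ :=
  out_sound (S := T5.ds_pp) T5.ok_pp (w := 66) (j := 2) (by decide +kernel)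
theorem L05265 : Good (Phi V5.P V5.D 1 1) ⟨10, 891, 8, 151, 9, 305, 7, 63, 9, 224⟩ :=
  out_sound (S := T5.ds_pp) T5.ok_pp (w := 64) (j := 2) (by decide +kernel)
theorem L05266 : Good (Phi V5.P V5.D 1 1) ⟨10, 891, 8, 151, 8, 152, 7, 63, 9, 225⟩ :=
  out_sound (S := T5.ds_pp) T5.ok_pp (w := 62) (j := 2) (by decide +kernel)
theorem L05267 : Good (Phi V5.P V5.D 1 1) ⟨10, 891, 8, 151, 8, 153, 6, 31, 8, 112⟩ :=
  out_sound (S := T5.ds_pp) T5.ok_pp (w := 58) (j := 2) (by decide +kernel)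
theorem L05268 : Good (Phi V5.P V5.D 1 1) ⟨10, 891, 8, 151, 7, 76, 6, 31, 8, 113⟩ :=
  out_sound (S := T5.ds_pp) T5.ok_pp (w := 56) (j := 2) (by decide +kernel)
theorem L05269 : Good (Phi V5.P V5.D 1 1) ⟨10, 891, 8, 151, 8, 154, 6, 30, 8, 112⟩ :=
  out_sound (S := T5.ds_pp) T5.ok_pp (w := 48) (j := 1) (by decide +kernel)
theorem L05270 : Good (Phi V5.P V5.D 1 1) ⟨10, 891, 8, 151, 8, 155, 6, 30, 8, 112⟩ :=
  out_sound (S := T5.ds_pp) T5.ok_pp (w := 58) (j := 2) (by decide +kernel)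
theorem L05271 : Good (Phi V5.P V5.D 1 1) ⟨10, 891, 8, 151, 7, 77, 6, 30, 8, 113⟩ :=
  out_sound (S := T5.ds_pp) T5.ok_pp (w := 46) (j := 1) (by decide +kernel)
theorem L05272 : Good (Phi V5.P V5.D 1 1) ⟨10, 891, 8, 151, 7, 77, 6, 31, 7, 56⟩ :=
  out_sound (S := T5.ds_pp) T5.ok_pp (w := 54) (j := 2) (by decide +kernel)
theorem L05273 : Good (Phi V5.P V5.D 1 1) ⟨10, 891, 8, 151, 6, 38, 5, 15, 7, 57⟩ :=
  out_sound (S := T5.ds_pp) T5.ok_pp (w := 50) (j := 2) (by decide +kernel)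
theorem L05274 : Good (Phi V5.P V5.D 1 1) ⟨10, 891, 8, 151, 6, 39, 5, 15, 6, 28⟩ :=
  out_sound (S := T5.ds_pp) T5.ok_pp (w := 48) (j := 2) (by decide +kernel)
theorem L05275 : Good (Phi V5.P V5.D 1 1) ⟨10, 891, 8, 151, 4, 9, 4, 7, 6, 29⟩ :=
  out_sound (S := T5.ds_pp) T5.ok_pp (w := 34) (j := 1) (by decide +kernel)
theorem L05276 : Good (Phi V5.P V5.D 1 1) ⟨10, 891, 8, 151, 3, 4, 3, 3, 5, 15⟩ :=
  out_sound (S := T5.ds_pp) T5.ok_pp (w := 29) (j := 1) (by decide +kernel)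
theorem L05277 : Good (Phi V5.P V5.D 1 1) ⟨10, 891, 8, 151, 4, 10, 3, 2, 5, 14⟩ :=
  out_sound (S := T5.ds_pp) T5.ok_pp (w := 31) (j := 1) (by decide +kernel)
theorem L05278 : Good (Phi V5.P V5.D 1 1) ⟨10, 891, 8, 151, 5, 20, 5, 12, 6, 28⟩ :=
  out_sound (S := T5.ds_pp) T5.ok_pp (w := 37) (j := 1) (by decide +kernel)
theorem L05279 : Good (Phi V5.P V5.D 1 1) ⟨10, 891, 8, 151, 5, 20, 5, 13, 6, 28⟩ :=
  out_sound (S := T5.ds_pp) T5.ok_pp (w := 46) (j := 2) (by decide +kernel)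
theorem L05280 : Good (Phi V5.P V5.D 1 1) ⟨10, 891, 8, 151, 5, 20, 4, 7, 6, 28⟩ :=
  out_sound (S := T5.ds_pp) T5.ok_pp (w := 44) (j := 2) (by decide +kernel)
theorem L05281 : Good (Phi V5.P V5.D 1 1) ⟨10, 891, 8, 151, 5, 20, 3, 3, 6, 29⟩ :=
  out_sound (S := T5.ds_pp) T5.ok_pp (w := 42) (j := 2) (by decide +kernel)
theorem L05282 : Good (Phi V5.P V5.D 1 1) ⟨10, 891, 8, 151, 5, 21, 3, 3, 5, 14⟩ :=
  out_sound (S := T5.ds_pp) T5.ok_pp (w := 40) (j := 2) (by decide +kernel)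
theorem L05283 : Good (Phi V5.P V5.D 1 1) ⟨10, 891, 8, 151, 4, 10, 2, 1, 5, 15⟩ :=
  out_sound (S := T5.ds_pp) T5.ok_pp (w := 36) (j := 2) (by decide +kernel)
theorem L05284 : Good (Phi V5.P V5.D 1 1) ⟨10, 891, 8, 151, 4, 11, 2, 1, 4, 7⟩ :=
  out_sound (S := T5.ds_pp) T5.ok_pp (w := 34) (j := 2) (by decide +kernel)
theorem L05285 : Good (Phi V5.P V5.D 1 1) ⟨8, 223, 7, 75, 3, 4, 3, 2, 4, 7⟩ :=
  out_sound (S := T5.ds_pp) T5.ok_pp (w := 27) (j := 1) (by decide +kernel)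
theorem L05286 : Good (Phi V5.P V5.D 1 1) ⟨8, 223, 7, 75, 4, 8, 3, 3, 5, 14⟩ :=
  out_sound (S := T5.ds_pp) T5.ok_pp (w := 31) (j := 1) (by decide +kernel)
theorem L05287 : Good (Phi V5.P V5.D 1 1) ⟨8, 223, 7, 75, 4, 9, 4, 6, 5, 14⟩ :=
  out_sound (S := T5.ds_pp) T5.ok_pp (w := 32) (j := 1) (by decide +kernel)
theorem L05288 : Good (Phi V5.P V5.D 1 1) ⟨8, 223, 7, 75, 5, 18, 4, 7, 6, 28⟩ :=
  leafX_sound T5.ok_pp T5.Ypp.bz_eq (w := 308) (c := ⟨⟨.negSucc 2435, .negSucc 13, .ofNat 0, .negSucc 0, .negSucc 85, .ofNat 1⟩, ⟨.negSucc 1506, .negSucc 18, .negSucc 6, .negSucc 0, .negSucc 53, .ofNat 1⟩, ⟨.ofNat 1244, .ofNat 4, .negSucc 10, .ofNat 1, .ofNat 37, .negSucc 0⟩, ⟨.negSucc 3204, .negSucc 0, .ofNat 2, .negSucc 0, .negSucc 92, .ofNat 2⟩, ⟨.negSucc 491, .negSucc 0, .negSucc 0, .ofNat 0, .negSucc 49, .ofNat 0⟩, .ofNat 165, .negSucc 54, .ofNat 0, .negSucc 54, .ofNat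 218, .ofNat 0, .ofNat 144, .ofNat 59, .negSucc 17, .ofNat 0, .ofNat 128, .negSucc 3, .ofNat 0, .ofNat 0, .ofNat 448, .ofNat 3649150, .ofNat 0, .ofNat 0, .ofNat 0, .ofNat 0, .ofNat 57060875778390451619015280091111567647608998601494374255225066225664, .ofNat 207572064558843550200598192290515249879773949019059093709034356736, .ofNat 3106186071214488777605641083844328381976362135173726208, .ofNat 0, .ofNat 38757345351232610932913429610098841423130743613584537141899601903616, .ofNat 0, .ofNat 0, .ofNat 0, .ofNat 89302408892184088553862527820876086788677850980118417883127317790720, .ofNat 76199439913167195103252678930024275822615422838526515005435674624, .ofNat 2293284189297276213125684931120350803051097584056664064, .ofNat 0⟩)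
    (by decide +kernel)
theorem L05289 : Good (Phi V5.P V5.D 1 1) ⟨8, 223, 7, 75, 5, 19, 6, 28, 7, 56⟩ :=
  out_sound (S := T5.ds_pp) T5.ok_pp (w := 40) (j := 1) (by decide +kernel)
theorem L05290 : Good (Phi V5.P V5.D 1 1) ⟨8, 223, 7, 75, 6, 38, 6, 29, 7, 56⟩ :=
  out_sound (S := T5.ds_pp) T5.ok_pp (w := 42) (j := 1) (by decide +kernel)
theorem L05291 : Good (Phi V5.P V5.D 1 1) ⟨8, 223, 7, 75, 6, 39, 6, 29, 7, 56⟩ :=
  out_sound (S := T5.ds_pp) T5.ok_pp (w := 52) (j := 2) (by decide +kernel)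
theorem L05292 : Good (Phi V5.P V5.D 1 1) ⟨8, 223, 7, 75, 5, 19, 5, 14, 7, 57⟩ :=
  out_sound (S := T5.ds_pp) T5.ok_pp (w := 39) (j := 1) (by decide +kernel)
theorem L05293 : Good (Phi V5.P V5.D 1 1) ⟨8, 223, 7, 75, 7, 76, 6, 30, 7, 56⟩ :=
  out_sound (S := T5.ds_pp) T5.ok_pp (w := 44) (j := 1) (by decide +kernel)
theorem L05294 : Good (Phi V5.P V5.D 1 1) ⟨8, 223, 7, 75, 8, 152, 8, 124, 9, 224⟩ :=
  out_sound (S := T5.ds_pp) T5.ok_pp (w := 52) (j := 1) (by decide +kernel)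
theorem L05295 : Good (Phi V5.P V5.D 1 1) ⟨8, 223, 7, 75, 8, 152, 9, 250, 10, 448⟩ :=
  out_sound (S := T5.ds_pp) T5.ok_pp (w := 55) (j := 1) (by decide +kernel)
theorem L05296 : Good (Phi V5.P V5.D 1 1) ⟨8, 223, 7, 75, 9, 304, 9, 251, 10, 448⟩ :=
  out_sound (S := T5.ds_pp) T5.ok_pp (w := 57) (j := 1) (by decide +kernel)
theorem L05297 : Good (Phi V5.P V5.D 1 1) ⟨8, 223, 7, 75, 9, 305, 9, 251, 10, 448⟩ :=
  out_sound (S := T5.ds_pp) T5.ok_pp (w := 70) (j := 2) (by decide +kernel)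
theorem L05298 : Good (Phi V5.P V5.D 1 1) ⟨8, 223, 7, 75, 8, 152, 8, 125, 10, 449⟩ :=
  out_sound (S := T5.ds_pp) T5.ok_pp (w := 54) (j := 1) (by decide +kernel)
theorem L05299 : Good (Phi V5.P V5.D 1 1) ⟨8, 223, 7, 75, 8, 152, 7, 62, 9, 225⟩ :=
  out_sound (S := T5.ds_pp) T5.ok_pp (w := 51) (j := 1) (by decide +kernel)
theorem L05300 : Good (Phi V5.P V5.D 1 1) ⟨8, 223, 7, 75, 10, 608, 9, 252, 10, 448⟩ :=
  out_sound (S := T5.ds_pp) T5.ok_pp (w := 59) (j := 1) (by decide +kernel)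
theorem L05301 : Good (Phi V5.P V5.D 1 1) ⟨8, 223, 7, 75, 11, 1216, 10, 506, 11, 896⟩ :=
  out_sound (S := T5.ds_pp) T5.ok_pp (w := 64) (j := 1) (by decide +kernel)
theorem L05302 : Good (Phi V5.P V5.D 1 1) ⟨8, 223, 7, 75, 11, 1216, 10, 507, 11, 896⟩ :=
  out_sound (S := T5.ds_pp) T5.ok_pp (w := 78) (j := 2) (by decide +kernel)
theorem L05303 : Good (Phi V5.P V5.D 1 1) ⟨8, 223, 7, 75, 11, 1217, 9, 253, 11, 896⟩ :=
  out_sound (S := T5.ds_pp) T5.ok_pp (w := 76) (j := 2) (by decide +kernel)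
theorem L05304 : Good (Phi V5.P V5.D 1 1) ⟨8, 223, 7, 75, 10, 608, 9, 253, 11, 897⟩ :=
  out_sound (S := T5.ds_pp) T5.ok_pp (w := 74) (j := 2) (by decide +kernel)
theorem L05305 : Good (Phi V5.P V5.D 1 1) ⟨8, 223, 7, 75, 10, 609, 8, 126, 10, 448⟩ :=
  out_sound (S := T5.ds_pp) T5.ok_pp (w := 70) (j := 2) (by decide +kernel)
theorem L05306 : Good (Phi V5.P V5.D 1 1) ⟨8, 223, 7, 75, 9, 304, 8, 126, 10, 449⟩ :=
  out_sound (S := T5.ds_pp) T5.ok_pp (w := 56) (j := 1) (by decide +kernel)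
theorem L05307 : Good (Phi V5.P V5.D 1 1) ⟨8, 223, 7, 75, 9, 304, 8, 127, 9, 224⟩ :=
  out_sound (S := T5.ds_pp) T5.ok_pp (w := 66) (j := 2) (by decide +kernel)
theorem L05308 : Good (Phi V5.P V5.D 1 1) ⟨8, 223, 7, 75, 9, 305, 7, 63, 9, 224⟩ :=
  out_sound (S := T5.ds_pp) T5.ok_pp (w := 64) (j := 2) (by decide +kernel)
theorem L05309 : Good (Phi V5.P V5.D 1 1) ⟨8, 223, 7, 75, 8, 152, 7, 63, 9, 225⟩ :=
  out_sound (S := T5.ds_pp) T5.ok_pp (w := 62) (j := 2) (by decide +kernel)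
theorem L05310 : Good (Phi V5.P V5.D 1 1) ⟨8, 223, 7, 75, 8, 153, 6, 31, 8, 112⟩ :=
  out_sound (S := T5.ds_pp) T5.ok_pp (w := 58) (j := 2) (by decide +kernel)
theorem L05311 : Good (Phi V5.P V5.D 1 1) ⟨8, 223, 7, 75, 7, 76, 6, 31, 8, 113⟩ :=
  out_sound (S := T5.ds_pp) T5.ok_pp (w := 56) (j := 2) (by decide +kernel)
theorem L05312 : Good (Phi V5.P V5.D 1 1) ⟨8, 223, 7, 75, 8, 154, 6, 30, 8, 112⟩ :=
  out_sound (S := T5.ds_pp) T5.ok_pp (w := 48) (j := 1) (by decide +kernel)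
theorem L05313 : Good (Phi V5.P V5.D 1 1) ⟨8, 223, 7, 75, 8, 155, 6, 30, 8, 112⟩ :=
  out_sound (S := T5.ds_pp) T5.ok_pp (w := 58) (j := 2) (by decide +kernel)
theorem L05314 : Good (Phi V5.P V5.D 1 1) ⟨8, 223, 7, 75, 7, 77, 6, 30, 8, 113⟩ :=
  out_sound (S := T5.ds_pp) T5.ok_pp (w := 46) (j := 1) (by decide +kernel)
theorem L05315 : Good (Phi V5.P V5.D 1 1) ⟨8, 223, 7, 75, 7, 77, 6, 31, 7, 56⟩ :=
  out_sound (S := T5.ds_pp) T5.ok_pp (w := 54) (j := 2) (by decide +kernel)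
theorem L05316 : Good (Phi V5.P V5.D 1 1) ⟨8, 223, 7, 75, 6, 38, 5, 15, 7, 57⟩ :=
  out_sound (S := T5.ds_pp) T5.ok_pp (w := 50) (j := 2) (by decide +kernel)
theorem L05317 : Good (Phi V5.P V5.D 1 1) ⟨8, 223, 7, 75, 6, 39, 5, 15, 6, 28⟩ :=
  out_sound (S := T5.ds_pp) T5.ok_pp (w := 48) (j := 2) (by decide +kernel)
theorem L05318 : Good (Phi V5.P V5.D 1 1) ⟨8, 223, 7, 75, 4, 9, 4, 7, 6, 29⟩ :=
  out_sound (S := T5.ds_pp) T5.ok_pp (w := 34) (j := 1) (by decide +kernel)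
theorem L05319 : Good (Phi V5.P V5.D 1 1) ⟨8, 223, 7, 75, 3, 4, 3, 3, 5, 15⟩ :=
  out_sound (S := T5.ds_pp) T5.ok_pp (w := 29) (j := 1) (by decide +kernel)
theorem L05320 : Good (Phi V5.P V5.D 1 1) ⟨8, 223, 7, 75, 4, 10, 3, 2, 5, 14⟩ :=
  out_sound (S := T5.ds_pp) T5.ok_pp (w := 31) (j := 1) (by decide +kernel)
theorem L05321 : Good (Phi V5.P V5.D 1 1) ⟨8, 223, 7, 75, 5, 20, 5, 12, 6, 28⟩ :=
  out_sound (S := T5.ds_pp) T5.ok_pp (w := 37) (j := 1) (by decide +kernel)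
theorem L05322 : Good (Phi V5.P V5.D 1 1) ⟨8, 223, 7, 75, 5, 20, 5, 13, 6, 28⟩ :=
  out_sound (S := T5.ds_pp) T5.ok_pp (w := 46) (j := 2) (by decide +kernel)
theorem L05323 : Good (Phi V5.P V5.D 1 1) ⟨8, 223, 7, 75, 5, 20, 4, 7, 6, 28⟩ :=
  out_sound (S := T5.ds_pp) T5.ok_pp (w := 44) (j := 2) (by decide +kernel)
theorem L05324 : Good (Phi V5.P V5.D 1 1) ⟨8, 223, 7, 75, 5, 20, 3, 3, 6, 29⟩ :=
  out_sound (S := T5.ds_pp) T5.ok_pp (w := 42) (j := 2) (by decide +kernel)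
theorem L05325 : Good (Phi V5.P V5.D 1 1) ⟨8, 223, 7, 75, 5, 21, 3, 3, 5, 14⟩ :=
  out_sound (S := T5.ds_pp) T5.ok_pp (w := 40) (j := 2) (by decide +kernel)
theorem L05326 : Good (Phi V5.P V5.D 1 1) ⟨8, 223, 7, 75, 4, 10, 2, 1, 5, 15⟩ :=
  out_sound (S := T5.ds_pp) T5.ok_pp (w := 36) (j := 2) (by decide +kernel)
theorem L05327 : Good (Phi V5.P V5.D 1 1) ⟨8, 223, 7, 75, 4, 11, 2, 1, 4, 7⟩ :=
  out_sound (S := T5.ds_pp) T5.ok_pp (w := 34) (j := 2) (by decide +kernel)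
theorem L05328 : Good (Phi V5.P V5.D 1 1) ⟨7, 111, 6, 37, 2, 3, 1, 0, 4, 7⟩ :=
  out_sound (S := T5.ds_pp) T5.ok_pp (w := 28) (j := 2) (by decide +kernel)
theorem L05329 : Good (Phi V5.P V5.D 1 1) ⟨7, 110, 5, 19, 1, 1, 1, 0, 4, 7⟩ :=
  out_sound (S := T5.ds_pp) T5.ok_pp (w := 73) (j := 3) (by decide +kernel)
theorem L05330 : Good (Phi V5.P V5.D 1 1) ⟨8, 222, 6, 38, 1, 1, 1, 0, 4, 7⟩ :=
  out_sound (S := T5.ds_pp) T5.ok_pp (w := 81) (j := 3) (by decide +kernel)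
theorem L05331 : Good (Phi V5.P V5.D 1 1) ⟨8, 223, 7, 76, 2, 2, 2, 0, 4, 7⟩ :=
  out_sound (S := T5.ds_pp) T5.ok_pp (w := 24) (j := 1) (by decide +kernel)
theorem L05332 : Good (Phi V5.P V5.D 1 1) ⟨8, 223, 8, 152, 3, 4, 3, 2, 4, 7⟩ :=
  out_sound (S := T5.ds_pp) T5.ok_pp (w := 27) (j := 1) (by decide +kernel)
theorem L05333 : Good (Phi V5.P V5.D 1 1) ⟨8, 223, 8, 152, 4, 8, 3, 3, 5, 14⟩ :=
  out_sound (S := T5.ds_pp) T5.ok_pp (w := 31) (j := 1) (by decide +kernel)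
theorem L05334 : Good (Phi V5.P V5.D 1 1) ⟨8, 223, 8, 152, 4, 9, 4, 6, 5, 14⟩ :=
  out_sound (S := T5.ds_pp) T5.ok_pp (w := 32) (j := 1) (by decide +kernel)
theorem L05335 : Good (Phi V5.P V5.D 1 1) ⟨8, 223, 8, 152, 5, 18, 4, 7, 6, 28⟩ :=
  leafX_sound T5.ok_pp T5.Ypp.bz_eq (w := 311) (c := ⟨⟨.negSucc 2442, .negSucc 13, .ofNat 0, .negSucc 0, .negSucc 79, .ofNat 1⟩, ⟨.negSucc 1517, .negSucc 18, .negSucc 2, .negSucc 0, .negSucc 49, .ofNat 1⟩, ⟨.ofNat 1242, .ofNat 3, .negSucc 4, .ofNat 1, .ofNat 28, .negSucc 0⟩, ⟨.negSucc 3208, .negSucc 0, .ofNat 1, .negSucc 0, .negSucc 85, .ofNat 2⟩, ⟨.negSucc 496, .negSucc 0, .negSucc 0, .ofNat 0, .negSucc 45, .ofNat 0⟩, .ofNat 165, .negSucc 55, .ofNat 0, .negSucc 55, .ofNat 218, .ofNat 0, .ofNat 143, .ofNat 59, .negSucc 17, .ofNat 0, .ofNat 128, .negSucc 3, .ofNat 0, .ofNat 0, .ofNat 447, .ofNat 3683259, .ofNat 0, .ofNat 0, .ofNat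 0, .ofNat 0, .ofNat 455736268973426915761813385912757397512230524553878294929674787094528, .ofNat 1641157210260372096345826389636388110809967694583511834003431751680, .ofNat 13077562044360582844346466449364415927983503601781702656, .ofNat 0, .ofNat 310495075312936053360293479575066651562284430612498129153548619874304, .ofNat 0, .ofNat 0, .ofNat 0, .ofNat 727098557653428534930517714574170818746371637414406649265284836229120, .ofNat 594300543853316619612869419453276823249918954990922051371468324864, .ofNat 11893411394872953309271919912811634840247350946628108288, .ofNat 0⟩)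
    (by decide +kernel)
theorem L05336 : Good (Phi V5.P V5.D 1 1) ⟨8, 223, 8, 152, 5, 19, 6, 28, 7, 56⟩ :=
  out_sound (S := T5.ds_pp) T5.ok_pp (w := 40) (j := 1) (by decide +kernel)
theorem L05337 : Good (Phi V5.P V5.D 1 1) ⟨8, 223, 8, 152, 6, 38, 6, 29, 7, 56⟩ :=
  out_sound (S := T5.ds_pp) T5.ok_pp (w := 42) (j := 1) (by decide +kernel)
theorem L05338 : Good (Phi V5.P V5.D 1 1) ⟨8, 223, 8, 152, 6, 39, 6, 29, 7, 56⟩ :=
  out_sound (S := T5.ds_pp) T5.ok_pp (w := 52) (j := 2) (by decide +kernel)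
theorem L05339 : Good (Phi V5.P V5.D 1 1) ⟨8, 223, 8, 152, 5, 19, 5, 14, 7, 57⟩ :=
  out_sound (S := T5.ds_pp) T5.ok_pp (w := 39) (j := 1) (by decide +kernel)
theorem L05340 : Good (Phi V5.P V5.D 1 1) ⟨8, 223, 8, 152, 7, 76, 6, 30, 7, 56⟩ :=
  out_sound (S := T5.ds_pp) T5.ok_pp (w := 44) (j := 1) (by decide +kernel)
theorem L05341 : Good (Phi V5.P V5.D 1 1) ⟨8, 223, 8, 152, 8, 152, 8, 124, 9, 224⟩ :=
  out_sound (S := T5.ds_pp) T5.ok_pp (w := 52) (j := 1) (by decide +kernel)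
theorem L05342 : Good (Phi V5.P V5.D 1 1) ⟨8, 223, 8, 152, 8, 152, 9, 250, 10, 448⟩ :=
  out_sound (S := T5.ds_pp) T5.ok_pp (w := 55) (j := 1) (by decide +kernel)
theorem L05343 : Good (Phi V5.P V5.D 1 1) ⟨8, 223, 8, 152, 9, 304, 9, 251, 10, 448⟩ :=
  out_sound (S := T5.ds_pp) T5.ok_pp (w := 57) (j := 1) (by decide +kernel)
theorem L05344 : Good (Phi V5.P V5.D 1 1) ⟨8, 223, 8, 152, 9, 305, 9, 251, 10, 448⟩ :=
  out_sound (S := T5.ds_pp) T5.ok_pp (w := 70) (j := 2) (by decide +kernel)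
theorem L05345 : Good (Phi V5.P V5.D 1 1) ⟨8, 223, 8, 152, 8, 152, 8, 125, 10, 449⟩ :=
  out_sound (S := T5.ds_pp) T5.ok_pp (w := 54) (j := 1) (by decide +kernel)
theorem L05346 : Good (Phi V5.P V5.D 1 1) ⟨8, 223, 8, 152, 8, 152, 7, 62, 9, 225⟩ :=
  out_sound (S := T5.ds_pp) T5.ok_pp (w := 51) (j := 1) (by decide +kernel)
theorem L05347 : Good (Phi V5.P V5.D 1 1) ⟨8, 223, 8, 152, 10, 608, 9, 252, 10, 448⟩ :=
  out_sound (S := T5.ds_pp) T5.ok_pp (w := 59) (j := 1) (by decide +kernel)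
theorem L05348 : Good (Phi V5.P V5.D 1 1) ⟨8, 223, 8, 152, 11, 1216, 10, 506, 11, 896⟩ :=
  out_sound (S := T5.ds_pp) T5.ok_pp (w := 64) (j := 1) (by decide +kernel)
theorem L05349 : Good (Phi V5.P V5.D 1 1) ⟨8, 223, 8, 152, 11, 1216, 10, 507, 11, 896⟩ :=
  out_sound (S := T5.ds_pp) T5.ok_pp (w := 78) (j := 2) (by decide +kernel)
theorem L05350 : Good (Phi V5.P V5.D 1 1) ⟨8, 223, 8, 152, 11, 1217, 9, 253, 11, 896⟩ :=
  out_sound (S := T5.ds_pp) T5.ok_pp (w := 76) (j := 2) (by decide +kernel)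
theorem L05351 : Good (Phi V5.P V5.D 1 1) ⟨8, 223, 8, 152, 10, 608, 9, 253, 11, 897⟩ :=
  out_sound (S := T5.ds_pp) T5.ok_pp (w := 74) (j := 2) (by decide +kernel)
theorem L05352 : Good (Phi V5.P V5.D 1 1) ⟨8, 223, 8, 152, 10, 609, 8, 126, 10, 448⟩ :=
  out_sound (S := T5.ds_pp) T5.ok_pp (w := 70) (j := 2) (by decide +kernel)
theorem L05353 : Good (Phi V5.P V5.D 1 1) ⟨8, 223, 8, 152, 9, 304, 8, 126, 10, 449⟩ :=
  out_sound (S := T5.ds_pp) T5.ok_pp (w := 56) (j := 1) (by decide +kernel)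
theorem L05354 : Good (Phi V5.P V5.D 1 1) ⟨8, 223, 8, 152, 9, 304, 8, 127, 9, 224⟩ :=
  out_sound (S := T5.ds_pp) T5.ok_pp (w := 66) (j := 2) (by decide +kernel)
theorem L05355 : Good (Phi V5.P V5.D 1 1) ⟨8, 223, 8, 152, 9, 305, 7, 63, 9, 224⟩ :=
  out_sound (S := T5.ds_pp) T5.ok_pp (w := 64) (j := 2) (by decide +kernel)
theorem L05356 : Good (Phi V5.P V5.D 1 1) ⟨8, 223, 8, 152, 8, 152, 7, 63, 9, 225⟩ :=
  out_sound (S := T5.ds_pp) T5.ok_pp (w := 62) (j := 2) (by decide +kernel)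
theorem L05357 : Good (Phi V5.P V5.D 1 1) ⟨8, 223, 8, 152, 8, 153, 6, 31, 8, 112⟩ :=
  out_sound (S := T5.ds_pp) T5.ok_pp (w := 58) (j := 2) (by decide +kernel)
theorem L05358 : Good (Phi V5.P V5.D 1 1) ⟨8, 223, 8, 152, 7, 76, 6, 31, 8, 113⟩ :=
  out_sound (S := T5.ds_pp) T5.ok_pp (w := 56) (j := 2) (by decide +kernel)
theorem L05359 : Good (Phi V5.P V5.D 1 1) ⟨8, 223, 8, 152, 8, 154, 6, 30, 8, 112⟩ :=
  out_sound (S := T5.ds_pp) T5.ok_pp (w := 48) (j := 1) (by decide +kernel)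
theorem L05360 : Good (Phi V5.P V5.D 1 1) ⟨8, 223, 8, 152, 8, 155, 6, 30, 8, 112⟩ :=
  out_sound (S := T5.ds_pp) T5.ok_pp (w := 58) (j := 2) (by decide +kernel)
theorem L05361 : Good (Phi V5.P V5.D 1 1) ⟨8, 223, 8, 152, 7, 77, 6, 30, 8, 113⟩ :=
  out_sound (S := T5.ds_pp) T5.ok_pp (w := 46) (j := 1) (by decide +kernel)
theorem L05362 : Good (Phi V5.P V5.D 1 1) ⟨8, 223, 8, 152, 7, 77, 6, 31, 7, 56⟩ :=
  out_sound (S := T5.ds_pp) T5.ok_pp (w := 54) (j := 2) (by decide +kernel)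
theorem L05363 : Good (Phi V5.P V5.D 1 1) ⟨8, 223, 8, 152, 6, 38, 5, 15, 7, 57⟩ :=
  out_sound (S := T5.ds_pp) T5.ok_pp (w := 50) (j := 2) (by decide +kernel)
theorem L05364 : Good (Phi V5.P V5.D 1 1) ⟨8, 223, 8, 152, 6, 39, 5, 15, 6, 28⟩ :=
  out_sound (S := T5.ds_pp) T5.ok_pp (w := 48) (j := 2) (by decide +kernel)
theorem L05365 : Good (Phi V5.P V5.D 1 1) ⟨8, 223, 8, 152, 4, 9, 4, 7, 6, 29⟩ :=
  out_sound (S := T5.ds_pp) T5.ok_pp (w := 34) (j := 1) (by decide +kernel)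
theorem L05366 : Good (Phi V5.P V5.D 1 1) ⟨8, 223, 8, 152, 3, 4, 3, 3, 5, 15⟩ :=
  out_sound (S := T5.ds_pp) T5.ok_pp (w := 29) (j := 1) (by decide +kernel)
theorem L05367 : Good (Phi V5.P V5.D 1 1) ⟨8, 223, 8, 152, 4, 10, 3, 2, 5, 14⟩ :=
  out_sound (S := T5.ds_pp) T5.ok_pp (w := 31) (j := 1) (by decide +kernel)
theorem L05368 : Good (Phi V5.P V5.D 1 1) ⟨8, 223, 8, 152, 5, 20, 5, 12, 6, 28⟩ :=
  out_sound (S := T5.ds_pp) T5.ok_pp (w := 37) (j := 1) (by decide +kernel)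
theorem L05369 : Good (Phi V5.P V5.D 1 1) ⟨8, 223, 8, 152, 5, 20, 5, 13, 6, 28⟩ :=
  out_sound (S := T5.ds_pp) T5.ok_pp (w := 46) (j := 2) (by decide +kernel)
theorem L05370 : Good (Phi V5.P V5.D 1 1) ⟨8, 223, 8, 152, 5, 20, 4, 7, 6, 28⟩ :=
  out_sound (S := T5.ds_pp) T5.ok_pp (w := 44) (j := 2) (by decide +kernel)
theorem L05371 : Good (Phi V5.P V5.D 1 1) ⟨8, 223, 8, 152, 5, 20, 3, 3, 6, 29⟩ :=
  out_sound (S := T5.ds_pp) T5.ok_pp (w := 42) (j := 2) (by decide +kernel)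
theorem L05372 : Good (Phi V5.P V5.D 1 1) ⟨8, 223, 8, 152, 5, 21, 3, 3, 5, 14⟩ :=
  out_sound (S := T5.ds_pp) T5.ok_pp (w := 40) (j := 2) (by decide +kernel)
theorem L05373 : Good (Phi V5.P V5.D 1 1) ⟨8, 223, 8, 152, 4, 10, 2, 1, 5, 15⟩ :=
  out_sound (S := T5.ds_pp) T5.ok_pp (w := 36) (j := 2) (by decide +kernel)
theorem L05374 : Good (Phi V5.P V5.D 1 1) ⟨8, 223, 8, 152, 4, 11, 2, 1, 4, 7⟩ :=
  out_sound (S := T5.ds_pp) T5.ok_pp (w := 34) (j := 2) (by decide +kernel)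
theorem L05375 : Good (Phi V5.P V5.D 1 1) ⟨10, 892, 8, 153, 2, 2, 2, 1, 4, 7⟩ :=
  out_sound (S := T5.ds_pp) T5.ok_pp (w := 97) (j := 3) (by decide +kernel)
theorem L05376 : Good (Phi V5.P V5.D 1 1) ⟨11, 1786, 9, 306, 2, 2, 2, 1, 4, 7⟩ :=
  out_sound (S := T5.ds_pp) T5.ok_pp (w := 105) (j := 3) (by decide +kernel)
theorem L05377 : Good (Phi V5.P V5.D 1 1) ⟨11, 1787, 9, 306, 3, 4, 3, 2, 4, 7⟩ :=
  out_sound (S := T5.ds_pp) T5.ok_pp (w := 27) (j := 1) (by decide +kernel)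
theorem L05378 : Good (Phi V5.P V5.D 1 1) ⟨11, 1787, 9, 306, 4, 8, 3, 3, 5, 14⟩ :=
  out_sound (S := T5.ds_pp) T5.ok_pp (w := 31) (j := 1) (by decide +kernel)
theorem L05379 : Good (Phi V5.P V5.D 1 1) ⟨11, 1787, 9, 306, 4, 9, 4, 6, 5, 14⟩ :=
  out_sound (S := T5.ds_pp) T5.ok_pp (w := 32) (j := 1) (by decide +kernel)
theorem L05380 : Good (Phi V5.P V5.D 1 1) ⟨11, 1787, 9, 306, 5, 18, 4, 7, 6, 28⟩ :=
  leafX_sound T5.ok_pp T5.Ypp.bz_eq (w := 326) (c := ⟨⟨.negSucc 2443, .negSucc 1, .ofNat 0, .negSucc 0, .negSucc 83, .ofNat 1⟩, ⟨.negSucc 1525, .negSucc 1, .negSucc 1, .negSucc 0, .negSucc 52, .ofNat 1⟩, ⟨.ofNat 1233, .ofNat 0, .negSucc 1, .ofNat 1, .ofNat 33, .negSucc 0⟩, ⟨.negSucc 3203, .ofNat 0, .ofNat 0, .negSucc 0, .negSucc 90, .ofNat 2⟩, ⟨.negSucc 495, .ofNat 0, .ofNat 0, .ofNat 0, .negSucc 47, .ofNat 0⟩, .ofNat 165, .negSucc 55, .ofNat 0, .negSucc 55, .ofNat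 218, .ofNat 0, .ofNat 143, .ofNat 59, .negSucc 17, .ofNat 0, .ofNat 128, .negSucc 3, .ofNat 0, .ofNat 0, .ofNat 447, .ofNat 3681706, .ofNat 0, .ofNat 0, .ofNat 0, .ofNat 0, .ofNat 14785674275526519684148450201758752761191448153298009276014861414205227008, .ofNat 54197891754772311957910396415647375338744706922992769417350269334716416, .ofNat 3186323854591963371007470686739493049669874548454981632, .ofNat 0, .ofNat 10459083650954894940016733563575075130701732769847396600414913759629279232, .ofNat 0, .ofNat 0, .ofNat 0, .ofNat 23806190535986932053492265930698975641490230294317734383164875651061645312, .ofNat 19849150271211774955456152273912699774992548933668319709805953870200832, .ofNat 3113767380111978913904077249307056400821313156084137984, .ofNat 0⟩)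
    (by decide +kernel)
theorem L05381 : Good (Phi V5.P V5.D 1 1) ⟨11, 1787, 9, 306, 5, 19, 6, 28, 7, 56⟩ :=
  out_sound (S := T5.ds_pp) T5.ok_pp (w := 40) (j := 1) (by decide +kernel)
theorem L05382 : Good (Phi V5.P V5.D 1 1) ⟨11, 1787, 9, 306, 6, 38, 6, 29, 7, 56⟩ :=
  out_sound (S := T5.ds_pp) T5.ok_pp (w := 42) (j := 1) (by decide +kernel)
theorem L05383 : Good (Phi V5.P V5.D 1 1) ⟨11, 1787, 9, 306, 6, 39, 6, 29, 7, 56⟩ :=
  out_sound (S := T5.ds_pp) T5.ok_pp (w := 52) (j := 2) (by decide +kernel)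
theorem L05384 : Good (Phi V5.P V5.D 1 1) ⟨11, 1787, 9, 306, 5, 19, 5, 14, 7, 57⟩ :=
  out_sound (S := T5.ds_pp) T5.ok_pp (w := 39) (j := 1) (by decide +kernel)
theorem L05385 : Good (Phi V5.P V5.D 1 1) ⟨11, 1787, 9, 306, 7, 76, 6, 30, 7, 56⟩ :=
  out_sound (S := T5.ds_pp) T5.ok_pp (w := 44) (j := 1) (by decide +kernel)
theorem L05386 : Good (Phi V5.P V5.D 1 1) ⟨11, 1787, 9, 306, 8, 152, 8, 124, 9, 224⟩ :=
  out_sound (S := T5.ds_pp) T5.ok_pp (w := 52) (j := 1) (by decide +kernel)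
theorem L05387 : Good (Phi V5.P V5.D 1 1) ⟨11, 1787, 9, 306, 8, 152, 9, 250, 10, 448⟩ :=
  out_sound (S := T5.ds_pp) T5.ok_pp (w := 55) (j := 1) (by decide +kernel)
theorem L05388 : Good (Phi V5.P V5.D 1 1) ⟨11, 1787, 9, 306, 9, 304, 9, 251, 10, 448⟩ :=
  out_sound (S := T5.ds_pp) T5.ok_pp (w := 57) (j := 1) (by decide +kernel)
theorem L05389 : Good (Phi V5.P V5.D 1 1) ⟨11, 1787, 9, 306, 9, 305, 9, 251, 10, 448⟩ :=
  out_sound (S := T5.ds_pp) T5.ok_pp (w := 70) (j := 2) (by decide +kernel)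
theorem L05390 : Good (Phi V5.P V5.D 1 1) ⟨11, 1787, 9, 306, 8, 152, 8, 125, 10, 449⟩ :=
  out_sound (S := T5.ds_pp) T5.ok_pp (w := 54) (j := 1) (by decide +kernel)
theorem L05391 : Good (Phi V5.P V5.D 1 1) ⟨11, 1787, 9, 306, 8, 152, 7, 62, 9, 225⟩ :=
  out_sound (S := T5.ds_pp) T5.ok_pp (w := 51) (j := 1) (by decide +kernel)
theorem L05392 : Good (Phi V5.P V5.D 1 1) ⟨11, 1787, 9, 306, 10, 608, 9, 252, 10, 448⟩ :=
  out_sound (S := T5.ds_pp) T5.ok_pp (w := 59) (j := 1) (by decide +kernel)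
theorem L05393 : Good (Phi V5.P V5.D 1 1) ⟨11, 1787, 9, 306, 11, 1216, 10, 506, 11, 896⟩ :=
  out_sound (S := T5.ds_pp) T5.ok_pp (w := 64) (j := 1) (by decide +kernel)
theorem L05394 : Good (Phi V5.P V5.D 1 1) ⟨11, 1787, 9, 306, 11, 1216, 10, 507, 11, 896⟩ :=
  out_sound (S := T5.ds_pp) T5.ok_pp (w := 78) (j := 2) (by decide +kernel)
theorem L05395 : Good (Phi V5.P V5.D 1 1) ⟨11, 1787, 9, 306, 11, 1217, 9, 253, 11, 896⟩ :=
  out_sound (S := T5.ds_pp) T5.ok_pp (w := 76) (j := 2) (by decide +kernel)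
theorem L05396 : Good (Phi V5.P V5.D 1 1) ⟨11, 1787, 9, 306, 10, 608, 9, 253, 11, 897⟩ :=
  out_sound (S := T5.ds_pp) T5.ok_pp (w := 74) (j := 2) (by decide +kernel)
theorem L05397 : Good (Phi V5.P V5.D 1 1) ⟨11, 1787, 9, 306, 10, 609, 8, 126, 10, 448⟩ :=
  out_sound (S := T5.ds_pp) T5.ok_pp (w := 70) (j := 2) (by decide +kernel)
theorem L05398 : Good (Phi V5.P V5.D 1 1) ⟨11, 1787, 9, 306, 9, 304, 8, 126, 10, 449⟩ :=
  out_sound (S := T5.ds_pp) T5.ok_pp (w := 56) (j := 1) (by decide +kernel)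
theorem L05399 : Good (Phi V5.P V5.D 1 1) ⟨11, 1787, 9, 306, 9, 304, 8, 127, 9, 224⟩ :=
  out_sound (S := T5.ds_pp) T5.ok_pp (w := 66) (j := 2) (by decide +kernel)
theorem L05400 : Good (Phi V5.P V5.D 1 1) ⟨11, 1787, 9, 306, 9, 305, 7, 63, 9, 224⟩ :=
  out_sound (S := T5.ds_pp) T5.ok_pp (w := 64) (j := 2) (by decide +kernel)
theorem L05401 : Good (Phi V5.P V5.D 1 1) ⟨11, 1787, 9, 306, 8, 152, 7, 63, 9, 225⟩ :=
  out_sound (S := T5.ds_pp) T5.ok_pp (w := 62) (j := 2) (by decide +kernel)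
theorem L05402 : Good (Phi V5.P V5.D 1 1) ⟨11, 1787, 9, 306, 8, 153, 6, 31, 8, 112⟩ :=
  out_sound (S := T5.ds_pp) T5.ok_pp (w := 58) (j := 2) (by decide +kernel)
theorem L05403 : Good (Phi V5.P V5.D 1 1) ⟨11, 1787, 9, 306, 7, 76, 6, 31, 8, 113⟩ :=
  out_sound (S := T5.ds_pp) T5.ok_pp (w := 56) (j := 2) (by decide +kernel)
theorem L05404 : Good (Phi V5.P V5.D 1 1) ⟨11, 1787, 9, 306, 8, 154, 6, 30, 8, 112⟩ :=
  out_sound (S := T5.ds_pp) T5.ok_pp (w := 48) (j := 1) (by decide +kernel)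
theorem L05405 : Good (Phi V5.P V5.D 1 1) ⟨11, 1787, 9, 306, 8, 155, 6, 30, 8, 112⟩ :=
  out_sound (S := T5.ds_pp) T5.ok_pp (w := 58) (j := 2) (by decide +kernel)
theorem L05406 : Good (Phi V5.P V5.D 1 1) ⟨11, 1787, 9, 306, 7, 77, 6, 30, 8, 113⟩ :=
  out_sound (S := T5.ds_pp) T5.ok_pp (w := 46) (j := 1) (by decide +kernel)
theorem L05407 : Good (Phi V5.P V5.D 1 1) ⟨11, 1787, 9, 306, 7, 77, 6, 31, 7, 56⟩ :=
  out_sound (S := T5.ds_pp) T5.ok_pp (w := 54) (j := 2) (by decide +kernel)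
theorem L05408 : Good (Phi V5.P V5.D 1 1) ⟨11, 1787, 9, 306, 6, 38, 5, 15, 7, 57⟩ :=
  out_sound (S := T5.ds_pp) T5.ok_pp (w := 50) (j := 2) (by decide +kernel)
theorem L05409 : Good (Phi V5.P V5.D 1 1) ⟨11, 1787, 9, 306, 6, 39, 5, 15, 6, 28⟩ :=
  out_sound (S := T5.ds_pp) T5.ok_pp (w := 48) (j := 2) (by decide +kernel)
theorem L05410 : Good (Phi V5.P V5.D 1 1) ⟨11, 1787, 9, 306, 4, 9, 4, 7, 6, 29⟩ :=
  out_sound (S := T5.ds_pp) T5.ok_pp (w := 34) (j := 1) (by decide +kernel)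
theorem L05411 : Good (Phi V5.P V5.D 1 1) ⟨11, 1787, 9, 306, 3, 4, 3, 3, 5, 15⟩ :=
  out_sound (S := T5.ds_pp) T5.ok_pp (w := 29) (j := 1) (by decide +kernel)
theorem L05412 : Good (Phi V5.P V5.D 1 1) ⟨11, 1787, 9, 306, 4, 10, 3, 2, 5, 14⟩ :=
  out_sound (S := T5.ds_pp) T5.ok_pp (w := 31) (j := 1) (by decide +kernel)
theorem L05413 : Good (Phi V5.P V5.D 1 1) ⟨11, 1787, 9, 306, 5, 20, 5, 12, 6, 28⟩ :=
  out_sound (S := T5.ds_pp) T5.ok_pp (w := 37) (j := 1) (by decide +kernel)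
theorem L05414 : Good (Phi V5.P V5.D 1 1) ⟨11, 1787, 9, 306, 5, 20, 5, 13, 6, 28⟩ :=
  out_sound (S := T5.ds_pp) T5.ok_pp (w := 46) (j := 2) (by decide +kernel)
theorem L05415 : Good (Phi V5.P V5.D 1 1) ⟨11, 1787, 9, 306, 5, 20, 4, 7, 6, 28⟩ :=
  out_sound (S := T5.ds_pp) T5.ok_pp (w := 44) (j := 2) (by decide +kernel)
theorem L05416 : Good (Phi V5.P V5.D 1 1) ⟨11, 1787, 9, 306, 5, 20, 3, 3, 6, 29⟩ :=
  out_sound (S := T5.ds_pp) T5.ok_pp (w := 42) (j := 2) (by decide +kernel)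
theorem L05417 : Good (Phi V5.P V5.D 1 1) ⟨11, 1787, 9, 306, 5, 21, 3, 3, 5, 14⟩ :=
  out_sound (S := T5.ds_pp) T5.ok_pp (w := 40) (j := 2) (by decide +kernel)
theorem L05418 : Good (Phi V5.P V5.D 1 1) ⟨11, 1787, 9, 306, 4, 10, 2, 1, 5, 15⟩ :=
  out_sound (S := T5.ds_pp) T5.ok_pp (w := 36) (j := 2) (by decide +kernel)
theorem L05419 : Good (Phi V5.P V5.D 1 1) ⟨11, 1787, 9, 306, 4, 11, 2, 1, 4, 7⟩ :=
  out_sound (S := T5.ds_pp) T5.ok_pp (w := 34) (j := 2) (by decide +kernel)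
theorem L05420 : Good (Phi V5.P V5.D 1 1) ⟨10, 893, 9, 307, 2, 2, 2, 1, 4, 7⟩ :=
  out_sound (S := T5.ds_pp) T5.ok_pp (w := 99) (j := 3) (by decide +kernel)
theorem L05421 : Good (Phi V5.P V5.D 1 1) ⟨9, 447, 8, 153, 3, 4, 3, 2, 4, 7⟩ :=
  out_sound (S := T5.ds_pp) T5.ok_pp (w := 27) (j := 1) (by decide +kernel)
theorem L05422 : Good (Phi V5.P V5.D 1 1) ⟨9, 447, 8, 153, 4, 8, 3, 3, 5, 14⟩ :=
  out_sound (S := T5.ds_pp) T5.ok_pp (w := 31) (j := 1) (by decide +kernel)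
theorem L05423 : Good (Phi V5.P V5.D 1 1) ⟨9, 447, 8, 153, 4, 9, 4, 6, 5, 14⟩ :=
  out_sound (S := T5.ds_pp) T5.ok_pp (w := 32) (j := 1) (by decide +kernel)
theorem L05424 : Good (Phi V5.P V5.D 1 1) ⟨9, 447, 8, 153, 5, 18, 4, 7, 6, 28⟩ :=
  leafX_sound T5.ok_pp T5.Ypp.bz_eq (w := 315) (c := ⟨⟨.negSucc 2446, .negSucc 6, .ofNat 0, .negSucc 0, .negSucc 82, .ofNat 1⟩, ⟨.negSucc 1527, .negSucc 9, .negSucc 2, .negSucc 0, .negSucc 52, .ofNat 1⟩, ⟨.ofNat 1235, .ofNat 2, .negSucc 4, .ofNat 1, .ofNat 32, .negSucc 0⟩, ⟨.negSucc 3204, .ofNat 0, .ofNat 1, .negSucc 0, .negSucc 89, .ofNat 2⟩, ⟨.negSucc 495, .negSucc 0, .negSucc 0, .ofNat 0, .negSucc 47, .ofNat 0⟩, .ofNat 165, .negSucc 55, .ofNat 0, .negSucc 55, .ofNat 218, .ofNat 0, .ofNat 143, .ofNat 59, .negSucc 17, .ofNat 0, .ofNat 128, .negSucc 3, .ofNat 0, .ofNat 0, .ofNat 447, .ofNat 3583044, .ofNat 0, .ofNat 0, .ofNat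 0, .ofNat 0, .ofNat 7100021633164632877062567804751629569483271825161484515911335554318336, .ofNat 25172319867817873764477482798591487439574939049078787409256053211136, .ofNat 0, .ofNat 0, .ofNat 5093478582570844001818961913404203744042896888200364731486768340140032, .ofNat 0, .ofNat 10967790352403361703268662243789731297052430990116388864, .ofNat 0, .ofNat 11281042252775458519267366967322119535049436319365141044564217282166784, .ofNat 9939806531046708228334182242578578422449802567084654082623388254208, .ofNat 0, .ofNat 0⟩)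
    (by decide +kernel)
theorem L05425 : Good (Phi V5.P V5.D 1 1) ⟨9, 447, 8, 153, 5, 19, 6, 28, 7, 56⟩ :=
  out_sound (S := T5.ds_pp) T5.ok_pp (w := 40) (j := 1) (by decide +kernel)
theorem L05426 : Good (Phi V5.P V5.D 1 1) ⟨9, 447, 8, 153, 6, 38, 6, 29, 7, 56⟩ :=
  out_sound (S := T5.ds_pp) T5.ok_pp (w := 42) (j := 1) (by decide +kernel)
theorem L05427 : Good (Phi V5.P V5.D 1 1) ⟨9, 447, 8, 153, 6, 39, 6, 29, 7, 56⟩ :=
  out_sound (S := T5.ds_pp) T5.ok_pp (w := 52) (j := 2) (by decide +kernel)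
theorem L05428 : Good (Phi V5.P V5.D 1 1) ⟨9, 447, 8, 153, 5, 19, 5, 14, 7, 57⟩ :=
  out_sound (S := T5.ds_pp) T5.ok_pp (w := 39) (j := 1) (by decide +kernel)
theorem L05429 : Good (Phi V5.P V5.D 1 1) ⟨9, 447, 8, 153, 7, 76, 6, 30, 7, 56⟩ :=
  out_sound (S := T5.ds_pp) T5.ok_pp (w := 44) (j := 1) (by decide +kernel)
theorem L05430 : Good (Phi V5.P V5.D 1 1) ⟨9, 447, 8, 153, 8, 152, 8, 124, 9, 224⟩ :=
  out_sound (S := T5.ds_pp) T5.ok_pp (w := 52) (j := 1) (by decide +kernel)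
theorem L05431 : Good (Phi V5.P V5.D 1 1) ⟨9, 447, 8, 153, 8, 152, 9, 250, 10, 448⟩ :=
  out_sound (S := T5.ds_pp) T5.ok_pp (w := 55) (j := 1) (by decide +kernel)
theorem L05432 : Good (Phi V5.P V5.D 1 1) ⟨9, 447, 8, 153, 9, 304, 9, 251, 10, 448⟩ :=
  out_sound (S := T5.ds_pp) T5.ok_pp (w := 57) (j := 1) (by decide +kernel)
theorem L05433 : Good (Phi V5.P V5.D 1 1) ⟨9, 447, 8, 153, 9, 305, 9, 251, 10, 448⟩ :=
  out_sound (S := T5.ds_pp) T5.ok_pp (w := 70) (j := 2) (by decide +kernel)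
theorem L05434 : Good (Phi V5.P V5.D 1 1) ⟨9, 447, 8, 153, 8, 152, 8, 125, 10, 449⟩ :=
  out_sound (S := T5.ds_pp) T5.ok_pp (w := 54) (j := 1) (by decide +kernel)
theorem L05435 : Good (Phi V5.P V5.D 1 1) ⟨9, 447, 8, 153, 8, 152, 7, 62, 9, 225⟩ :=
  out_sound (S := T5.ds_pp) T5.ok_pp (w := 51) (j := 1) (by decide +kernel)
theorem L05436 : Good (Phi V5.P V5.D 1 1) ⟨9, 447, 8, 153, 10, 608, 9, 252, 10, 448⟩ :=
  out_sound (S := T5.ds_pp) T5.ok_pp (w := 59) (j := 1) (by decide +kernel)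
theorem L05437 : Good (Phi V5.P V5.D 1 1) ⟨9, 447, 8, 153, 11, 1216, 10, 506, 11, 896⟩ :=
  out_sound (S := T5.ds_pp) T5.ok_pp (w := 64) (j := 1) (by decide +kernel)
theorem L05438 : Good (Phi V5.P V5.D 1 1) ⟨9, 447, 8, 153, 11, 1216, 10, 507, 11, 896⟩ :=
  out_sound (S := T5.ds_pp) T5.ok_pp (w := 78) (j := 2) (by decide +kernel)
theorem L05439 : Good (Phi V5.P V5.D 1 1) ⟨9, 447, 8, 153, 11, 1217, 9, 253, 11, 896⟩ :=
  out_sound (S := T5.ds_pp) T5.ok_pp (w := 76) (j := 2) (by decide +kernel)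
theorem L05440 : Good (Phi V5.P V5.D 1 1) ⟨9, 447, 8, 153, 10, 608, 9, 253, 11, 897⟩ :=
  out_sound (S := T5.ds_pp) T5.ok_pp (w := 74) (j := 2) (by decide +kernel)
theorem L05441 : Good (Phi V5.P V5.D 1 1) ⟨9, 447, 8, 153, 10, 609, 8, 126, 10, 448⟩ :=
  out_sound (S := T5.ds_pp) T5.ok_pp (w := 70) (j := 2) (by decide +kernel)
theorem L05442 : Good (Phi V5.P V5.D 1 1) ⟨9, 447, 8, 153, 9, 304, 8, 126, 10, 449⟩ :=
  out_sound (S := T5.ds_pp) T5.ok_pp (w := 56) (j := 1) (by decide +kernel)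
theorem L05443 : Good (Phi V5.P V5.D 1 1) ⟨9, 447, 8, 153, 9, 304, 8, 127, 9, 224⟩ :=
  out_sound (S := T5.ds_pp) T5.ok_pp (w := 66) (j := 2) (by decide +kernel)
theorem L05444 : Good (Phi V5.P V5.D 1 1) ⟨9, 447, 8, 153, 9, 305, 7, 63, 9, 224⟩ :=
  out_sound (S := T5.ds_pp) T5.ok_pp (w := 64) (j := 2) (by decide +kernel)
theorem L05445 : Good (Phi V5.P V5.D 1 1) ⟨9, 447, 8, 153, 8, 152, 7, 63, 9, 225⟩ :=
  out_sound (S := T5.ds_pp) T5.ok_pp (w := 62) (j := 2) (by decide +kernel)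
theorem L05446 : Good (Phi V5.P V5.D 1 1) ⟨9, 447, 8, 153, 8, 153, 6, 31, 8, 112⟩ :=
  out_sound (S := T5.ds_pp) T5.ok_pp (w := 58) (j := 2) (by decide +kernel)
theorem L05447 : Good (Phi V5.P V5.D 1 1) ⟨9, 447, 8, 153, 7, 76, 6, 31, 8, 113⟩ :=
  out_sound (S := T5.ds_pp) T5.ok_pp (w := 56) (j := 2) (by decide +kernel)
theorem L05448 : Good (Phi V5.P V5.D 1 1) ⟨9, 447, 8, 153, 8, 154, 6, 30, 8, 112⟩ :=
  out_sound (S := T5.ds_pp) T5.ok_pp (w := 48) (j := 1) (by decide +kernel)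
theorem L05449 : Good (Phi V5.P V5.D 1 1) ⟨9, 447, 8, 153, 8, 155, 6, 30, 8, 112⟩ :=
  out_sound (S := T5.ds_pp) T5.ok_pp (w := 58) (j := 2) (by decide +kernel)
theorem L05450 : Good (Phi V5.P V5.D 1 1) ⟨9, 447, 8, 153, 7, 77, 6, 30, 8, 113⟩ :=
  out_sound (S := T5.ds_pp) T5.ok_pp (w := 46) (j := 1) (by decide +kernel)
theorem L05451 : Good (Phi V5.P V5.D 1 1) ⟨9, 447, 8, 153, 7, 77, 6, 31, 7, 56⟩ :=
  out_sound (S := T5.ds_pp) T5.ok_pp (w := 54) (j := 2) (by decide +kernel)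
theorem L05452 : Good (Phi V5.P V5.D 1 1) ⟨9, 447, 8, 153, 6, 38, 5, 15, 7, 57⟩ :=
  out_sound (S := T5.ds_pp) T5.ok_pp (w := 50) (j := 2) (by decide +kernel)
theorem L05453 : Good (Phi V5.P V5.D 1 1) ⟨9, 447, 8, 153, 6, 39, 5, 15, 6, 28⟩ :=
  out_sound (S := T5.ds_pp) T5.ok_pp (w := 48) (j := 2) (by decide +kernel)
theorem L05454 : Good (Phi V5.P V5.D 1 1) ⟨9, 447, 8, 153, 4, 9, 4, 7, 6, 29⟩ :=
  out_sound (S := T5.ds_pp) T5.ok_pp (w := 34) (j := 1) (by decide +kernel)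
theorem L05455 : Good (Phi V5.P V5.D 1 1) ⟨9, 447, 8, 153, 3, 4, 3, 3, 5, 15⟩ :=
  out_sound (S := T5.ds_pp) T5.ok_pp (w := 29) (j := 1) (by decide +kernel)
theorem L05456 : Good (Phi V5.P V5.D 1 1) ⟨9, 447, 8, 153, 4, 10, 3, 2, 5, 14⟩ :=
  out_sound (S := T5.ds_pp) T5.ok_pp (w := 31) (j := 1) (by decide +kernel)
theorem L05457 : Good (Phi V5.P V5.D 1 1) ⟨9, 447, 8, 153, 5, 20, 5, 12, 6, 28⟩ :=
  out_sound (S := T5.ds_pp) T5.ok_pp (w := 37) (j := 1) (by decide +kernel)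
theorem L05458 : Good (Phi V5.P V5.D 1 1) ⟨9, 447, 8, 153, 5, 20, 5, 13, 6, 28⟩ :=
  out_sound (S := T5.ds_pp) T5.ok_pp (w := 46) (j := 2) (by decide +kernel)
theorem L05459 : Good (Phi V5.P V5.D 1 1) ⟨9, 447, 8, 153, 5, 20, 4, 7, 6, 28⟩ :=
  out_sound (S := T5.ds_pp) T5.ok_pp (w := 44) (j := 2) (by decide +kernel)
theorem L05460 : Good (Phi V5.P V5.D 1 1) ⟨9, 447, 8, 153, 5, 20, 3, 3, 6, 29⟩ :=
  out_sound (S := T5.ds_pp) T5.ok_pp (w := 42) (j := 2) (by decide +kernel)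
theorem L05461 : Good (Phi V5.P V5.D 1 1) ⟨9, 447, 8, 153, 5, 21, 3, 3, 5, 14⟩ :=
  out_sound (S := T5.ds_pp) T5.ok_pp (w := 40) (j := 2) (by decide +kernel)
theorem L05462 : Good (Phi V5.P V5.D 1 1) ⟨9, 447, 8, 153, 4, 10, 2, 1, 5, 15⟩ :=
  out_sound (S := T5.ds_pp) T5.ok_pp (w := 36) (j := 2) (by decide +kernel)
theorem L05463 : Good (Phi V5.P V5.D 1 1) ⟨9, 447, 8, 153, 4, 11, 2, 1, 4, 7⟩ :=
  out_sound (S := T5.ds_pp) T5.ok_pp (w := 34) (j := 2) (by decide +kernel)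
theorem L05464 : Good (Phi V5.P V5.D 1 1) ⟨8, 223, 7, 76, 2, 3, 1, 0, 4, 7⟩ :=
  out_sound (S := T5.ds_pp) T5.ok_pp (w := 28) (j := 2) (by decide +kernel)
theorem L05465 : Good (Phi V5.P V5.D 1 1) ⟨9, 446, 7, 77, 1, 1, 1, 0, 4, 7⟩ :=
  out_sound (S := T5.ds_pp) T5.ok_pp (w := 89) (j := 3) (by decide +kernel)
theorem L05466 : Good (Phi V5.P V5.D 1 1) ⟨11, 1788, 9, 308, 1, 1, 1, 0, 4, 7⟩ :=
  out_sound (S := T5.ds_pp) T5.ok_pp (w := 105) (j := 3) (by decide +kernel)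
theorem L05467 : Good (Phi V5.P V5.D 1 1) ⟨12, 3578, 10, 616, 1, 1, 1, 0, 4, 7⟩ :=
  out_sound (S := T5.ds_pp) T5.ok_pp (w := 113) (j := 3) (by decide +kernel)
theorem L05468 : Good (Phi V5.P V5.D 1 1) ⟨12, 3579, 11, 1232, 2, 2, 2, 0, 4, 7⟩ :=
  out_sound (S := T5.ds_pp) T5.ok_pp (w := 24) (j := 1) (by decide +kernel)
theorem L05469 : Good (Phi V5.P V5.D 1 1) ⟨12, 3579, 11, 1232, 3, 4, 3, 2, 4, 7⟩ :=
  out_sound (S := T5.ds_pp) T5.ok_pp (w := 27) (j := 1) (by decide +kernel)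
theorem L05470 : Good (Phi V5.P V5.D 1 1) ⟨12, 3579, 11, 1232, 4, 8, 3, 3, 5, 14⟩ :=
  out_sound (S := T5.ds_pp) T5.ok_pp (w := 31) (j := 1) (by decide +kernel)
theorem L05471 : Good (Phi V5.P V5.D 1 1) ⟨12, 3579, 11, 1232, 4, 9, 4, 6, 5, 14⟩ :=
  out_sound (S := T5.ds_pp) T5.ok_pp (w := 32) (j := 1) (by decide +kernel)
theorem L05472 : Good (Phi V5.P V5.D 1 1) ⟨12, 3579, 11, 1232, 5, 18, 4, 7, 6, 28⟩ :=
  leafX_sound T5.ok_pp T5.Ypp.bz_eq (w := 336) (c := ⟨⟨.negSucc 2451, .negSucc 0, .ofNat 0, .negSucc 0, .negSucc 80, .ofNat 1⟩, ⟨.negSucc 1536, .negSucc 0, .ofNat 0, .negSucc 0, .negSucc 50, .ofNat 1⟩, ⟨.ofNat 1233, .ofNat 0, .negSucc 0, .ofNat 1, .ofNat 29, .negSucc 0⟩, ⟨.negSucc 3205, .ofNat 0, .ofNat 0, .negSucc 0, .negSucc 87, .ofNat 2⟩, ⟨.negSucc 497, .ofNat 0, .ofNat 0, .ofNat 0, .negSucc 46, .ofNat 0⟩, .ofNat 165, .negSucc 55, .ofNat 0, .negSucc 55, .ofNat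 218, .ofNat 0, .ofNat 143, .ofNat 60, .negSucc 17, .ofNat 0, .ofNat 128, .negSucc 3, .ofNat 0, .ofNat 0, .ofNat 447, .ofNat 3680829, .ofNat 0, .ofNat 0, .ofNat 0, .ofNat 0, .ofNat 15087999492260602779144669109837844437657405769446786508865763314579577765888, .ofNat 55690704196386695117584309528275265136127613914373523437665364532208336896, .ofNat 8758896379728502245337599115683363447555520336599449600, .ofNat 0, .ofNat 10503878851495063079561376193264991286418748408102216807944565861819594309632, .ofNat 0, .ofNat 0, .ofNat 0, .ofNat 24449299520022902311260215796453714421284520667568298110529487281668552130560, .ofNat 20339275167092764612626045465935502630110350370187910095294602510329708544, .ofNat 2810392135518304834446645719069755747126469520030433280, .ofNat 0⟩)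
    (by decide +kernel)
theorem L05473 : Good (Phi V5.P V5.D 1 1) ⟨13, 7158, 11, 1232, 5, 19, 4, 7, 6, 28⟩ :=
  out_sound (S := T5.ds_pp) T5.ok_pp (w := 121) (j := 3) (by decide +kernel)
theorem L05474 : Good (Phi V5.P V5.D 1 1) ⟨13, 7159, 11, 1232, 5, 19, 6, 28, 7, 56⟩ :=
  out_sound (S := T5.ds_pp) T5.ok_pp (w := 40) (j := 1) (by decide +kernel)
theorem L05475 : Good (Phi V5.P V5.D 1 1) ⟨13, 7159, 11, 1232, 6, 38, 6, 29, 7, 56⟩ :=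
  out_sound (S := T5.ds_pp) T5.ok_pp (w := 42) (j := 1) (by decide +kernel)
theorem L05476 : Good (Phi V5.P V5.D 1 1) ⟨13, 7159, 11, 1232, 6, 39, 6, 29, 7, 56⟩ :=
  out_sound (S := T5.ds_pp) T5.ok_pp (w := 52) (j := 2) (by decide +kernel)
theorem L05477 : Good (Phi V5.P V5.D 1 1) ⟨13, 7159, 11, 1232, 5, 19, 5, 14, 7, 57⟩ :=
  out_sound (S := T5.ds_pp) T5.ok_pp (w := 39) (j := 1) (by decide +kernel)
theorem L05478 : Good (Phi V5.P V5.D 1 1) ⟨13, 7159, 11, 1232, 7, 76, 6, 30, 7, 56⟩ :=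
  out_sound (S := T5.ds_pp) T5.ok_pp (w := 44) (j := 1) (by decide +kernel)
theorem L05479 : Good (Phi V5.P V5.D 1 1) ⟨13, 7159, 11, 1232, 8, 152, 8, 124, 9, 224⟩ :=
  out_sound (S := T5.ds_pp) T5.ok_pp (w := 52) (j := 1) (by decide +kernel)
theorem L05480 : Good (Phi V5.P V5.D 1 1) ⟨13, 7159, 11, 1232, 8, 152, 9, 250, 10, 448⟩ :=
  out_sound (S := T5.ds_pp) T5.ok_pp (w := 55) (j := 1) (by decide +kernel)
theorem L05481 : Good (Phi V5.P V5.D 1 1) ⟨13, 7159, 11, 1232, 9, 304, 9, 251, 10, 448⟩ :=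
  out_sound (S := T5.ds_pp) T5.ok_pp (w := 57) (j := 1) (by decide +kernel)
theorem L05482 : Good (Phi V5.P V5.D 1 1) ⟨13, 7159, 11, 1232, 9, 305, 9, 251, 10, 448⟩ :=
  out_sound (S := T5.ds_pp) T5.ok_pp (w := 70) (j := 2) (by decide +kernel)
theorem L05483 : Good (Phi V5.P V5.D 1 1) ⟨13, 7159, 11, 1232, 8, 152, 8, 125, 10, 449⟩ :=
  out_sound (S := T5.ds_pp) T5.ok_pp (w := 54) (j := 1) (by decide +kernel)
theorem L05484 : Good (Phi V5.P V5.D 1 1) ⟨13, 7159, 11, 1232, 8, 152, 7, 62, 9, 225⟩ :=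
  out_sound (S := T5.ds_pp) T5.ok_pp (w := 51) (j := 1) (by decide +kernel)
theorem L05485 : Good (Phi V5.P V5.D 1 1) ⟨13, 7159, 11, 1232, 10, 608, 9, 252, 10, 448⟩ :=
  out_sound (S := T5.ds_pp) T5.ok_pp (w := 59) (j := 1) (by decide +kernel)
theorem L05486 : Good (Phi V5.P V5.D 1 1) ⟨13, 7159, 11, 1232, 11, 1216, 10, 506, 11, 896⟩ :=
  out_sound (S := T5.ds_pp) T5.ok_pp (w := 64) (j := 1) (by decide +kernel)
theorem L05487 : Good (Phi V5.P V5.D 1 1) ⟨13, 7159, 11, 1232, 11, 1216, 10, 507, 11, 896⟩ :=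
  out_sound (S := T5.ds_pp) T5.ok_pp (w := 78) (j := 2) (by decide +kernel)
theorem L05488 : Good (Phi V5.P V5.D 1 1) ⟨13, 7159, 11, 1232, 11, 1217, 9, 253, 11, 896⟩ :=
  out_sound (S := T5.ds_pp) T5.ok_pp (w := 76) (j := 2) (by decide +kernel)
theorem L05489 : Good (Phi V5.P V5.D 1 1) ⟨13, 7159, 11, 1232, 10, 608, 9, 253, 11, 897⟩ :=
  out_sound (S := T5.ds_pp) T5.ok_pp (w := 74) (j := 2) (by decide +kernel)
theorem L05490 : Good (Phi V5.P V5.D 1 1) ⟨13, 7159, 11, 1232, 10, 609, 8, 126, 10, 448⟩ :=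
  out_sound (S := T5.ds_pp) T5.ok_pp (w := 70) (j := 2) (by decide +kernel)
theorem L05491 : Good (Phi V5.P V5.D 1 1) ⟨13, 7159, 11, 1232, 9, 304, 8, 126, 10, 449⟩ :=
  out_sound (S := T5.ds_pp) T5.ok_pp (w := 56) (j := 1) (by decide +kernel)
theorem L05492 : Good (Phi V5.P V5.D 1 1) ⟨13, 7159, 11, 1232, 9, 304, 8, 127, 9, 224⟩ :=
  out_sound (S := T5.ds_pp) T5.ok_pp (w := 66) (j := 2) (by decide +kernel)
theorem L05493 : Good (Phi V5.P V5.D 1 1) ⟨13, 7159, 11, 1232, 9, 305, 7, 63, 9, 224⟩ :=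
  out_sound (S := T5.ds_pp) T5.ok_pp (w := 64) (j := 2) (by decide +kernel)
theorem L05494 : Good (Phi V5.P V5.D 1 1) ⟨13, 7159, 11, 1232, 8, 152, 7, 63, 9, 225⟩ :=
  out_sound (S := T5.ds_pp) T5.ok_pp (w := 62) (j := 2) (by decide +kernel)
theorem L05495 : Good (Phi V5.P V5.D 1 1) ⟨13, 7159, 11, 1232, 8, 153, 6, 31, 8, 112⟩ :=
  out_sound (S := T5.ds_pp) T5.ok_pp (w := 58) (j := 2) (by decide +kernel)
theorem L05496 : Good (Phi V5.P V5.D 1 1) ⟨13, 7159, 11, 1232, 7, 76, 6, 31, 8, 113⟩ :=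
  out_sound (S := T5.ds_pp) T5.ok_pp (w := 56) (j := 2) (by decide +kernel)
theorem L05497 : Good (Phi V5.P V5.D 1 1) ⟨13, 7159, 11, 1232, 8, 154, 6, 30, 8, 112⟩ :=
  out_sound (S := T5.ds_pp) T5.ok_pp (w := 48) (j := 1) (by decide +kernel)
theorem L05498 : Good (Phi V5.P V5.D 1 1) ⟨13, 7159, 11, 1232, 8, 155, 6, 30, 8, 112⟩ :=
  out_sound (S := T5.ds_pp) T5.ok_pp (w := 58) (j := 2) (by decide +kernel)
theorem L05499 : Good (Phi V5.P V5.D 1 1) ⟨13, 7159, 11, 1232, 7, 77, 6, 30, 8, 113⟩ :=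
  out_sound (S := T5.ds_pp) T5.ok_pp (w := 46) (j := 1) (by decide +kernel)
theorem L05500 : Good (Phi V5.P V5.D 1 1) ⟨13, 7159, 11, 1232, 7, 77, 6, 31, 7, 56⟩ :=
  out_sound (S := T5.ds_pp) T5.ok_pp (w := 54) (j := 2) (by decide +kernel)
theorem L05501 : Good (Phi V5.P V5.D 1 1) ⟨13, 7159, 11, 1232, 6, 38, 5, 15, 7, 57⟩ :=
  out_sound (S := T5.ds_pp) T5.ok_pp (w := 50) (j := 2) (by decide +kernel)
theorem L05502 : Good (Phi V5.P V5.D 1 1) ⟨13, 7159, 11, 1232, 6, 39, 5, 15, 6, 28⟩ :=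
  out_sound (S := T5.ds_pp) T5.ok_pp (w := 48) (j := 2) (by decide +kernel)
theorem L05503 : Good (Phi V5.P V5.D 1 1) ⟨12, 3579, 11, 1232, 4, 9, 4, 7, 6, 29⟩ :=
  out_sound (S := T5.ds_pp) T5.ok_pp (w := 34) (j := 1) (by decide +kernel)
theorem L05504 : Good (Phi V5.P V5.D 1 1) ⟨12, 3579, 11, 1232, 3, 4, 3, 3, 5, 15⟩ :=
  out_sound (S := T5.ds_pp) T5.ok_pp (w := 29) (j := 1) (by decide +kernel)
theorem L05505 : Good (Phi V5.P V5.D 1 1) ⟨12, 3579, 11, 1232, 4, 10, 3, 2, 5, 14⟩ :=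
  out_sound (S := T5.ds_pp) T5.ok_pp (w := 31) (j := 1) (by decide +kernel)
theorem L05506 : Good (Phi V5.P V5.D 1 1) ⟨12, 3579, 11, 1232, 5, 20, 5, 12, 6, 28⟩ :=
  out_sound (S := T5.ds_pp) T5.ok_pp (w := 37) (j := 1) (by decide +kernel)
theorem L05507 : Good (Phi V5.P V5.D 1 1) ⟨12, 3579, 11, 1232, 5, 20, 5, 13, 6, 28⟩ :=
  out_sound (S := T5.ds_pp) T5.ok_pp (w := 46) (j := 2) (by decide +kernel)
theorem L05508 : Good (Phi V5.P V5.D 1 1) ⟨12, 3579, 11, 1232, 5, 20, 4, 7, 6, 28⟩ :=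
  out_sound (S := T5.ds_pp) T5.ok_pp (w := 44) (j := 2) (by decide +kernel)
theorem L05509 : Good (Phi V5.P V5.D 1 1) ⟨12, 3579, 11, 1232, 5, 20, 3, 3, 6, 29⟩ :=
  out_sound (S := T5.ds_pp) T5.ok_pp (w := 42) (j := 2) (by decide +kernel)
theorem L05510 : Good (Phi V5.P V5.D 1 1) ⟨12, 3579, 11, 1232, 5, 21, 3, 3, 5, 14⟩ :=
  out_sound (S := T5.ds_pp) T5.ok_pp (w := 40) (j := 2) (by decide +kernel)
theorem L05511 : Good (Phi V5.P V5.D 1 1) ⟨12, 3579, 11, 1232, 4, 10, 2, 1, 5, 15⟩ :=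
  out_sound (S := T5.ds_pp) T5.ok_pp (w := 36) (j := 2) (by decide +kernel)
theorem L05512 : Good (Phi V5.P V5.D 1 1) ⟨12, 3579, 11, 1232, 4, 11, 2, 1, 4, 7⟩ :=
  out_sound (S := T5.ds_pp) T5.ok_pp (w := 34) (j := 2) (by decide +kernel)
theorem L05513 : Good (Phi V5.P V5.D 1 1) ⟨12, 3579, 11, 1232, 2, 3, 1, 0, 4, 7⟩ :=
  out_sound (S := T5.ds_pp) T5.ok_pp (w := 28) (j := 2) (by decide +kernel)
theorem L05514 : Good (Phi V5.P V5.D 1 1) ⟨12, 3579, 11, 1233, 1, 1, 1, 0, 4, 7⟩ :=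
  out_sound (S := T5.ds_pp) T5.ok_pp (w := 115) (j := 3) (by decide +kernel)
theorem L05515 : Good (Phi V5.P V5.D 1 1) ⟨11, 1789, 10, 617, 1, 1, 1, 0, 4, 7⟩ :=
  out_sound (S := T5.ds_pp) T5.ok_pp (w := 107) (j := 3) (by decide +kernel)
theorem L05516 : Good (Phi V5.P V5.D 1 1) ⟨10, 894, 9, 309, 1, 1, 1, 0, 4, 7⟩ :=
  out_sound (S := T5.ds_pp) T5.ok_pp (w := 99) (j := 3) (by decide +kernel)
theorem L05517 : Good (Phi V5.P V5.D 1 1) ⟨10, 895, 8, 154, 2, 2, 2, 0, 4, 7⟩ :=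
  out_sound (S := T5.ds_pp) T5.ok_pp (w := 24) (j := 1) (by decide +kernel)
theorem L05518 : Good (Phi V5.P V5.D 1 1) ⟨10, 895, 8, 154, 3, 4, 3, 2, 4, 7⟩ :=
  out_sound (S := T5.ds_pp) T5.ok_pp (w := 27) (j := 1) (by decide +kernel)
theorem L05519 : Good (Phi V5.P V5.D 1 1) ⟨10, 895, 8, 154, 4, 8, 3, 3, 5, 14⟩ :=
  out_sound (S := T5.ds_pp) T5.ok_pp (w := 31) (j := 1) (by decide +kernel)
theorem L05520 : Good (Phi V5.P V5.D 1 1) ⟨10, 895, 8, 154, 4, 9, 4, 6, 5, 14⟩ :=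
  out_sound (S := T5.ds_pp) T5.ok_pp (w := 32) (j := 1) (by decide +kernel)
theorem L05521 : Good (Phi V5.P V5.D 1 1) ⟨10, 895, 8, 154, 5, 18, 4, 7, 6, 28⟩ :=
  leafX_sound T5.ok_pp T5.Ypp.bz_eq (w := 319) (c := ⟨⟨.negSucc 2454, .negSucc 3, .ofNat 0, .negSucc 0, .negSucc 78, .ofNat 1⟩, ⟨.negSucc 1538, .negSucc 4, .negSucc 2, .negSucc 0, .negSucc 49, .ofNat 1⟩, ⟨.ofNat 1236, .ofNat 1, .negSucc 4, .ofNat 1, .ofNat 26, .negSucc 0⟩, ⟨.negSucc 3208, .ofNat 0, .ofNat 1, .negSucc 0, .negSucc 84, .ofNat 2⟩, ⟨.negSucc 499, .ofNat 0, .negSucc 0, .ofNat 0, .negSucc 44, .ofNat 0⟩, .ofNat 165, .negSucc 55, .ofNat 0, .negSucc 55, .ofNat 218, .ofNat 0, .ofNat 143, .ofNat 60, .negSucc 17, .ofNat 0, .ofNat 128, .negSucc 3, .ofNat 0, .ofNat 0, .ofNat 447, .ofNat 3653839, .ofNat 0, .ofNat 0, .ofNat 0, .ofNat 0, .ofNat 114337945027037224615200477095155275691003100200096034082719640445779968,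 .ofNat 422567829806795076208843794119981019241546711250262031848393955868672, .ofNat 0, .ofNat 0, .ofNat 88696621308406060033615539715027813907892681460165427872689903129067520, .ofNat 43394768351015131179563972089491092597823143444088889409757526360064, .ofNat 0, .ofNat 0, .ofNat 185903081401620846947900931494943674007490237388992911812343523119726592, .ofNat 156230267626995656317768502170982665298925659578395976925134406549504, .ofNat 1240916647184462045768036945030289661870264905925394432, .ofNat 0⟩)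
    (by decide +kernel)
theorem L05522 : Good (Phi V5.P V5.D 1 1) ⟨10, 895, 8, 154, 5, 19, 6, 28, 7, 56⟩ :=
  out_sound (S := T5.ds_pp) T5.ok_pp (w := 40) (j := 1) (by decide +kernel)
theorem L05523 : Good (Phi V5.P V5.D 1 1) ⟨10, 895, 8, 154, 6, 38, 6, 29, 7, 56⟩ :=
  out_sound (S := T5.ds_pp) T5.ok_pp (w := 42) (j := 1) (by decide +kernel)
theorem L05524 : Good (Phi V5.P V5.D 1 1) ⟨10, 895, 8, 154, 6, 39, 6, 29, 7, 56⟩ :=
  out_sound (S := T5.ds_pp) T5.ok_pp (w := 52) (j := 2) (by decide +kernel)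
theorem L05525 : Good (Phi V5.P V5.D 1 1) ⟨10, 895, 8, 154, 5, 19, 5, 14, 7, 57⟩ :=
  out_sound (S := T5.ds_pp) T5.ok_pp (w := 39) (j := 1) (by decide +kernel)
theorem L05526 : Good (Phi V5.P V5.D 1 1) ⟨10, 895, 8, 154, 7, 76, 6, 30, 7, 56⟩ :=
  out_sound (S := T5.ds_pp) T5.ok_pp (w := 44) (j := 1) (by decide +kernel)
theorem L05527 : Good (Phi V5.P V5.D 1 1) ⟨10, 895, 8, 154, 8, 152, 8, 124, 9, 224⟩ :=
  out_sound (S := T5.ds_pp) T5.ok_pp (w := 52) (j := 1) (by decide +kernel)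
theorem L05528 : Good (Phi V5.P V5.D 1 1) ⟨10, 895, 8, 154, 8, 152, 9, 250, 10, 448⟩ :=
  out_sound (S := T5.ds_pp) T5.ok_pp (w := 55) (j := 1) (by decide +kernel)
theorem L05529 : Good (Phi V5.P V5.D 1 1) ⟨10, 895, 8, 154, 9, 304, 9, 251, 10, 448⟩ :=
  out_sound (S := T5.ds_pp) T5.ok_pp (w := 57) (j := 1) (by decide +kernel)
theorem L05530 : Good (Phi V5.P V5.D 1 1) ⟨10, 895, 8, 154, 9, 305, 9, 251, 10, 448⟩ :=
  out_sound (S := T5.ds_pp) T5.ok_pp (w := 70) (j := 2) (by decide +kernel)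
theorem L05531 : Good (Phi V5.P V5.D 1 1) ⟨10, 895, 8, 154, 8, 152, 8, 125, 10, 449⟩ :=
  out_sound (S := T5.ds_pp) T5.ok_pp (w := 54) (j := 1) (by decide +kernel)
theorem L05532 : Good (Phi V5.P V5.D 1 1) ⟨10, 895, 8, 154, 8, 152, 7, 62, 9, 225⟩ :=
  out_sound (S := T5.ds_pp) T5.ok_pp (w := 51) (j := 1) (by decide +kernel)
theorem L05533 : Good (Phi V5.P V5.D 1 1) ⟨10, 895, 8, 154, 10, 608, 9, 252, 10, 448⟩ :=
  out_sound (S := T5.ds_pp) T5.ok_pp (w := 59) (j := 1) (by decide +kernel)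
theorem L05534 : Good (Phi V5.P V5.D 1 1) ⟨10, 895, 8, 154, 11, 1216, 10, 506, 11, 896⟩ :=
  out_sound (S := T5.ds_pp) T5.ok_pp (w := 64) (j := 1) (by decide +kernel)
theorem L05535 : Good (Phi V5.P V5.D 1 1) ⟨10, 895, 8, 154, 11, 1216, 10, 507, 11, 896⟩ :=
  out_sound (S := T5.ds_pp) T5.ok_pp (w := 78) (j := 2) (by decide +kernel)
theorem L05536 : Good (Phi V5.P V5.D 1 1) ⟨10, 895, 8, 154, 11, 1217, 9, 253, 11, 896⟩ :=
  out_sound (S := T5.ds_pp) T5.ok_pp (w := 76) (j := 2) (by decide +kernel)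
theorem L05537 : Good (Phi V5.P V5.D 1 1) ⟨10, 895, 8, 154, 10, 608, 9, 253, 11, 897⟩ :=
  out_sound (S := T5.ds_pp) T5.ok_pp (w := 74) (j := 2) (by decide +kernel)
theorem L05538 : Good (Phi V5.P V5.D 1 1) ⟨10, 895, 8, 154, 10, 609, 8, 126, 10, 448⟩ :=
  out_sound (S := T5.ds_pp) T5.ok_pp (w := 70) (j := 2) (by decide +kernel)
theorem L05539 : Good (Phi V5.P V5.D 1 1) ⟨10, 895, 8, 154, 9, 304, 8, 126, 10, 449⟩ :=
  out_sound (S := T5.ds_pp) T5.ok_pp (w := 56) (j := 1) (by decide +kernel)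
theorem L05540 : Good (Phi V5.P V5.D 1 1) ⟨10, 895, 8, 154, 9, 304, 8, 127, 9, 224⟩ :=
  out_sound (S := T5.ds_pp) T5.ok_pp (w := 66) (j := 2) (by decide +kernel)
theorem L05541 : Good (Phi V5.P V5.D 1 1) ⟨10, 895, 8, 154, 9, 305, 7, 63, 9, 224⟩ :=
  out_sound (S := T5.ds_pp) T5.ok_pp (w := 64) (j := 2) (by decide +kernel)
theorem L05542 : Good (Phi V5.P V5.D 1 1) ⟨10, 895, 8, 154, 8, 152, 7, 63, 9, 225⟩ :=
  out_sound (S := T5.ds_pp) T5.ok_pp (w := 62) (j := 2) (by decide +kernel)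
theorem L05543 : Good (Phi V5.P V5.D 1 1) ⟨10, 895, 8, 154, 8, 153, 6, 31, 8, 112⟩ :=
  out_sound (S := T5.ds_pp) T5.ok_pp (w := 58) (j := 2) (by decide +kernel)
theorem L05544 : Good (Phi V5.P V5.D 1 1) ⟨10, 895, 8, 154, 7, 76, 6, 31, 8, 113⟩ :=
  out_sound (S := T5.ds_pp) T5.ok_pp (w := 56) (j := 2) (by decide +kernel)
theorem L05545 : Good (Phi V5.P V5.D 1 1) ⟨10, 895, 8, 154, 8, 154, 6, 30, 8, 112⟩ :=
  out_sound (S := T5.ds_pp) T5.ok_pp (w := 48) (j := 1) (by decide +kernel)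
theorem L05546 : Good (Phi V5.P V5.D 1 1) ⟨10, 895, 8, 154, 8, 155, 6, 30, 8, 112⟩ :=
  out_sound (S := T5.ds_pp) T5.ok_pp (w := 58) (j := 2) (by decide +kernel)
theorem L05547 : Good (Phi V5.P V5.D 1 1) ⟨10, 895, 8, 154, 7, 77, 6, 30, 8, 113⟩ :=
  out_sound (S := T5.ds_pp) T5.ok_pp (w := 46) (j := 1) (by decide +kernel)
theorem L05548 : Good (Phi V5.P V5.D 1 1) ⟨10, 895, 8, 154, 7, 77, 6, 31, 7, 56⟩ :=
  out_sound (S := T5.ds_pp) T5.ok_pp (w := 54) (j := 2) (by decide +kernel)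
theorem L05549 : Good (Phi V5.P V5.D 1 1) ⟨10, 895, 8, 154, 6, 38, 5, 15, 7, 57⟩ :=
  out_sound (S := T5.ds_pp) T5.ok_pp (w := 50) (j := 2) (by decide +kernel)
theorem L05550 : Good (Phi V5.P V5.D 1 1) ⟨10, 895, 8, 154, 6, 39, 5, 15, 6, 28⟩ :=
  out_sound (S := T5.ds_pp) T5.ok_pp (w := 48) (j := 2) (by decide +kernel)
theorem L05551 : Good (Phi V5.P V5.D 1 1) ⟨10, 895, 8, 154, 4, 9, 4, 7, 6, 29⟩ :=
  out_sound (S := T5.ds_pp) T5.ok_pp (w := 34) (j := 1) (by decide +kernel)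
theorem L05552 : Good (Phi V5.P V5.D 1 1) ⟨10, 895, 8, 154, 3, 4, 3, 3, 5, 15⟩ :=
  out_sound (S := T5.ds_pp) T5.ok_pp (w := 29) (j := 1) (by decide +kernel)
theorem L05553 : Good (Phi V5.P V5.D 1 1) ⟨10, 895, 8, 154, 4, 10, 3, 2, 5, 14⟩ :=
  out_sound (S := T5.ds_pp) T5.ok_pp (w := 31) (j := 1) (by decide +kernel)
theorem L05554 : Good (Phi V5.P V5.D 1 1) ⟨10, 895, 8, 154, 5, 20, 5, 12, 6, 28⟩ :=
  out_sound (S := T5.ds_pp) T5.ok_pp (w := 37) (j := 1) (by decide +kernel)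
theorem L05555 : Good (Phi V5.P V5.D 1 1) ⟨10, 895, 8, 154, 5, 20, 5, 13, 6, 28⟩ :=
  out_sound (S := T5.ds_pp) T5.ok_pp (w := 46) (j := 2) (by decide +kernel)
theorem L05556 : Good (Phi V5.P V5.D 1 1) ⟨10, 895, 8, 154, 5, 20, 4, 7, 6, 28⟩ :=
  out_sound (S := T5.ds_pp) T5.ok_pp (w := 44) (j := 2) (by decide +kernel)
theorem L05557 : Good (Phi V5.P V5.D 1 1) ⟨10, 895, 8, 154, 5, 20, 3, 3, 6, 29⟩ :=
  out_sound (S := T5.ds_pp) T5.ok_pp (w := 42) (j := 2) (by decide +kernel)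
theorem L05558 : Good (Phi V5.P V5.D 1 1) ⟨10, 895, 8, 154, 5, 21, 3, 3, 5, 14⟩ :=
  out_sound (S := T5.ds_pp) T5.ok_pp (w := 40) (j := 2) (by decide +kernel)
theorem L05559 : Good (Phi V5.P V5.D 1 1) ⟨10, 895, 8, 154, 4, 10, 2, 1, 5, 15⟩ :=
  out_sound (S := T5.ds_pp) T5.ok_pp (w := 36) (j := 2) (by decide +kernel)
theorem L05560 : Good (Phi V5.P V5.D 1 1) ⟨10, 895, 8, 154, 4, 11, 2, 1, 4, 7⟩ :=
  out_sound (S := T5.ds_pp) T5.ok_pp (w := 34) (j := 2) (by decide +kernel)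
theorem L05561 : Good (Phi V5.P V5.D 1 1) ⟨10, 895, 8, 154, 2, 3, 1, 0, 4, 7⟩ :=
  out_sound (S := T5.ds_pp) T5.ok_pp (w := 28) (j := 2) (by decide +kernel)
theorem L05562 : Good (Phi V5.P V5.D 1 1) ⟨9, 447, 8, 155, 1, 1, 1, 0, 4, 7⟩ :=
  out_sound (S := T5.ds_pp) T5.ok_pp (w := 91) (j := 3) (by decide +kernel)
theorem L05563 : Good (Phi V5.P V5.D 1 1) ⟨7, 111, 6, 39, 1, 1, 1, 0, 4, 7⟩ :=
  out_sound (S := T5.ds_pp) T5.ok_pp (w := 75) (j := 3) (by decide +kernel)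
theorem L05564 : Good (Phi V5.P V5.D 1 1) ⟨3, 6, 3, 5, 1, 1, 1, 0, 4, 7⟩ :=
  out_sound (S := T5.ds_pp) T5.ok_pp (w := 45) (j := 3) (by decide +kernel)
theorem L05565 : Good (Phi V5.P V5.D 1 1) ⟨3, 6, 2, 3, 1, 1, 1, 0, 4, 7⟩ :=
  out_sound (S := T5.ds_pp) T5.ok_pp (w := 43) (j := 3) (by decide +kernel)
theorem L05566 : Good (Phi V5.P V5.D 1 1) ⟨4, 14, 2, 2, 2, 2, 1, 0, 4, 6⟩ :=
  leafX_sound T5.ok_pp T5.Ypp.bz_eq (w := 203) (c := ⟨⟨.negSucc 2019, .negSucc 318, .ofNat 113, .ofNat 41, .negSucc 773, .ofNat 236⟩, ⟨.negSucc 1156, .negSucc 361, .negSucc 152, .ofNat 25, .negSucc 510, .ofNat 155⟩, ⟨.ofNat 819, .negSucc 67, .negSucc 70, .negSucc 675, .ofNat 1266, .negSucc 522⟩, ⟨.negSucc 2854, .negSucc 18, .ofNat 103, .ofNat 196, .negSucc 841, .ofNat 346⟩, ⟨.negSucc 78, .negSucc 71, .ofNat 11, .negSucc 208, .negSucc 369, .negSucc 20⟩, .ofNat 886, .negSucc 1000, .ofNat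 0, .negSucc 1000, .ofNat 1763, .ofNat 0, .ofNat 128, .ofNat 442, .negSucc 97, .ofNat 0, .ofNat 343, .negSucc 46, .ofNat 0, .ofNat 0, .ofNat 2001, .ofNat 3617, .ofNat 52042579134797503530911636436531613270016, .ofNat 0, .ofNat 70748998709681248844484141801013248, .ofNat 0, .ofNat 0, .ofNat 0, .ofNat 1117054690911007282628724782434091008, .ofNat 0, .ofNat 417844972934932462078895540888447068667904, .ofNat 0, .ofNat 1047805913766429443093910142253531136, .ofNat 0, .ofNat 7798930191096672940314727658668223369314304, .ofNat 345183259716059099889413562159271937835008, .ofNat 842108929250738358538815174957072384, .ofNat 29321264775254205727264106693414995028344832⟩)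
    (by decide +kernel)
theorem L05567 : Good (Phi V5.P V5.D 1 1) ⟨5, 28, 3, 6, 2, 2, 1, 0, 4, 6⟩ :=
  out_sound (S := T5.ds_pp) T5.ok_pp (w := 57) (j := 3) (by decide +kernel)
theorem L05568 : Good (Phi V5.P V5.D 1 1) ⟨5, 29, 3, 6, 2, 2, 1, 0, 4, 6⟩ :=
  out_sound (S := T5.ds_pp) T5.ok_pp (w := 17) (j := 4) (by decide +kernel)
theorem L05569 : Good (Phi V5.P V5.D 1 1) ⟨4, 14, 3, 7, 2, 2, 1, 0, 4, 6⟩ :=
  out_sound (S := T5.ds_pp) T5.ok_pp (w := 51) (j := 3) (by decide +kernel)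
theorem L05570 : Good (Phi V5.P V5.D 1 1) ⟨4, 14, 1, 1, 2, 3, 1, 0, 4, 6⟩ :=
  leafX_sound T5.ok_pp T5.Ypp.bz_eq (w := 199) (c := ⟨⟨.negSucc 1854, .negSucc 170, .negSucc 1, .ofNat 291, .negSucc 820, .ofNat 163⟩, ⟨.negSucc 1068, .negSucc 245, .negSucc 415, .ofNat 195, .negSucc 537, .ofNat 111⟩, ⟨.negSucc 514, .negSucc 170, .negSucc 70, .negSucc 970, .ofNat 2249, .negSucc 649⟩, ⟨.negSucc 2489, .ofNat 149, .ofNat 104, .ofNat 383, .negSucc 1032, .ofNat 272⟩, ⟨.negSucc 305, .negSucc 152, .negSucc 91, .ofNat 37, .negSucc 191, .negSucc 73⟩, .ofNat 388, .negSucc 292, .ofNat 0, .negSucc 292, .ofNat 645, .ofNat 0, .ofNat 128, .ofNat 167, .negSucc 36, .ofNat 0, .ofNat 183, .ofNat 27, .ofNat 0, .ofNat 0, .ofNat 1474, .ofNat 1439, .ofNat 3831632248180180179110153728755463356416, .ofNat 306199397045257704136123832480735166464, .ofNat 2293906325292750204776962391539712, .ofNat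 17584978489000557273172988877228365316096, .ofNat 37967717957058521117797300039357149741056, .ofNat 9037843164905009413663734567258103480320, .ofNat 41390535384690736023345908334723072, .ofNat 126367706950912017805013031882657886109696, .ofNat 47733892906095081679188833999666074877952, .ofNat 17396665453313669486535523734453428944896, .ofNat 24308141732534556669724940321161216, .ofNat 0, .ofNat 835561794873496715091926231694278364495872, .ofNat 106052584395643395275291454145683016122368, .ofNat 417430271993789800356605453072859136, .ofNat 4314629901278243540076393073375369930735616⟩)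
    (by decide +kernel)
theorem L05571 : Good (Phi V5.P V5.D 1 1) ⟨4, 14, 1, 1, 2, 2, 2, 0, 4, 7⟩ :=
  out_sound (S := T5.ds_pp) T5.ok_pp (w := 24) (j := 1) (by decide +kernel)
theorem L05572 : Good (Phi V5.P V5.D 1 1) ⟨4, 14, 1, 1, 3, 4, 3, 2, 4, 7⟩ :=
  out_sound (S := T5.ds_pp) T5.ok_pp (w := 27) (j := 1) (by decide +kernel)
theorem L05573 : Good (Phi V5.P V5.D 1 1) ⟨4, 14, 1, 1, 4, 8, 3, 3, 5, 14⟩ :=
  out_sound (S := T5.ds_pp) T5.ok_pp (w := 31) (j := 1) (by decide +kernel)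
theorem L05574 : Good (Phi V5.P V5.D 1 1) ⟨4, 14, 1, 1, 4, 9, 4, 6, 5, 14⟩ :=
  out_sound (S := T5.ds_pp) T5.ok_pp (w := 32) (j := 1) (by decide +kernel)
theorem L05575 : Good (Phi V5.P V5.D 1 1) ⟨4, 14, 1, 1, 5, 18, 4, 7, 6, 28⟩ :=
  leafX_sound T5.ok_pp T5.Ypp.bz_eq (w := 272) (c := ⟨⟨.negSucc 2454, .negSucc 225, .negSucc 29, .negSucc 0, .negSucc 75, .ofNat 1⟩, ⟨.negSucc 1452, .negSucc 314, .negSucc 430, .negSucc 0, .negSucc 52, .ofNat 1⟩, ⟨.ofNat 1292, .negSucc 134, .negSucc 243, .ofNat 0, .ofNat 23, .negSucc 0⟩, ⟨.negSucc 3246, .ofNat 17, .ofNat 80, .negSucc 0, .negSucc 63, .ofNat 2⟩, ⟨.negSucc 500, .negSucc 44, .negSucc 34, .ofNat 0, .negSucc 36, .ofNat 0⟩, .ofNat 388, .negSucc 293, .ofNat 0, .negSucc 293, .ofNat 645, .ofNat 0, .ofNat 128, .ofNat 128, .negSucc 17, .ofNat 0, .ofNat 133, .negSucc 7, .ofNat 0, .ofNat 0, .ofNat 612, .ofNat 907384, .ofNat 0,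 .ofNat 0, .ofNat 0, .ofNat 0, .ofNat 710109896880144002827822955986808316488822716205367296000, .ofNat 2461300476758922886021223461541488206635958780299313152, .ofNat 496091679077530920916217848252568954819652903199834112, .ofNat 0, .ofNat 854506269057354634050912430017256654025996881090767224832, .ofNat 5030651485719566177709349199646890888569740346223755264, .ofNat 742517329503885812380679262230157020641892008755986432, .ofNat 8639662783608236396996162355596870682260506690772074340810752, .ofNat 1972999513122377958457281675871145777893629649344291405824, .ofNat 2475438551223096395644113894538753751549017626366705664, .ofNat 5116718160731265594457268539325497837848330230688645120, .ofNat 0⟩)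
    (by decide +kernel)
theorem L05576 : Good (Phi V5.P V5.D 1 1) ⟨4, 14, 1, 1, 5, 19, 6, 28, 7, 56⟩ :=
  out_sound (S := T5.ds_pp) T5.ok_pp (w := 40) (j := 1) (by decide +kernel)
theorem L05577 : Good (Phi V5.P V5.D 1 1) ⟨4, 14, 1, 1, 6, 38, 6, 29, 7, 56⟩ :=
  out_sound (S := T5.ds_pp) T5.ok_pp (w := 42) (j := 1) (by decide +kernel)
theorem L05578 : Good (Phi V5.P V5.D 1 1) ⟨4, 14, 1, 1, 6, 39, 6, 29, 7, 56⟩ :=
  out_sound (S := T5.ds_pp) T5.ok_pp (w := 52) (j := 2) (by decide +kernel)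
theorem L05579 : Good (Phi V5.P V5.D 1 1) ⟨4, 14, 1, 1, 5, 19, 5, 14, 7, 57⟩ :=
  out_sound (S := T5.ds_pp) T5.ok_pp (w := 39) (j := 1) (by decide +kernel)
theorem L05580 : Good (Phi V5.P V5.D 1 1) ⟨4, 14, 1, 1, 7, 76, 6, 30, 7, 56⟩ :=
  out_sound (S := T5.ds_pp) T5.ok_pp (w := 44) (j := 1) (by decide +kernel)
theorem L05581 : Good (Phi V5.P V5.D 1 1) ⟨4, 14, 1, 1, 8, 152, 8, 124, 9, 224⟩ :=
  out_sound (S := T5.ds_pp) T5.ok_pp (w := 52) (j := 1) (by decide +kernel)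
theorem L05582 : Good (Phi V5.P V5.D 1 1) ⟨4, 14, 1, 1, 8, 152, 9, 250, 10, 448⟩ :=
  out_sound (S := T5.ds_pp) T5.ok_pp (w := 55) (j := 1) (by decide +kernel)
theorem L05583 : Good (Phi V5.P V5.D 1 1) ⟨4, 14, 1, 1, 9, 304, 9, 251, 10, 448⟩ :=
  out_sound (S := T5.ds_pp) T5.ok_pp (w := 57) (j := 1) (by decide +kernel)
theorem L05584 : Good (Phi V5.P V5.D 1 1) ⟨4, 14, 1, 1, 9, 305, 9, 251, 10, 448⟩ :=
  out_sound (S := T5.ds_pp) T5.ok_pp (w := 70) (j := 2) (by decide +kernel)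
theorem L05585 : Good (Phi V5.P V5.D 1 1) ⟨4, 14, 1, 1, 8, 152, 8, 125, 10, 449⟩ :=
  out_sound (S := T5.ds_pp) T5.ok_pp (w := 54) (j := 1) (by decide +kernel)
theorem L05586 : Good (Phi V5.P V5.D 1 1) ⟨4, 14, 1, 1, 8, 152, 7, 62, 9, 225⟩ :=
  out_sound (S := T5.ds_pp) T5.ok_pp (w := 51) (j := 1) (by decide +kernel)
theorem L05587 : Good (Phi V5.P V5.D 1 1) ⟨4, 14, 1, 1, 10, 608, 9, 252, 10, 448⟩ :=
  out_sound (S := T5.ds_pp) T5.ok_pp (w := 59) (j := 1) (by decide +kernel)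
theorem L05588 : Good (Phi V5.P V5.D 1 1) ⟨4, 14, 1, 1, 11, 1216, 10, 506, 11, 896⟩ :=
  out_sound (S := T5.ds_pp) T5.ok_pp (w := 64) (j := 1) (by decide +kernel)
theorem L05589 : Good (Phi V5.P V5.D 1 1) ⟨4, 14, 1, 1, 11, 1216, 10, 507, 11, 896⟩ :=
  out_sound (S := T5.ds_pp) T5.ok_pp (w := 78) (j := 2) (by decide +kernel)
theorem L05590 : Good (Phi V5.P V5.D 1 1) ⟨4, 14, 1, 1, 11, 1217, 9, 253, 11, 896⟩ :=
  out_sound (S := T5.ds_pp) T5.ok_pp (w := 76) (j := 2) (by decide +kernel)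
theorem L05591 : Good (Phi V5.P V5.D 1 1) ⟨4, 14, 1, 1, 10, 608, 9, 253, 11, 897⟩ :=
  out_sound (S := T5.ds_pp) T5.ok_pp (w := 74) (j := 2) (by decide +kernel)
theorem L05592 : Good (Phi V5.P V5.D 1 1) ⟨4, 14, 1, 1, 10, 609, 8, 126, 10, 448⟩ :=
  out_sound (S := T5.ds_pp) T5.ok_pp (w := 70) (j := 2) (by decide +kernel)
theorem L05593 : Good (Phi V5.P V5.D 1 1) ⟨4, 14, 1, 1, 9, 304, 8, 126, 10, 449⟩ :=
  out_sound (S := T5.ds_pp) T5.ok_pp (w := 56) (j := 1) (by decide +kernel)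
theorem L05594 : Good (Phi V5.P V5.D 1 1) ⟨4, 14, 1, 1, 9, 304, 8, 127, 9, 224⟩ :=
  out_sound (S := T5.ds_pp) T5.ok_pp (w := 66) (j := 2) (by decide +kernel)
theorem L05595 : Good (Phi V5.P V5.D 1 1) ⟨4, 14, 1, 1, 9, 305, 7, 63, 9, 224⟩ :=
  out_sound (S := T5.ds_pp) T5.ok_pp (w := 64) (j := 2) (by decide +kernel)
theorem L05596 : Good (Phi V5.P V5.D 1 1) ⟨4, 14, 1, 1, 8, 152, 7, 63, 9, 225⟩ :=
  out_sound (S := T5.ds_pp) T5.ok_pp (w := 62) (j := 2) (by decide +kernel)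
theorem L05597 : Good (Phi V5.P V5.D 1 1) ⟨4, 14, 1, 1, 8, 153, 6, 31, 8, 112⟩ :=
  out_sound (S := T5.ds_pp) T5.ok_pp (w := 58) (j := 2) (by decide +kernel)
theorem L05598 : Good (Phi V5.P V5.D 1 1) ⟨4, 14, 1, 1, 7, 76, 6, 31, 8, 113⟩ :=
  out_sound (S := T5.ds_pp) T5.ok_pp (w := 56) (j := 2) (by decide +kernel)
theorem L05599 : Good (Phi V5.P V5.D 1 1) ⟨4, 14, 1, 1, 8, 154, 6, 30, 8, 112⟩ :=
  out_sound (S := T5.ds_pp) T5.ok_pp (w := 48) (j := 1) (by decide +kernel)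
theorem L05600 : Good (Phi V5.P V5.D 1 1) ⟨4, 14, 1, 1, 8, 155, 6, 30, 8, 112⟩ :=
  out_sound (S := T5.ds_pp) T5.ok_pp (w := 58) (j := 2) (by decide +kernel)
theorem L05601 : Good (Phi V5.P V5.D 1 1) ⟨4, 14, 1, 1, 7, 77, 6, 30, 8, 113⟩ :=
  out_sound (S := T5.ds_pp) T5.ok_pp (w := 46) (j := 1) (by decide +kernel)
theorem L05602 : Good (Phi V5.P V5.D 1 1) ⟨4, 14, 1, 1, 7, 77, 6, 31, 7, 56⟩ :=
  out_sound (S := T5.ds_pp) T5.ok_pp (w := 54) (j := 2) (by decide +kernel)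
theorem L05603 : Good (Phi V5.P V5.D 1 1) ⟨4, 14, 1, 1, 6, 38, 5, 15, 7, 57⟩ :=
  out_sound (S := T5.ds_pp) T5.ok_pp (w := 50) (j := 2) (by decide +kernel)
theorem L05604 : Good (Phi V5.P V5.D 1 1) ⟨4, 14, 1, 1, 6, 39, 5, 15, 6, 28⟩ :=
  out_sound (S := T5.ds_pp) T5.ok_pp (w := 48) (j := 2) (by decide +kernel)
theorem L05605 : Good (Phi V5.P V5.D 1 1) ⟨4, 14, 1, 1, 4, 9, 4, 7, 6, 29⟩ :=
  out_sound (S := T5.ds_pp) T5.ok_pp (w := 34) (j := 1) (by decide +kernel)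
theorem L05606 : Good (Phi V5.P V5.D 1 1) ⟨4, 14, 1, 1, 3, 4, 3, 3, 5, 15⟩ :=
  out_sound (S := T5.ds_pp) T5.ok_pp (w := 29) (j := 1) (by decide +kernel)
theorem L05607 : Good (Phi V5.P V5.D 1 1) ⟨4, 14, 1, 1, 4, 10, 3, 2, 5, 14⟩ :=
  out_sound (S := T5.ds_pp) T5.ok_pp (w := 31) (j := 1) (by decide +kernel)
theorem L05608 : Good (Phi V5.P V5.D 1 1) ⟨4, 14, 1, 1, 5, 20, 5, 12, 6, 28⟩ :=
  out_sound (S := T5.ds_pp) T5.ok_pp (w := 37) (j := 1) (by decide +kernel)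
theorem L05609 : Good (Phi V5.P V5.D 1 1) ⟨4, 14, 1, 1, 5, 20, 5, 13, 6, 28⟩ :=
  out_sound (S := T5.ds_pp) T5.ok_pp (w := 46) (j := 2) (by decide +kernel)
theorem L05610 : Good (Phi V5.P V5.D 1 1) ⟨4, 14, 1, 1, 5, 20, 4, 7, 6, 28⟩ :=
  out_sound (S := T5.ds_pp) T5.ok_pp (w := 44) (j := 2) (by decide +kernel)
theorem L05611 : Good (Phi V5.P V5.D 1 1) ⟨4, 14, 1, 1, 5, 20, 3, 3, 6, 29⟩ :=
  out_sound (S := T5.ds_pp) T5.ok_pp (w := 42) (j := 2) (by decide +kernel)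
theorem L05612 : Good (Phi V5.P V5.D 1 1) ⟨4, 14, 1, 1, 5, 21, 3, 3, 5, 14⟩ :=
  out_sound (S := T5.ds_pp) T5.ok_pp (w := 40) (j := 2) (by decide +kernel)
theorem L05613 : Good (Phi V5.P V5.D 1 1) ⟨4, 14, 1, 1, 4, 10, 2, 1, 5, 15⟩ :=
  out_sound (S := T5.ds_pp) T5.ok_pp (w := 36) (j := 2) (by decide +kernel)
theorem L05614 : Good (Phi V5.P V5.D 1 1) ⟨4, 14, 1, 1, 4, 11, 2, 1, 4, 7⟩ :=
  out_sound (S := T5.ds_pp) T5.ok_pp (w := 34) (j := 2) (by decide +kernel)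
theorem L05615 : Good (Phi V5.P V5.D 1 1) ⟨4, 14, 1, 1, 2, 3, 1, 0, 4, 7⟩ :=
  out_sound (S := T5.ds_pp) T5.ok_pp (w := 28) (j := 2) (by decide +kernel)
theorem L05616 : Good (Phi V5.P V5.D 1 1) ⟨4, 15, 1, 1, 1, 1, 1, 0, 3, 3⟩ :=
  out_sound (S := T5.ds_pp) T5.ok_pp (w := 15) (j := 4) (by decide +kernel)
theorem L05617 : Good (Phi V5.P V5.D 1 1) ⟨1, 1, 1, 1, 3, 4, 1, 0, 3, 4⟩ :=
  out_sound (S := T5.ds_pp) T5.ok_pp (w := 23) (j := 1) (by decide +kernel)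
theorem L05618 : Good (Phi V5.P V5.D 1 1) ⟨1, 1, 1, 1, 3, 5, 1, 0, 3, 4⟩ :=
  out_sound (S := T5.ds_pp) T5.ok_pp (w := 28) (j := 2) (by decide +kernel)
theorem L05619 : Good (Phi V5.P V5.D 1 1) ⟨1, 1, 1, 1, 2, 2, 1, 0, 3, 5⟩ :=
  out_sound (S := T5.ds_pp) T5.ok_pp (w := 21) (j := 1) (by decide +kernel)
theorem L05620 : Good (Phi V5.P V5.D 1 1) ⟨1, 1, 1, 1, 2, 2, 1, 0, 2, 3⟩ :=
  out_sound (S := T5.ds_pp) T5.ok_pp (w := 19) (j := 1) (by decide +kernel)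
theorem L05621 : Good (Phi V5.P V5.D 1 1) ⟨1, 1, 1, 1, 2, 3, 1, 0, 1, 1⟩ :=
  out_sound (S := T5.ds_pp) T5.ok_pp (w := 22) (j := 2) (by decide +kernel)
theorem L05622 : Good (Phi V5.P V5.D 1 1) ⟨2, 2, 2, 2, 2, 2, 2, 2, 3, 0⟩ :=
  out_sound (S := T5.ds_pp) T5.ok_pp (w := 37) (j := 3) (by decide +kernel)
theorem L05623 : Good (Phi V5.P V5.D 1 1) ⟨4, 12, 3, 4, 2, 2, 2, 2, 4, 0⟩ :=
  out_sound (S := T5.ds_pp) T5.ok_pp (w := 51) (j := 3) (by decide +kernel)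
theorem L05624 : Good (Phi V5.P V5.D 1 1) ⟨4, 13, 4, 8, 2, 2, 2, 2, 4, 0⟩ :=
  leafX_sound T5.ok_pp T5.Ypp.bz_eq (w := 215) (c := ⟨⟨.ofNat 4977, .negSucc 76, .ofNat 210, .negSucc 293, .negSucc 2494, .negSucc 7212⟩, ⟨.ofNat 2756, .ofNat 105, .ofNat 155, .negSucc 153, .negSucc 1427, .negSucc 4155⟩, ⟨.negSucc 3084, .negSucc 110, .negSucc 53, .ofNat 123, .ofNat 2073, .ofNat 4526⟩, ⟨.ofNat 8025, .negSucc 1171, .ofNat 612, .negSucc 1405, .negSucc 4398, .negSucc 10345⟩, ⟨.negSucc 918, .ofNat 1575, .negSucc 665, .ofNat 1718, .ofNat 1190, .negSucc 587⟩, .ofNat 1472, .negSucc 2026, .ofNat 0, .negSucc 2026, .ofNat 3698, .ofNat 0, .ofNat 128, .ofNat 578, .negSucc 1040, .ofNat 0, .ofNat 361, .negSucc 571, .ofNat 0, .ofNat 0, .ofNat 960, .ofNat 172, .ofNat 0, .ofNat 0, .ofNat 595419650242861900217558157139902464, .ofNat 0, .ofNat 0, .ofNat 0, .ofNat 49300647254763482874091653762704736256,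 .ofNat 0, .ofNat 0, .ofNat 0, .ofNat 75619970467030317145264075003039580160, .ofNat 0, .ofNat 0, .ofNat 0, .ofNat 27368425934625874718257410265124438016, .ofNat 0⟩)
    (by decide +kernel)
theorem L05625 : Good (Phi V5.P V5.D 1 1) ⟨4, 13, 4, 9, 2, 2, 2, 2, 4, 0⟩ :=
  leafX_sound T5.ok_pp T5.Ypp.bz_eq (w := 218) (c := ⟨⟨.ofNat 2803, .ofNat 4025, .negSucc 1656, .negSucc 762, .negSucc 3072, .negSucc 7901⟩, ⟨.ofNat 1816, .ofNat 2299, .negSucc 946, .negSucc 438, .negSucc 1833, .negSucc 4816⟩, ⟨.negSucc 2809, .negSucc 1131, .ofNat 506, .ofNat 401, .ofNat 2322, .ofNat 4990⟩, ⟨.ofNat 5459, .ofNat 3946, .negSucc 1775, .negSucc 1967, .negSucc 4736, .negSucc 11030⟩, ⟨.negSucc 1466, .ofNat 2087, .negSucc 787, .ofNat 1400, .ofNat 416, .negSucc 633⟩, .ofNat 3103, .negSucc 4559, .ofNat 0, .negSucc 4559, .ofNat 7593, .ofNat 0, .ofNat 128, .ofNat 932, .negSucc 1555, .ofNat 0,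 .ofNat 594, .negSucc 931, .ofNat 0, .ofNat 0, .ofNat 1483, .ofNat 354, .ofNat 0, .ofNat 0, .ofNat 2371528552715255224817485717828534272, .ofNat 0, .ofNat 0, .ofNat 0, .ofNat 167873896749399500201386079764382482432, .ofNat 0, .ofNat 0, .ofNat 0, .ofNat 153201019068928076660941323465480208384, .ofNat 0, .ofNat 0, .ofNat 0, .ofNat 28427470191536382694494724416516128768, .ofNat 0⟩)
    (by decide +kernel)
theorem L05626 : Good (Phi V5.P V5.D 1 1) ⟨4, 14, 3, 4, 2, 2, 2, 2, 4, 0⟩ :=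
  leafX_sound T5.ok_pp T5.Ypp.bz_eq (w := 212) (c := ⟨⟨.ofNat 5135, .ofNat 1097, .ofNat 979, .negSucc 452, .negSucc 3011, .negSucc 8620⟩, ⟨.ofNat 3343, .ofNat 957, .ofNat 535, .negSucc 294, .negSucc 1907, .negSucc 5494⟩, ⟨.negSucc 3539, .negSucc 708, .negSucc 188, .ofNat 208, .ofNat 2369, .ofNat 5387⟩, ⟨.ofNat 7933, .ofNat 1696, .ofNat 943, .negSucc 1470, .negSucc 4871, .negSucc 12472⟩, ⟨.negSucc 1008, .negSucc 864, .ofNat 948, .ofNat 1226, .ofNat 882, .ofNat 62⟩, .ofNat 1194, .negSucc 1361, .ofNat 0, .negSucc 1361, .ofNat 2196, .ofNat 0, .ofNat 128, .ofNat 559, .negSucc 1154, .ofNat 0, .ofNat 412, .negSucc 694, .ofNat 0, .ofNat 0, .ofNat 941, .ofNat 166, .ofNat 0, .ofNat 0, .ofNat 663160129229133933889868717887586304, .ofNat 0, .ofNat 0, .ofNat 0, .ofNat 61566828273117020434844026734435631104, .ofNat 0, .ofNat 0, .ofNat 0, .ofNat 3866287162259838121387527033673744384,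 .ofNat 0, .ofNat 0, .ofNat 0, .ofNat 20848656403825523928986219265312948224, .ofNat 0⟩)
    (by decide +kernel)
theorem L05627 : Good (Phi V5.P V5.D 1 1) ⟨4, 15, 3, 4, 2, 2, 2, 2, 4, 0⟩ :=
  out_sound (S := T5.ds_pp) T5.ok_pp (w := 51) (j := 3) (by decide +kernel)
theorem L05628 : Good (Phi V5.P V5.D 1 1) ⟨3, 6, 3, 5, 2, 2, 2, 2, 4, 0⟩ :=
  out_sound (S := T5.ds_pp) T5.ok_pp (w := 45) (j := 3) (by decide +kernel)
theorem L05629 : Good (Phi V5.P V5.D 1 1) ⟨6, 56, 4, 10, 2, 2, 2, 2, 4, 0⟩ :=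
  leafX_sound T5.ok_pp T5.Ypp.bz_eq (w := 228) (c := ⟨⟨.ofNat 6550, .ofNat 280, .negSucc 1073, .negSucc 481, .negSucc 3064, .negSucc 9124⟩, ⟨.ofNat 4248, .ofNat 182, .negSucc 704, .negSucc 335, .negSucc 1982, .negSucc 5912⟩, ⟨.negSucc 4433, .ofNat 857, .negSucc 647, .ofNat 266, .ofNat 2463, .ofNat 5673⟩, ⟨.ofNat 9788, .negSucc 586, .negSucc 1676, .negSucc 2114, .negSucc 4812, .negSucc 11551⟩, ⟨.negSucc 560, .ofNat 1093, .ofNat 580, .ofNat 2216, .ofNat 707, .negSucc 2106⟩, .ofNat 5247, .negSucc 7617, .ofNat 0, .negSucc 7617, .ofNat 11869, .ofNat 0, .ofNat 128, .ofNat 1456, .negSucc 2267, .ofNat 0, .ofNat 964, .negSucc 1457, .ofNat 0, .ofNat 0, .ofNat 2115, .ofNat 622, .ofNat 0, .ofNat 0, .ofNat 0, .ofNat 0, .ofNat 0, .ofNat 0, .ofNat 49182016019573950114786592270911012864, .ofNat 0, .ofNat 0, .ofNat 0, .ofNat 90753666849573972650274912251374731264, .ofNat 0, .ofNat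 0, .ofNat 0, .ofNat 58449708224481080757853853392434102272, .ofNat 0⟩)
    (by decide +kernel)
theorem L05630 : Good (Phi V5.P V5.D 1 1) ⟨6, 57, 4, 10, 2, 2, 2, 2, 4, 0⟩ :=
  leafX_sound T5.ok_pp T5.Ypp.bz_eq (w := 225) (c := ⟨⟨.ofNat 6533, .ofNat 2531, .negSucc 1310, .negSucc 1439, .negSucc 3435, .negSucc 8026⟩, ⟨.ofNat 4655, .ofNat 2222, .negSucc 1440, .negSucc 958, .negSucc 2304, .negSucc 5368⟩, ⟨.negSucc 3018, .ofNat 517, .negSucc 1370, .ofNat 794, .ofNat 2643, .ofNat 5245⟩, ⟨.ofNat 8455, .ofNat 1497, .ofNat 502, .negSucc 3017, .negSucc 5877, .negSucc 11460⟩, ⟨.negSucc 428, .ofNat 16, .negSucc 347, .ofNat 1490, .ofNat 1491, .ofNat 201⟩, .ofNat 2055, .negSucc 2675, .ofNat 0, .negSucc 2675, .ofNat 4181, .ofNat 0, .ofNat 128, .ofNat 1158, .negSucc 2121, .ofNat 0, .ofNat 802, .negSucc 1367, .ofNat 0, .ofNat 0, .ofNat 1794, .ofNat 408, .ofNat 0, .ofNat 0, .ofNat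 886041676830300794844275968088997888, .ofNat 0, .ofNat 0, .ofNat 0, .ofNat 26628063529818254419841812132052074496, .ofNat 0, .ofNat 0, .ofNat 0, .ofNat 80144953672059255927125503818111909888, .ofNat 0, .ofNat 0, .ofNat 0, .ofNat 29682884010033522971949740278425845760, .ofNat 254277585114287315123262299192437385306537197568⟩)
    (by decide +kernel)
theorem L05631 : Good (Phi V5.P V5.D 1 1) ⟨6, 56, 4, 11, 2, 2, 2, 2, 4, 0⟩ :=
  out_sound (S := T5.ds_pp) T5.ok_pp (w := 65) (j := 3) (by decide +kernel)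
theorem L05632 : Good (Phi V5.P V5.D 1 1) ⟨7, 114, 5, 22, 2, 2, 2, 2, 4, 0⟩ :=
  out_sound (S := T5.ds_pp) T5.ok_pp (w := 73) (j := 3) (by decide +kernel)
theorem L05633 : Good (Phi V5.P V5.D 1 1) ⟨7, 115, 5, 22, 2, 2, 2, 2, 4, 0⟩ :=
  out_sound (S := T5.ds_pp) T5.ok_pp (w := 21) (j := 4) (by decide +kernel)
theorem L05634 : Good (Phi V5.P V5.D 1 1) ⟨6, 57, 5, 23, 2, 2, 2, 2, 4, 0⟩ :=
  out_sound (S := T5.ds_pp) T5.ok_pp (w := 67) (j := 3) (by decide +kernel)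
theorem L05635 : Good (Phi V5.P V5.D 1 1) ⟨5, 29, 3, 5, 2, 2, 2, 2, 4, 0⟩ :=
  out_sound (S := T5.ds_pp) T5.ok_pp (w := 17) (j := 4) (by decide +kernel)
theorem L05636 : Good (Phi V5.P V5.D 1 1) ⟨4, 15, 3, 5, 2, 2, 2, 2, 4, 0⟩ :=
  out_sound (S := T5.ds_pp) T5.ok_pp (w := 51) (j := 3) (by decide +kernel)
theorem L05637 : Good (Phi V5.P V5.D 1 1) ⟨4, 12, 2, 2, 2, 2, 2, 2, 4, 1⟩ :=
  out_sound (S := T5.ds_pp) T5.ok_pp (w := 49) (j := 3) (by decide +kernel)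
theorem L05638 : Good (Phi V5.P V5.D 1 1) ⟨4, 13, 2, 2, 2, 2, 2, 2, 4, 1⟩ :=
  leafX_sound T5.ok_pp T5.Ypp.bz_eq (w := 208) (c := ⟨⟨.negSucc 2093, .ofNat 345, .negSucc 1220, .negSucc 2080, .negSucc 1908, .negSucc 868⟩, ⟨.negSucc 996, .ofNat 77, .negSucc 1440, .negSucc 1179, .negSucc 1109, .negSucc 518⟩, ⟨.ofNat 1332, .negSucc 226, .ofNat 1042, .ofNat 901, .ofNat 1916, .ofNat 795⟩, ⟨.negSucc 3336, .ofNat 811, .negSucc 2346, .negSucc 3708, .negSucc 3217, .negSucc 982⟩, ⟨.negSucc 43, .ofNat 135, .ofNat 1026, .ofNat 1143, .ofNat 729, .negSucc 477⟩, .ofNat 1520, .negSucc 2078, .ofNat 0, .negSucc 2078, .ofNat 3725, .ofNat 0, .ofNat 128, .ofNat 646, .negSucc 666, .ofNat 0, .ofNat 410, .negSucc 364, .ofNat 0, .ofNat 0, .ofNat 894, .ofNat 245, .ofNat 0, .ofNat 0, .ofNat 127859100141772156450694401498284032, .ofNat 0, .ofNat 0, .ofNat 0, .ofNat 5482694201473762750290392723872546816,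 .ofNat 0, .ofNat 0, .ofNat 0, .ofNat 4330920602303576536505394022246776832, .ofNat 0, .ofNat 0, .ofNat 0, .ofNat 6147527882309996585170141306658226176, .ofNat 0⟩)
    (by decide +kernel)

end Crest.Agent.R097C5.N5pp
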