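import Crest.Agent.R097C5.N5pp_000
import Crest.Agent.R097C5.N5pp_001
import Crest.Agent.R097C5.N5pp_002
import Crest.Agent.R097C5.N5pp_003
import Crest.Agent.R097C5.N5pp_004
import Crest.Agent.R097C5.N5pp_005
import Crest.Agent.R097C5.N5pp_006
import Crest.Agent.R097C5.N5pp_007
import Crest.Agent.R097C5.N5pp_008
import Crest.Agent.R097C5.N5pp_009
import Crest.Agent.R097C5.N5pp_010
import Crest.Agent.R097C5.N5pp_011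
import Crest.Agent.R097C5.N5pp_012

/-!
# Row 97, box cover in dimension n = 5 (generated)
-/

set_option autoImplicit false
set_option Elab.async false
set_option maxHeartbeats 0
set_option maxRecDepth 100000

open Crest.Agent.R097 Crest.Agent.R097.KA


namespace Crest.Agent.R097C5.N5pp

theorem g00000 : Good (Phi V5.P V5.D 1 1) ⟨2, 0, 3, 0, 2, 0, 0, 0, 2, 0⟩ :=
  Good.n4 (Good.n3 (Good.n4 L00000 L00001) (Good.n3 L00002 (Good.n3 L00003 L00004))) (Good.n3 L00005 (Good.n3 L00006 L00007))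
theorem g00001 : Good (Phi V5.P V5.D 1 1) ⟨2, 0, 3, 0, 2, 0, 0, 0, 2, 1⟩ :=
  Good.n3 (Good.n4 (Good.n4 L00008 (Good.n4 L00009 L00010)) L00011) (Good.n4 (Good.n3 L00012 (Good.n3 L00013 L00014)) (Good.n3 L00015 L00016))
theorem g00002 : Good (Phi V5.P V5.D 1 1) ⟨3, 0, 4, 2, 3, 0, 0, 0, 2, 0⟩ :=
  Good.n4 (Good.n3 L00018 (Good.n3 L00019 (Good.n3 L00020 L00021))) (Good.n3 L00022 (Good.n3 L00023 L00024))
theorem g00003 : Good (Phi V5.P V5.D 1 1) ⟨3, 0, 4, 3, 3, 0, 0, 0, 1, 0⟩ :=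
  Good.n4 (Good.n3 (Good.n4 L00030 L00031) (Good.n3 L00032 (Good.n3 L00033 L00034))) (Good.n3 (Good.n4 L00035 L00036) (Good.n4 (Good.n3 L00037 L00038) L00039))
theorem g00004 : Good (Phi V5.P V5.D 1 1) ⟨3, 0, 3, 1, 3, 0, 0, 0, 1, 0⟩ :=
  Good.n1 (Good.n4 g00002 (Good.n3 (Good.n4 L00025 L00026) (Good.n4 (Good.n3 L00027 L00028) L00029))) g00003
theorem g00005 : Good (Phi V5.P V5.D 1 1) ⟨3, 0, 3, 1, 4, 2, 0, 0, 1, 0⟩ :=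
  Good.n4 (Good.n3 (Good.n4 L00040 L00041) (Good.n3 L00042 L00043)) (Good.n3 (Good.n4 (Good.n3 L00044 L00045) L00046) (Good.n4 L00047 L00048))
theorem g00006 : Good (Phi V5.P V5.D 1 1) ⟨3, 0, 3, 1, 4, 3, 0, 0, 1, 0⟩ :=
  Good.n4 (Good.n4 (Good.n3 L00049 (Good.n3 L00050 L00051)) (Good.n3 L00052 L00053)) (Good.n3 (Good.n4 (Good.n3 L00054 (Good.n4 L00055 L00056)) L00057) (Good.n4 L00058 L00059))
theorem g00007 : Good (Phi V5.P V5.D 1 1) ⟨3, 1, 3, 1, 2, 0, 1, 0, 0, 0⟩ :=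
  Good.n3 (Good.n4 (Good.n4 (Good.n4 L00061 L00062) L00063) L00064) (Good.n4 (Good.n4 L00065 (Good.n4 (Good.n4 L00066 L00067) L00068)) L00069)
theorem g00008 : Good (Phi V5.P V5.D 1 1) ⟨3, 1, 3, 1, 2, 0, 1, 1, 0, 0⟩ :=
  Good.n4 (Good.n4 (Good.n4 (Good.n3 L00070 L00071) L00072) (Good.n4 (Good.n3 L00073 L00074) L00075)) L00076
theorem g00009 : Good (Phi V5.P V5.D 1 1) ⟨2, 0, 2, 0, 2, 0, 0, 0, 0, 0⟩ :=
  Good.n1 (Good.n4 (Good.n4 g00000 g00001) L00017) (Good.n0 (Good.n4 (Good.n2 g00004 (Good.n2 g00005 g00006)) L00060) (Good.n3 g00007 g00008))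
theorem g00010 : Good (Phi V5.P V5.D 1 1) ⟨2, 0, 2, 0, 2, 1, 1, 0, 3, 2⟩ :=
  Good.n3 L00082 (Good.n4 L00083 (Good.n3 (Good.n4 (Good.n0 L00084 L00085) L00086) (Good.n4 L00087 L00088)))
theorem g00011 : Good (Phi V5.P V5.D 1 1) ⟨2, 0, 2, 0, 2, 1, 0, 0, 1, 0⟩ :=
  Good.n4 (Good.n3 (Good.n4 (Good.n4 L00077 L00078) L00079) (Good.n4 L00080 L00081)) (Good.n3 (Good.n4 g00010 L00089) (Good.n4 (Good.n3 L00090 L00091) L00092))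
theorem g00012 : Good (Phi V5.P V5.D 1 1) ⟨2, 0, 2, 0, 4, 4, 4, 14, 6, 32⟩ :=
  Good.n3 (Good.n4 (Good.n2 L00106 (Good.n3 L00107 L00108)) L00109) (Good.n2 (Good.n3 (Good.n4 (Good.n4 (Good.n2 L00110 L00111) L00112) L00113) L00114) L00115)
theorem g00013 : Good (Phi V5.P V5.D 1 1) ⟨2, 0, 2, 0, 3, 2, 2, 3, 5, 16⟩ :=
  Good.n3 (Good.n3 L00100 (Good.n4 (Good.n2 L00101 (Good.n3 L00102 (Good.n2 L00103 L00104))) L00105)) (Good.n2 (Good.n3 (Good.n4 g00012 L00116) L00117) L00118)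
theorem g00014 : Good (Phi V5.P V5.D 1 1) ⟨2, 0, 2, 0, 3, 3, 2, 3, 4, 8⟩ :=
  Good.n3 (Good.n2 (Good.n3 (Good.n4 (Good.n4 (Good.n3 L00122 L00123) L00124) L00125) L00126) L00127) L00128
theorem g00015 : Good (Phi V5.P V5.D 1 1) ⟨2, 0, 2, 0, 2, 1, 1, 1, 4, 8⟩ :=
  Good.n3 (Good.n2 L00094 (Good.n3 L00095 (Good.n4 (Good.n2 L00096 (Good.n3 L00097 L00098)) L00099))) (Good.n2 (Good.n4 g00013 (Good.n3 L00119 (Good.n2 L00120 L00121))) g00014)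
theorem g00016 : Good (Phi V5.P V5.D 1 1) ⟨2, 0, 2, 0, 2, 1, 0, 0, 1, 1⟩ :=
  Good.n4 (Good.n4 (Good.n3 L00093 (Good.n4 g00015 (Good.n3 L00129 (Good.n2 L00130 L00131)))) L00132) L00133
theorem g00017 : Good (Phi V5.P V5.D 1 1) ⟨2, 0, 2, 0, 1, 1, 1, 0, 3, 0⟩ :=
  Good.n4 (Good.n2 (Good.n3 (Good.n3 (Good.n2 L00134 L00135) L00136) L00137) (Good.n3 L00138 L00139)) (Good.n3 (Good.n2 L00140 L00141) L00142)
theorem g00018 : Good (Phi V5.P V5.D 1 1) ⟨2, 0, 2, 0, 1, 1, 1, 0, 3, 1⟩ :=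
  Good.n4 (Good.n2 (Good.n3 L00143 L00144) (Good.n3 (Good.n3 L00145 L00146) L00147)) (Good.n2 L00148 (Good.n3 L00149 L00150))
theorem g00019 : Good (Phi V5.P V5.D 1 1) ⟨2, 0, 2, 0, 1, 1, 1, 0, 4, 5⟩ :=
  Good.n3 (Good.n2 L00154 L00155) (Good.n2 (Good.n2 (Good.n3 (Good.n0 L00156 L00157) L00158) L00159) L00160)
theorem g00020 : Good (Phi V5.P V5.D 1 1) ⟨2, 0, 2, 0, 1, 1, 1, 0, 1, 0⟩ :=
  Good.n4 (Good.n4 g00017 g00018) (Good.n4 (Good.n4 (Good.n2 (Good.n3 L00151 L00152) L00153) g00019) (Good.n2 L00161 L00162))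
theorem g00021 : Good (Phi V5.P V5.D 1 1) ⟨2, 0, 2, 0, 1, 1, 2, 2, 1, 0⟩ :=
  Good.n4 (Good.n4 L00168 (Good.n4 L00169 L00170)) (Good.n4 (Good.n4 (Good.n2 L00171 (Good.n4 L00172 L00173)) L00174) (Good.n2 L00175 L00176))
theorem g00022 : Good (Phi V5.P V5.D 1 1) ⟨2, 0, 2, 0, 2, 2, 2, 2, 1, 1⟩ :=
  Good.n4 (Good.n2 (Good.n4 (Good.n2 (Good.n4 (Good.n3 L00177 L00178) L00179) L00180) L00181) L00182) L00183
theorem g00023 : Good (Phi V5.P V5.D 1 1) ⟨2, 0, 2, 0, 1, 1, 1, 1, 0, 0⟩ :=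
  Good.n3 (Good.n4 g00021 (Good.n2 g00022 L00184)) (Good.n4 (Good.n4 (Good.n4 L00185 L00186) (Good.n4 (Good.n4 L00187 L00188) L00189)) L00190)
theorem g00024 : Good (Phi V5.P V5.D 1 1) ⟨2, 0, 2, 0, 1, 1, 0, 0, 0, 0⟩ :=
  Good.n3 (Good.n4 g00020 (Good.n2 (Good.n4 (Good.n4 (Good.n2 L00163 L00164) L00165) L00166) L00167)) g00023
theorem g00025 : Good (Phi V5.P V5.D 1 1) ⟨2, 0, 2, 1, 2, 1, 3, 2, 4, 5⟩ :=
  Good.n4 (Good.n4 (Good.n0 (Good.n0 L00199 L00200) L00201) (Good.n3 L00202 (Good.n0 L00203 L00204))) L00205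
theorem g00026 : Good (Phi V5.P V5.D 1 1) ⟨2, 0, 2, 1, 1, 0, 1, 0, 3, 2⟩ :=
  Good.n3 L00195 (Good.n4 L00196 (Good.n2 (Good.n4 L00197 L00198) (Good.n3 g00025 (Good.n4 L00206 L00207))))
theorem g00027 : Good (Phi V5.P V5.D 1 1) ⟨2, 0, 2, 1, 1, 0, 1, 0, 0, 0⟩ :=
  Good.n4 (Good.n4 (Good.n4 (Good.n4 (Good.n3 L00191 L00192) L00193) L00194) (Good.n4 g00026 L00208)) L00209
theorem g00028 : Good (Phi V5.P V5.D 1 1) ⟨2, 0, 2, 1, 2, 1, 2, 2, 3, 4⟩ :=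
  Good.n4 (Good.n2 L00215 (Good.n3 L00216 (Good.n4 (Good.n2 L00217 (Good.n3 L00218 L00219)) L00220))) L00221
theorem g00029 : Good (Phi V5.P V5.D 1 1) ⟨2, 0, 2, 1, 1, 0, 2, 2, 0, 0⟩ :=
  Good.n4 (Good.n4 (Good.n4 L00210 L00211) (Good.n4 L00212 L00213)) (Good.n4 (Good.n4 (Good.n2 L00214 g00028) L00222) L00223)
theorem g00030 : Good (Phi V5.P V5.D 1 1) ⟨2, 0, 2, 1, 4, 4, 4, 14, 6, 32⟩ :=
  Good.n3 (Good.n4 (Good.n2 L00240 (Good.n3 L00241 L00242)) L00243) (Good.n2 (Good.n3 (Good.n4 (Good.n4 (Good.n2 L00244 L00245) L00246) L00247) L00248) L00249)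
theorem g00031 : Good (Phi V5.P V5.D 1 1) ⟨2, 0, 2, 1, 3, 2, 2, 3, 5, 16⟩ :=
  Good.n3 (Good.n3 L00234 (Good.n4 (Good.n2 L00235 (Good.n3 L00236 (Good.n2 L00237 L00238))) L00239)) (Good.n2 (Good.n3 (Good.n4 g00030 L00250) L00251) L00252)
theorem g00032 : Good (Phi V5.P V5.D 1 1) ⟨2, 0, 2, 1, 3, 3, 3, 6, 3, 4⟩ :=
  Good.n2 (Good.n4 (Good.n3 (Good.n4 (Good.n4 (Good.n3 L00258 L00259) L00260) L00261) L00262) L00263) L00264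
theorem g00033 : Good (Phi V5.P V5.D 1 1) ⟨2, 0, 2, 1, 2, 1, 2, 3, 2, 2⟩ :=
  Good.n2 (Good.n4 (Good.n4 (Good.n4 g00031 (Good.n3 L00253 (Good.n2 L00254 L00255))) L00256) L00257) (Good.n4 (Good.n3 g00032 L00265) L00266)
theorem g00034 : Good (Phi V5.P V5.D 1 1) ⟨2, 0, 2, 1, 1, 0, 2, 3, 0, 0⟩ :=
  Good.n2 (Good.n4 (Good.n4 (Good.n3 L00224 L00225) (Good.n4 (Good.n3 L00226 L00227) L00228)) L00229) (Good.n4 (Good.n4 (Good.n4 L00230 L00231) (Good.n4 L00232 L00233)) (Good.n4 g00033 L00267))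
theorem g00035 : Good (Phi V5.P V5.D 1 1) ⟨2, 0, 2, 1, 1, 1, 1, 0, 3, 0⟩ :=
  Good.n4 (Good.n3 (Good.n2 (Good.n3 (Good.n4 L00268 L00269) L00270) L00271) L00272) (Good.n3 L00273 L00274)
theorem g00036 : Good (Phi V5.P V5.D 1 1) ⟨2, 0, 2, 1, 1, 1, 1, 0, 2, 0⟩ :=
  Good.n4 g00035 (Good.n4 (Good.n3 (Good.n2 L00275 L00276) L00277) (Good.n3 (Good.n2 L00278 L00279) L00280))
theorem g00037 : Good (Phi V5.P V5.D 1 1) ⟨2, 0, 2, 1, 2, 2, 2, 1, 4, 5⟩ :=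
  Good.n3 (Good.n2 (Good.n3 (Good.n0 (Good.n0 L00288 L00289) L00290) (Good.n0 L00291 L00292)) L00293) L00294
theorem g00038 : Good (Phi V5.P V5.D 1 1) ⟨2, 0, 2, 1, 1, 1, 1, 0, 3, 2⟩ :=
  Good.n4 (Good.n3 (Good.n2 (Good.n3 L00281 L00282) L00283) (Good.n2 L00284 L00285)) (Good.n3 (Good.n2 L00286 L00287) (Good.n2 g00037 L00295))
theorem g00039 : Good (Phi V5.P V5.D 1 1) ⟨2, 0, 2, 1, 1, 1, 1, 0, 0, 0⟩ :=
  Good.n4 (Good.n4 g00036 (Good.n4 g00038 (Good.n2 L00296 L00297))) (Good.n2 (Good.n4 (Good.n4 (Good.n2 L00298 L00299) L00300) L00301) L00302)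
theorem g00040 : Good (Phi V5.P V5.D 1 1) ⟨2, 0, 2, 1, 1, 1, 1, 1, 2, 0⟩ :=
  Good.n4 (Good.n3 L00303 (Good.n0 L00304 L00305)) (Good.n3 (Good.n4 L00306 L00307) (Good.n4 L00308 L00309))
theorem g00041 : Good (Phi V5.P V5.D 1 1) ⟨2, 0, 2, 1, 1, 1, 1, 1, 1, 0⟩ :=
  Good.n4 g00040 (Good.n4 (Good.n3 (Good.n4 (Good.n2 L00310 L00311) L00312) L00313) (Good.n2 L00314 L00315))
theorem g00042 : Good (Phi V5.P V5.D 1 1) ⟨2, 0, 2, 1, 2, 2, 1, 1, 2, 2⟩ :=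
  Good.n2 (Good.n4 (Good.n3 (Good.n2 (Good.n4 (Good.n3 L00316 L00317) L00318) L00319) L00320) L00321) L00322
theorem g00043 : Good (Phi V5.P V5.D 1 1) ⟨2, 0, 2, 1, 0, 0, 0, 0, 0, 0⟩ :=
  Good.n2 (Good.n3 g00027 (Good.n3 g00029 g00034)) (Good.n3 g00039 (Good.n4 g00041 (Good.n2 (Good.n4 g00042 L00323) L00324)))
theorem g00044 : Good (Phi V5.P V5.D 1 1) ⟨2, 1, 1, 0, 1, 0, 1, 0, 3, 2⟩ :=
  Good.n4 (Good.n3 L00330 L00331) (Good.n3 L00332 (Good.n2 L00333 (Good.n3 (Good.n4 L00334 L00335) L00336)))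
theorem g00045 : Good (Phi V5.P V5.D 1 1) ⟨2, 1, 1, 0, 1, 0, 1, 0, 1, 0⟩ :=
  Good.n4 (Good.n4 (Good.n4 (Good.n3 (Good.n2 L00325 L00326) L00327) L00328) L00329) (Good.n4 g00044 L00337)
theorem g00046 : Good (Phi V5.P V5.D 1 1) ⟨2, 1, 1, 0, 1, 0, 1, 1, 2, 1⟩ :=
  Good.n4 (Good.n2 (Good.n3 L00345 (Good.n3 L00346 L00347)) (Good.n3 L00348 L00349)) (Good.n3 L00350 L00351)
theorem g00047 : Good (Phi V5.P V5.D 1 1) ⟨2, 1, 1, 0, 1, 0, 1, 1, 1, 0⟩ :=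
  Good.n4 (Good.n4 (Good.n3 L00339 (Good.n3 L00340 L00341)) (Good.n3 L00342 (Good.n3 L00343 L00344))) g00046
theorem g00048 : Good (Phi V5.P V5.D 1 1) ⟨2, 1, 2, 0, 1, 1, 1, 0, 3, 0⟩ :=
  Good.n2 (Good.n3 (Good.n4 (Good.n3 (Good.n2 L00353 L00354) L00355) L00356) L00357) (Good.n3 (Good.n3 (Good.n3 L00358 L00359) L00360) L00361)
theorem g00049 : Good (Phi V5.P V5.D 1 1) ⟨2, 1, 2, 0, 1, 1, 1, 0, 3, 1⟩ :=
  Good.n4 (Good.n2 (Good.n3 L00362 L00363) (Good.n3 (Good.n2 (Good.n3 L00364 L00365) L00366) L00367)) (Good.n3 (Good.n2 L00368 L00369) L00370)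
theorem g00050 : Good (Phi V5.P V5.D 1 1) ⟨2, 1, 2, 0, 1, 1, 1, 0, 3, 2⟩ :=
  Good.n4 (Good.n3 (Good.n2 L00371 L00372) (Good.n2 L00373 L00374)) (Good.n3 (Good.n2 L00375 L00376) (Good.n2 (Good.n3 L00377 L00378) L00379))
theorem g00051 : Good (Phi V5.P V5.D 1 1) ⟨2, 1, 2, 0, 1, 1, 1, 0, 0, 0⟩ :=
  Good.n4 (Good.n4 (Good.n4 g00048 g00049) (Good.n4 g00050 (Good.n2 L00380 L00381))) (Good.n2 (Good.n4 (Good.n4 (Good.n2 L00382 L00383) L00384) L00385) L00386)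
theorem g00052 : Good (Phi V5.P V5.D 1 1) ⟨3, 2, 2, 1, 1, 1, 1, 0, 3, 0⟩ :=
  Good.n1 (Good.n3 (Good.n2 (Good.n4 (Good.n3 L00387 L00388) L00389) (Good.n4 L00390 L00391)) L00392) L00393
theorem g00053 : Good (Phi V5.P V5.D 1 1) ⟨2, 1, 2, 1, 1, 1, 1, 0, 3, 1⟩ :=
  Good.n4 (Good.n1 (Good.n2 L00395 (Good.n3 L00396 L00397)) L00398) (Good.n1 (Good.n2 L00399 (Good.n3 L00400 L00401)) L00402)
theorem g00054 : Good (Phi V5.P V5.D 1 1) ⟨3, 2, 3, 2, 1, 1, 1, 0, 3, 2⟩ :=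
  Good.n4 (Good.n3 (Good.n2 L00403 L00404) (Good.n2 L00405 L00406)) (Good.n3 L00407 (Good.n2 L00408 L00409))
theorem g00055 : Good (Phi V5.P V5.D 1 1) ⟨2, 1, 2, 1, 1, 1, 1, 0, 1, 0⟩ :=
  Good.n4 (Good.n4 (Good.n0 g00052 L00394) g00053) (Good.n4 (Good.n1 (Good.n0 g00054 L00410) L00411) (Good.n2 L00412 L00413))
theorem g00056 : Good (Phi V5.P V5.D 1 1) ⟨2, 1, 1, 0, 1, 1, 1, 0, 0, 0⟩ :=
  Good.n1 g00051 (Good.n4 g00055 (Good.n2 (Good.n4 (Good.n4 (Good.n2 L00414 L00415) L00416) L00417) L00418))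
theorem g00057 : Good (Phi V5.P V5.D 1 1) ⟨2, 1, 2, 0, 1, 1, 1, 1, 2, 0⟩ :=
  Good.n4 (Good.n4 (Good.n3 L00419 L00420) L00421) (Good.n4 (Good.n3 L00422 L00423) (Good.n3 L00424 L00425))
theorem g00058 : Good (Phi V5.P V5.D 1 1) ⟨2, 1, 2, 0, 1, 1, 1, 1, 2, 1⟩ :=
  Good.n4 (Good.n3 (Good.n4 (Good.n2 L00426 L00427) L00428) (Good.n4 L00429 L00430)) (Good.n2 (Good.n3 L00431 L00432) L00433)
theorem g00059 : Good (Phi V5.P V5.D 1 1) ⟨2, 1, 2, 0, 2, 2, 1, 1, 2, 2⟩ :=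
  Good.n2 (Good.n4 (Good.n3 (Good.n2 (Good.n4 (Good.n3 L00434 L00435) L00436) L00437) L00438) L00439) L00440
theorem g00060 : Good (Phi V5.P V5.D 1 1) ⟨2, 1, 2, 1, 1, 1, 1, 1, 1, 0⟩ :=
  Good.n4 (Good.n4 (Good.n3 L00443 L00444) (Good.n0 (Good.n4 L00445 L00446) L00447)) (Good.n4 (Good.n3 (Good.n4 L00448 L00449) L00450) L00451)
theorem g00061 : Good (Phi V5.P V5.D 1 1) ⟨2, 1, 2, 1, 2, 2, 1, 1, 2, 2⟩ :=
  Good.n2 (Good.n4 (Good.n3 (Good.n2 (Good.n4 (Good.n3 L00452 L00453) L00454) L00455) L00456) L00457) L00458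
theorem g00062 : Good (Phi V5.P V5.D 1 1) ⟨2, 1, 1, 0, 1, 1, 1, 1, 0, 0⟩ :=
  Good.n1 (Good.n4 (Good.n4 g00057 g00058) (Good.n2 (Good.n4 g00059 L00441) L00442)) (Good.n4 g00060 (Good.n2 (Good.n4 g00061 L00459) L00460))
theorem g00063 : Good (Phi V5.P V5.D 1 1) ⟨1, 0, 1, 0, 0, 0, 0, 0, 0, 0⟩ :=
  Good.n0 (Good.n1 (Good.n2 (Good.n2 g00009 (Good.n4 g00011 g00016)) g00024) g00043) (Good.n2 (Good.n3 (Good.n4 g00045 L00338) (Good.n4 g00047 L00352)) (Good.n3 g00056 g00062))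
theorem g00064 : Good (Phi V5.P V5.D 1 1) ⟨2, 0, 3, 4, 0, 0, 4, 0, 1, 0⟩ :=
  Good.n4 (Good.n4 (Good.n2 L00461 L00462) (Good.n2 L00463 L00464)) (Good.n4 (Good.n2 L00465 L00466) (Good.n2 L00467 (Good.n2 L00468 (Good.n2 L00469 L00470))))
theorem g00065 : Good (Phi V5.P V5.D 1 1) ⟨3, 0, 2, 2, 1, 1, 4, 1, 1, 0⟩ :=
  Good.n4 (Good.n4 L00479 L00480) (Good.n4 (Good.n2 L00481 L00482) (Good.n2 L00483 (Good.n2 L00484 L00485)))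
theorem g00066 : Good (Phi V5.P V5.D 1 1) ⟨3, 0, 2, 2, 0, 0, 4, 1, 0, 0⟩ :=
  Good.n2 (Good.n4 (Good.n4 (Good.n4 L00475 L00476) L00477) L00478) (Good.n4 g00065 (Good.n2 L00486 L00487))
theorem g00067 : Good (Phi V5.P V5.D 1 1) ⟨2, 0, 2, 2, 0, 0, 3, 0, 0, 0⟩ :=
  Good.n3 (Good.n4 (Good.n1 g00064 L00471) (Good.n2 L00472 (Good.n2 L00473 L00474))) (Good.n0 g00066 L00488)
theorem g00068 : Good (Phi V5.P V5.D 1 1) ⟨2, 0, 3, 4, 1, 1, 4, 2, 3, 3⟩ :=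
  Good.n0 (Good.n2 L00502 (Good.n2 (Good.n4 (Good.n4 (Good.n2 L00503 L00504) L00505) L00506) L00507)) L00508
theorem g00069 : Good (Phi V5.P V5.D 1 1) ⟨1, 0, 3, 4, 1, 1, 4, 2, 1, 0⟩ :=
  Good.n0 (Good.n4 (Good.n4 L00497 L00498) (Good.n4 (Good.n0 (Good.n4 L00499 L00500) L00501) g00068)) L00509
theorem g00070 : Good (Phi V5.P V5.D 1 1) ⟨1, 0, 3, 4, 0, 0, 4, 2, 0, 0⟩ :=
  Good.n2 (Good.n4 (Good.n4 (Good.n0 (Good.n4 L00491 L00492) L00493) (Good.n4 L00494 L00495)) L00496) (Good.n4 g00069 (Good.n2 L00510 L00511))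
theorem g00071 : Good (Phi V5.P V5.D 1 1) ⟨3, 0, 3, 4, 5, 25, 5, 6, 7, 48⟩ :=
  Good.n2 (Good.n4 (Good.n2 (Good.n4 (Good.n2 (Good.n3 L00523 L00524) L00525) L00526) L00527) L00528) L00529
theorem g00072 : Good (Phi V5.P V5.D 1 1) ⟨3, 0, 3, 4, 3, 6, 5, 6, 3, 3⟩ :=
  Good.n4 (Good.n4 (Good.n2 (Good.n2 L00522 (Good.n4 (Good.n4 g00071 L00530) L00531)) L00532) L00533) L00534
theorem g00073 : Good (Phi V5.P V5.D 1 1) ⟨2, 0, 3, 4, 0, 0, 5, 6, 2, 1⟩ :=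
  Good.n4 (Good.n0 (Good.n2 L00516 (Good.n4 L00517 L00518)) L00519) (Good.n0 (Good.n2 L00520 (Good.n2 L00521 (Good.n2 g00072 L00535))) L00536)
theorem g00074 : Good (Phi V5.P V5.D 1 1) ⟨2, 0, 2, 2, 0, 0, 5, 6, 0, 0⟩ :=
  Good.n1 (Good.n4 (Good.n4 (Good.n4 L00514 L00515) g00073) (Good.n2 L00537 (Good.n2 L00538 L00539))) L00540
theorem g00075 : Good (Phi V5.P V5.D 1 1) ⟨5, 0, 3, 4, 1, 1, 6, 14, 1, 0⟩ :=
  Good.n4 (Good.n4 L00546 L00547) (Good.n4 (Good.n4 L00548 (Good.n2 L00549 L00550)) (Good.n2 L00551 L00552))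
theorem g00076 : Good (Phi V5.P V5.D 1 1) ⟨5, 1, 3, 4, 0, 0, 6, 14, 2, 1⟩ :=
  Good.n4 (Good.n2 L00557 (Good.n4 L00558 (Good.n1 L00559 L00560))) (Good.n2 L00561 (Good.n2 L00562 L00563))
theorem g00077 : Good (Phi V5.P V5.D 1 1) ⟨4, 0, 3, 4, 0, 0, 6, 14, 0, 0⟩ :=
  Good.n0 (Good.n2 (Good.n4 (Good.n4 L00543 L00544) L00545) (Good.n4 g00075 (Good.n2 L00553 L00554))) (Good.n4 (Good.n4 (Good.n4 L00555 L00556) g00076) (Good.n2 L00564 (Good.n2 L00565 L00566)))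
theorem g00078 : Good (Phi V5.P V5.D 1 1) ⟨5, 0, 3, 4, 1, 1, 6, 15, 0, 0⟩ :=
  Good.n2 (Good.n4 (Good.n4 (Good.n4 L00570 L00571) (Good.n4 (Good.n4 L00572 L00573) L00574)) L00575) (Good.n4 (Good.n4 (Good.n4 L00576 L00577) (Good.n4 L00578 L00579)) L00580)
theorem g00079 : Good (Phi V5.P V5.D 1 1) ⟨5, 1, 3, 4, 1, 1, 6, 15, 0, 0⟩ :=
  Good.n4 (Good.n4 (Good.n4 L00581 L00582) (Good.n4 (Good.n4 L00583 (Good.n2 L00584 L00585)) L00586)) (Good.n2 L00587 L00588)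
theorem g00080 : Good (Phi V5.P V5.D 1 1) ⟨5, 2, 5, 16, 1, 1, 5, 7, 0, 0⟩ :=
  Good.n4 (Good.n4 (Good.n4 L00592 L00593) (Good.n4 (Good.n4 L00594 (Good.n2 L00595 L00596)) L00597)) (Good.n2 L00598 L00599)
theorem g00081 : Good (Phi V5.P V5.D 1 1) ⟨4, 1, 3, 4, 0, 0, 5, 7, 0, 0⟩ :=
  Good.n1 (Good.n0 (Good.n1 (Good.n2 (Good.n4 (Good.n4 L00589 L00590) L00591) g00080) L00600) L00601) L00602
theorem g00082 : Good (Phi V5.P V5.D 1 1) ⟨3, 0, 3, 4, 0, 0, 5, 7, 0, 0⟩ :=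
  Good.n0 (Good.n3 g00077 (Good.n2 (Good.n4 (Good.n4 L00567 L00568) L00569) (Good.n0 g00078 g00079))) g00081
theorem g00083 : Good (Phi V5.P V5.D 1 1) ⟨1, 0, 1, 1, 0, 0, 4, 3, 0, 0⟩ :=
  Good.n3 (Good.n0 (Good.n1 g00074 L00541) L00542) (Good.n1 (Good.n0 (Good.n1 (Good.n0 g00082 L00603) L00604) L00605) L00606)
theorem g00084 : Good (Phi V5.P V5.D 1 1) ⟨1, 0, 1, 1, 0, 0, 2, 0, 0, 0⟩ :=
  Good.n3 (Good.n0 (Good.n1 g00067 L00489) L00490) (Good.n3 (Good.n1 (Good.n1 g00070 L00512) L00513) g00083)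
theorem g00085 : Good (Phi V5.P V5.D 1 1) ⟨2, 0, 1, 1, 2, 1, 2, 1, 4, 5⟩ :=
  Good.n3 (Good.n4 (Good.n4 (Good.n3 L00614 L00615) (Good.n3 L00616 (Good.n0 L00617 L00618))) L00619) L00620
theorem g00086 : Good (Phi V5.P V5.D 1 1) ⟨2, 0, 2, 2, 2, 2, 2, 1, 4, 5⟩ :=
  Good.n3 (Good.n2 (Good.n3 (Good.n0 (Good.n0 L00622 L00623) L00624) (Good.n4 L00625 L00626)) L00627) L00628
theorem g00087 : Good (Phi V5.P V5.D 1 1) ⟨2, 0, 1, 1, 0, 0, 2, 1, 3, 2⟩ :=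
  Good.n2 (Good.n4 L00611 (Good.n2 (Good.n4 L00612 L00613) g00085)) (Good.n1 (Good.n2 (Good.n4 L00621 g00086) L00629) L00630)
theorem g00088 : Good (Phi V5.P V5.D 1 1) ⟨1, 0, 1, 1, 0, 0, 2, 1, 1, 0⟩ :=
  Good.n4 (Good.n4 L00607 (Good.n0 (Good.n2 L00608 L00609) L00610)) (Good.n0 (Good.n4 g00087 (Good.n1 (Good.n2 L00631 (Good.n2 L00632 L00633)) L00634)) L00635)
theorem g00089 : Good (Phi V5.P V5.D 1 1) ⟨1, 0, 1, 1, 0, 0, 2, 1, 1, 1⟩ :=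
  Good.n1 (Good.n2 L00636 (Good.n2 (Good.n4 (Good.n4 (Good.n2 L00637 L00638) L00639) L00640) L00641)) L00642
theorem g00090 : Good (Phi V5.P V5.D 1 1) ⟨3, 0, 2, 2, 1, 0, 1, 1, 2, 0⟩ :=
  Good.n1 (Good.n3 (Good.n4 L00643 L00644) (Good.n4 (Good.n3 L00645 (Good.n2 L00646 L00647)) L00648)) L00649
theorem g00091 : Good (Phi V5.P V5.D 1 1) ⟨1, 0, 1, 1, 1, 0, 1, 1, 1, 0⟩ :=
  Good.n4 (Good.n0 (Good.n1 (Good.n0 g00090 L00650) L00651) L00652) (Good.n0 (Good.n1 (Good.n4 (Good.n3 L00653 (Good.n3 L00654 L00655)) L00656) L00657) L00658)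
theorem g00092 : Good (Phi V5.P V5.D 1 1) ⟨3, 0, 1, 1, 1, 1, 1, 1, 2, 0⟩ :=
  Good.n4 (Good.n1 (Good.n3 L00660 L00661) L00662) (Good.n1 (Good.n1 (Good.n4 L00663 L00664) L00665) L00666)
theorem g00093 : Good (Phi V5.P V5.D 1 1) ⟨3, 0, 1, 1, 2, 2, 1, 1, 2, 2⟩ :=
  Good.n2 (Good.n4 (Good.n3 (Good.n2 (Good.n4 (Good.n3 L00672 L00673) L00674) L00675) L00676) L00677) L00678
theorem g00094 : Good (Phi V5.P V5.D 1 1) ⟨3, 0, 1, 1, 1, 1, 1, 1, 0, 0⟩ :=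
  Good.n4 (Good.n4 g00092 (Good.n4 (Good.n1 (Good.n4 (Good.n2 L00667 L00668) L00669) L00670) L00671)) (Good.n2 (Good.n4 g00093 L00679) L00680)
theorem g00095 : Good (Phi V5.P V5.D 1 1) ⟨1, 0, 1, 1, 0, 0, 0, 0, 0, 0⟩ :=
  Good.n3 (Good.n3 g00084 (Good.n4 g00088 g00089)) (Good.n2 (Good.n4 g00091 L00659) (Good.n0 (Good.n0 g00094 L00681) L00682))
theorem g00096 : Good (Phi V5.P V5.D 1 1) ⟨2, 2, 2, 0, 1, 0, 1, 0, 2, 0⟩ :=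
  Good.n4 (Good.n3 (Good.n4 (Good.n3 (Good.n2 L00683 L00684) L00685) L00686) (Good.n4 L00687 L00688)) (Good.n3 L00689 L00690)
theorem g00097 : Good (Phi V5.P V5.D 1 1) ⟨2, 2, 2, 0, 1, 0, 1, 0, 3, 2⟩ :=
  Good.n0 (Good.n3 L00691 (Good.n4 L00692 (Good.n3 L00693 L00694))) (Good.n3 L00695 (Good.n4 L00696 (Good.n4 (Good.n3 L00697 L00698) L00699)))
theorem g00098 : Good (Phi V5.P V5.D 1 1) ⟨2, 3, 2, 0, 1, 0, 1, 0, 2, 0⟩ :=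
  Good.n0 (Good.n4 (Good.n4 (Good.n1 L00702 (Good.n3 (Good.n3 L00703 L00704) L00705)) L00706) L00707) L00708
theorem g00099 : Good (Phi V5.P V5.D 1 1) ⟨3, 6, 2, 0, 1, 0, 1, 0, 2, 1⟩ :=
  Good.n4 (Good.n2 L00709 (Good.n3 L00710 (Good.n4 L00711 (Good.n3 L00712 L00713)))) (Good.n3 L00714 L00715)
theorem g00100 : Good (Phi V5.P V5.D 1 1) ⟨1, 1, 2, 0, 1, 0, 1, 0, 0, 0⟩ :=
  Good.n0 (Good.n4 (Good.n4 g00096 (Good.n4 g00097 L00700)) L00701) (Good.n4 (Good.n4 g00098 (Good.n0 g00099 L00716)) L00717)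
theorem g00101 : Good (Phi V5.P V5.D 1 1) ⟨1, 1, 3, 0, 1, 0, 1, 1, 3, 0⟩ :=
  Good.n3 (Good.n4 (Good.n0 L00718 L00719) L00720) (Good.n0 (Good.n0 L00721 (Good.n1 L00722 L00723)) L00724)
theorem g00102 : Good (Phi V5.P V5.D 1 1) ⟨1, 1, 4, 2, 1, 0, 2, 2, 2, 0⟩ :=
  Good.n3 (Good.n4 (Good.n4 (Good.n0 L00730 L00731) L00732) (Good.n0 L00733 L00734)) (Good.n0 (Good.n4 (Good.n4 L00735 L00736) L00737) (Good.n0 (Good.n4 L00738 L00739) L00740))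
theorem g00103 : Good (Phi V5.P V5.D 1 1) ⟨1, 1, 4, 2, 1, 0, 2, 3, 3, 1⟩ :=
  Good.n0 (Good.n2 L00747 (Good.n0 L00748 L00749)) (Good.n0 (Good.n0 (Good.n2 L00750 L00751) L00752) L00753)
theorem g00104 : Good (Phi V5.P V5.D 1 1) ⟨1, 1, 4, 2, 1, 0, 2, 3, 2, 0⟩ :=
  Good.n4 (Good.n4 (Good.n0 (Good.n3 L00741 L00742) L00743) (Good.n0 (Good.n0 L00744 L00745) L00746)) g00103
theorem g00105 : Good (Phi V5.P V5.D 1 1) ⟨2, 2, 4, 3, 1, 0, 1, 1, 2, 0⟩ :=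
  Good.n4 (Good.n3 (Good.n4 L00754 L00755) (Good.n0 L00756 (Good.n0 L00757 L00758))) (Good.n3 L00759 (Good.n2 L00760 (Good.n0 L00761 L00762)))
theorem g00106 : Good (Phi V5.P V5.D 1 1) ⟨3, 6, 4, 3, 2, 1, 1, 1, 2, 0⟩ :=
  Good.n4 (Good.n0 (Good.n3 L00766 L00767) L00768) (Good.n0 (Good.n3 L00769 (Good.n3 L00770 L00771)) L00772)
theorem g00107 : Good (Phi V5.P V5.D 1 1) ⟨1, 1, 3, 1, 1, 0, 1, 1, 2, 0⟩ :=
  Good.n1 (Good.n3 g00102 g00104) (Good.n0 g00105 (Good.n0 (Good.n2 (Good.n4 (Good.n4 L00763 L00764) L00765) g00106) L00773))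
theorem g00108 : Good (Phi V5.P V5.D 1 1) ⟨1, 1, 2, 0, 1, 0, 1, 1, 2, 0⟩ :=
  Good.n1 (Good.n4 g00101 (Good.n0 (Good.n3 L00725 (Good.n0 L00726 (Good.n2 L00727 L00728))) L00729)) g00107
theorem g00109 : Good (Phi V5.P V5.D 1 1) ⟨1, 1, 2, 0, 1, 0, 2, 2, 3, 2⟩ :=
  Good.n0 (Good.n2 L00774 (Good.n3 L00775 L00776)) (Good.n0 (Good.n0 (Good.n3 L00777 L00778) L00779) L00780)
theorem g00110 : Good (Phi V5.P V5.D 1 1) ⟨1, 1, 2, 0, 1, 0, 2, 3, 2, 1⟩ :=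
  Good.n0 (Good.n4 (Good.n2 L00785 (Good.n2 L00786 L00787)) (Good.n3 L00788 L00789)) (Good.n4 (Good.n0 (Good.n0 (Good.n3 L00790 L00791) L00792) L00793) (Good.n2 L00794 L00795))
theorem g00111 : Good (Phi V5.P V5.D 1 1) ⟨1, 1, 2, 0, 1, 0, 1, 1, 1, 0⟩ :=
  Good.n4 g00108 (Good.n3 (Good.n4 g00109 (Good.n0 (Good.n0 L00781 L00782) (Good.n0 L00783 L00784))) g00110)
theorem g00112 : Good (Phi V5.P V5.D 1 1) ⟨2, 2, 2, 0, 2, 2, 2, 0, 3, 0⟩ :=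
  Good.n4 (Good.n4 (Good.n3 (Good.n3 (Good.n2 L00797 L00798) L00799) (Good.n4 L00800 L00801)) L00802) L00803
theorem g00113 : Good (Phi V5.P V5.D 1 1) ⟨3, 5, 2, 0, 2, 3, 2, 0, 4, 0⟩ :=
  Good.n2 (Good.n3 (Good.n3 L00807 L00808) (Good.n0 L00809 (Good.n1 L00810 L00811))) (Good.n3 L00812 (Good.n0 L00813 L00814))
theorem g00114 : Good (Phi V5.P V5.D 1 1) ⟨2, 2, 2, 0, 2, 3, 2, 0, 3, 0⟩ :=
  Good.n4 (Good.n0 (Good.n2 (Good.n3 L00804 L00805) L00806) g00113) (Good.n4 (Good.n3 (Good.n0 L00815 L00816) L00817) (Good.n3 (Good.n0 L00818 L00819) L00820))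
theorem g00115 : Good (Phi V5.P V5.D 1 1) ⟨4, 11, 2, 0, 2, 3, 2, 1, 5, 0⟩ :=
  Good.n2 (Good.n1 (Good.n3 L00828 L00829) L00830) (Good.n2 L00831 (Good.n1 (Good.n3 L00832 L00833) L00834))
theorem g00116 : Good (Phi V5.P V5.D 1 1) ⟨3, 5, 2, 0, 1, 1, 2, 1, 4, 0⟩ :=
  Good.n2 (Good.n3 L00824 L00825) (Good.n4 (Good.n0 (Good.n2 L00826 L00827) g00115) (Good.n0 L00835 L00836))
theorem g00117 : Good (Phi V5.P V5.D 1 1) ⟨2, 2, 2, 0, 1, 1, 2, 1, 3, 0⟩ :=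
  Good.n0 (Good.n4 (Good.n2 L00821 L00822) L00823) (Good.n4 g00116 (Good.n2 L00837 (Good.n4 L00838 L00839)))
theorem g00118 : Good (Phi V5.P V5.D 1 1) ⟨2, 2, 2, 0, 2, 3, 2, 0, 3, 1⟩ :=
  Good.n4 (Good.n2 (Good.n3 (Good.n3 L00843 L00844) L00845) (Good.n0 L00846 L00847)) (Good.n0 L00848 (Good.n2 L00849 L00850))
theorem g00119 : Good (Phi V5.P V5.D 1 1) ⟨2, 2, 2, 0, 1, 1, 2, 1, 3, 1⟩ :=
  Good.n4 (Good.n2 L00851 (Good.n0 L00852 (Good.n2 L00853 L00854))) (Good.n2 L00855 (Good.n2 L00856 L00857))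
theorem g00120 : Good (Phi V5.P V5.D 1 1) ⟨2, 2, 2, 0, 1, 1, 1, 0, 2, 0⟩ :=
  Good.n4 (Good.n3 (Good.n2 g00112 g00114) g00117) (Good.n3 (Good.n2 (Good.n4 L00840 (Good.n0 L00841 L00842)) g00118) g00119)
theorem g00121 : Good (Phi V5.P V5.D 1 1) ⟨3, 6, 2, 0, 2, 3, 2, 0, 4, 0⟩ :=
  Good.n0 (Good.n1 L00864 (Good.n2 (Good.n3 L00865 L00866) (Good.n4 (Good.n2 L00867 L00868) L00869))) L00870
theorem g00122 : Good (Phi V5.P V5.D 1 1) ⟨2, 3, 2, 0, 1, 1, 2, 0, 4, 0⟩ :=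
  Good.n2 (Good.n0 (Good.n0 (Good.n3 (Good.n4 (Good.n3 L00858 L00859) L00860) L00861) L00862) L00863) (Good.n0 g00121 L00871)
theorem g00123 : Good (Phi V5.P V5.D 1 1) ⟨2, 3, 2, 0, 1, 1, 2, 0, 3, 0⟩ :=
  Good.n4 g00122 (Good.n0 (Good.n0 (Good.n1 L00872 (Good.n2 L00873 (Good.n2 L00874 L00875))) L00876) L00877)
theorem g00124 : Good (Phi V5.P V5.D 1 1) ⟨4, 12, 3, 1, 1, 1, 3, 3, 3, 0⟩ :=
  Good.n4 (Good.n2 L00885 (Good.n4 (Good.n2 L00886 (Good.n2 L00887 (Good.n0 L00888 L00889))) L00890)) (Good.n2 L00891 L00892)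
theorem g00125 : Good (Phi V5.P V5.D 1 1) ⟨4, 12, 3, 1, 1, 1, 2, 1, 3, 0⟩ :=
  Good.n3 (Good.n4 (Good.n2 L00879 (Good.n4 (Good.n2 L00880 L00881) L00882)) (Good.n2 L00883 L00884)) g00124
theorem g00126 : Good (Phi V5.P V5.D 1 1) ⟨3, 6, 2, 0, 2, 3, 1, 0, 3, 1⟩ :=
  Good.n3 (Good.n0 (Good.n1 L00901 (Good.n2 L00902 L00903)) L00904) (Good.n2 (Good.n0 (Good.n4 L00905 L00906) L00907) (Good.n0 (Good.n4 L00908 L00909) L00910))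
theorem g00127 : Good (Phi V5.P V5.D 1 1) ⟨3, 6, 2, 0, 1, 1, 1, 0, 3, 1⟩ :=
  Good.n2 (Good.n0 (Good.n1 L00895 (Good.n4 (Good.n3 L00896 L00897) (Good.n3 L00898 L00899))) L00900) g00126
theorem g00128 : Good (Phi V5.P V5.D 1 1) ⟨2, 3, 2, 0, 1, 1, 1, 0, 2, 0⟩ :=
  Good.n4 (Good.n3 g00123 (Good.n0 (Good.n0 (Good.n1 L00878 g00125) L00893) L00894)) (Good.n0 g00127 L00911)
theorem g00129 : Good (Phi V5.P V5.D 1 1) ⟨2, 2, 2, 0, 2, 2, 1, 0, 3, 2⟩ :=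
  Good.n4 (Good.n3 (Good.n3 L00912 (Good.n2 L00913 L00914)) (Good.n2 (Good.n3 L00915 L00916) L00917)) (Good.n0 (Good.n3 L00918 L00919) (Good.n3 L00920 (Good.n3 (Good.n3 L00921 L00922) L00923)))
theorem g00130 : Good (Phi V5.P V5.D 1 1) ⟨2, 2, 2, 0, 9, 304, 8, 126, 9, 224⟩ :=
  Good.n4 (Good.n2 (Good.n3 L00941 (Good.n4 (Good.n2 (Good.n3 L00942 L00943) L00944) L00945)) L00946) L00947
theorem g00131 : Good (Phi V5.P V5.D 1 1) ⟨2, 2, 2, 0, 8, 152, 6, 31, 8, 112⟩ :=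
  Good.n3 (Good.n4 (Good.n3 L00935 (Good.n4 (Good.n3 L00936 (Good.n2 L00937 L00938)) L00939)) L00940) (Good.n4 (Good.n2 (Good.n3 g00130 L00948) L00949) L00950)
theorem g00132 : Good (Phi V5.P V5.D 1 1) ⟨2, 2, 2, 0, 6, 38, 5, 15, 7, 56⟩ :=
  Good.n2 (Good.n3 L00934 (Good.n4 (Good.n2 g00131 L00951) L00952)) (Good.n3 (Good.n4 (Good.n2 L00953 L00954) L00955) L00956)
theorem g00133 : Good (Phi V5.P V5.D 1 1) ⟨2, 2, 2, 0, 5, 19, 4, 7, 6, 28⟩ :=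
  Good.n3 (Good.n4 (Good.n3 L00930 (Good.n2 L00931 L00932)) L00933) (Good.n2 (Good.n4 g00132 L00957) L00958)
theorem g00134 : Good (Phi V5.P V5.D 1 1) ⟨2, 2, 2, 0, 3, 4, 2, 1, 4, 7⟩ :=
  Good.n3 L00926 (Good.n4 (Good.n2 L00927 (Good.n3 L00928 (Good.n4 (Good.n2 L00929 g00133) L00959))) L00960)
theorem g00135 : Good (Phi V5.P V5.D 1 1) ⟨2, 2, 2, 0, 4, 10, 2, 1, 4, 7⟩ :=
  Good.n4 (Good.n3 L00961 (Good.n2 (Good.n4 (Good.n3 (Good.n3 L00962 L00963) L00964) L00965) L00966)) L00967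
theorem g00136 : Good (Phi V5.P V5.D 1 1) ⟨4, 12, 2, 0, 2, 2, 1, 0, 2, 1⟩ :=
  Good.n4 (Good.n3 (Good.n2 L00969 L00970) (Good.n2 (Good.n4 L00971 (Good.n3 L00972 L00973)) L00974)) L00975
theorem g00137 : Good (Phi V5.P V5.D 1 1) ⟨1, 1, 2, 0, 2, 2, 1, 0, 2, 1⟩ :=
  Good.n0 (Good.n4 g00129 (Good.n3 L00924 (Good.n4 L00925 (Good.n2 g00134 (Good.n2 g00135 L00968))))) (Good.n0 (Good.n0 g00136 L00976) L00977)
theorem g00138 : Good (Phi V5.P V5.D 1 1) ⟨1, 1, 2, 0, 2, 3, 2, 1, 4, 4⟩ :=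
  Good.n0 (Good.n2 L00980 L00981) (Good.n0 (Good.n0 (Good.n1 L00982 (Good.n0 L00983 L00984)) L00985) L00986)
theorem g00139 : Good (Phi V5.P V5.D 1 1) ⟨1, 1, 2, 0, 2, 3, 1, 0, 4, 5⟩ :=
  Good.n0 (Good.n2 (Good.n3 L00987 L00988) L00989) (Good.n0 (Good.n0 (Good.n2 L00990 L00991) L00992) L00993)
theorem g00140 : Good (Phi V5.P V5.D 1 1) ⟨1, 1, 2, 0, 1, 1, 1, 0, 1, 0⟩ :=
  Good.n4 (Good.n0 g00120 g00128) (Good.n2 g00137 (Good.n4 (Good.n4 (Good.n3 (Good.n0 L00978 L00979) g00138) g00139) L00994))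
theorem g00141 : Good (Phi V5.P V5.D 1 1) ⟨3, 4, 2, 0, 1, 1, 1, 1, 2, 0⟩ :=
  Good.n4 (Good.n4 (Good.n3 L01000 L01001) (Good.n2 L01002 (Good.n4 L01003 L01004))) (Good.n4 (Good.n2 L01005 (Good.n2 L01006 L01007)) (Good.n3 L01008 L01009))
theorem g00142 : Good (Phi V5.P V5.D 1 1) ⟨3, 5, 3, 0, 1, 1, 2, 2, 4, 0⟩ :=
  Good.n2 L01010 (Good.n0 L01011 (Good.n2 L01012 (Good.n4 (Good.n0 L01013 (Good.n3 L01014 L01015)) L01016)))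
theorem g00143 : Good (Phi V5.P V5.D 1 1) ⟨4, 11, 4, 0, 3, 7, 3, 7, 5, 0⟩ :=
  Good.n0 (Good.n2 L01028 (Good.n2 L01029 L01030)) (Good.n0 (Good.n1 L01031 (Good.n2 L01032 L01033)) L01034)
theorem g00144 : Good (Phi V5.P V5.D 1 1) ⟨4, 11, 4, 0, 2, 3, 2, 3, 4, 0⟩ :=
  Good.n3 (Good.n2 L01024 (Good.n0 L01025 L01026)) (Good.n2 L01027 (Good.n4 g00143 (Good.n0 (Good.n2 L01035 L01036) L01037)))
theorem g00145 : Good (Phi V5.P V5.D 1 1) ⟨4, 11, 4, 1, 3, 7, 2, 3, 4, 0⟩ :=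
  Good.n4 (Good.n0 L01044 (Good.n3 L01045 (Good.n2 L01046 L01047))) (Good.n3 L01048 (Good.n0 L01049 L01050))
theorem g00146 : Good (Phi V5.P V5.D 1 1) ⟨3, 5, 4, 1, 1, 1, 2, 3, 4, 0⟩ :=
  Good.n2 (Good.n0 L01038 L01039) (Good.n0 L01040 (Good.n2 (Good.n0 L01041 (Good.n0 L01042 L01043)) g00145))
theorem g00147 : Good (Phi V5.P V5.D 1 1) ⟨4, 11, 3, 0, 3, 7, 3, 7, 5, 2⟩ :=
  Good.n4 (Good.n0 (Good.n3 L01059 L01060) (Good.n1 L01061 L01062)) (Good.n0 (Good.n2 L01063 L01064) L01065)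
theorem g00148 : Good (Phi V5.P V5.D 1 1) ⟨3, 5, 3, 0, 2, 3, 2, 3, 4, 1⟩ :=
  Good.n4 (Good.n0 (Good.n2 L01054 L01055) (Good.n2 (Good.n3 L01056 L01057) (Good.n3 L01058 g00147))) (Good.n0 L01066 (Good.n3 L01067 (Good.n3 L01068 L01069)))
theorem g00149 : Good (Phi V5.P V5.D 1 1) ⟨3, 5, 3, 0, 1, 1, 2, 3, 3, 0⟩ :=
  Good.n4 (Good.n1 (Good.n2 L01021 (Good.n0 (Good.n2 L01022 L01023) g00144)) g00146) (Good.n2 (Good.n3 L01051 (Good.n0 L01052 L01053)) g00148)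
theorem g00150 : Good (Phi V5.P V5.D 1 1) ⟨3, 5, 3, 1, 2, 3, 2, 2, 3, 0⟩ :=
  Good.n4 (Good.n0 L01076 (Good.n2 L01077 (Good.n2 L01078 (Good.n1 L01079 L01080)))) (Good.n2 L01081 L01082)
theorem g00151 : Good (Phi V5.P V5.D 1 1) ⟨4, 11, 3, 1, 3, 7, 2, 3, 4, 0⟩ :=
  Good.n4 (Good.n2 L01090 (Good.n0 L01091 (Good.n3 L01092 L01093))) (Good.n3 L01094 (Good.n0 L01095 L01096))
theorem g00152 : Good (Phi V5.P V5.D 1 1) ⟨3, 5, 3, 1, 3, 7, 2, 3, 3, 0⟩ :=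
  Good.n4 (Good.n0 L01089 g00151) (Good.n4 (Good.n0 L01097 (Good.n3 L01098 (Good.n0 L01099 L01100))) (Good.n3 L01101 L01102))
theorem g00153 : Good (Phi V5.P V5.D 1 1) ⟨3, 5, 3, 1, 2, 3, 2, 3, 3, 0⟩ :=
  Good.n2 (Good.n4 (Good.n0 L01083 (Good.n0 L01084 L01085)) (Good.n3 L01086 (Good.n4 L01087 L01088))) g00152
theorem g00154 : Good (Phi V5.P V5.D 1 1) ⟨3, 5, 3, 1, 1, 1, 1, 1, 3, 0⟩ :=
  Good.n2 (Good.n3 (Good.n4 L01070 L01071) (Good.n0 L01072 (Good.n4 L01073 (Good.n2 L01074 L01075)))) (Good.n3 g00150 g00153)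
theorem g00155 : Good (Phi V5.P V5.D 1 1) ⟨3, 5, 2, 0, 1, 1, 1, 1, 3, 0⟩ :=
  Good.n1 (Good.n3 (Good.n4 g00142 (Good.n2 L01017 (Good.n0 L01018 (Good.n4 L01019 L01020)))) g00149) g00154
theorem g00156 : Good (Phi V5.P V5.D 1 1) ⟨3, 5, 2, 0, 1, 1, 1, 1, 4, 2⟩ :=
  Good.n3 (Good.n2 L01103 (Good.n4 L01104 L01105)) (Good.n2 (Good.n3 L01106 L01107) (Good.n2 L01108 (Good.n3 L01109 L01110)))
theorem g00157 : Good (Phi V5.P V5.D 1 1) ⟨3, 6, 3, 1, 2, 2, 2, 3, 3, 0⟩ :=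
  Good.n0 (Good.n3 (Good.n4 L01121 L01122) (Good.n4 (Good.n2 L01123 L01124) (Good.n4 L01125 L01126))) L01127
theorem g00158 : Good (Phi V5.P V5.D 1 1) ⟨2, 3, 3, 1, 2, 2, 1, 1, 2, 0⟩ :=
  Good.n3 (Good.n4 (Good.n0 (Good.n0 (Good.n1 L01115 L01116) L01117) L01118) (Good.n0 L01119 L01120)) (Good.n4 (Good.n0 g00157 L01128) (Good.n0 (Good.n0 (Good.n3 L01129 L01130) L01131) L01132))
theorem g00159 : Good (Phi V5.P V5.D 1 1) ⟨4, 12, 3, 1, 2, 3, 2, 2, 3, 0⟩ :=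
  Good.n4 (Good.n2 L01134 (Good.n4 (Good.n2 L01135 (Good.n3 L01136 L01137)) (Good.n2 L01138 L01139))) (Good.n2 L01140 (Good.n4 L01141 L01142))
theorem g00160 : Good (Phi V5.P V5.D 1 1) ⟨2, 3, 2, 0, 2, 3, 2, 2, 2, 0⟩ :=
  Good.n4 (Good.n0 (Good.n0 (Good.n1 L01133 g00159) L01143) L01144) (Good.n0 (Good.n0 (Good.n4 (Good.n2 L01145 L01146) L01147) L01148) L01149)
theorem g00161 : Good (Phi V5.P V5.D 1 1) ⟨4, 12, 3, 1, 3, 6, 2, 3, 3, 0⟩ :=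
  Good.n4 (Good.n4 (Good.n0 L01151 L01152) (Good.n0 (Good.n0 L01153 L01154) L01155)) (Good.n3 L01156 L01157)
theorem g00162 : Good (Phi V5.P V5.D 1 1) ⟨4, 12, 3, 1, 3, 7, 2, 3, 4, 0⟩ :=
  Good.n2 (Good.n1 L01158 (Good.n0 L01159 L01160)) (Good.n4 (Good.n0 (Good.n1 (Good.n3 L01161 L01162) L01163) L01164) (Good.n1 L01165 L01166))
theorem g00163 : Good (Phi V5.P V5.D 1 1) ⟨4, 12, 3, 1, 2, 3, 2, 3, 3, 0⟩ :=
  Good.n2 g00161 (Good.n4 g00162 (Good.n4 (Good.n2 L01167 (Good.n3 L01168 L01169)) (Good.n3 L01170 L01171)))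
theorem g00164 : Good (Phi V5.P V5.D 1 1) ⟨3, 6, 2, 0, 2, 3, 2, 3, 3, 1⟩ :=
  Good.n4 (Good.n0 (Good.n1 L01174 (Good.n2 L01175 (Good.n3 L01176 L01177))) L01178) (Good.n0 L01179 L01180)
theorem g00165 : Good (Phi V5.P V5.D 1 1) ⟨2, 3, 2, 0, 2, 3, 1, 1, 2, 0⟩ :=
  Good.n3 g00160 (Good.n4 (Good.n1 L01150 (Good.n0 (Good.n0 g00163 L01172) L01173)) (Good.n0 g00164 L01181))
theorem g00166 : Good (Phi V5.P V5.D 1 1) ⟨1, 1, 2, 0, 1, 1, 1, 1, 2, 0⟩ :=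
  Good.n0 (Good.n0 g00141 (Good.n4 g00155 (Good.n4 g00156 (Good.n2 L01111 (Good.n3 L01112 L01113))))) (Good.n2 (Good.n1 L01114 g00158) g00165)
theorem g00167 : Good (Phi V5.P V5.D 1 1) ⟨2, 2, 2, 0, 1, 1, 1, 1, 4, 4⟩ :=
  Good.n3 (Good.n2 L01182 (Good.n4 (Good.n2 L01183 L01184) (Good.n2 L01185 L01186))) (Good.n2 L01187 L01188)
theorem g00168 : Good (Phi V5.P V5.D 1 1) ⟨3, 6, 2, 0, 1, 1, 1, 1, 4, 4⟩ :=
  Good.n0 (Good.n3 (Good.n1 L01189 (Good.n2 L01190 (Good.n4 L01191 L01192))) (Good.n2 L01193 L01194)) L01195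
theorem g00169 : Good (Phi V5.P V5.D 1 1) ⟨1, 1, 2, 0, 1, 1, 1, 1, 4, 5⟩ :=
  Good.n0 (Good.n3 (Good.n2 L01197 L01198) L01199) (Good.n2 (Good.n0 (Good.n0 (Good.n3 L01200 L01201) L01202) L01203) (Good.n3 L01204 L01205))
theorem g00170 : Good (Phi V5.P V5.D 1 1) ⟨1, 1, 2, 0, 1, 1, 1, 1, 2, 1⟩ :=
  Good.n4 (Good.n4 (Good.n0 g00167 (Good.n0 g00168 L01196)) g00169) (Good.n2 (Good.n3 (Good.n0 L01206 L01207) L01208) L01209)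
theorem g00171 : Good (Phi V5.P V5.D 1 1) ⟨1, 1, 2, 0, 4, 8, 2, 2, 3, 4⟩ :=
  Good.n4 (Good.n0 (Good.n3 L01210 L01211) (Good.n0 (Good.n0 (Good.n3 L01212 L01213) L01214) L01215)) L01216
theorem g00172 : Good (Phi V5.P V5.D 1 1) ⟨1, 1, 2, 0, 1, 1, 1, 1, 1, 1⟩ :=
  Good.n2 (Good.n4 (Good.n2 (Good.n4 (Good.n3 (Good.n2 g00171 L01217) L01218) L01219) L01220) L01221) L01222
theorem g00173 : Good (Phi V5.P V5.D 1 1) ⟨1, 1, 2, 0, 1, 1, 0, 0, 0, 0⟩ :=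
  Good.n3 (Good.n4 g00140 (Good.n2 (Good.n4 (Good.n4 (Good.n2 L00995 L00996) L00997) L00998) L00999)) (Good.n4 (Good.n4 g00166 g00170) g00172)
theorem g00174 : Good (Phi V5.P V5.D 1 1) ⟨1, 1, 2, 1, 2, 0, 1, 0, 4, 0⟩ :=
  Good.n0 (Good.n1 (Good.n0 L01223 (Good.n0 L01224 (Good.n3 L01225 L01226))) L01227) (Good.n0 (Good.n3 (Good.n4 (Good.n3 L01228 L01229) L01230) (Good.n0 L01231 L01232)) L01233)
theorem g00175 : Good (Phi V5.P V5.D 1 1) ⟨1, 1, 2, 1, 2, 1, 1, 0, 3, 0⟩ :=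
  Good.n0 (Good.n4 (Good.n0 L01236 (Good.n3 L01237 L01238)) L01239) (Good.n0 (Good.n4 (Good.n3 (Good.n3 L01240 L01241) (Good.n0 L01242 L01243)) L01244) L01245)
theorem g00176 : Good (Phi V5.P V5.D 1 1) ⟨1, 1, 2, 1, 1, 0, 1, 0, 3, 1⟩ :=
  Good.n0 (Good.n0 L01246 (Good.n0 L01247 (Good.n3 L01248 L01249))) (Good.n0 (Good.n3 L01250 L01251) L01252)
theorem g00177 : Good (Phi V5.P V5.D 1 1) ⟨2, 2, 2, 1, 1, 0, 1, 0, 3, 2⟩ :=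
  Good.n0 L01253 (Good.n1 (Good.n3 L01254 (Good.n4 L01255 (Good.n3 (Good.n2 L01256 L01257) L01258))) L01259)
theorem g00178 : Good (Phi V5.P V5.D 1 1) ⟨3, 6, 2, 1, 2, 1, 1, 0, 3, 2⟩ :=
  Good.n0 (Good.n3 L01264 (Good.n3 (Good.n4 L01265 (Good.n4 L01266 L01267)) (Good.n4 L01268 L01269))) (Good.n3 L01270 (Good.n4 L01271 (Good.n3 (Good.n4 L01272 L01273) L01274)))
theorem g00179 : Good (Phi V5.P V5.D 1 1) ⟨2, 3, 2, 1, 1, 0, 1, 0, 2, 1⟩ :=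
  Good.n4 (Good.n0 (Good.n2 (Good.n3 L01262 L01263) g00178) L01275) (Good.n3 L01276 (Good.n2 L01277 L01278))
theorem g00180 : Good (Phi V5.P V5.D 1 1) ⟨1, 1, 2, 1, 1, 0, 1, 0, 1, 0⟩ :=
  Good.n4 (Good.n4 (Good.n2 (Good.n4 g00174 (Good.n0 L01234 L01235)) g00175) g00176) (Good.n0 (Good.n4 g00177 (Good.n3 L01260 L01261)) g00179)
theorem g00181 : Good (Phi V5.P V5.D 1 1) ⟨1, 1, 3, 2, 1, 0, 2, 3, 3, 0⟩ :=
  Good.n2 (Good.n0 L01286 L01287) (Good.n0 L01288 (Good.n0 (Good.n0 (Good.n3 L01289 (Good.n4 L01290 L01291)) L01292) L01293))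
theorem g00182 : Good (Phi V5.P V5.D 1 1) ⟨1, 1, 3, 2, 1, 0, 1, 1, 3, 0⟩ :=
  Good.n3 (Good.n4 (Good.n0 L01280 (Good.n0 (Good.n0 L01281 L01282) L01283)) (Good.n0 L01284 L01285)) g00181
theorem g00183 : Good (Phi V5.P V5.D 1 1) ⟨3, 6, 3, 2, 1, 0, 2, 3, 3, 1⟩ :=
  Good.n0 (Good.n3 L01300 (Good.n4 (Good.n3 L01301 L01302) L01303)) (Good.n2 L01304 (Good.n3 L01305 L01306))
theorem g00184 : Good (Phi V5.P V5.D 1 1) ⟨1, 1, 3, 2, 1, 0, 1, 1, 3, 1⟩ :=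
  Good.n0 (Good.n0 L01294 (Good.n3 L01295 (Good.n0 L01296 (Good.n2 L01297 L01298)))) (Good.n0 (Good.n3 L01299 g00183) L01307)
theorem g00185 : Good (Phi V5.P V5.D 1 1) ⟨1, 1, 3, 3, 1, 0, 2, 2, 3, 0⟩ :=
  Good.n4 (Good.n0 L01308 (Good.n0 (Good.n0 L01309 (Good.n2 L01310 L01311)) L01312)) (Good.n0 L01313 L01314)
theorem g00186 : Good (Phi V5.P V5.D 1 1) ⟨3, 6, 3, 3, 1, 0, 2, 3, 3, 0⟩ :=
  Good.n4 (Good.n0 L01316 (Good.n3 L01317 (Good.n2 L01318 (Good.n0 L01319 L01320)))) (Good.n2 L01321 (Good.n0 L01322 (Good.n3 L01323 (Good.n3 L01324 (Good.n2 L01325 L01326)))))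
theorem g00187 : Good (Phi V5.P V5.D 1 1) ⟨3, 6, 3, 3, 1, 0, 2, 3, 3, 1⟩ :=
  Good.n0 (Good.n3 L01332 (Good.n3 L01333 L01334)) (Good.n3 L01335 (Good.n4 (Good.n2 L01336 (Good.n3 L01337 L01338)) (Good.n3 L01339 L01340)))
theorem g00188 : Good (Phi V5.P V5.D 1 1) ⟨1, 1, 3, 3, 1, 0, 1, 1, 2, 0⟩ :=
  Good.n4 (Good.n3 g00185 (Good.n0 L01315 (Good.n0 g00186 L01327))) (Good.n3 (Good.n0 L01328 (Good.n0 L01329 L01330)) (Good.n0 L01331 (Good.n0 g00187 L01341)))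
theorem g00189 : Good (Phi V5.P V5.D 1 1) ⟨1, 1, 2, 1, 1, 0, 1, 1, 3, 2⟩ :=
  Good.n3 (Good.n0 (Good.n0 L01342 L01343) (Good.n0 (Good.n2 L01344 L01345) L01346)) (Good.n0 (Good.n0 L01347 L01348) (Good.n0 (Good.n3 L01349 (Good.n3 L01350 L01351)) L01352))
theorem g00190 : Good (Phi V5.P V5.D 1 1) ⟨1, 1, 2, 1, 1, 0, 2, 3, 3, 3⟩ :=
  Good.n3 (Good.n0 L01358 (Good.n0 (Good.n2 L01359 L01360) L01361)) (Good.n0 L01362 (Good.n0 (Good.n2 L01363 L01364) L01365))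
theorem g00191 : Good (Phi V5.P V5.D 1 1) ⟨1, 1, 2, 1, 1, 0, 1, 1, 2, 1⟩ :=
  Good.n4 g00189 (Good.n3 (Good.n4 (Good.n0 L01353 (Good.n0 L01354 L01355)) (Good.n0 L01356 L01357)) g00190)
theorem g00192 : Good (Phi V5.P V5.D 1 1) ⟨1, 1, 2, 1, 1, 0, 0, 0, 0, 0⟩ :=
  Good.n3 (Good.n4 g00180 L01279) (Good.n4 (Good.n4 (Good.n1 (Good.n4 g00182 g00184) g00188) g00191) L01366)
theorem g00193 : Good (Phi V5.P V5.D 1 1) ⟨1, 1, 3, 2, 2, 2, 3, 0, 4, 0⟩ :=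
  Good.n0 (Good.n4 (Good.n0 L01367 (Good.n3 L01368 L01369)) L01370) (Good.n0 (Good.n4 (Good.n3 L01371 L01372) L01373) L01374)
theorem g00194 : Good (Phi V5.P V5.D 1 1) ⟨3, 6, 3, 2, 2, 3, 2, 0, 4, 0⟩ :=
  Good.n0 (Good.n2 (Good.n3 (Good.n0 L01384 L01385) L01386) (Good.n4 L01387 L01388)) (Good.n2 (Good.n0 (Good.n4 L01389 L01390) L01391) L01392)
theorem g00195 : Good (Phi V5.P V5.D 1 1) ⟨1, 1, 3, 2, 2, 3, 2, 0, 3, 0⟩ :=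
  Good.n0 (Good.n0 L01379 (Good.n4 (Good.n0 L01380 (Good.n2 L01381 L01382)) L01383)) (Good.n0 (Good.n4 g00194 (Good.n3 L01393 L01394)) L01395)
theorem g00196 : Good (Phi V5.P V5.D 1 1) ⟨2, 2, 3, 2, 1, 1, 2, 1, 3, 0⟩ :=
  Good.n0 L01396 (Good.n4 (Good.n0 L01397 (Good.n2 L01398 L01399)) (Good.n0 L01400 (Good.n2 L01401 L01402)))
theorem g00197 : Good (Phi V5.P V5.D 1 1) ⟨3, 6, 3, 2, 3, 7, 2, 1, 5, 0⟩ :=
  Good.n0 (Good.n3 L01407 (Good.n2 L01408 (Good.n2 L01409 (Good.n0 L01410 (Good.n1 L01411 L01412))))) (Good.n0 (Good.n3 L01413 (Good.n1 L01414 (Good.n2 L01415 L01416))) L01417)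
theorem g00198 : Good (Phi V5.P V5.D 1 1) ⟨3, 6, 3, 2, 1, 1, 2, 1, 4, 0⟩ :=
  Good.n2 (Good.n3 L01403 L01404) (Good.n4 (Good.n2 (Good.n1 L01405 L01406) g00197) (Good.n0 L01418 L01419))
theorem g00199 : Good (Phi V5.P V5.D 1 1) ⟨1, 1, 3, 2, 1, 1, 1, 0, 3, 0⟩ :=
  Good.n3 (Good.n2 (Good.n4 (Good.n3 g00193 (Good.n0 L01375 L01376)) (Good.n0 L01377 L01378)) g00195) (Good.n0 g00196 (Good.n0 (Good.n4 g00198 (Good.n2 L01420 (Good.n2 L01421 L01422))) L01423))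
theorem g00200 : Good (Phi V5.P V5.D 1 1) ⟨1, 1, 3, 2, 2, 3, 2, 0, 3, 1⟩ :=
  Good.n0 (Good.n0 L01429 (Good.n0 L01430 (Good.n2 L01431 L01432))) (Good.n0 (Good.n0 (Good.n4 (Good.n2 L01433 L01434) L01435) (Good.n4 L01436 L01437)) L01438)
theorem g00201 : Good (Phi V5.P V5.D 1 1) ⟨3, 6, 3, 2, 2, 3, 2, 1, 3, 1⟩ :=
  Good.n2 (Good.n4 L01448 (Good.n0 L01449 L01450)) (Good.n4 (Good.n0 L01451 L01452) (Good.n0 L01453 L01454))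
theorem g00202 : Good (Phi V5.P V5.D 1 1) ⟨1, 1, 3, 2, 1, 1, 2, 1, 3, 1⟩ :=
  Good.n2 (Good.n4 (Good.n0 L01439 L01440) (Good.n0 L01441 (Good.n0 L01442 L01443))) (Good.n0 (Good.n0 L01444 (Good.n0 L01445 (Good.n2 L01446 L01447))) (Good.n0 g00201 L01455))
theorem g00203 : Good (Phi V5.P V5.D 1 1) ⟨1, 1, 3, 2, 1, 1, 1, 0, 3, 1⟩ :=
  Good.n3 (Good.n2 (Good.n0 (Good.n4 L01424 L01425) (Good.n0 (Good.n4 L01426 L01427) L01428)) g00200) g00202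
theorem g00204 : Good (Phi V5.P V5.D 1 1) ⟨1, 1, 3, 3, 2, 2, 2, 0, 3, 0⟩ :=
  Good.n4 (Good.n0 L01456 (Good.n0 (Good.n3 (Good.n4 L01457 L01458) L01459) L01460)) (Good.n0 L01461 L01462)
theorem g00205 : Good (Phi V5.P V5.D 1 1) ⟨1, 1, 3, 3, 2, 2, 1, 0, 3, 0⟩ :=
  Good.n3 g00204 (Good.n0 L01463 (Good.n0 (Good.n4 (Good.n0 L01464 (Good.n3 L01465 L01466)) L01467) L01468))
theorem g00206 : Good (Phi V5.P V5.D 1 1) ⟨1, 1, 3, 3, 2, 2, 1, 0, 2, 0⟩ :=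
  Good.n4 g00205 (Good.n0 L01469 (Good.n0 (Good.n4 (Good.n3 L01470 L01471) (Good.n3 L01472 L01473)) L01474))
theorem g00207 : Good (Phi V5.P V5.D 1 1) ⟨3, 6, 3, 3, 2, 3, 2, 0, 4, 0⟩ :=
  Good.n3 (Good.n4 (Good.n0 L01476 (Good.n3 L01477 L01478)) L01479) (Good.n4 (Good.n2 (Good.n0 L01480 L01481) (Good.n0 L01482 L01483)) L01484)
theorem g00208 : Good (Phi V5.P V5.D 1 1) ⟨3, 6, 4, 6, 3, 7, 2, 1, 4, 0⟩ :=
  Good.n0 (Good.n2 L01492 L01493) (Good.n0 (Good.n2 L01494 (Good.n3 L01495 (Good.n4 L01496 L01497))) L01498)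
theorem g00209 : Good (Phi V5.P V5.D 1 1) ⟨4, 13, 4, 7, 3, 7, 2, 1, 4, 0⟩ :=
  Good.n0 (Good.n4 (Good.n3 L01502 (Good.n2 L01503 L01504)) L01505) (Good.n4 (Good.n0 (Good.n2 L01506 L01507) L01508) L01509)
theorem g00210 : Good (Phi V5.P V5.D 1 1) ⟨1, 1, 3, 3, 3, 7, 2, 1, 4, 0⟩ :=
  Good.n1 (Good.n0 L01491 (Good.n0 g00208 L01499)) (Good.n0 L01500 (Good.n0 (Good.n0 L01501 g00209) L01510))
theorem g00211 : Good (Phi V5.P V5.D 1 1) ⟨1, 1, 3, 3, 2, 3, 1, 0, 4, 0⟩ :=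
  Good.n3 (Good.n0 L01475 (Good.n0 g00207 L01485)) (Good.n2 (Good.n0 L01486 (Good.n0 (Good.n0 L01487 (Good.n3 L01488 L01489)) L01490)) g00210)
theorem g00212 : Good (Phi V5.P V5.D 1 1) ⟨1, 1, 3, 3, 2, 3, 1, 0, 4, 1⟩ :=
  Good.n0 L01511 (Good.n0 (Good.n3 (Good.n3 L01512 L01513) (Good.n0 L01514 (Good.n2 L01515 L01516))) L01517)
theorem g00213 : Good (Phi V5.P V5.D 1 1) ⟨3, 6, 3, 3, 2, 3, 2, 1, 3, 1⟩ :=
  Good.n4 (Good.n0 L01525 (Good.n2 L01526 (Good.n2 L01527 L01528))) (Good.n2 (Good.n3 L01529 L01530) (Good.n0 L01531 L01532))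
theorem g00214 : Good (Phi V5.P V5.D 1 1) ⟨1, 1, 3, 3, 2, 3, 1, 0, 3, 1⟩ :=
  Good.n3 (Good.n0 L01518 (Good.n0 (Good.n4 (Good.n0 L01519 (Good.n2 L01520 L01521)) L01522) L01523)) (Good.n0 L01524 (Good.n0 g00213 L01533))
theorem g00215 : Good (Phi V5.P V5.D 1 1) ⟨3, 5, 2, 1, 2, 2, 1, 0, 3, 2⟩ :=
  Good.n4 (Good.n3 (Good.n3 L01535 L01536) (Good.n3 L01537 L01538)) (Good.n3 L01539 (Good.n3 L01540 L01541))
theorem g00216 : Good (Phi V5.P V5.D 1 1) ⟨4, 12, 2, 1, 2, 2, 1, 0, 3, 2⟩ :=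
  Good.n3 (Good.n4 (Good.n2 L01542 L01543) L01544) (Good.n4 (Good.n2 L01545 L01546) (Good.n3 (Good.n2 L01547 L01548) L01549))
theorem g00217 : Good (Phi V5.P V5.D 1 1) ⟨4, 13, 2, 1, 2, 2, 1, 0, 3, 2⟩ :=
  Good.n3 (Good.n4 (Good.n2 L01550 L01551) L01552) (Good.n4 (Good.n2 (Good.n4 L01553 L01554) L01555) (Good.n3 (Good.n0 L01556 L01557) L01558))
theorem g00218 : Good (Phi V5.P V5.D 1 1) ⟨1, 1, 2, 1, 2, 3, 1, 0, 4, 4⟩ :=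
  Good.n0 (Good.n3 L01560 (Good.n0 L01561 L01562)) (Good.n0 (Good.n3 L01563 (Good.n0 L01564 (Good.n2 L01565 L01566))) L01567)
theorem g00219 : Good (Phi V5.P V5.D 1 1) ⟨1, 1, 2, 1, 2, 3, 1, 0, 4, 5⟩ :=
  Good.n0 (Good.n0 L01568 (Good.n0 L01569 (Good.n2 L01570 L01571))) (Good.n0 (Good.n3 L01572 L01573) L01574)
theorem g00220 : Good (Phi V5.P V5.D 1 1) ⟨1, 1, 2, 1, 1, 1, 1, 0, 3, 2⟩ :=
  Good.n2 (Good.n0 (Good.n0 L01534 g00215) (Good.n0 (Good.n0 g00216 g00217) L01559)) (Good.n4 g00218 g00219)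
theorem g00221 : Good (Phi V5.P V5.D 1 1) ⟨4, 12, 3, 2, 9, 304, 8, 126, 9, 224⟩ :=
  Good.n4 (Good.n2 (Good.n3 L01596 (Good.n4 (Good.n2 (Good.n3 L01597 L01598) L01599) L01600)) L01601) L01602
theorem g00222 : Good (Phi V5.P V5.D 1 1) ⟨4, 12, 3, 2, 8, 152, 6, 31, 8, 112⟩ :=
  Good.n3 (Good.n4 (Good.n3 L01590 (Good.n4 (Good.n3 L01591 (Good.n2 L01592 L01593)) L01594)) L01595) (Good.n4 (Good.n2 (Good.n3 g00221 L01603) L01604) L01605)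
theorem g00223 : Good (Phi V5.P V5.D 1 1) ⟨4, 12, 3, 2, 6, 38, 5, 15, 7, 56⟩ :=
  Good.n2 (Good.n3 L01589 (Good.n4 (Good.n2 g00222 L01606) L01607)) (Good.n3 (Good.n4 (Good.n2 L01608 L01609) L01610) L01611)
theorem g00224 : Good (Phi V5.P V5.D 1 1) ⟨4, 12, 3, 2, 5, 19, 4, 7, 6, 28⟩ :=
  Good.n3 (Good.n4 (Good.n3 L01585 (Good.n2 L01586 L01587)) L01588) (Good.n2 (Good.n4 g00223 L01612) L01613)
theorem g00225 : Good (Phi V5.P V5.D 1 1) ⟨4, 12, 3, 2, 3, 4, 2, 1, 4, 7⟩ :=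
  Good.n3 L01581 (Good.n4 (Good.n2 L01582 (Good.n3 L01583 (Good.n4 (Good.n2 L01584 g00224) L01614))) L01615)
theorem g00226 : Good (Phi V5.P V5.D 1 1) ⟨4, 12, 3, 2, 4, 10, 2, 1, 4, 7⟩ :=
  Good.n4 (Good.n3 L01616 (Good.n2 (Good.n4 (Good.n3 (Good.n3 L01617 L01618) L01619) L01620) L01621)) L01622
theorem g00227 : Good (Phi V5.P V5.D 1 1) ⟨9, 416, 7, 45, 9, 304, 8, 126, 9, 224⟩ :=
  Good.n4 (Good.n2 (Good.n3 L01644 (Good.n4 (Good.n2 (Good.n3 L01645 L01646) L01647) L01648)) L01649) L01650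
theorem g00228 : Good (Phi V5.P V5.D 1 1) ⟨9, 416, 7, 45, 8, 152, 6, 31, 8, 112⟩ :=
  Good.n3 (Good.n4 (Good.n3 L01638 (Good.n4 (Good.n3 L01639 (Good.n2 L01640 L01641)) L01642)) L01643) (Good.n4 (Good.n2 (Good.n3 g00227 L01651) L01652) L01653)
theorem g00229 : Good (Phi V5.P V5.D 1 1) ⟨9, 416, 7, 45, 6, 38, 5, 15, 7, 56⟩ :=
  Good.n2 (Good.n3 L01637 (Good.n4 (Good.n2 g00228 L01654) L01655)) (Good.n3 (Good.n4 (Good.n2 L01656 L01657) L01658) L01659)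
theorem g00230 : Good (Phi V5.P V5.D 1 1) ⟨9, 416, 7, 45, 5, 19, 4, 7, 6, 28⟩ :=
  Good.n3 (Good.n4 (Good.n3 L01633 (Good.n2 L01634 L01635)) L01636) (Good.n2 (Good.n4 g00229 L01660) L01661)
theorem g00231 : Good (Phi V5.P V5.D 1 1) ⟨9, 416, 7, 45, 3, 4, 2, 1, 4, 7⟩ :=
  Good.n3 L01629 (Good.n4 (Good.n2 L01630 (Good.n3 L01631 (Good.n4 (Good.n2 L01632 g00230) L01662))) L01663)
theorem g00232 : Good (Phi V5.P V5.D 1 1) ⟨9, 416, 7, 45, 4, 10, 2, 1, 4, 7⟩ :=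
  Good.n4 (Good.n3 L01664 (Good.n2 (Good.n4 (Good.n3 (Good.n3 L01665 L01666) L01667) L01668) L01669)) L01670
theorem g00233 : Good (Phi V5.P V5.D 1 1) ⟨7, 104, 6, 23, 9, 304, 8, 126, 9, 224⟩ :=
  Good.n4 (Good.n2 (Good.n3 L01689 (Good.n4 (Good.n2 (Good.n3 L01690 L01691) L01692) L01693)) L01694) L01695
theorem g00234 : Good (Phi V5.P V5.D 1 1) ⟨7, 104, 6, 23, 8, 152, 6, 31, 8, 112⟩ :=
  Good.n3 (Good.n4 (Good.n3 L01683 (Good.n4 (Good.n3 L01684 (Good.n2 L01685 L01686)) L01687)) L01688) (Good.n4 (Good.n2 (Good.n3 g00233 L01696) L01697) L01698)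
theorem g00235 : Good (Phi V5.P V5.D 1 1) ⟨7, 104, 6, 23, 6, 38, 5, 15, 7, 56⟩ :=
  Good.n2 (Good.n3 L01682 (Good.n4 (Good.n2 g00234 L01699) L01700)) (Good.n3 (Good.n4 (Good.n2 L01701 L01702) L01703) L01704)
theorem g00236 : Good (Phi V5.P V5.D 1 1) ⟨7, 104, 6, 23, 5, 19, 4, 7, 6, 28⟩ :=
  Good.n3 (Good.n4 (Good.n3 L01678 (Good.n2 L01679 L01680)) L01681) (Good.n2 (Good.n4 g00235 L01705) L01706)
theorem g00237 : Good (Phi V5.P V5.D 1 1) ⟨7, 104, 6, 23, 3, 4, 2, 1, 4, 7⟩ :=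
  Good.n3 L01674 (Good.n4 (Good.n2 L01675 (Good.n3 L01676 (Good.n4 (Good.n2 L01677 g00236) L01707))) L01708)
theorem g00238 : Good (Phi V5.P V5.D 1 1) ⟨7, 104, 6, 23, 4, 10, 2, 1, 4, 7⟩ :=
  Good.n4 (Good.n3 L01709 (Good.n2 (Good.n4 (Good.n3 (Good.n3 L01710 L01711) L01712) L01713) L01714)) L01715
theorem g00239 : Good (Phi V5.P V5.D 1 1) ⟨7, 104, 5, 11, 2, 2, 2, 1, 4, 7⟩ :=
  Good.n1 (Good.n0 (Good.n1 L01628 (Good.n0 (Good.n2 g00231 (Good.n2 g00232 L01671)) L01672)) L01673) (Good.n2 g00237 (Good.n2 g00238 L01716))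
theorem g00240 : Good (Phi V5.P V5.D 1 1) ⟨5, 26, 3, 2, 1, 1, 1, 0, 4, 7⟩ :=
  Good.n1 L01625 (Good.n0 (Good.n1 L01626 (Good.n0 (Good.n2 (Good.n3 L01627 g00239) L01717) L01718)) L01719)
theorem g00241 : Good (Phi V5.P V5.D 1 1) ⟨3, 6, 3, 2, 1, 1, 1, 0, 4, 7⟩ :=
  Good.n0 (Good.n2 (Good.n3 L01580 (Good.n2 g00225 (Good.n2 g00226 L01623))) L01624) (Good.n0 g00240 L01720)
theorem g00242 : Good (Phi V5.P V5.D 1 1) ⟨5, 25, 5, 12, 9, 304, 8, 126, 9, 224⟩ :=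
  Good.n4 (Good.n2 (Good.n3 L01738 (Good.n4 (Good.n2 (Good.n3 L01739 L01740) L01741) L01742)) L01743) L01744
theorem g00243 : Good (Phi V5.P V5.D 1 1) ⟨5, 25, 5, 12, 8, 152, 6, 31, 8, 112⟩ :=
  Good.n3 (Good.n4 (Good.n3 L01732 (Good.n4 (Good.n3 L01733 (Good.n2 L01734 L01735)) L01736)) L01737) (Good.n4 (Good.n2 (Good.n3 g00242 L01745) L01746) L01747)
theorem g00244 : Good (Phi V5.P V5.D 1 1) ⟨5, 25, 5, 12, 6, 38, 5, 15, 7, 56⟩ :=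
  Good.n2 (Good.n3 L01731 (Good.n4 (Good.n2 g00243 L01748) L01749)) (Good.n3 (Good.n4 (Good.n2 L01750 L01751) L01752) L01753)
theorem g00245 : Good (Phi V5.P V5.D 1 1) ⟨5, 25, 5, 12, 5, 19, 4, 7, 6, 28⟩ :=
  Good.n3 (Good.n4 (Good.n3 L01727 (Good.n2 L01728 L01729)) L01730) (Good.n2 (Good.n4 g00244 L01754) L01755)
theorem g00246 : Good (Phi V5.P V5.D 1 1) ⟨5, 25, 5, 12, 3, 4, 2, 1, 4, 7⟩ :=
  Good.n3 L01723 (Good.n4 (Good.n2 L01724 (Good.n3 L01725 (Good.n4 (Good.n2 L01726 g00245) L01756))) L01757)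
theorem g00247 : Good (Phi V5.P V5.D 1 1) ⟨5, 25, 5, 12, 4, 10, 2, 1, 4, 7⟩ :=
  Good.n4 (Good.n3 L01758 (Good.n2 (Good.n4 (Good.n3 (Good.n3 L01759 L01760) L01761) L01762) L01763)) L01764
theorem g00248 : Good (Phi V5.P V5.D 1 1) ⟨6, 51, 5, 13, 9, 304, 8, 126, 9, 224⟩ :=
  Good.n4 (Good.n2 (Good.n3 L01784 (Good.n4 (Good.n2 (Good.n3 L01785 L01786) L01787) L01788)) L01789) L01790
theorem g00249 : Good (Phi V5.P V5.D 1 1) ⟨6, 51, 5, 13, 8, 152, 6, 31, 8, 112⟩ :=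
  Good.n3 (Good.n4 (Good.n3 L01778 (Good.n4 (Good.n3 L01779 (Good.n2 L01780 L01781)) L01782)) L01783) (Good.n4 (Good.n2 (Good.n3 g00248 L01791) L01792) L01793)

end Crest.Agent.R097C5.N5pp
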