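import Crest.Agent.R097C5.N5pp_g0
import Crest.Agent.R097C5.N5pp_013
import Crest.Agent.R097C5.N5pp_014
import Crest.Agent.R097C5.N5pp_015
import Crest.Agent.R097C5.N5pp_016
import Crest.Agent.R097C5.N5pp_017
import Crest.Agent.R097C5.N5pp_018
import Crest.Agent.R097C5.N5pp_019
import Crest.Agent.R097C5.N5pp_020
import Crest.Agent.R097C5.N5pp_021

/-!
# Row 97, box cover in dimension n = 5 (generated)
-/

set_option autoImplicit false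
set_option Elab.async false
set_option maxHeartbeats 0
set_option maxRecDepth 100000

open Crest.Agent.R097 Crest.Agent.R097.KA


namespace Crest.Agent.R097C5.N5pp

theorem g00250 : Good (Phi V5.P V5.D 1 1) ⟨6, 51, 5, 13, 6, 38, 5, 15, 7, 56⟩ :=
  Good.n2 (Good.n3 L01777 (Good.n4 (Good.n2 g00249 L01794) L01795)) (Good.n3 (Good.n4 (Good.n2 L01796 L01797) L01798) L01799)
theorem g00251 : Good (Phi V5.P V5.D 1 1) ⟨6, 51, 5, 13, 5, 19, 4, 7, 6, 28⟩ :=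
  Good.n3 (Good.n4 (Good.n3 L01773 (Good.n2 L01774 L01775)) L01776) (Good.n2 (Good.n4 g00250 L01800) L01801)
theorem g00252 : Good (Phi V5.P V5.D 1 1) ⟨6, 51, 5, 13, 3, 4, 2, 1, 4, 7⟩ :=
  Good.n3 L01769 (Good.n4 (Good.n2 L01770 (Good.n3 L01771 (Good.n4 (Good.n2 L01772 g00251) L01802))) L01803)
theorem g00253 : Good (Phi V5.P V5.D 1 1) ⟨6, 51, 5, 13, 4, 10, 2, 1, 4, 7⟩ :=
  Good.n4 (Good.n3 L01804 (Good.n2 (Good.n4 (Good.n3 (Good.n3 L01805 L01806) L01807) L01808) L01809)) L01810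
theorem g00254 : Good (Phi V5.P V5.D 1 1) ⟨5, 25, 4, 6, 1, 1, 1, 0, 4, 7⟩ :=
  Good.n1 (Good.n2 (Good.n3 L01722 (Good.n2 g00246 (Good.n2 g00247 L01765))) L01766) (Good.n0 L01767 (Good.n2 (Good.n3 L01768 (Good.n2 g00252 (Good.n2 g00253 L01811))) L01812))
theorem g00255 : Good (Phi V5.P V5.D 1 1) ⟨11, 1663, 9, 224, 9, 304, 8, 126, 9, 224⟩ :=
  Good.n4 (Good.n2 (Good.n3 L01836 (Good.n4 (Good.n2 (Good.n3 L01837 L01838) L01839) L01840)) L01841) L01842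
theorem g00256 : Good (Phi V5.P V5.D 1 1) ⟨11, 1663, 9, 224, 8, 152, 6, 31, 8, 112⟩ :=
  Good.n3 (Good.n4 (Good.n3 L01830 (Good.n4 (Good.n3 L01831 (Good.n2 L01832 L01833)) L01834)) L01835) (Good.n4 (Good.n2 (Good.n3 g00255 L01843) L01844) L01845)
theorem g00257 : Good (Phi V5.P V5.D 1 1) ⟨11, 1663, 9, 224, 6, 38, 5, 15, 7, 56⟩ :=
  Good.n2 (Good.n3 L01829 (Good.n4 (Good.n2 g00256 L01846) L01847)) (Good.n3 (Good.n4 (Good.n2 L01848 L01849) L01850) L01851)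
theorem g00258 : Good (Phi V5.P V5.D 1 1) ⟨11, 1663, 9, 224, 5, 19, 4, 7, 6, 28⟩ :=
  Good.n3 (Good.n4 (Good.n3 L01825 (Good.n2 L01826 L01827)) L01828) (Good.n2 (Good.n4 g00257 L01852) L01853)
theorem g00259 : Good (Phi V5.P V5.D 1 1) ⟨11, 1663, 9, 224, 3, 4, 2, 1, 4, 7⟩ :=
  Good.n3 L01821 (Good.n4 (Good.n2 L01822 (Good.n3 L01823 (Good.n4 (Good.n2 L01824 g00258) L01854))) L01855)
theorem g00260 : Good (Phi V5.P V5.D 1 1) ⟨11, 1663, 9, 224, 4, 10, 2, 1, 4, 7⟩ :=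
  Good.n4 (Good.n3 L01856 (Good.n2 (Good.n4 (Good.n3 (Good.n3 L01857 L01858) L01859) L01860) L01861)) L01862
theorem g00261 : Good (Phi V5.P V5.D 1 1) ⟨10, 831, 8, 112, 1, 1, 1, 0, 4, 7⟩ :=
  Good.n1 (Good.n2 (Good.n3 L01819 (Good.n0 L01820 (Good.n2 g00259 (Good.n2 g00260 L01863)))) L01864) L01865
theorem g00262 : Good (Phi V5.P V5.D 1 1) ⟨7, 103, 5, 14, 1, 1, 1, 0, 4, 7⟩ :=
  Good.n1 (Good.n0 L01816 (Good.n1 (Good.n0 L01817 (Good.n1 (Good.n0 L01818 g00261) L01866)) L01867)) L01868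
theorem g00263 : Good (Phi V5.P V5.D 1 1) ⟨4, 12, 3, 3, 1, 1, 1, 0, 4, 7⟩ :=
  Good.n1 (Good.n0 L01721 g00254) (Good.n0 L01813 (Good.n1 (Good.n0 L01814 (Good.n0 L01815 g00262)) L01869))
theorem g00264 : Good (Phi V5.P V5.D 1 1) ⟨6, 52, 4, 6, 9, 304, 8, 126, 9, 224⟩ :=
  Good.n4 (Good.n2 (Good.n3 L01886 (Good.n4 (Good.n2 (Good.n3 L01887 L01888) L01889) L01890)) L01891) L01892
theorem g00265 : Good (Phi V5.P V5.D 1 1) ⟨6, 52, 4, 6, 8, 152, 6, 31, 8, 112⟩ :=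
  Good.n3 (Good.n4 (Good.n3 L01880 (Good.n4 (Good.n3 L01881 (Good.n2 L01882 L01883)) L01884)) L01885) (Good.n4 (Good.n2 (Good.n3 g00264 L01893) L01894) L01895)
theorem g00266 : Good (Phi V5.P V5.D 1 1) ⟨6, 52, 4, 6, 6, 38, 5, 15, 7, 56⟩ :=
  Good.n2 (Good.n3 L01879 (Good.n4 (Good.n2 g00265 L01896) L01897)) (Good.n3 (Good.n4 (Good.n2 L01898 L01899) L01900) L01901)
theorem g00267 : Good (Phi V5.P V5.D 1 1) ⟨6, 52, 4, 6, 5, 19, 4, 7, 6, 28⟩ :=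
  Good.n3 (Good.n4 (Good.n3 L01875 (Good.n2 L01876 L01877)) L01878) (Good.n2 (Good.n4 g00266 L01902) L01903)
theorem g00268 : Good (Phi V5.P V5.D 1 1) ⟨6, 52, 4, 6, 3, 4, 2, 1, 4, 7⟩ :=
  Good.n3 L01871 (Good.n4 (Good.n2 L01872 (Good.n3 L01873 (Good.n4 (Good.n2 L01874 g00267) L01904))) L01905)
theorem g00269 : Good (Phi V5.P V5.D 1 1) ⟨6, 52, 4, 6, 4, 10, 2, 1, 4, 7⟩ :=
  Good.n4 (Good.n3 L01906 (Good.n2 (Good.n4 (Good.n3 (Good.n3 L01907 L01908) L01909) L01910) L01911)) L01912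
theorem g00270 : Good (Phi V5.P V5.D 1 1) ⟨11, 1696, 9, 211, 9, 304, 8, 126, 9, 224⟩ :=
  Good.n4 (Good.n2 (Good.n3 L01934 (Good.n4 (Good.n2 (Good.n3 L01935 L01936) L01937) L01938)) L01939) L01940
theorem g00271 : Good (Phi V5.P V5.D 1 1) ⟨11, 1696, 9, 211, 8, 152, 6, 31, 8, 112⟩ :=
  Good.n3 (Good.n4 (Good.n3 L01928 (Good.n4 (Good.n3 L01929 (Good.n2 L01930 L01931)) L01932)) L01933) (Good.n4 (Good.n2 (Good.n3 g00270 L01941) L01942) L01943)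
theorem g00272 : Good (Phi V5.P V5.D 1 1) ⟨11, 1696, 9, 211, 6, 38, 5, 15, 7, 56⟩ :=
  Good.n2 (Good.n3 L01927 (Good.n4 (Good.n2 g00271 L01944) L01945)) (Good.n3 (Good.n4 (Good.n2 L01946 L01947) L01948) L01949)
theorem g00273 : Good (Phi V5.P V5.D 1 1) ⟨11, 1696, 9, 211, 5, 19, 4, 7, 6, 28⟩ :=
  Good.n3 (Good.n4 (Good.n3 L01923 (Good.n2 L01924 L01925)) L01926) (Good.n2 (Good.n4 g00272 L01950) L01951)
theorem g00274 : Good (Phi V5.P V5.D 1 1) ⟨11, 1696, 9, 211, 3, 4, 2, 1, 4, 7⟩ :=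
  Good.n3 L01919 (Good.n4 (Good.n2 L01920 (Good.n3 L01921 (Good.n4 (Good.n2 L01922 g00273) L01952))) L01953)
theorem g00275 : Good (Phi V5.P V5.D 1 1) ⟨11, 1696, 9, 211, 4, 10, 2, 1, 4, 7⟩ :=
  Good.n4 (Good.n3 L01954 (Good.n2 (Good.n4 (Good.n3 (Good.n3 L01955 L01956) L01957) L01958) L01959)) L01960
theorem g00276 : Good (Phi V5.P V5.D 1 1) ⟨9, 424, 7, 52, 2, 2, 2, 1, 4, 7⟩ :=
  Good.n1 L01917 (Good.n0 (Good.n1 L01918 (Good.n0 (Good.n2 g00274 (Good.n2 g00275 L01961)) L01962)) L01963)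
theorem g00277 : Good (Phi V5.P V5.D 1 1) ⟨8, 212, 7, 53, 9, 304, 8, 126, 9, 224⟩ :=
  Good.n4 (Good.n2 (Good.n3 L01980 (Good.n4 (Good.n2 (Good.n3 L01981 L01982) L01983) L01984)) L01985) L01986
theorem g00278 : Good (Phi V5.P V5.D 1 1) ⟨8, 212, 7, 53, 8, 152, 6, 31, 8, 112⟩ :=
  Good.n3 (Good.n4 (Good.n3 L01974 (Good.n4 (Good.n3 L01975 (Good.n2 L01976 L01977)) L01978)) L01979) (Good.n4 (Good.n2 (Good.n3 g00277 L01987) L01988) L01989)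
theorem g00279 : Good (Phi V5.P V5.D 1 1) ⟨8, 212, 7, 53, 6, 38, 5, 15, 7, 56⟩ :=
  Good.n2 (Good.n3 L01973 (Good.n4 (Good.n2 g00278 L01990) L01991)) (Good.n3 (Good.n4 (Good.n2 L01992 L01993) L01994) L01995)
theorem g00280 : Good (Phi V5.P V5.D 1 1) ⟨8, 212, 7, 53, 5, 19, 4, 7, 6, 28⟩ :=
  Good.n3 (Good.n4 (Good.n3 L01969 (Good.n2 L01970 L01971)) L01972) (Good.n2 (Good.n4 g00279 L01996) L01997)
theorem g00281 : Good (Phi V5.P V5.D 1 1) ⟨8, 212, 7, 53, 3, 4, 2, 1, 4, 7⟩ :=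
  Good.n3 L01965 (Good.n4 (Good.n2 L01966 (Good.n3 L01967 (Good.n4 (Good.n2 L01968 g00280) L01998))) L01999)
theorem g00282 : Good (Phi V5.P V5.D 1 1) ⟨8, 212, 7, 53, 4, 10, 2, 1, 4, 7⟩ :=
  Good.n4 (Good.n3 L02000 (Good.n2 (Good.n4 (Good.n3 (Good.n3 L02001 L02002) L02003) L02004) L02005)) L02006
theorem g00283 : Good (Phi V5.P V5.D 1 1) ⟨7, 106, 6, 27, 9, 304, 8, 126, 9, 224⟩ :=
  Good.n4 (Good.n2 (Good.n3 L02024 (Good.n4 (Good.n2 (Good.n3 L02025 L02026) L02027) L02028)) L02029) L02030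
theorem g00284 : Good (Phi V5.P V5.D 1 1) ⟨7, 106, 6, 27, 8, 152, 6, 31, 8, 112⟩ :=
  Good.n3 (Good.n4 (Good.n3 L02018 (Good.n4 (Good.n3 L02019 (Good.n2 L02020 L02021)) L02022)) L02023) (Good.n4 (Good.n2 (Good.n3 g00283 L02031) L02032) L02033)
theorem g00285 : Good (Phi V5.P V5.D 1 1) ⟨7, 106, 6, 27, 6, 38, 5, 15, 7, 56⟩ :=
  Good.n2 (Good.n3 L02017 (Good.n4 (Good.n2 g00284 L02034) L02035)) (Good.n3 (Good.n4 (Good.n2 L02036 L02037) L02038) L02039)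
theorem g00286 : Good (Phi V5.P V5.D 1 1) ⟨7, 106, 6, 27, 5, 19, 4, 7, 6, 28⟩ :=
  Good.n3 (Good.n4 (Good.n3 L02013 (Good.n2 L02014 L02015)) L02016) (Good.n2 (Good.n4 g00285 L02040) L02041)
theorem g00287 : Good (Phi V5.P V5.D 1 1) ⟨7, 106, 6, 27, 3, 4, 2, 1, 4, 7⟩ :=
  Good.n3 L02009 (Good.n4 (Good.n2 L02010 (Good.n3 L02011 (Good.n4 (Good.n2 L02012 g00286) L02042))) L02043)
theorem g00288 : Good (Phi V5.P V5.D 1 1) ⟨7, 106, 6, 27, 4, 10, 2, 1, 4, 7⟩ :=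
  Good.n4 (Good.n3 L02044 (Good.n2 (Good.n4 (Good.n3 (Good.n3 L02045 L02046) L02047) L02048) L02049)) L02050
theorem g00289 : Good (Phi V5.P V5.D 1 1) ⟨7, 106, 5, 13, 2, 2, 2, 1, 4, 7⟩ :=
  Good.n1 (Good.n0 (Good.n1 (Good.n0 g00276 L01964) (Good.n2 g00281 (Good.n2 g00282 L02007))) L02008) (Good.n2 g00287 (Good.n2 g00288 L02051))
theorem g00290 : Good (Phi V5.P V5.D 1 1) ⟨5, 26, 4, 6, 1, 1, 1, 0, 4, 7⟩ :=
  Good.n0 (Good.n2 (Good.n3 L01870 (Good.n2 g00268 (Good.n2 g00269 L01913))) L01914) (Good.n1 L01915 (Good.n0 (Good.n2 (Good.n3 L01916 g00289) L02052) L02053))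
theorem g00291 : Good (Phi V5.P V5.D 1 1) ⟨5, 26, 5, 14, 9, 304, 8, 126, 9, 224⟩ :=
  Good.n4 (Good.n2 (Good.n3 L02071 (Good.n4 (Good.n2 (Good.n3 L02072 L02073) L02074) L02075)) L02076) L02077
theorem g00292 : Good (Phi V5.P V5.D 1 1) ⟨5, 26, 5, 14, 8, 152, 6, 31, 8, 112⟩ :=
  Good.n3 (Good.n4 (Good.n3 L02065 (Good.n4 (Good.n3 L02066 (Good.n2 L02067 L02068)) L02069)) L02070) (Good.n4 (Good.n2 (Good.n3 g00291 L02078) L02079) L02080)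
theorem g00293 : Good (Phi V5.P V5.D 1 1) ⟨5, 26, 5, 14, 6, 38, 5, 15, 7, 56⟩ :=
  Good.n2 (Good.n3 L02064 (Good.n4 (Good.n2 g00292 L02081) L02082)) (Good.n3 (Good.n4 (Good.n2 L02083 L02084) L02085) L02086)
theorem g00294 : Good (Phi V5.P V5.D 1 1) ⟨5, 26, 5, 14, 5, 19, 4, 7, 6, 28⟩ :=
  Good.n3 (Good.n4 (Good.n3 L02060 (Good.n2 L02061 L02062)) L02063) (Good.n2 (Good.n4 g00293 L02087) L02088)
theorem g00295 : Good (Phi V5.P V5.D 1 1) ⟨5, 26, 5, 14, 3, 4, 2, 1, 4, 7⟩ :=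
  Good.n3 L02056 (Good.n4 (Good.n2 L02057 (Good.n3 L02058 (Good.n4 (Good.n2 L02059 g00294) L02089))) L02090)
theorem g00296 : Good (Phi V5.P V5.D 1 1) ⟨5, 26, 5, 14, 4, 10, 2, 1, 4, 7⟩ :=
  Good.n4 (Good.n3 L02091 (Good.n2 (Good.n4 (Good.n3 (Good.n3 L02092 L02093) L02094) L02095) L02096)) L02097
theorem g00297 : Good (Phi V5.P V5.D 1 1) ⟨8, 211, 7, 60, 9, 304, 8, 126, 9, 224⟩ :=
  Good.n4 (Good.n2 (Good.n3 L02116 (Good.n4 (Good.n2 (Good.n3 L02117 L02118) L02119) L02120)) L02121) L02122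
theorem g00298 : Good (Phi V5.P V5.D 1 1) ⟨8, 211, 7, 60, 8, 152, 6, 31, 8, 112⟩ :=
  Good.n3 (Good.n4 (Good.n3 L02110 (Good.n4 (Good.n3 L02111 (Good.n2 L02112 L02113)) L02114)) L02115) (Good.n4 (Good.n2 (Good.n3 g00297 L02123) L02124) L02125)
theorem g00299 : Good (Phi V5.P V5.D 1 1) ⟨8, 211, 7, 60, 6, 38, 5, 15, 7, 56⟩ :=
  Good.n2 (Good.n3 L02109 (Good.n4 (Good.n2 g00298 L02126) L02127)) (Good.n3 (Good.n4 (Good.n2 L02128 L02129) L02130) L02131)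
theorem g00300 : Good (Phi V5.P V5.D 1 1) ⟨8, 211, 7, 60, 5, 19, 4, 7, 6, 28⟩ :=
  Good.n3 (Good.n4 (Good.n3 L02105 (Good.n2 L02106 L02107)) L02108) (Good.n2 (Good.n4 g00299 L02132) L02133)
theorem g00301 : Good (Phi V5.P V5.D 1 1) ⟨8, 211, 7, 60, 3, 4, 2, 1, 4, 7⟩ :=
  Good.n3 L02101 (Good.n4 (Good.n2 L02102 (Good.n3 L02103 (Good.n4 (Good.n2 L02104 g00300) L02134))) L02135)
theorem g00302 : Good (Phi V5.P V5.D 1 1) ⟨8, 211, 7, 60, 4, 10, 2, 1, 4, 7⟩ :=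
  Good.n4 (Good.n3 L02136 (Good.n2 (Good.n4 (Good.n3 (Good.n3 L02137 L02138) L02139) L02140) L02141)) L02142
theorem g00303 : Good (Phi V5.P V5.D 1 1) ⟨6, 52, 5, 15, 2, 2, 2, 1, 4, 7⟩ :=
  Good.n0 L02099 (Good.n1 (Good.n0 L02100 (Good.n1 (Good.n2 g00301 (Good.n2 g00302 L02143)) L02144)) L02145)
theorem g00304 : Good (Phi V5.P V5.D 1 1) ⟨6, 53, 5, 15, 9, 304, 8, 126, 9, 224⟩ :=
  Good.n4 (Good.n2 (Good.n3 L02161 (Good.n4 (Good.n2 (Good.n3 L02162 L02163) L02164) L02165)) L02166) L02167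
theorem g00305 : Good (Phi V5.P V5.D 1 1) ⟨6, 53, 5, 15, 8, 152, 6, 31, 8, 112⟩ :=
  Good.n3 (Good.n4 (Good.n3 L02155 (Good.n4 (Good.n3 L02156 (Good.n2 L02157 L02158)) L02159)) L02160) (Good.n4 (Good.n2 (Good.n3 g00304 L02168) L02169) L02170)
theorem g00306 : Good (Phi V5.P V5.D 1 1) ⟨6, 53, 5, 15, 6, 38, 5, 15, 7, 56⟩ :=
  Good.n2 (Good.n3 L02154 (Good.n4 (Good.n2 g00305 L02171) L02172)) (Good.n3 (Good.n4 (Good.n2 L02173 L02174) L02175) L02176)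
theorem g00307 : Good (Phi V5.P V5.D 1 1) ⟨6, 53, 5, 15, 5, 19, 4, 7, 6, 28⟩ :=
  Good.n3 (Good.n4 (Good.n3 L02150 (Good.n2 L02151 L02152)) L02153) (Good.n2 (Good.n4 g00306 L02177) L02178)
theorem g00308 : Good (Phi V5.P V5.D 1 1) ⟨6, 53, 5, 15, 3, 4, 2, 1, 4, 7⟩ :=
  Good.n3 L02146 (Good.n4 (Good.n2 L02147 (Good.n3 L02148 (Good.n4 (Good.n2 L02149 g00307) L02179))) L02180)
theorem g00309 : Good (Phi V5.P V5.D 1 1) ⟨6, 53, 5, 15, 4, 10, 2, 1, 4, 7⟩ :=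
  Good.n4 (Good.n3 L02181 (Good.n2 (Good.n4 (Good.n3 (Good.n3 L02182 L02183) L02184) L02185) L02186)) L02187
theorem g00310 : Good (Phi V5.P V5.D 1 1) ⟨5, 26, 4, 7, 2, 2, 2, 1, 4, 7⟩ :=
  Good.n1 (Good.n2 g00295 (Good.n2 g00296 L02098)) (Good.n0 g00303 (Good.n2 g00308 (Good.n2 g00309 L02188)))
theorem g00311 : Good (Phi V5.P V5.D 1 1) ⟨13, 6912, 11, 967, 9, 304, 8, 126, 9, 224⟩ :=
  Good.n4 (Good.n2 (Good.n3 L02210 (Good.n4 (Good.n2 (Good.n3 L02211 L02212) L02213) L02214)) L02215) L02216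
theorem g00312 : Good (Phi V5.P V5.D 1 1) ⟨13, 6912, 11, 967, 8, 152, 6, 31, 8, 112⟩ :=
  Good.n3 (Good.n4 (Good.n3 L02204 (Good.n4 (Good.n3 L02205 (Good.n2 L02206 L02207)) L02208)) L02209) (Good.n4 (Good.n2 (Good.n3 g00311 L02217) L02218) L02219)
theorem g00313 : Good (Phi V5.P V5.D 1 1) ⟨13, 6912, 11, 967, 6, 38, 5, 15, 7, 56⟩ :=
  Good.n2 (Good.n3 L02203 (Good.n4 (Good.n2 g00312 L02220) L02221)) (Good.n3 (Good.n4 (Good.n2 L02222 L02223) L02224) L02225)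
theorem g00314 : Good (Phi V5.P V5.D 1 1) ⟨13, 6912, 11, 967, 5, 19, 4, 7, 6, 28⟩ :=
  Good.n3 (Good.n4 (Good.n3 L02199 (Good.n2 L02200 L02201)) L02202) (Good.n2 (Good.n4 g00313 L02226) L02227)
theorem g00315 : Good (Phi V5.P V5.D 1 1) ⟨10, 864, 8, 120, 5, 19, 4, 7, 6, 28⟩ :=
  Good.n1 L02196 (Good.n0 (Good.n1 L02197 (Good.n0 (Good.n1 L02198 (Good.n0 g00314 L02228)) L02229)) L02230)
theorem g00316 : Good (Phi V5.P V5.D 1 1) ⟨9, 432, 8, 121, 9, 304, 8, 126, 9, 224⟩ :=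
  Good.n4 (Good.n2 (Good.n3 L02243 (Good.n4 (Good.n2 (Good.n3 L02244 L02245) L02246) L02247)) L02248) L02249
theorem g00317 : Good (Phi V5.P V5.D 1 1) ⟨9, 432, 8, 121, 8, 152, 6, 31, 8, 112⟩ :=
  Good.n3 (Good.n4 (Good.n3 L02237 (Good.n4 (Good.n3 L02238 (Good.n2 L02239 L02240)) L02241)) L02242) (Good.n4 (Good.n2 (Good.n3 g00316 L02250) L02251) L02252)
theorem g00318 : Good (Phi V5.P V5.D 1 1) ⟨9, 432, 8, 121, 6, 38, 5, 15, 7, 56⟩ :=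
  Good.n2 (Good.n3 L02236 (Good.n4 (Good.n2 g00317 L02253) L02254)) (Good.n3 (Good.n4 (Good.n2 L02255 L02256) L02257) L02258)
theorem g00319 : Good (Phi V5.P V5.D 1 1) ⟨9, 432, 8, 121, 5, 19, 4, 7, 6, 28⟩ :=
  Good.n3 (Good.n4 (Good.n3 L02232 (Good.n2 L02233 L02234)) L02235) (Good.n2 (Good.n4 g00318 L02259) L02260)
theorem g00320 : Good (Phi V5.P V5.D 1 1) ⟨8, 216, 7, 61, 9, 304, 8, 126, 9, 224⟩ :=
  Good.n4 (Good.n2 (Good.n3 L02273 (Good.n4 (Good.n2 (Good.n3 L02274 L02275) L02276) L02277)) L02278) L02279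
theorem g00321 : Good (Phi V5.P V5.D 1 1) ⟨8, 216, 7, 61, 8, 152, 6, 31, 8, 112⟩ :=
  Good.n3 (Good.n4 (Good.n3 L02267 (Good.n4 (Good.n3 L02268 (Good.n2 L02269 L02270)) L02271)) L02272) (Good.n4 (Good.n2 (Good.n3 g00320 L02280) L02281) L02282)
theorem g00322 : Good (Phi V5.P V5.D 1 1) ⟨8, 216, 7, 61, 6, 38, 5, 15, 7, 56⟩ :=
  Good.n2 (Good.n3 L02266 (Good.n4 (Good.n2 g00321 L02283) L02284)) (Good.n3 (Good.n4 (Good.n2 L02285 L02286) L02287) L02288)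
theorem g00323 : Good (Phi V5.P V5.D 1 1) ⟨8, 216, 7, 61, 5, 19, 4, 7, 6, 28⟩ :=
  Good.n3 (Good.n4 (Good.n3 L02262 (Good.n2 L02263 L02264)) L02265) (Good.n2 (Good.n4 g00322 L02289) L02290)
theorem g00324 : Good (Phi V5.P V5.D 1 1) ⟨8, 216, 6, 30, 4, 9, 4, 7, 5, 14⟩ :=
  Good.n4 (Good.n2 L02195 (Good.n1 (Good.n0 (Good.n1 (Good.n0 g00315 L02231) g00319) L02261) g00323)) L02291
theorem g00325 : Good (Phi V5.P V5.D 1 1) ⟨8, 216, 6, 30, 4, 10, 2, 1, 4, 7⟩ :=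
  Good.n4 (Good.n3 L02293 (Good.n2 (Good.n4 (Good.n3 (Good.n3 L02294 L02295) L02296) L02297) L02298)) L02299
theorem g00326 : Good (Phi V5.P V5.D 1 1) ⟨8, 216, 6, 30, 2, 2, 2, 1, 4, 7⟩ :=
  Good.n2 (Good.n3 L02192 (Good.n4 (Good.n2 L02193 (Good.n3 L02194 g00324)) L02292)) (Good.n2 g00325 L02300)
theorem g00327 : Good (Phi V5.P V5.D 1 1) ⟨7, 108, 6, 31, 9, 304, 8, 126, 9, 224⟩ :=
  Good.n4 (Good.n2 (Good.n3 L02317 (Good.n4 (Good.n2 (Good.n3 L02318 L02319) L02320) L02321)) L02322) L02323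
theorem g00328 : Good (Phi V5.P V5.D 1 1) ⟨7, 108, 6, 31, 8, 152, 6, 31, 8, 112⟩ :=
  Good.n3 (Good.n4 (Good.n3 L02311 (Good.n4 (Good.n3 L02312 (Good.n2 L02313 L02314)) L02315)) L02316) (Good.n4 (Good.n2 (Good.n3 g00327 L02324) L02325) L02326)
theorem g00329 : Good (Phi V5.P V5.D 1 1) ⟨7, 108, 6, 31, 6, 38, 5, 15, 7, 56⟩ :=
  Good.n2 (Good.n3 L02310 (Good.n4 (Good.n2 g00328 L02327) L02328)) (Good.n3 (Good.n4 (Good.n2 L02329 L02330) L02331) L02332)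
theorem g00330 : Good (Phi V5.P V5.D 1 1) ⟨7, 108, 6, 31, 5, 19, 4, 7, 6, 28⟩ :=
  Good.n3 (Good.n4 (Good.n3 L02306 (Good.n2 L02307 L02308)) L02309) (Good.n2 (Good.n4 g00329 L02333) L02334)
theorem g00331 : Good (Phi V5.P V5.D 1 1) ⟨7, 108, 6, 31, 3, 4, 2, 1, 4, 7⟩ :=
  Good.n3 L02302 (Good.n4 (Good.n2 L02303 (Good.n3 L02304 (Good.n4 (Good.n2 L02305 g00330) L02335))) L02336)
theorem g00332 : Good (Phi V5.P V5.D 1 1) ⟨7, 108, 6, 31, 4, 10, 2, 1, 4, 7⟩ :=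
  Good.n4 (Good.n3 L02337 (Good.n2 (Good.n4 (Good.n3 (Good.n3 L02338 L02339) L02340) L02341) L02342)) L02343
theorem g00333 : Good (Phi V5.P V5.D 1 1) ⟨7, 108, 5, 15, 1, 1, 1, 0, 4, 7⟩ :=
  Good.n2 (Good.n3 L02191 (Good.n1 (Good.n0 g00326 L02301) (Good.n2 g00331 (Good.n2 g00332 L02344)))) L02345
theorem g00334 : Good (Phi V5.P V5.D 1 1) ⟨4, 13, 4, 7, 1, 1, 1, 0, 4, 7⟩ :=
  Good.n0 (Good.n2 (Good.n3 L02055 g00310) L02189) (Good.n0 (Good.n1 L02190 (Good.n0 g00333 L02346)) L02347)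
theorem g00335 : Good (Phi V5.P V5.D 1 1) ⟨3, 6, 2, 1, 1, 1, 1, 0, 3, 3⟩ :=
  Good.n4 (Good.n2 L01578 L01579) (Good.n1 g00241 (Good.n0 g00263 (Good.n1 (Good.n0 g00290 L02054) g00334)))
theorem g00336 : Good (Phi V5.P V5.D 1 1) ⟨1, 1, 2, 1, 1, 1, 1, 0, 1, 0⟩ :=
  Good.n4 (Good.n1 (Good.n4 g00199 g00203) (Good.n2 g00206 (Good.n4 (Good.n4 g00211 g00212) g00214))) (Good.n4 g00220 (Good.n0 (Good.n0 L01575 (Good.n2 L01576 L01577)) (Good.n0 g00335 L02348)))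
theorem g00337 : Good (Phi V5.P V5.D 1 1) ⟨3, 5, 3, 2, 1, 1, 1, 1, 4, 0⟩ :=
  Good.n2 (Good.n0 L02355 (Good.n3 L02356 L02357)) (Good.n0 L02358 (Good.n3 (Good.n2 L02359 L02360) (Good.n2 L02361 (Good.n0 L02362 L02363))))
theorem g00338 : Good (Phi V5.P V5.D 1 1) ⟨3, 5, 3, 2, 1, 1, 1, 1, 4, 1⟩ :=
  Good.n2 (Good.n0 L02364 (Good.n3 L02365 L02366)) (Good.n0 L02367 (Good.n3 L02368 (Good.n4 L02369 (Good.n3 L02370 L02371))))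
theorem g00339 : Good (Phi V5.P V5.D 1 1) ⟨3, 6, 3, 2, 2, 2, 2, 3, 4, 0⟩ :=
  Good.n3 (Good.n0 (Good.n0 L02376 L02377) L02378) (Good.n0 (Good.n0 L02379 (Good.n2 L02380 (Good.n1 L02381 L02382))) L02383)
theorem g00340 : Good (Phi V5.P V5.D 1 1) ⟨4, 12, 3, 2, 3, 7, 2, 2, 4, 0⟩ :=
  Good.n0 (Good.n2 L02390 L02391) (Good.n4 (Good.n2 L02392 (Good.n2 L02393 (Good.n1 L02394 L02395))) L02396)
theorem g00341 : Good (Phi V5.P V5.D 1 1) ⟨4, 13, 3, 2, 3, 7, 2, 2, 4, 0⟩ :=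
  Good.n0 (Good.n1 L02397 (Good.n4 (Good.n2 L02398 (Good.n0 (Good.n2 L02399 L02400) L02401)) L02402)) L02403
theorem g00342 : Good (Phi V5.P V5.D 1 1) ⟨3, 6, 3, 2, 2, 3, 2, 2, 4, 0⟩ :=
  Good.n2 (Good.n1 (Good.n0 L02385 L02386) (Good.n0 (Good.n4 L02387 L02388) L02389)) (Good.n0 g00340 g00341)
theorem g00343 : Good (Phi V5.P V5.D 1 1) ⟨4, 12, 4, 4, 3, 7, 2, 3, 4, 0⟩ :=
  Good.n4 (Good.n2 (Good.n0 L02408 L02409) (Good.n3 L02410 (Good.n0 L02411 L02412))) (Good.n0 L02413 L02414)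
theorem g00344 : Good (Phi V5.P V5.D 1 1) ⟨4, 12, 5, 10, 2, 3, 2, 3, 4, 0⟩ :=
  Good.n2 (Good.n0 L02417 L02418) (Good.n3 (Good.n0 L02419 (Good.n2 L02420 L02421)) (Good.n0 L02422 (Good.n4 L02423 L02424)))
theorem g00345 : Good (Phi V5.P V5.D 1 1) ⟨3, 6, 5, 11, 4, 15, 2, 3, 4, 0⟩ :=
  Good.n4 (Good.n0 (Good.n3 L02433 L02434) (Good.n0 (Good.n0 (Good.n3 L02435 L02436) L02437) L02438)) (Good.n0 L02439 L02440)
theorem g00346 : Good (Phi V5.P V5.D 1 1) ⟨3, 6, 5, 11, 2, 3, 2, 3, 4, 0⟩ :=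
  Good.n2 (Good.n0 (Good.n0 L02426 (Good.n2 L02427 L02428)) L02429) (Good.n2 (Good.n0 (Good.n1 L02430 L02431) L02432) g00345)
theorem g00347 : Good (Phi V5.P V5.D 1 1) ⟨2, 3, 3, 2, 2, 3, 2, 3, 4, 0⟩ :=
  Good.n1 (Good.n0 (Good.n2 (Good.n0 (Good.n0 L02405 L02406) L02407) (Good.n0 g00343 L02415)) L02416) (Good.n0 (Good.n1 (Good.n0 g00344 L02425) g00346) L02441)
theorem g00348 : Good (Phi V5.P V5.D 1 1) ⟨2, 3, 3, 2, 1, 1, 1, 1, 4, 0⟩ :=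
  Good.n2 (Good.n3 (Good.n0 (Good.n2 L02372 (Good.n0 L02373 L02374)) L02375) (Good.n0 g00339 L02384)) (Good.n3 (Good.n0 g00342 L02404) g00347)
theorem g00349 : Good (Phi V5.P V5.D 1 1) ⟨3, 6, 3, 2, 1, 1, 2, 2, 4, 1⟩ :=
  Good.n2 L02442 (Good.n4 (Good.n2 L02443 (Good.n0 L02444 L02445)) (Good.n2 L02446 (Good.n0 L02447 L02448)))
theorem g00350 : Good (Phi V5.P V5.D 1 1) ⟨3, 6, 3, 2, 2, 2, 3, 7, 4, 1⟩ :=
  Good.n0 (Good.n4 (Good.n0 L02456 L02457) (Good.n3 L02458 L02459)) (Good.n0 (Good.n3 L02460 L02461) L02462)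
theorem g00351 : Good (Phi V5.P V5.D 1 1) ⟨4, 12, 3, 2, 2, 3, 3, 7, 4, 1⟩ :=
  Good.n4 (Good.n2 (Good.n0 L02463 (Good.n1 L02464 L02465)) (Good.n0 L02466 L02467)) (Good.n2 L02468 L02469)
theorem g00352 : Good (Phi V5.P V5.D 1 1) ⟨3, 6, 3, 2, 1, 1, 2, 3, 4, 1⟩ :=
  Good.n3 (Good.n2 L02450 (Good.n0 (Good.n4 (Good.n2 L02451 L02452) L02453) (Good.n2 L02454 L02455))) (Good.n2 g00350 (Good.n0 g00351 (Good.n2 L02470 (Good.n4 L02471 L02472))))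
theorem g00353 : Good (Phi V5.P V5.D 1 1) ⟨1, 1, 3, 2, 1, 1, 1, 1, 3, 0⟩ :=
  Good.n0 (Good.n0 L02354 (Good.n4 g00337 g00338)) (Good.n4 g00348 (Good.n3 (Good.n0 g00349 L02449) (Good.n0 g00352 L02473)))
theorem g00354 : Good (Phi V5.P V5.D 1 1) ⟨3, 6, 3, 2, 2, 3, 2, 2, 3, 1⟩ :=
  Good.n4 (Good.n0 (Good.n2 L02483 (Good.n3 L02484 L02485)) (Good.n0 (Good.n2 L02486 L02487) L02488)) (Good.n0 L02489 (Good.n2 L02490 L02491))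
theorem g00355 : Good (Phi V5.P V5.D 1 1) ⟨1, 1, 3, 2, 1, 1, 2, 2, 3, 1⟩ :=
  Good.n2 (Good.n4 (Good.n0 L02474 (Good.n0 L02475 L02476)) (Good.n0 L02477 (Good.n0 L02478 L02479))) (Good.n0 (Good.n0 L02480 (Good.n4 L02481 L02482)) (Good.n0 g00354 L02492))
theorem g00356 : Good (Phi V5.P V5.D 1 1) ⟨2, 2, 3, 2, 1, 1, 2, 3, 3, 1⟩ :=
  Good.n0 L02493 (Good.n0 L02494 (Good.n4 (Good.n2 L02495 (Good.n2 L02496 L02497)) (Good.n2 L02498 L02499)))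
theorem g00357 : Good (Phi V5.P V5.D 1 1) ⟨4, 13, 3, 2, 1, 1, 2, 3, 4, 2⟩ :=
  Good.n2 (Good.n0 (Good.n1 L02505 (Good.n3 L02506 L02507)) L02508) (Good.n0 (Good.n3 L02509 (Good.n2 L02510 L02511)) L02512)
theorem g00358 : Good (Phi V5.P V5.D 1 1) ⟨3, 6, 3, 2, 1, 1, 2, 3, 3, 1⟩ :=
  Good.n4 (Good.n0 (Good.n2 (Good.n3 L02500 L02501) (Good.n3 L02502 (Good.n2 L02503 L02504))) g00357) (Good.n0 (Good.n2 L02513 (Good.n2 L02514 L02515)) (Good.n0 (Good.n2 L02516 L02517) L02518))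
theorem g00359 : Good (Phi V5.P V5.D 1 1) ⟨1, 1, 3, 3, 2, 2, 2, 2, 3, 0⟩ :=
  Good.n0 L02520 (Good.n0 (Good.n4 (Good.n0 L02521 (Good.n1 L02522 L02523)) (Good.n0 L02524 L02525)) L02526)
theorem g00360 : Good (Phi V5.P V5.D 1 1) ⟨4, 13, 3, 3, 2, 2, 3, 7, 4, 0⟩ :=
  Good.n0 (Good.n0 L02540 (Good.n1 L02541 L02542)) (Good.n1 L02543 (Good.n0 (Good.n4 L02544 L02545) L02546))
theorem g00361 : Good (Phi V5.P V5.D 1 1) ⟨4, 13, 3, 3, 2, 2, 3, 7, 4, 1⟩ :=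
  Good.n0 (Good.n4 (Good.n1 L02547 L02548) (Good.n3 L02549 L02550)) (Good.n1 L02551 (Good.n3 L02552 L02553))
theorem g00362 : Good (Phi V5.P V5.D 1 1) ⟨3, 6, 3, 3, 2, 2, 2, 3, 3, 0⟩ :=
  Good.n0 (Good.n4 (Good.n2 L02532 L02533) (Good.n3 L02534 (Good.n3 L02535 L02536))) (Good.n3 (Good.n4 (Good.n0 L02537 L02538) L02539) (Good.n4 g00360 g00361))
theorem g00363 : Good (Phi V5.P V5.D 1 1) ⟨1, 1, 3, 3, 2, 2, 2, 3, 3, 1⟩ :=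
  Good.n0 L02555 (Good.n0 (Good.n4 (Good.n3 L02556 (Good.n3 L02557 L02558)) (Good.n3 L02559 L02560)) L02561)
theorem g00364 : Good (Phi V5.P V5.D 1 1) ⟨1, 1, 3, 3, 2, 2, 1, 1, 2, 0⟩ :=
  Good.n3 (Good.n4 g00359 (Good.n0 L02527 (Good.n0 (Good.n4 L02528 L02529) L02530))) (Good.n4 (Good.n0 L02531 (Good.n0 g00362 L02554)) g00363)
theorem g00365 : Good (Phi V5.P V5.D 1 1) ⟨4, 13, 4, 6, 3, 7, 2, 2, 4, 0⟩ :=
  Good.n0 (Good.n2 L02568 (Good.n2 L02569 (Good.n4 (Good.n3 L02570 (Good.n0 L02571 L02572)) L02573))) L02574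
theorem g00366 : Good (Phi V5.P V5.D 1 1) ⟨3, 6, 4, 6, 2, 3, 2, 2, 3, 0⟩ :=
  Good.n4 (Good.n0 (Good.n2 L02563 (Good.n2 L02564 L02565)) (Good.n2 (Good.n0 L02566 L02567) g00365)) (Good.n0 (Good.n2 L02575 L02576) (Good.n0 (Good.n2 L02577 (Good.n2 L02578 L02579)) L02580))
theorem g00367 : Good (Phi V5.P V5.D 1 1) ⟨4, 13, 4, 7, 3, 7, 3, 4, 4, 0⟩ :=
  Good.n0 (Good.n4 (Good.n2 L02585 (Good.n0 L02586 L02587)) L02588) (Good.n4 (Good.n0 (Good.n2 L02589 L02590) L02591) L02592)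
theorem g00368 : Good (Phi V5.P V5.D 1 1) ⟨4, 13, 4, 7, 3, 7, 3, 5, 4, 0⟩ :=
  Good.n0 (Good.n4 (Good.n2 L02593 (Good.n1 L02594 L02595)) L02596) (Good.n0 (Good.n1 L02597 (Good.n2 L02598 L02599)) L02600)
theorem g00369 : Good (Phi V5.P V5.D 1 1) ⟨3, 6, 4, 7, 2, 3, 2, 2, 4, 1⟩ :=
  Good.n2 (Good.n0 L02601 (Good.n4 L02602 L02603)) (Good.n0 L02604 (Good.n0 (Good.n4 L02605 L02606) (Good.n4 L02607 L02608)))
theorem g00370 : Good (Phi V5.P V5.D 1 1) ⟨2, 3, 4, 7, 2, 3, 2, 2, 3, 0⟩ :=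
  Good.n0 (Good.n4 (Good.n2 (Good.n0 L02582 L02583) (Good.n0 L02584 (Good.n3 g00367 g00368))) g00369) L02609
theorem g00371 : Good (Phi V5.P V5.D 1 1) ⟨3, 6, 3, 3, 2, 3, 2, 2, 4, 2⟩ :=
  Good.n0 (Good.n2 L02611 L02612) (Good.n2 (Good.n4 L02613 L02614) (Good.n2 (Good.n3 L02615 L02616) (Good.n0 L02617 L02618)))
theorem g00372 : Good (Phi V5.P V5.D 1 1) ⟨1, 1, 3, 3, 2, 3, 2, 2, 2, 0⟩ :=
  Good.n4 (Good.n0 L02562 (Good.n1 (Good.n0 g00366 L02581) g00370)) (Good.n0 L02610 (Good.n0 (Good.n4 g00371 (Good.n0 L02619 (Good.n2 L02620 L02621))) L02622))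
theorem g00373 : Good (Phi V5.P V5.D 1 1) ⟨5, 26, 4, 6, 3, 7, 2, 3, 4, 0⟩ :=
  Good.n4 (Good.n3 (Good.n2 L02635 (Good.n0 L02636 (Good.n0 L02637 L02638))) (Good.n2 L02639 L02640)) (Good.n3 L02641 L02642)
theorem g00374 : Good (Phi V5.P V5.D 1 1) ⟨3, 6, 4, 6, 3, 7, 2, 3, 4, 0⟩ :=
  Good.n0 (Good.n0 L02629 (Good.n4 (Good.n0 L02630 (Good.n3 L02631 L02632)) (Good.n3 L02633 L02634))) (Good.n0 g00373 L02643)
theorem g00375 : Good (Phi V5.P V5.D 1 1) ⟨2, 3, 4, 6, 2, 3, 2, 3, 4, 0⟩ :=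
  Good.n0 (Good.n2 (Good.n0 (Good.n4 L02624 L02625) (Good.n0 (Good.n4 L02626 L02627) L02628)) g00374) L02644
theorem g00376 : Good (Phi V5.P V5.D 1 1) ⟨3, 6, 4, 6, 3, 7, 2, 3, 4, 1⟩ :=
  Good.n3 (Good.n0 L02650 L02651) (Good.n0 (Good.n4 L02652 L02653) (Good.n0 (Good.n4 L02654 L02655) L02656))
theorem g00377 : Good (Phi V5.P V5.D 1 1) ⟨2, 3, 4, 6, 2, 3, 2, 3, 4, 1⟩ :=
  Good.n0 (Good.n2 (Good.n0 (Good.n3 L02645 L02646) (Good.n0 (Good.n3 L02647 L02648) L02649)) g00376) L02657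
theorem g00378 : Good (Phi V5.P V5.D 1 1) ⟨3, 6, 4, 7, 3, 6, 2, 3, 3, 0⟩ :=
  Good.n4 (Good.n0 L02658 (Good.n0 (Good.n0 L02659 (Good.n4 L02660 L02661)) L02662)) (Good.n0 L02663 (Good.n4 (Good.n3 L02664 L02665) L02666))
theorem g00379 : Good (Phi V5.P V5.D 1 1) ⟨3, 6, 4, 7, 3, 7, 3, 6, 5, 0⟩ :=
  Good.n0 L02667 (Good.n0 (Good.n0 L02668 (Good.n2 L02669 L02670)) (Good.n0 (Good.n2 L02671 L02672) L02673))
theorem g00380 : Good (Phi V5.P V5.D 1 1) ⟨3, 6, 4, 7, 3, 7, 3, 7, 5, 0⟩ :=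
  Good.n1 (Good.n0 L02674 (Good.n0 (Good.n2 L02675 L02676) L02677)) (Good.n0 L02678 (Good.n0 L02679 L02680))
theorem g00381 : Good (Phi V5.P V5.D 1 1) ⟨3, 6, 4, 7, 3, 7, 2, 3, 5, 1⟩ :=
  Good.n0 L02681 (Good.n0 (Good.n3 L02682 (Good.n1 L02683 L02684)) (Good.n0 (Good.n3 L02685 L02686) L02687))
theorem g00382 : Good (Phi V5.P V5.D 1 1) ⟨4, 13, 4, 7, 3, 7, 2, 3, 5, 2⟩ :=
  Good.n0 (Good.n3 L02689 (Good.n4 L02690 L02691)) (Good.n0 (Good.n3 L02692 (Good.n1 L02693 L02694)) L02695)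
theorem g00383 : Good (Phi V5.P V5.D 1 1) ⟨3, 6, 4, 7, 3, 7, 2, 3, 4, 1⟩ :=
  Good.n0 L02688 (Good.n4 g00382 (Good.n0 (Good.n3 L02696 L02697) (Good.n0 (Good.n3 L02698 L02699) L02700)))
theorem g00384 : Good (Phi V5.P V5.D 1 1) ⟨2, 3, 3, 3, 2, 3, 2, 3, 3, 0⟩ :=
  Good.n1 (Good.n4 g00375 g00377) (Good.n0 (Good.n2 g00378 (Good.n4 (Good.n4 (Good.n3 g00379 g00380) g00381) g00383)) L02701)
theorem g00385 : Good (Phi V5.P V5.D 1 1) ⟨4, 13, 3, 3, 2, 3, 2, 3, 5, 4⟩ :=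
  Good.n2 L02705 (Good.n4 (Good.n2 L02706 (Good.n0 (Good.n3 L02707 L02708) L02709)) (Good.n3 L02710 L02711))
theorem g00386 : Good (Phi V5.P V5.D 1 1) ⟨3, 6, 3, 3, 2, 3, 2, 3, 3, 1⟩ :=
  Good.n4 (Good.n4 (Good.n0 (Good.n3 L02703 L02704) g00385) (Good.n0 L02712 (Good.n3 L02713 L02714))) (Good.n0 L02715 (Good.n2 L02716 (Good.n3 L02717 L02718)))
theorem g00387 : Good (Phi V5.P V5.D 1 1) ⟨1, 1, 3, 3, 1, 1, 1, 1, 2, 0⟩ :=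
  Good.n2 g00364 (Good.n3 g00372 (Good.n4 (Good.n0 L02623 g00384) (Good.n0 L02702 (Good.n0 g00386 L02719))))
theorem g00388 : Good (Phi V5.P V5.D 1 1) ⟨2, 2, 2, 1, 1, 1, 1, 1, 3, 2⟩ :=
  Good.n3 (Good.n4 (Good.n0 L02720 (Good.n2 L02721 L02722)) (Good.n2 L02723 L02724)) (Good.n0 L02725 (Good.n4 (Good.n0 L02726 (Good.n2 L02727 L02728)) L02729))
theorem g00389 : Good (Phi V5.P V5.D 1 1) ⟨4, 12, 2, 1, 1, 1, 1, 1, 3, 2⟩ :=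
  Good.n3 (Good.n4 (Good.n2 L02733 (Good.n2 L02734 L02735)) (Good.n2 L02736 L02737)) (Good.n4 (Good.n2 L02738 L02739) (Good.n2 L02740 L02741))
theorem g00390 : Good (Phi V5.P V5.D 1 1) ⟨5, 26, 2, 1, 1, 1, 2, 2, 4, 4⟩ :=
  Good.n2 L02742 (Good.n1 (Good.n2 L02743 L02744) (Good.n4 (Good.n2 L02745 L02746) (Good.n2 L02747 L02748)))
theorem g00391 : Good (Phi V5.P V5.D 1 1) ⟨4, 13, 2, 1, 1, 1, 2, 2, 4, 4⟩ :=
  Good.n0 g00390 (Good.n1 L02749 (Good.n0 (Good.n2 L02750 (Good.n1 L02751 (Good.n2 L02752 L02753))) L02754))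
theorem g00392 : Good (Phi V5.P V5.D 1 1) ⟨4, 13, 2, 1, 1, 1, 1, 1, 3, 2⟩ :=
  Good.n4 (Good.n3 g00391 (Good.n2 (Good.n3 L02755 L02756) L02757)) (Good.n3 (Good.n2 L02758 L02759) (Good.n2 (Good.n3 L02760 L02761) L02762))
theorem g00393 : Good (Phi V5.P V5.D 1 1) ⟨1, 1, 2, 1, 1, 1, 1, 1, 2, 1⟩ :=
  Good.n0 (Good.n4 g00388 (Good.n2 (Good.n0 L02730 L02731) L02732)) (Good.n0 (Good.n4 (Good.n0 g00389 g00392) (Good.n2 (Good.n3 L02763 L02764) L02765)) L02766)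
theorem g00394 : Good (Phi V5.P V5.D 1 1) ⟨1, 1, 2, 1, 1, 1, 1, 1, 1, 0⟩ :=
  Good.n4 (Good.n1 (Good.n4 g00353 (Good.n3 g00355 (Good.n0 g00356 (Good.n0 g00358 L02519)))) g00387) g00393
theorem g00395 : Good (Phi V5.P V5.D 1 1) ⟨1, 1, 2, 1, 2, 2, 1, 1, 2, 2⟩ :=
  Good.n2 (Good.n4 (Good.n3 (Good.n2 (Good.n4 (Good.n3 L02767 L02768) L02769) L02770) L02771) L02772) L02773
theorem g00396 : Good (Phi V5.P V5.D 1 1) ⟨1, 1, 2, 1, 1, 1, 0, 0, 0, 0⟩ :=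
  Good.n3 (Good.n4 g00336 (Good.n2 (Good.n4 (Good.n4 (Good.n2 L02349 L02350) L02351) L02352) L02353)) (Good.n4 g00394 (Good.n2 (Good.n4 g00395 L02774) L02775))
theorem g00397 : Good (Phi V5.P V5.D 1 1) ⟨3, 7, 1, 1, 2, 0, 2, 0, 5, 0⟩ :=
  Good.n0 (Good.n1 (Good.n3 (Good.n0 L02782 L02783) L02784) (Good.n1 (Good.n0 L02785 L02786) L02787)) L02788
theorem g00398 : Good (Phi V5.P V5.D 1 1) ⟨1, 1, 1, 1, 2, 0, 2, 0, 5, 0⟩ :=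
  Good.n0 L02776 (Good.n0 (Good.n1 (Good.n0 L02777 (Good.n1 (Good.n3 L02778 L02779) L02780)) L02781) g00397)
theorem g00399 : Good (Phi V5.P V5.D 1 1) ⟨5, 28, 2, 2, 2, 0, 2, 1, 6, 0⟩ :=
  Good.n1 L02793 (Good.n1 (Good.n2 L02794 L02795) (Good.n0 L02796 (Good.n1 (Good.n0 L02797 L02798) L02799)))
theorem g00400 : Good (Phi V5.P V5.D 1 1) ⟨4, 14, 1, 1, 2, 0, 2, 1, 5, 0⟩ :=
  Good.n1 (Good.n4 (Good.n0 g00399 L02800) (Good.n0 L02801 L02802)) (Good.n1 (Good.n0 L02803 L02804) L02805)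
theorem g00401 : Good (Phi V5.P V5.D 1 1) ⟨1, 1, 1, 1, 2, 0, 1, 0, 5, 0⟩ :=
  Good.n3 g00398 (Good.n0 L02789 (Good.n0 (Good.n0 L02790 (Good.n1 L02791 L02792)) (Good.n0 g00400 L02806)))
theorem g00402 : Good (Phi V5.P V5.D 1 1) ⟨4, 14, 2, 2, 2, 1, 2, 0, 5, 0⟩ :=
  Good.n0 (Good.n1 L02816 (Good.n1 L02817 (Good.n0 L02818 (Good.n1 (Good.n0 L02819 L02820) L02821)))) L02822
theorem g00403 : Good (Phi V5.P V5.D 1 1) ⟨3, 7, 1, 1, 2, 1, 1, 0, 5, 0⟩ :=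
  Good.n3 (Good.n0 (Good.n1 g00402 (Good.n1 (Good.n0 L02823 L02824) L02825)) L02826) (Good.n0 (Good.n1 (Good.n2 L02827 L02828) (Good.n1 (Good.n0 L02829 L02830) L02831)) L02832)
theorem g00404 : Good (Phi V5.P V5.D 1 1) ⟨1, 1, 1, 1, 2, 1, 1, 0, 4, 0⟩ :=
  Good.n4 (Good.n0 L02811 (Good.n0 (Good.n1 (Good.n0 L02812 (Good.n3 L02813 L02814)) L02815) g00403)) (Good.n0 L02833 (Good.n3 L02834 L02835))
theorem g00405 : Good (Phi V5.P V5.D 1 1) ⟨1, 1, 1, 1, 1, 0, 1, 0, 3, 0⟩ :=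
  Good.n4 (Good.n2 (Good.n4 g00401 (Good.n0 L02807 (Good.n0 L02808 (Good.n3 L02809 L02810)))) g00404) (Good.n0 L02836 (Good.n0 L02837 L02838))
theorem g00406 : Good (Phi V5.P V5.D 1 1) ⟨3, 7, 1, 1, 1, 0, 1, 0, 3, 1⟩ :=
  Good.n0 (Good.n1 (Good.n0 (Good.n3 L02843 L02844) L02845) (Good.n1 (Good.n0 L02846 L02847) L02848)) L02849
theorem g00407 : Good (Phi V5.P V5.D 1 1) ⟨3, 6, 1, 1, 2, 1, 2, 1, 3, 2⟩ :=
  Good.n1 (Good.n4 L02854 (Good.n0 L02855 (Good.n3 (Good.n4 (Good.n4 L02856 L02857) L02858) L02859))) L02860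
theorem g00408 : Good (Phi V5.P V5.D 1 1) ⟨3, 6, 1, 1, 1, 0, 1, 0, 2, 1⟩ :=
  Good.n4 (Good.n2 (Good.n3 L02851 L02852) (Good.n3 L02853 g00407)) (Good.n3 L02861 (Good.n2 L02862 L02863))
theorem g00409 : Good (Phi V5.P V5.D 1 1) ⟨5, 28, 3, 4, 1, 0, 2, 1, 3, 2⟩ :=
  Good.n1 L02865 (Good.n2 L02866 (Good.n4 L02867 (Good.n0 (Good.n3 (Good.n4 L02868 L02869) L02870) L02871)))
theorem g00410 : Good (Phi V5.P V5.D 1 1) ⟨6, 56, 4, 10, 1, 0, 1, 0, 3, 2⟩ :=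
  Good.n3 L02872 (Good.n4 (Good.n2 L02873 L02874) (Good.n2 L02875 (Good.n3 (Good.n4 L02876 L02877) L02878)))
theorem g00411 : Good (Phi V5.P V5.D 1 1) ⟨6, 57, 4, 10, 1, 0, 1, 0, 3, 2⟩ :=
  Good.n3 L02879 (Good.n4 (Good.n3 L02880 L02881) (Good.n2 L02882 (Good.n3 (Good.n4 L02883 L02884) L02885)))
theorem g00412 : Good (Phi V5.P V5.D 1 1) ⟨5, 28, 2, 2, 1, 0, 1, 0, 3, 2⟩ :=
  Good.n1 (Good.n3 L02864 g00409) (Good.n1 (Good.n0 g00410 g00411) (Good.n0 L02886 (Good.n1 (Good.n0 L02887 L02888) L02889)))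
theorem g00413 : Good (Phi V5.P V5.D 1 1) ⟨4, 14, 1, 1, 1, 0, 1, 0, 3, 3⟩ :=
  Good.n1 (Good.n0 (Good.n3 L02895 (Good.n2 L02896 L02897)) L02898) (Good.n3 L02899 (Good.n1 (Good.n0 L02900 L02901) L02902))
theorem g00414 : Good (Phi V5.P V5.D 1 1) ⟨3, 7, 1, 1, 1, 0, 1, 0, 2, 1⟩ :=
  Good.n4 (Good.n0 (Good.n1 (Good.n0 g00412 L02890) (Good.n1 (Good.n0 L02891 L02892) L02893)) L02894) (Good.n0 g00413 L02903)
theorem g00415 : Good (Phi V5.P V5.D 1 1) ⟨1, 1, 1, 1, 1, 0, 1, 0, 1, 0⟩ :=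
  Good.n4 (Good.n4 g00405 (Good.n0 L02839 (Good.n0 (Good.n1 (Good.n3 L02840 L02841) L02842) g00406))) (Good.n0 L02850 (Good.n0 g00408 g00414))
theorem g00416 : Good (Phi V5.P V5.D 1 1) ⟨2, 3, 3, 4, 2, 0, 2, 2, 3, 0⟩ :=
  Good.n2 (Good.n4 (Good.n4 (Good.n0 L02906 L02907) L02908) L02909) (Good.n4 (Good.n0 L02910 L02911) L02912)
theorem g00417 : Good (Phi V5.P V5.D 1 1) ⟨4, 14, 3, 5, 3, 0, 2, 2, 5, 0⟩ :=
  Good.n0 (Good.n4 (Good.n1 L02914 (Good.n0 L02915 (Good.n1 (Good.n0 L02916 L02917) L02918))) L02919) L02920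
theorem g00418 : Good (Phi V5.P V5.D 1 1) ⟨2, 3, 3, 5, 2, 0, 2, 2, 3, 0⟩ :=
  Good.n2 (Good.n4 (Good.n0 L02913 (Good.n4 (Good.n0 g00417 L02921) L02922)) L02923) (Good.n0 L02924 (Good.n4 L02925 L02926))
theorem g00419 : Good (Phi V5.P V5.D 1 1) ⟨2, 3, 1, 1, 2, 0, 2, 2, 3, 0⟩ :=
  Good.n1 (Good.n1 g00416 g00418) (Good.n0 L02927 (Good.n0 (Good.n1 (Good.n0 L02928 L02929) L02930) L02931))
theorem g00420 : Good (Phi V5.P V5.D 1 1) ⟨3, 6, 3, 4, 2, 0, 2, 3, 3, 0⟩ :=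
  Good.n2 (Good.n4 L02933 L02934) (Good.n4 (Good.n0 L02935 (Good.n3 L02936 L02937)) (Good.n0 L02938 L02939))
theorem g00421 : Good (Phi V5.P V5.D 1 1) ⟨3, 7, 3, 4, 2, 0, 2, 3, 3, 0⟩ :=
  Good.n3 (Good.n0 (Good.n4 L02940 L02941) L02942) (Good.n1 L02943 (Good.n0 (Good.n0 (Good.n4 L02944 L02945) L02946) L02947))
theorem g00422 : Good (Phi V5.P V5.D 1 1) ⟨5, 28, 3, 5, 2, 0, 3, 7, 4, 0⟩ :=
  Good.n4 (Good.n3 L02954 (Good.n1 L02955 (Good.n0 L02956 (Good.n1 (Good.n0 L02957 L02958) L02959)))) L02960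
theorem g00423 : Good (Phi V5.P V5.D 1 1) ⟨3, 7, 3, 5, 2, 0, 3, 7, 4, 1⟩ :=
  Good.n0 (Good.n0 (Good.n1 L02965 (Good.n0 L02966 (Good.n1 (Good.n0 L02967 L02968) L02969))) L02970) L02971
theorem g00424 : Good (Phi V5.P V5.D 1 1) ⟨1, 1, 3, 5, 2, 0, 3, 7, 3, 0⟩ :=
  Good.n4 (Good.n0 L02952 (Good.n0 L02953 (Good.n0 (Good.n0 g00422 L02961) L02962))) (Good.n0 L02963 (Good.n0 L02964 g00423))
theorem g00425 : Good (Phi V5.P V5.D 1 1) ⟨1, 1, 2, 2, 2, 0, 2, 3, 3, 0⟩ :=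
  Good.n1 (Good.n0 L02932 (Good.n0 g00420 g00421)) (Good.n3 (Good.n0 L02948 (Good.n4 (Good.n0 L02949 L02950) L02951)) g00424)
theorem g00426 : Good (Phi V5.P V5.D 1 1) ⟨1, 1, 1, 1, 2, 0, 2, 3, 3, 0⟩ :=
  Good.n1 g00425 (Good.n0 L02972 (Good.n0 L02973 (Good.n0 (Good.n1 (Good.n0 L02974 L02975) L02976) L02977)))
theorem g00427 : Good (Phi V5.P V5.D 1 1) ⟨4, 14, 1, 1, 2, 1, 2, 2, 4, 0⟩ :=
  Good.n1 (Good.n4 (Good.n0 (Good.n1 L02983 L02984) L02985) L02986) (Good.n1 (Good.n0 L02987 L02988) L02989)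
theorem g00428 : Good (Phi V5.P V5.D 1 1) ⟨2, 3, 1, 1, 2, 1, 2, 2, 3, 0⟩ :=
  Good.n4 (Good.n0 (Good.n1 (Good.n0 L02979 (Good.n1 L02980 L02981)) L02982) (Good.n0 g00427 L02990)) (Good.n0 L02991 L02992)
theorem g00429 : Good (Phi V5.P V5.D 1 1) ⟨2, 3, 3, 4, 2, 1, 3, 6, 3, 0⟩ :=
  Good.n0 (Good.n0 L02994 (Good.n4 L02995 L02996)) (Good.n0 (Good.n4 (Good.n0 (Good.n1 L02997 L02998) L02999) L03000) L03001)
theorem g00430 : Good (Phi V5.P V5.D 1 1) ⟨2, 3, 4, 9, 2, 1, 3, 7, 4, 0⟩ :=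
  Good.n0 (Good.n0 L03006 (Good.n0 L03007 L03008)) (Good.n0 (Good.n0 (Good.n3 L03009 L03010) L03011) L03012)
theorem g00431 : Good (Phi V5.P V5.D 1 1) ⟨5, 27, 3, 4, 2, 1, 3, 7, 4, 1⟩ :=
  Good.n1 (Good.n3 L03015 (Good.n2 L03016 L03017)) (Good.n0 L03018 (Good.n3 L03019 (Good.n3 L03020 L03021)))
theorem g00432 : Good (Phi V5.P V5.D 1 1) ⟨4, 14, 3, 4, 2, 1, 3, 7, 4, 1⟩ :=
  Good.n0 (Good.n1 L03022 (Good.n3 L03023 (Good.n0 (Good.n1 L03024 (Good.n3 L03025 L03026)) L03027))) L03028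
theorem g00433 : Good (Phi V5.P V5.D 1 1) ⟨2, 3, 3, 4, 2, 1, 3, 7, 3, 0⟩ :=
  Good.n4 (Good.n1 (Good.n0 (Good.n0 L03002 (Good.n0 L03003 L03004)) L03005) g00430) (Good.n0 (Good.n0 L03013 (Good.n0 L03014 g00431)) (Good.n0 g00432 L03029))
theorem g00434 : Good (Phi V5.P V5.D 1 1) ⟨2, 3, 4, 10, 3, 2, 3, 7, 3, 0⟩ :=
  Good.n3 (Good.n0 L03034 (Good.n0 (Good.n0 (Good.n4 L03035 L03036) L03037) L03038)) (Good.n0 L03039 (Good.n0 (Good.n4 (Good.n0 L03040 L03041) L03042) L03043))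
theorem g00435 : Good (Phi V5.P V5.D 1 1) ⟨3, 7, 4, 10, 4, 7, 3, 7, 4, 0⟩ :=
  Good.n4 (Good.n0 (Good.n3 L03051 (Good.n4 (Good.n3 L03052 L03053) L03054)) L03055) (Good.n3 L03056 (Good.n0 (Good.n0 L03057 L03058) L03059))
theorem g00436 : Good (Phi V5.P V5.D 1 1) ⟨5, 28, 4, 10, 3, 3, 3, 7, 4, 1⟩ :=
  Good.n0 (Good.n3 L03060 (Good.n3 L03061 L03062)) (Good.n0 (Good.n3 L03063 (Good.n3 L03064 (Good.n1 L03065 L03066))) L03067)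
theorem g00437 : Good (Phi V5.P V5.D 1 1) ⟨3, 7, 4, 10, 3, 3, 3, 7, 3, 0⟩ :=
  Good.n4 (Good.n2 (Good.n0 (Good.n3 L03046 (Good.n0 (Good.n3 L03047 L03048) L03049)) L03050) g00435) (Good.n0 (Good.n0 g00436 L03068) L03069)
theorem g00438 : Good (Phi V5.P V5.D 1 1) ⟨2, 3, 4, 10, 2, 1, 2, 3, 3, 0⟩ :=
  Good.n2 (Good.n3 (Good.n0 L03031 (Good.n0 L03032 L03033)) g00434) (Good.n0 L03044 (Good.n3 L03045 g00437))
theorem g00439 : Good (Phi V5.P V5.D 1 1) ⟨2, 3, 4, 11, 2, 1, 2, 3, 3, 0⟩ :=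
  Good.n0 L03070 (Good.n0 (Good.n0 (Good.n0 L03071 (Good.n1 (Good.n0 L03072 L03073) L03074)) L03075) L03076)
theorem g00440 : Good (Phi V5.P V5.D 1 1) ⟨1, 1, 1, 1, 2, 1, 2, 3, 3, 0⟩ :=
  Good.n1 (Good.n1 (Good.n0 L02993 (Good.n3 g00429 g00433)) (Good.n0 L03030 (Good.n1 g00438 g00439))) (Good.n0 L03077 (Good.n0 L03078 (Good.n0 (Good.n1 (Good.n0 L03079 L03080) L03081) L03082)))
theorem g00441 : Good (Phi V5.P V5.D 1 1) ⟨4, 14, 1, 1, 2, 0, 2, 3, 3, 1⟩ :=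
  Good.n3 L03087 (Good.n1 (Good.n2 L03088 (Good.n0 L03089 L03090)) (Good.n1 (Good.n0 L03091 L03092) L03093))
theorem g00442 : Good (Phi V5.P V5.D 1 1) ⟨4, 13, 3, 4, 2, 1, 2, 3, 3, 1⟩ :=
  Good.n4 (Good.n3 L03101 (Good.n3 L03102 (Good.n3 L03103 L03104))) (Good.n3 L03105 (Good.n3 L03106 L03107))
theorem g00443 : Good (Phi V5.P V5.D 1 1) ⟨5, 28, 3, 5, 2, 1, 4, 15, 4, 2⟩ :=
  Good.n1 (Good.n3 L03116 (Good.n0 L03117 L03118)) (Good.n0 L03119 (Good.n1 (Good.n0 L03120 L03121) L03122))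
theorem g00444 : Good (Phi V5.P V5.D 1 1) ⟨5, 28, 3, 5, 2, 1, 3, 7, 4, 3⟩ :=
  Good.n3 L03127 (Good.n1 (Good.n3 L03128 L03129) (Good.n0 L03130 (Good.n1 (Good.n0 L03131 L03132) L03133)))
theorem g00445 : Good (Phi V5.P V5.D 1 1) ⟨5, 28, 2, 2, 2, 1, 3, 7, 3, 1⟩ :=
  Good.n4 (Good.n3 L03111 (Good.n1 (Good.n1 L03112 (Good.n0 (Good.n3 L03113 L03114) L03115)) g00443)) (Good.n1 (Good.n1 L03123 (Good.n0 (Good.n3 L03124 L03125) L03126)) g00444)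
theorem g00446 : Good (Phi V5.P V5.D 1 1) ⟨2, 3, 2, 2, 2, 1, 2, 3, 3, 1⟩ :=
  Good.n0 (Good.n0 L03100 (Good.n1 g00442 L03108)) (Good.n3 (Good.n0 L03109 L03110) (Good.n0 (Good.n0 g00445 L03134) L03135))
theorem g00447 : Good (Phi V5.P V5.D 1 1) ⟨2, 3, 1, 1, 2, 1, 1, 1, 3, 1⟩ :=
  Good.n1 (Good.n3 (Good.n0 L03095 (Good.n0 (Good.n0 (Good.n3 L03096 L03097) L03098) L03099)) g00446) (Good.n0 L03136 (Good.n0 (Good.n1 (Good.n0 L03137 L03138) L03139) L03140))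
theorem g00448 : Good (Phi V5.P V5.D 1 1) ⟨1, 1, 1, 1, 1, 0, 1, 1, 3, 1⟩ :=
  Good.n0 L03083 (Good.n2 (Good.n3 L03084 (Good.n0 (Good.n1 L03085 L03086) (Good.n0 g00441 L03094))) g00447)
theorem g00449 : Good (Phi V5.P V5.D 1 1) ⟨1, 1, 1, 1, 1, 0, 1, 1, 2, 0⟩ :=
  Good.n4 (Good.n2 (Good.n3 (Good.n0 L02905 g00419) g00426) (Good.n3 (Good.n0 L02978 g00428) g00440)) g00448
theorem g00450 : Good (Phi V5.P V5.D 1 1) ⟨5, 28, 3, 5, 1, 0, 2, 2, 3, 2⟩ :=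
  Good.n1 (Good.n3 (Good.n2 L03148 L03149) L03150) (Good.n0 L03151 (Good.n1 (Good.n0 L03152 L03153) L03154))
theorem g00451 : Good (Phi V5.P V5.D 1 1) ⟨2, 3, 2, 2, 1, 0, 2, 2, 3, 2⟩ :=
  Good.n0 (Good.n0 L03142 (Good.n1 (Good.n2 L03143 L03144) L03145)) (Good.n0 (Good.n0 (Good.n1 (Good.n2 L03146 L03147) g00450) L03155) L03156)
theorem g00452 : Good (Phi V5.P V5.D 1 1) ⟨3, 6, 2, 2, 1, 0, 2, 3, 2, 1⟩ :=
  Good.n4 (Good.n0 L03160 (Good.n3 L03161 (Good.n3 L03162 L03163))) (Good.n0 L03164 (Good.n1 (Good.n3 (Good.n4 L03165 L03166) (Good.n2 L03167 L03168)) L03169))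
theorem g00453 : Good (Phi V5.P V5.D 1 1) ⟨5, 28, 3, 5, 1, 0, 3, 7, 3, 2⟩ :=
  Good.n1 (Good.n2 L03175 (Good.n3 L03176 L03177)) (Good.n0 L03178 (Good.n1 (Good.n0 L03179 L03180) L03181))
theorem g00454 : Good (Phi V5.P V5.D 1 1) ⟨4, 14, 2, 2, 1, 0, 2, 3, 3, 2⟩ :=
  Good.n3 (Good.n0 (Good.n1 L03170 L03171) L03172) (Good.n0 (Good.n1 (Good.n3 L03173 L03174) g00453) L03182)
theorem g00455 : Good (Phi V5.P V5.D 1 1) ⟨3, 7, 2, 2, 1, 0, 2, 3, 2, 1⟩ :=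
  Good.n0 (Good.n4 g00454 (Good.n0 (Good.n3 (Good.n2 L03183 L03184) (Good.n2 L03185 L03186)) L03187)) L03188
theorem g00456 : Good (Phi V5.P V5.D 1 1) ⟨2, 3, 1, 1, 1, 0, 1, 1, 2, 1⟩ :=
  Good.n1 (Good.n3 (Good.n4 g00451 (Good.n2 (Good.n0 L03157 L03158) L03159)) (Good.n0 g00452 g00455)) (Good.n0 L03189 (Good.n0 (Good.n1 (Good.n0 L03190 L03191) L03192) L03193))
theorem g00457 : Good (Phi V5.P V5.D 1 1) ⟨4, 14, 1, 1, 2, 2, 2, 0, 3, 0⟩ :=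
  Good.n4 (Good.n1 (Good.n3 L03202 L03203) (Good.n1 (Good.n0 L03204 L03205) L03206)) (Good.n1 L03207 (Good.n1 (Good.n0 L03208 L03209) L03210))
theorem g00458 : Good (Phi V5.P V5.D 1 1) ⟨2, 3, 1, 1, 2, 2, 2, 0, 3, 0⟩ :=
  Good.n0 (Good.n1 (Good.n0 L03196 (Good.n4 (Good.n1 (Good.n3 L03197 L03198) L03199) L03200)) L03201) (Good.n0 g00457 L03211)
theorem g00459 : Good (Phi V5.P V5.D 1 1) ⟨3, 7, 2, 2, 2, 2, 2, 1, 4, 0⟩ :=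
  Good.n0 (Good.n3 (Good.n0 (Good.n4 L03217 L03218) L03219) (Good.n0 (Good.n1 L03220 L03221) L03222)) L03223
theorem g00460 : Good (Phi V5.P V5.D 1 1) ⟨2, 3, 1, 1, 2, 2, 2, 1, 4, 0⟩ :=
  Good.n1 (Good.n0 (Good.n0 L03213 (Good.n1 (Good.n3 L03214 L03215) L03216)) g00459) (Good.n0 L03224 (Good.n0 (Good.n1 (Good.n0 L03225 L03226) L03227) L03228))
theorem g00461 : Good (Phi V5.P V5.D 1 1) ⟨2, 3, 1, 1, 2, 2, 2, 1, 4, 1⟩ :=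
  Good.n1 (Good.n0 L03230 L03231) (Good.n0 L03232 (Good.n0 (Good.n1 (Good.n0 L03233 L03234) L03235) L03236))
theorem g00462 : Good (Phi V5.P V5.D 1 1) ⟨4, 14, 1, 1, 2, 2, 2, 0, 3, 1⟩ :=
  Good.n4 (Good.n1 L03240 (Good.n1 (Good.n0 L03241 L03242) L03243)) (Good.n1 L03244 (Good.n1 (Good.n0 L03245 L03246) L03247))
theorem g00463 : Good (Phi V5.P V5.D 1 1) ⟨5, 28, 3, 5, 2, 2, 2, 1, 4, 3⟩ :=
  Good.n1 (Good.n0 L03258 (Good.n0 (Good.n0 L03259 L03260) L03261)) (Good.n0 L03262 (Good.n1 (Good.n0 L03263 L03264) L03265))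
theorem g00464 : Good (Phi V5.P V5.D 1 1) ⟨4, 14, 1, 1, 2, 2, 2, 1, 3, 1⟩ :=
  Good.n1 (Good.n0 (Good.n1 (Good.n4 L03254 (Good.n1 L03255 L03256)) (Good.n4 L03257 g00463)) L03266) (Good.n1 (Good.n0 L03267 L03268) L03269)
theorem g00465 : Good (Phi V5.P V5.D 1 1) ⟨2, 3, 1, 1, 2, 2, 2, 1, 3, 1⟩ :=
  Good.n0 (Good.n1 (Good.n0 L03249 (Good.n1 (Good.n4 L03250 L03251) L03252)) L03253) (Good.n0 g00464 L03270)
theorem g00466 : Good (Phi V5.P V5.D 1 1) ⟨1, 1, 1, 1, 2, 2, 1, 0, 2, 0⟩ :=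
  Good.n4 (Good.n3 (Good.n0 L03195 g00458) (Good.n4 (Good.n0 L03212 g00460) (Good.n0 L03229 g00461))) (Good.n0 L03237 (Good.n3 (Good.n0 (Good.n4 L03238 L03239) (Good.n0 g00462 L03248)) g00465))
theorem g00467 : Good (Phi V5.P V5.D 1 1) ⟨3, 6, 3, 4, 3, 6, 2, 0, 4, 0⟩ :=
  Good.n0 L03272 (Good.n4 (Good.n3 (Good.n0 L03273 (Good.n2 L03274 L03275)) (Good.n0 L03276 L03277)) L03278)
theorem g00468 : Good (Phi V5.P V5.D 1 1) ⟨2, 3, 3, 4, 3, 6, 2, 0, 4, 0⟩ :=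
  Good.n0 g00467 (Good.n0 (Good.n0 (Good.n1 L03279 (Good.n4 (Good.n1 L03280 L03281) L03282)) L03283) L03284)
theorem g00469 : Good (Phi V5.P V5.D 1 1) ⟨2, 3, 4, 9, 4, 15, 3, 1, 4, 0⟩ :=
  Good.n0 (Good.n0 L03304 (Good.n0 L03305 (Good.n4 L03306 L03307))) (Good.n0 (Good.n0 (Good.n0 (Good.n4 L03308 L03309) L03310) L03311) L03312)
theorem g00470 : Good (Phi V5.P V5.D 1 1) ⟨2, 3, 4, 9, 4, 15, 2, 0, 4, 0⟩ :=
  Good.n3 (Good.n0 (Good.n0 L03298 (Good.n0 L03299 L03300)) (Good.n0 (Good.n0 L03301 L03302) L03303)) g00469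
theorem g00471 : Good (Phi V5.P V5.D 1 1) ⟨2, 3, 3, 4, 3, 7, 2, 0, 4, 0⟩ :=
  Good.n1 (Good.n0 (Good.n0 L03287 (Good.n4 (Good.n0 L03288 (Good.n1 L03289 L03290)) L03291)) L03292) (Good.n2 (Good.n4 (Good.n0 (Good.n3 L03293 L03294) L03295) (Good.n0 L03296 L03297)) g00470)
theorem g00472 : Good (Phi V5.P V5.D 1 1) ⟨1, 1, 3, 4, 2, 3, 2, 0, 3, 0⟩ :=
  Good.n2 (Good.n0 L03271 (Good.n4 g00468 L03285)) (Good.n0 L03286 (Good.n4 g00471 (Good.n0 L03313 L03314)))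
theorem g00473 : Good (Phi V5.P V5.D 1 1) ⟨2, 3, 3, 4, 2, 3, 2, 0, 4, 2⟩ :=
  Good.n0 (Good.n0 L03316 (Good.n2 L03317 L03318)) (Good.n0 (Good.n0 (Good.n1 L03319 (Good.n2 L03320 L03321)) L03322) L03323)
theorem g00474 : Good (Phi V5.P V5.D 1 1) ⟨2, 3, 3, 4, 2, 3, 2, 0, 4, 3⟩ :=
  Good.n0 (Good.n0 L03324 (Good.n4 L03325 L03326)) (Good.n0 (Good.n0 (Good.n1 L03327 (Good.n0 (Good.n2 L03328 L03329) L03330)) L03331) L03332)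
theorem g00475 : Good (Phi V5.P V5.D 1 1) ⟨5, 28, 3, 5, 3, 6, 2, 0, 5, 0⟩ :=
  Good.n3 (Good.n1 L03335 (Good.n0 L03336 (Good.n1 (Good.n0 L03337 L03338) L03339))) (Good.n1 (Good.n2 L03340 L03341) (Good.n0 L03342 (Good.n1 (Good.n0 L03343 L03344) L03345)))
theorem g00476 : Good (Phi V5.P V5.D 1 1) ⟨5, 28, 4, 10, 3, 7, 2, 0, 6, 0⟩ :=
  Good.n1 (Good.n4 (Good.n2 L03347 L03348) L03349) (Good.n0 L03350 (Good.n0 (Good.n1 (Good.n3 L03351 L03352) (Good.n0 L03353 L03354)) L03355))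
theorem g00477 : Good (Phi V5.P V5.D 1 1) ⟨5, 28, 3, 5, 3, 7, 2, 0, 5, 0⟩ :=
  Good.n4 (Good.n1 g00476 (Good.n0 L03356 (Good.n1 (Good.n0 L03357 L03358) L03359))) (Good.n1 L03360 (Good.n0 L03361 (Good.n1 (Good.n0 L03362 L03363) L03364)))
theorem g00478 : Good (Phi V5.P V5.D 1 1) ⟨4, 14, 3, 5, 2, 3, 2, 0, 4, 0⟩ :=
  Good.n4 (Good.n2 (Good.n0 g00475 L03346) (Good.n0 g00477 L03365)) (Good.n0 (Good.n1 L03366 (Good.n0 L03367 (Good.n1 (Good.n0 L03368 L03369) L03370))) L03371)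
theorem g00479 : Good (Phi V5.P V5.D 1 1) ⟨1, 1, 3, 5, 2, 3, 2, 0, 3, 0⟩ :=
  Good.n0 L03333 (Good.n4 (Good.n0 L03334 (Good.n0 g00478 L03372)) (Good.n0 L03373 (Good.n2 L03374 L03375)))
theorem g00480 : Good (Phi V5.P V5.D 1 1) ⟨5, 28, 3, 5, 2, 3, 2, 0, 4, 2⟩ :=
  Good.n1 (Good.n2 L03378 (Good.n0 L03379 L03380)) (Good.n0 L03381 (Good.n1 (Good.n0 L03382 L03383) L03384))
theorem g00481 : Good (Phi V5.P V5.D 1 1) ⟨7, 114, 4, 10, 3, 7, 2, 0, 4, 3⟩ :=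
  Good.n4 (Good.n3 L03396 (Good.n1 L03397 (Good.n1 L03398 (Good.n0 L03399 L03400)))) (Good.n1 L03401 (Good.n1 (Good.n0 (Good.n2 L03402 L03403) L03404) (Good.n0 L03405 L03406)))
theorem g00482 : Good (Phi V5.P V5.D 1 1) ⟨5, 28, 4, 10, 2, 3, 2, 0, 4, 3⟩ :=
  Good.n0 (Good.n4 (Good.n2 L03389 L03390) (Good.n2 L03391 (Good.n2 L03392 L03393))) (Good.n2 (Good.n4 L03394 L03395) (Good.n0 g00481 L03407))
theorem g00483 : Good (Phi V5.P V5.D 1 1) ⟨3, 7, 3, 5, 2, 3, 2, 0, 4, 3⟩ :=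
  Good.n0 (Good.n0 (Good.n1 g00482 (Good.n0 L03408 (Good.n1 (Good.n0 L03409 L03410) L03411))) L03412) L03413
theorem g00484 : Good (Phi V5.P V5.D 1 1) ⟨1, 1, 3, 5, 2, 3, 2, 0, 3, 1⟩ :=
  Good.n4 (Good.n0 L03376 (Good.n0 L03377 (Good.n0 (Good.n0 g00480 L03385) L03386))) (Good.n0 L03387 (Good.n0 L03388 g00483))
theorem g00485 : Good (Phi V5.P V5.D 1 1) ⟨1, 1, 1, 1, 2, 3, 2, 0, 2, 0⟩ :=
  Good.n1 (Good.n1 (Good.n4 g00472 (Good.n0 L03315 (Good.n4 g00473 g00474))) (Good.n4 g00479 g00484)) (Good.n0 L03414 (Good.n0 L03415 (Good.n0 (Good.n1 (Good.n0 L03416 L03417) L03418) L03419)))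
theorem g00486 : Good (Phi V5.P V5.D 1 1) ⟨2, 3, 3, 4, 3, 6, 2, 1, 5, 0⟩ :=
  Good.n1 (Good.n0 (Good.n0 L03421 (Good.n0 L03422 L03423)) L03424) (Good.n0 L03425 (Good.n0 (Good.n0 L03426 L03427) L03428))
theorem g00487 : Good (Phi V5.P V5.D 1 1) ⟨1, 1, 3, 4, 3, 6, 2, 1, 3, 0⟩ :=
  Good.n4 (Good.n0 L03420 (Good.n4 g00486 (Good.n0 L03429 L03430))) (Good.n0 L03431 (Good.n0 L03432 L03433))
theorem g00488 : Good (Phi V5.P V5.D 1 1) ⟨4, 13, 4, 8, 3, 7, 2, 1, 5, 0⟩ :=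
  Good.n0 (Good.n3 L03436 (Good.n1 L03437 L03438)) (Good.n3 (Good.n4 L03439 L03440) (Good.n2 L03441 (Good.n1 L03442 L03443)))
theorem g00489 : Good (Phi V5.P V5.D 1 1) ⟨2, 3, 4, 8, 3, 7, 2, 1, 4, 0⟩ :=
  Good.n0 (Good.n4 (Good.n0 L03435 g00488) (Good.n0 L03444 (Good.n3 L03445 (Good.n0 L03446 L03447)))) L03448
theorem g00490 : Good (Phi V5.P V5.D 1 1) ⟨5, 27, 4, 9, 3, 7, 2, 1, 4, 0⟩ :=
  Good.n4 (Good.n0 L03455 (Good.n3 (Good.n2 L03456 L03457) (Good.n2 L03458 (Good.n2 L03459 L03460)))) (Good.n0 L03461 (Good.n3 L03462 L03463))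
theorem g00491 : Good (Phi V5.P V5.D 1 1) ⟨5, 28, 4, 9, 4, 15, 2, 1, 5, 0⟩ :=
  Good.n4 (Good.n0 (Good.n1 L03469 (Good.n0 (Good.n2 L03470 L03471) L03472)) L03473) (Good.n0 (Good.n3 L03474 L03475) L03476)
theorem g00492 : Good (Phi V5.P V5.D 1 1) ⟨4, 14, 4, 9, 4, 15, 2, 1, 4, 0⟩ :=
  Good.n4 (Good.n0 g00491 L03477) (Good.n3 L03478 (Good.n0 (Good.n0 (Good.n1 L03479 L03480) L03481) L03482))
theorem g00493 : Good (Phi V5.P V5.D 1 1) ⟨3, 7, 4, 9, 3, 7, 2, 1, 4, 0⟩ :=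
  Good.n2 (Good.n0 (Good.n0 (Good.n0 (Good.n4 L03464 L03465) L03466) L03467) L03468) (Good.n0 g00492 L03483)
theorem g00494 : Good (Phi V5.P V5.D 1 1) ⟨2, 3, 4, 9, 3, 7, 2, 1, 4, 1⟩ :=
  Good.n0 (Good.n0 L03484 L03485) (Good.n0 (Good.n0 (Good.n0 (Good.n1 L03486 (Good.n2 L03487 L03488)) L03489) L03490) L03491)
theorem g00495 : Good (Phi V5.P V5.D 1 1) ⟨2, 3, 3, 4, 3, 7, 2, 1, 3, 0⟩ :=
  Good.n1 (Good.n4 g00489 (Good.n0 (Good.n0 L03449 (Good.n0 L03450 L03451)) L03452)) (Good.n4 (Good.n0 (Good.n0 L03453 (Good.n0 L03454 g00490)) g00493) g00494)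
theorem g00496 : Good (Phi V5.P V5.D 1 1) ⟨3, 7, 3, 4, 2, 3, 2, 1, 4, 2⟩ :=
  Good.n0 (Good.n0 (Good.n1 L03499 (Good.n0 (Good.n0 (Good.n4 L03500 L03501) L03502) L03503)) L03504) L03505
theorem g00497 : Good (Phi V5.P V5.D 1 1) ⟨2, 3, 3, 4, 2, 3, 2, 1, 4, 2⟩ :=
  Good.n0 (Good.n0 L03493 (Good.n0 (Good.n2 L03494 L03495) (Good.n4 L03496 (Good.n2 L03497 L03498)))) g00496
theorem g00498 : Good (Phi V5.P V5.D 1 1) ⟨3, 7, 3, 4, 2, 3, 2, 1, 4, 3⟩ :=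
  Good.n0 (Good.n0 (Good.n1 L03511 (Good.n0 (Good.n2 L03512 (Good.n1 L03513 L03514)) L03515)) L03516) L03517
theorem g00499 : Good (Phi V5.P V5.D 1 1) ⟨1, 1, 3, 4, 2, 3, 2, 1, 3, 1⟩ :=
  Good.n4 (Good.n0 L03492 g00497) (Good.n0 L03506 (Good.n0 (Good.n0 L03507 (Good.n2 L03508 (Good.n2 L03509 L03510))) g00498))

end Crest.Agent.R097C5.N5pp
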