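import Crest.Agent.R097C5.N5pp_g1
import Crest.Agent.R097C5.N5pp_022
import Crest.Agent.R097C5.N5pp_023
import Crest.Agent.R097C5.N5pp_024

/-!
# Row 97, box cover in dimension n = 5 (generated)
-/

set_option autoImplicit false
set_option Elab.async false
set_option maxHeartbeats 0
set_option maxRecDepth 100000

open Crest.Agent.R097 Crest.Agent.R097.KA


namespace Crest.Agent.R097C5.N5pp

theorem g00500 : Good (Phi V5.P V5.D 1 1) ⟨5, 28, 5, 20, 2, 3, 3, 2, 5, 0⟩ :=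
  Good.n2 L03520 (Good.n0 (Good.n4 (Good.n2 L03521 (Good.n1 L03522 L03523)) L03524) (Good.n4 L03525 L03526))
theorem g00501 : Good (Phi V5.P V5.D 1 1) ⟨6, 57, 5, 21, 3, 7, 3, 2, 6, 0⟩ :=
  Good.n2 L03533 (Good.n0 (Good.n4 (Good.n1 (Good.n0 L03534 L03535) (Good.n0 L03536 L03537)) L03538) L03539)
theorem g00502 : Good (Phi V5.P V5.D 1 1) ⟨5, 28, 5, 21, 2, 3, 3, 2, 4, 0⟩ :=
  Good.n4 (Good.n0 (Good.n4 L03530 L03531) (Good.n2 L03532 (Good.n4 g00501 (Good.n0 L03540 L03541)))) (Good.n0 L03542 (Good.n0 (Good.n1 (Good.n2 L03543 L03544) (Good.n0 L03545 L03546)) L03547))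
theorem g00503 : Good (Phi V5.P V5.D 1 1) ⟨3, 7, 4, 10, 2, 3, 3, 2, 4, 0⟩ :=
  Good.n0 (Good.n1 (Good.n0 (Good.n4 g00500 (Good.n0 L03527 L03528)) L03529) (Good.n0 g00502 L03548)) L03549
theorem g00504 : Good (Phi V5.P V5.D 1 1) ⟨5, 28, 5, 20, 4, 15, 3, 3, 5, 0⟩ :=
  Good.n1 (Good.n0 (Good.n4 (Good.n0 L03553 L03554) L03555) L03556) (Good.n4 (Good.n0 (Good.n2 L03557 L03558) L03559) (Good.n0 L03560 L03561))
theorem g00505 : Good (Phi V5.P V5.D 1 1) ⟨6, 57, 5, 21, 4, 15, 3, 3, 6, 0⟩ :=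
  Good.n1 (Good.n0 (Good.n0 (Good.n4 L03572 L03573) L03574) L03575) (Good.n0 (Good.n0 L03576 L03577) L03578)
theorem g00506 : Good (Phi V5.P V5.D 1 1) ⟨5, 28, 5, 21, 4, 15, 3, 3, 5, 0⟩ :=
  Good.n4 (Good.n0 (Good.n1 (Good.n1 (Good.n1 L03568 L03569) L03570) L03571) g00505) (Good.n0 L03579 (Good.n0 (Good.n1 (Good.n0 L03580 L03581) (Good.n0 L03582 L03583)) L03584))
theorem g00507 : Good (Phi V5.P V5.D 1 1) ⟨4, 14, 5, 21, 3, 7, 3, 3, 5, 0⟩ :=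
  Good.n0 (Good.n2 (Good.n0 L03563 (Good.n0 (Good.n1 L03564 (Good.n0 L03565 L03566)) L03567)) g00506) L03585
theorem g00508 : Good (Phi V5.P V5.D 1 1) ⟨7, 114, 5, 21, 4, 15, 3, 3, 5, 1⟩ :=
  Good.n1 (Good.n0 (Good.n2 L03596 (Good.n3 L03597 (Good.n1 L03598 L03599))) L03600) (Good.n0 L03601 L03602)
theorem g00509 : Good (Phi V5.P V5.D 1 1) ⟨5, 28, 4, 10, 3, 7, 3, 3, 5, 1⟩ :=
  Good.n0 (Good.n2 L03588 (Good.n2 L03589 (Good.n3 L03590 (Good.n1 L03591 L03592)))) (Good.n1 (Good.n2 L03593 L03594) (Good.n0 (Good.n2 L03595 g00508) L03603))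
theorem g00510 : Good (Phi V5.P V5.D 1 1) ⟨3, 7, 4, 10, 2, 3, 3, 3, 4, 0⟩ :=
  Good.n4 (Good.n0 (Good.n2 L03551 (Good.n1 (Good.n2 L03552 (Good.n0 g00504 L03562)) g00507)) L03586) (Good.n2 L03587 (Good.n0 (Good.n0 g00509 L03604) L03605))
theorem g00511 : Good (Phi V5.P V5.D 1 1) ⟨2, 3, 4, 11, 2, 3, 2, 1, 4, 0⟩ :=
  Good.n0 L03606 (Good.n0 (Good.n0 (Good.n0 L03607 (Good.n1 (Good.n0 L03608 L03609) L03610)) L03611) L03612)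
theorem g00512 : Good (Phi V5.P V5.D 1 1) ⟨7, 114, 4, 10, 3, 7, 2, 1, 5, 2⟩ :=
  Good.n1 (Good.n2 L03621 L03622) (Good.n1 (Good.n2 L03623 (Good.n3 L03624 L03625)) (Good.n0 L03626 L03627))
theorem g00513 : Good (Phi V5.P V5.D 1 1) ⟨6, 57, 4, 10, 2, 3, 2, 1, 5, 3⟩ :=
  Good.n3 (Good.n0 (Good.n2 L03629 L03630) L03631) (Good.n0 (Good.n2 L03632 (Good.n1 L03633 (Good.n1 L03634 (Good.n0 L03635 L03636)))) L03637)
theorem g00514 : Good (Phi V5.P V5.D 1 1) ⟨5, 28, 4, 10, 2, 3, 2, 1, 4, 1⟩ :=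
  Good.n0 (Good.n4 (Good.n3 L03614 (Good.n2 L03615 (Good.n2 L03616 L03617))) (Good.n2 L03618 L03619)) (Good.n4 (Good.n2 L03620 (Good.n0 g00512 L03628)) g00513)
theorem g00515 : Good (Phi V5.P V5.D 1 1) ⟨3, 7, 3, 5, 2, 3, 2, 1, 4, 1⟩ :=
  Good.n0 (Good.n0 (Good.n1 g00514 (Good.n0 L03638 (Good.n1 (Good.n0 L03639 L03640) L03641))) L03642) L03643
theorem g00516 : Good (Phi V5.P V5.D 1 1) ⟨2, 3, 3, 5, 2, 3, 2, 1, 3, 0⟩ :=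
  Good.n4 (Good.n1 (Good.n3 (Good.n0 L03519 g00503) (Good.n0 L03550 g00510)) g00511) (Good.n0 L03613 g00515)
theorem g00517 : Good (Phi V5.P V5.D 1 1) ⟨5, 28, 4, 10, 3, 7, 3, 2, 4, 3⟩ :=
  Good.n4 (Good.n0 L03651 (Good.n0 (Good.n2 L03652 L03653) L03654)) (Good.n0 L03655 (Good.n0 (Good.n1 L03656 (Good.n1 L03657 (Good.n0 L03658 L03659))) L03660))
theorem g00518 : Good (Phi V5.P V5.D 1 1) ⟨5, 28, 3, 5, 2, 3, 3, 2, 3, 1⟩ :=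
  Good.n1 (Good.n2 (Good.n4 L03646 L03647) (Good.n4 (Good.n0 L03648 (Good.n2 L03649 L03650)) g00517)) (Good.n0 L03661 (Good.n1 (Good.n0 L03662 L03663) L03664))
theorem g00519 : Good (Phi V5.P V5.D 1 1) ⟨5, 28, 4, 10, 3, 7, 3, 3, 3, 1⟩ :=
  Good.n4 (Good.n2 L03671 (Good.n4 L03672 L03673)) (Good.n4 (Good.n0 L03674 L03675) (Good.n1 L03676 L03677))
theorem g00520 : Good (Phi V5.P V5.D 1 1) ⟨5, 28, 3, 5, 2, 3, 3, 3, 3, 1⟩ :=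
  Good.n2 (Good.n1 (Good.n4 L03665 L03666) (Good.n0 L03667 (Good.n1 (Good.n0 L03668 L03669) L03670))) (Good.n1 g00519 (Good.n0 L03678 (Good.n1 (Good.n0 L03679 L03680) L03681)))
theorem g00521 : Good (Phi V5.P V5.D 1 1) ⟨1, 1, 3, 5, 2, 3, 2, 1, 2, 0⟩ :=
  Good.n4 (Good.n0 L03518 g00516) (Good.n0 L03644 (Good.n0 L03645 (Good.n0 (Good.n0 (Good.n3 g00518 g00520) L03682) L03683)))
theorem g00522 : Good (Phi V5.P V5.D 1 1) ⟨1, 1, 1, 1, 2, 3, 2, 1, 2, 0⟩ :=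
  Good.n1 (Good.n1 (Good.n4 (Good.n2 g00487 (Good.n0 L03434 g00495)) g00499) g00521) (Good.n0 L03684 (Good.n0 L03685 (Good.n0 (Good.n1 (Good.n0 L03686 L03687) L03688) L03689)))
theorem g00523 : Good (Phi V5.P V5.D 1 1) ⟨4, 13, 3, 4, 2, 2, 2, 1, 3, 2⟩ :=
  Good.n4 (Good.n3 (Good.n4 L03695 L03696) L03697) (Good.n3 (Good.n2 (Good.n3 L03698 L03699) L03700) L03701)
theorem g00524 : Good (Phi V5.P V5.D 1 1) ⟨5, 28, 3, 5, 2, 2, 2, 1, 4, 4⟩ :=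
  Good.n1 (Good.n3 (Good.n2 L03712 L03713) L03714) (Good.n0 L03715 (Good.n1 (Good.n0 L03716 L03717) L03718))
theorem g00525 : Good (Phi V5.P V5.D 1 1) ⟨5, 28, 2, 2, 2, 2, 2, 1, 4, 5⟩ :=
  Good.n1 (Good.n3 (Good.n1 L03719 (Good.n4 (Good.n2 L03720 L03721) L03722)) L03723) (Good.n3 (Good.n4 (Good.n2 (Good.n3 (Good.n0 L03724 L03725) L03726) L03727) L03728) L03729)
theorem g00526 : Good (Phi V5.P V5.D 1 1) ⟨4, 14, 2, 2, 2, 2, 2, 1, 3, 2⟩ :=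
  Good.n0 (Good.n4 (Good.n1 (Good.n1 L03708 (Good.n0 (Good.n2 L03709 L03710) L03711)) g00524) g00525) L03730
theorem g00527 : Good (Phi V5.P V5.D 1 1) ⟨3, 7, 2, 2, 2, 2, 1, 0, 3, 2⟩ :=
  Good.n0 (Good.n3 (Good.n4 (Good.n0 (Good.n2 L03703 (Good.n3 L03704 L03705)) L03706) L03707) g00526) L03731
theorem g00528 : Good (Phi V5.P V5.D 1 1) ⟨2, 3, 2, 2, 2, 2, 1, 0, 3, 2⟩ :=
  Good.n0 (Good.n0 L03691 (Good.n1 (Good.n3 (Good.n4 (Good.n2 L03692 L03693) L03694) g00523) L03702)) g00527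
theorem g00529 : Good (Phi V5.P V5.D 1 1) ⟨7, 114, 4, 10, 2, 3, 2, 0, 5, 8⟩ :=
  Good.n3 (Good.n2 L03741 (Good.n1 L03742 (Good.n1 L03743 (Good.n0 L03744 L03745)))) (Good.n1 L03746 (Good.n1 (Good.n2 L03747 L03748) (Good.n0 L03749 L03750)))
theorem g00530 : Good (Phi V5.P V5.D 1 1) ⟨5, 28, 3, 5, 2, 3, 2, 0, 5, 8⟩ :=
  Good.n1 (Good.n0 (Good.n2 L03738 (Good.n1 L03739 L03740)) (Good.n0 g00529 L03751)) (Good.n0 L03752 (Good.n1 (Good.n0 L03753 L03754) L03755))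
theorem g00531 : Good (Phi V5.P V5.D 1 1) ⟨7, 114, 4, 10, 2, 3, 2, 0, 5, 9⟩ :=
  Good.n3 (Good.n2 L03761 (Good.n1 L03762 (Good.n1 (Good.n4 L03763 L03764) (Good.n0 L03765 L03766)))) (Good.n2 L03767 L03768)
theorem g00532 : Good (Phi V5.P V5.D 1 1) ⟨5, 28, 3, 5, 2, 3, 2, 0, 5, 9⟩ :=
  Good.n1 (Good.n0 (Good.n3 L03758 (Good.n2 L03759 L03760)) (Good.n0 g00531 L03769)) (Good.n0 L03770 (Good.n1 (Good.n0 L03771 L03772) L03773))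
theorem g00533 : Good (Phi V5.P V5.D 1 1) ⟨4, 14, 2, 2, 2, 3, 2, 0, 4, 4⟩ :=
  Good.n0 (Good.n4 (Good.n1 (Good.n1 L03736 L03737) g00530) (Good.n1 (Good.n1 L03756 L03757) g00532)) L03774
theorem g00534 : Good (Phi V5.P V5.D 1 1) ⟨2, 3, 2, 2, 2, 3, 2, 0, 4, 5⟩ :=
  Good.n0 (Good.n1 (Good.n0 L03776 L03777) L03778) (Good.n0 (Good.n0 (Good.n2 L03779 (Good.n2 L03780 L03781)) L03782) L03783)
theorem g00535 : Good (Phi V5.P V5.D 1 1) ⟨2, 3, 2, 2, 2, 3, 2, 0, 3, 2⟩ :=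
  Good.n4 (Good.n0 (Good.n1 (Good.n0 L03732 (Good.n2 L03733 L03734)) L03735) (Good.n0 g00533 L03775)) g00534
theorem g00536 : Good (Phi V5.P V5.D 1 1) ⟨6, 57, 4, 10, 2, 3, 2, 1, 4, 4⟩ :=
  Good.n0 (Good.n2 L03797 (Good.n1 L03798 (Good.n1 (Good.n0 L03799 L03800) (Good.n0 L03801 L03802)))) L03803
theorem g00537 : Good (Phi V5.P V5.D 1 1) ⟨5, 28, 3, 5, 2, 3, 2, 1, 4, 4⟩ :=
  Good.n1 (Good.n0 (Good.n2 L03795 L03796) g00536) (Good.n0 L03804 (Good.n1 (Good.n0 L03805 L03806) L03807))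
theorem g00538 : Good (Phi V5.P V5.D 1 1) ⟨5, 28, 2, 2, 2, 3, 2, 1, 3, 2⟩ :=
  Good.n1 (Good.n1 L03789 (Good.n4 (Good.n0 (Good.n1 L03790 (Good.n2 L03791 L03792)) L03793) L03794)) (Good.n4 g00537 L03808)
theorem g00539 : Good (Phi V5.P V5.D 1 1) ⟨2, 3, 2, 2, 2, 3, 2, 1, 3, 2⟩ :=
  Good.n0 (Good.n0 L03784 (Good.n1 (Good.n4 (Good.n2 L03785 L03786) L03787) L03788)) (Good.n0 (Good.n0 g00538 L03809) L03810)
theorem g00540 : Good (Phi V5.P V5.D 1 1) ⟨2, 3, 1, 1, 1, 1, 1, 0, 3, 2⟩ :=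
  Good.n1 (Good.n2 g00528 (Good.n3 g00535 g00539)) (Good.n0 L03811 (Good.n0 (Good.n1 (Good.n0 L03812 L03813) L03814) L03815))
theorem g00541 : Good (Phi V5.P V5.D 1 1) ⟨9, 429, 7, 64, 9, 304, 8, 126, 9, 224⟩ :=
  Good.n4 (Good.n2 (Good.n3 L03840 (Good.n4 (Good.n2 (Good.n3 L03841 L03842) L03843) L03844)) L03845) L03846
theorem g00542 : Good (Phi V5.P V5.D 1 1) ⟨9, 429, 7, 64, 8, 152, 6, 31, 8, 112⟩ :=
  Good.n3 (Good.n4 (Good.n3 L03834 (Good.n4 (Good.n3 L03835 (Good.n2 L03836 L03837)) L03838)) L03839) (Good.n4 (Good.n2 (Good.n3 g00541 L03847) L03848) L03849)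
theorem g00543 : Good (Phi V5.P V5.D 1 1) ⟨9, 429, 7, 64, 6, 38, 5, 15, 7, 56⟩ :=
  Good.n2 (Good.n3 L03833 (Good.n4 (Good.n2 g00542 L03850) L03851)) (Good.n3 (Good.n4 (Good.n2 L03852 L03853) L03854) L03855)
theorem g00544 : Good (Phi V5.P V5.D 1 1) ⟨9, 429, 7, 64, 5, 19, 4, 7, 6, 28⟩ :=
  Good.n3 (Good.n4 (Good.n3 L03829 (Good.n2 L03830 L03831)) L03832) (Good.n2 (Good.n4 g00543 L03856) L03857)
theorem g00545 : Good (Phi V5.P V5.D 1 1) ⟨9, 429, 7, 64, 3, 4, 2, 1, 4, 7⟩ :=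
  Good.n3 L03825 (Good.n4 (Good.n2 L03826 (Good.n3 L03827 (Good.n4 (Good.n2 L03828 g00544) L03858))) L03859)
theorem g00546 : Good (Phi V5.P V5.D 1 1) ⟨9, 429, 7, 64, 4, 10, 2, 1, 4, 7⟩ :=
  Good.n4 (Good.n3 L03860 (Good.n2 (Good.n4 (Good.n3 (Good.n3 L03861 L03862) L03863) L03864) L03865)) L03866
theorem g00547 : Good (Phi V5.P V5.D 1 1) ⟨8, 215, 6, 32, 9, 304, 8, 126, 9, 224⟩ :=
  Good.n4 (Good.n2 (Good.n3 L03884 (Good.n4 (Good.n2 (Good.n3 L03885 L03886) L03887) L03888)) L03889) L03890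
theorem g00548 : Good (Phi V5.P V5.D 1 1) ⟨8, 215, 6, 32, 8, 152, 6, 31, 8, 112⟩ :=
  Good.n3 (Good.n4 (Good.n3 L03878 (Good.n4 (Good.n3 L03879 (Good.n2 L03880 L03881)) L03882)) L03883) (Good.n4 (Good.n2 (Good.n3 g00547 L03891) L03892) L03893)
theorem g00549 : Good (Phi V5.P V5.D 1 1) ⟨8, 215, 6, 32, 6, 38, 5, 15, 7, 56⟩ :=
  Good.n2 (Good.n3 L03877 (Good.n4 (Good.n2 g00548 L03894) L03895)) (Good.n3 (Good.n4 (Good.n2 L03896 L03897) L03898) L03899)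
theorem g00550 : Good (Phi V5.P V5.D 1 1) ⟨8, 215, 6, 32, 5, 19, 4, 7, 6, 28⟩ :=
  Good.n3 (Good.n4 (Good.n3 L03873 (Good.n2 L03874 L03875)) L03876) (Good.n2 (Good.n4 g00549 L03900) L03901)
theorem g00551 : Good (Phi V5.P V5.D 1 1) ⟨8, 215, 6, 32, 3, 4, 2, 1, 4, 7⟩ :=
  Good.n3 L03869 (Good.n4 (Good.n2 L03870 (Good.n3 L03871 (Good.n4 (Good.n2 L03872 g00550) L03902))) L03903)
theorem g00552 : Good (Phi V5.P V5.D 1 1) ⟨8, 215, 6, 32, 4, 10, 2, 1, 4, 7⟩ :=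
  Good.n4 (Good.n3 L03904 (Good.n2 (Good.n4 (Good.n3 (Good.n3 L03905 L03906) L03907) L03908) L03909)) L03910
theorem g00553 : Good (Phi V5.P V5.D 1 1) ⟨7, 107, 6, 32, 2, 2, 2, 1, 4, 7⟩ :=
  Good.n0 (Good.n1 (Good.n0 L03824 (Good.n2 g00545 (Good.n2 g00546 L03867))) L03868) (Good.n2 g00551 (Good.n2 g00552 L03911))
theorem g00554 : Good (Phi V5.P V5.D 1 1) ⟨5, 26, 4, 8, 1, 1, 1, 0, 4, 7⟩ :=
  Good.n0 L03821 (Good.n1 (Good.n0 L03822 (Good.n1 (Good.n2 (Good.n3 L03823 g00553) L03912) L03913)) L03914)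
theorem g00555 : Good (Phi V5.P V5.D 1 1) ⟨7, 108, 6, 32, 9, 304, 8, 126, 9, 224⟩ :=
  Good.n4 (Good.n2 (Good.n3 L03931 (Good.n4 (Good.n2 (Good.n3 L03932 L03933) L03934) L03935)) L03936) L03937
theorem g00556 : Good (Phi V5.P V5.D 1 1) ⟨7, 108, 6, 32, 8, 152, 6, 31, 8, 112⟩ :=
  Good.n3 (Good.n4 (Good.n3 L03925 (Good.n4 (Good.n3 L03926 (Good.n2 L03927 L03928)) L03929)) L03930) (Good.n4 (Good.n2 (Good.n3 g00555 L03938) L03939) L03940)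
theorem g00557 : Good (Phi V5.P V5.D 1 1) ⟨7, 108, 6, 32, 6, 38, 5, 15, 7, 56⟩ :=
  Good.n2 (Good.n3 L03924 (Good.n4 (Good.n2 g00556 L03941) L03942)) (Good.n3 (Good.n4 (Good.n2 L03943 L03944) L03945) L03946)
theorem g00558 : Good (Phi V5.P V5.D 1 1) ⟨7, 108, 6, 32, 5, 19, 4, 7, 6, 28⟩ :=
  Good.n3 (Good.n4 (Good.n3 L03920 (Good.n2 L03921 L03922)) L03923) (Good.n2 (Good.n4 g00557 L03947) L03948)
theorem g00559 : Good (Phi V5.P V5.D 1 1) ⟨11, 1744, 9, 257, 9, 304, 8, 126, 9, 224⟩ :=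
  Good.n4 (Good.n2 (Good.n3 L03961 (Good.n4 (Good.n2 (Good.n3 L03962 L03963) L03964) L03965)) L03966) L03967
theorem g00560 : Good (Phi V5.P V5.D 1 1) ⟨11, 1744, 9, 257, 8, 152, 6, 31, 8, 112⟩ :=
  Good.n3 (Good.n4 (Good.n3 L03955 (Good.n4 (Good.n3 L03956 (Good.n2 L03957 L03958)) L03959)) L03960) (Good.n4 (Good.n2 (Good.n3 g00559 L03968) L03969) L03970)
theorem g00561 : Good (Phi V5.P V5.D 1 1) ⟨11, 1744, 9, 257, 6, 38, 5, 15, 7, 56⟩ :=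
  Good.n2 (Good.n3 L03954 (Good.n4 (Good.n2 g00560 L03971) L03972)) (Good.n3 (Good.n4 (Good.n2 L03973 L03974) L03975) L03976)
theorem g00562 : Good (Phi V5.P V5.D 1 1) ⟨11, 1744, 9, 257, 5, 19, 4, 7, 6, 28⟩ :=
  Good.n3 (Good.n4 (Good.n3 L03950 (Good.n2 L03951 L03952)) L03953) (Good.n2 (Good.n4 g00561 L03977) L03978)
theorem g00563 : Good (Phi V5.P V5.D 1 1) ⟨9, 436, 8, 129, 9, 304, 8, 126, 9, 224⟩ :=
  Good.n4 (Good.n2 (Good.n3 L03992 (Good.n4 (Good.n2 (Good.n3 L03993 L03994) L03995) L03996)) L03997) L03998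
theorem g00564 : Good (Phi V5.P V5.D 1 1) ⟨9, 436, 8, 129, 8, 152, 6, 31, 8, 112⟩ :=
  Good.n3 (Good.n4 (Good.n3 L03986 (Good.n4 (Good.n3 L03987 (Good.n2 L03988 L03989)) L03990)) L03991) (Good.n4 (Good.n2 (Good.n3 g00563 L03999) L04000) L04001)
theorem g00565 : Good (Phi V5.P V5.D 1 1) ⟨9, 436, 8, 129, 6, 38, 5, 15, 7, 56⟩ :=
  Good.n2 (Good.n3 L03985 (Good.n4 (Good.n2 g00564 L04002) L04003)) (Good.n3 (Good.n4 (Good.n2 L04004 L04005) L04006) L04007)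
theorem g00566 : Good (Phi V5.P V5.D 1 1) ⟨9, 436, 8, 129, 5, 19, 4, 7, 6, 28⟩ :=
  Good.n3 (Good.n4 (Good.n3 L03981 (Good.n2 L03982 L03983)) L03984) (Good.n2 (Good.n4 g00565 L04008) L04009)
theorem g00567 : Good (Phi V5.P V5.D 1 1) ⟨8, 218, 7, 65, 9, 304, 8, 126, 9, 224⟩ :=
  Good.n4 (Good.n2 (Good.n3 L04022 (Good.n4 (Good.n2 (Good.n3 L04023 L04024) L04025) L04026)) L04027) L04028
theorem g00568 : Good (Phi V5.P V5.D 1 1) ⟨8, 218, 7, 65, 8, 152, 6, 31, 8, 112⟩ :=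
  Good.n3 (Good.n4 (Good.n3 L04016 (Good.n4 (Good.n3 L04017 (Good.n2 L04018 L04019)) L04020)) L04021) (Good.n4 (Good.n2 (Good.n3 g00567 L04029) L04030) L04031)
theorem g00569 : Good (Phi V5.P V5.D 1 1) ⟨8, 218, 7, 65, 6, 38, 5, 15, 7, 56⟩ :=
  Good.n2 (Good.n3 L04015 (Good.n4 (Good.n2 g00568 L04032) L04033)) (Good.n3 (Good.n4 (Good.n2 L04034 L04035) L04036) L04037)
theorem g00570 : Good (Phi V5.P V5.D 1 1) ⟨8, 218, 7, 65, 5, 19, 4, 7, 6, 28⟩ :=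
  Good.n3 (Good.n4 (Good.n3 L04011 (Good.n2 L04012 L04013)) L04014) (Good.n2 (Good.n4 g00569 L04038) L04039)
theorem g00571 : Good (Phi V5.P V5.D 1 1) ⟨8, 218, 6, 32, 5, 19, 4, 7, 6, 28⟩ :=
  Good.n1 (Good.n0 (Good.n1 (Good.n0 (Good.n1 L03949 (Good.n0 g00562 L03979)) L03980) g00566) L04010) g00570
theorem g00572 : Good (Phi V5.P V5.D 1 1) ⟨6, 54, 6, 33, 9, 304, 8, 126, 9, 224⟩ :=
  Good.n4 (Good.n2 (Good.n3 L04052 (Good.n4 (Good.n2 (Good.n3 L04053 L04054) L04055) L04056)) L04057) L04058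
theorem g00573 : Good (Phi V5.P V5.D 1 1) ⟨6, 54, 6, 33, 8, 152, 6, 31, 8, 112⟩ :=
  Good.n3 (Good.n4 (Good.n3 L04046 (Good.n4 (Good.n3 L04047 (Good.n2 L04048 L04049)) L04050)) L04051) (Good.n4 (Good.n2 (Good.n3 g00572 L04059) L04060) L04061)
theorem g00574 : Good (Phi V5.P V5.D 1 1) ⟨6, 54, 6, 33, 6, 38, 5, 15, 7, 56⟩ :=
  Good.n2 (Good.n3 L04045 (Good.n4 (Good.n2 g00573 L04062) L04063)) (Good.n3 (Good.n4 (Good.n2 L04064 L04065) L04066) L04067)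
theorem g00575 : Good (Phi V5.P V5.D 1 1) ⟨6, 54, 6, 33, 5, 19, 4, 7, 6, 28⟩ :=
  Good.n3 (Good.n4 (Good.n3 L04041 (Good.n2 L04042 L04043)) L04044) (Good.n2 (Good.n4 g00574 L04068) L04069)
theorem g00576 : Good (Phi V5.P V5.D 1 1) ⟨6, 54, 5, 16, 4, 9, 3, 3, 5, 14⟩ :=
  Good.n3 L03918 (Good.n4 (Good.n2 L03919 (Good.n1 (Good.n0 g00558 (Good.n0 g00571 L04040)) g00575)) L04070)
theorem g00577 : Good (Phi V5.P V5.D 1 1) ⟨6, 54, 5, 16, 4, 10, 2, 1, 4, 7⟩ :=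
  Good.n4 (Good.n3 L04072 (Good.n2 (Good.n4 (Good.n3 (Good.n3 L04073 L04074) L04075) L04076) L04077)) L04078
theorem g00578 : Good (Phi V5.P V5.D 1 1) ⟨6, 54, 5, 16, 2, 2, 1, 0, 4, 7⟩ :=
  Good.n3 L03915 (Good.n2 (Good.n3 L03916 (Good.n4 (Good.n2 L03917 g00576) L04071)) (Good.n2 g00577 L04079))
theorem g00579 : Good (Phi V5.P V5.D 1 1) ⟨9, 435, 8, 136, 9, 304, 8, 126, 9, 224⟩ :=
  Good.n4 (Good.n2 (Good.n3 L04100 (Good.n4 (Good.n2 (Good.n3 L04101 L04102) L04103) L04104)) L04105) L04106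
theorem g00580 : Good (Phi V5.P V5.D 1 1) ⟨9, 435, 8, 136, 8, 152, 6, 31, 8, 112⟩ :=
  Good.n3 (Good.n4 (Good.n3 L04094 (Good.n4 (Good.n3 L04095 (Good.n2 L04096 L04097)) L04098)) L04099) (Good.n4 (Good.n2 (Good.n3 g00579 L04107) L04108) L04109)
theorem g00581 : Good (Phi V5.P V5.D 1 1) ⟨9, 435, 8, 136, 6, 38, 5, 15, 7, 56⟩ :=
  Good.n2 (Good.n3 L04093 (Good.n4 (Good.n2 g00580 L04110) L04111)) (Good.n3 (Good.n4 (Good.n2 L04112 L04113) L04114) L04115)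
theorem g00582 : Good (Phi V5.P V5.D 1 1) ⟨9, 435, 8, 136, 5, 19, 4, 7, 6, 28⟩ :=
  Good.n3 (Good.n4 (Good.n3 L04089 (Good.n2 L04090 L04091)) L04092) (Good.n2 (Good.n4 g00581 L04116) L04117)
theorem g00583 : Good (Phi V5.P V5.D 1 1) ⟨12, 3487, 10, 548, 9, 304, 8, 126, 9, 224⟩ :=
  Good.n4 (Good.n2 (Good.n3 L04132 (Good.n4 (Good.n2 (Good.n3 L04133 L04134) L04135) L04136)) L04137) L04138
theorem g00584 : Good (Phi V5.P V5.D 1 1) ⟨12, 3487, 10, 548, 8, 152, 6, 31, 8, 112⟩ :=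
  Good.n3 (Good.n4 (Good.n3 L04126 (Good.n4 (Good.n3 L04127 (Good.n2 L04128 L04129)) L04130)) L04131) (Good.n4 (Good.n2 (Good.n3 g00583 L04139) L04140) L04141)
theorem g00585 : Good (Phi V5.P V5.D 1 1) ⟨12, 3487, 10, 548, 6, 38, 5, 15, 7, 56⟩ :=
  Good.n2 (Good.n3 L04125 (Good.n4 (Good.n2 g00584 L04142) L04143)) (Good.n3 (Good.n4 (Good.n2 L04144 L04145) L04146) L04147)
theorem g00586 : Good (Phi V5.P V5.D 1 1) ⟨12, 3487, 10, 548, 5, 19, 4, 7, 6, 28⟩ :=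
  Good.n3 (Good.n4 (Good.n3 L04121 (Good.n2 L04122 L04123)) L04124) (Good.n2 (Good.n4 g00585 L04148) L04149)
theorem g00587 : Good (Phi V5.P V5.D 1 1) ⟨9, 435, 7, 68, 5, 19, 4, 7, 6, 28⟩ :=
  Good.n1 g00582 (Good.n0 L04118 (Good.n1 (Good.n0 L04119 (Good.n1 (Good.n0 L04120 g00586) L04150)) L04151))
theorem g00588 : Good (Phi V5.P V5.D 1 1) ⟨9, 435, 7, 68, 3, 4, 2, 1, 4, 7⟩ :=
  Good.n3 L04085 (Good.n4 (Good.n2 L04086 (Good.n3 L04087 (Good.n4 (Good.n2 L04088 g00587) L04152))) L04153)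
theorem g00589 : Good (Phi V5.P V5.D 1 1) ⟨9, 435, 7, 68, 4, 10, 2, 1, 4, 7⟩ :=
  Good.n4 (Good.n3 L04154 (Good.n2 (Good.n4 (Good.n3 (Good.n3 L04155 L04156) L04157) L04158) L04159)) L04160
theorem g00590 : Good (Phi V5.P V5.D 1 1) ⟨8, 217, 6, 34, 1, 1, 1, 0, 4, 7⟩ :=
  Good.n1 (Good.n0 L04083 (Good.n2 (Good.n3 L04084 (Good.n2 g00588 (Good.n2 g00589 L04161))) L04162)) L04163
theorem g00591 : Good (Phi V5.P V5.D 1 1) ⟨7, 109, 6, 34, 9, 304, 8, 126, 9, 224⟩ :=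
  Good.n4 (Good.n2 (Good.n3 L04181 (Good.n4 (Good.n2 (Good.n3 L04182 L04183) L04184) L04185)) L04186) L04187
theorem g00592 : Good (Phi V5.P V5.D 1 1) ⟨7, 109, 6, 34, 8, 152, 6, 31, 8, 112⟩ :=
  Good.n3 (Good.n4 (Good.n3 L04175 (Good.n4 (Good.n3 L04176 (Good.n2 L04177 L04178)) L04179)) L04180) (Good.n4 (Good.n2 (Good.n3 g00591 L04188) L04189) L04190)
theorem g00593 : Good (Phi V5.P V5.D 1 1) ⟨7, 109, 6, 34, 6, 38, 5, 15, 7, 56⟩ :=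
  Good.n2 (Good.n3 L04174 (Good.n4 (Good.n2 g00592 L04191) L04192)) (Good.n3 (Good.n4 (Good.n2 L04193 L04194) L04195) L04196)
theorem g00594 : Good (Phi V5.P V5.D 1 1) ⟨7, 109, 6, 34, 5, 19, 4, 7, 6, 28⟩ :=
  Good.n3 (Good.n4 (Good.n3 L04170 (Good.n2 L04171 L04172)) L04173) (Good.n2 (Good.n4 g00593 L04197) L04198)
theorem g00595 : Good (Phi V5.P V5.D 1 1) ⟨7, 109, 6, 34, 3, 4, 2, 1, 4, 7⟩ :=
  Good.n3 L04166 (Good.n4 (Good.n2 L04167 (Good.n3 L04168 (Good.n4 (Good.n2 L04169 g00594) L04199))) L04200)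
theorem g00596 : Good (Phi V5.P V5.D 1 1) ⟨7, 109, 6, 34, 4, 10, 2, 1, 4, 7⟩ :=
  Good.n4 (Good.n3 L04201 (Good.n2 (Good.n4 (Good.n3 (Good.n3 L04202 L04203) L04204) L04205) L04206)) L04207
theorem g00597 : Good (Phi V5.P V5.D 1 1) ⟨8, 219, 7, 70, 9, 304, 8, 126, 9, 224⟩ :=
  Good.n4 (Good.n2 (Good.n3 L04225 (Good.n4 (Good.n2 (Good.n3 L04226 L04227) L04228) L04229)) L04230) L04231
theorem g00598 : Good (Phi V5.P V5.D 1 1) ⟨8, 219, 7, 70, 8, 152, 6, 31, 8, 112⟩ :=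
  Good.n3 (Good.n4 (Good.n3 L04219 (Good.n4 (Good.n3 L04220 (Good.n2 L04221 L04222)) L04223)) L04224) (Good.n4 (Good.n2 (Good.n3 g00597 L04232) L04233) L04234)
theorem g00599 : Good (Phi V5.P V5.D 1 1) ⟨8, 219, 7, 70, 6, 38, 5, 15, 7, 56⟩ :=
  Good.n2 (Good.n3 L04218 (Good.n4 (Good.n2 g00598 L04235) L04236)) (Good.n3 (Good.n4 (Good.n2 L04237 L04238) L04239) L04240)
theorem g00600 : Good (Phi V5.P V5.D 1 1) ⟨8, 219, 7, 70, 5, 19, 4, 7, 6, 28⟩ :=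
  Good.n3 (Good.n4 (Good.n3 L04214 (Good.n2 L04215 L04216)) L04217) (Good.n2 (Good.n4 g00599 L04241) L04242)
theorem g00601 : Good (Phi V5.P V5.D 1 1) ⟨8, 219, 7, 70, 3, 4, 2, 1, 4, 7⟩ :=
  Good.n3 L04210 (Good.n4 (Good.n2 L04211 (Good.n3 L04212 (Good.n4 (Good.n2 L04213 g00600) L04243))) L04244)
theorem g00602 : Good (Phi V5.P V5.D 1 1) ⟨8, 219, 7, 70, 4, 10, 2, 1, 4, 7⟩ :=
  Good.n4 (Good.n3 L04245 (Good.n2 (Good.n4 (Good.n3 (Good.n3 L04246 L04247) L04248) L04249) L04250)) L04251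
theorem g00603 : Good (Phi V5.P V5.D 1 1) ⟨13, 7031, 11, 1136, 9, 304, 8, 126, 9, 224⟩ :=
  Good.n4 (Good.n2 (Good.n3 L04272 (Good.n4 (Good.n2 (Good.n3 L04273 L04274) L04275) L04276)) L04277) L04278
theorem g00604 : Good (Phi V5.P V5.D 1 1) ⟨13, 7031, 11, 1136, 8, 152, 6, 31, 8, 112⟩ :=
  Good.n3 (Good.n4 (Good.n3 L04266 (Good.n4 (Good.n3 L04267 (Good.n2 L04268 L04269)) L04270)) L04271) (Good.n4 (Good.n2 (Good.n3 g00603 L04279) L04280) L04281)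
theorem g00605 : Good (Phi V5.P V5.D 1 1) ⟨13, 7031, 11, 1136, 6, 38, 5, 15, 7, 56⟩ :=
  Good.n2 (Good.n3 L04265 (Good.n4 (Good.n2 g00604 L04282) L04283)) (Good.n3 (Good.n4 (Good.n2 L04284 L04285) L04286) L04287)
theorem g00606 : Good (Phi V5.P V5.D 1 1) ⟨13, 7031, 11, 1136, 5, 19, 4, 7, 6, 28⟩ :=
  Good.n3 (Good.n4 (Good.n3 L04261 (Good.n2 L04262 L04263)) L04264) (Good.n2 (Good.n4 g00605 L04288) L04289)
theorem g00607 : Good (Phi V5.P V5.D 1 1) ⟨13, 7031, 11, 1136, 3, 4, 2, 1, 4, 7⟩ :=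
  Good.n3 L04257 (Good.n4 (Good.n2 L04258 (Good.n3 L04259 (Good.n4 (Good.n2 L04260 g00606) L04290))) L04291)
theorem g00608 : Good (Phi V5.P V5.D 1 1) ⟨13, 7031, 11, 1136, 4, 10, 2, 1, 4, 7⟩ :=
  Good.n4 (Good.n3 L04292 (Good.n2 (Good.n4 (Good.n3 (Good.n3 L04293 L04294) L04295) L04296) L04297)) L04298
theorem g00609 : Good (Phi V5.P V5.D 1 1) ⟨11, 1757, 9, 284, 2, 2, 2, 1, 4, 7⟩ :=
  Good.n1 (Good.n0 L04255 (Good.n1 (Good.n0 L04256 (Good.n2 g00607 (Good.n2 g00608 L04299))) L04300)) L04301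
theorem g00610 : Good (Phi V5.P V5.D 1 1) ⟨10, 879, 8, 142, 9, 304, 8, 126, 9, 224⟩ :=
  Good.n4 (Good.n2 (Good.n3 L04318 (Good.n4 (Good.n2 (Good.n3 L04319 L04320) L04321) L04322)) L04323) L04324
theorem g00611 : Good (Phi V5.P V5.D 1 1) ⟨10, 879, 8, 142, 8, 152, 6, 31, 8, 112⟩ :=
  Good.n3 (Good.n4 (Good.n3 L04312 (Good.n4 (Good.n3 L04313 (Good.n2 L04314 L04315)) L04316)) L04317) (Good.n4 (Good.n2 (Good.n3 g00610 L04325) L04326) L04327)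
theorem g00612 : Good (Phi V5.P V5.D 1 1) ⟨10, 879, 8, 142, 6, 38, 5, 15, 7, 56⟩ :=
  Good.n2 (Good.n3 L04311 (Good.n4 (Good.n2 g00611 L04328) L04329)) (Good.n3 (Good.n4 (Good.n2 L04330 L04331) L04332) L04333)
theorem g00613 : Good (Phi V5.P V5.D 1 1) ⟨10, 879, 8, 142, 5, 19, 4, 7, 6, 28⟩ :=
  Good.n3 (Good.n4 (Good.n3 L04307 (Good.n2 L04308 L04309)) L04310) (Good.n2 (Good.n4 g00612 L04334) L04335)
theorem g00614 : Good (Phi V5.P V5.D 1 1) ⟨10, 879, 8, 142, 3, 4, 2, 1, 4, 7⟩ :=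
  Good.n3 L04303 (Good.n4 (Good.n2 L04304 (Good.n3 L04305 (Good.n4 (Good.n2 L04306 g00613) L04336))) L04337)
theorem g00615 : Good (Phi V5.P V5.D 1 1) ⟨10, 879, 8, 142, 4, 10, 2, 1, 4, 7⟩ :=
  Good.n4 (Good.n3 L04338 (Good.n2 (Good.n4 (Good.n3 (Good.n3 L04339 L04340) L04341) L04342) L04343)) L04344
theorem g00616 : Good (Phi V5.P V5.D 1 1) ⟨9, 439, 7, 71, 2, 2, 2, 1, 4, 7⟩ :=
  Good.n1 (Good.n0 (Good.n1 (Good.n0 L04254 g00609) L04302) (Good.n2 g00614 (Good.n2 g00615 L04345))) L04346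
theorem g00617 : Good (Phi V5.P V5.D 1 1) ⟨7, 109, 5, 17, 2, 2, 2, 1, 4, 7⟩ :=
  Good.n1 (Good.n2 g00595 (Good.n2 g00596 L04208)) (Good.n0 L04209 (Good.n1 (Good.n2 g00601 (Good.n2 g00602 L04252)) (Good.n0 L04253 g00616)))
theorem g00618 : Good (Phi V5.P V5.D 1 1) ⟨9, 440, 7, 68, 9, 304, 8, 126, 9, 224⟩ :=
  Good.n4 (Good.n2 (Good.n3 L04364 (Good.n4 (Good.n2 (Good.n3 L04365 L04366) L04367) L04368)) L04369) L04370
theorem g00619 : Good (Phi V5.P V5.D 1 1) ⟨9, 440, 7, 68, 8, 152, 6, 31, 8, 112⟩ :=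
  Good.n3 (Good.n4 (Good.n3 L04358 (Good.n4 (Good.n3 L04359 (Good.n2 L04360 L04361)) L04362)) L04363) (Good.n4 (Good.n2 (Good.n3 g00618 L04371) L04372) L04373)
theorem g00620 : Good (Phi V5.P V5.D 1 1) ⟨9, 440, 7, 68, 6, 38, 5, 15, 7, 56⟩ :=
  Good.n2 (Good.n3 L04357 (Good.n4 (Good.n2 g00619 L04374) L04375)) (Good.n3 (Good.n4 (Good.n2 L04376 L04377) L04378) L04379)
theorem g00621 : Good (Phi V5.P V5.D 1 1) ⟨9, 440, 7, 68, 5, 19, 4, 7, 6, 28⟩ :=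
  Good.n3 (Good.n4 (Good.n3 L04353 (Good.n2 L04354 L04355)) L04356) (Good.n2 (Good.n4 g00620 L04380) L04381)
theorem g00622 : Good (Phi V5.P V5.D 1 1) ⟨9, 440, 7, 68, 3, 4, 2, 1, 4, 7⟩ :=
  Good.n3 L04349 (Good.n4 (Good.n2 L04350 (Good.n3 L04351 (Good.n4 (Good.n2 L04352 g00621) L04382))) L04383)
theorem g00623 : Good (Phi V5.P V5.D 1 1) ⟨9, 440, 7, 68, 4, 10, 2, 1, 4, 7⟩ :=
  Good.n4 (Good.n3 L04384 (Good.n2 (Good.n4 (Good.n3 (Good.n3 L04385 L04386) L04387) L04388) L04389)) L04390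
theorem g00624 : Good (Phi V5.P V5.D 1 1) ⟨8, 220, 7, 69, 9, 304, 8, 126, 9, 224⟩ :=
  Good.n4 (Good.n2 (Good.n3 L04408 (Good.n4 (Good.n2 (Good.n3 L04409 L04410) L04411) L04412)) L04413) L04414
theorem g00625 : Good (Phi V5.P V5.D 1 1) ⟨8, 220, 7, 69, 8, 152, 6, 31, 8, 112⟩ :=
  Good.n3 (Good.n4 (Good.n3 L04402 (Good.n4 (Good.n3 L04403 (Good.n2 L04404 L04405)) L04406)) L04407) (Good.n4 (Good.n2 (Good.n3 g00624 L04415) L04416) L04417)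
theorem g00626 : Good (Phi V5.P V5.D 1 1) ⟨8, 220, 7, 69, 6, 38, 5, 15, 7, 56⟩ :=
  Good.n2 (Good.n3 L04401 (Good.n4 (Good.n2 g00625 L04418) L04419)) (Good.n3 (Good.n4 (Good.n2 L04420 L04421) L04422) L04423)
theorem g00627 : Good (Phi V5.P V5.D 1 1) ⟨8, 220, 7, 69, 5, 19, 4, 7, 6, 28⟩ :=
  Good.n3 (Good.n4 (Good.n3 L04397 (Good.n2 L04398 L04399)) L04400) (Good.n2 (Good.n4 g00626 L04424) L04425)
theorem g00628 : Good (Phi V5.P V5.D 1 1) ⟨8, 220, 7, 69, 3, 4, 2, 1, 4, 7⟩ :=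
  Good.n3 L04393 (Good.n4 (Good.n2 L04394 (Good.n3 L04395 (Good.n4 (Good.n2 L04396 g00627) L04426))) L04427)
theorem g00629 : Good (Phi V5.P V5.D 1 1) ⟨8, 220, 7, 69, 4, 10, 2, 1, 4, 7⟩ :=
  Good.n4 (Good.n3 L04428 (Good.n2 (Good.n4 (Good.n3 (Good.n3 L04429 L04430) L04431) L04432) L04433)) L04434
theorem g00630 : Good (Phi V5.P V5.D 1 1) ⟨8, 220, 6, 34, 2, 2, 2, 1, 4, 7⟩ :=
  Good.n1 (Good.n0 (Good.n2 g00622 (Good.n2 g00623 L04391)) L04392) (Good.n2 g00628 (Good.n2 g00629 L04435))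
theorem g00631 : Good (Phi V5.P V5.D 1 1) ⟨7, 110, 6, 35, 9, 304, 8, 126, 9, 224⟩ :=
  Good.n4 (Good.n2 (Good.n3 L04452 (Good.n4 (Good.n2 (Good.n3 L04453 L04454) L04455) L04456)) L04457) L04458
theorem g00632 : Good (Phi V5.P V5.D 1 1) ⟨7, 110, 6, 35, 8, 152, 6, 31, 8, 112⟩ :=
  Good.n3 (Good.n4 (Good.n3 L04446 (Good.n4 (Good.n3 L04447 (Good.n2 L04448 L04449)) L04450)) L04451) (Good.n4 (Good.n2 (Good.n3 g00631 L04459) L04460) L04461)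
theorem g00633 : Good (Phi V5.P V5.D 1 1) ⟨7, 110, 6, 35, 6, 38, 5, 15, 7, 56⟩ :=
  Good.n2 (Good.n3 L04445 (Good.n4 (Good.n2 g00632 L04462) L04463)) (Good.n3 (Good.n4 (Good.n2 L04464 L04465) L04466) L04467)
theorem g00634 : Good (Phi V5.P V5.D 1 1) ⟨7, 110, 6, 35, 5, 19, 4, 7, 6, 28⟩ :=
  Good.n3 (Good.n4 (Good.n3 L04441 (Good.n2 L04442 L04443)) L04444) (Good.n2 (Good.n4 g00633 L04468) L04469)
theorem g00635 : Good (Phi V5.P V5.D 1 1) ⟨7, 110, 6, 35, 3, 4, 2, 1, 4, 7⟩ :=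
  Good.n3 L04437 (Good.n4 (Good.n2 L04438 (Good.n3 L04439 (Good.n4 (Good.n2 L04440 g00634) L04470))) L04471)
theorem g00636 : Good (Phi V5.P V5.D 1 1) ⟨7, 110, 6, 35, 4, 10, 2, 1, 4, 7⟩ :=
  Good.n4 (Good.n3 L04472 (Good.n2 (Good.n4 (Good.n3 (Good.n3 L04473 L04474) L04475) L04476) L04477)) L04478
theorem g00637 : Good (Phi V5.P V5.D 1 1) ⟨7, 110, 5, 17, 1, 1, 1, 0, 4, 7⟩ :=
  Good.n2 (Good.n3 L04348 (Good.n1 (Good.n0 g00630 L04436) (Good.n2 g00635 (Good.n2 g00636 L04479)))) L04480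
theorem g00638 : Good (Phi V5.P V5.D 1 1) ⟨5, 27, 5, 17, 1, 1, 1, 0, 4, 7⟩ :=
  Good.n0 (Good.n0 (Good.n1 (Good.n0 L04082 g00590) L04164) (Good.n2 (Good.n3 L04165 g00617) L04347)) (Good.n0 g00637 L04481)
theorem g00639 : Good (Phi V5.P V5.D 1 1) ⟨11, 1763, 10, 576, 9, 304, 8, 126, 9, 224⟩ :=
  Good.n4 (Good.n2 (Good.n3 L04502 (Good.n4 (Good.n2 (Good.n3 L04503 L04504) L04505) L04506)) L04507) L04508
theorem g00640 : Good (Phi V5.P V5.D 1 1) ⟨11, 1763, 10, 576, 8, 152, 6, 31, 8, 112⟩ :=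
  Good.n3 (Good.n4 (Good.n3 L04496 (Good.n4 (Good.n3 L04497 (Good.n2 L04498 L04499)) L04500)) L04501) (Good.n4 (Good.n2 (Good.n3 g00639 L04509) L04510) L04511)
theorem g00641 : Good (Phi V5.P V5.D 1 1) ⟨11, 1763, 10, 576, 6, 38, 5, 15, 7, 56⟩ :=
  Good.n2 (Good.n3 L04495 (Good.n4 (Good.n2 g00640 L04512) L04513)) (Good.n3 (Good.n4 (Good.n2 L04514 L04515) L04516) L04517)
theorem g00642 : Good (Phi V5.P V5.D 1 1) ⟨11, 1763, 10, 576, 5, 19, 4, 7, 6, 28⟩ :=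
  Good.n3 (Good.n4 (Good.n3 L04491 (Good.n2 L04492 L04493)) L04494) (Good.n2 (Good.n4 g00641 L04518) L04519)
theorem g00643 : Good (Phi V5.P V5.D 1 1) ⟨11, 1763, 9, 288, 3, 4, 3, 3, 4, 7⟩ :=
  Good.n4 (Good.n2 L04488 (Good.n3 L04489 (Good.n4 (Good.n2 L04490 (Good.n1 g00642 L04520)) L04521))) L04522
theorem g00644 : Good (Phi V5.P V5.D 1 1) ⟨11, 1763, 9, 288, 4, 10, 2, 1, 4, 7⟩ :=
  Good.n4 (Good.n3 L04523 (Good.n2 (Good.n4 (Good.n3 (Good.n3 L04524 L04525) L04526) L04527) L04528)) L04529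
theorem g00645 : Good (Phi V5.P V5.D 1 1) ⟨9, 440, 8, 144, 2, 2, 2, 1, 4, 7⟩ :=
  Good.n0 L04485 (Good.n1 (Good.n0 L04486 (Good.n2 (Good.n3 L04487 g00643) (Good.n2 g00644 L04530))) L04531)
theorem g00646 : Good (Phi V5.P V5.D 1 1) ⟨9, 441, 7, 72, 9, 304, 8, 126, 9, 224⟩ :=
  Good.n4 (Good.n2 (Good.n3 L04548 (Good.n4 (Good.n2 (Good.n3 L04549 L04550) L04551) L04552)) L04553) L04554
theorem g00647 : Good (Phi V5.P V5.D 1 1) ⟨9, 441, 7, 72, 8, 152, 6, 31, 8, 112⟩ :=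
  Good.n3 (Good.n4 (Good.n3 L04542 (Good.n4 (Good.n3 L04543 (Good.n2 L04544 L04545)) L04546)) L04547) (Good.n4 (Good.n2 (Good.n3 g00646 L04555) L04556) L04557)
theorem g00648 : Good (Phi V5.P V5.D 1 1) ⟨9, 441, 7, 72, 6, 38, 5, 15, 7, 56⟩ :=
  Good.n2 (Good.n3 L04541 (Good.n4 (Good.n2 g00647 L04558) L04559)) (Good.n3 (Good.n4 (Good.n2 L04560 L04561) L04562) L04563)
theorem g00649 : Good (Phi V5.P V5.D 1 1) ⟨9, 441, 7, 72, 5, 19, 4, 7, 6, 28⟩ :=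
  Good.n3 (Good.n4 (Good.n3 L04537 (Good.n2 L04538 L04539)) L04540) (Good.n2 (Good.n4 g00648 L04564) L04565)
theorem g00650 : Good (Phi V5.P V5.D 1 1) ⟨9, 441, 7, 72, 3, 4, 2, 1, 4, 7⟩ :=
  Good.n3 L04533 (Good.n4 (Good.n2 L04534 (Good.n3 L04535 (Good.n4 (Good.n2 L04536 g00649) L04566))) L04567)
theorem g00651 : Good (Phi V5.P V5.D 1 1) ⟨9, 441, 7, 72, 4, 10, 2, 1, 4, 7⟩ :=
  Good.n4 (Good.n3 L04568 (Good.n2 (Good.n4 (Good.n3 (Good.n3 L04569 L04570) L04571) L04572) L04573)) L04574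
theorem g00652 : Good (Phi V5.P V5.D 1 1) ⟨8, 221, 7, 72, 9, 304, 8, 126, 9, 224⟩ :=
  Good.n4 (Good.n2 (Good.n3 L04591 (Good.n4 (Good.n2 (Good.n3 L04592 L04593) L04594) L04595)) L04596) L04597
theorem g00653 : Good (Phi V5.P V5.D 1 1) ⟨8, 221, 7, 72, 8, 152, 6, 31, 8, 112⟩ :=
  Good.n3 (Good.n4 (Good.n3 L04585 (Good.n4 (Good.n3 L04586 (Good.n2 L04587 L04588)) L04589)) L04590) (Good.n4 (Good.n2 (Good.n3 g00652 L04598) L04599) L04600)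
theorem g00654 : Good (Phi V5.P V5.D 1 1) ⟨8, 221, 7, 72, 6, 38, 5, 15, 7, 56⟩ :=
  Good.n2 (Good.n3 L04584 (Good.n4 (Good.n2 g00653 L04601) L04602)) (Good.n3 (Good.n4 (Good.n2 L04603 L04604) L04605) L04606)
theorem g00655 : Good (Phi V5.P V5.D 1 1) ⟨8, 221, 7, 72, 5, 19, 4, 7, 6, 28⟩ :=
  Good.n3 (Good.n4 (Good.n3 L04580 (Good.n2 L04581 L04582)) L04583) (Good.n2 (Good.n4 g00654 L04607) L04608)
theorem g00656 : Good (Phi V5.P V5.D 1 1) ⟨8, 221, 7, 72, 3, 4, 2, 1, 4, 7⟩ :=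
  Good.n3 L04576 (Good.n4 (Good.n2 L04577 (Good.n3 L04578 (Good.n4 (Good.n2 L04579 g00655) L04609))) L04610)
theorem g00657 : Good (Phi V5.P V5.D 1 1) ⟨8, 221, 7, 72, 4, 10, 2, 1, 4, 7⟩ :=
  Good.n4 (Good.n3 L04611 (Good.n2 (Good.n4 (Good.n3 (Good.n3 L04612 L04613) L04614) L04615) L04616)) L04617
theorem g00658 : Good (Phi V5.P V5.D 1 1) ⟨7, 110, 7, 72, 2, 2, 2, 1, 4, 7⟩ :=
  Good.n0 (Good.n0 (Good.n1 g00645 L04532) (Good.n2 g00650 (Good.n2 g00651 L04575))) (Good.n2 g00656 (Good.n2 g00657 L04618))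
theorem g00659 : Good (Phi V5.P V5.D 1 1) ⟨9, 442, 8, 146, 9, 304, 8, 126, 9, 224⟩ :=
  Good.n4 (Good.n2 (Good.n3 L04637 (Good.n4 (Good.n2 (Good.n3 L04638 L04639) L04640) L04641)) L04642) L04643
theorem g00660 : Good (Phi V5.P V5.D 1 1) ⟨9, 442, 8, 146, 8, 152, 6, 31, 8, 112⟩ :=
  Good.n3 (Good.n4 (Good.n3 L04631 (Good.n4 (Good.n3 L04632 (Good.n2 L04633 L04634)) L04635)) L04636) (Good.n4 (Good.n2 (Good.n3 g00659 L04644) L04645) L04646)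
theorem g00661 : Good (Phi V5.P V5.D 1 1) ⟨9, 442, 8, 146, 6, 38, 5, 15, 7, 56⟩ :=
  Good.n2 (Good.n3 L04630 (Good.n4 (Good.n2 g00660 L04647) L04648)) (Good.n3 (Good.n4 (Good.n2 L04649 L04650) L04651) L04652)
theorem g00662 : Good (Phi V5.P V5.D 1 1) ⟨9, 442, 8, 146, 5, 19, 4, 7, 6, 28⟩ :=
  Good.n3 (Good.n4 (Good.n3 L04626 (Good.n2 L04627 L04628)) L04629) (Good.n2 (Good.n4 g00661 L04653) L04654)
theorem g00663 : Good (Phi V5.P V5.D 1 1) ⟨9, 442, 8, 146, 3, 4, 2, 1, 4, 7⟩ :=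
  Good.n3 L04622 (Good.n4 (Good.n2 L04623 (Good.n3 L04624 (Good.n4 (Good.n2 L04625 g00662) L04655))) L04656)
theorem g00664 : Good (Phi V5.P V5.D 1 1) ⟨9, 442, 8, 146, 4, 10, 2, 1, 4, 7⟩ :=
  Good.n4 (Good.n3 L04657 (Good.n2 (Good.n4 (Good.n3 (Good.n3 L04658 L04659) L04660) L04661) L04662)) L04663
theorem g00665 : Good (Phi V5.P V5.D 1 1) ⟨11, 1771, 10, 588, 9, 304, 8, 126, 9, 224⟩ :=
  Good.n4 (Good.n2 (Good.n3 L04682 (Good.n4 (Good.n2 (Good.n3 L04683 L04684) L04685) L04686)) L04687) L04688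
theorem g00666 : Good (Phi V5.P V5.D 1 1) ⟨11, 1771, 10, 588, 8, 152, 6, 31, 8, 112⟩ :=
  Good.n3 (Good.n4 (Good.n3 L04676 (Good.n4 (Good.n3 L04677 (Good.n2 L04678 L04679)) L04680)) L04681) (Good.n4 (Good.n2 (Good.n3 g00665 L04689) L04690) L04691)
theorem g00667 : Good (Phi V5.P V5.D 1 1) ⟨11, 1771, 10, 588, 6, 38, 5, 15, 7, 56⟩ :=
  Good.n2 (Good.n3 L04675 (Good.n4 (Good.n2 g00666 L04692) L04693)) (Good.n3 (Good.n4 (Good.n2 L04694 L04695) L04696) L04697)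
theorem g00668 : Good (Phi V5.P V5.D 1 1) ⟨11, 1771, 10, 588, 5, 19, 4, 7, 6, 28⟩ :=
  Good.n3 (Good.n4 (Good.n3 L04671 (Good.n2 L04672 L04673)) L04674) (Good.n2 (Good.n4 g00667 L04698) L04699)
theorem g00669 : Good (Phi V5.P V5.D 1 1) ⟨11, 1771, 10, 588, 3, 4, 2, 1, 4, 7⟩ :=
  Good.n3 L04667 (Good.n4 (Good.n2 L04668 (Good.n3 L04669 (Good.n4 (Good.n2 L04670 g00668) L04700))) L04701)
theorem g00670 : Good (Phi V5.P V5.D 1 1) ⟨11, 1771, 10, 588, 4, 10, 2, 1, 4, 7⟩ :=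
  Good.n4 (Good.n3 L04702 (Good.n2 (Good.n4 (Good.n3 (Good.n3 L04703 L04704) L04705) L04706) L04707)) L04708
theorem g00671 : Good (Phi V5.P V5.D 1 1) ⟨9, 442, 8, 147, 2, 2, 2, 1, 4, 7⟩ :=
  Good.n0 L04665 (Good.n1 (Good.n0 L04666 (Good.n1 (Good.n2 g00669 (Good.n2 g00670 L04709)) L04710)) L04711)
theorem g00672 : Good (Phi V5.P V5.D 1 1) ⟨9, 443, 7, 73, 9, 304, 8, 126, 9, 224⟩ :=
  Good.n4 (Good.n2 (Good.n3 L04727 (Good.n4 (Good.n2 (Good.n3 L04728 L04729) L04730) L04731)) L04732) L04733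
theorem g00673 : Good (Phi V5.P V5.D 1 1) ⟨9, 443, 7, 73, 8, 152, 6, 31, 8, 112⟩ :=
  Good.n3 (Good.n4 (Good.n3 L04721 (Good.n4 (Good.n3 L04722 (Good.n2 L04723 L04724)) L04725)) L04726) (Good.n4 (Good.n2 (Good.n3 g00672 L04734) L04735) L04736)
theorem g00674 : Good (Phi V5.P V5.D 1 1) ⟨9, 443, 7, 73, 6, 38, 5, 15, 7, 56⟩ :=
  Good.n2 (Good.n3 L04720 (Good.n4 (Good.n2 g00673 L04737) L04738)) (Good.n3 (Good.n4 (Good.n2 L04739 L04740) L04741) L04742)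
theorem g00675 : Good (Phi V5.P V5.D 1 1) ⟨9, 443, 7, 73, 5, 19, 4, 7, 6, 28⟩ :=
  Good.n3 (Good.n4 (Good.n3 L04716 (Good.n2 L04717 L04718)) L04719) (Good.n2 (Good.n4 g00674 L04743) L04744)
theorem g00676 : Good (Phi V5.P V5.D 1 1) ⟨9, 443, 7, 73, 3, 4, 2, 1, 4, 7⟩ :=
  Good.n3 L04712 (Good.n4 (Good.n2 L04713 (Good.n3 L04714 (Good.n4 (Good.n2 L04715 g00675) L04745))) L04746)
theorem g00677 : Good (Phi V5.P V5.D 1 1) ⟨9, 443, 7, 73, 4, 10, 2, 1, 4, 7⟩ :=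
  Good.n4 (Good.n3 L04747 (Good.n2 (Good.n4 (Good.n3 (Good.n3 L04748 L04749) L04750) L04751) L04752)) L04753
theorem g00678 : Good (Phi V5.P V5.D 1 1) ⟨8, 221, 7, 73, 2, 2, 2, 1, 4, 7⟩ :=
  Good.n0 (Good.n1 (Good.n2 g00663 (Good.n2 g00664 L04664)) g00671) (Good.n2 g00676 (Good.n2 g00677 L04754))
theorem g00679 : Good (Phi V5.P V5.D 1 1) ⟨7, 110, 6, 36, 1, 1, 1, 0, 4, 7⟩ :=
  Good.n1 (Good.n2 (Good.n3 L04484 g00658) L04619) (Good.n0 L04620 (Good.n2 (Good.n3 L04621 g00678) L04755))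
theorem g00680 : Good (Phi V5.P V5.D 1 1) ⟨12, 3552, 10, 577, 9, 304, 8, 126, 9, 224⟩ :=
  Good.n4 (Good.n2 (Good.n3 L04773 (Good.n4 (Good.n2 (Good.n3 L04774 L04775) L04776) L04777)) L04778) L04779
theorem g00681 : Good (Phi V5.P V5.D 1 1) ⟨12, 3552, 10, 577, 8, 152, 6, 31, 8, 112⟩ :=
  Good.n3 (Good.n4 (Good.n3 L04767 (Good.n4 (Good.n3 L04768 (Good.n2 L04769 L04770)) L04771)) L04772) (Good.n4 (Good.n2 (Good.n3 g00680 L04780) L04781) L04782)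
theorem g00682 : Good (Phi V5.P V5.D 1 1) ⟨12, 3552, 10, 577, 6, 38, 5, 15, 7, 56⟩ :=
  Good.n2 (Good.n3 L04766 (Good.n4 (Good.n2 g00681 L04783) L04784)) (Good.n3 (Good.n4 (Good.n2 L04785 L04786) L04787) L04788)
theorem g00683 : Good (Phi V5.P V5.D 1 1) ⟨12, 3552, 10, 577, 5, 19, 4, 7, 6, 28⟩ :=
  Good.n3 (Good.n4 (Good.n3 L04762 (Good.n2 L04763 L04764)) L04765) (Good.n2 (Good.n4 g00682 L04789) L04790)
theorem g00684 : Good (Phi V5.P V5.D 1 1) ⟨12, 3552, 10, 577, 3, 4, 2, 1, 4, 7⟩ :=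
  Good.n3 L04758 (Good.n4 (Good.n2 L04759 (Good.n3 L04760 (Good.n4 (Good.n2 L04761 g00683) L04791))) L04792)
theorem g00685 : Good (Phi V5.P V5.D 1 1) ⟨12, 3552, 10, 577, 4, 10, 2, 1, 4, 7⟩ :=
  Good.n4 (Good.n3 L04793 (Good.n2 (Good.n4 (Good.n3 (Good.n3 L04794 L04795) L04796) L04797) L04798)) L04799
theorem g00686 : Good (Phi V5.P V5.D 1 1) ⟨10, 888, 9, 289, 9, 304, 8, 126, 9, 224⟩ :=
  Good.n4 (Good.n2 (Good.n3 L04818 (Good.n4 (Good.n2 (Good.n3 L04819 L04820) L04821) L04822)) L04823) L04824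
theorem g00687 : Good (Phi V5.P V5.D 1 1) ⟨10, 888, 9, 289, 8, 152, 6, 31, 8, 112⟩ :=
  Good.n3 (Good.n4 (Good.n3 L04812 (Good.n4 (Good.n3 L04813 (Good.n2 L04814 L04815)) L04816)) L04817) (Good.n4 (Good.n2 (Good.n3 g00686 L04825) L04826) L04827)
theorem g00688 : Good (Phi V5.P V5.D 1 1) ⟨10, 888, 9, 289, 6, 38, 5, 15, 7, 56⟩ :=
  Good.n2 (Good.n3 L04811 (Good.n4 (Good.n2 g00687 L04828) L04829)) (Good.n3 (Good.n4 (Good.n2 L04830 L04831) L04832) L04833)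
theorem g00689 : Good (Phi V5.P V5.D 1 1) ⟨10, 888, 9, 289, 5, 19, 4, 7, 6, 28⟩ :=
  Good.n3 (Good.n4 (Good.n3 L04807 (Good.n2 L04808 L04809)) L04810) (Good.n2 (Good.n4 g00688 L04834) L04835)
theorem g00690 : Good (Phi V5.P V5.D 1 1) ⟨10, 888, 9, 289, 3, 4, 2, 1, 4, 7⟩ :=
  Good.n3 L04803 (Good.n4 (Good.n2 L04804 (Good.n3 L04805 (Good.n4 (Good.n2 L04806 g00689) L04836))) L04837)
theorem g00691 : Good (Phi V5.P V5.D 1 1) ⟨10, 888, 9, 289, 4, 10, 2, 1, 4, 7⟩ :=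
  Good.n4 (Good.n3 L04838 (Good.n2 (Good.n4 (Good.n3 (Good.n3 L04839 L04840) L04841) L04842) L04843)) L04844
theorem g00692 : Good (Phi V5.P V5.D 1 1) ⟨10, 888, 8, 144, 2, 2, 2, 1, 4, 7⟩ :=
  Good.n1 (Good.n0 (Good.n1 L04757 (Good.n0 (Good.n2 g00684 (Good.n2 g00685 L04800)) L04801)) L04802) (Good.n2 g00690 (Good.n2 g00691 L04845))
theorem g00693 : Good (Phi V5.P V5.D 1 1) ⟨9, 444, 8, 145, 9, 304, 8, 126, 9, 224⟩ :=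
  Good.n4 (Good.n2 (Good.n3 L04862 (Good.n4 (Good.n2 (Good.n3 L04863 L04864) L04865) L04866)) L04867) L04868
theorem g00694 : Good (Phi V5.P V5.D 1 1) ⟨9, 444, 8, 145, 8, 152, 6, 31, 8, 112⟩ :=
  Good.n3 (Good.n4 (Good.n3 L04856 (Good.n4 (Good.n3 L04857 (Good.n2 L04858 L04859)) L04860)) L04861) (Good.n4 (Good.n2 (Good.n3 g00693 L04869) L04870) L04871)
theorem g00695 : Good (Phi V5.P V5.D 1 1) ⟨9, 444, 8, 145, 6, 38, 5, 15, 7, 56⟩ :=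
  Good.n2 (Good.n3 L04855 (Good.n4 (Good.n2 g00694 L04872) L04873)) (Good.n3 (Good.n4 (Good.n2 L04874 L04875) L04876) L04877)
theorem g00696 : Good (Phi V5.P V5.D 1 1) ⟨9, 444, 8, 145, 5, 19, 4, 7, 6, 28⟩ :=
  Good.n3 (Good.n4 (Good.n3 L04851 (Good.n2 L04852 L04853)) L04854) (Good.n2 (Good.n4 g00695 L04878) L04879)
theorem g00697 : Good (Phi V5.P V5.D 1 1) ⟨9, 444, 8, 145, 3, 4, 2, 1, 4, 7⟩ :=
  Good.n3 L04847 (Good.n4 (Good.n2 L04848 (Good.n3 L04849 (Good.n4 (Good.n2 L04850 g00696) L04880))) L04881)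
theorem g00698 : Good (Phi V5.P V5.D 1 1) ⟨9, 444, 8, 145, 4, 10, 2, 1, 4, 7⟩ :=
  Good.n4 (Good.n3 L04882 (Good.n2 (Good.n4 (Good.n3 (Good.n3 L04883 L04884) L04885) L04886) L04887)) L04888
theorem g00699 : Good (Phi V5.P V5.D 1 1) ⟨8, 222, 7, 73, 9, 304, 8, 126, 9, 224⟩ :=
  Good.n4 (Good.n2 (Good.n3 L04906 (Good.n4 (Good.n2 (Good.n3 L04907 L04908) L04909) L04910)) L04911) L04912
theorem g00700 : Good (Phi V5.P V5.D 1 1) ⟨8, 222, 7, 73, 8, 152, 6, 31, 8, 112⟩ :=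
  Good.n3 (Good.n4 (Good.n3 L04900 (Good.n4 (Good.n3 L04901 (Good.n2 L04902 L04903)) L04904)) L04905) (Good.n4 (Good.n2 (Good.n3 g00699 L04913) L04914) L04915)
theorem g00701 : Good (Phi V5.P V5.D 1 1) ⟨8, 222, 7, 73, 6, 38, 5, 15, 7, 56⟩ :=
  Good.n2 (Good.n3 L04899 (Good.n4 (Good.n2 g00700 L04916) L04917)) (Good.n3 (Good.n4 (Good.n2 L04918 L04919) L04920) L04921)
theorem g00702 : Good (Phi V5.P V5.D 1 1) ⟨8, 222, 7, 73, 5, 19, 4, 7, 6, 28⟩ :=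
  Good.n3 (Good.n4 (Good.n3 L04895 (Good.n2 L04896 L04897)) L04898) (Good.n2 (Good.n4 g00701 L04922) L04923)
theorem g00703 : Good (Phi V5.P V5.D 1 1) ⟨8, 222, 7, 73, 3, 4, 2, 1, 4, 7⟩ :=
  Good.n3 L04891 (Good.n4 (Good.n2 L04892 (Good.n3 L04893 (Good.n4 (Good.n2 L04894 g00702) L04924))) L04925)
theorem g00704 : Good (Phi V5.P V5.D 1 1) ⟨8, 222, 7, 73, 4, 10, 2, 1, 4, 7⟩ :=
  Good.n4 (Good.n3 L04926 (Good.n2 (Good.n4 (Good.n3 (Good.n3 L04927 L04928) L04929) L04930) L04931)) L04932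
theorem g00705 : Good (Phi V5.P V5.D 1 1) ⟨8, 222, 6, 36, 2, 2, 2, 1, 4, 7⟩ :=
  Good.n1 (Good.n0 (Good.n1 (Good.n0 g00692 L04846) (Good.n2 g00697 (Good.n2 g00698 L04889))) L04890) (Good.n2 g00703 (Good.n2 g00704 L04933))
theorem g00706 : Good (Phi V5.P V5.D 1 1) ⟨10, 887, 8, 148, 9, 304, 8, 126, 9, 224⟩ :=
  Good.n4 (Good.n2 (Good.n3 L04955 (Good.n4 (Good.n2 (Good.n3 L04956 L04957) L04958) L04959)) L04960) L04961
theorem g00707 : Good (Phi V5.P V5.D 1 1) ⟨10, 887, 8, 148, 8, 152, 6, 31, 8, 112⟩ :=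
  Good.n3 (Good.n4 (Good.n3 L04949 (Good.n4 (Good.n3 L04950 (Good.n2 L04951 L04952)) L04953)) L04954) (Good.n4 (Good.n2 (Good.n3 g00706 L04962) L04963) L04964)
theorem g00708 : Good (Phi V5.P V5.D 1 1) ⟨10, 887, 8, 148, 6, 38, 5, 15, 7, 56⟩ :=
  Good.n2 (Good.n3 L04948 (Good.n4 (Good.n2 g00707 L04965) L04966)) (Good.n3 (Good.n4 (Good.n2 L04967 L04968) L04969) L04970)
theorem g00709 : Good (Phi V5.P V5.D 1 1) ⟨10, 887, 8, 148, 5, 19, 4, 7, 6, 28⟩ :=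
  Good.n3 (Good.n4 (Good.n3 L04944 (Good.n2 L04945 L04946)) L04947) (Good.n2 (Good.n4 g00708 L04971) L04972)
theorem g00710 : Good (Phi V5.P V5.D 1 1) ⟨10, 887, 8, 148, 3, 4, 2, 1, 4, 7⟩ :=
  Good.n3 L04940 (Good.n4 (Good.n2 L04941 (Good.n3 L04942 (Good.n4 (Good.n2 L04943 g00709) L04973))) L04974)
theorem g00711 : Good (Phi V5.P V5.D 1 1) ⟨10, 887, 8, 148, 4, 10, 2, 1, 4, 7⟩ :=
  Good.n4 (Good.n3 L04975 (Good.n2 (Good.n4 (Good.n3 (Good.n3 L04976 L04977) L04978) L04979) L04980)) L04981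
theorem g00712 : Good (Phi V5.P V5.D 1 1) ⟨9, 443, 7, 74, 1, 1, 1, 0, 4, 7⟩ :=
  Good.n1 (Good.n0 L04938 (Good.n2 (Good.n3 L04939 (Good.n2 g00710 (Good.n2 g00711 L04982))) L04983)) L04984
theorem g00713 : Good (Phi V5.P V5.D 1 1) ⟨8, 222, 7, 74, 9, 304, 8, 126, 9, 224⟩ :=
  Good.n4 (Good.n2 (Good.n3 L05002 (Good.n4 (Good.n2 (Good.n3 L05003 L05004) L05005) L05006)) L05007) L05008
theorem g00714 : Good (Phi V5.P V5.D 1 1) ⟨8, 222, 7, 74, 8, 152, 6, 31, 8, 112⟩ :=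
  Good.n3 (Good.n4 (Good.n3 L04996 (Good.n4 (Good.n3 L04997 (Good.n2 L04998 L04999)) L05000)) L05001) (Good.n4 (Good.n2 (Good.n3 g00713 L05009) L05010) L05011)
theorem g00715 : Good (Phi V5.P V5.D 1 1) ⟨8, 222, 7, 74, 6, 38, 5, 15, 7, 56⟩ :=
  Good.n2 (Good.n3 L04995 (Good.n4 (Good.n2 g00714 L05012) L05013)) (Good.n3 (Good.n4 (Good.n2 L05014 L05015) L05016) L05017)
theorem g00716 : Good (Phi V5.P V5.D 1 1) ⟨8, 222, 7, 74, 5, 19, 4, 7, 6, 28⟩ :=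
  Good.n3 (Good.n4 (Good.n3 L04991 (Good.n2 L04992 L04993)) L04994) (Good.n2 (Good.n4 g00715 L05018) L05019)
theorem g00717 : Good (Phi V5.P V5.D 1 1) ⟨8, 222, 7, 74, 3, 4, 2, 1, 4, 7⟩ :=
  Good.n3 L04987 (Good.n4 (Good.n2 L04988 (Good.n3 L04989 (Good.n4 (Good.n2 L04990 g00716) L05020))) L05021)
theorem g00718 : Good (Phi V5.P V5.D 1 1) ⟨8, 222, 7, 74, 4, 10, 2, 1, 4, 7⟩ :=
  Good.n4 (Good.n3 L05022 (Good.n2 (Good.n4 (Good.n3 (Good.n3 L05023 L05024) L05025) L05026) L05027)) L05028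
theorem g00719 : Good (Phi V5.P V5.D 1 1) ⟨12, 3568, 10, 593, 9, 304, 8, 126, 9, 224⟩ :=
  Good.n4 (Good.n2 (Good.n3 L05046 (Good.n4 (Good.n2 (Good.n3 L05047 L05048) L05049) L05050)) L05051) L05052
theorem g00720 : Good (Phi V5.P V5.D 1 1) ⟨12, 3568, 10, 593, 8, 152, 6, 31, 8, 112⟩ :=
  Good.n3 (Good.n4 (Good.n3 L05040 (Good.n4 (Good.n3 L05041 (Good.n2 L05042 L05043)) L05044)) L05045) (Good.n4 (Good.n2 (Good.n3 g00719 L05053) L05054) L05055)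
theorem g00721 : Good (Phi V5.P V5.D 1 1) ⟨12, 3568, 10, 593, 6, 38, 5, 15, 7, 56⟩ :=
  Good.n2 (Good.n3 L05039 (Good.n4 (Good.n2 g00720 L05056) L05057)) (Good.n3 (Good.n4 (Good.n2 L05058 L05059) L05060) L05061)
theorem g00722 : Good (Phi V5.P V5.D 1 1) ⟨12, 3568, 10, 593, 5, 19, 4, 7, 6, 28⟩ :=
  Good.n3 (Good.n4 (Good.n3 L05035 (Good.n2 L05036 L05037)) L05038) (Good.n2 (Good.n4 g00721 L05062) L05063)
theorem g00723 : Good (Phi V5.P V5.D 1 1) ⟨10, 892, 9, 297, 9, 304, 8, 126, 9, 224⟩ :=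
  Good.n4 (Good.n2 (Good.n3 L05077 (Good.n4 (Good.n2 (Good.n3 L05078 L05079) L05080) L05081)) L05082) L05083
theorem g00724 : Good (Phi V5.P V5.D 1 1) ⟨10, 892, 9, 297, 8, 152, 6, 31, 8, 112⟩ :=
  Good.n3 (Good.n4 (Good.n3 L05071 (Good.n4 (Good.n3 L05072 (Good.n2 L05073 L05074)) L05075)) L05076) (Good.n4 (Good.n2 (Good.n3 g00723 L05084) L05085) L05086)
theorem g00725 : Good (Phi V5.P V5.D 1 1) ⟨10, 892, 9, 297, 6, 38, 5, 15, 7, 56⟩ :=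
  Good.n2 (Good.n3 L05070 (Good.n4 (Good.n2 g00724 L05087) L05088)) (Good.n3 (Good.n4 (Good.n2 L05089 L05090) L05091) L05092)
theorem g00726 : Good (Phi V5.P V5.D 1 1) ⟨10, 892, 9, 297, 5, 19, 4, 7, 6, 28⟩ :=
  Good.n3 (Good.n4 (Good.n3 L05066 (Good.n2 L05067 L05068)) L05069) (Good.n2 (Good.n4 g00725 L05093) L05094)
theorem g00727 : Good (Phi V5.P V5.D 1 1) ⟨10, 892, 8, 148, 4, 9, 4, 7, 5, 14⟩ :=
  Good.n4 (Good.n2 L05033 (Good.n1 (Good.n0 (Good.n1 L05034 (Good.n0 g00722 L05064)) L05065) g00726)) L05095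
theorem g00728 : Good (Phi V5.P V5.D 1 1) ⟨10, 892, 8, 148, 4, 10, 2, 1, 4, 7⟩ :=
  Good.n4 (Good.n3 L05097 (Good.n2 (Good.n4 (Good.n3 (Good.n3 L05098 L05099) L05100) L05101) L05102)) L05103
theorem g00729 : Good (Phi V5.P V5.D 1 1) ⟨10, 892, 8, 148, 2, 2, 2, 1, 4, 7⟩ :=
  Good.n2 (Good.n3 L05030 (Good.n4 (Good.n2 L05031 (Good.n3 L05032 g00727)) L05096)) (Good.n2 g00728 L05104)
theorem g00730 : Good (Phi V5.P V5.D 1 1) ⟨9, 446, 8, 149, 9, 304, 8, 126, 9, 224⟩ :=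
  Good.n4 (Good.n2 (Good.n3 L05121 (Good.n4 (Good.n2 (Good.n3 L05122 L05123) L05124) L05125)) L05126) L05127
theorem g00731 : Good (Phi V5.P V5.D 1 1) ⟨9, 446, 8, 149, 8, 152, 6, 31, 8, 112⟩ :=
  Good.n3 (Good.n4 (Good.n3 L05115 (Good.n4 (Good.n3 L05116 (Good.n2 L05117 L05118)) L05119)) L05120) (Good.n4 (Good.n2 (Good.n3 g00730 L05128) L05129) L05130)
theorem g00732 : Good (Phi V5.P V5.D 1 1) ⟨9, 446, 8, 149, 6, 38, 5, 15, 7, 56⟩ :=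
  Good.n2 (Good.n3 L05114 (Good.n4 (Good.n2 g00731 L05131) L05132)) (Good.n3 (Good.n4 (Good.n2 L05133 L05134) L05135) L05136)
theorem g00733 : Good (Phi V5.P V5.D 1 1) ⟨9, 446, 8, 149, 5, 19, 4, 7, 6, 28⟩ :=
  Good.n3 (Good.n4 (Good.n3 L05110 (Good.n2 L05111 L05112)) L05113) (Good.n2 (Good.n4 g00732 L05137) L05138)
theorem g00734 : Good (Phi V5.P V5.D 1 1) ⟨9, 446, 8, 149, 3, 4, 2, 1, 4, 7⟩ :=
  Good.n3 L05106 (Good.n4 (Good.n2 L05107 (Good.n3 L05108 (Good.n4 (Good.n2 L05109 g00733) L05139))) L05140)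
theorem g00735 : Good (Phi V5.P V5.D 1 1) ⟨9, 446, 8, 149, 4, 10, 2, 1, 4, 7⟩ :=
  Good.n4 (Good.n3 L05141 (Good.n2 (Good.n4 (Good.n3 (Good.n3 L05142 L05143) L05144) L05145) L05146)) L05147
theorem g00736 : Good (Phi V5.P V5.D 1 1) ⟨7, 111, 7, 74, 2, 2, 2, 1, 4, 7⟩ :=
  Good.n0 (Good.n2 g00717 (Good.n2 g00718 L05029)) (Good.n0 (Good.n1 (Good.n0 g00729 L05105) (Good.n2 g00734 (Good.n2 g00735 L05148))) L05149)
theorem g00737 : Good (Phi V5.P V5.D 1 1) ⟨11, 1779, 10, 600, 9, 304, 8, 126, 9, 224⟩ :=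
  Good.n4 (Good.n2 (Good.n3 L05167 (Good.n4 (Good.n2 (Good.n3 L05168 L05169) L05170) L05171)) L05172) L05173
theorem g00738 : Good (Phi V5.P V5.D 1 1) ⟨11, 1779, 10, 600, 8, 152, 6, 31, 8, 112⟩ :=
  Good.n3 (Good.n4 (Good.n3 L05161 (Good.n4 (Good.n3 L05162 (Good.n2 L05163 L05164)) L05165)) L05166) (Good.n4 (Good.n2 (Good.n3 g00737 L05174) L05175) L05176)
theorem g00739 : Good (Phi V5.P V5.D 1 1) ⟨11, 1779, 10, 600, 6, 38, 5, 15, 7, 56⟩ :=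
  Good.n2 (Good.n3 L05160 (Good.n4 (Good.n2 g00738 L05177) L05178)) (Good.n3 (Good.n4 (Good.n2 L05179 L05180) L05181) L05182)
theorem g00740 : Good (Phi V5.P V5.D 1 1) ⟨11, 1779, 10, 600, 5, 19, 4, 7, 6, 28⟩ :=
  Good.n3 (Good.n4 (Good.n3 L05156 (Good.n2 L05157 L05158)) L05159) (Good.n2 (Good.n4 g00739 L05183) L05184)
theorem g00741 : Good (Phi V5.P V5.D 1 1) ⟨11, 1779, 10, 600, 3, 4, 2, 1, 4, 7⟩ :=
  Good.n3 L05152 (Good.n4 (Good.n2 L05153 (Good.n3 L05154 (Good.n4 (Good.n2 L05155 g00740) L05185))) L05186)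
theorem g00742 : Good (Phi V5.P V5.D 1 1) ⟨11, 1779, 10, 600, 4, 10, 2, 1, 4, 7⟩ :=
  Good.n4 (Good.n3 L05187 (Good.n2 (Good.n4 (Good.n3 (Good.n3 L05188 L05189) L05190) L05191) L05192)) L05193
theorem g00743 : Good (Phi V5.P V5.D 1 1) ⟨9, 444, 8, 150, 2, 2, 2, 1, 4, 7⟩ :=
  Good.n0 L05150 (Good.n1 (Good.n0 L05151 (Good.n1 (Good.n2 g00741 (Good.n2 g00742 L05194)) L05195)) L05196)
theorem g00744 : Good (Phi V5.P V5.D 1 1) ⟨9, 445, 8, 150, 9, 304, 8, 126, 9, 224⟩ :=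
  Good.n4 (Good.n2 (Good.n3 L05213 (Good.n4 (Good.n2 (Good.n3 L05214 L05215) L05216) L05217)) L05218) L05219
theorem g00745 : Good (Phi V5.P V5.D 1 1) ⟨9, 445, 8, 150, 8, 152, 6, 31, 8, 112⟩ :=
  Good.n3 (Good.n4 (Good.n3 L05207 (Good.n4 (Good.n3 L05208 (Good.n2 L05209 L05210)) L05211)) L05212) (Good.n4 (Good.n2 (Good.n3 g00744 L05220) L05221) L05222)
theorem g00746 : Good (Phi V5.P V5.D 1 1) ⟨9, 445, 8, 150, 6, 38, 5, 15, 7, 56⟩ :=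
  Good.n2 (Good.n3 L05206 (Good.n4 (Good.n2 g00745 L05223) L05224)) (Good.n3 (Good.n4 (Good.n2 L05225 L05226) L05227) L05228)
theorem g00747 : Good (Phi V5.P V5.D 1 1) ⟨9, 445, 8, 150, 5, 19, 4, 7, 6, 28⟩ :=
  Good.n3 (Good.n4 (Good.n3 L05202 (Good.n2 L05203 L05204)) L05205) (Good.n2 (Good.n4 g00746 L05229) L05230)
theorem g00748 : Good (Phi V5.P V5.D 1 1) ⟨9, 445, 8, 150, 3, 4, 2, 1, 4, 7⟩ :=
  Good.n3 L05198 (Good.n4 (Good.n2 L05199 (Good.n3 L05200 (Good.n4 (Good.n2 L05201 g00747) L05231))) L05232)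
theorem g00749 : Good (Phi V5.P V5.D 1 1) ⟨9, 445, 8, 150, 4, 10, 2, 1, 4, 7⟩ :=
  Good.n4 (Good.n3 L05233 (Good.n2 (Good.n4 (Good.n3 (Good.n3 L05234 L05235) L05236) L05237) L05238)) L05239

end Crest.Agent.R097C5.N5pp
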